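import Vale.Agent.Lib.P154.Chain.D8.L

set_option linter.all false

namespace Vale.Agent.Lib.P154.Chain.D8.S0

noncomputable def pc0 : PT := (PT.nd (nat_lit 618050) (PT.nd (nat_lit 450824) (PT.nd (nat_lit 339340) (PT.nd (nat_lit 283598) (PT.nd (nat_lit 227950) (PT.nd (nat_lit 172302) PT.nil (PT.lf (nat_lit 84) (nat_lit 3) (nat_lit 1) (nat_lit 1) (nat_lit 54) (nat_lit 3) (nat_lit 54))) (PT.nd (nat_lit 94) (PT.lf (nat_lit 168) (nat_lit 6) (nat_lit 2) (nat_lit 3) (nat_lit 53) (nat_lit 4) (nat_lit 54)) (PT.lf (nat_lit 168) (nat_lit 6) (nat_lit 2) (nat_lit 1) (nat_lit 54) (nat_lit 4) (nat_lit 53)))) (PT.nd (nat_lit 94) (PT.lf (nat_lit 252) (nat_lit 6) (nat_lit 3) (nat_lit 3) (nat_lit 52) (nat_lit 5) (nat_lit 54)) (PT.nd (nat_lit 94) (PT.lf (nat_lit 336) (nat_lit 3) (nat_lit 4) (nat_lit 1) (nat_lit 53) (nat_lit 5) (nat_lit 53)) (PT.lf (nat_lit 252) (nat_lit 6) (nat_lit 3) (nat_lit 1) (nat_lit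 54) (nat_lit 5) (nat_lit 52))))) (PT.nd (nat_lit 55742) (PT.nd (nat_lit 94) (PT.lf (nat_lit 420) (nat_lit 6) (nat_lit 5) (nat_lit 3) (nat_lit 52) (nat_lit 6) (nat_lit 53)) (PT.nd (nat_lit 55554) (PT.lf (nat_lit 420) (nat_lit 6) (nat_lit 5) (nat_lit 1) (nat_lit 53) (nat_lit 6) (nat_lit 52)) (PT.lf (nat_lit 504) (nat_lit 6) (nat_lit 6) (nat_lit 3) (nat_lit 51) (nat_lit 7) (nat_lit 53)))) (PT.nd (nat_lit 55554) (PT.nd (nat_lit 94) (PT.lf (nat_lit 588) (nat_lit 3) (nat_lit 7) (nat_lit 1) (nat_lit 52) (nat_lit 7) (nat_lit 52)) (PT.lf (nat_lit 504) (nat_lit 6) (nat_lit 6) (nat_lit 1) (nat_lit 53) (nat_lit 7) (nat_lit 51))) (PT.nd (nat_lit 94) (PT.lf (nat_lit 672) (nat_lit 6) (nat_lit 8) (nat_lit 3) (nat_lit 50) (nat_lit 8) (nat_lit 53)) (PT.lf (nat_lit 756) (nat_lit 6) (nat_lit 9) (nat_lit 3) (nat_lit 51) (nat_lit 8) (nat_lit 52)))))) (PT.nd (nat_lit 111296) (PT.nd (nat_lit 55648) (PT.nd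 (nat_lit 94) (PT.lf (nat_lit 756) (nat_lit 6) (nat_lit 9) (nat_lit 1) (nat_lit 52) (nat_lit 8) (nat_lit 51)) (PT.nd (nat_lit 55460) (PT.lf (nat_lit 672) (nat_lit 6) (nat_lit 8) (nat_lit 1) (nat_lit 53) (nat_lit 8) (nat_lit 50)) (PT.lf (nat_lit 840) (nat_lit 6) (nat_lit 10) (nat_lit 3) (nat_lit 50) (nat_lit 9) (nat_lit 52)))) (PT.nd (nat_lit 94) (PT.lf (nat_lit 924) (nat_lit 3) (nat_lit 11) (nat_lit 1) (nat_lit 51) (nat_lit 9) (nat_lit 51)) (PT.nd (nat_lit 55460) (PT.lf (nat_lit 840) (nat_lit 6) (nat_lit 10) (nat_lit 1) (nat_lit 52) (nat_lit 9) (nat_lit 50)) (PT.lf (nat_lit 1008) (nat_lit 6) (nat_lit 12) (nat_lit 3) (nat_lit 49) (nat_lit 10) (nat_lit 52))))) (PT.nd (nat_lit 55554) (PT.nd (nat_lit 94) (PT.lf (nat_lit 1092) (nat_lit 6) (nat_lit 13) (nat_lit 3) (nat_lit 50) (nat_lit 10) (nat_lit 51)) (PT.nd (nat_lit 94) (PT.lf (nat_lit 1092) (nat_lit 6) (nat_lit 13) (nat_lit 1) (nat_lit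 51) (nat_lit 10) (nat_lit 50)) (PT.lf (nat_lit 1008) (nat_lit 6) (nat_lit 12) (nat_lit 1) (nat_lit 52) (nat_lit 10) (nat_lit 49)))) (PT.nd (nat_lit 188) (PT.nd (nat_lit 94) (PT.lf (nat_lit 1176) (nat_lit 6) (nat_lit 14) (nat_lit 3) (nat_lit 48) (nat_lit 11) (nat_lit 52)) (PT.lf (nat_lit 1260) (nat_lit 6) (nat_lit 15) (nat_lit 3) (nat_lit 49) (nat_lit 11) (nat_lit 51))) (PT.nd (nat_lit 94) (PT.lf (nat_lit 1344) (nat_lit 3) (nat_lit 16) (nat_lit 1) (nat_lit 50) (nat_lit 11) (nat_lit 50)) (PT.lf (nat_lit 1260) (nat_lit 6) (nat_lit 15) (nat_lit 1) (nat_lit 51) (nat_lit 11) (nat_lit 49))))))) (PT.nd (nat_lit 166944) (PT.nd (nat_lit 111108) (PT.nd (nat_lit 55554) (PT.nd (nat_lit 55366) (PT.lf (nat_lit 1176) (nat_lit 6) (nat_lit 14) (nat_lit 1) (nat_lit 52) (nat_lit 11) (nat_lit 48)) (PT.nd (nat_lit 94) (PT.lf (nat_lit 1428) (nat_lit 6) (nat_lit 17) (nat_lit 3) (nat_lit 48) (nat_lit 12)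 (nat_lit 51)) (PT.lf (nat_lit 1512) (nat_lit 6) (nat_lit 18) (nat_lit 3) (nat_lit 49) (nat_lit 12) (nat_lit 50)))) (PT.nd (nat_lit 94) (PT.lf (nat_lit 1512) (nat_lit 6) (nat_lit 18) (nat_lit 1) (nat_lit 50) (nat_lit 12) (nat_lit 49)) (PT.nd (nat_lit 55366) (PT.lf (nat_lit 1428) (nat_lit 6) (nat_lit 17) (nat_lit 1) (nat_lit 51) (nat_lit 12) (nat_lit 48)) (PT.lf (nat_lit 1596) (nat_lit 6) (nat_lit 19) (nat_lit 3) (nat_lit 47) (nat_lit 13) (nat_lit 51))))) (PT.nd (nat_lit 282) (PT.nd (nat_lit 94) (PT.lf (nat_lit 1680) (nat_lit 6) (nat_lit 20) (nat_lit 3) (nat_lit 48) (nat_lit 13) (nat_lit 50)) (PT.nd (nat_lit 94) (PT.lf (nat_lit 1764) (nat_lit 3) (nat_lit 21) (nat_lit 1) (nat_lit 49) (nat_lit 13) (nat_lit 49)) (PT.lf (nat_lit 1680) (nat_lit 6) (nat_lit 20) (nat_lit 1) (nat_lit 50) (nat_lit 13) (nat_lit 48)))) (PT.nd (nat_lit 55366) (PT.nd (nat_lit 55272) (PT.lf (nat_lit 1596) (nat_lit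 6) (nat_lit 19) (nat_lit 1) (nat_lit 51) (nat_lit 13) (nat_lit 47)) (PT.lf (nat_lit 1848) (nat_lit 6) (nat_lit 22) (nat_lit 3) (nat_lit 46) (nat_lit 14) (nat_lit 51))) (PT.nd (nat_lit 94) (PT.lf (nat_lit 1932) (nat_lit 6) (nat_lit 23) (nat_lit 3) (nat_lit 47) (nat_lit 14) (nat_lit 50)) (PT.lf (nat_lit 2016) (nat_lit 6) (nat_lit 24) (nat_lit 3) (nat_lit 48) (nat_lit 14) (nat_lit 49)))))) (PT.nd (nat_lit 55648) (PT.nd (nat_lit 55366) (PT.nd (nat_lit 94) (PT.lf (nat_lit 2016) (nat_lit 6) (nat_lit 24) (nat_lit 1) (nat_lit 49) (nat_lit 14) (nat_lit 48)) (PT.nd (nat_lit 94) (PT.lf (nat_lit 1932) (nat_lit 6) (nat_lit 23) (nat_lit 1) (nat_lit 50) (nat_lit 14) (nat_lit 47)) (PT.lf (nat_lit 1848) (nat_lit 6) (nat_lit 22) (nat_lit 1) (nat_lit 51) (nat_lit 14) (nat_lit 46)))) (PT.nd (nat_lit 94) (PT.lf (nat_lit 2100) (nat_lit 6) (nat_lit 25) (nat_lit 3) (nat_lit 45) (nat_lit 15) (nat_lit 51))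 (PT.nd (nat_lit 94) (PT.lf (nat_lit 2184) (nat_lit 6) (nat_lit 26) (nat_lit 3) (nat_lit 46) (nat_lit 15) (nat_lit 50)) (PT.lf (nat_lit 2268) (nat_lit 6) (nat_lit 27) (nat_lit 3) (nat_lit 47) (nat_lit 15) (nat_lit 49))))) (PT.nd (nat_lit 282) (PT.nd (nat_lit 94) (PT.lf (nat_lit 2352) (nat_lit 3) (nat_lit 28) (nat_lit 1) (nat_lit 48) (nat_lit 15) (nat_lit 48)) (PT.nd (nat_lit 94) (PT.lf (nat_lit 2268) (nat_lit 6) (nat_lit 27) (nat_lit 1) (nat_lit 49) (nat_lit 15) (nat_lit 47)) (PT.lf (nat_lit 2184) (nat_lit 6) (nat_lit 26) (nat_lit 1) (nat_lit 50) (nat_lit 15) (nat_lit 46)))) (PT.nd (nat_lit 55272) (PT.nd (nat_lit 55178) (PT.lf (nat_lit 2100) (nat_lit 6) (nat_lit 25) (nat_lit 1) (nat_lit 51) (nat_lit 15) (nat_lit 45)) (PT.lf (nat_lit 2436) (nat_lit 6) (nat_lit 29) (nat_lit 3) (nat_lit 45) (nat_lit 16) (nat_lit 50))) (PT.nd (nat_lit 94) (PT.lf (nat_lit 2520) (nat_lit 6) (nat_lit 30)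 (nat_lit 3) (nat_lit 46) (nat_lit 16) (nat_lit 49)) (PT.lf (nat_lit 2604) (nat_lit 6) (nat_lit 31) (nat_lit 3) (nat_lit 47) (nat_lit 16) (nat_lit 48))))))))
noncomputable def pc1 : PT := (PT.nd (nat_lit 167414) (PT.nd (nat_lit 111296) (PT.nd (nat_lit 55648) (PT.nd (nat_lit 55366) (PT.nd (nat_lit 94) (PT.lf (nat_lit 2604) (nat_lit 6) (nat_lit 31) (nat_lit 1) (nat_lit 48) (nat_lit 16) (nat_lit 47)) (PT.nd (nat_lit 94) (PT.lf (nat_lit 2520) (nat_lit 6) (nat_lit 30) (nat_lit 1) (nat_lit 49) (nat_lit 16) (nat_lit 46)) (PT.lf (nat_lit 2436) (nat_lit 6) (nat_lit 29) (nat_lit 1) (nat_lit 50) (nat_lit 16) (nat_lit 45)))) (PT.nd (nat_lit 94) (PT.lf (nat_lit 2688) (nat_lit 6) (nat_lit 32) (nat_lit 3) (nat_lit 44) (nat_lit 17) (nat_lit 50)) (PT.nd (nat_lit 94) (PT.lf (nat_lit 2772) (nat_lit 6) (nat_lit 33) (nat_lit 3) (nat_lit 45) (nat_lit 17) (nat_lit 49)) (PT.lf (nat_lit 2856) (nat_lit 6)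 (nat_lit 34) (nat_lit 3) (nat_lit 46) (nat_lit 17) (nat_lit 48))))) (PT.nd (nat_lit 282) (PT.nd (nat_lit 94) (PT.lf (nat_lit 2940) (nat_lit 3) (nat_lit 35) (nat_lit 1) (nat_lit 47) (nat_lit 17) (nat_lit 47)) (PT.nd (nat_lit 94) (PT.lf (nat_lit 2856) (nat_lit 6) (nat_lit 34) (nat_lit 1) (nat_lit 48) (nat_lit 17) (nat_lit 46)) (PT.lf (nat_lit 2772) (nat_lit 6) (nat_lit 33) (nat_lit 1) (nat_lit 49) (nat_lit 17) (nat_lit 45)))) (PT.nd (nat_lit 55178) (PT.nd (nat_lit 55084) (PT.lf (nat_lit 2688) (nat_lit 6) (nat_lit 32) (nat_lit 1) (nat_lit 50) (nat_lit 17) (nat_lit 44)) (PT.lf (nat_lit 3024) (nat_lit 6) (nat_lit 36) (nat_lit 3) (nat_lit 43) (nat_lit 18) (nat_lit 50))) (PT.nd (nat_lit 94) (PT.lf (nat_lit 3108) (nat_lit 6) (nat_lit 37) (nat_lit 3) (nat_lit 44) (nat_lit 18) (nat_lit 49)) (PT.lf (nat_lit 3192) (nat_lit 6) (nat_lit 38) (nat_lit 3) (nat_lit 45) (nat_lit 18) (nat_lit 48))))))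 (PT.nd (nat_lit 55460) (PT.nd (nat_lit 282) (PT.nd (nat_lit 94) (PT.lf (nat_lit 3276) (nat_lit 6) (nat_lit 39) (nat_lit 3) (nat_lit 46) (nat_lit 18) (nat_lit 47)) (PT.nd (nat_lit 94) (PT.lf (nat_lit 3276) (nat_lit 6) (nat_lit 39) (nat_lit 1) (nat_lit 47) (nat_lit 18) (nat_lit 46)) (PT.lf (nat_lit 3192) (nat_lit 6) (nat_lit 38) (nat_lit 1) (nat_lit 48) (nat_lit 18) (nat_lit 45)))) (PT.nd (nat_lit 94) (PT.lf (nat_lit 3108) (nat_lit 6) (nat_lit 37) (nat_lit 1) (nat_lit 49) (nat_lit 18) (nat_lit 44)) (PT.nd (nat_lit 54990) (PT.lf (nat_lit 3024) (nat_lit 6) (nat_lit 36) (nat_lit 1) (nat_lit 50) (nat_lit 18) (nat_lit 43)) (PT.lf (nat_lit 3360) (nat_lit 6) (nat_lit 40) (nat_lit 3) (nat_lit 42) (nat_lit 19) (nat_lit 50))))) (PT.nd (nat_lit 282) (PT.nd (nat_lit 94) (PT.lf (nat_lit 3444) (nat_lit 6) (nat_lit 41) (nat_lit 3) (nat_lit 43) (nat_lit 19) (nat_lit 49)) (PT.nd (nat_lit 94) (PT.lf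 (nat_lit 3528) (nat_lit 6) (nat_lit 42) (nat_lit 3) (nat_lit 44) (nat_lit 19) (nat_lit 48)) (PT.lf (nat_lit 3612) (nat_lit 6) (nat_lit 43) (nat_lit 3) (nat_lit 45) (nat_lit 19) (nat_lit 47)))) (PT.nd (nat_lit 188) (PT.nd (nat_lit 94) (PT.lf (nat_lit 3696) (nat_lit 3) (nat_lit 44) (nat_lit 1) (nat_lit 46) (nat_lit 19) (nat_lit 46)) (PT.lf (nat_lit 3612) (nat_lit 6) (nat_lit 43) (nat_lit 1) (nat_lit 47) (nat_lit 19) (nat_lit 45))) (PT.nd (nat_lit 94) (PT.lf (nat_lit 3528) (nat_lit 6) (nat_lit 42) (nat_lit 1) (nat_lit 48) (nat_lit 19) (nat_lit 44)) (PT.lf (nat_lit 3444) (nat_lit 6) (nat_lit 41) (nat_lit 1) (nat_lit 49) (nat_lit 19) (nat_lit 43))))))) (PT.nd (nat_lit 110826) (PT.nd (nat_lit 55366) (PT.nd (nat_lit 55084) (PT.nd (nat_lit 54896) (PT.lf (nat_lit 3360) (nat_lit 6) (nat_lit 40) (nat_lit 1) (nat_lit 50) (nat_lit 19) (nat_lit 42)) (PT.nd (nat_lit 94) (PT.lf (nat_lit 3780) (nat_lit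 6) (nat_lit 45) (nat_lit 3) (nat_lit 41) (nat_lit 20) (nat_lit 50)) (PT.lf (nat_lit 3864) (nat_lit 6) (nat_lit 46) (nat_lit 3) (nat_lit 42) (nat_lit 20) (nat_lit 49)))) (PT.nd (nat_lit 94) (PT.lf (nat_lit 3948) (nat_lit 6) (nat_lit 47) (nat_lit 3) (nat_lit 43) (nat_lit 20) (nat_lit 48)) (PT.nd (nat_lit 94) (PT.lf (nat_lit 4032) (nat_lit 6) (nat_lit 48) (nat_lit 3) (nat_lit 44) (nat_lit 20) (nat_lit 47)) (PT.lf (nat_lit 4116) (nat_lit 6) (nat_lit 49) (nat_lit 3) (nat_lit 45) (nat_lit 20) (nat_lit 46))))) (PT.nd (nat_lit 282) (PT.nd (nat_lit 94) (PT.lf (nat_lit 4116) (nat_lit 6) (nat_lit 49) (nat_lit 1) (nat_lit 46) (nat_lit 20) (nat_lit 45)) (PT.nd (nat_lit 94) (PT.lf (nat_lit 4032) (nat_lit 6) (nat_lit 48) (nat_lit 1) (nat_lit 47) (nat_lit 20) (nat_lit 44)) (PT.lf (nat_lit 3948) (nat_lit 6) (nat_lit 47) (nat_lit 1) (nat_lit 48) (nat_lit 20) (nat_lit 43)))) (PT.nd (nat_lit 54990)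 (PT.nd (nat_lit 94) (PT.lf (nat_lit 3864) (nat_lit 6) (nat_lit 46) (nat_lit 1) (nat_lit 49) (nat_lit 20) (nat_lit 42)) (PT.lf (nat_lit 3780) (nat_lit 6) (nat_lit 45) (nat_lit 1) (nat_lit 50) (nat_lit 20) (nat_lit 41))) (PT.nd (nat_lit 94) (PT.lf (nat_lit 4200) (nat_lit 6) (nat_lit 50) (nat_lit 3) (nat_lit 41) (nat_lit 21) (nat_lit 49)) (PT.lf (nat_lit 4284) (nat_lit 6) (nat_lit 51) (nat_lit 3) (nat_lit 42) (nat_lit 21) (nat_lit 48)))))) (PT.nd (nat_lit 55460) (PT.nd (nat_lit 282) (PT.nd (nat_lit 94) (PT.lf (nat_lit 4368) (nat_lit 6) (nat_lit 52) (nat_lit 3) (nat_lit 43) (nat_lit 21) (nat_lit 47)) (PT.nd (nat_lit 94) (PT.lf (nat_lit 4452) (nat_lit 6) (nat_lit 53) (nat_lit 3) (nat_lit 44) (nat_lit 21) (nat_lit 46)) (PT.lf (nat_lit 4536) (nat_lit 3) (nat_lit 54) (nat_lit 1) (nat_lit 45) (nat_lit 21) (nat_lit 45)))) (PT.nd (nat_lit 188) (PT.nd (nat_lit 94) (PT.lf (nat_lit 4452) (nat_lit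 6) (nat_lit 53) (nat_lit 1) (nat_lit 46) (nat_lit 21) (nat_lit 44)) (PT.lf (nat_lit 4368) (nat_lit 6) (nat_lit 52) (nat_lit 1) (nat_lit 47) (nat_lit 21) (nat_lit 43))) (PT.nd (nat_lit 94) (PT.lf (nat_lit 4284) (nat_lit 6) (nat_lit 51) (nat_lit 1) (nat_lit 48) (nat_lit 21) (nat_lit 42)) (PT.lf (nat_lit 4200) (nat_lit 6) (nat_lit 50) (nat_lit 1) (nat_lit 49) (nat_lit 21) (nat_lit 41))))) (PT.nd (nat_lit 282) (PT.nd (nat_lit 94) (PT.lf (nat_lit 4620) (nat_lit 6) (nat_lit 55) (nat_lit 3) (nat_lit 40) (nat_lit 22) (nat_lit 49)) (PT.nd (nat_lit 94) (PT.lf (nat_lit 4704) (nat_lit 6) (nat_lit 56) (nat_lit 3) (nat_lit 41) (nat_lit 22) (nat_lit 48)) (PT.lf (nat_lit 4788) (nat_lit 6) (nat_lit 57) (nat_lit 3) (nat_lit 42) (nat_lit 22) (nat_lit 47)))) (PT.nd (nat_lit 188) (PT.nd (nat_lit 94) (PT.lf (nat_lit 4872) (nat_lit 6) (nat_lit 58) (nat_lit 3) (nat_lit 43) (nat_lit 22) (nat_lit 46)) (PT.lf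 (nat_lit 4956) (nat_lit 6) (nat_lit 59) (nat_lit 3) (nat_lit 44) (nat_lit 22) (nat_lit 45))) (PT.nd (nat_lit 94) (PT.lf (nat_lit 4956) (nat_lit 6) (nat_lit 59) (nat_lit 1) (nat_lit 45) (nat_lit 22) (nat_lit 44)) (PT.lf (nat_lit 4872) (nat_lit 6) (nat_lit 58) (nat_lit 1) (nat_lit 46) (nat_lit 22) (nat_lit 43))))))))
noncomputable def pc2 : PT := (PT.nd (nat_lit 166286) (PT.nd (nat_lit 55930) (PT.nd (nat_lit 55272) (PT.nd (nat_lit 54990) (PT.nd (nat_lit 94) (PT.lf (nat_lit 4788) (nat_lit 6) (nat_lit 57) (nat_lit 1) (nat_lit 47) (nat_lit 22) (nat_lit 42)) (PT.nd (nat_lit 94) (PT.lf (nat_lit 4704) (nat_lit 6) (nat_lit 56) (nat_lit 1) (nat_lit 48) (nat_lit 22) (nat_lit 41)) (PT.lf (nat_lit 4620) (nat_lit 6) (nat_lit 55) (nat_lit 1) (nat_lit 49) (nat_lit 22) (nat_lit 40)))) (PT.nd (nat_lit 94) (PT.lf (nat_lit 5040) (nat_lit 6) (nat_lit 60) (nat_lit 3) (nat_lit 39) (nat_lit 23) (nat_lit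 49)) (PT.nd (nat_lit 94) (PT.lf (nat_lit 5124) (nat_lit 6) (nat_lit 61) (nat_lit 3) (nat_lit 40) (nat_lit 23) (nat_lit 48)) (PT.lf (nat_lit 5208) (nat_lit 6) (nat_lit 62) (nat_lit 3) (nat_lit 41) (nat_lit 23) (nat_lit 47))))) (PT.nd (nat_lit 282) (PT.nd (nat_lit 94) (PT.lf (nat_lit 5292) (nat_lit 6) (nat_lit 63) (nat_lit 3) (nat_lit 42) (nat_lit 23) (nat_lit 46)) (PT.nd (nat_lit 94) (PT.lf (nat_lit 5376) (nat_lit 6) (nat_lit 64) (nat_lit 3) (nat_lit 43) (nat_lit 23) (nat_lit 45)) (PT.lf (nat_lit 5460) (nat_lit 3) (nat_lit 65) (nat_lit 1) (nat_lit 44) (nat_lit 23) (nat_lit 44)))) (PT.nd (nat_lit 188) (PT.nd (nat_lit 94) (PT.lf (nat_lit 5376) (nat_lit 6) (nat_lit 64) (nat_lit 1) (nat_lit 45) (nat_lit 23) (nat_lit 43)) (PT.lf (nat_lit 5292) (nat_lit 6) (nat_lit 63) (nat_lit 1) (nat_lit 46) (nat_lit 23) (nat_lit 42))) (PT.nd (nat_lit 94) (PT.lf (nat_lit 5208) (nat_lit 6) (nat_lit 62)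 (nat_lit 1) (nat_lit 47) (nat_lit 23) (nat_lit 41)) (PT.lf (nat_lit 5124) (nat_lit 6) (nat_lit 61) (nat_lit 1) (nat_lit 48) (nat_lit 23) (nat_lit 40)))))) (PT.nd (nat_lit 55178) (PT.nd (nat_lit 54896) (PT.nd (nat_lit 54708) (PT.lf (nat_lit 5040) (nat_lit 6) (nat_lit 60) (nat_lit 1) (nat_lit 49) (nat_lit 23) (nat_lit 39)) (PT.nd (nat_lit 94) (PT.lf (nat_lit 5544) (nat_lit 6) (nat_lit 66) (nat_lit 3) (nat_lit 38) (nat_lit 24) (nat_lit 49)) (PT.lf (nat_lit 5628) (nat_lit 6) (nat_lit 67) (nat_lit 3) (nat_lit 39) (nat_lit 24) (nat_lit 48)))) (PT.nd (nat_lit 94) (PT.lf (nat_lit 5712) (nat_lit 6) (nat_lit 68) (nat_lit 3) (nat_lit 40) (nat_lit 24) (nat_lit 47)) (PT.nd (nat_lit 94) (PT.lf (nat_lit 5796) (nat_lit 6) (nat_lit 69) (nat_lit 3) (nat_lit 41) (nat_lit 24) (nat_lit 46)) (PT.lf (nat_lit 5880) (nat_lit 6) (nat_lit 70) (nat_lit 3) (nat_lit 42) (nat_lit 24) (nat_lit 45))))) (PT.nd (nat_lit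 282) (PT.nd (nat_lit 94) (PT.lf (nat_lit 5964) (nat_lit 6) (nat_lit 71) (nat_lit 3) (nat_lit 43) (nat_lit 24) (nat_lit 44)) (PT.nd (nat_lit 94) (PT.lf (nat_lit 5964) (nat_lit 6) (nat_lit 71) (nat_lit 1) (nat_lit 44) (nat_lit 24) (nat_lit 43)) (PT.lf (nat_lit 5880) (nat_lit 6) (nat_lit 70) (nat_lit 1) (nat_lit 45) (nat_lit 24) (nat_lit 42)))) (PT.nd (nat_lit 188) (PT.nd (nat_lit 94) (PT.lf (nat_lit 5796) (nat_lit 6) (nat_lit 69) (nat_lit 1) (nat_lit 46) (nat_lit 24) (nat_lit 41)) (PT.lf (nat_lit 5712) (nat_lit 6) (nat_lit 68) (nat_lit 1) (nat_lit 47) (nat_lit 24) (nat_lit 40))) (PT.nd (nat_lit 94) (PT.lf (nat_lit 5628) (nat_lit 6) (nat_lit 67) (nat_lit 1) (nat_lit 48) (nat_lit 24) (nat_lit 39)) (PT.lf (nat_lit 5544) (nat_lit 6) (nat_lit 66) (nat_lit 1) (nat_lit 49) (nat_lit 24) (nat_lit 38))))))) (PT.nd (nat_lit 55648) (PT.nd (nat_lit 564) (PT.nd (nat_lit 282) (PT.nd (nat_lit 94)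 (PT.lf (nat_lit 6216) (nat_lit 6) (nat_lit 74) (nat_lit 3) (nat_lit 37) (nat_lit 25) (nat_lit 49)) (PT.nd (nat_lit 94) (PT.lf (nat_lit 6300) (nat_lit 6) (nat_lit 75) (nat_lit 3) (nat_lit 38) (nat_lit 25) (nat_lit 48)) (PT.lf (nat_lit 6384) (nat_lit 6) (nat_lit 76) (nat_lit 3) (nat_lit 39) (nat_lit 25) (nat_lit 47)))) (PT.nd (nat_lit 94) (PT.lf (nat_lit 6468) (nat_lit 6) (nat_lit 77) (nat_lit 3) (nat_lit 40) (nat_lit 25) (nat_lit 46)) (PT.nd (nat_lit 94) (PT.lf (nat_lit 6552) (nat_lit 6) (nat_lit 78) (nat_lit 3) (nat_lit 41) (nat_lit 25) (nat_lit 45)) (PT.lf (nat_lit 6636) (nat_lit 6) (nat_lit 79) (nat_lit 3) (nat_lit 42) (nat_lit 25) (nat_lit 44))))) (PT.nd (nat_lit 282) (PT.nd (nat_lit 94) (PT.lf (nat_lit 6720) (nat_lit 3) (nat_lit 80) (nat_lit 1) (nat_lit 43) (nat_lit 25) (nat_lit 43)) (PT.nd (nat_lit 94) (PT.lf (nat_lit 6636) (nat_lit 6) (nat_lit 79) (nat_lit 1) (nat_lit 44) (nat_lit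 25) (nat_lit 42)) (PT.lf (nat_lit 6552) (nat_lit 6) (nat_lit 78) (nat_lit 1) (nat_lit 45) (nat_lit 25) (nat_lit 41)))) (PT.nd (nat_lit 188) (PT.nd (nat_lit 94) (PT.lf (nat_lit 6468) (nat_lit 6) (nat_lit 77) (nat_lit 1) (nat_lit 46) (nat_lit 25) (nat_lit 40)) (PT.lf (nat_lit 6384) (nat_lit 6) (nat_lit 76) (nat_lit 1) (nat_lit 47) (nat_lit 25) (nat_lit 39))) (PT.nd (nat_lit 94) (PT.lf (nat_lit 6300) (nat_lit 6) (nat_lit 75) (nat_lit 1) (nat_lit 48) (nat_lit 25) (nat_lit 38)) (PT.lf (nat_lit 6216) (nat_lit 6) (nat_lit 74) (nat_lit 1) (nat_lit 49) (nat_lit 25) (nat_lit 37)))))) (PT.nd (nat_lit 564) (PT.nd (nat_lit 282) (PT.nd (nat_lit 94) (PT.lf (nat_lit 6132) (nat_lit 6) (nat_lit 73) (nat_lit 3) (nat_lit 36) (nat_lit 26) (nat_lit 49)) (PT.nd (nat_lit 94) (PT.lf (nat_lit 7224) (nat_lit 6) (nat_lit 86) (nat_lit 3) (nat_lit 37) (nat_lit 26) (nat_lit 48)) (PT.lf (nat_lit 7308) (nat_lit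 6) (nat_lit 87) (nat_lit 3) (nat_lit 38) (nat_lit 26) (nat_lit 47)))) (PT.nd (nat_lit 94) (PT.lf (nat_lit 7392) (nat_lit 6) (nat_lit 88) (nat_lit 3) (nat_lit 39) (nat_lit 26) (nat_lit 46)) (PT.nd (nat_lit 94) (PT.lf (nat_lit 7476) (nat_lit 6) (nat_lit 89) (nat_lit 3) (nat_lit 40) (nat_lit 26) (nat_lit 45)) (PT.lf (nat_lit 7560) (nat_lit 6) (nat_lit 90) (nat_lit 3) (nat_lit 41) (nat_lit 26) (nat_lit 44))))) (PT.nd (nat_lit 282) (PT.nd (nat_lit 94) (PT.lf (nat_lit 7644) (nat_lit 6) (nat_lit 91) (nat_lit 3) (nat_lit 42) (nat_lit 26) (nat_lit 43)) (PT.nd (nat_lit 94) (PT.lf (nat_lit 7644) (nat_lit 6) (nat_lit 91) (nat_lit 1) (nat_lit 43) (nat_lit 26) (nat_lit 42)) (PT.lf (nat_lit 7560) (nat_lit 6) (nat_lit 90) (nat_lit 1) (nat_lit 44) (nat_lit 26) (nat_lit 41)))) (PT.nd (nat_lit 188) (PT.nd (nat_lit 94) (PT.lf (nat_lit 7476) (nat_lit 6) (nat_lit 89) (nat_lit 1) (nat_lit 45) (nat_lit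 26) (nat_lit 40)) (PT.lf (nat_lit 7392) (nat_lit 6) (nat_lit 88) (nat_lit 1) (nat_lit 46) (nat_lit 26) (nat_lit 39))) (PT.nd (nat_lit 94) (PT.lf (nat_lit 7308) (nat_lit 6) (nat_lit 87) (nat_lit 1) (nat_lit 47) (nat_lit 26) (nat_lit 38)) (PT.lf (nat_lit 7224) (nat_lit 6) (nat_lit 86) (nat_lit 1) (nat_lit 48) (nat_lit 26) (nat_lit 37))))))))
noncomputable def pc3 : PT := (PT.nd (nat_lit 111108) (PT.nd (nat_lit 55554) (PT.nd (nat_lit 54896) (PT.nd (nat_lit 54614) (PT.nd (nat_lit 54426) (PT.lf (nat_lit 6132) (nat_lit 6) (nat_lit 73) (nat_lit 1) (nat_lit 49) (nat_lit 26) (nat_lit 36)) (PT.nd (nat_lit 94) (PT.lf (nat_lit 6048) (nat_lit 6) (nat_lit 72) (nat_lit 3) (nat_lit 35) (nat_lit 27) (nat_lit 49)) (PT.lf (nat_lit 7140) (nat_lit 6) (nat_lit 85) (nat_lit 3) (nat_lit 36) (nat_lit 27) (nat_lit 48)))) (PT.nd (nat_lit 94) (PT.lf (nat_lit 8148) (nat_lit 6) (nat_lit 97) (nat_lit 3) (nat_lit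 37) (nat_lit 27) (nat_lit 47)) (PT.nd (nat_lit 94) (PT.lf (nat_lit 8232) (nat_lit 6) (nat_lit 98) (nat_lit 3) (nat_lit 38) (nat_lit 27) (nat_lit 46)) (PT.lf (nat_lit 8316) (nat_lit 6) (nat_lit 99) (nat_lit 3) (nat_lit 39) (nat_lit 27) (nat_lit 45))))) (PT.nd (nat_lit 282) (PT.nd (nat_lit 94) (PT.lf (nat_lit 8400) (nat_lit 6) (nat_lit 100) (nat_lit 3) (nat_lit 40) (nat_lit 27) (nat_lit 44)) (PT.nd (nat_lit 94) (PT.lf (nat_lit 8484) (nat_lit 6) (nat_lit 101) (nat_lit 3) (nat_lit 41) (nat_lit 27) (nat_lit 43)) (PT.lf (nat_lit 8568) (nat_lit 3) (nat_lit 102) (nat_lit 1) (nat_lit 42) (nat_lit 27) (nat_lit 42)))) (PT.nd (nat_lit 188) (PT.nd (nat_lit 94) (PT.lf (nat_lit 8484) (nat_lit 6) (nat_lit 101) (nat_lit 1) (nat_lit 43) (nat_lit 27) (nat_lit 41)) (PT.lf (nat_lit 8400) (nat_lit 6) (nat_lit 100) (nat_lit 1) (nat_lit 44) (nat_lit 27) (nat_lit 40))) (PT.nd (nat_lit 94) (PT.lf (nat_lit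 8316) (nat_lit 6) (nat_lit 99) (nat_lit 1) (nat_lit 45) (nat_lit 27) (nat_lit 39)) (PT.lf (nat_lit 8232) (nat_lit 6) (nat_lit 98) (nat_lit 1) (nat_lit 46) (nat_lit 27) (nat_lit 38)))))) (PT.nd (nat_lit 54896) (PT.nd (nat_lit 54614) (PT.nd (nat_lit 94) (PT.lf (nat_lit 8148) (nat_lit 6) (nat_lit 97) (nat_lit 1) (nat_lit 47) (nat_lit 27) (nat_lit 37)) (PT.nd (nat_lit 94) (PT.lf (nat_lit 7140) (nat_lit 6) (nat_lit 85) (nat_lit 1) (nat_lit 48) (nat_lit 27) (nat_lit 36)) (PT.lf (nat_lit 6048) (nat_lit 6) (nat_lit 72) (nat_lit 1) (nat_lit 49) (nat_lit 27) (nat_lit 35)))) (PT.nd (nat_lit 94) (PT.lf (nat_lit 7056) (nat_lit 6) (nat_lit 84) (nat_lit 3) (nat_lit 35) (nat_lit 28) (nat_lit 48)) (PT.nd (nat_lit 94) (PT.lf (nat_lit 8064) (nat_lit 6) (nat_lit 96) (nat_lit 3) (nat_lit 36) (nat_lit 28) (nat_lit 47)) (PT.lf (nat_lit 8988) (nat_lit 6) (nat_lit 107) (nat_lit 3) (nat_lit 37) (nat_lit 28)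 (nat_lit 46))))) (PT.nd (nat_lit 282) (PT.nd (nat_lit 94) (PT.lf (nat_lit 9072) (nat_lit 6) (nat_lit 108) (nat_lit 3) (nat_lit 38) (nat_lit 28) (nat_lit 45)) (PT.nd (nat_lit 94) (PT.lf (nat_lit 9156) (nat_lit 6) (nat_lit 109) (nat_lit 3) (nat_lit 39) (nat_lit 28) (nat_lit 44)) (PT.lf (nat_lit 9240) (nat_lit 6) (nat_lit 110) (nat_lit 3) (nat_lit 40) (nat_lit 28) (nat_lit 43)))) (PT.nd (nat_lit 188) (PT.nd (nat_lit 94) (PT.lf (nat_lit 9324) (nat_lit 6) (nat_lit 111) (nat_lit 3) (nat_lit 41) (nat_lit 28) (nat_lit 42)) (PT.lf (nat_lit 9324) (nat_lit 6) (nat_lit 111) (nat_lit 1) (nat_lit 42) (nat_lit 28) (nat_lit 41))) (PT.nd (nat_lit 94) (PT.lf (nat_lit 9240) (nat_lit 6) (nat_lit 110) (nat_lit 1) (nat_lit 43) (nat_lit 28) (nat_lit 40)) (PT.lf (nat_lit 9156) (nat_lit 6) (nat_lit 109) (nat_lit 1) (nat_lit 44) (nat_lit 28) (nat_lit 39))))))) (PT.nd (nat_lit 55554) (PT.nd (nat_lit 54896)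 (PT.nd (nat_lit 282) (PT.nd (nat_lit 94) (PT.lf (nat_lit 9072) (nat_lit 6) (nat_lit 108) (nat_lit 1) (nat_lit 45) (nat_lit 28) (nat_lit 38)) (PT.nd (nat_lit 94) (PT.lf (nat_lit 8988) (nat_lit 6) (nat_lit 107) (nat_lit 1) (nat_lit 46) (nat_lit 28) (nat_lit 37)) (PT.lf (nat_lit 8064) (nat_lit 6) (nat_lit 96) (nat_lit 1) (nat_lit 47) (nat_lit 28) (nat_lit 36)))) (PT.nd (nat_lit 54426) (PT.lf (nat_lit 7056) (nat_lit 6) (nat_lit 84) (nat_lit 1) (nat_lit 48) (nat_lit 28) (nat_lit 35)) (PT.nd (nat_lit 94) (PT.lf (nat_lit 6972) (nat_lit 6) (nat_lit 83) (nat_lit 3) (nat_lit 34) (nat_lit 29) (nat_lit 48)) (PT.lf (nat_lit 7980) (nat_lit 6) (nat_lit 95) (nat_lit 3) (nat_lit 35) (nat_lit 29) (nat_lit 47))))) (PT.nd (nat_lit 282) (PT.nd (nat_lit 94) (PT.lf (nat_lit 8904) (nat_lit 6) (nat_lit 106) (nat_lit 3) (nat_lit 36) (nat_lit 29) (nat_lit 46)) (PT.nd (nat_lit 94) (PT.lf (nat_lit 9744) (nat_lit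 6) (nat_lit 116) (nat_lit 3) (nat_lit 37) (nat_lit 29) (nat_lit 45)) (PT.lf (nat_lit 9828) (nat_lit 6) (nat_lit 117) (nat_lit 3) (nat_lit 38) (nat_lit 29) (nat_lit 44)))) (PT.nd (nat_lit 188) (PT.nd (nat_lit 94) (PT.lf (nat_lit 9912) (nat_lit 6) (nat_lit 118) (nat_lit 3) (nat_lit 39) (nat_lit 29) (nat_lit 43)) (PT.lf (nat_lit 9996) (nat_lit 6) (nat_lit 119) (nat_lit 3) (nat_lit 40) (nat_lit 29) (nat_lit 42))) (PT.nd (nat_lit 94) (PT.lf (nat_lit 10080) (nat_lit 3) (nat_lit 120) (nat_lit 1) (nat_lit 41) (nat_lit 29) (nat_lit 41)) (PT.lf (nat_lit 9996) (nat_lit 6) (nat_lit 119) (nat_lit 1) (nat_lit 42) (nat_lit 29) (nat_lit 40)))))) (PT.nd (nat_lit 54896) (PT.nd (nat_lit 282) (PT.nd (nat_lit 94) (PT.lf (nat_lit 9912) (nat_lit 6) (nat_lit 118) (nat_lit 1) (nat_lit 43) (nat_lit 29) (nat_lit 39)) (PT.nd (nat_lit 94) (PT.lf (nat_lit 9828) (nat_lit 6) (nat_lit 117) (nat_lit 1) (nat_lit 44)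 (nat_lit 29) (nat_lit 38)) (PT.lf (nat_lit 9744) (nat_lit 6) (nat_lit 116) (nat_lit 1) (nat_lit 45) (nat_lit 29) (nat_lit 37)))) (PT.nd (nat_lit 188) (PT.nd (nat_lit 94) (PT.lf (nat_lit 8904) (nat_lit 6) (nat_lit 106) (nat_lit 1) (nat_lit 46) (nat_lit 29) (nat_lit 36)) (PT.lf (nat_lit 7980) (nat_lit 6) (nat_lit 95) (nat_lit 1) (nat_lit 47) (nat_lit 29) (nat_lit 35))) (PT.nd (nat_lit 54332) (PT.lf (nat_lit 6972) (nat_lit 6) (nat_lit 83) (nat_lit 1) (nat_lit 48) (nat_lit 29) (nat_lit 34)) (PT.lf (nat_lit 6888) (nat_lit 6) (nat_lit 82) (nat_lit 3) (nat_lit 33) (nat_lit 30) (nat_lit 48))))) (PT.nd (nat_lit 282) (PT.nd (nat_lit 94) (PT.lf (nat_lit 7896) (nat_lit 6) (nat_lit 94) (nat_lit 3) (nat_lit 34) (nat_lit 30) (nat_lit 47)) (PT.nd (nat_lit 94) (PT.lf (nat_lit 8820) (nat_lit 6) (nat_lit 105) (nat_lit 3) (nat_lit 35) (nat_lit 30) (nat_lit 46)) (PT.lf (nat_lit 9660) (nat_lit 6) (nat_lit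 115) (nat_lit 3) (nat_lit 36) (nat_lit 30) (nat_lit 45)))) (PT.nd (nat_lit 188) (PT.nd (nat_lit 94) (PT.lf (nat_lit 10416) (nat_lit 6) (nat_lit 124) (nat_lit 3) (nat_lit 37) (nat_lit 30) (nat_lit 44)) (PT.lf (nat_lit 10500) (nat_lit 6) (nat_lit 125) (nat_lit 3) (nat_lit 38) (nat_lit 30) (nat_lit 43))) (PT.nd (nat_lit 94) (PT.lf (nat_lit 10584) (nat_lit 6) (nat_lit 126) (nat_lit 3) (nat_lit 39) (nat_lit 30) (nat_lit 42)) (PT.lf (nat_lit 10668) (nat_lit 6) (nat_lit 127) (nat_lit 3) (nat_lit 40) (nat_lit 30) (nat_lit 41))))))))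
noncomputable def pc4 : PT := (PT.nd (nat_lit 110638) (PT.nd (nat_lit 55366) (PT.nd (nat_lit 564) (PT.nd (nat_lit 282) (PT.nd (nat_lit 94) (PT.lf (nat_lit 10668) (nat_lit 6) (nat_lit 127) (nat_lit 1) (nat_lit 41) (nat_lit 30) (nat_lit 40)) (PT.nd (nat_lit 94) (PT.lf (nat_lit 10584) (nat_lit 6) (nat_lit 126) (nat_lit 1) (nat_lit 42) (nat_lit 30) (nat_lit 39)) (PT.lf (nat_lit 10500) (nat_lit 6) (nat_lit 125) (nat_lit 1) (nat_lit 43) (nat_lit 30) (nat_lit 38)))) (PT.nd (nat_lit 94) (PT.lf (nat_lit 10416) (nat_lit 6) (nat_lit 124) (nat_lit 1) (nat_lit 44) (nat_lit 30) (nat_lit 37)) (PT.nd (nat_lit 94) (PT.lf (nat_lit 9660) (nat_lit 6) (nat_lit 115) (nat_lit 1) (nat_lit 45) (nat_lit 30) (nat_lit 36)) (PT.lf (nat_lit 8820) (nat_lit 6) (nat_lit 105) (nat_lit 1) (nat_lit 46) (nat_lit 30) (nat_lit 35))))) (PT.nd (nat_lit 54426) (PT.nd (nat_lit 94) (PT.lf (nat_lit 7896) (nat_lit 6) (nat_lit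 94) (nat_lit 1) (nat_lit 47) (nat_lit 30) (nat_lit 34)) (PT.nd (nat_lit 54238) (PT.lf (nat_lit 6888) (nat_lit 6) (nat_lit 82) (nat_lit 1) (nat_lit 48) (nat_lit 30) (nat_lit 33)) (PT.lf (nat_lit 6804) (nat_lit 6) (nat_lit 81) (nat_lit 3) (nat_lit 32) (nat_lit 31) (nat_lit 48)))) (PT.nd (nat_lit 188) (PT.nd (nat_lit 94) (PT.lf (nat_lit 7812) (nat_lit 6) (nat_lit 93) (nat_lit 3) (nat_lit 33) (nat_lit 31) (nat_lit 47)) (PT.lf (nat_lit 8736) (nat_lit 6) (nat_lit 104) (nat_lit 3) (nat_lit 34) (nat_lit 31) (nat_lit 46))) (PT.nd (nat_lit 94) (PT.lf (nat_lit 9576) (nat_lit 6) (nat_lit 114) (nat_lit 3) (nat_lit 35) (nat_lit 31) (nat_lit 45)) (PT.lf (nat_lit 10332) (nat_lit 6) (nat_lit 123) (nat_lit 3) (nat_lit 36) (nat_lit 31) (nat_lit 44)))))) (PT.nd (nat_lit 564) (PT.nd (nat_lit 282) (PT.nd (nat_lit 94) (PT.lf (nat_lit 11004) (nat_lit 6) (nat_lit 131) (nat_lit 3) (nat_lit 37) (nat_lit 31)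 (nat_lit 43)) (PT.nd (nat_lit 94) (PT.lf (nat_lit 11088) (nat_lit 6) (nat_lit 132) (nat_lit 3) (nat_lit 38) (nat_lit 31) (nat_lit 42)) (PT.lf (nat_lit 11172) (nat_lit 6) (nat_lit 133) (nat_lit 3) (nat_lit 39) (nat_lit 31) (nat_lit 41)))) (PT.nd (nat_lit 94) (PT.lf (nat_lit 11256) (nat_lit 3) (nat_lit 134) (nat_lit 1) (nat_lit 40) (nat_lit 31) (nat_lit 40)) (PT.nd (nat_lit 94) (PT.lf (nat_lit 11172) (nat_lit 6) (nat_lit 133) (nat_lit 1) (nat_lit 41) (nat_lit 31) (nat_lit 39)) (PT.lf (nat_lit 11088) (nat_lit 6) (nat_lit 132) (nat_lit 1) (nat_lit 42) (nat_lit 31) (nat_lit 38))))) (PT.nd (nat_lit 282) (PT.nd (nat_lit 94) (PT.lf (nat_lit 11004) (nat_lit 6) (nat_lit 131) (nat_lit 1) (nat_lit 43) (nat_lit 31) (nat_lit 37)) (PT.nd (nat_lit 94) (PT.lf (nat_lit 10332) (nat_lit 6) (nat_lit 123) (nat_lit 1) (nat_lit 44) (nat_lit 31) (nat_lit 36)) (PT.lf (nat_lit 9576) (nat_lit 6) (nat_lit 114)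 (nat_lit 1) (nat_lit 45) (nat_lit 31) (nat_lit 35)))) (PT.nd (nat_lit 188) (PT.nd (nat_lit 94) (PT.lf (nat_lit 8736) (nat_lit 6) (nat_lit 104) (nat_lit 1) (nat_lit 46) (nat_lit 31) (nat_lit 34)) (PT.lf (nat_lit 7812) (nat_lit 6) (nat_lit 93) (nat_lit 1) (nat_lit 47) (nat_lit 31) (nat_lit 33))) (PT.nd (nat_lit 54144) (PT.lf (nat_lit 6804) (nat_lit 6) (nat_lit 81) (nat_lit 1) (nat_lit 48) (nat_lit 31) (nat_lit 32)) (PT.lf (nat_lit 6804) (nat_lit 6) (nat_lit 81) (nat_lit 5) (nat_lit 31) (nat_lit 32) (nat_lit 48))))))) (PT.nd (nat_lit 1222) (PT.nd (nat_lit 564) (PT.nd (nat_lit 282) (PT.nd (nat_lit 94) (PT.lf (nat_lit 7728) (nat_lit 3) (nat_lit 92) (nat_lit 3) (nat_lit 32) (nat_lit 32) (nat_lit 47)) (PT.nd (nat_lit 94) (PT.lf (nat_lit 8652) (nat_lit 6) (nat_lit 103) (nat_lit 3) (nat_lit 33) (nat_lit 32) (nat_lit 46)) (PT.lf (nat_lit 9492) (nat_lit 6) (nat_lit 113) (nat_lit 3) (nat_lit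 34) (nat_lit 32) (nat_lit 45)))) (PT.nd (nat_lit 94) (PT.lf (nat_lit 10248) (nat_lit 6) (nat_lit 122) (nat_lit 3) (nat_lit 35) (nat_lit 32) (nat_lit 44)) (PT.nd (nat_lit 94) (PT.lf (nat_lit 10920) (nat_lit 6) (nat_lit 130) (nat_lit 3) (nat_lit 36) (nat_lit 32) (nat_lit 43)) (PT.lf (nat_lit 11508) (nat_lit 6) (nat_lit 137) (nat_lit 3) (nat_lit 37) (nat_lit 32) (nat_lit 42))))) (PT.nd (nat_lit 282) (PT.nd (nat_lit 94) (PT.lf (nat_lit 11592) (nat_lit 6) (nat_lit 138) (nat_lit 3) (nat_lit 38) (nat_lit 32) (nat_lit 41)) (PT.nd (nat_lit 94) (PT.lf (nat_lit 11676) (nat_lit 6) (nat_lit 139) (nat_lit 3) (nat_lit 39) (nat_lit 32) (nat_lit 40)) (PT.lf (nat_lit 11676) (nat_lit 6) (nat_lit 139) (nat_lit 1) (nat_lit 40) (nat_lit 32) (nat_lit 39)))) (PT.nd (nat_lit 188) (PT.nd (nat_lit 94) (PT.lf (nat_lit 11592) (nat_lit 6) (nat_lit 138) (nat_lit 1) (nat_lit 41) (nat_lit 32) (nat_lit 38)) (PT.lf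 (nat_lit 11508) (nat_lit 6) (nat_lit 137) (nat_lit 1) (nat_lit 42) (nat_lit 32) (nat_lit 37))) (PT.nd (nat_lit 94) (PT.lf (nat_lit 10920) (nat_lit 6) (nat_lit 130) (nat_lit 1) (nat_lit 43) (nat_lit 32) (nat_lit 36)) (PT.lf (nat_lit 10248) (nat_lit 6) (nat_lit 122) (nat_lit 1) (nat_lit 44) (nat_lit 32) (nat_lit 35)))))) (PT.nd (nat_lit 54520) (PT.nd (nat_lit 282) (PT.nd (nat_lit 94) (PT.lf (nat_lit 9492) (nat_lit 6) (nat_lit 113) (nat_lit 1) (nat_lit 45) (nat_lit 32) (nat_lit 34)) (PT.nd (nat_lit 94) (PT.lf (nat_lit 8652) (nat_lit 6) (nat_lit 103) (nat_lit 1) (nat_lit 46) (nat_lit 32) (nat_lit 33)) (PT.lf (nat_lit 7728) (nat_lit 3) (nat_lit 92) (nat_lit 0) (nat_lit 47) (nat_lit 32) (nat_lit 32)))) (PT.nd (nat_lit 54050) (PT.lf (nat_lit 6804) (nat_lit 6) (nat_lit 81) (nat_lit 0) (nat_lit 48) (nat_lit 32) (nat_lit 31)) (PT.nd (nat_lit 94) (PT.lf (nat_lit 6888) (nat_lit 6) (nat_lit 82)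 (nat_lit 5) (nat_lit 30) (nat_lit 33) (nat_lit 48)) (PT.lf (nat_lit 7812) (nat_lit 6) (nat_lit 93) (nat_lit 5) (nat_lit 31) (nat_lit 33) (nat_lit 47))))) (PT.nd (nat_lit 282) (PT.nd (nat_lit 94) (PT.lf (nat_lit 8652) (nat_lit 6) (nat_lit 103) (nat_lit 5) (nat_lit 32) (nat_lit 33) (nat_lit 46)) (PT.nd (nat_lit 94) (PT.lf (nat_lit 9408) (nat_lit 3) (nat_lit 112) (nat_lit 3) (nat_lit 33) (nat_lit 33) (nat_lit 45)) (PT.lf (nat_lit 10164) (nat_lit 6) (nat_lit 121) (nat_lit 3) (nat_lit 34) (nat_lit 33) (nat_lit 44)))) (PT.nd (nat_lit 188) (PT.nd (nat_lit 94) (PT.lf (nat_lit 10836) (nat_lit 6) (nat_lit 129) (nat_lit 3) (nat_lit 35) (nat_lit 33) (nat_lit 43)) (PT.lf (nat_lit 11424) (nat_lit 6) (nat_lit 136) (nat_lit 3) (nat_lit 36) (nat_lit 33) (nat_lit 42))) (PT.nd (nat_lit 94) (PT.lf (nat_lit 11928) (nat_lit 6) (nat_lit 142) (nat_lit 3) (nat_lit 37) (nat_lit 33) (nat_lit 41)) (PT.lf (nat_lit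 12012) (nat_lit 6) (nat_lit 143) (nat_lit 3) (nat_lit 38) (nat_lit 33) (nat_lit 40))))))))
noncomputable def pc5 : PT := (PT.nd (nat_lit 56306) (PT.nd (nat_lit 55084) (PT.nd (nat_lit 564) (PT.nd (nat_lit 282) (PT.nd (nat_lit 94) (PT.lf (nat_lit 12096) (nat_lit 3) (nat_lit 144) (nat_lit 1) (nat_lit 39) (nat_lit 33) (nat_lit 39)) (PT.nd (nat_lit 94) (PT.lf (nat_lit 12012) (nat_lit 6) (nat_lit 143) (nat_lit 1) (nat_lit 40) (nat_lit 33) (nat_lit 38)) (PT.lf (nat_lit 11928) (nat_lit 6) (nat_lit 142) (nat_lit 1) (nat_lit 41) (nat_lit 33) (nat_lit 37)))) (PT.nd (nat_lit 94) (PT.lf (nat_lit 11424) (nat_lit 6) (nat_lit 136) (nat_lit 1) (nat_lit 42) (nat_lit 33) (nat_lit 36)) (PT.nd (nat_lit 94) (PT.lf (nat_lit 10836) (nat_lit 6) (nat_lit 129) (nat_lit 1) (nat_lit 43) (nat_lit 33) (nat_lit 35)) (PT.lf (nat_lit 10164) (nat_lit 6) (nat_lit 121) (nat_lit 1) (nat_lit 44) (nat_lit 33) (nat_lit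 34))))) (PT.nd (nat_lit 282) (PT.nd (nat_lit 94) (PT.lf (nat_lit 9408) (nat_lit 3) (nat_lit 112) (nat_lit 0) (nat_lit 45) (nat_lit 33) (nat_lit 33)) (PT.nd (nat_lit 94) (PT.lf (nat_lit 8652) (nat_lit 6) (nat_lit 103) (nat_lit 0) (nat_lit 46) (nat_lit 33) (nat_lit 32)) (PT.lf (nat_lit 7812) (nat_lit 6) (nat_lit 93) (nat_lit 0) (nat_lit 47) (nat_lit 33) (nat_lit 31)))) (PT.nd (nat_lit 54050) (PT.nd (nat_lit 53956) (PT.lf (nat_lit 6888) (nat_lit 6) (nat_lit 82) (nat_lit 0) (nat_lit 48) (nat_lit 33) (nat_lit 30)) (PT.lf (nat_lit 6972) (nat_lit 6) (nat_lit 83) (nat_lit 5) (nat_lit 29) (nat_lit 34) (nat_lit 48))) (PT.nd (nat_lit 94) (PT.lf (nat_lit 7896) (nat_lit 6) (nat_lit 94) (nat_lit 5) (nat_lit 30) (nat_lit 34) (nat_lit 47)) (PT.lf (nat_lit 8736) (nat_lit 6) (nat_lit 104) (nat_lit 5) (nat_lit 31) (nat_lit 34) (nat_lit 46)))))) (PT.nd (nat_lit 564) (PT.nd (nat_lit 282) (PT.nd (nat_lit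 94) (PT.lf (nat_lit 9492) (nat_lit 6) (nat_lit 113) (nat_lit 5) (nat_lit 32) (nat_lit 34) (nat_lit 45)) (PT.nd (nat_lit 94) (PT.lf (nat_lit 10164) (nat_lit 6) (nat_lit 121) (nat_lit 5) (nat_lit 33) (nat_lit 34) (nat_lit 44)) (PT.lf (nat_lit 10752) (nat_lit 3) (nat_lit 128) (nat_lit 3) (nat_lit 34) (nat_lit 34) (nat_lit 43)))) (PT.nd (nat_lit 94) (PT.lf (nat_lit 11340) (nat_lit 6) (nat_lit 135) (nat_lit 3) (nat_lit 35) (nat_lit 34) (nat_lit 42)) (PT.nd (nat_lit 94) (PT.lf (nat_lit 11844) (nat_lit 6) (nat_lit 141) (nat_lit 3) (nat_lit 36) (nat_lit 34) (nat_lit 41)) (PT.lf (nat_lit 12264) (nat_lit 6) (nat_lit 146) (nat_lit 3) (nat_lit 37) (nat_lit 34) (nat_lit 40))))) (PT.nd (nat_lit 282) (PT.nd (nat_lit 94) (PT.lf (nat_lit 12348) (nat_lit 6) (nat_lit 147) (nat_lit 3) (nat_lit 38) (nat_lit 34) (nat_lit 39)) (PT.nd (nat_lit 94) (PT.lf (nat_lit 12348) (nat_lit 6) (nat_lit 147) (nat_lit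 1) (nat_lit 39) (nat_lit 34) (nat_lit 38)) (PT.lf (nat_lit 12264) (nat_lit 6) (nat_lit 146) (nat_lit 1) (nat_lit 40) (nat_lit 34) (nat_lit 37)))) (PT.nd (nat_lit 188) (PT.nd (nat_lit 94) (PT.lf (nat_lit 11844) (nat_lit 6) (nat_lit 141) (nat_lit 1) (nat_lit 41) (nat_lit 34) (nat_lit 36)) (PT.lf (nat_lit 11340) (nat_lit 6) (nat_lit 135) (nat_lit 1) (nat_lit 42) (nat_lit 34) (nat_lit 35))) (PT.nd (nat_lit 94) (PT.lf (nat_lit 10752) (nat_lit 3) (nat_lit 128) (nat_lit 0) (nat_lit 43) (nat_lit 34) (nat_lit 34)) (PT.lf (nat_lit 10164) (nat_lit 6) (nat_lit 121) (nat_lit 0) (nat_lit 44) (nat_lit 34) (nat_lit 33))))))) (PT.nd (nat_lit 54896) (PT.nd (nat_lit 54238) (PT.nd (nat_lit 282) (PT.nd (nat_lit 94) (PT.lf (nat_lit 9492) (nat_lit 6) (nat_lit 113) (nat_lit 0) (nat_lit 45) (nat_lit 34) (nat_lit 32)) (PT.nd (nat_lit 94) (PT.lf (nat_lit 8736) (nat_lit 6) (nat_lit 104) (nat_lit 0) (nat_lit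 46) (nat_lit 34) (nat_lit 31)) (PT.lf (nat_lit 7896) (nat_lit 6) (nat_lit 94) (nat_lit 0) (nat_lit 47) (nat_lit 34) (nat_lit 30)))) (PT.nd (nat_lit 53768) (PT.lf (nat_lit 6972) (nat_lit 6) (nat_lit 83) (nat_lit 0) (nat_lit 48) (nat_lit 34) (nat_lit 29)) (PT.nd (nat_lit 94) (PT.lf (nat_lit 6048) (nat_lit 6) (nat_lit 72) (nat_lit 5) (nat_lit 27) (nat_lit 35) (nat_lit 49)) (PT.lf (nat_lit 7056) (nat_lit 6) (nat_lit 84) (nat_lit 5) (nat_lit 28) (nat_lit 35) (nat_lit 48))))) (PT.nd (nat_lit 282) (PT.nd (nat_lit 94) (PT.lf (nat_lit 7980) (nat_lit 6) (nat_lit 95) (nat_lit 5) (nat_lit 29) (nat_lit 35) (nat_lit 47)) (PT.nd (nat_lit 94) (PT.lf (nat_lit 8820) (nat_lit 6) (nat_lit 105) (nat_lit 5) (nat_lit 30) (nat_lit 35) (nat_lit 46)) (PT.lf (nat_lit 9576) (nat_lit 6) (nat_lit 114) (nat_lit 5) (nat_lit 31) (nat_lit 35) (nat_lit 45)))) (PT.nd (nat_lit 188) (PT.nd (nat_lit 94) (PT.lf (nat_lit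 10248) (nat_lit 6) (nat_lit 122) (nat_lit 5) (nat_lit 32) (nat_lit 35) (nat_lit 44)) (PT.lf (nat_lit 10836) (nat_lit 6) (nat_lit 129) (nat_lit 5) (nat_lit 33) (nat_lit 35) (nat_lit 43))) (PT.nd (nat_lit 94) (PT.lf (nat_lit 11340) (nat_lit 6) (nat_lit 135) (nat_lit 5) (nat_lit 34) (nat_lit 35) (nat_lit 42)) (PT.lf (nat_lit 11760) (nat_lit 3) (nat_lit 140) (nat_lit 3) (nat_lit 35) (nat_lit 35) (nat_lit 41)))))) (PT.nd (nat_lit 658) (PT.nd (nat_lit 282) (PT.nd (nat_lit 94) (PT.lf (nat_lit 12180) (nat_lit 6) (nat_lit 145) (nat_lit 3) (nat_lit 36) (nat_lit 35) (nat_lit 40)) (PT.nd (nat_lit 94) (PT.lf (nat_lit 12516) (nat_lit 6) (nat_lit 149) (nat_lit 3) (nat_lit 37) (nat_lit 35) (nat_lit 39)) (PT.lf (nat_lit 12600) (nat_lit 3) (nat_lit 150) (nat_lit 1) (nat_lit 38) (nat_lit 35) (nat_lit 38)))) (PT.nd (nat_lit 188) (PT.nd (nat_lit 94) (PT.lf (nat_lit 12516) (nat_lit 6) (nat_lit 149) (nat_lit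 1) (nat_lit 39) (nat_lit 35) (nat_lit 37)) (PT.lf (nat_lit 12180) (nat_lit 6) (nat_lit 145) (nat_lit 1) (nat_lit 40) (nat_lit 35) (nat_lit 36))) (PT.nd (nat_lit 94) (PT.lf (nat_lit 11760) (nat_lit 3) (nat_lit 140) (nat_lit 0) (nat_lit 41) (nat_lit 35) (nat_lit 35)) (PT.lf (nat_lit 11340) (nat_lit 6) (nat_lit 135) (nat_lit 0) (nat_lit 42) (nat_lit 35) (nat_lit 34))))) (PT.nd (nat_lit 282) (PT.nd (nat_lit 94) (PT.lf (nat_lit 10836) (nat_lit 6) (nat_lit 129) (nat_lit 0) (nat_lit 43) (nat_lit 35) (nat_lit 33)) (PT.nd (nat_lit 94) (PT.lf (nat_lit 10248) (nat_lit 6) (nat_lit 122) (nat_lit 0) (nat_lit 44) (nat_lit 35) (nat_lit 32)) (PT.lf (nat_lit 9576) (nat_lit 6) (nat_lit 114) (nat_lit 0) (nat_lit 45) (nat_lit 35) (nat_lit 31)))) (PT.nd (nat_lit 188) (PT.nd (nat_lit 94) (PT.lf (nat_lit 8820) (nat_lit 6) (nat_lit 105) (nat_lit 0) (nat_lit 46) (nat_lit 35) (nat_lit 30)) (PT.lf (nat_lit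 7980) (nat_lit 6) (nat_lit 95) (nat_lit 0) (nat_lit 47) (nat_lit 35) (nat_lit 29))) (PT.nd (nat_lit 94) (PT.lf (nat_lit 7056) (nat_lit 6) (nat_lit 84) (nat_lit 0) (nat_lit 48) (nat_lit 35) (nat_lit 28)) (PT.lf (nat_lit 6048) (nat_lit 6) (nat_lit 72) (nat_lit 0) (nat_lit 49) (nat_lit 35) (nat_lit 27))))))))
noncomputable def pc6 : PT := (PT.nd (nat_lit 55836) (PT.nd (nat_lit 1222) (PT.nd (nat_lit 564) (PT.nd (nat_lit 282) (PT.nd (nat_lit 94) (PT.lf (nat_lit 6132) (nat_lit 6) (nat_lit 73) (nat_lit 5) (nat_lit 26) (nat_lit 36) (nat_lit 49)) (PT.nd (nat_lit 94) (PT.lf (nat_lit 7140) (nat_lit 6) (nat_lit 85) (nat_lit 5) (nat_lit 27) (nat_lit 36) (nat_lit 48)) (PT.lf (nat_lit 8064) (nat_lit 6) (nat_lit 96) (nat_lit 5) (nat_lit 28) (nat_lit 36) (nat_lit 47)))) (PT.nd (nat_lit 94) (PT.lf (nat_lit 8904) (nat_lit 6) (nat_lit 106) (nat_lit 5) (nat_lit 29) (nat_lit 36) (nat_lit 46)) (PT.nd (nat_lit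 94) (PT.lf (nat_lit 9660) (nat_lit 6) (nat_lit 115) (nat_lit 5) (nat_lit 30) (nat_lit 36) (nat_lit 45)) (PT.lf (nat_lit 10332) (nat_lit 6) (nat_lit 123) (nat_lit 5) (nat_lit 31) (nat_lit 36) (nat_lit 44))))) (PT.nd (nat_lit 282) (PT.nd (nat_lit 94) (PT.lf (nat_lit 10920) (nat_lit 6) (nat_lit 130) (nat_lit 5) (nat_lit 32) (nat_lit 36) (nat_lit 43)) (PT.nd (nat_lit 94) (PT.lf (nat_lit 11424) (nat_lit 6) (nat_lit 136) (nat_lit 5) (nat_lit 33) (nat_lit 36) (nat_lit 42)) (PT.lf (nat_lit 11844) (nat_lit 6) (nat_lit 141) (nat_lit 5) (nat_lit 34) (nat_lit 36) (nat_lit 41)))) (PT.nd (nat_lit 188) (PT.nd (nat_lit 94) (PT.lf (nat_lit 12180) (nat_lit 6) (nat_lit 145) (nat_lit 5) (nat_lit 35) (nat_lit 36) (nat_lit 40)) (PT.lf (nat_lit 12432) (nat_lit 3) (nat_lit 148) (nat_lit 3) (nat_lit 36) (nat_lit 36) (nat_lit 39))) (PT.nd (nat_lit 94) (PT.lf (nat_lit 12684) (nat_lit 6) (nat_lit 151) (nat_lit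 3) (nat_lit 37) (nat_lit 36) (nat_lit 38)) (PT.lf (nat_lit 12684) (nat_lit 6) (nat_lit 151) (nat_lit 1) (nat_lit 38) (nat_lit 36) (nat_lit 37)))))) (PT.nd (nat_lit 564) (PT.nd (nat_lit 282) (PT.nd (nat_lit 94) (PT.lf (nat_lit 12432) (nat_lit 3) (nat_lit 148) (nat_lit 0) (nat_lit 39) (nat_lit 36) (nat_lit 36)) (PT.nd (nat_lit 94) (PT.lf (nat_lit 12180) (nat_lit 6) (nat_lit 145) (nat_lit 0) (nat_lit 40) (nat_lit 36) (nat_lit 35)) (PT.lf (nat_lit 11844) (nat_lit 6) (nat_lit 141) (nat_lit 0) (nat_lit 41) (nat_lit 36) (nat_lit 34)))) (PT.nd (nat_lit 94) (PT.lf (nat_lit 11424) (nat_lit 6) (nat_lit 136) (nat_lit 0) (nat_lit 42) (nat_lit 36) (nat_lit 33)) (PT.nd (nat_lit 94) (PT.lf (nat_lit 10920) (nat_lit 6) (nat_lit 130) (nat_lit 0) (nat_lit 43) (nat_lit 36) (nat_lit 32)) (PT.lf (nat_lit 10332) (nat_lit 6) (nat_lit 123) (nat_lit 0) (nat_lit 44) (nat_lit 36) (nat_lit 31))))) (PT.nd (nat_lit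 282) (PT.nd (nat_lit 94) (PT.lf (nat_lit 9660) (nat_lit 6) (nat_lit 115) (nat_lit 0) (nat_lit 45) (nat_lit 36) (nat_lit 30)) (PT.nd (nat_lit 94) (PT.lf (nat_lit 8904) (nat_lit 6) (nat_lit 106) (nat_lit 0) (nat_lit 46) (nat_lit 36) (nat_lit 29)) (PT.lf (nat_lit 8064) (nat_lit 6) (nat_lit 96) (nat_lit 0) (nat_lit 47) (nat_lit 36) (nat_lit 28)))) (PT.nd (nat_lit 53580) (PT.nd (nat_lit 94) (PT.lf (nat_lit 7140) (nat_lit 6) (nat_lit 85) (nat_lit 0) (nat_lit 48) (nat_lit 36) (nat_lit 27)) (PT.lf (nat_lit 6132) (nat_lit 6) (nat_lit 73) (nat_lit 0) (nat_lit 49) (nat_lit 36) (nat_lit 26))) (PT.nd (nat_lit 94) (PT.lf (nat_lit 6216) (nat_lit 6) (nat_lit 74) (nat_lit 5) (nat_lit 25) (nat_lit 37) (nat_lit 49)) (PT.lf (nat_lit 7224) (nat_lit 6) (nat_lit 86) (nat_lit 5) (nat_lit 26) (nat_lit 37) (nat_lit 48))))))) (PT.nd (nat_lit 1222) (PT.nd (nat_lit 564) (PT.nd (nat_lit 282) (PT.nd (nat_lit 94)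 (PT.lf (nat_lit 8148) (nat_lit 6) (nat_lit 97) (nat_lit 5) (nat_lit 27) (nat_lit 37) (nat_lit 47)) (PT.nd (nat_lit 94) (PT.lf (nat_lit 8988) (nat_lit 6) (nat_lit 107) (nat_lit 5) (nat_lit 28) (nat_lit 37) (nat_lit 46)) (PT.lf (nat_lit 9744) (nat_lit 6) (nat_lit 116) (nat_lit 5) (nat_lit 29) (nat_lit 37) (nat_lit 45)))) (PT.nd (nat_lit 94) (PT.lf (nat_lit 10416) (nat_lit 6) (nat_lit 124) (nat_lit 5) (nat_lit 30) (nat_lit 37) (nat_lit 44)) (PT.nd (nat_lit 94) (PT.lf (nat_lit 11004) (nat_lit 6) (nat_lit 131) (nat_lit 5) (nat_lit 31) (nat_lit 37) (nat_lit 43)) (PT.lf (nat_lit 11508) (nat_lit 6) (nat_lit 137) (nat_lit 5) (nat_lit 32) (nat_lit 37) (nat_lit 42))))) (PT.nd (nat_lit 282) (PT.nd (nat_lit 94) (PT.lf (nat_lit 11928) (nat_lit 6) (nat_lit 142) (nat_lit 5) (nat_lit 33) (nat_lit 37) (nat_lit 41)) (PT.nd (nat_lit 94) (PT.lf (nat_lit 12264) (nat_lit 6) (nat_lit 146) (nat_lit 5) (nat_lit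 34) (nat_lit 37) (nat_lit 40)) (PT.lf (nat_lit 12516) (nat_lit 6) (nat_lit 149) (nat_lit 5) (nat_lit 35) (nat_lit 37) (nat_lit 39)))) (PT.nd (nat_lit 188) (PT.nd (nat_lit 94) (PT.lf (nat_lit 12684) (nat_lit 6) (nat_lit 151) (nat_lit 5) (nat_lit 36) (nat_lit 37) (nat_lit 38)) (PT.lf (nat_lit 12768) (nat_lit 1) (nat_lit 152) (nat_lit 0) (nat_lit 37) (nat_lit 37) (nat_lit 37))) (PT.nd (nat_lit 94) (PT.lf (nat_lit 12684) (nat_lit 6) (nat_lit 151) (nat_lit 0) (nat_lit 38) (nat_lit 37) (nat_lit 36)) (PT.lf (nat_lit 12516) (nat_lit 6) (nat_lit 149) (nat_lit 0) (nat_lit 39) (nat_lit 37) (nat_lit 35)))))) (PT.nd (nat_lit 564) (PT.nd (nat_lit 282) (PT.nd (nat_lit 94) (PT.lf (nat_lit 12264) (nat_lit 6) (nat_lit 146) (nat_lit 0) (nat_lit 40) (nat_lit 37) (nat_lit 34)) (PT.nd (nat_lit 94) (PT.lf (nat_lit 11928) (nat_lit 6) (nat_lit 142) (nat_lit 0) (nat_lit 41) (nat_lit 37) (nat_lit 33)) (PT.lf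 (nat_lit 11508) (nat_lit 6) (nat_lit 137) (nat_lit 0) (nat_lit 42) (nat_lit 37) (nat_lit 32)))) (PT.nd (nat_lit 94) (PT.lf (nat_lit 11004) (nat_lit 6) (nat_lit 131) (nat_lit 0) (nat_lit 43) (nat_lit 37) (nat_lit 31)) (PT.nd (nat_lit 94) (PT.lf (nat_lit 10416) (nat_lit 6) (nat_lit 124) (nat_lit 0) (nat_lit 44) (nat_lit 37) (nat_lit 30)) (PT.lf (nat_lit 9744) (nat_lit 6) (nat_lit 116) (nat_lit 0) (nat_lit 45) (nat_lit 37) (nat_lit 29))))) (PT.nd (nat_lit 282) (PT.nd (nat_lit 94) (PT.lf (nat_lit 8988) (nat_lit 6) (nat_lit 107) (nat_lit 0) (nat_lit 46) (nat_lit 37) (nat_lit 28)) (PT.nd (nat_lit 94) (PT.lf (nat_lit 8148) (nat_lit 6) (nat_lit 97) (nat_lit 0) (nat_lit 47) (nat_lit 37) (nat_lit 27)) (PT.lf (nat_lit 7224) (nat_lit 6) (nat_lit 86) (nat_lit 0) (nat_lit 48) (nat_lit 37) (nat_lit 26)))) (PT.nd (nat_lit 53486) (PT.nd (nat_lit 53392) (PT.lf (nat_lit 6216) (nat_lit 6) (nat_lit 74)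 (nat_lit 0) (nat_lit 49) (nat_lit 37) (nat_lit 25)) (PT.lf (nat_lit 5544) (nat_lit 6) (nat_lit 66) (nat_lit 5) (nat_lit 24) (nat_lit 38) (nat_lit 49))) (PT.nd (nat_lit 94) (PT.lf (nat_lit 6300) (nat_lit 6) (nat_lit 75) (nat_lit 5) (nat_lit 25) (nat_lit 38) (nat_lit 48)) (PT.lf (nat_lit 7308) (nat_lit 6) (nat_lit 87) (nat_lit 5) (nat_lit 26) (nat_lit 38) (nat_lit 47))))))))
noncomputable def pc7 : PT := (PT.nd (nat_lit 55648) (PT.nd (nat_lit 1222) (PT.nd (nat_lit 564) (PT.nd (nat_lit 282) (PT.nd (nat_lit 94) (PT.lf (nat_lit 8232) (nat_lit 6) (nat_lit 98) (nat_lit 5) (nat_lit 27) (nat_lit 38) (nat_lit 46)) (PT.nd (nat_lit 94) (PT.lf (nat_lit 9072) (nat_lit 6) (nat_lit 108) (nat_lit 5) (nat_lit 28) (nat_lit 38) (nat_lit 45)) (PT.lf (nat_lit 9828) (nat_lit 6) (nat_lit 117) (nat_lit 5) (nat_lit 29) (nat_lit 38) (nat_lit 44)))) (PT.nd (nat_lit 94) (PT.lf (nat_lit 10500) (nat_lit 6) (nat_lit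 125) (nat_lit 5) (nat_lit 30) (nat_lit 38) (nat_lit 43)) (PT.nd (nat_lit 94) (PT.lf (nat_lit 11088) (nat_lit 6) (nat_lit 132) (nat_lit 5) (nat_lit 31) (nat_lit 38) (nat_lit 42)) (PT.lf (nat_lit 11592) (nat_lit 6) (nat_lit 138) (nat_lit 5) (nat_lit 32) (nat_lit 38) (nat_lit 41))))) (PT.nd (nat_lit 282) (PT.nd (nat_lit 94) (PT.lf (nat_lit 12012) (nat_lit 6) (nat_lit 143) (nat_lit 5) (nat_lit 33) (nat_lit 38) (nat_lit 40)) (PT.nd (nat_lit 94) (PT.lf (nat_lit 12348) (nat_lit 6) (nat_lit 147) (nat_lit 5) (nat_lit 34) (nat_lit 38) (nat_lit 39)) (PT.lf (nat_lit 12600) (nat_lit 3) (nat_lit 150) (nat_lit 4) (nat_lit 35) (nat_lit 38) (nat_lit 38)))) (PT.nd (nat_lit 188) (PT.nd (nat_lit 94) (PT.lf (nat_lit 12684) (nat_lit 6) (nat_lit 151) (nat_lit 4) (nat_lit 36) (nat_lit 38) (nat_lit 37)) (PT.lf (nat_lit 12684) (nat_lit 6) (nat_lit 151) (nat_lit 2) (nat_lit 37) (nat_lit 38) (nat_lit 36)))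 (PT.nd (nat_lit 94) (PT.lf (nat_lit 12600) (nat_lit 3) (nat_lit 150) (nat_lit 0) (nat_lit 38) (nat_lit 38) (nat_lit 35)) (PT.lf (nat_lit 12348) (nat_lit 6) (nat_lit 147) (nat_lit 0) (nat_lit 39) (nat_lit 38) (nat_lit 34)))))) (PT.nd (nat_lit 564) (PT.nd (nat_lit 282) (PT.nd (nat_lit 94) (PT.lf (nat_lit 12012) (nat_lit 6) (nat_lit 143) (nat_lit 0) (nat_lit 40) (nat_lit 38) (nat_lit 33)) (PT.nd (nat_lit 94) (PT.lf (nat_lit 11592) (nat_lit 6) (nat_lit 138) (nat_lit 0) (nat_lit 41) (nat_lit 38) (nat_lit 32)) (PT.lf (nat_lit 11088) (nat_lit 6) (nat_lit 132) (nat_lit 0) (nat_lit 42) (nat_lit 38) (nat_lit 31)))) (PT.nd (nat_lit 94) (PT.lf (nat_lit 10500) (nat_lit 6) (nat_lit 125) (nat_lit 0) (nat_lit 43) (nat_lit 38) (nat_lit 30)) (PT.nd (nat_lit 94) (PT.lf (nat_lit 9828) (nat_lit 6) (nat_lit 117) (nat_lit 0) (nat_lit 44) (nat_lit 38) (nat_lit 29)) (PT.lf (nat_lit 9072) (nat_lit 6) (nat_lit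 108) (nat_lit 0) (nat_lit 45) (nat_lit 38) (nat_lit 28))))) (PT.nd (nat_lit 282) (PT.nd (nat_lit 94) (PT.lf (nat_lit 8232) (nat_lit 6) (nat_lit 98) (nat_lit 0) (nat_lit 46) (nat_lit 38) (nat_lit 27)) (PT.nd (nat_lit 94) (PT.lf (nat_lit 7308) (nat_lit 6) (nat_lit 87) (nat_lit 0) (nat_lit 47) (nat_lit 38) (nat_lit 26)) (PT.lf (nat_lit 6300) (nat_lit 6) (nat_lit 75) (nat_lit 0) (nat_lit 48) (nat_lit 38) (nat_lit 25)))) (PT.nd (nat_lit 53392) (PT.nd (nat_lit 53298) (PT.lf (nat_lit 5544) (nat_lit 6) (nat_lit 66) (nat_lit 0) (nat_lit 49) (nat_lit 38) (nat_lit 24)) (PT.lf (nat_lit 5040) (nat_lit 6) (nat_lit 60) (nat_lit 5) (nat_lit 23) (nat_lit 39) (nat_lit 49))) (PT.nd (nat_lit 94) (PT.lf (nat_lit 5628) (nat_lit 6) (nat_lit 67) (nat_lit 5) (nat_lit 24) (nat_lit 39) (nat_lit 48)) (PT.lf (nat_lit 6384) (nat_lit 6) (nat_lit 76) (nat_lit 5) (nat_lit 25) (nat_lit 39) (nat_lit 47))))))) (PT.nd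 (nat_lit 1222) (PT.nd (nat_lit 564) (PT.nd (nat_lit 282) (PT.nd (nat_lit 94) (PT.lf (nat_lit 7392) (nat_lit 6) (nat_lit 88) (nat_lit 5) (nat_lit 26) (nat_lit 39) (nat_lit 46)) (PT.nd (nat_lit 94) (PT.lf (nat_lit 8316) (nat_lit 6) (nat_lit 99) (nat_lit 5) (nat_lit 27) (nat_lit 39) (nat_lit 45)) (PT.lf (nat_lit 9156) (nat_lit 6) (nat_lit 109) (nat_lit 5) (nat_lit 28) (nat_lit 39) (nat_lit 44)))) (PT.nd (nat_lit 94) (PT.lf (nat_lit 9912) (nat_lit 6) (nat_lit 118) (nat_lit 5) (nat_lit 29) (nat_lit 39) (nat_lit 43)) (PT.nd (nat_lit 94) (PT.lf (nat_lit 10584) (nat_lit 6) (nat_lit 126) (nat_lit 5) (nat_lit 30) (nat_lit 39) (nat_lit 42)) (PT.lf (nat_lit 11172) (nat_lit 6) (nat_lit 133) (nat_lit 5) (nat_lit 31) (nat_lit 39) (nat_lit 41))))) (PT.nd (nat_lit 282) (PT.nd (nat_lit 94) (PT.lf (nat_lit 11676) (nat_lit 6) (nat_lit 139) (nat_lit 5) (nat_lit 32) (nat_lit 39) (nat_lit 40)) (PT.nd (nat_lit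 94) (PT.lf (nat_lit 12096) (nat_lit 3) (nat_lit 144) (nat_lit 4) (nat_lit 33) (nat_lit 39) (nat_lit 39)) (PT.lf (nat_lit 12348) (nat_lit 6) (nat_lit 147) (nat_lit 4) (nat_lit 34) (nat_lit 39) (nat_lit 38)))) (PT.nd (nat_lit 188) (PT.nd (nat_lit 94) (PT.lf (nat_lit 12516) (nat_lit 6) (nat_lit 149) (nat_lit 4) (nat_lit 35) (nat_lit 39) (nat_lit 37)) (PT.lf (nat_lit 12432) (nat_lit 3) (nat_lit 148) (nat_lit 2) (nat_lit 36) (nat_lit 39) (nat_lit 36))) (PT.nd (nat_lit 94) (PT.lf (nat_lit 12516) (nat_lit 6) (nat_lit 149) (nat_lit 2) (nat_lit 37) (nat_lit 39) (nat_lit 35)) (PT.lf (nat_lit 12348) (nat_lit 6) (nat_lit 147) (nat_lit 2) (nat_lit 38) (nat_lit 39) (nat_lit 34)))))) (PT.nd (nat_lit 658) (PT.nd (nat_lit 282) (PT.nd (nat_lit 94) (PT.lf (nat_lit 12096) (nat_lit 3) (nat_lit 144) (nat_lit 0) (nat_lit 39) (nat_lit 39) (nat_lit 33)) (PT.nd (nat_lit 94) (PT.lf (nat_lit 11676) (nat_lit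 6) (nat_lit 139) (nat_lit 0) (nat_lit 40) (nat_lit 39) (nat_lit 32)) (PT.lf (nat_lit 11172) (nat_lit 6) (nat_lit 133) (nat_lit 0) (nat_lit 41) (nat_lit 39) (nat_lit 31)))) (PT.nd (nat_lit 188) (PT.nd (nat_lit 94) (PT.lf (nat_lit 10584) (nat_lit 6) (nat_lit 126) (nat_lit 0) (nat_lit 42) (nat_lit 39) (nat_lit 30)) (PT.lf (nat_lit 9912) (nat_lit 6) (nat_lit 118) (nat_lit 0) (nat_lit 43) (nat_lit 39) (nat_lit 29))) (PT.nd (nat_lit 94) (PT.lf (nat_lit 9156) (nat_lit 6) (nat_lit 109) (nat_lit 0) (nat_lit 44) (nat_lit 39) (nat_lit 28)) (PT.lf (nat_lit 8316) (nat_lit 6) (nat_lit 99) (nat_lit 0) (nat_lit 45) (nat_lit 39) (nat_lit 27))))) (PT.nd (nat_lit 282) (PT.nd (nat_lit 94) (PT.lf (nat_lit 7392) (nat_lit 6) (nat_lit 88) (nat_lit 0) (nat_lit 46) (nat_lit 39) (nat_lit 26)) (PT.nd (nat_lit 94) (PT.lf (nat_lit 6384) (nat_lit 6) (nat_lit 76) (nat_lit 0) (nat_lit 47) (nat_lit 39) (nat_lit 25))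 (PT.lf (nat_lit 5628) (nat_lit 6) (nat_lit 67) (nat_lit 0) (nat_lit 48) (nat_lit 39) (nat_lit 24)))) (PT.nd (nat_lit 53298) (PT.nd (nat_lit 53204) (PT.lf (nat_lit 5040) (nat_lit 6) (nat_lit 60) (nat_lit 0) (nat_lit 49) (nat_lit 39) (nat_lit 23)) (PT.lf (nat_lit 4620) (nat_lit 6) (nat_lit 55) (nat_lit 5) (nat_lit 22) (nat_lit 40) (nat_lit 49))) (PT.nd (nat_lit 94) (PT.lf (nat_lit 5124) (nat_lit 6) (nat_lit 61) (nat_lit 5) (nat_lit 23) (nat_lit 40) (nat_lit 48)) (PT.lf (nat_lit 5712) (nat_lit 6) (nat_lit 68) (nat_lit 5) (nat_lit 24) (nat_lit 40) (nat_lit 47))))))))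
noncomputable def pc8 : PT := (PT.nd (nat_lit 55366) (PT.nd (nat_lit 1222) (PT.nd (nat_lit 564) (PT.nd (nat_lit 282) (PT.nd (nat_lit 94) (PT.lf (nat_lit 6468) (nat_lit 6) (nat_lit 77) (nat_lit 5) (nat_lit 25) (nat_lit 40) (nat_lit 46)) (PT.nd (nat_lit 94) (PT.lf (nat_lit 7476) (nat_lit 6) (nat_lit 89) (nat_lit 5) (nat_lit 26) (nat_lit 40) (nat_lit 45)) (PT.lf (nat_lit 8400) (nat_lit 6) (nat_lit 100) (nat_lit 5) (nat_lit 27) (nat_lit 40) (nat_lit 44)))) (PT.nd (nat_lit 94) (PT.lf (nat_lit 9240) (nat_lit 6) (nat_lit 110) (nat_lit 5) (nat_lit 28) (nat_lit 40) (nat_lit 43)) (PT.nd (nat_lit 94) (PT.lf (nat_lit 9996) (nat_lit 6) (nat_lit 119) (nat_lit 5) (nat_lit 29) (nat_lit 40) (nat_lit 42)) (PT.lf (nat_lit 10668) (nat_lit 6) (nat_lit 127) (nat_lit 5) (nat_lit 30) (nat_lit 40) (nat_lit 41))))) (PT.nd (nat_lit 282) (PT.nd (nat_lit 94) (PT.lf (nat_lit 11256) (nat_lit 3) (nat_lit 134) (nat_lit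 4) (nat_lit 31) (nat_lit 40) (nat_lit 40)) (PT.nd (nat_lit 94) (PT.lf (nat_lit 11676) (nat_lit 6) (nat_lit 139) (nat_lit 4) (nat_lit 32) (nat_lit 40) (nat_lit 39)) (PT.lf (nat_lit 12012) (nat_lit 6) (nat_lit 143) (nat_lit 4) (nat_lit 33) (nat_lit 40) (nat_lit 38)))) (PT.nd (nat_lit 188) (PT.nd (nat_lit 94) (PT.lf (nat_lit 12264) (nat_lit 6) (nat_lit 146) (nat_lit 4) (nat_lit 34) (nat_lit 40) (nat_lit 37)) (PT.lf (nat_lit 12180) (nat_lit 6) (nat_lit 145) (nat_lit 4) (nat_lit 35) (nat_lit 40) (nat_lit 36))) (PT.nd (nat_lit 94) (PT.lf (nat_lit 12180) (nat_lit 6) (nat_lit 145) (nat_lit 2) (nat_lit 36) (nat_lit 40) (nat_lit 35)) (PT.lf (nat_lit 12264) (nat_lit 6) (nat_lit 146) (nat_lit 2) (nat_lit 37) (nat_lit 40) (nat_lit 34)))))) (PT.nd (nat_lit 564) (PT.nd (nat_lit 282) (PT.nd (nat_lit 94) (PT.lf (nat_lit 12012) (nat_lit 6) (nat_lit 143) (nat_lit 2) (nat_lit 38) (nat_lit 40) (nat_lit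 33)) (PT.nd (nat_lit 94) (PT.lf (nat_lit 11676) (nat_lit 6) (nat_lit 139) (nat_lit 2) (nat_lit 39) (nat_lit 40) (nat_lit 32)) (PT.lf (nat_lit 11256) (nat_lit 3) (nat_lit 134) (nat_lit 0) (nat_lit 40) (nat_lit 40) (nat_lit 31)))) (PT.nd (nat_lit 94) (PT.lf (nat_lit 10668) (nat_lit 6) (nat_lit 127) (nat_lit 0) (nat_lit 41) (nat_lit 40) (nat_lit 30)) (PT.nd (nat_lit 94) (PT.lf (nat_lit 9996) (nat_lit 6) (nat_lit 119) (nat_lit 0) (nat_lit 42) (nat_lit 40) (nat_lit 29)) (PT.lf (nat_lit 9240) (nat_lit 6) (nat_lit 110) (nat_lit 0) (nat_lit 43) (nat_lit 40) (nat_lit 28))))) (PT.nd (nat_lit 282) (PT.nd (nat_lit 94) (PT.lf (nat_lit 8400) (nat_lit 6) (nat_lit 100) (nat_lit 0) (nat_lit 44) (nat_lit 40) (nat_lit 27)) (PT.nd (nat_lit 94) (PT.lf (nat_lit 7476) (nat_lit 6) (nat_lit 89) (nat_lit 0) (nat_lit 45) (nat_lit 40) (nat_lit 26)) (PT.lf (nat_lit 6468) (nat_lit 6) (nat_lit 77) (nat_lit 0)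 (nat_lit 46) (nat_lit 40) (nat_lit 25)))) (PT.nd (nat_lit 188) (PT.nd (nat_lit 94) (PT.lf (nat_lit 5712) (nat_lit 6) (nat_lit 68) (nat_lit 0) (nat_lit 47) (nat_lit 40) (nat_lit 24)) (PT.lf (nat_lit 5124) (nat_lit 6) (nat_lit 61) (nat_lit 0) (nat_lit 48) (nat_lit 40) (nat_lit 23))) (PT.nd (nat_lit 53016) (PT.lf (nat_lit 4620) (nat_lit 6) (nat_lit 55) (nat_lit 0) (nat_lit 49) (nat_lit 40) (nat_lit 22)) (PT.lf (nat_lit 3780) (nat_lit 6) (nat_lit 45) (nat_lit 5) (nat_lit 20) (nat_lit 41) (nat_lit 50))))))) (PT.nd (nat_lit 1222) (PT.nd (nat_lit 564) (PT.nd (nat_lit 282) (PT.nd (nat_lit 94) (PT.lf (nat_lit 4200) (nat_lit 6) (nat_lit 50) (nat_lit 5) (nat_lit 21) (nat_lit 41) (nat_lit 49)) (PT.nd (nat_lit 94) (PT.lf (nat_lit 4704) (nat_lit 6) (nat_lit 56) (nat_lit 5) (nat_lit 22) (nat_lit 41) (nat_lit 48)) (PT.lf (nat_lit 5208) (nat_lit 6) (nat_lit 62) (nat_lit 5) (nat_lit 23) (nat_lit 41)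 (nat_lit 47)))) (PT.nd (nat_lit 94) (PT.lf (nat_lit 5796) (nat_lit 6) (nat_lit 69) (nat_lit 5) (nat_lit 24) (nat_lit 41) (nat_lit 46)) (PT.nd (nat_lit 94) (PT.lf (nat_lit 6552) (nat_lit 6) (nat_lit 78) (nat_lit 5) (nat_lit 25) (nat_lit 41) (nat_lit 45)) (PT.lf (nat_lit 7560) (nat_lit 6) (nat_lit 90) (nat_lit 5) (nat_lit 26) (nat_lit 41) (nat_lit 44))))) (PT.nd (nat_lit 282) (PT.nd (nat_lit 94) (PT.lf (nat_lit 8484) (nat_lit 6) (nat_lit 101) (nat_lit 5) (nat_lit 27) (nat_lit 41) (nat_lit 43)) (PT.nd (nat_lit 94) (PT.lf (nat_lit 9324) (nat_lit 6) (nat_lit 111) (nat_lit 5) (nat_lit 28) (nat_lit 41) (nat_lit 42)) (PT.lf (nat_lit 10080) (nat_lit 3) (nat_lit 120) (nat_lit 4) (nat_lit 29) (nat_lit 41) (nat_lit 41)))) (PT.nd (nat_lit 188) (PT.nd (nat_lit 94) (PT.lf (nat_lit 10668) (nat_lit 6) (nat_lit 127) (nat_lit 4) (nat_lit 30) (nat_lit 41) (nat_lit 40)) (PT.lf (nat_lit 11172) (nat_lit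 6) (nat_lit 133) (nat_lit 4) (nat_lit 31) (nat_lit 41) (nat_lit 39))) (PT.nd (nat_lit 94) (PT.lf (nat_lit 11592) (nat_lit 6) (nat_lit 138) (nat_lit 4) (nat_lit 32) (nat_lit 41) (nat_lit 38)) (PT.lf (nat_lit 11928) (nat_lit 6) (nat_lit 142) (nat_lit 4) (nat_lit 33) (nat_lit 41) (nat_lit 37)))))) (PT.nd (nat_lit 564) (PT.nd (nat_lit 282) (PT.nd (nat_lit 94) (PT.lf (nat_lit 11844) (nat_lit 6) (nat_lit 141) (nat_lit 4) (nat_lit 34) (nat_lit 41) (nat_lit 36)) (PT.nd (nat_lit 94) (PT.lf (nat_lit 11760) (nat_lit 3) (nat_lit 140) (nat_lit 2) (nat_lit 35) (nat_lit 41) (nat_lit 35)) (PT.lf (nat_lit 11844) (nat_lit 6) (nat_lit 141) (nat_lit 2) (nat_lit 36) (nat_lit 41) (nat_lit 34)))) (PT.nd (nat_lit 94) (PT.lf (nat_lit 11928) (nat_lit 6) (nat_lit 142) (nat_lit 2) (nat_lit 37) (nat_lit 41) (nat_lit 33)) (PT.nd (nat_lit 94) (PT.lf (nat_lit 11592) (nat_lit 6) (nat_lit 138) (nat_lit 2) (nat_lit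 38) (nat_lit 41) (nat_lit 32)) (PT.lf (nat_lit 11172) (nat_lit 6) (nat_lit 133) (nat_lit 2) (nat_lit 39) (nat_lit 41) (nat_lit 31))))) (PT.nd (nat_lit 282) (PT.nd (nat_lit 94) (PT.lf (nat_lit 10668) (nat_lit 6) (nat_lit 127) (nat_lit 2) (nat_lit 40) (nat_lit 41) (nat_lit 30)) (PT.nd (nat_lit 94) (PT.lf (nat_lit 10080) (nat_lit 3) (nat_lit 120) (nat_lit 0) (nat_lit 41) (nat_lit 41) (nat_lit 29)) (PT.lf (nat_lit 9324) (nat_lit 6) (nat_lit 111) (nat_lit 0) (nat_lit 42) (nat_lit 41) (nat_lit 28)))) (PT.nd (nat_lit 188) (PT.nd (nat_lit 94) (PT.lf (nat_lit 8484) (nat_lit 6) (nat_lit 101) (nat_lit 0) (nat_lit 43) (nat_lit 41) (nat_lit 27)) (PT.lf (nat_lit 7560) (nat_lit 6) (nat_lit 90) (nat_lit 0) (nat_lit 44) (nat_lit 41) (nat_lit 26))) (PT.nd (nat_lit 94) (PT.lf (nat_lit 6552) (nat_lit 6) (nat_lit 78) (nat_lit 0) (nat_lit 45) (nat_lit 41) (nat_lit 25)) (PT.lf (nat_lit 5796) (nat_lit 6)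 (nat_lit 69) (nat_lit 0) (nat_lit 46) (nat_lit 41) (nat_lit 24))))))))
noncomputable def pc9 : PT := (PT.nd (nat_lit 55178) (PT.nd (nat_lit 53956) (PT.nd (nat_lit 53298) (PT.nd (nat_lit 282) (PT.nd (nat_lit 94) (PT.lf (nat_lit 5208) (nat_lit 6) (nat_lit 62) (nat_lit 0) (nat_lit 47) (nat_lit 41) (nat_lit 23)) (PT.nd (nat_lit 94) (PT.lf (nat_lit 4704) (nat_lit 6) (nat_lit 56) (nat_lit 0) (nat_lit 48) (nat_lit 41) (nat_lit 22)) (PT.lf (nat_lit 4200) (nat_lit 6) (nat_lit 50) (nat_lit 0) (nat_lit 49) (nat_lit 41) (nat_lit 21)))) (PT.nd (nat_lit 52828) (PT.lf (nat_lit 3780) (nat_lit 6) (nat_lit 45) (nat_lit 0) (nat_lit 50) (nat_lit 41) (nat_lit 20)) (PT.nd (nat_lit 94) (PT.lf (nat_lit 3360) (nat_lit 6) (nat_lit 40) (nat_lit 5) (nat_lit 19) (nat_lit 42) (nat_lit 50)) (PT.lf (nat_lit 3864) (nat_lit 6) (nat_lit 46) (nat_lit 5) (nat_lit 20) (nat_lit 42) (nat_lit 49))))) (PT.nd (nat_lit 282)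 (PT.nd (nat_lit 94) (PT.lf (nat_lit 4284) (nat_lit 6) (nat_lit 51) (nat_lit 5) (nat_lit 21) (nat_lit 42) (nat_lit 48)) (PT.nd (nat_lit 94) (PT.lf (nat_lit 4788) (nat_lit 6) (nat_lit 57) (nat_lit 5) (nat_lit 22) (nat_lit 42) (nat_lit 47)) (PT.lf (nat_lit 5292) (nat_lit 6) (nat_lit 63) (nat_lit 5) (nat_lit 23) (nat_lit 42) (nat_lit 46)))) (PT.nd (nat_lit 188) (PT.nd (nat_lit 94) (PT.lf (nat_lit 5880) (nat_lit 6) (nat_lit 70) (nat_lit 5) (nat_lit 24) (nat_lit 42) (nat_lit 45)) (PT.lf (nat_lit 6636) (nat_lit 6) (nat_lit 79) (nat_lit 5) (nat_lit 25) (nat_lit 42) (nat_lit 44))) (PT.nd (nat_lit 94) (PT.lf (nat_lit 7644) (nat_lit 6) (nat_lit 91) (nat_lit 5) (nat_lit 26) (nat_lit 42) (nat_lit 43)) (PT.lf (nat_lit 8568) (nat_lit 3) (nat_lit 102) (nat_lit 4) (nat_lit 27) (nat_lit 42) (nat_lit 42)))))) (PT.nd (nat_lit 564) (PT.nd (nat_lit 282) (PT.nd (nat_lit 94) (PT.lf (nat_lit 9324) (nat_lit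 6) (nat_lit 111) (nat_lit 4) (nat_lit 28) (nat_lit 42) (nat_lit 41)) (PT.nd (nat_lit 94) (PT.lf (nat_lit 9996) (nat_lit 6) (nat_lit 119) (nat_lit 4) (nat_lit 29) (nat_lit 42) (nat_lit 40)) (PT.lf (nat_lit 10584) (nat_lit 6) (nat_lit 126) (nat_lit 4) (nat_lit 30) (nat_lit 42) (nat_lit 39)))) (PT.nd (nat_lit 94) (PT.lf (nat_lit 11088) (nat_lit 6) (nat_lit 132) (nat_lit 4) (nat_lit 31) (nat_lit 42) (nat_lit 38)) (PT.nd (nat_lit 94) (PT.lf (nat_lit 11508) (nat_lit 6) (nat_lit 137) (nat_lit 4) (nat_lit 32) (nat_lit 42) (nat_lit 37)) (PT.lf (nat_lit 11424) (nat_lit 6) (nat_lit 136) (nat_lit 4) (nat_lit 33) (nat_lit 42) (nat_lit 36))))) (PT.nd (nat_lit 282) (PT.nd (nat_lit 94) (PT.lf (nat_lit 11340) (nat_lit 6) (nat_lit 135) (nat_lit 4) (nat_lit 34) (nat_lit 42) (nat_lit 35)) (PT.nd (nat_lit 94) (PT.lf (nat_lit 11340) (nat_lit 6) (nat_lit 135) (nat_lit 2) (nat_lit 35) (nat_lit 42) (nat_lit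 34)) (PT.lf (nat_lit 11424) (nat_lit 6) (nat_lit 136) (nat_lit 2) (nat_lit 36) (nat_lit 42) (nat_lit 33)))) (PT.nd (nat_lit 188) (PT.nd (nat_lit 94) (PT.lf (nat_lit 11508) (nat_lit 6) (nat_lit 137) (nat_lit 2) (nat_lit 37) (nat_lit 42) (nat_lit 32)) (PT.lf (nat_lit 11088) (nat_lit 6) (nat_lit 132) (nat_lit 2) (nat_lit 38) (nat_lit 42) (nat_lit 31))) (PT.nd (nat_lit 94) (PT.lf (nat_lit 10584) (nat_lit 6) (nat_lit 126) (nat_lit 2) (nat_lit 39) (nat_lit 42) (nat_lit 30)) (PT.lf (nat_lit 9996) (nat_lit 6) (nat_lit 119) (nat_lit 2) (nat_lit 40) (nat_lit 42) (nat_lit 29))))))) (PT.nd (nat_lit 53862) (PT.nd (nat_lit 564) (PT.nd (nat_lit 282) (PT.nd (nat_lit 94) (PT.lf (nat_lit 9324) (nat_lit 6) (nat_lit 111) (nat_lit 2) (nat_lit 41) (nat_lit 42) (nat_lit 28)) (PT.nd (nat_lit 94) (PT.lf (nat_lit 8568) (nat_lit 3) (nat_lit 102) (nat_lit 0) (nat_lit 42) (nat_lit 42) (nat_lit 27)) (PT.lf (nat_lit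 7644) (nat_lit 6) (nat_lit 91) (nat_lit 0) (nat_lit 43) (nat_lit 42) (nat_lit 26)))) (PT.nd (nat_lit 94) (PT.lf (nat_lit 6636) (nat_lit 6) (nat_lit 79) (nat_lit 0) (nat_lit 44) (nat_lit 42) (nat_lit 25)) (PT.nd (nat_lit 94) (PT.lf (nat_lit 5880) (nat_lit 6) (nat_lit 70) (nat_lit 0) (nat_lit 45) (nat_lit 42) (nat_lit 24)) (PT.lf (nat_lit 5292) (nat_lit 6) (nat_lit 63) (nat_lit 0) (nat_lit 46) (nat_lit 42) (nat_lit 23))))) (PT.nd (nat_lit 282) (PT.nd (nat_lit 94) (PT.lf (nat_lit 4788) (nat_lit 6) (nat_lit 57) (nat_lit 0) (nat_lit 47) (nat_lit 42) (nat_lit 22)) (PT.nd (nat_lit 94) (PT.lf (nat_lit 4284) (nat_lit 6) (nat_lit 51) (nat_lit 0) (nat_lit 48) (nat_lit 42) (nat_lit 21)) (PT.lf (nat_lit 3864) (nat_lit 6) (nat_lit 46) (nat_lit 0) (nat_lit 49) (nat_lit 42) (nat_lit 20)))) (PT.nd (nat_lit 52828) (PT.nd (nat_lit 52734) (PT.lf (nat_lit 3360) (nat_lit 6) (nat_lit 40) (nat_lit 0) (nat_lit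 50) (nat_lit 42) (nat_lit 19)) (PT.lf (nat_lit 3024) (nat_lit 6) (nat_lit 36) (nat_lit 5) (nat_lit 18) (nat_lit 43) (nat_lit 50))) (PT.nd (nat_lit 94) (PT.lf (nat_lit 3444) (nat_lit 6) (nat_lit 41) (nat_lit 5) (nat_lit 19) (nat_lit 43) (nat_lit 49)) (PT.lf (nat_lit 3948) (nat_lit 6) (nat_lit 47) (nat_lit 5) (nat_lit 20) (nat_lit 43) (nat_lit 48)))))) (PT.nd (nat_lit 658) (PT.nd (nat_lit 282) (PT.nd (nat_lit 94) (PT.lf (nat_lit 4368) (nat_lit 6) (nat_lit 52) (nat_lit 5) (nat_lit 21) (nat_lit 43) (nat_lit 47)) (PT.nd (nat_lit 94) (PT.lf (nat_lit 4872) (nat_lit 6) (nat_lit 58) (nat_lit 5) (nat_lit 22) (nat_lit 43) (nat_lit 46)) (PT.lf (nat_lit 5376) (nat_lit 6) (nat_lit 64) (nat_lit 5) (nat_lit 23) (nat_lit 43) (nat_lit 45)))) (PT.nd (nat_lit 188) (PT.nd (nat_lit 94) (PT.lf (nat_lit 5964) (nat_lit 6) (nat_lit 71) (nat_lit 5) (nat_lit 24) (nat_lit 43) (nat_lit 44)) (PT.lf (nat_lit 6720)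 (nat_lit 3) (nat_lit 80) (nat_lit 4) (nat_lit 25) (nat_lit 43) (nat_lit 43))) (PT.nd (nat_lit 94) (PT.lf (nat_lit 7644) (nat_lit 6) (nat_lit 91) (nat_lit 4) (nat_lit 26) (nat_lit 43) (nat_lit 42)) (PT.lf (nat_lit 8484) (nat_lit 6) (nat_lit 101) (nat_lit 4) (nat_lit 27) (nat_lit 43) (nat_lit 41))))) (PT.nd (nat_lit 282) (PT.nd (nat_lit 94) (PT.lf (nat_lit 9240) (nat_lit 6) (nat_lit 110) (nat_lit 4) (nat_lit 28) (nat_lit 43) (nat_lit 40)) (PT.nd (nat_lit 94) (PT.lf (nat_lit 9912) (nat_lit 6) (nat_lit 118) (nat_lit 4) (nat_lit 29) (nat_lit 43) (nat_lit 39)) (PT.lf (nat_lit 10500) (nat_lit 6) (nat_lit 125) (nat_lit 4) (nat_lit 30) (nat_lit 43) (nat_lit 38)))) (PT.nd (nat_lit 188) (PT.nd (nat_lit 94) (PT.lf (nat_lit 11004) (nat_lit 6) (nat_lit 131) (nat_lit 4) (nat_lit 31) (nat_lit 43) (nat_lit 37)) (PT.lf (nat_lit 10920) (nat_lit 6) (nat_lit 130) (nat_lit 4) (nat_lit 32) (nat_lit 43)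 (nat_lit 36))) (PT.nd (nat_lit 94) (PT.lf (nat_lit 10836) (nat_lit 6) (nat_lit 129) (nat_lit 4) (nat_lit 33) (nat_lit 43) (nat_lit 35)) (PT.lf (nat_lit 10752) (nat_lit 3) (nat_lit 128) (nat_lit 2) (nat_lit 34) (nat_lit 43) (nat_lit 34))))))))
noncomputable def pc10 : PT := (PT.nd (nat_lit 54990) (PT.nd (nat_lit 1222) (PT.nd (nat_lit 564) (PT.nd (nat_lit 282) (PT.nd (nat_lit 94) (PT.lf (nat_lit 10836) (nat_lit 6) (nat_lit 129) (nat_lit 2) (nat_lit 35) (nat_lit 43) (nat_lit 33)) (PT.nd (nat_lit 94) (PT.lf (nat_lit 10920) (nat_lit 6) (nat_lit 130) (nat_lit 2) (nat_lit 36) (nat_lit 43) (nat_lit 32)) (PT.lf (nat_lit 11004) (nat_lit 6) (nat_lit 131) (nat_lit 2) (nat_lit 37) (nat_lit 43) (nat_lit 31)))) (PT.nd (nat_lit 94) (PT.lf (nat_lit 10500) (nat_lit 6) (nat_lit 125) (nat_lit 2) (nat_lit 38) (nat_lit 43) (nat_lit 30)) (PT.nd (nat_lit 94) (PT.lf (nat_lit 9912) (nat_lit 6) (nat_lit 118)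 (nat_lit 2) (nat_lit 39) (nat_lit 43) (nat_lit 29)) (PT.lf (nat_lit 9240) (nat_lit 6) (nat_lit 110) (nat_lit 2) (nat_lit 40) (nat_lit 43) (nat_lit 28))))) (PT.nd (nat_lit 282) (PT.nd (nat_lit 94) (PT.lf (nat_lit 8484) (nat_lit 6) (nat_lit 101) (nat_lit 2) (nat_lit 41) (nat_lit 43) (nat_lit 27)) (PT.nd (nat_lit 94) (PT.lf (nat_lit 7644) (nat_lit 6) (nat_lit 91) (nat_lit 2) (nat_lit 42) (nat_lit 43) (nat_lit 26)) (PT.lf (nat_lit 6720) (nat_lit 3) (nat_lit 80) (nat_lit 0) (nat_lit 43) (nat_lit 43) (nat_lit 25)))) (PT.nd (nat_lit 188) (PT.nd (nat_lit 94) (PT.lf (nat_lit 5964) (nat_lit 6) (nat_lit 71) (nat_lit 0) (nat_lit 44) (nat_lit 43) (nat_lit 24)) (PT.lf (nat_lit 5376) (nat_lit 6) (nat_lit 64) (nat_lit 0) (nat_lit 45) (nat_lit 43) (nat_lit 23))) (PT.nd (nat_lit 94) (PT.lf (nat_lit 4872) (nat_lit 6) (nat_lit 58) (nat_lit 0) (nat_lit 46) (nat_lit 43) (nat_lit 22)) (PT.lf (nat_lit 4368)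 (nat_lit 6) (nat_lit 52) (nat_lit 0) (nat_lit 47) (nat_lit 43) (nat_lit 21)))))) (PT.nd (nat_lit 53110) (PT.nd (nat_lit 52828) (PT.nd (nat_lit 94) (PT.lf (nat_lit 3948) (nat_lit 6) (nat_lit 47) (nat_lit 0) (nat_lit 48) (nat_lit 43) (nat_lit 20)) (PT.nd (nat_lit 94) (PT.lf (nat_lit 3444) (nat_lit 6) (nat_lit 41) (nat_lit 0) (nat_lit 49) (nat_lit 43) (nat_lit 19)) (PT.lf (nat_lit 3024) (nat_lit 6) (nat_lit 36) (nat_lit 0) (nat_lit 50) (nat_lit 43) (nat_lit 18)))) (PT.nd (nat_lit 94) (PT.lf (nat_lit 2688) (nat_lit 6) (nat_lit 32) (nat_lit 5) (nat_lit 17) (nat_lit 44) (nat_lit 50)) (PT.nd (nat_lit 94) (PT.lf (nat_lit 3108) (nat_lit 6) (nat_lit 37) (nat_lit 5) (nat_lit 18) (nat_lit 44) (nat_lit 49)) (PT.lf (nat_lit 3528) (nat_lit 6) (nat_lit 42) (nat_lit 5) (nat_lit 19) (nat_lit 44) (nat_lit 48))))) (PT.nd (nat_lit 282) (PT.nd (nat_lit 94) (PT.lf (nat_lit 4032) (nat_lit 6) (nat_lit 48)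 (nat_lit 5) (nat_lit 20) (nat_lit 44) (nat_lit 47)) (PT.nd (nat_lit 94) (PT.lf (nat_lit 4452) (nat_lit 6) (nat_lit 53) (nat_lit 5) (nat_lit 21) (nat_lit 44) (nat_lit 46)) (PT.lf (nat_lit 4956) (nat_lit 6) (nat_lit 59) (nat_lit 5) (nat_lit 22) (nat_lit 44) (nat_lit 45)))) (PT.nd (nat_lit 188) (PT.nd (nat_lit 94) (PT.lf (nat_lit 5460) (nat_lit 3) (nat_lit 65) (nat_lit 4) (nat_lit 23) (nat_lit 44) (nat_lit 44)) (PT.lf (nat_lit 5964) (nat_lit 6) (nat_lit 71) (nat_lit 4) (nat_lit 24) (nat_lit 44) (nat_lit 43))) (PT.nd (nat_lit 94) (PT.lf (nat_lit 6636) (nat_lit 6) (nat_lit 79) (nat_lit 4) (nat_lit 25) (nat_lit 44) (nat_lit 42)) (PT.lf (nat_lit 7560) (nat_lit 6) (nat_lit 90) (nat_lit 4) (nat_lit 26) (nat_lit 44) (nat_lit 41))))))) (PT.nd (nat_lit 1222) (PT.nd (nat_lit 564) (PT.nd (nat_lit 282) (PT.nd (nat_lit 94) (PT.lf (nat_lit 8400) (nat_lit 6) (nat_lit 100) (nat_lit 4) (nat_lit 27)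 (nat_lit 44) (nat_lit 40)) (PT.nd (nat_lit 94) (PT.lf (nat_lit 9156) (nat_lit 6) (nat_lit 109) (nat_lit 4) (nat_lit 28) (nat_lit 44) (nat_lit 39)) (PT.lf (nat_lit 9828) (nat_lit 6) (nat_lit 117) (nat_lit 4) (nat_lit 29) (nat_lit 44) (nat_lit 38)))) (PT.nd (nat_lit 94) (PT.lf (nat_lit 10416) (nat_lit 6) (nat_lit 124) (nat_lit 4) (nat_lit 30) (nat_lit 44) (nat_lit 37)) (PT.nd (nat_lit 94) (PT.lf (nat_lit 10332) (nat_lit 6) (nat_lit 123) (nat_lit 4) (nat_lit 31) (nat_lit 44) (nat_lit 36)) (PT.lf (nat_lit 10248) (nat_lit 6) (nat_lit 122) (nat_lit 4) (nat_lit 32) (nat_lit 44) (nat_lit 35))))) (PT.nd (nat_lit 282) (PT.nd (nat_lit 94) (PT.lf (nat_lit 10164) (nat_lit 6) (nat_lit 121) (nat_lit 4) (nat_lit 33) (nat_lit 44) (nat_lit 34)) (PT.nd (nat_lit 94) (PT.lf (nat_lit 10164) (nat_lit 6) (nat_lit 121) (nat_lit 2) (nat_lit 34) (nat_lit 44) (nat_lit 33)) (PT.lf (nat_lit 10248) (nat_lit 6)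 (nat_lit 122) (nat_lit 2) (nat_lit 35) (nat_lit 44) (nat_lit 32)))) (PT.nd (nat_lit 188) (PT.nd (nat_lit 94) (PT.lf (nat_lit 10332) (nat_lit 6) (nat_lit 123) (nat_lit 2) (nat_lit 36) (nat_lit 44) (nat_lit 31)) (PT.lf (nat_lit 10416) (nat_lit 6) (nat_lit 124) (nat_lit 2) (nat_lit 37) (nat_lit 44) (nat_lit 30))) (PT.nd (nat_lit 94) (PT.lf (nat_lit 9828) (nat_lit 6) (nat_lit 117) (nat_lit 2) (nat_lit 38) (nat_lit 44) (nat_lit 29)) (PT.lf (nat_lit 9156) (nat_lit 6) (nat_lit 109) (nat_lit 2) (nat_lit 39) (nat_lit 44) (nat_lit 28)))))) (PT.nd (nat_lit 564) (PT.nd (nat_lit 282) (PT.nd (nat_lit 94) (PT.lf (nat_lit 8400) (nat_lit 6) (nat_lit 100) (nat_lit 2) (nat_lit 40) (nat_lit 44) (nat_lit 27)) (PT.nd (nat_lit 94) (PT.lf (nat_lit 7560) (nat_lit 6) (nat_lit 90) (nat_lit 2) (nat_lit 41) (nat_lit 44) (nat_lit 26)) (PT.lf (nat_lit 6636) (nat_lit 6) (nat_lit 79) (nat_lit 2) (nat_lit 42) (nat_lit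 44) (nat_lit 25)))) (PT.nd (nat_lit 94) (PT.lf (nat_lit 5964) (nat_lit 6) (nat_lit 71) (nat_lit 2) (nat_lit 43) (nat_lit 44) (nat_lit 24)) (PT.nd (nat_lit 94) (PT.lf (nat_lit 5460) (nat_lit 3) (nat_lit 65) (nat_lit 0) (nat_lit 44) (nat_lit 44) (nat_lit 23)) (PT.lf (nat_lit 4956) (nat_lit 6) (nat_lit 59) (nat_lit 0) (nat_lit 45) (nat_lit 44) (nat_lit 22))))) (PT.nd (nat_lit 282) (PT.nd (nat_lit 94) (PT.lf (nat_lit 4452) (nat_lit 6) (nat_lit 53) (nat_lit 0) (nat_lit 46) (nat_lit 44) (nat_lit 21)) (PT.nd (nat_lit 94) (PT.lf (nat_lit 4032) (nat_lit 6) (nat_lit 48) (nat_lit 0) (nat_lit 47) (nat_lit 44) (nat_lit 20)) (PT.lf (nat_lit 3528) (nat_lit 6) (nat_lit 42) (nat_lit 0) (nat_lit 48) (nat_lit 44) (nat_lit 19)))) (PT.nd (nat_lit 52546) (PT.nd (nat_lit 94) (PT.lf (nat_lit 3108) (nat_lit 6) (nat_lit 37) (nat_lit 0) (nat_lit 49) (nat_lit 44) (nat_lit 18)) (PT.lf (nat_lit 2688) (nat_lit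 6) (nat_lit 32) (nat_lit 0) (nat_lit 50) (nat_lit 44) (nat_lit 17))) (PT.nd (nat_lit 94) (PT.lf (nat_lit 2100) (nat_lit 6) (nat_lit 25) (nat_lit 5) (nat_lit 15) (nat_lit 45) (nat_lit 51)) (PT.lf (nat_lit 2436) (nat_lit 6) (nat_lit 29) (nat_lit 5) (nat_lit 16) (nat_lit 45) (nat_lit 50))))))))
noncomputable def pc11 : PT := (PT.nd (nat_lit 2444) (PT.nd (nat_lit 1222) (PT.nd (nat_lit 564) (PT.nd (nat_lit 282) (PT.nd (nat_lit 94) (PT.lf (nat_lit 2772) (nat_lit 6) (nat_lit 33) (nat_lit 5) (nat_lit 17) (nat_lit 45) (nat_lit 49)) (PT.nd (nat_lit 94) (PT.lf (nat_lit 3192) (nat_lit 6) (nat_lit 38) (nat_lit 5) (nat_lit 18) (nat_lit 45) (nat_lit 48)) (PT.lf (nat_lit 3612) (nat_lit 6) (nat_lit 43) (nat_lit 5) (nat_lit 19) (nat_lit 45) (nat_lit 47)))) (PT.nd (nat_lit 94) (PT.lf (nat_lit 4116) (nat_lit 6) (nat_lit 49) (nat_lit 5) (nat_lit 20) (nat_lit 45) (nat_lit 46)) (PT.nd (nat_lit 94) (PT.lf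 (nat_lit 4536) (nat_lit 3) (nat_lit 54) (nat_lit 4) (nat_lit 21) (nat_lit 45) (nat_lit 45)) (PT.lf (nat_lit 4956) (nat_lit 6) (nat_lit 59) (nat_lit 4) (nat_lit 22) (nat_lit 45) (nat_lit 44))))) (PT.nd (nat_lit 282) (PT.nd (nat_lit 94) (PT.lf (nat_lit 5376) (nat_lit 6) (nat_lit 64) (nat_lit 4) (nat_lit 23) (nat_lit 45) (nat_lit 43)) (PT.nd (nat_lit 94) (PT.lf (nat_lit 5880) (nat_lit 6) (nat_lit 70) (nat_lit 4) (nat_lit 24) (nat_lit 45) (nat_lit 42)) (PT.lf (nat_lit 6552) (nat_lit 6) (nat_lit 78) (nat_lit 4) (nat_lit 25) (nat_lit 45) (nat_lit 41)))) (PT.nd (nat_lit 188) (PT.nd (nat_lit 94) (PT.lf (nat_lit 7476) (nat_lit 6) (nat_lit 89) (nat_lit 4) (nat_lit 26) (nat_lit 45) (nat_lit 40)) (PT.lf (nat_lit 8316) (nat_lit 6) (nat_lit 99) (nat_lit 4) (nat_lit 27) (nat_lit 45) (nat_lit 39))) (PT.nd (nat_lit 94) (PT.lf (nat_lit 9072) (nat_lit 6) (nat_lit 108) (nat_lit 4) (nat_lit 28) (nat_lit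 45) (nat_lit 38)) (PT.lf (nat_lit 9744) (nat_lit 6) (nat_lit 116) (nat_lit 4) (nat_lit 29) (nat_lit 45) (nat_lit 37)))))) (PT.nd (nat_lit 564) (PT.nd (nat_lit 282) (PT.nd (nat_lit 94) (PT.lf (nat_lit 9660) (nat_lit 6) (nat_lit 115) (nat_lit 4) (nat_lit 30) (nat_lit 45) (nat_lit 36)) (PT.nd (nat_lit 94) (PT.lf (nat_lit 9576) (nat_lit 6) (nat_lit 114) (nat_lit 4) (nat_lit 31) (nat_lit 45) (nat_lit 35)) (PT.lf (nat_lit 9492) (nat_lit 6) (nat_lit 113) (nat_lit 4) (nat_lit 32) (nat_lit 45) (nat_lit 34)))) (PT.nd (nat_lit 94) (PT.lf (nat_lit 9408) (nat_lit 3) (nat_lit 112) (nat_lit 2) (nat_lit 33) (nat_lit 45) (nat_lit 33)) (PT.nd (nat_lit 94) (PT.lf (nat_lit 9492) (nat_lit 6) (nat_lit 113) (nat_lit 2) (nat_lit 34) (nat_lit 45) (nat_lit 32)) (PT.lf (nat_lit 9576) (nat_lit 6) (nat_lit 114) (nat_lit 2) (nat_lit 35) (nat_lit 45) (nat_lit 31))))) (PT.nd (nat_lit 282) (PT.nd (nat_lit 94) (PT.lf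 (nat_lit 9660) (nat_lit 6) (nat_lit 115) (nat_lit 2) (nat_lit 36) (nat_lit 45) (nat_lit 30)) (PT.nd (nat_lit 94) (PT.lf (nat_lit 9744) (nat_lit 6) (nat_lit 116) (nat_lit 2) (nat_lit 37) (nat_lit 45) (nat_lit 29)) (PT.lf (nat_lit 9072) (nat_lit 6) (nat_lit 108) (nat_lit 2) (nat_lit 38) (nat_lit 45) (nat_lit 28)))) (PT.nd (nat_lit 188) (PT.nd (nat_lit 94) (PT.lf (nat_lit 8316) (nat_lit 6) (nat_lit 99) (nat_lit 2) (nat_lit 39) (nat_lit 45) (nat_lit 27)) (PT.lf (nat_lit 7476) (nat_lit 6) (nat_lit 89) (nat_lit 2) (nat_lit 40) (nat_lit 45) (nat_lit 26))) (PT.nd (nat_lit 94) (PT.lf (nat_lit 6552) (nat_lit 6) (nat_lit 78) (nat_lit 2) (nat_lit 41) (nat_lit 45) (nat_lit 25)) (PT.lf (nat_lit 5880) (nat_lit 6) (nat_lit 70) (nat_lit 2) (nat_lit 42) (nat_lit 45) (nat_lit 24))))))) (PT.nd (nat_lit 53392) (PT.nd (nat_lit 564) (PT.nd (nat_lit 282) (PT.nd (nat_lit 94) (PT.lf (nat_lit 5376) (nat_lit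 6) (nat_lit 64) (nat_lit 2) (nat_lit 43) (nat_lit 45) (nat_lit 23)) (PT.nd (nat_lit 94) (PT.lf (nat_lit 4956) (nat_lit 6) (nat_lit 59) (nat_lit 2) (nat_lit 44) (nat_lit 45) (nat_lit 22)) (PT.lf (nat_lit 4536) (nat_lit 3) (nat_lit 54) (nat_lit 0) (nat_lit 45) (nat_lit 45) (nat_lit 21)))) (PT.nd (nat_lit 94) (PT.lf (nat_lit 4116) (nat_lit 6) (nat_lit 49) (nat_lit 0) (nat_lit 46) (nat_lit 45) (nat_lit 20)) (PT.nd (nat_lit 94) (PT.lf (nat_lit 3612) (nat_lit 6) (nat_lit 43) (nat_lit 0) (nat_lit 47) (nat_lit 45) (nat_lit 19)) (PT.lf (nat_lit 3192) (nat_lit 6) (nat_lit 38) (nat_lit 0) (nat_lit 48) (nat_lit 45) (nat_lit 18))))) (PT.nd (nat_lit 52452) (PT.nd (nat_lit 94) (PT.lf (nat_lit 2772) (nat_lit 6) (nat_lit 33) (nat_lit 0) (nat_lit 49) (nat_lit 45) (nat_lit 17)) (PT.nd (nat_lit 94) (PT.lf (nat_lit 2436) (nat_lit 6) (nat_lit 29) (nat_lit 0) (nat_lit 50) (nat_lit 45) (nat_lit 16)) (PT.lf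 (nat_lit 2100) (nat_lit 6) (nat_lit 25) (nat_lit 0) (nat_lit 51) (nat_lit 45) (nat_lit 15)))) (PT.nd (nat_lit 188) (PT.nd (nat_lit 94) (PT.lf (nat_lit 1848) (nat_lit 6) (nat_lit 22) (nat_lit 5) (nat_lit 14) (nat_lit 46) (nat_lit 51)) (PT.lf (nat_lit 2184) (nat_lit 6) (nat_lit 26) (nat_lit 5) (nat_lit 15) (nat_lit 46) (nat_lit 50))) (PT.nd (nat_lit 94) (PT.lf (nat_lit 2520) (nat_lit 6) (nat_lit 30) (nat_lit 5) (nat_lit 16) (nat_lit 46) (nat_lit 49)) (PT.lf (nat_lit 2856) (nat_lit 6) (nat_lit 34) (nat_lit 5) (nat_lit 17) (nat_lit 46) (nat_lit 48)))))) (PT.nd (nat_lit 658) (PT.nd (nat_lit 282) (PT.nd (nat_lit 94) (PT.lf (nat_lit 3276) (nat_lit 6) (nat_lit 39) (nat_lit 5) (nat_lit 18) (nat_lit 46) (nat_lit 47)) (PT.nd (nat_lit 94) (PT.lf (nat_lit 3696) (nat_lit 3) (nat_lit 44) (nat_lit 4) (nat_lit 19) (nat_lit 46) (nat_lit 46)) (PT.lf (nat_lit 4116) (nat_lit 6) (nat_lit 49) (nat_lit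 4) (nat_lit 20) (nat_lit 46) (nat_lit 45)))) (PT.nd (nat_lit 188) (PT.nd (nat_lit 94) (PT.lf (nat_lit 4452) (nat_lit 6) (nat_lit 53) (nat_lit 4) (nat_lit 21) (nat_lit 46) (nat_lit 44)) (PT.lf (nat_lit 4872) (nat_lit 6) (nat_lit 58) (nat_lit 4) (nat_lit 22) (nat_lit 46) (nat_lit 43))) (PT.nd (nat_lit 94) (PT.lf (nat_lit 5292) (nat_lit 6) (nat_lit 63) (nat_lit 4) (nat_lit 23) (nat_lit 46) (nat_lit 42)) (PT.lf (nat_lit 5796) (nat_lit 6) (nat_lit 69) (nat_lit 4) (nat_lit 24) (nat_lit 46) (nat_lit 41))))) (PT.nd (nat_lit 282) (PT.nd (nat_lit 94) (PT.lf (nat_lit 6468) (nat_lit 6) (nat_lit 77) (nat_lit 4) (nat_lit 25) (nat_lit 46) (nat_lit 40)) (PT.nd (nat_lit 94) (PT.lf (nat_lit 7392) (nat_lit 6) (nat_lit 88) (nat_lit 4) (nat_lit 26) (nat_lit 46) (nat_lit 39)) (PT.lf (nat_lit 8232) (nat_lit 6) (nat_lit 98) (nat_lit 4) (nat_lit 27) (nat_lit 46) (nat_lit 38)))) (PT.nd (nat_lit 188) (PT.nd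 (nat_lit 94) (PT.lf (nat_lit 8988) (nat_lit 6) (nat_lit 107) (nat_lit 4) (nat_lit 28) (nat_lit 46) (nat_lit 37)) (PT.lf (nat_lit 8904) (nat_lit 6) (nat_lit 106) (nat_lit 4) (nat_lit 29) (nat_lit 46) (nat_lit 36))) (PT.nd (nat_lit 94) (PT.lf (nat_lit 8820) (nat_lit 6) (nat_lit 105) (nat_lit 4) (nat_lit 30) (nat_lit 46) (nat_lit 35)) (PT.lf (nat_lit 8736) (nat_lit 6) (nat_lit 104) (nat_lit 4) (nat_lit 31) (nat_lit 46) (nat_lit 34))))))))
noncomputable def pc12 : PT := (PT.nd (nat_lit 54520) (PT.nd (nat_lit 1222) (PT.nd (nat_lit 564) (PT.nd (nat_lit 282) (PT.nd (nat_lit 94) (PT.lf (nat_lit 8652) (nat_lit 6) (nat_lit 103) (nat_lit 4) (nat_lit 32) (nat_lit 46) (nat_lit 33)) (PT.nd (nat_lit 94) (PT.lf (nat_lit 8652) (nat_lit 6) (nat_lit 103) (nat_lit 2) (nat_lit 33) (nat_lit 46) (nat_lit 32)) (PT.lf (nat_lit 8736) (nat_lit 6) (nat_lit 104) (nat_lit 2) (nat_lit 34) (nat_lit 46) (nat_lit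 31)))) (PT.nd (nat_lit 94) (PT.lf (nat_lit 8820) (nat_lit 6) (nat_lit 105) (nat_lit 2) (nat_lit 35) (nat_lit 46) (nat_lit 30)) (PT.nd (nat_lit 94) (PT.lf (nat_lit 8904) (nat_lit 6) (nat_lit 106) (nat_lit 2) (nat_lit 36) (nat_lit 46) (nat_lit 29)) (PT.lf (nat_lit 8988) (nat_lit 6) (nat_lit 107) (nat_lit 2) (nat_lit 37) (nat_lit 46) (nat_lit 28))))) (PT.nd (nat_lit 282) (PT.nd (nat_lit 94) (PT.lf (nat_lit 8232) (nat_lit 6) (nat_lit 98) (nat_lit 2) (nat_lit 38) (nat_lit 46) (nat_lit 27)) (PT.nd (nat_lit 94) (PT.lf (nat_lit 7392) (nat_lit 6) (nat_lit 88) (nat_lit 2) (nat_lit 39) (nat_lit 46) (nat_lit 26)) (PT.lf (nat_lit 6468) (nat_lit 6) (nat_lit 77) (nat_lit 2) (nat_lit 40) (nat_lit 46) (nat_lit 25)))) (PT.nd (nat_lit 188) (PT.nd (nat_lit 94) (PT.lf (nat_lit 5796) (nat_lit 6) (nat_lit 69) (nat_lit 2) (nat_lit 41) (nat_lit 46) (nat_lit 24)) (PT.lf (nat_lit 5292) (nat_lit 6) (nat_lit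 63) (nat_lit 2) (nat_lit 42) (nat_lit 46) (nat_lit 23))) (PT.nd (nat_lit 94) (PT.lf (nat_lit 4872) (nat_lit 6) (nat_lit 58) (nat_lit 2) (nat_lit 43) (nat_lit 46) (nat_lit 22)) (PT.lf (nat_lit 4452) (nat_lit 6) (nat_lit 53) (nat_lit 2) (nat_lit 44) (nat_lit 46) (nat_lit 21)))))) (PT.nd (nat_lit 564) (PT.nd (nat_lit 282) (PT.nd (nat_lit 94) (PT.lf (nat_lit 4116) (nat_lit 6) (nat_lit 49) (nat_lit 2) (nat_lit 45) (nat_lit 46) (nat_lit 20)) (PT.nd (nat_lit 94) (PT.lf (nat_lit 3696) (nat_lit 3) (nat_lit 44) (nat_lit 0) (nat_lit 46) (nat_lit 46) (nat_lit 19)) (PT.lf (nat_lit 3276) (nat_lit 6) (nat_lit 39) (nat_lit 0) (nat_lit 47) (nat_lit 46) (nat_lit 18)))) (PT.nd (nat_lit 94) (PT.lf (nat_lit 2856) (nat_lit 6) (nat_lit 34) (nat_lit 0) (nat_lit 48) (nat_lit 46) (nat_lit 17)) (PT.nd (nat_lit 94) (PT.lf (nat_lit 2520) (nat_lit 6) (nat_lit 30) (nat_lit 0) (nat_lit 49) (nat_lit 46) (nat_lit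 16)) (PT.lf (nat_lit 2184) (nat_lit 6) (nat_lit 26) (nat_lit 0) (nat_lit 50) (nat_lit 46) (nat_lit 15))))) (PT.nd (nat_lit 52358) (PT.nd (nat_lit 52170) (PT.lf (nat_lit 1848) (nat_lit 6) (nat_lit 22) (nat_lit 0) (nat_lit 51) (nat_lit 46) (nat_lit 14)) (PT.nd (nat_lit 94) (PT.lf (nat_lit 1596) (nat_lit 6) (nat_lit 19) (nat_lit 5) (nat_lit 13) (nat_lit 47) (nat_lit 51)) (PT.lf (nat_lit 1932) (nat_lit 6) (nat_lit 23) (nat_lit 5) (nat_lit 14) (nat_lit 47) (nat_lit 50)))) (PT.nd (nat_lit 188) (PT.nd (nat_lit 94) (PT.lf (nat_lit 2268) (nat_lit 6) (nat_lit 27) (nat_lit 5) (nat_lit 15) (nat_lit 47) (nat_lit 49)) (PT.lf (nat_lit 2604) (nat_lit 6) (nat_lit 31) (nat_lit 5) (nat_lit 16) (nat_lit 47) (nat_lit 48))) (PT.nd (nat_lit 94) (PT.lf (nat_lit 2940) (nat_lit 3) (nat_lit 35) (nat_lit 4) (nat_lit 17) (nat_lit 47) (nat_lit 47)) (PT.lf (nat_lit 3276) (nat_lit 6) (nat_lit 39) (nat_lit 4) (nat_lit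 18) (nat_lit 47) (nat_lit 46))))))) (PT.nd (nat_lit 1222) (PT.nd (nat_lit 564) (PT.nd (nat_lit 282) (PT.nd (nat_lit 94) (PT.lf (nat_lit 3612) (nat_lit 6) (nat_lit 43) (nat_lit 4) (nat_lit 19) (nat_lit 47) (nat_lit 45)) (PT.nd (nat_lit 94) (PT.lf (nat_lit 4032) (nat_lit 6) (nat_lit 48) (nat_lit 4) (nat_lit 20) (nat_lit 47) (nat_lit 44)) (PT.lf (nat_lit 4368) (nat_lit 6) (nat_lit 52) (nat_lit 4) (nat_lit 21) (nat_lit 47) (nat_lit 43)))) (PT.nd (nat_lit 94) (PT.lf (nat_lit 4788) (nat_lit 6) (nat_lit 57) (nat_lit 4) (nat_lit 22) (nat_lit 47) (nat_lit 42)) (PT.nd (nat_lit 94) (PT.lf (nat_lit 5208) (nat_lit 6) (nat_lit 62) (nat_lit 4) (nat_lit 23) (nat_lit 47) (nat_lit 41)) (PT.lf (nat_lit 5712) (nat_lit 6) (nat_lit 68) (nat_lit 4) (nat_lit 24) (nat_lit 47) (nat_lit 40))))) (PT.nd (nat_lit 282) (PT.nd (nat_lit 94) (PT.lf (nat_lit 6384) (nat_lit 6) (nat_lit 76) (nat_lit 4) (nat_lit 25)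 (nat_lit 47) (nat_lit 39)) (PT.nd (nat_lit 94) (PT.lf (nat_lit 7308) (nat_lit 6) (nat_lit 87) (nat_lit 4) (nat_lit 26) (nat_lit 47) (nat_lit 38)) (PT.lf (nat_lit 8148) (nat_lit 6) (nat_lit 97) (nat_lit 4) (nat_lit 27) (nat_lit 47) (nat_lit 37)))) (PT.nd (nat_lit 188) (PT.nd (nat_lit 94) (PT.lf (nat_lit 8064) (nat_lit 6) (nat_lit 96) (nat_lit 4) (nat_lit 28) (nat_lit 47) (nat_lit 36)) (PT.lf (nat_lit 7980) (nat_lit 6) (nat_lit 95) (nat_lit 4) (nat_lit 29) (nat_lit 47) (nat_lit 35))) (PT.nd (nat_lit 94) (PT.lf (nat_lit 7896) (nat_lit 6) (nat_lit 94) (nat_lit 4) (nat_lit 30) (nat_lit 47) (nat_lit 34)) (PT.lf (nat_lit 7812) (nat_lit 6) (nat_lit 93) (nat_lit 4) (nat_lit 31) (nat_lit 47) (nat_lit 33)))))) (PT.nd (nat_lit 564) (PT.nd (nat_lit 282) (PT.nd (nat_lit 94) (PT.lf (nat_lit 7728) (nat_lit 3) (nat_lit 92) (nat_lit 2) (nat_lit 32) (nat_lit 47) (nat_lit 32)) (PT.nd (nat_lit 94) (PT.lf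 (nat_lit 7812) (nat_lit 6) (nat_lit 93) (nat_lit 2) (nat_lit 33) (nat_lit 47) (nat_lit 31)) (PT.lf (nat_lit 7896) (nat_lit 6) (nat_lit 94) (nat_lit 2) (nat_lit 34) (nat_lit 47) (nat_lit 30)))) (PT.nd (nat_lit 94) (PT.lf (nat_lit 7980) (nat_lit 6) (nat_lit 95) (nat_lit 2) (nat_lit 35) (nat_lit 47) (nat_lit 29)) (PT.nd (nat_lit 94) (PT.lf (nat_lit 8064) (nat_lit 6) (nat_lit 96) (nat_lit 2) (nat_lit 36) (nat_lit 47) (nat_lit 28)) (PT.lf (nat_lit 8148) (nat_lit 6) (nat_lit 97) (nat_lit 2) (nat_lit 37) (nat_lit 47) (nat_lit 27))))) (PT.nd (nat_lit 282) (PT.nd (nat_lit 94) (PT.lf (nat_lit 7308) (nat_lit 6) (nat_lit 87) (nat_lit 2) (nat_lit 38) (nat_lit 47) (nat_lit 26)) (PT.nd (nat_lit 94) (PT.lf (nat_lit 6384) (nat_lit 6) (nat_lit 76) (nat_lit 2) (nat_lit 39) (nat_lit 47) (nat_lit 25)) (PT.lf (nat_lit 5712) (nat_lit 6) (nat_lit 68) (nat_lit 2) (nat_lit 40) (nat_lit 47) (nat_lit 24))))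 (PT.nd (nat_lit 188) (PT.nd (nat_lit 94) (PT.lf (nat_lit 5208) (nat_lit 6) (nat_lit 62) (nat_lit 2) (nat_lit 41) (nat_lit 47) (nat_lit 23)) (PT.lf (nat_lit 4788) (nat_lit 6) (nat_lit 57) (nat_lit 2) (nat_lit 42) (nat_lit 47) (nat_lit 22))) (PT.nd (nat_lit 94) (PT.lf (nat_lit 4368) (nat_lit 6) (nat_lit 52) (nat_lit 2) (nat_lit 43) (nat_lit 47) (nat_lit 21)) (PT.lf (nat_lit 4032) (nat_lit 6) (nat_lit 48) (nat_lit 2) (nat_lit 44) (nat_lit 47) (nat_lit 20))))))))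
noncomputable def pc13 : PT := (PT.nd (nat_lit 54332) (PT.nd (nat_lit 53110) (PT.nd (nat_lit 564) (PT.nd (nat_lit 282) (PT.nd (nat_lit 94) (PT.lf (nat_lit 3612) (nat_lit 6) (nat_lit 43) (nat_lit 2) (nat_lit 45) (nat_lit 47) (nat_lit 19)) (PT.nd (nat_lit 94) (PT.lf (nat_lit 3276) (nat_lit 6) (nat_lit 39) (nat_lit 2) (nat_lit 46) (nat_lit 47) (nat_lit 18)) (PT.lf (nat_lit 2940) (nat_lit 3) (nat_lit 35) (nat_lit 0) (nat_lit 47) (nat_lit 47) (nat_lit 17)))) (PT.nd (nat_lit 94) (PT.lf (nat_lit 2604) (nat_lit 6) (nat_lit 31) (nat_lit 0) (nat_lit 48) (nat_lit 47) (nat_lit 16)) (PT.nd (nat_lit 94) (PT.lf (nat_lit 2268) (nat_lit 6) (nat_lit 27) (nat_lit 0) (nat_lit 49) (nat_lit 47) (nat_lit 15)) (PT.lf (nat_lit 1932) (nat_lit 6) (nat_lit 23) (nat_lit 0) (nat_lit 50) (nat_lit 47) (nat_lit 14))))) (PT.nd (nat_lit 52170) (PT.nd (nat_lit 51982) (PT.lf (nat_lit 1596) (nat_lit 6) (nat_lit 19) (nat_lit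 0) (nat_lit 51) (nat_lit 47) (nat_lit 13)) (PT.nd (nat_lit 94) (PT.lf (nat_lit 1176) (nat_lit 6) (nat_lit 14) (nat_lit 5) (nat_lit 11) (nat_lit 48) (nat_lit 52)) (PT.lf (nat_lit 1428) (nat_lit 6) (nat_lit 17) (nat_lit 5) (nat_lit 12) (nat_lit 48) (nat_lit 51)))) (PT.nd (nat_lit 188) (PT.nd (nat_lit 94) (PT.lf (nat_lit 1680) (nat_lit 6) (nat_lit 20) (nat_lit 5) (nat_lit 13) (nat_lit 48) (nat_lit 50)) (PT.lf (nat_lit 2016) (nat_lit 6) (nat_lit 24) (nat_lit 5) (nat_lit 14) (nat_lit 48) (nat_lit 49))) (PT.nd (nat_lit 94) (PT.lf (nat_lit 2352) (nat_lit 3) (nat_lit 28) (nat_lit 4) (nat_lit 15) (nat_lit 48) (nat_lit 48)) (PT.lf (nat_lit 2604) (nat_lit 6) (nat_lit 31) (nat_lit 4) (nat_lit 16) (nat_lit 48) (nat_lit 47)))))) (PT.nd (nat_lit 564) (PT.nd (nat_lit 282) (PT.nd (nat_lit 94) (PT.lf (nat_lit 2856) (nat_lit 6) (nat_lit 34) (nat_lit 4) (nat_lit 17) (nat_lit 48) (nat_lit 46)) (PT.nd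 (nat_lit 94) (PT.lf (nat_lit 3192) (nat_lit 6) (nat_lit 38) (nat_lit 4) (nat_lit 18) (nat_lit 48) (nat_lit 45)) (PT.lf (nat_lit 3528) (nat_lit 6) (nat_lit 42) (nat_lit 4) (nat_lit 19) (nat_lit 48) (nat_lit 44)))) (PT.nd (nat_lit 94) (PT.lf (nat_lit 3948) (nat_lit 6) (nat_lit 47) (nat_lit 4) (nat_lit 20) (nat_lit 48) (nat_lit 43)) (PT.nd (nat_lit 94) (PT.lf (nat_lit 4284) (nat_lit 6) (nat_lit 51) (nat_lit 4) (nat_lit 21) (nat_lit 48) (nat_lit 42)) (PT.lf (nat_lit 4704) (nat_lit 6) (nat_lit 56) (nat_lit 4) (nat_lit 22) (nat_lit 48) (nat_lit 41))))) (PT.nd (nat_lit 282) (PT.nd (nat_lit 94) (PT.lf (nat_lit 5124) (nat_lit 6) (nat_lit 61) (nat_lit 4) (nat_lit 23) (nat_lit 48) (nat_lit 40)) (PT.nd (nat_lit 94) (PT.lf (nat_lit 5628) (nat_lit 6) (nat_lit 67) (nat_lit 4) (nat_lit 24) (nat_lit 48) (nat_lit 39)) (PT.lf (nat_lit 6300) (nat_lit 6) (nat_lit 75) (nat_lit 4) (nat_lit 25) (nat_lit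 48) (nat_lit 38)))) (PT.nd (nat_lit 188) (PT.nd (nat_lit 94) (PT.lf (nat_lit 7224) (nat_lit 6) (nat_lit 86) (nat_lit 4) (nat_lit 26) (nat_lit 48) (nat_lit 37)) (PT.lf (nat_lit 7140) (nat_lit 6) (nat_lit 85) (nat_lit 4) (nat_lit 27) (nat_lit 48) (nat_lit 36))) (PT.nd (nat_lit 94) (PT.lf (nat_lit 7056) (nat_lit 6) (nat_lit 84) (nat_lit 4) (nat_lit 28) (nat_lit 48) (nat_lit 35)) (PT.lf (nat_lit 6972) (nat_lit 6) (nat_lit 83) (nat_lit 4) (nat_lit 29) (nat_lit 48) (nat_lit 34))))))) (PT.nd (nat_lit 1222) (PT.nd (nat_lit 564) (PT.nd (nat_lit 282) (PT.nd (nat_lit 94) (PT.lf (nat_lit 6888) (nat_lit 6) (nat_lit 82) (nat_lit 4) (nat_lit 30) (nat_lit 48) (nat_lit 33)) (PT.nd (nat_lit 94) (PT.lf (nat_lit 6804) (nat_lit 6) (nat_lit 81) (nat_lit 4) (nat_lit 31) (nat_lit 48) (nat_lit 32)) (PT.lf (nat_lit 6804) (nat_lit 6) (nat_lit 81) (nat_lit 2) (nat_lit 32) (nat_lit 48) (nat_lit 31)))) (PT.nd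 (nat_lit 94) (PT.lf (nat_lit 6888) (nat_lit 6) (nat_lit 82) (nat_lit 2) (nat_lit 33) (nat_lit 48) (nat_lit 30)) (PT.nd (nat_lit 94) (PT.lf (nat_lit 6972) (nat_lit 6) (nat_lit 83) (nat_lit 2) (nat_lit 34) (nat_lit 48) (nat_lit 29)) (PT.lf (nat_lit 7056) (nat_lit 6) (nat_lit 84) (nat_lit 2) (nat_lit 35) (nat_lit 48) (nat_lit 28))))) (PT.nd (nat_lit 282) (PT.nd (nat_lit 94) (PT.lf (nat_lit 7140) (nat_lit 6) (nat_lit 85) (nat_lit 2) (nat_lit 36) (nat_lit 48) (nat_lit 27)) (PT.nd (nat_lit 94) (PT.lf (nat_lit 7224) (nat_lit 6) (nat_lit 86) (nat_lit 2) (nat_lit 37) (nat_lit 48) (nat_lit 26)) (PT.lf (nat_lit 6300) (nat_lit 6) (nat_lit 75) (nat_lit 2) (nat_lit 38) (nat_lit 48) (nat_lit 25)))) (PT.nd (nat_lit 188) (PT.nd (nat_lit 94) (PT.lf (nat_lit 5628) (nat_lit 6) (nat_lit 67) (nat_lit 2) (nat_lit 39) (nat_lit 48) (nat_lit 24)) (PT.lf (nat_lit 5124) (nat_lit 6) (nat_lit 61) (nat_lit 2)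 (nat_lit 40) (nat_lit 48) (nat_lit 23))) (PT.nd (nat_lit 94) (PT.lf (nat_lit 4704) (nat_lit 6) (nat_lit 56) (nat_lit 2) (nat_lit 41) (nat_lit 48) (nat_lit 22)) (PT.lf (nat_lit 4284) (nat_lit 6) (nat_lit 51) (nat_lit 2) (nat_lit 42) (nat_lit 48) (nat_lit 21)))))) (PT.nd (nat_lit 658) (PT.nd (nat_lit 282) (PT.nd (nat_lit 94) (PT.lf (nat_lit 3948) (nat_lit 6) (nat_lit 47) (nat_lit 2) (nat_lit 43) (nat_lit 48) (nat_lit 20)) (PT.nd (nat_lit 94) (PT.lf (nat_lit 3528) (nat_lit 6) (nat_lit 42) (nat_lit 2) (nat_lit 44) (nat_lit 48) (nat_lit 19)) (PT.lf (nat_lit 3192) (nat_lit 6) (nat_lit 38) (nat_lit 2) (nat_lit 45) (nat_lit 48) (nat_lit 18)))) (PT.nd (nat_lit 188) (PT.nd (nat_lit 94) (PT.lf (nat_lit 2856) (nat_lit 6) (nat_lit 34) (nat_lit 2) (nat_lit 46) (nat_lit 48) (nat_lit 17)) (PT.lf (nat_lit 2604) (nat_lit 6) (nat_lit 31) (nat_lit 2) (nat_lit 47) (nat_lit 48) (nat_lit 16))) (PT.nd (nat_lit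 94) (PT.lf (nat_lit 2352) (nat_lit 3) (nat_lit 28) (nat_lit 0) (nat_lit 48) (nat_lit 48) (nat_lit 15)) (PT.lf (nat_lit 2016) (nat_lit 6) (nat_lit 24) (nat_lit 0) (nat_lit 49) (nat_lit 48) (nat_lit 14))))) (PT.nd (nat_lit 51982) (PT.nd (nat_lit 94) (PT.lf (nat_lit 1680) (nat_lit 6) (nat_lit 20) (nat_lit 0) (nat_lit 50) (nat_lit 48) (nat_lit 13)) (PT.nd (nat_lit 94) (PT.lf (nat_lit 1428) (nat_lit 6) (nat_lit 17) (nat_lit 0) (nat_lit 51) (nat_lit 48) (nat_lit 12)) (PT.lf (nat_lit 1176) (nat_lit 6) (nat_lit 14) (nat_lit 0) (nat_lit 52) (nat_lit 48) (nat_lit 11)))) (PT.nd (nat_lit 188) (PT.nd (nat_lit 94) (PT.lf (nat_lit 1008) (nat_lit 6) (nat_lit 12) (nat_lit 5) (nat_lit 10) (nat_lit 49) (nat_lit 52)) (PT.lf (nat_lit 1260) (nat_lit 6) (nat_lit 15) (nat_lit 5) (nat_lit 11) (nat_lit 49) (nat_lit 51))) (PT.nd (nat_lit 94) (PT.lf (nat_lit 1512) (nat_lit 6) (nat_lit 18) (nat_lit 5) (nat_lit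 12) (nat_lit 49) (nat_lit 50)) (PT.lf (nat_lit 1764) (nat_lit 3) (nat_lit 21) (nat_lit 4) (nat_lit 13) (nat_lit 49) (nat_lit 49))))))))
noncomputable def pc14 : PT := (PT.nd (nat_lit 3102) (PT.nd (nat_lit 1222) (PT.nd (nat_lit 564) (PT.nd (nat_lit 282) (PT.nd (nat_lit 94) (PT.lf (nat_lit 2016) (nat_lit 6) (nat_lit 24) (nat_lit 4) (nat_lit 14) (nat_lit 49) (nat_lit 48)) (PT.nd (nat_lit 94) (PT.lf (nat_lit 2268) (nat_lit 6) (nat_lit 27) (nat_lit 4) (nat_lit 15) (nat_lit 49) (nat_lit 47)) (PT.lf (nat_lit 2520) (nat_lit 6) (nat_lit 30) (nat_lit 4) (nat_lit 16) (nat_lit 49) (nat_lit 46)))) (PT.nd (nat_lit 94) (PT.lf (nat_lit 2772) (nat_lit 6) (nat_lit 33) (nat_lit 4) (nat_lit 17) (nat_lit 49) (nat_lit 45)) (PT.nd (nat_lit 94) (PT.lf (nat_lit 3108) (nat_lit 6) (nat_lit 37) (nat_lit 4) (nat_lit 18) (nat_lit 49) (nat_lit 44)) (PT.lf (nat_lit 3444) (nat_lit 6) (nat_lit 41) (nat_lit 4) (nat_lit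 19) (nat_lit 49) (nat_lit 43))))) (PT.nd (nat_lit 282) (PT.nd (nat_lit 94) (PT.lf (nat_lit 3864) (nat_lit 6) (nat_lit 46) (nat_lit 4) (nat_lit 20) (nat_lit 49) (nat_lit 42)) (PT.nd (nat_lit 94) (PT.lf (nat_lit 4200) (nat_lit 6) (nat_lit 50) (nat_lit 4) (nat_lit 21) (nat_lit 49) (nat_lit 41)) (PT.lf (nat_lit 4620) (nat_lit 6) (nat_lit 55) (nat_lit 4) (nat_lit 22) (nat_lit 49) (nat_lit 40)))) (PT.nd (nat_lit 188) (PT.nd (nat_lit 94) (PT.lf (nat_lit 5040) (nat_lit 6) (nat_lit 60) (nat_lit 4) (nat_lit 23) (nat_lit 49) (nat_lit 39)) (PT.lf (nat_lit 5544) (nat_lit 6) (nat_lit 66) (nat_lit 4) (nat_lit 24) (nat_lit 49) (nat_lit 38))) (PT.nd (nat_lit 94) (PT.lf (nat_lit 6216) (nat_lit 6) (nat_lit 74) (nat_lit 4) (nat_lit 25) (nat_lit 49) (nat_lit 37)) (PT.lf (nat_lit 6132) (nat_lit 6) (nat_lit 73) (nat_lit 4) (nat_lit 26) (nat_lit 49) (nat_lit 36)))))) (PT.nd (nat_lit 1222) (PT.nd (nat_lit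 940) (PT.nd (nat_lit 752) (PT.lf (nat_lit 6048) (nat_lit 6) (nat_lit 72) (nat_lit 4) (nat_lit 27) (nat_lit 49) (nat_lit 35)) (PT.nd (nat_lit 94) (PT.lf (nat_lit 6048) (nat_lit 6) (nat_lit 72) (nat_lit 2) (nat_lit 35) (nat_lit 49) (nat_lit 27)) (PT.lf (nat_lit 6132) (nat_lit 6) (nat_lit 73) (nat_lit 2) (nat_lit 36) (nat_lit 49) (nat_lit 26)))) (PT.nd (nat_lit 94) (PT.lf (nat_lit 6216) (nat_lit 6) (nat_lit 74) (nat_lit 2) (nat_lit 37) (nat_lit 49) (nat_lit 25)) (PT.nd (nat_lit 94) (PT.lf (nat_lit 5544) (nat_lit 6) (nat_lit 66) (nat_lit 2) (nat_lit 38) (nat_lit 49) (nat_lit 24)) (PT.lf (nat_lit 5040) (nat_lit 6) (nat_lit 60) (nat_lit 2) (nat_lit 39) (nat_lit 49) (nat_lit 23))))) (PT.nd (nat_lit 282) (PT.nd (nat_lit 94) (PT.lf (nat_lit 4620) (nat_lit 6) (nat_lit 55) (nat_lit 2) (nat_lit 40) (nat_lit 49) (nat_lit 22)) (PT.nd (nat_lit 94) (PT.lf (nat_lit 4200) (nat_lit 6) (nat_lit 50)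 (nat_lit 2) (nat_lit 41) (nat_lit 49) (nat_lit 21)) (PT.lf (nat_lit 3864) (nat_lit 6) (nat_lit 46) (nat_lit 2) (nat_lit 42) (nat_lit 49) (nat_lit 20)))) (PT.nd (nat_lit 188) (PT.nd (nat_lit 94) (PT.lf (nat_lit 3444) (nat_lit 6) (nat_lit 41) (nat_lit 2) (nat_lit 43) (nat_lit 49) (nat_lit 19)) (PT.lf (nat_lit 3108) (nat_lit 6) (nat_lit 37) (nat_lit 2) (nat_lit 44) (nat_lit 49) (nat_lit 18))) (PT.nd (nat_lit 94) (PT.lf (nat_lit 2772) (nat_lit 6) (nat_lit 33) (nat_lit 2) (nat_lit 45) (nat_lit 49) (nat_lit 17)) (PT.lf (nat_lit 2520) (nat_lit 6) (nat_lit 30) (nat_lit 2) (nat_lit 46) (nat_lit 49) (nat_lit 16))))))) (PT.nd (nat_lit 52734) (PT.nd (nat_lit 52076) (PT.nd (nat_lit 282) (PT.nd (nat_lit 94) (PT.lf (nat_lit 2268) (nat_lit 6) (nat_lit 27) (nat_lit 2) (nat_lit 47) (nat_lit 49) (nat_lit 15)) (PT.nd (nat_lit 94) (PT.lf (nat_lit 2016) (nat_lit 6) (nat_lit 24) (nat_lit 2) (nat_lit 48)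 (nat_lit 49) (nat_lit 14)) (PT.lf (nat_lit 1764) (nat_lit 3) (nat_lit 21) (nat_lit 0) (nat_lit 49) (nat_lit 49) (nat_lit 13)))) (PT.nd (nat_lit 94) (PT.lf (nat_lit 1512) (nat_lit 6) (nat_lit 18) (nat_lit 0) (nat_lit 50) (nat_lit 49) (nat_lit 12)) (PT.nd (nat_lit 94) (PT.lf (nat_lit 1260) (nat_lit 6) (nat_lit 15) (nat_lit 0) (nat_lit 51) (nat_lit 49) (nat_lit 11)) (PT.lf (nat_lit 1008) (nat_lit 6) (nat_lit 12) (nat_lit 0) (nat_lit 52) (nat_lit 49) (nat_lit 10))))) (PT.nd (nat_lit 282) (PT.nd (nat_lit 94) (PT.lf (nat_lit 672) (nat_lit 6) (nat_lit 8) (nat_lit 5) (nat_lit 8) (nat_lit 50) (nat_lit 53)) (PT.nd (nat_lit 94) (PT.lf (nat_lit 840) (nat_lit 6) (nat_lit 10) (nat_lit 5) (nat_lit 9) (nat_lit 50) (nat_lit 52)) (PT.lf (nat_lit 1092) (nat_lit 6) (nat_lit 13) (nat_lit 5) (nat_lit 10) (nat_lit 50) (nat_lit 51)))) (PT.nd (nat_lit 188) (PT.nd (nat_lit 94) (PT.lf (nat_lit 1344) (nat_lit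 3) (nat_lit 16) (nat_lit 4) (nat_lit 11) (nat_lit 50) (nat_lit 50)) (PT.lf (nat_lit 1512) (nat_lit 6) (nat_lit 18) (nat_lit 4) (nat_lit 12) (nat_lit 50) (nat_lit 49))) (PT.nd (nat_lit 94) (PT.lf (nat_lit 1680) (nat_lit 6) (nat_lit 20) (nat_lit 4) (nat_lit 13) (nat_lit 50) (nat_lit 48)) (PT.lf (nat_lit 1932) (nat_lit 6) (nat_lit 23) (nat_lit 4) (nat_lit 14) (nat_lit 50) (nat_lit 47)))))) (PT.nd (nat_lit 2538) (PT.nd (nat_lit 282) (PT.nd (nat_lit 94) (PT.lf (nat_lit 2184) (nat_lit 6) (nat_lit 26) (nat_lit 4) (nat_lit 15) (nat_lit 50) (nat_lit 46)) (PT.nd (nat_lit 94) (PT.lf (nat_lit 2436) (nat_lit 6) (nat_lit 29) (nat_lit 4) (nat_lit 16) (nat_lit 50) (nat_lit 45)) (PT.lf (nat_lit 2688) (nat_lit 6) (nat_lit 32) (nat_lit 4) (nat_lit 17) (nat_lit 50) (nat_lit 44)))) (PT.nd (nat_lit 188) (PT.nd (nat_lit 94) (PT.lf (nat_lit 3024) (nat_lit 6) (nat_lit 36) (nat_lit 4) (nat_lit 18) (nat_lit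 50) (nat_lit 43)) (PT.lf (nat_lit 3360) (nat_lit 6) (nat_lit 40) (nat_lit 4) (nat_lit 19) (nat_lit 50) (nat_lit 42))) (PT.nd (nat_lit 1974) (PT.lf (nat_lit 3780) (nat_lit 6) (nat_lit 45) (nat_lit 4) (nat_lit 20) (nat_lit 50) (nat_lit 41)) (PT.lf (nat_lit 3780) (nat_lit 6) (nat_lit 45) (nat_lit 2) (nat_lit 41) (nat_lit 50) (nat_lit 20))))) (PT.nd (nat_lit 282) (PT.nd (nat_lit 94) (PT.lf (nat_lit 3360) (nat_lit 6) (nat_lit 40) (nat_lit 2) (nat_lit 42) (nat_lit 50) (nat_lit 19)) (PT.nd (nat_lit 94) (PT.lf (nat_lit 3024) (nat_lit 6) (nat_lit 36) (nat_lit 2) (nat_lit 43) (nat_lit 50) (nat_lit 18)) (PT.lf (nat_lit 2688) (nat_lit 6) (nat_lit 32) (nat_lit 2) (nat_lit 44) (nat_lit 50) (nat_lit 17)))) (PT.nd (nat_lit 188) (PT.nd (nat_lit 94) (PT.lf (nat_lit 2436) (nat_lit 6) (nat_lit 29) (nat_lit 2) (nat_lit 45) (nat_lit 50) (nat_lit 16)) (PT.lf (nat_lit 2184) (nat_lit 6) (nat_lit 26) (nat_lit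 2) (nat_lit 46) (nat_lit 50) (nat_lit 15))) (PT.nd (nat_lit 94) (PT.lf (nat_lit 1932) (nat_lit 6) (nat_lit 23) (nat_lit 2) (nat_lit 47) (nat_lit 50) (nat_lit 14)) (PT.lf (nat_lit 1680) (nat_lit 6) (nat_lit 20) (nat_lit 2) (nat_lit 48) (nat_lit 50) (nat_lit 13))))))))
noncomputable def pc15 : PT := (PT.nd (nat_lit 107630) (PT.nd (nat_lit 52546) (PT.nd (nat_lit 51888) (PT.nd (nat_lit 282) (PT.nd (nat_lit 94) (PT.lf (nat_lit 1512) (nat_lit 6) (nat_lit 18) (nat_lit 2) (nat_lit 49) (nat_lit 50) (nat_lit 12)) (PT.nd (nat_lit 94) (PT.lf (nat_lit 1344) (nat_lit 3) (nat_lit 16) (nat_lit 0) (nat_lit 50) (nat_lit 50) (nat_lit 11)) (PT.lf (nat_lit 1092) (nat_lit 6) (nat_lit 13) (nat_lit 0) (nat_lit 51) (nat_lit 50) (nat_lit 10)))) (PT.nd (nat_lit 94) (PT.lf (nat_lit 840) (nat_lit 6) (nat_lit 10) (nat_lit 0) (nat_lit 52) (nat_lit 50) (nat_lit 9)) (PT.nd (nat_lit 51418) (PT.lf (nat_lit 672) (nat_lit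 6) (nat_lit 8) (nat_lit 0) (nat_lit 53) (nat_lit 50) (nat_lit 8)) (PT.lf (nat_lit 504) (nat_lit 6) (nat_lit 6) (nat_lit 5) (nat_lit 7) (nat_lit 51) (nat_lit 53))))) (PT.nd (nat_lit 282) (PT.nd (nat_lit 94) (PT.lf (nat_lit 756) (nat_lit 6) (nat_lit 9) (nat_lit 5) (nat_lit 8) (nat_lit 51) (nat_lit 52)) (PT.nd (nat_lit 94) (PT.lf (nat_lit 924) (nat_lit 3) (nat_lit 11) (nat_lit 4) (nat_lit 9) (nat_lit 51) (nat_lit 51)) (PT.lf (nat_lit 1092) (nat_lit 6) (nat_lit 13) (nat_lit 4) (nat_lit 10) (nat_lit 51) (nat_lit 50)))) (PT.nd (nat_lit 188) (PT.nd (nat_lit 94) (PT.lf (nat_lit 1260) (nat_lit 6) (nat_lit 15) (nat_lit 4) (nat_lit 11) (nat_lit 51) (nat_lit 49)) (PT.lf (nat_lit 1428) (nat_lit 6) (nat_lit 17) (nat_lit 4) (nat_lit 12) (nat_lit 51) (nat_lit 48))) (PT.nd (nat_lit 94) (PT.lf (nat_lit 1596) (nat_lit 6) (nat_lit 19) (nat_lit 4) (nat_lit 13) (nat_lit 51) (nat_lit 47)) (PT.lf (nat_lit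 1848) (nat_lit 6) (nat_lit 22) (nat_lit 4) (nat_lit 14) (nat_lit 51) (nat_lit 46)))))) (PT.nd (nat_lit 3290) (PT.nd (nat_lit 3008) (PT.nd (nat_lit 2820) (PT.lf (nat_lit 2100) (nat_lit 6) (nat_lit 25) (nat_lit 4) (nat_lit 15) (nat_lit 51) (nat_lit 45)) (PT.nd (nat_lit 94) (PT.lf (nat_lit 2100) (nat_lit 6) (nat_lit 25) (nat_lit 2) (nat_lit 45) (nat_lit 51) (nat_lit 15)) (PT.lf (nat_lit 1848) (nat_lit 6) (nat_lit 22) (nat_lit 2) (nat_lit 46) (nat_lit 51) (nat_lit 14)))) (PT.nd (nat_lit 94) (PT.lf (nat_lit 1596) (nat_lit 6) (nat_lit 19) (nat_lit 2) (nat_lit 47) (nat_lit 51) (nat_lit 13)) (PT.nd (nat_lit 94) (PT.lf (nat_lit 1428) (nat_lit 6) (nat_lit 17) (nat_lit 2) (nat_lit 48) (nat_lit 51) (nat_lit 12)) (PT.lf (nat_lit 1260) (nat_lit 6) (nat_lit 15) (nat_lit 2) (nat_lit 49) (nat_lit 51) (nat_lit 11))))) (PT.nd (nat_lit 282) (PT.nd (nat_lit 94) (PT.lf (nat_lit 1092) (nat_lit 6) (nat_lit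 13) (nat_lit 2) (nat_lit 50) (nat_lit 51) (nat_lit 10)) (PT.nd (nat_lit 94) (PT.lf (nat_lit 924) (nat_lit 3) (nat_lit 11) (nat_lit 0) (nat_lit 51) (nat_lit 51) (nat_lit 9)) (PT.lf (nat_lit 756) (nat_lit 6) (nat_lit 9) (nat_lit 0) (nat_lit 52) (nat_lit 51) (nat_lit 8)))) (PT.nd (nat_lit 51324) (PT.nd (nat_lit 51230) (PT.lf (nat_lit 504) (nat_lit 6) (nat_lit 6) (nat_lit 0) (nat_lit 53) (nat_lit 51) (nat_lit 7)) (PT.lf (nat_lit 252) (nat_lit 6) (nat_lit 3) (nat_lit 5) (nat_lit 5) (nat_lit 52) (nat_lit 54))) (PT.nd (nat_lit 94) (PT.lf (nat_lit 420) (nat_lit 6) (nat_lit 5) (nat_lit 5) (nat_lit 6) (nat_lit 52) (nat_lit 53)) (PT.lf (nat_lit 588) (nat_lit 3) (nat_lit 7) (nat_lit 4) (nat_lit 7) (nat_lit 52) (nat_lit 52))))))) (PT.nd (nat_lit 55554) (PT.nd (nat_lit 3948) (PT.nd (nat_lit 282) (PT.nd (nat_lit 94) (PT.lf (nat_lit 756) (nat_lit 6) (nat_lit 9) (nat_lit 4) (nat_lit 8) (nat_lit 52)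 (nat_lit 51)) (PT.nd (nat_lit 94) (PT.lf (nat_lit 840) (nat_lit 6) (nat_lit 10) (nat_lit 4) (nat_lit 9) (nat_lit 52) (nat_lit 50)) (PT.lf (nat_lit 1008) (nat_lit 6) (nat_lit 12) (nat_lit 4) (nat_lit 10) (nat_lit 52) (nat_lit 49)))) (PT.nd (nat_lit 3478) (PT.lf (nat_lit 1176) (nat_lit 6) (nat_lit 14) (nat_lit 4) (nat_lit 11) (nat_lit 52) (nat_lit 48)) (PT.nd (nat_lit 94) (PT.lf (nat_lit 1176) (nat_lit 6) (nat_lit 14) (nat_lit 2) (nat_lit 48) (nat_lit 52) (nat_lit 11)) (PT.lf (nat_lit 1008) (nat_lit 6) (nat_lit 12) (nat_lit 2) (nat_lit 49) (nat_lit 52) (nat_lit 10))))) (PT.nd (nat_lit 282) (PT.nd (nat_lit 94) (PT.lf (nat_lit 840) (nat_lit 6) (nat_lit 10) (nat_lit 2) (nat_lit 50) (nat_lit 52) (nat_lit 9)) (PT.nd (nat_lit 94) (PT.lf (nat_lit 756) (nat_lit 6) (nat_lit 9) (nat_lit 2) (nat_lit 51) (nat_lit 52) (nat_lit 8)) (PT.lf (nat_lit 588) (nat_lit 3) (nat_lit 7) (nat_lit 0) (nat_lit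 52) (nat_lit 52) (nat_lit 7)))) (PT.nd (nat_lit 51136) (PT.nd (nat_lit 94) (PT.lf (nat_lit 420) (nat_lit 6) (nat_lit 5) (nat_lit 0) (nat_lit 53) (nat_lit 52) (nat_lit 6)) (PT.lf (nat_lit 252) (nat_lit 6) (nat_lit 3) (nat_lit 0) (nat_lit 54) (nat_lit 52) (nat_lit 5))) (PT.nd (nat_lit 94) (PT.lf (nat_lit 168) (nat_lit 6) (nat_lit 2) (nat_lit 5) (nat_lit 4) (nat_lit 53) (nat_lit 54)) (PT.lf (nat_lit 336) (nat_lit 3) (nat_lit 4) (nat_lit 4) (nat_lit 5) (nat_lit 53) (nat_lit 53)))))) (PT.nd (nat_lit 4512) (PT.nd (nat_lit 4136) (PT.nd (nat_lit 94) (PT.lf (nat_lit 420) (nat_lit 6) (nat_lit 5) (nat_lit 4) (nat_lit 6) (nat_lit 53) (nat_lit 52)) (PT.nd (nat_lit 94) (PT.lf (nat_lit 504) (nat_lit 6) (nat_lit 6) (nat_lit 4) (nat_lit 7) (nat_lit 53) (nat_lit 51)) (PT.lf (nat_lit 672) (nat_lit 6) (nat_lit 8) (nat_lit 4) (nat_lit 8) (nat_lit 53) (nat_lit 50)))) (PT.nd (nat_lit 188) (PT.nd (nat_lit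 94) (PT.lf (nat_lit 672) (nat_lit 6) (nat_lit 8) (nat_lit 2) (nat_lit 50) (nat_lit 53) (nat_lit 8)) (PT.lf (nat_lit 504) (nat_lit 6) (nat_lit 6) (nat_lit 2) (nat_lit 51) (nat_lit 53) (nat_lit 7))) (PT.nd (nat_lit 94) (PT.lf (nat_lit 420) (nat_lit 6) (nat_lit 5) (nat_lit 2) (nat_lit 52) (nat_lit 53) (nat_lit 6)) (PT.lf (nat_lit 336) (nat_lit 3) (nat_lit 4) (nat_lit 0) (nat_lit 53) (nat_lit 53) (nat_lit 5))))) (PT.nd (nat_lit 51136) (PT.nd (nat_lit 50948) (PT.lf (nat_lit 168) (nat_lit 6) (nat_lit 2) (nat_lit 0) (nat_lit 54) (nat_lit 53) (nat_lit 4)) (PT.nd (nat_lit 94) (PT.lf (nat_lit 84) (nat_lit 3) (nat_lit 1) (nat_lit 4) (nat_lit 3) (nat_lit 54) (nat_lit 54)) (PT.lf (nat_lit 168) (nat_lit 6) (nat_lit 2) (nat_lit 4) (nat_lit 4) (nat_lit 54) (nat_lit 53)))) (PT.nd (nat_lit 4512) (PT.nd (nat_lit 4418) (PT.lf (nat_lit 252) (nat_lit 6) (nat_lit 3) (nat_lit 4) (nat_lit 5) (nat_lit 54)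 (nat_lit 52)) (PT.lf (nat_lit 252) (nat_lit 6) (nat_lit 3) (nat_lit 2) (nat_lit 52) (nat_lit 54) (nat_lit 5))) (PT.nd (nat_lit 94) (PT.lf (nat_lit 168) (nat_lit 6) (nat_lit 2) (nat_lit 2) (nat_lit 53) (nat_lit 54) (nat_lit 4)) (PT.lf (nat_lit 84) (nat_lit 3) (nat_lit 1) (nat_lit 0) (nat_lit 54) (nat_lit 54) (nat_lit 3))))))))
noncomputable def xc0 : XT := (XT.nd (nat_lit 277770) (nat_lit 0) (nat_lit 0) (XT.nd (nat_lit 166944) (nat_lit 0) (nat_lit 0) (XT.nd (nat_lit 111296) (nat_lit 0) (nat_lit 0) (XT.nd (nat_lit 55742) (nat_lit 0) (nat_lit 0) (XT.nd (nat_lit 55554) (nat_lit 0) (nat_lit 0) (XT.lf (nat_lit 0) (nat_lit 4971813008) (nat_lit 84) (nat_lit 25450586261) (nat_lit 84) (nat_lit 25450586261) (nat_lit 1) (nat_lit 4) (nat_lit 2) (nat_lit 5) (nat_lit 2) (nat_lit 4) (nat_lit 432) (nat_lit 228) (nat_lit 228)) (XT.nd (nat_lit 94) (nat_lit 0) (nat_lit 0) (XT.lf (nat_lit 0) (nat_lit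 2956407993) (nat_lit 84) (nat_lit 24822740447) (nat_lit 84) (nat_lit 24822740447) (nat_lit 1) (nat_lit 4) (nat_lit 2) (nat_lit 5) (nat_lit 2) (nat_lit 4) (nat_lit 430) (nat_lit 229) (nat_lit 229)) (XT.lf (nat_lit 0) (nat_lit 7906483343) (nat_lit 84) (nat_lit 50346791728) (nat_lit 84) (nat_lit 50171470101) (nat_lit 1) (nat_lit 4) (nat_lit 2) (nat_lit 5) (nat_lit 2) (nat_lit 4) (nat_lit 431) (nat_lit 229) (nat_lit 228)))) (XT.nd (nat_lit 55366) (nat_lit 0) (nat_lit 0) (XT.lf (nat_lit 0) (nat_lit 9925848742) (nat_lit 84) (nat_lit 51082945122) (nat_lit 84) (nat_lit 50737573420) (nat_lit 1) (nat_lit 4) (nat_lit 2) (nat_lit 5) (nat_lit 2) (nat_lit 4) (nat_lit 432) (nat_lit 229) (nat_lit 227)) (XT.nd (nat_lit 94) (nat_lit 0) (nat_lit 0) (XT.lf (nat_lit 0) (nat_lit 1007030470) (nat_lit 84) (nat_lit 24259351732) (nat_lit 84) (nat_lit 24259351732) (nat_lit 1) (nat_lit 4) (nat_lit 2) (nat_lit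 5) (nat_lit 2) (nat_lit 4) (nat_lit 428) (nat_lit 230) (nat_lit 230)) (XT.lf (nat_lit 0) (nat_lit 3942988364) (nat_lit 84) (nat_lit 49159115526) (nat_lit 84) (nat_lit 48978358928) (nat_lit 1) (nat_lit 4) (nat_lit 2) (nat_lit 5) (nat_lit 2) (nat_lit 4) (nat_lit 429) (nat_lit 230) (nat_lit 229))))) (XT.nd (nat_lit 55366) (nat_lit 0) (nat_lit 0) (XT.nd (nat_lit 94) (nat_lit 0) (nat_lit 0) (XT.lf (nat_lit 0) (nat_lit 5894487615) (nat_lit 84) (nat_lit 49832888446) (nat_lit 84) (nat_lit 49476810221) (nat_lit 1) (nat_lit 4) (nat_lit 2) (nat_lit 5) (nat_lit 2) (nat_lit 4) (nat_lit 430) (nat_lit 230) (nat_lit 228)) (XT.nd (nat_lit 94) (nat_lit 0) (nat_lit 0) (XT.lf (nat_lit 0) (nat_lit 7870377697) (nat_lit 84) (nat_lit 50540650251) (nat_lit 84) (nat_lit 50014521951) (nat_lit 1) (nat_lit 4) (nat_lit 2) (nat_lit 5) (nat_lit 2) (nat_lit 4) (nat_lit 431) (nat_lit 230) (nat_lit 227)) (XT.lf (nat_lit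 0) (nat_lit 9872500345) (nat_lit 84) (nat_lit 51283060650) (nat_lit 84) (nat_lit 50591995324) (nat_lit 1) (nat_lit 4) (nat_lit 2) (nat_lit 5) (nat_lit 2) (nat_lit 4) (nat_lit 432) (nat_lit 230) (nat_lit 226)))) (XT.nd (nat_lit 94) (nat_lit 84) (nat_lit 0) (XT.lf (nat_lit 0) (nat_lit 22884311661) (nat_lit 168) (nat_lit 864116277) (nat_lit 0) (nat_lit 22884311661) (nat_lit 2) (nat_lit 5) (nat_lit 4) (nat_lit 4) (nat_lit 2) (nat_lit 4) (nat_lit 426) (nat_lit 231) (nat_lit 231)) (XT.nd (nat_lit 94) (nat_lit 0) (nat_lit 0) (XT.lf (nat_lit 0) (nat_lit 105907385) (nat_lit 84) (nat_lit 48097415382) (nat_lit 84) (nat_lit 47911055330) (nat_lit 1) (nat_lit 4) (nat_lit 2) (nat_lit 5) (nat_lit 2) (nat_lit 4) (nat_lit 427) (nat_lit 231) (nat_lit 230)) (XT.lf (nat_lit 0) (nat_lit 1995164391) (nat_lit 84) (nat_lit 48711920648) (nat_lit 84) (nat_lit 48344803999) (nat_lit 1) (nat_lit 4) (nat_lit 2)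 (nat_lit 5) (nat_lit 2) (nat_lit 4) (nat_lit 428) (nat_lit 231) (nat_lit 229)))))) (XT.nd (nat_lit 55460) (nat_lit 0) (nat_lit 0) (XT.nd (nat_lit 282) (nat_lit 0) (nat_lit 0) (XT.nd (nat_lit 94) (nat_lit 0) (nat_lit 0) (XT.lf (nat_lit 0) (nat_lit 3905763442) (nat_lit 84) (nat_lit 49358983662) (nat_lit 84) (nat_lit 48816545385) (nat_lit 1) (nat_lit 4) (nat_lit 2) (nat_lit 5) (nat_lit 2) (nat_lit 4) (nat_lit 429) (nat_lit 231) (nat_lit 228)) (XT.nd (nat_lit 94) (nat_lit 0) (nat_lit 0) (XT.lf (nat_lit 0) (nat_lit 5839485418) (nat_lit 84) (nat_lit 50039207555) (nat_lit 84) (nat_lit 49326719203) (nat_lit 1) (nat_lit 4) (nat_lit 2) (nat_lit 5) (nat_lit 2) (nat_lit 4) (nat_lit 430) (nat_lit 231) (nat_lit 227)) (XT.lf (nat_lit 0) (nat_lit 7798132750) (nat_lit 84) (nat_lit 50753226366) (nat_lit 84) (nat_lit 49875800987) (nat_lit 1) (nat_lit 4) (nat_lit 2) (nat_lit 5) (nat_lit 2) (nat_lit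 4) (nat_lit 431) (nat_lit 231) (nat_lit 226)))) (XT.nd (nat_lit 54990) (nat_lit 0) (nat_lit 84) (XT.lf (nat_lit 0) (nat_lit 9783531101) (nat_lit 84) (nat_lit 51501705635) (nat_lit 84) (nat_lit 50464302538) (nat_lit 1) (nat_lit 4) (nat_lit 2) (nat_lit 5) (nat_lit 2) (nat_lit 4) (nat_lit 432) (nat_lit 231) (nat_lit 225)) (XT.nd (nat_lit 94) (nat_lit 0) (nat_lit 0) (XT.lf (nat_lit 0) (nat_lit 20625574246) (nat_lit 168) (nat_lit 2660908896) (nat_lit 0) (nat_lit 20625574246) (nat_lit 2) (nat_lit 5) (nat_lit 4) (nat_lit 4) (nat_lit 2) (nat_lit 4) (nat_lit 424) (nat_lit 232) (nat_lit 232)) (XT.lf (nat_lit 0) (nat_lit 43576215070) (nat_lit 168) (nat_lit 3542759772) (nat_lit 0) (nat_lit 43384077856) (nat_lit 2) (nat_lit 5) (nat_lit 4) (nat_lit 4) (nat_lit 2) (nat_lit 4) (nat_lit 425) (nat_lit 232) (nat_lit 231))))) (XT.nd (nat_lit 282) (nat_lit 0) (nat_lit 0) (XT.nd (nat_lit 94) (nat_lit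 84) (nat_lit 0) (XT.lf (nat_lit 0) (nat_lit 45948541164) (nat_lit 168) (nat_lit 1747322371) (nat_lit 0) (nat_lit 45570043898) (nat_lit 2) (nat_lit 5) (nat_lit 4) (nat_lit 4) (nat_lit 2) (nat_lit 4) (nat_lit 426) (nat_lit 232) (nat_lit 230)) (XT.nd (nat_lit 94) (nat_lit 0) (nat_lit 0) (XT.lf (nat_lit 0) (nat_lit 67528491) (nat_lit 84) (nat_lit 48303479431) (nat_lit 84) (nat_lit 47744225568) (nat_lit 1) (nat_lit 4) (nat_lit 2) (nat_lit 5) (nat_lit 2) (nat_lit 4) (nat_lit 427) (nat_lit 232) (nat_lit 229)) (XT.lf (nat_lit 0) (nat_lit 1938457126) (nat_lit 84) (nat_lit 48924635650) (nat_lit 84) (nat_lit 48190060159) (nat_lit 1) (nat_lit 4) (nat_lit 2) (nat_lit 5) (nat_lit 2) (nat_lit 4) (nat_lit 428) (nat_lit 232) (nat_lit 228)))) (XT.nd (nat_lit 188) (nat_lit 0) (nat_lit 0) (XT.nd (nat_lit 94) (nat_lit 0) (nat_lit 0) (XT.lf (nat_lit 0) (nat_lit 3831278902) (nat_lit 84) (nat_lit 49578149637)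 (nat_lit 84) (nat_lit 48673524071) (nat_lit 1) (nat_lit 4) (nat_lit 2) (nat_lit 5) (nat_lit 2) (nat_lit 4) (nat_lit 429) (nat_lit 232) (nat_lit 227)) (XT.lf (nat_lit 0) (nat_lit 5747758128) (nat_lit 84) (nat_lit 50264630534) (nat_lit 84) (nat_lit 49195067941) (nat_lit 1) (nat_lit 4) (nat_lit 2) (nat_lit 5) (nat_lit 2) (nat_lit 4) (nat_lit 430) (nat_lit 232) (nat_lit 226))) (XT.nd (nat_lit 94) (nat_lit 0) (nat_lit 0) (XT.lf (nat_lit 0) (nat_lit 7689681162) (nat_lit 84) (nat_lit 50984718215) (nat_lit 84) (nat_lit 49755177905) (nat_lit 1) (nat_lit 4) (nat_lit 2) (nat_lit 5) (nat_lit 2) (nat_lit 4) (nat_lit 431) (nat_lit 232) (nat_lit 225)) (XT.lf (nat_lit 0) (nat_lit 9658858081) (nat_lit 84) (nat_lit 51739083877) (nat_lit 84) (nat_lit 50354376042) (nat_lit 1) (nat_lit 4) (nat_lit 2) (nat_lit 5) (nat_lit 2) (nat_lit 4) (nat_lit 432) (nat_lit 232) (nat_lit 224))))))) (XT.nd (nat_lit 55930)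 (nat_lit 0) (nat_lit 0) (XT.nd (nat_lit 564) (nat_lit 84) (nat_lit 0) (XT.nd (nat_lit 282) (nat_lit 0) (nat_lit 0) (XT.nd (nat_lit 94) (nat_lit 0) (nat_lit 0) (XT.lf (nat_lit 0) (nat_lit 18472624641) (nat_lit 168) (nat_lit 4408561660) (nat_lit 0) (nat_lit 18472624641) (nat_lit 2) (nat_lit 5) (nat_lit 4) (nat_lit 4) (nat_lit 2) (nat_lit 4) (nat_lit 422) (nat_lit 233) (nat_lit 233)) (XT.nd (nat_lit 94) (nat_lit 0) (nat_lit 0) (XT.lf (nat_lit 0) (nat_lit 39169267695) (nat_lit 168) (nat_lit 7086154704) (nat_lit 0) (nat_lit 38971174227) (nat_lit 2) (nat_lit 5) (nat_lit 4) (nat_lit 4) (nat_lit 2) (nat_lit 4) (nat_lit 423) (nat_lit 233) (nat_lit 232)) (XT.lf (nat_lit 0) (nat_lit 41436643787) (nat_lit 168) (nat_lit 5341499395) (nat_lit 0) (nat_lit 41046413105) (nat_lit 2) (nat_lit 5) (nat_lit 4) (nat_lit 4) (nat_lit 2) (nat_lit 4) (nat_lit 424) (nat_lit 233) (nat_lit 231)))) (XT.nd (nat_lit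 94) (nat_lit 0) (nat_lit 0) (XT.lf (nat_lit 0) (nat_lit 43749490991) (nat_lit 168) (nat_lit 3581531191) (nat_lit 0) (nat_lit 43172900257) (nat_lit 2) (nat_lit 5) (nat_lit 4) (nat_lit 4) (nat_lit 2) (nat_lit 4) (nat_lit 425) (nat_lit 233) (nat_lit 230)) (XT.nd (nat_lit 94) (nat_lit 0) (nat_lit 0) (XT.lf (nat_lit 0) (nat_lit 46109965123) (nat_lit 168) (nat_lit 1804609618) (nat_lit 0) (nat_lit 45352617792) (nat_lit 2) (nat_lit 5) (nat_lit 4) (nat_lit 4) (nat_lit 2) (nat_lit 4) (nat_lit 426) (nat_lit 233) (nat_lit 229)) (XT.lf (nat_lit 0) (nat_lit 48520266392) (nat_lit 168) (nat_lit 9078399) (nat_lit 0) (nat_lit 47587597433) (nat_lit 2) (nat_lit 5) (nat_lit 4) (nat_lit 4) (nat_lit 2) (nat_lit 4) (nat_lit 427) (nat_lit 233) (nat_lit 228))))) (XT.nd (nat_lit 54990) (nat_lit 0) (nat_lit 84) (XT.nd (nat_lit 94) (nat_lit 0) (nat_lit 0) (XT.lf (nat_lit 0) (nat_lit 1843886289) (nat_lit 84)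 (nat_lit 49157046742) (nat_lit 84) (nat_lit 48054327709) (nat_lit 1) (nat_lit 4) (nat_lit 2) (nat_lit 5) (nat_lit 2) (nat_lit 4) (nat_lit 428) (nat_lit 233) (nat_lit 227)) (XT.nd (nat_lit 94) (nat_lit 0) (nat_lit 0) (XT.lf (nat_lit 0) (nat_lit 3719465315) (nat_lit 84) (nat_lit 49816817734) (nat_lit 84) (nat_lit 48549161673) (nat_lit 1) (nat_lit 4) (nat_lit 2) (nat_lit 5) (nat_lit 2) (nat_lit 4) (nat_lit 429) (nat_lit 233) (nat_lit 226)) (XT.lf (nat_lit 0) (nat_lit 5619220244) (nat_lit 84) (nat_lit 50509367502) (nat_lit 84) (nat_lit 49081733724) (nat_lit 1) (nat_lit 4) (nat_lit 2) (nat_lit 5) (nat_lit 2) (nat_lit 4) (nat_lit 430) (nat_lit 233) (nat_lit 225)))) (XT.nd (nat_lit 188) (nat_lit 0) (nat_lit 0) (XT.nd (nat_lit 94) (nat_lit 0) (nat_lit 0) (XT.lf (nat_lit 0) (nat_lit 16418328820) (nat_lit 168) (nat_lit 6111761109) (nat_lit 0) (nat_lit 16418328820) (nat_lit 2) (nat_lit 5) (nat_lit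 4) (nat_lit 4) (nat_lit 2) (nat_lit 4) (nat_lit 420) (nat_lit 234) (nat_lit 234)) (XT.lf (nat_lit 0) (nat_lit 34966749898) (nat_lit 168) (nat_lit 10536018686) (nat_lit 0) (nat_lit 34762515533) (nat_lit 2) (nat_lit 5) (nat_lit 4) (nat_lit 4) (nat_lit 2) (nat_lit 4) (nat_lit 421) (nat_lit 234) (nat_lit 233))) (XT.nd (nat_lit 94) (nat_lit 0) (nat_lit 0) (XT.lf (nat_lit 0) (nat_lit 37136494931) (nat_lit 168) (nat_lit 8837415051) (nat_lit 0) (nat_lit 36734167098) (nat_lit 2) (nat_lit 5) (nat_lit 4) (nat_lit 4) (nat_lit 2) (nat_lit 4) (nat_lit 422) (nat_lit 234) (nat_lit 232)) (XT.lf (nat_lit 0) (nat_lit 39347915169) (nat_lit 168) (nat_lit 7126128038) (nat_lit 0) (nat_lit 38753450123) (nat_lit 2) (nat_lit 5) (nat_lit 4) (nat_lit 4) (nat_lit 2) (nat_lit 4) (nat_lit 423) (nat_lit 234) (nat_lit 231)))))) (XT.nd (nat_lit 564) (nat_lit 0) (nat_lit 0) (XT.nd (nat_lit 282) (nat_lit 84) (nat_lit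 0) (XT.nd (nat_lit 94) (nat_lit 0) (nat_lit 0) (XT.lf (nat_lit 0) (nat_lit 41603071888) (nat_lit 168) (nat_lit 5400562547) (nat_lit 0) (nat_lit 40822246789) (nat_lit 2) (nat_lit 5) (nat_lit 4) (nat_lit 4) (nat_lit 2) (nat_lit 4) (nat_lit 424) (nat_lit 234) (nat_lit 230)) (XT.nd (nat_lit 94) (nat_lit 0) (nat_lit 0) (XT.lf (nat_lit 0) (nat_lit 43904067130) (nat_lit 168) (nat_lit 3659110170) (nat_lit 0) (nat_lit 42942485434) (nat_lit 2) (nat_lit 5) (nat_lit 4) (nat_lit 4) (nat_lit 2) (nat_lit 4) (nat_lit 425) (nat_lit 234) (nat_lit 229)) (XT.lf (nat_lit 0) (nat_lit 46253045663) (nat_lit 168) (nat_lit 1900147692) (nat_lit 0) (nat_lit 45116142340) (nat_lit 2) (nat_lit 5) (nat_lit 4) (nat_lit 4) (nat_lit 2) (nat_lit 4) (nat_lit 426) (nat_lit 234) (nat_lit 228)))) (XT.nd (nat_lit 94) (nat_lit 84) (nat_lit 0) (XT.lf (nat_lit 0) (nat_lit 48652196982) (nat_lit 168) (nat_lit 122035575) (nat_lit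 0) (nat_lit 47345243584) (nat_lit 2) (nat_lit 5) (nat_lit 4) (nat_lit 4) (nat_lit 2) (nat_lit 4) (nat_lit 427) (nat_lit 234) (nat_lit 227)) (XT.nd (nat_lit 94) (nat_lit 0) (nat_lit 0) (XT.lf (nat_lit 0) (nat_lit 1711363731) (nat_lit 84) (nat_lit 49409370555) (nat_lit 84) (nat_lit 47937480130) (nat_lit 1) (nat_lit 4) (nat_lit 2) (nat_lit 5) (nat_lit 2) (nat_lit 4) (nat_lit 428) (nat_lit 234) (nat_lit 226)) (XT.lf (nat_lit 0) (nat_lit 3570218460) (nat_lit 84) (nat_lit 50075210417) (nat_lit 84) (nat_lit 48443342274) (nat_lit 1) (nat_lit 4) (nat_lit 2) (nat_lit 5) (nat_lit 2) (nat_lit 4) (nat_lit 429) (nat_lit 234) (nat_lit 225))))) (XT.nd (nat_lit 54802) (nat_lit 0) (nat_lit 84) (XT.nd (nat_lit 54614) (nat_lit 0) (nat_lit 84) (XT.lf (nat_lit 0) (nat_lit 5453751956) (nat_lit 84) (nat_lit 50773646577) (nat_lit 84) (nat_lit 48986610910) (nat_lit 1) (nat_lit 4) (nat_lit 2) (nat_lit 5) (nat_lit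 2) (nat_lit 4) (nat_lit 430) (nat_lit 234) (nat_lit 224)) (XT.nd (nat_lit 94) (nat_lit 0) (nat_lit 0) (XT.lf (nat_lit 0) (nat_lit 14455948408) (nat_lit 168) (nat_lit 7774971248) (nat_lit 0) (nat_lit 14455948408) (nat_lit 2) (nat_lit 5) (nat_lit 4) (nat_lit 4) (nat_lit 2) (nat_lit 4) (nat_lit 418) (nat_lit 235) (nat_lit 235)) (XT.lf (nat_lit 0) (nat_lit 30954798321) (nat_lit 168) (nat_lit 13901498578) (nat_lit 0) (nat_lit 30744232690) (nat_lit 2) (nat_lit 5) (nat_lit 4) (nat_lit 4) (nat_lit 2) (nat_lit 4) (nat_lit 419) (nat_lit 235) (nat_lit 234)))) (XT.nd (nat_lit 188) (nat_lit 0) (nat_lit 0) (XT.nd (nat_lit 94) (nat_lit 0) (nat_lit 0) (XT.lf (nat_lit 0) (nat_lit 33033831904) (nat_lit 168) (nat_lit 12244442994) (nat_lit 0) (nat_lit 32619031909) (nat_lit 2) (nat_lit 5) (nat_lit 4) (nat_lit 4) (nat_lit 2) (nat_lit 4) (nat_lit 420) (nat_lit 235) (nat_lit 233)) (XT.lf (nat_lit 0) (nat_lit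 35150935444) (nat_lit 168) (nat_lit 10577231193) (nat_lit 0) (nat_lit 34538041981) (nat_lit 2) (nat_lit 5) (nat_lit 4) (nat_lit 4) (nat_lit 2) (nat_lit 4) (nat_lit 421) (nat_lit 235) (nat_lit 232))) (XT.nd (nat_lit 94) (nat_lit 0) (nat_lit 0) (XT.lf (nat_lit 0) (nat_lit 37308082303) (nat_lit 168) (nat_lit 8898309161) (nat_lit 0) (nat_lit 36503051627) (nat_lit 2) (nat_lit 5) (nat_lit 4) (nat_lit 4) (nat_lit 2) (nat_lit 4) (nat_lit 422) (nat_lit 235) (nat_lit 231)) (XT.lf (nat_lit 0) (nat_lit 39507283168) (nat_lit 168) (nat_lit 7206111965) (nat_lit 0) (nat_lit 38515892440) (nat_lit 2) (nat_lit 5) (nat_lit 4) (nat_lit 4) (nat_lit 2) (nat_lit 4) (nat_lit 423) (nat_lit 235) (nat_lit 230))))))))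
noncomputable def xc1 : XT := (XT.nd (nat_lit 111014) (nat_lit 0) (nat_lit 0) (XT.nd (nat_lit 55554) (nat_lit 0) (nat_lit 0) (XT.nd (nat_lit 54990) (nat_lit 0) (nat_lit 84) (XT.nd (nat_lit 282) (nat_lit 84) (nat_lit 0) (XT.nd (nat_lit 94) (nat_lit 0) (nat_lit 0) (XT.lf (nat_lit 0) (nat_lit 41750587925) (nat_lit 168) (nat_lit 5499062301) (nat_lit 0) (nat_lit 40578440599) (nat_lit 2) (nat_lit 5) (nat_lit 4) (nat_lit 4) (nat_lit 2) (nat_lit 4) (nat_lit 424) (nat_lit 235) (nat_lit 229)) (XT.nd (nat_lit 94) (nat_lit 0) (nat_lit 0) (XT.lf (nat_lit 0) (nat_lit 44040087568) (nat_lit 168) (nat_lit 3775569019) (nat_lit 0) (nat_lit 42692618614) (nat_lit 2) (nat_lit 5) (nat_lit 4) (nat_lit 4) (nat_lit 2) (nat_lit 4) (nat_lit 425) (nat_lit 235) (nat_lit 228)) (XT.lf (nat_lit 0) (nat_lit 46377916151) (nat_lit 168) (nat_lit 2034025644) (nat_lit 0) (nat_lit 44860397123) (nat_lit 2) (nat_lit 5) (nat_lit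 4) (nat_lit 4) (nat_lit 2) (nat_lit 4) (nat_lit 426) (nat_lit 235) (nat_lit 227)))) (XT.nd (nat_lit 94) (nat_lit 84) (nat_lit 0) (XT.lf (nat_lit 0) (nat_lit 48766252775) (nat_lit 168) (nat_lit 272808875) (nat_lit 0) (nat_lit 47083796720) (nat_lit 2) (nat_lit 5) (nat_lit 4) (nat_lit 4) (nat_lit 2) (nat_lit 4) (nat_lit 427) (nat_lit 235) (nat_lit 226)) (XT.nd (nat_lit 94) (nat_lit 0) (nat_lit 0) (XT.lf (nat_lit 0) (nat_lit 1540765927) (nat_lit 84) (nat_lit 49681842282) (nat_lit 84) (nat_lit 47839408509) (nat_lit 1) (nat_lit 4) (nat_lit 2) (nat_lit 5) (nat_lit 2) (nat_lit 4) (nat_lit 428) (nat_lit 235) (nat_lit 225)) (XT.lf (nat_lit 0) (nat_lit 3383399223) (nat_lit 84) (nat_lit 50353568536) (nat_lit 84) (nat_lit 48355967239) (nat_lit 1) (nat_lit 4) (nat_lit 2) (nat_lit 5) (nat_lit 2) (nat_lit 4) (nat_lit 429) (nat_lit 235) (nat_lit 224))))) (XT.nd (nat_lit 282) (nat_lit 0) (nat_lit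 0) (XT.nd (nat_lit 94) (nat_lit 0) (nat_lit 0) (XT.lf (nat_lit 0) (nat_lit 12579116413) (nat_lit 168) (nat_lit 9402448430) (nat_lit 0) (nat_lit 12579116413) (nat_lit 2) (nat_lit 5) (nat_lit 4) (nat_lit 4) (nat_lit 2) (nat_lit 4) (nat_lit 416) (nat_lit 236) (nat_lit 236)) (XT.nd (nat_lit 94) (nat_lit 0) (nat_lit 0) (XT.lf (nat_lit 0) (nat_lit 27120316360) (nat_lit 168) (nat_lit 17191311270) (nat_lit 0) (nat_lit 26903223195) (nat_lit 2) (nat_lit 5) (nat_lit 4) (nat_lit 4) (nat_lit 2) (nat_lit 4) (nat_lit 417) (nat_lit 236) (nat_lit 235)) (XT.lf (nat_lit 0) (nat_lit 29115183482) (nat_lit 168) (nat_lit 15571511816) (nat_lit 0) (nat_lit 28687524687) (nat_lit 2) (nat_lit 5) (nat_lit 4) (nat_lit 4) (nat_lit 2) (nat_lit 4) (nat_lit 418) (nat_lit 236) (nat_lit 234)))) (XT.nd (nat_lit 94) (nat_lit 0) (nat_lit 0) (XT.lf (nat_lit 0) (nat_lit 31144693619) (nat_lit 168) (nat_lit 13943988673) (nat_lit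 0) (nat_lit 30512800459) (nat_lit 2) (nat_lit 5) (nat_lit 4) (nat_lit 4) (nat_lit 2) (nat_lit 4) (nat_lit 419) (nat_lit 236) (nat_lit 233)) (XT.nd (nat_lit 94) (nat_lit 0) (nat_lit 0) (XT.lf (nat_lit 0) (nat_lit 33210738485) (nat_lit 168) (nat_lit 12307224820) (nat_lit 0) (nat_lit 32380751857) (nat_lit 2) (nat_lit 5) (nat_lit 4) (nat_lit 4) (nat_lit 2) (nat_lit 4) (nat_lit 420) (nat_lit 236) (nat_lit 232)) (XT.lf (nat_lit 0) (nat_lit 35315243851) (nat_lit 168) (nat_lit 10659694622) (nat_lit 0) (nat_lit 34293120010) (nat_lit 2) (nat_lit 5) (nat_lit 4) (nat_lit 4) (nat_lit 2) (nat_lit 4) (nat_lit 421) (nat_lit 236) (nat_lit 231)))))) (XT.nd (nat_lit 564) (nat_lit 84) (nat_lit 0) (XT.nd (nat_lit 282) (nat_lit 0) (nat_lit 0) (XT.nd (nat_lit 94) (nat_lit 0) (nat_lit 0) (XT.lf (nat_lit 0) (nat_lit 37460171337) (nat_lit 168) (nat_lit 8999862407) (nat_lit 0) (nat_lit 36251687444) (nat_lit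 2) (nat_lit 5) (nat_lit 4) (nat_lit 4) (nat_lit 2) (nat_lit 4) (nat_lit 422) (nat_lit 236) (nat_lit 230)) (XT.nd (nat_lit 94) (nat_lit 0) (nat_lit 0) (XT.lf (nat_lit 0) (nat_lit 39647520240) (nat_lit 168) (nat_lit 7326181038) (nat_lit 0) (nat_lit 38258279749) (nat_lit 2) (nat_lit 5) (nat_lit 4) (nat_lit 4) (nat_lit 2) (nat_lit 4) (nat_lit 423) (nat_lit 236) (nat_lit 229)) (XT.lf (nat_lit 0) (nat_lit 41879329398) (nat_lit 168) (nat_lit 5637090469) (nat_lit 0) (nat_lit 40314767280) (nat_lit 2) (nat_lit 5) (nat_lit 4) (nat_lit 4) (nat_lit 2) (nat_lit 4) (nat_lit 424) (nat_lit 236) (nat_lit 228)))) (XT.nd (nat_lit 94) (nat_lit 0) (nat_lit 0) (XT.lf (nat_lit 0) (nat_lit 44157679091) (nat_lit 168) (nat_lit 3931016291) (nat_lit 0) (nat_lit 42423066898) (nat_lit 2) (nat_lit 5) (nat_lit 4) (nat_lit 4) (nat_lit 2) (nat_lit 4) (nat_lit 425) (nat_lit 236) (nat_lit 227)) (XT.nd (nat_lit 94) (nat_lit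 0) (nat_lit 0) (XT.lf (nat_lit 0) (nat_lit 46484692979) (nat_lit 168) (nat_lit 2206368263) (nat_lit 0) (nat_lit 44585143759) (nat_lit 2) (nat_lit 5) (nat_lit 4) (nat_lit 4) (nat_lit 2) (nat_lit 4) (nat_lit 426) (nat_lit 236) (nat_lit 226)) (XT.lf (nat_lit 0) (nat_lit 48862540084) (nat_lit 168) (nat_lit 461538833) (nat_lit 0) (nat_lit 46803013146) (nat_lit 2) (nat_lit 5) (nat_lit 4) (nat_lit 4) (nat_lit 2) (nat_lit 4) (nat_lit 427) (nat_lit 236) (nat_lit 225))))) (XT.nd (nat_lit 54520) (nat_lit 0) (nat_lit 84) (XT.nd (nat_lit 94) (nat_lit 0) (nat_lit 0) (XT.lf (nat_lit 0) (nat_lit 1331933861) (nat_lit 84) (nat_lit 49974715895) (nat_lit 84) (nat_lit 47760021433) (nat_lit 1) (nat_lit 4) (nat_lit 2) (nat_lit 5) (nat_lit 2) (nat_lit 4) (nat_lit 428) (nat_lit 236) (nat_lit 224)) (XT.nd (nat_lit 54332) (nat_lit 0) (nat_lit 84) (XT.lf (nat_lit 0) (nat_lit 3158833469) (nat_lit 84) (nat_lit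 50652151550) (nat_lit 84) (nat_lit 48286955124) (nat_lit 1) (nat_lit 4) (nat_lit 2) (nat_lit 5) (nat_lit 2) (nat_lit 4) (nat_lit 429) (nat_lit 236) (nat_lit 223)) (XT.lf (nat_lit 0) (nat_lit 10781814366) (nat_lit 168) (nat_lit 10998255414) (nat_lit 0) (nat_lit 10781814366) (nat_lit 2) (nat_lit 5) (nat_lit 4) (nat_lit 4) (nat_lit 2) (nat_lit 4) (nat_lit 414) (nat_lit 237) (nat_lit 237)))) (XT.nd (nat_lit 188) (nat_lit 0) (nat_lit 0) (XT.nd (nat_lit 94) (nat_lit 0) (nat_lit 0) (XT.lf (nat_lit 0) (nat_lit 23450927067) (nat_lit 168) (nat_lit 20413772614) (nat_lit 0) (nat_lit 23227104014) (nat_lit 2) (nat_lit 5) (nat_lit 4) (nat_lit 4) (nat_lit 2) (nat_lit 4) (nat_lit 415) (nat_lit 237) (nat_lit 236)) (XT.lf (nat_lit 0) (nat_lit 25367821378) (nat_lit 168) (nat_lit 18827134828) (nat_lit 0) (nat_lit 24926905161) (nat_lit 2) (nat_lit 5) (nat_lit 4) (nat_lit 4) (nat_lit 2) (nat_lit 4) (nat_lit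 416) (nat_lit 237) (nat_lit 235))) (XT.nd (nat_lit 94) (nat_lit 0) (nat_lit 0) (XT.lf (nat_lit 0) (nat_lit 27316098412) (nat_lit 168) (nat_lit 17235118558) (nat_lit 0) (nat_lit 26664616564) (nat_lit 2) (nat_lit 5) (nat_lit 4) (nat_lit 4) (nat_lit 2) (nat_lit 4) (nat_lit 417) (nat_lit 237) (nat_lit 234)) (XT.lf (nat_lit 0) (nat_lit 29297574167) (nat_lit 168) (nat_lit 15636239879) (nat_lit 0) (nat_lit 28441857954) (nat_lit 2) (nat_lit 5) (nat_lit 4) (nat_lit 4) (nat_lit 2) (nat_lit 4) (nat_lit 418) (nat_lit 237) (nat_lit 233))))))) (XT.nd (nat_lit 55366) (nat_lit 0) (nat_lit 84) (XT.nd (nat_lit 564) (nat_lit 84) (nat_lit 0) (XT.nd (nat_lit 282) (nat_lit 0) (nat_lit 0) (XT.nd (nat_lit 94) (nat_lit 0) (nat_lit 0) (XT.lf (nat_lit 0) (nat_lit 31314095586) (nat_lit 168) (nat_lit 14029008468) (nat_lit 0) (nat_lit 30260285906) (nat_lit 2) (nat_lit 5) (nat_lit 4) (nat_lit 4) (nat_lit 2) (nat_lit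 4) (nat_lit 419) (nat_lit 237) (nat_lit 232)) (XT.nd (nat_lit 94) (nat_lit 0) (nat_lit 0) (XT.lf (nat_lit 0) (nat_lit 33367542279) (nat_lit 168) (nat_lit 12411926218) (nat_lit 0) (nat_lit 32121595385) (nat_lit 2) (nat_lit 5) (nat_lit 4) (nat_lit 4) (nat_lit 2) (nat_lit 4) (nat_lit 420) (nat_lit 237) (nat_lit 231)) (XT.lf (nat_lit 0) (nat_lit 35459828272) (nat_lit 168) (nat_lit 10783485837) (nat_lit 0) (nat_lit 34027521326) (nat_lit 2) (nat_lit 5) (nat_lit 4) (nat_lit 4) (nat_lit 2) (nat_lit 4) (nat_lit 421) (nat_lit 237) (nat_lit 230)))) (XT.nd (nat_lit 94) (nat_lit 0) (nat_lit 0) (XT.lf (nat_lit 0) (nat_lit 37592903796) (nat_lit 168) (nat_lit 9142169449) (nat_lit 0) (nat_lit 35979840252) (nat_lit 2) (nat_lit 5) (nat_lit 4) (nat_lit 4) (nat_lit 2) (nat_lit 4) (nat_lit 422) (nat_lit 237) (nat_lit 229)) (XT.nd (nat_lit 94) (nat_lit 0) (nat_lit 0) (XT.lf (nat_lit 0) (nat_lit 39768757100)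 (nat_lit 168) (nat_lit 7486447175) (nat_lit 0) (nat_lit 37980371929) (nat_lit 2) (nat_lit 5) (nat_lit 4) (nat_lit 4) (nat_lit 2) (nat_lit 4) (nat_lit 423) (nat_lit 237) (nat_lit 228)) (XT.lf (nat_lit 0) (nat_lit 41989416308) (nat_lit 168) (nat_lit 5814775709) (nat_lit 0) (nat_lit 40030981062) (nat_lit 2) (nat_lit 5) (nat_lit 4) (nat_lit 4) (nat_lit 2) (nat_lit 4) (nat_lit 424) (nat_lit 237) (nat_lit 227))))) (XT.nd (nat_lit 282) (nat_lit 84) (nat_lit 0) (XT.nd (nat_lit 94) (nat_lit 0) (nat_lit 0) (XT.lf (nat_lit 0) (nat_lit 44256951306) (nat_lit 168) (nat_lit 4125596878) (nat_lit 0) (nat_lit 42133579033) (nat_lit 2) (nat_lit 5) (nat_lit 4) (nat_lit 4) (nat_lit 2) (nat_lit 4) (nat_lit 425) (nat_lit 237) (nat_lit 226)) (XT.nd (nat_lit 94) (nat_lit 0) (nat_lit 0) (XT.lf (nat_lit 0) (nat_lit 46573475675) (nat_lit 168) (nat_lit 2417336190) (nat_lit 0) (nat_lit 44290125684) (nat_lit 2)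 (nat_lit 5) (nat_lit 4) (nat_lit 4) (nat_lit 2) (nat_lit 4) (nat_lit 426) (nat_lit 237) (nat_lit 225)) (XT.lf (nat_lit 0) (nat_lit 48941148658) (nat_lit 168) (nat_lit 688401367) (nat_lit 0) (nat_lit 46502631142) (nat_lit 2) (nat_lit 5) (nat_lit 4) (nat_lit 4) (nat_lit 2) (nat_lit 4) (nat_lit 427) (nat_lit 237) (nat_lit 224)))) (XT.nd (nat_lit 54332) (nat_lit 0) (nat_lit 84) (XT.nd (nat_lit 54238) (nat_lit 0) (nat_lit 84) (XT.lf (nat_lit 0) (nat_lit 1084672880) (nat_lit 84) (nat_lit 50288264383) (nat_lit 84) (nat_lit 47699244904) (nat_lit 1) (nat_lit 4) (nat_lit 2) (nat_lit 5) (nat_lit 2) (nat_lit 4) (nat_lit 428) (nat_lit 237) (nat_lit 223)) (XT.lf (nat_lit 0) (nat_lit 9058350794) (nat_lit 168) (nat_lit 12566274652) (nat_lit 0) (nat_lit 9058350794) (nat_lit 2) (nat_lit 5) (nat_lit 4) (nat_lit 4) (nat_lit 2) (nat_lit 4) (nat_lit 412) (nat_lit 238) (nat_lit 238))) (XT.nd (nat_lit 94)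 (nat_lit 0) (nat_lit 0) (XT.lf (nat_lit 0) (nat_lit 19934928783) (nat_lit 168) (nat_lit 23576824751) (nat_lit 0) (nat_lit 19704167215) (nat_lit 2) (nat_lit 5) (nat_lit 4) (nat_lit 4) (nat_lit 2) (nat_lit 4) (nat_lit 413) (nat_lit 238) (nat_lit 237)) (XT.lf (nat_lit 0) (nat_lit 21779714530) (nat_lit 168) (nat_lit 22019438174) (nat_lit 0) (nat_lit 21325129909) (nat_lit 2) (nat_lit 5) (nat_lit 4) (nat_lit 4) (nat_lit 2) (nat_lit 4) (nat_lit 414) (nat_lit 238) (nat_lit 236)))))) (XT.nd (nat_lit 564) (nat_lit 0) (nat_lit 0) (XT.nd (nat_lit 282) (nat_lit 0) (nat_lit 0) (XT.nd (nat_lit 94) (nat_lit 0) (nat_lit 0) (XT.lf (nat_lit 0) (nat_lit 23652778363) (nat_lit 168) (nat_lit 20458937928) (nat_lit 0) (nat_lit 22981100578) (nat_lit 2) (nat_lit 5) (nat_lit 4) (nat_lit 4) (nat_lit 2) (nat_lit 4) (nat_lit 415) (nat_lit 238) (nat_lit 235)) (XT.nd (nat_lit 94) (nat_lit 0) (nat_lit 0) (XT.lf (nat_lit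 0) (nat_lit 25555866174) (nat_lit 168) (nat_lit 18893869461) (nat_lit 0) (nat_lit 24673622759) (nat_lit 2) (nat_lit 5) (nat_lit 4) (nat_lit 4) (nat_lit 2) (nat_lit 4) (nat_lit 416) (nat_lit 238) (nat_lit 234)) (XT.lf (nat_lit 0) (nat_lit 27490751841) (nat_lit 168) (nat_lit 17322773967) (nat_lit 0) (nat_lit 26404274061) (nat_lit 2) (nat_lit 5) (nat_lit 4) (nat_lit 4) (nat_lit 2) (nat_lit 4) (nat_lit 417) (nat_lit 238) (nat_lit 233)))) (XT.nd (nat_lit 94) (nat_lit 0) (nat_lit 0) (XT.lf (nat_lit 0) (nat_lit 29459238879) (nat_lit 168) (nat_lit 15744187020) (nat_lit 0) (nat_lit 28174667631) (nat_lit 2) (nat_lit 5) (nat_lit 4) (nat_lit 4) (nat_lit 2) (nat_lit 4) (nat_lit 418) (nat_lit 238) (nat_lit 232)) (XT.nd (nat_lit 94) (nat_lit 0) (nat_lit 0) (XT.lf (nat_lit 0) (nat_lit 31463162125) (nat_lit 168) (nat_lit 14156637211) (nat_lit 0) (nat_lit 29986453663) (nat_lit 2) (nat_lit 5) (nat_lit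 4) (nat_lit 4) (nat_lit 2) (nat_lit 4) (nat_lit 419) (nat_lit 238) (nat_lit 231)) (XT.lf (nat_lit 0) (nat_lit 33504389444) (nat_lit 168) (nat_lit 12558644778) (nat_lit 0) (nat_lit 31841320930) (nat_lit 2) (nat_lit 5) (nat_lit 4) (nat_lit 4) (nat_lit 2) (nat_lit 4) (nat_lit 420) (nat_lit 238) (nat_lit 230))))) (XT.nd (nat_lit 282) (nat_lit 0) (nat_lit 0) (XT.nd (nat_lit 94) (nat_lit 0) (nat_lit 0) (XT.lf (nat_lit 0) (nat_lit 35584823475) (nat_lit 168) (nat_lit 10948720224) (nat_lit 0) (nat_lit 33740998364) (nat_lit 2) (nat_lit 5) (nat_lit 4) (nat_lit 4) (nat_lit 2) (nat_lit 4) (nat_lit 421) (nat_lit 238) (nat_lit 229)) (XT.nd (nat_lit 94) (nat_lit 0) (nat_lit 0) (XT.lf (nat_lit 0) (nat_lit 37706403400) (nat_lit 168) (nat_lit 9325362931) (nat_lit 0) (nat_lit 35687256662) (nat_lit 2) (nat_lit 5) (nat_lit 4) (nat_lit 4) (nat_lit 2) (nat_lit 4) (nat_lit 422) (nat_lit 238) (nat_lit 228))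 (XT.lf (nat_lit 0) (nat_lit 39871106754) (nat_lit 168) (nat_lit 7687059761) (nat_lit 0) (nat_lit 37681909941) (nat_lit 2) (nat_lit 5) (nat_lit 4) (nat_lit 4) (nat_lit 2) (nat_lit 4) (nat_lit 423) (nat_lit 238) (nat_lit 227)))) (XT.nd (nat_lit 188) (nat_lit 0) (nat_lit 0) (XT.nd (nat_lit 94) (nat_lit 0) (nat_lit 0) (XT.lf (nat_lit 0) (nat_lit 42080951267) (nat_lit 168) (nat_lit 6032283642) (nat_lit 0) (nat_lit 39726817427) (nat_lit 2) (nat_lit 5) (nat_lit 4) (nat_lit 4) (nat_lit 2) (nat_lit 4) (nat_lit 424) (nat_lit 238) (nat_lit 226)) (XT.lf (nat_lit 0) (nat_lit 44337996746) (nat_lit 168) (nat_lit 4359492150) (nat_lit 0) (nat_lit 41823885187) (nat_lit 2) (nat_lit 5) (nat_lit 4) (nat_lit 4) (nat_lit 2) (nat_lit 4) (nat_lit 425) (nat_lit 238) (nat_lit 225))) (XT.nd (nat_lit 94) (nat_lit 0) (nat_lit 0) (XT.lf (nat_lit 0) (nat_lit 46644346993) (nat_lit 168) (nat_lit 2667126069) (nat_lit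 0) (nat_lit 43975067910) (nat_lit 2) (nat_lit 5) (nat_lit 4) (nat_lit 4) (nat_lit 2) (nat_lit 4) (nat_lit 426) (nat_lit 238) (nat_lit 224)) (XT.lf (nat_lit 0) (nat_lit 49002151768) (nat_lit 168) (nat_lit 953607935) (nat_lit 0) (nat_lit 46182370722) (nat_lit 2) (nat_lit 5) (nat_lit 4) (nat_lit 4) (nat_lit 2) (nat_lit 4) (nat_lit 427) (nat_lit 238) (nat_lit 223))))))))
noncomputable def xc2 : XT := (XT.nd (nat_lit 110074) (nat_lit 0) (nat_lit 0) (XT.nd (nat_lit 55084) (nat_lit 0) (nat_lit 0) (XT.nd (nat_lit 54520) (nat_lit 0) (nat_lit 84) (XT.nd (nat_lit 54238) (nat_lit 0) (nat_lit 84) (XT.nd (nat_lit 54050) (nat_lit 0) (nat_lit 84) (XT.lf (nat_lit 0) (nat_lit 798752511) (nat_lit 84) (nat_lit 50622780006) (nat_lit 84) (nat_lit 47657022273) (nat_lit 1) (nat_lit 4) (nat_lit 2) (nat_lit 5) (nat_lit 2) (nat_lit 4) (nat_lit 428) (nat_lit 238) (nat_lit 222)) (XT.nd (nat_lit 94) (nat_lit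 0) (nat_lit 0) (XT.lf (nat_lit 0) (nat_lit 7403340934) (nat_lit 168) (nat_lit 14110220833) (nat_lit 0) (nat_lit 7403340934) (nat_lit 2) (nat_lit 5) (nat_lit 4) (nat_lit 4) (nat_lit 2) (nat_lit 4) (nat_lit 410) (nat_lit 239) (nat_lit 239)) (XT.lf (nat_lit 0) (nat_lit 16561253345) (nat_lit 168) (nat_lit 26688061934) (nat_lit 0) (nat_lit 16323338169) (nat_lit 2) (nat_lit 5) (nat_lit 4) (nat_lit 4) (nat_lit 2) (nat_lit 4) (nat_lit 411) (nat_lit 239) (nat_lit 238)))) (XT.nd (nat_lit 94) (nat_lit 0) (nat_lit 0) (XT.lf (nat_lit 0) (nat_lit 18339486045) (nat_lit 168) (nat_lit 25156187398) (nat_lit 0) (nat_lit 17870809301) (nat_lit 2) (nat_lit 5) (nat_lit 4) (nat_lit 4) (nat_lit 2) (nat_lit 4) (nat_lit 412) (nat_lit 239) (nat_lit 237)) (XT.nd (nat_lit 94) (nat_lit 0) (nat_lit 0) (XT.lf (nat_lit 0) (nat_lit 20143037469) (nat_lit 168) (nat_lit 23623390190) (nat_lit 0) (nat_lit 19450537672)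 (nat_lit 2) (nat_lit 5) (nat_lit 4) (nat_lit 4) (nat_lit 2) (nat_lit 4) (nat_lit 413) (nat_lit 239) (nat_lit 236)) (XT.lf (nat_lit 0) (nat_lit 21973588714) (nat_lit 168) (nat_lit 22088241581) (nat_lit 0) (nat_lit 21063995753) (nat_lit 2) (nat_lit 5) (nat_lit 4) (nat_lit 4) (nat_lit 2) (nat_lit 4) (nat_lit 414) (nat_lit 239) (nat_lit 235))))) (XT.nd (nat_lit 282) (nat_lit 0) (nat_lit 0) (XT.nd (nat_lit 94) (nat_lit 0) (nat_lit 0) (XT.lf (nat_lit 0) (nat_lit 23832846048) (nat_lit 168) (nat_lit 20549310654) (nat_lit 0) (nat_lit 22712687457) (nat_lit 2) (nat_lit 5) (nat_lit 4) (nat_lit 4) (nat_lit 2) (nat_lit 4) (nat_lit 415) (nat_lit 239) (nat_lit 234)) (XT.nd (nat_lit 94) (nat_lit 0) (nat_lit 0) (XT.lf (nat_lit 0) (nat_lit 25722542492) (nat_lit 168) (nat_lit 19005162963) (nat_lit 0) (nat_lit 24398149536) (nat_lit 2) (nat_lit 5) (nat_lit 4) (nat_lit 4) (nat_lit 2) (nat_lit 4) (nat_lit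 416) (nat_lit 239) (nat_lit 233)) (XT.lf (nat_lit 0) (nat_lit 27644439442) (nat_lit 168) (nat_lit 17454359200) (nat_lit 0) (nat_lit 26121953018) (nat_lit 2) (nat_lit 5) (nat_lit 4) (nat_lit 4) (nat_lit 2) (nat_lit 4) (nat_lit 417) (nat_lit 239) (nat_lit 232)))) (XT.nd (nat_lit 94) (nat_lit 0) (nat_lit 0) (XT.lf (nat_lit 0) (nat_lit 29600328306) (nat_lit 168) (nat_lit 15895453855) (nat_lit 0) (nat_lit 27885704669) (nat_lit 2) (nat_lit 5) (nat_lit 4) (nat_lit 4) (nat_lit 2) (nat_lit 4) (nat_lit 418) (nat_lit 239) (nat_lit 231)) (XT.nd (nat_lit 94) (nat_lit 0) (nat_lit 0) (XT.lf (nat_lit 0) (nat_lit 31592032179) (nat_lit 168) (nat_lit 14326993864) (nat_lit 0) (nat_lit 29691048489) (nat_lit 2) (nat_lit 5) (nat_lit 4) (nat_lit 4) (nat_lit 2) (nat_lit 4) (nat_lit 419) (nat_lit 239) (nat_lit 230)) (XT.lf (nat_lit 0) (nat_lit 33621407536) (nat_lit 168) (nat_lit 12747517258) (nat_lit 0) (nat_lit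 31539667249) (nat_lit 2) (nat_lit 5) (nat_lit 4) (nat_lit 4) (nat_lit 2) (nat_lit 4) (nat_lit 420) (nat_lit 239) (nat_lit 229)))))) (XT.nd (nat_lit 564) (nat_lit 84) (nat_lit 0) (XT.nd (nat_lit 282) (nat_lit 0) (nat_lit 0) (XT.nd (nat_lit 94) (nat_lit 0) (nat_lit 0) (XT.lf (nat_lit 0) (nat_lit 35690345969) (nat_lit 168) (nat_lit 11155551800) (nat_lit 0) (nat_lit 33433284054) (nat_lit 2) (nat_lit 5) (nat_lit 4) (nat_lit 4) (nat_lit 2) (nat_lit 4) (nat_lit 421) (nat_lit 239) (nat_lit 228)) (XT.nd (nat_lit 94) (nat_lit 0) (nat_lit 0) (XT.lf (nat_lit 0) (nat_lit 37800775943) (nat_lit 168) (nat_lit 9549613610) (nat_lit 0) (nat_lit 35373663954) (nat_lit 2) (nat_lit 5) (nat_lit 4) (nat_lit 4) (nat_lit 2) (nat_lit 4) (nat_lit 422) (nat_lit 239) (nat_lit 227)) (XT.lf (nat_lit 0) (nat_lit 39954664603) (nat_lit 168) (nat_lit 7928205786) (nat_lit 0) (nat_lit 37362615586) (nat_lit 2) (nat_lit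 5) (nat_lit 4) (nat_lit 4) (nat_lit 2) (nat_lit 4) (nat_lit 423) (nat_lit 239) (nat_lit 226)))) (XT.nd (nat_lit 94) (nat_lit 0) (nat_lit 0) (XT.lf (nat_lit 0) (nat_lit 42154019596) (nat_lit 168) (nat_lit 6289817007) (nat_lit 0) (nat_lit 39401992862) (nat_lit 2) (nat_lit 5) (nat_lit 4) (nat_lit 4) (nat_lit 2) (nat_lit 4) (nat_lit 424) (nat_lit 239) (nat_lit 225)) (XT.nd (nat_lit 94) (nat_lit 0) (nat_lit 0) (XT.lf (nat_lit 0) (nat_lit 44400890953) (nat_lit 168) (nat_lit 4632920122) (nat_lit 0) (nat_lit 41493696694) (nat_lit 2) (nat_lit 5) (nat_lit 4) (nat_lit 4) (nat_lit 2) (nat_lit 4) (nat_lit 425) (nat_lit 239) (nat_lit 224)) (XT.lf (nat_lit 0) (nat_lit 46697372992) (nat_lit 168) (nat_lit 2955970731) (nat_lit 0) (nat_lit 43639676770) (nat_lit 2) (nat_lit 5) (nat_lit 4) (nat_lit 4) (nat_lit 2) (nat_lit 4) (nat_lit 426) (nat_lit 239) (nat_lit 223))))) (XT.nd (nat_lit 54050) (nat_lit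 0) (nat_lit 84) (XT.nd (nat_lit 94) (nat_lit 84) (nat_lit 0) (XT.lf (nat_lit 0) (nat_lit 49045606277) (nat_lit 168) (nat_lit 1257405739) (nat_lit 0) (nat_lit 45841933368) (nat_lit 2) (nat_lit 5) (nat_lit 4) (nat_lit 4) (nat_lit 2) (nat_lit 4) (nat_lit 427) (nat_lit 239) (nat_lit 222)) (XT.nd (nat_lit 53862) (nat_lit 0) (nat_lit 84) (XT.lf (nat_lit 0) (nat_lit 473906246) (nat_lit 84) (nat_lit 50978574567) (nat_lit 84) (nat_lit 47633314183) (nat_lit 1) (nat_lit 4) (nat_lit 2) (nat_lit 5) (nat_lit 2) (nat_lit 4) (nat_lit 428) (nat_lit 239) (nat_lit 221)) (XT.lf (nat_lit 0) (nat_lit 5811687627) (nat_lit 168) (nat_lit 15633652750) (nat_lit 0) (nat_lit 5811687627) (nat_lit 2) (nat_lit 5) (nat_lit 4) (nat_lit 4) (nat_lit 2) (nat_lit 4) (nat_lit 408) (nat_lit 240) (nat_lit 240)))) (XT.nd (nat_lit 188) (nat_lit 0) (nat_lit 0) (XT.nd (nat_lit 94) (nat_lit 0) (nat_lit 0) (XT.lf (nat_lit 0)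 (nat_lit 13319426720) (nat_lit 168) (nat_lit 29754754932) (nat_lit 0) (nat_lit 13074136174) (nat_lit 2) (nat_lit 5) (nat_lit 4) (nat_lit 4) (nat_lit 2) (nat_lit 4) (nat_lit 409) (nat_lit 240) (nat_lit 239)) (XT.lf (nat_lit 0) (nat_lit 15036372644) (nat_lit 168) (nat_lit 28244812540) (nat_lit 0) (nat_lit 14553166921) (nat_lit 2) (nat_lit 5) (nat_lit 4) (nat_lit 4) (nat_lit 2) (nat_lit 4) (nat_lit 410) (nat_lit 240) (nat_lit 238))) (XT.nd (nat_lit 94) (nat_lit 0) (nat_lit 0) (XT.lf (nat_lit 0) (nat_lit 16775813400) (nat_lit 168) (nat_lit 26736070902) (nat_lit 0) (nat_lit 16061846110) (nat_lit 2) (nat_lit 5) (nat_lit 4) (nat_lit 4) (nat_lit 2) (nat_lit 4) (nat_lit 411) (nat_lit 240) (nat_lit 237)) (XT.lf (nat_lit 0) (nat_lit 18539370330) (nat_lit 168) (nat_lit 25227123711) (nat_lit 0) (nat_lit 17601579986) (nat_lit 2) (nat_lit 5) (nat_lit 4) (nat_lit 4) (nat_lit 2) (nat_lit 4) (nat_lit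 412) (nat_lit 240) (nat_lit 236))))))) (XT.nd (nat_lit 1222) (nat_lit 84) (nat_lit 0) (XT.nd (nat_lit 564) (nat_lit 0) (nat_lit 0) (XT.nd (nat_lit 282) (nat_lit 0) (nat_lit 0) (XT.nd (nat_lit 94) (nat_lit 0) (nat_lit 0) (XT.lf (nat_lit 0) (nat_lit 20328687252) (nat_lit 168) (nat_lit 23716564470) (nat_lit 0) (nat_lit 19173803744) (nat_lit 2) (nat_lit 5) (nat_lit 4) (nat_lit 4) (nat_lit 2) (nat_lit 4) (nat_lit 413) (nat_lit 240) (nat_lit 235)) (XT.nd (nat_lit 94) (nat_lit 0) (nat_lit 0) (XT.lf (nat_lit 0) (nat_lit 22145431998) (nat_lit 168) (nat_lit 22202985182) (nat_lit 0) (nat_lit 20779982860) (nat_lit 2) (nat_lit 5) (nat_lit 4) (nat_lit 4) (nat_lit 2) (nat_lit 4) (nat_lit 414) (nat_lit 240) (nat_lit 234)) (XT.lf (nat_lit 0) (nat_lit 23991297965) (nat_lit 168) (nat_lit 20684975030) (nat_lit 0) (nat_lit 22421614462) (nat_lit 2) (nat_lit 5) (nat_lit 4) (nat_lit 4) (nat_lit 2) (nat_lit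 4) (nat_lit 415) (nat_lit 240) (nat_lit 233)))) (XT.nd (nat_lit 94) (nat_lit 0) (nat_lit 0) (XT.lf (nat_lit 0) (nat_lit 25868005692) (nat_lit 168) (nat_lit 19161119070) (nat_lit 0) (nat_lit 24100228721) (nat_lit 2) (nat_lit 5) (nat_lit 4) (nat_lit 4) (nat_lit 2) (nat_lit 4) (nat_lit 416) (nat_lit 240) (nat_lit 232)) (XT.nd (nat_lit 94) (nat_lit 0) (nat_lit 0) (XT.lf (nat_lit 0) (nat_lit 27777304468) (nat_lit 168) (nat_lit 17629996910) (nat_lit 0) (nat_lit 25817390283) (nat_lit 2) (nat_lit 5) (nat_lit 4) (nat_lit 4) (nat_lit 2) (nat_lit 4) (nat_lit 417) (nat_lit 240) (nat_lit 231)) (XT.lf (nat_lit 0) (nat_lit 29720973959) (nat_lit 168) (nat_lit 16090181382) (nat_lit 0) (nat_lit 27574699723) (nat_lit 2) (nat_lit 5) (nat_lit 4) (nat_lit 4) (nat_lit 2) (nat_lit 4) (nat_lit 418) (nat_lit 240) (nat_lit 230))))) (XT.nd (nat_lit 282) (nat_lit 0) (nat_lit 0) (XT.nd (nat_lit 94) (nat_lit 0)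 (nat_lit 0) (XT.lf (nat_lit 0) (nat_lit 31700825869) (nat_lit 168) (nat_lit 14540237218) (nat_lit 0) (nat_lit 29373795035) (nat_lit 2) (nat_lit 5) (nat_lit 4) (nat_lit 4) (nat_lit 2) (nat_lit 4) (nat_lit 419) (nat_lit 240) (nat_lit 229)) (XT.nd (nat_lit 94) (nat_lit 0) (nat_lit 0) (XT.lf (nat_lit 0) (nat_lit 33718705628) (nat_lit 168) (nat_lit 12978719708) (nat_lit 0) (nat_lit 31216353167) (nat_lit 2) (nat_lit 5) (nat_lit 4) (nat_lit 4) (nat_lit 2) (nat_lit 4) (nat_lit 420) (nat_lit 240) (nat_lit 228)) (XT.lf (nat_lit 0) (nat_lit 35776494110) (nat_lit 168) (nat_lit 11404173352) (nat_lit 0) (nat_lit 33104091574) (nat_lit 2) (nat_lit 5) (nat_lit 4) (nat_lit 4) (nat_lit 2) (nat_lit 4) (nat_lit 421) (nat_lit 240) (nat_lit 227)))) (XT.nd (nat_lit 188) (nat_lit 0) (nat_lit 0) (XT.nd (nat_lit 94) (nat_lit 0) (nat_lit 0) (XT.lf (nat_lit 0) (nat_lit 37876109390) (nat_lit 168) (nat_lit 9815130509)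 (nat_lit 0) (nat_lit 35038769827) (nat_lit 2) (nat_lit 5) (nat_lit 4) (nat_lit 4) (nat_lit 2) (nat_lit 4) (nat_lit 422) (nat_lit 240) (nat_lit 226)) (XT.lf (nat_lit 0) (nat_lit 40019508530) (nat_lit 168) (nat_lit 8210110026) (nat_lit 0) (nat_lit 37022191249) (nat_lit 2) (nat_lit 5) (nat_lit 4) (nat_lit 4) (nat_lit 2) (nat_lit 4) (nat_lit 423) (nat_lit 240) (nat_lit 225))) (XT.nd (nat_lit 94) (nat_lit 0) (nat_lit 0) (XT.lf (nat_lit 0) (nat_lit 42208689402) (nat_lit 168) (nat_lit 6587615853) (nat_lit 0) (nat_lit 39056204596) (nat_lit 2) (nat_lit 5) (nat_lit 4) (nat_lit 4) (nat_lit 2) (nat_lit 4) (nat_lit 424) (nat_lit 240) (nat_lit 224)) (XT.lf (nat_lit 0) (nat_lit 44445692551) (nat_lit 168) (nat_lit 4946135658) (nat_lit 0) (nat_lit 41142705782) (nat_lit 2) (nat_lit 5) (nat_lit 4) (nat_lit 4) (nat_lit 2) (nat_lit 4) (nat_lit 425) (nat_lit 240) (nat_lit 223)))))) (XT.nd (nat_lit 54144)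 (nat_lit 0) (nat_lit 84) (XT.nd (nat_lit 53862) (nat_lit 0) (nat_lit 84) (XT.nd (nat_lit 94) (nat_lit 84) (nat_lit 0) (XT.lf (nat_lit 0) (nat_lit 46732603099) (nat_lit 168) (nat_lit 3284139408) (nat_lit 0) (nat_lit 43283639644) (nat_lit 2) (nat_lit 5) (nat_lit 4) (nat_lit 4) (nat_lit 2) (nat_lit 4) (nat_lit 426) (nat_lit 240) (nat_lit 222)) (XT.nd (nat_lit 94) (nat_lit 84) (nat_lit 0) (XT.lf (nat_lit 0) (nat_lit 49071552687) (nat_lit 168) (nat_lit 1600077949) (nat_lit 0) (nat_lit 45481001757) (nat_lit 2) (nat_lit 5) (nat_lit 4) (nat_lit 4) (nat_lit 2) (nat_lit 4) (nat_lit 427) (nat_lit 240) (nat_lit 221)) (XT.lf (nat_lit 0) (nat_lit 109831295) (nat_lit 84) (nat_lit 51355979705) (nat_lit 84) (nat_lit 47628098537) (nat_lit 1) (nat_lit 4) (nat_lit 2) (nat_lit 5) (nat_lit 2) (nat_lit 4) (nat_lit 428) (nat_lit 240) (nat_lit 220)))) (XT.nd (nat_lit 94) (nat_lit 0) (nat_lit 0) (XT.lf (nat_lit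 0) (nat_lit 4278563308) (nat_lit 168) (nat_lit 17139984525) (nat_lit 0) (nat_lit 4278563308) (nat_lit 2) (nat_lit 5) (nat_lit 4) (nat_lit 4) (nat_lit 2) (nat_lit 4) (nat_lit 406) (nat_lit 241) (nat_lit 241)) (XT.nd (nat_lit 94) (nat_lit 0) (nat_lit 0) (XT.lf (nat_lit 0) (nat_lit 10199531905) (nat_lit 168) (nat_lit 32783874103) (nat_lit 0) (nat_lit 9946637351) (nat_lit 2) (nat_lit 5) (nat_lit 4) (nat_lit 4) (nat_lit 2) (nat_lit 4) (nat_lit 407) (nat_lit 241) (nat_lit 240)) (XT.lf (nat_lit 0) (nat_lit 11860186444) (nat_lit 168) (nat_lit 31292431872) (nat_lit 0) (nat_lit 11362001344) (nat_lit 2) (nat_lit 5) (nat_lit 4) (nat_lit 4) (nat_lit 2) (nat_lit 4) (nat_lit 408) (nat_lit 241) (nat_lit 239))))) (XT.nd (nat_lit 282) (nat_lit 0) (nat_lit 0) (XT.nd (nat_lit 94) (nat_lit 0) (nat_lit 0) (XT.lf (nat_lit 0) (nat_lit 13540638137) (nat_lit 168) (nat_lit 29804252177) (nat_lit 0) (nat_lit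 12804537861) (nat_lit 2) (nat_lit 5) (nat_lit 4) (nat_lit 4) (nat_lit 2) (nat_lit 4) (nat_lit 409) (nat_lit 241) (nat_lit 238)) (XT.nd (nat_lit 94) (nat_lit 0) (nat_lit 0) (XT.lf (nat_lit 0) (nat_lit 15242453341) (nat_lit 168) (nat_lit 28317947878) (nat_lit 0) (nat_lit 14275591498) (nat_lit 2) (nat_lit 5) (nat_lit 4) (nat_lit 4) (nat_lit 2) (nat_lit 4) (nat_lit 410) (nat_lit 241) (nat_lit 237)) (XT.lf (nat_lit 0) (nat_lit 16967218327) (nat_lit 168) (nat_lit 26832133585) (nat_lit 0) (nat_lit 15776533430) (nat_lit 2) (nat_lit 5) (nat_lit 4) (nat_lit 4) (nat_lit 2) (nat_lit 4) (nat_lit 411) (nat_lit 241) (nat_lit 236)))) (XT.nd (nat_lit 188) (nat_lit 0) (nat_lit 0) (XT.nd (nat_lit 94) (nat_lit 0) (nat_lit 0) (XT.lf (nat_lit 0) (nat_lit 18716540755) (nat_lit 168) (nat_lit 25345424362) (nat_lit 0) (nat_lit 17308762694) (nat_lit 2) (nat_lit 5) (nat_lit 4) (nat_lit 4) (nat_lit 2) (nat_lit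 4) (nat_lit 412) (nat_lit 241) (nat_lit 235)) (XT.lf (nat_lit 0) (nat_lit 20492051178) (nat_lit 168) (nat_lit 23856434442) (nat_lit 0) (nat_lit 18873707486) (nat_lit 2) (nat_lit 5) (nat_lit 4) (nat_lit 4) (nat_lit 2) (nat_lit 4) (nat_lit 413) (nat_lit 241) (nat_lit 234))) (XT.nd (nat_lit 94) (nat_lit 0) (nat_lit 0) (XT.lf (nat_lit 0) (nat_lit 22295404557) (nat_lit 168) (nat_lit 22363775928) (nat_lit 0) (nat_lit 20472826500) (nat_lit 2) (nat_lit 5) (nat_lit 4) (nat_lit 4) (nat_lit 2) (nat_lit 4) (nat_lit 414) (nat_lit 241) (nat_lit 233)) (XT.lf (nat_lit 0) (nat_lit 24128281806) (nat_lit 168) (nat_lit 20866057508) (nat_lit 0) (nat_lit 22107610282) (nat_lit 2) (nat_lit 5) (nat_lit 4) (nat_lit 4) (nat_lit 2) (nat_lit 4) (nat_lit 415) (nat_lit 241) (nat_lit 232))))))))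
noncomputable def xc3 : XT := (XT.nd (nat_lit 55742) (nat_lit 0) (nat_lit 0) (XT.nd (nat_lit 1128) (nat_lit 0) (nat_lit 0) (XT.nd (nat_lit 564) (nat_lit 0) (nat_lit 0) (XT.nd (nat_lit 282) (nat_lit 0) (nat_lit 0) (XT.nd (nat_lit 94) (nat_lit 0) (nat_lit 0) (XT.lf (nat_lit 0) (nat_lit 25992391360) (nat_lit 168) (nat_lit 19361883151) (nat_lit 0) (nat_lit 23779582622) (nat_lit 2) (nat_lit 5) (nat_lit 4) (nat_lit 4) (nat_lit 2) (nat_lit 4) (nat_lit 416) (nat_lit 241) (nat_lit 231)) (XT.nd (nat_lit 94) (nat_lit 0) (nat_lit 0) (XT.lf (nat_lit 0) (nat_lit 27889470763) (nat_lit 168) (nat_lit 17849850808) (nat_lit 0) (nat_lit 25490301973) (nat_lit 2) (nat_lit 5) (nat_lit 4) (nat_lit 4) (nat_lit 2) (nat_lit 4) (nat_lit 417) (nat_lit 241) (nat_lit 230)) (XT.lf (nat_lit 0) (nat_lit 29821288292) (nat_lit 168) (nat_lit 16328551108) (nat_lit 0) (nat_lit 27241362904) (nat_lit 2) (nat_lit 5) (nat_lit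 4) (nat_lit 4) (nat_lit 2) (nat_lit 4) (nat_lit 418) (nat_lit 241) (nat_lit 229)))) (XT.nd (nat_lit 94) (nat_lit 0) (nat_lit 0) (XT.lf (nat_lit 0) (nat_lit 31789644603) (nat_lit 168) (nat_lit 14796566039) (nat_lit 0) (nat_lit 29034397589) (nat_lit 2) (nat_lit 5) (nat_lit 4) (nat_lit 4) (nat_lit 2) (nat_lit 4) (nat_lit 419) (nat_lit 241) (nat_lit 228)) (XT.nd (nat_lit 94) (nat_lit 0) (nat_lit 0) (XT.lf (nat_lit 0) (nat_lit 33796374412) (nat_lit 168) (nat_lit 13252467631) (nat_lit 0) (nat_lit 30871077322) (nat_lit 2) (nat_lit 5) (nat_lit 4) (nat_lit 4) (nat_lit 2) (nat_lit 4) (nat_lit 420) (nat_lit 241) (nat_lit 227)) (XT.lf (nat_lit 0) (nat_lit 35843348199) (nat_lit 168) (nat_lit 11694816623) (nat_lit 0) (nat_lit 32753114082) (nat_lit 2) (nat_lit 5) (nat_lit 4) (nat_lit 4) (nat_lit 2) (nat_lit 4) (nat_lit 421) (nat_lit 241) (nat_lit 226))))) (XT.nd (nat_lit 282) (nat_lit 0) (nat_lit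 0) (XT.nd (nat_lit 94) (nat_lit 0) (nat_lit 0) (XT.lf (nat_lit 0) (nat_lit 37932473960) (nat_lit 168) (nat_lit 10122161120) (nat_lit 0) (nat_lit 34682262125) (nat_lit 2) (nat_lit 5) (nat_lit 4) (nat_lit 4) (nat_lit 2) (nat_lit 4) (nat_lit 422) (nat_lit 241) (nat_lit 225)) (XT.nd (nat_lit 94) (nat_lit 0) (nat_lit 0) (XT.lf (nat_lit 0) (nat_lit 40065698978) (nat_lit 168) (nat_lit 8533035243) (nat_lit 0) (nat_lit 36660319619) (nat_lit 2) (nat_lit 5) (nat_lit 4) (nat_lit 4) (nat_lit 2) (nat_lit 4) (nat_lit 423) (nat_lit 241) (nat_lit 224)) (XT.lf (nat_lit 0) (nat_lit 42245011642) (nat_lit 168) (nat_lit 6925957760) (nat_lit 0) (nat_lit 38689130319) (nat_lit 2) (nat_lit 5) (nat_lit 4) (nat_lit 4) (nat_lit 2) (nat_lit 4) (nat_lit 424) (nat_lit 241) (nat_lit 223)))) (XT.nd (nat_lit 94) (nat_lit 0) (nat_lit 0) (XT.lf (nat_lit 0) (nat_lit 44472443300) (nat_lit 168) (nat_lit 5299430707) (nat_lit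 0) (nat_lit 40770585291) (nat_lit 2) (nat_lit 5) (nat_lit 4) (nat_lit 4) (nat_lit 2) (nat_lit 4) (nat_lit 425) (nat_lit 241) (nat_lit 222)) (XT.nd (nat_lit 94) (nat_lit 0) (nat_lit 0) (XT.lf (nat_lit 0) (nat_lit 46750070152) (nat_lit 168) (nat_lit 3651937990) (nat_lit 0) (nat_lit 42906624668) (nat_lit 2) (nat_lit 5) (nat_lit 4) (nat_lit 4) (nat_lit 2) (nat_lit 4) (nat_lit 426) (nat_lit 241) (nat_lit 221)) (XT.lf (nat_lit 0) (nat_lit 49080015185) (nat_lit 168) (nat_lit 1981943972) (nat_lit 0) (nat_lit 45099239463) (nat_lit 2) (nat_lit 5) (nat_lit 4) (nat_lit 4) (nat_lit 2) (nat_lit 4) (nat_lit 427) (nat_lit 241) (nat_lit 220)))))) (XT.nd (nat_lit 53956) (nat_lit 0) (nat_lit 0) (XT.nd (nat_lit 53674) (nat_lit 0) (nat_lit 0) (XT.nd (nat_lit 53486) (nat_lit 0) (nat_lit 0) (XT.lf (nat_lit 0) (nat_lit 51464450150) (nat_lit 168) (nat_lit 287892046) (nat_lit 0) (nat_lit 47350473423) (nat_lit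 2) (nat_lit 5) (nat_lit 4) (nat_lit 4) (nat_lit 2) (nat_lit 4) (nat_lit 428) (nat_lit 241) (nat_lit 219)) (XT.nd (nat_lit 94) (nat_lit 0) (nat_lit 0) (XT.lf (nat_lit 0) (nat_lit 2799393035) (nat_lit 168) (nat_lit 18632496223) (nat_lit 0) (nat_lit 2799393035) (nat_lit 2) (nat_lit 5) (nat_lit 4) (nat_lit 4) (nat_lit 2) (nat_lit 4) (nat_lit 404) (nat_lit 242) (nat_lit 242)) (XT.lf (nat_lit 0) (nat_lit 7192173968) (nat_lit 168) (nat_lit 35782111231) (nat_lit 0) (nat_lit 6931439683) (nat_lit 2) (nat_lit 5) (nat_lit 4) (nat_lit 4) (nat_lit 2) (nat_lit 4) (nat_lit 405) (nat_lit 242) (nat_lit 241)))) (XT.nd (nat_lit 94) (nat_lit 0) (nat_lit 0) (XT.lf (nat_lit 0) (nat_lit 8801278951) (nat_lit 168) (nat_lit 34305874339) (nat_lit 0) (nat_lit 8287650113) (nat_lit 2) (nat_lit 5) (nat_lit 4) (nat_lit 4) (nat_lit 2) (nat_lit 4) (nat_lit 406) (nat_lit 242) (nat_lit 240)) (XT.nd (nat_lit 94) (nat_lit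 0) (nat_lit 0) (XT.lf (nat_lit 0) (nat_lit 10427600876) (nat_lit 168) (nat_lit 32834905763) (nat_lit 0) (nat_lit 9668681491) (nat_lit 2) (nat_lit 5) (nat_lit 4) (nat_lit 4) (nat_lit 2) (nat_lit 4) (nat_lit 407) (nat_lit 242) (nat_lit 239)) (XT.lf (nat_lit 0) (nat_lit 12072655643) (nat_lit 168) (nat_lit 31367834406) (nat_lit 0) (nat_lit 11075821082) (nat_lit 2) (nat_lit 5) (nat_lit 4) (nat_lit 4) (nat_lit 2) (nat_lit 4) (nat_lit 408) (nat_lit 242) (nat_lit 238))))) (XT.nd (nat_lit 282) (nat_lit 0) (nat_lit 0) (XT.nd (nat_lit 94) (nat_lit 0) (nat_lit 0) (XT.lf (nat_lit 0) (nat_lit 13737976617) (nat_lit 168) (nat_lit 29903292804) (nat_lit 0) (nat_lit 12510380488) (nat_lit 2) (nat_lit 5) (nat_lit 4) (nat_lit 4) (nat_lit 2) (nat_lit 4) (nat_lit 409) (nat_lit 242) (nat_lit 237)) (XT.nd (nat_lit 94) (nat_lit 0) (nat_lit 0) (XT.lf (nat_lit 0) (nat_lit 15425116050) (nat_lit 168) (nat_lit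 28439915851) (nat_lit 0) (nat_lit 13973696869) (nat_lit 2) (nat_lit 5) (nat_lit 4) (nat_lit 4) (nat_lit 2) (nat_lit 4) (nat_lit 410) (nat_lit 242) (nat_lit 236)) (XT.lf (nat_lit 0) (nat_lit 17135646535) (nat_lit 168) (nat_lit 26976339526) (nat_lit 0) (nat_lit 15467134189) (nat_lit 2) (nat_lit 5) (nat_lit 4) (nat_lit 4) (nat_lit 2) (nat_lit 4) (nat_lit 411) (nat_lit 242) (nat_lit 235)))) (XT.nd (nat_lit 188) (nat_lit 0) (nat_lit 0) (XT.nd (nat_lit 94) (nat_lit 0) (nat_lit 0) (XT.lf (nat_lit 0) (nat_lit 18871162463) (nat_lit 168) (nat_lit 25511199622) (nat_lit 0) (nat_lit 16992084487) (nat_lit 2) (nat_lit 5) (nat_lit 4) (nat_lit 4) (nat_lit 2) (nat_lit 4) (nat_lit 412) (nat_lit 242) (nat_lit 234)) (XT.lf (nat_lit 0) (nat_lit 20633281519) (nat_lit 168) (nat_lit 24043130477) (nat_lit 0) (nat_lit 18549969177) (nat_lit 2) (nat_lit 5) (nat_lit 4) (nat_lit 4) (nat_lit 2) (nat_lit 4) (nat_lit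 413) (nat_lit 242) (nat_lit 233))) (XT.nd (nat_lit 94) (nat_lit 0) (nat_lit 0) (XT.lf (nat_lit 0) (nat_lit 22423646181) (nat_lit 168) (nat_lit 22570763695) (nat_lit 0) (nat_lit 20142240372) (nat_lit 2) (nat_lit 5) (nat_lit 4) (nat_lit 4) (nat_lit 2) (nat_lit 4) (nat_lit 414) (nat_lit 242) (nat_lit 232)) (XT.lf (nat_lit 0) (nat_lit 24243925256) (nat_lit 168) (nat_lit 21092726877) (nat_lit 0) (nat_lit 21770382234) (nat_lit 2) (nat_lit 5) (nat_lit 4) (nat_lit 4) (nat_lit 2) (nat_lit 4) (nat_lit 415) (nat_lit 242) (nat_lit 231))))))) (XT.nd (nat_lit 54520) (nat_lit 0) (nat_lit 0) (XT.nd (nat_lit 564) (nat_lit 0) (nat_lit 0) (XT.nd (nat_lit 282) (nat_lit 0) (nat_lit 0) (XT.nd (nat_lit 94) (nat_lit 0) (nat_lit 0) (XT.lf (nat_lit 0) (nat_lit 26095815437) (nat_lit 168) (nat_lit 19607642338) (nat_lit 0) (nat_lit 23435912362) (nat_lit 2) (nat_lit 5) (nat_lit 4) (nat_lit 4) (nat_lit 2) (nat_lit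 4) (nat_lit 416) (nat_lit 242) (nat_lit 230)) (XT.nd (nat_lit 94) (nat_lit 0) (nat_lit 0) (XT.lf (nat_lit 0) (nat_lit 27981042877) (nat_lit 168) (nat_lit 18114125822) (nat_lit 0) (nat_lit 25140383205) (nat_lit 2) (nat_lit 5) (nat_lit 4) (nat_lit 4) (nat_lit 2) (nat_lit 4) (nat_lit 417) (nat_lit 242) (nat_lit 229)) (XT.lf (nat_lit 0) (nat_lit 29901364808) (nat_lit 168) (nat_lit 16610785217) (nat_lit 0) (nat_lit 26885383508) (nat_lit 2) (nat_lit 5) (nat_lit 4) (nat_lit 4) (nat_lit 2) (nat_lit 4) (nat_lit 418) (nat_lit 242) (nat_lit 228)))) (XT.nd (nat_lit 94) (nat_lit 0) (nat_lit 0) (XT.lf (nat_lit 0) (nat_lit 31858571169) (nat_lit 168) (nat_lit 15096219251) (nat_lit 0) (nat_lit 28672539795) (nat_lit 2) (nat_lit 5) (nat_lit 4) (nat_lit 4) (nat_lit 2) (nat_lit 4) (nat_lit 419) (nat_lit 242) (nat_lit 227)) (XT.nd (nat_lit 94) (nat_lit 0) (nat_lit 0) (XT.lf (nat_lit 0) (nat_lit 33854486283)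 (nat_lit 168) (nat_lit 13569016190) (nat_lit 0) (nat_lit 30503517882) (nat_lit 2) (nat_lit 5) (nat_lit 4) (nat_lit 4) (nat_lit 2) (nat_lit 4) (nat_lit 420) (nat_lit 242) (nat_lit 226)) (XT.lf (nat_lit 0) (nat_lit 35890970551) (nat_lit 168) (nat_lit 12027752522) (nat_lit 0) (nat_lit 32380024432) (nat_lit 2) (nat_lit 5) (nat_lit 4) (nat_lit 4) (nat_lit 2) (nat_lit 4) (nat_lit 421) (nat_lit 242) (nat_lit 225))))) (XT.nd (nat_lit 282) (nat_lit 0) (nat_lit 0) (XT.nd (nat_lit 94) (nat_lit 0) (nat_lit 0) (XT.lf (nat_lit 0) (nat_lit 37969922190) (nat_lit 168) (nat_lit 10470991626) (nat_lit 0) (nat_lit 34303808546) (nat_lit 2) (nat_lit 5) (nat_lit 4) (nat_lit 4) (nat_lit 2) (nat_lit 4) (nat_lit 422) (nat_lit 242) (nat_lit 224)) (XT.nd (nat_lit 94) (nat_lit 0) (nat_lit 0) (XT.lf (nat_lit 0) (nat_lit 40093279000) (nat_lit 168) (nat_lit 8897282438) (nat_lit 0) (nat_lit 36276663393) (nat_lit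 2) (nat_lit 5) (nat_lit 4) (nat_lit 4) (nat_lit 2) (nat_lit 4) (nat_lit 423) (nat_lit 242) (nat_lit 223)) (XT.lf (nat_lit 0) (nat_lit 42263020173) (nat_lit 168) (nat_lit 7305158097) (nat_lit 0) (nat_lit 38300427879) (nat_lit 2) (nat_lit 5) (nat_lit 4) (nat_lit 4) (nat_lit 2) (nat_lit 4) (nat_lit 424) (nat_lit 242) (nat_lit 222)))) (XT.nd (nat_lit 188) (nat_lit 0) (nat_lit 0) (XT.nd (nat_lit 94) (nat_lit 0) (nat_lit 0) (XT.lf (nat_lit 0) (nat_lit 44481168135) (nat_lit 168) (nat_lit 5693134577) (nat_lit 0) (nat_lit 40376988366) (nat_lit 2) (nat_lit 5) (nat_lit 4) (nat_lit 4) (nat_lit 2) (nat_lit 4) (nat_lit 425) (nat_lit 242) (nat_lit 221)) (XT.lf (nat_lit 0) (nat_lit 46749790431) (nat_lit 168) (nat_lit 4059709301) (nat_lit 0) (nat_lit 42508280426) (nat_lit 2) (nat_lit 5) (nat_lit 4) (nat_lit 4) (nat_lit 2) (nat_lit 4) (nat_lit 426) (nat_lit 242) (nat_lit 220))) (XT.nd (nat_lit 53392)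 (nat_lit 0) (nat_lit 0) (XT.lf (nat_lit 0) (nat_lit 49071001657) (nat_lit 168) (nat_lit 2403359748) (nat_lit 0) (nat_lit 44696290645) (nat_lit 2) (nat_lit 5) (nat_lit 4) (nat_lit 4) (nat_lit 2) (nat_lit 4) (nat_lit 427) (nat_lit 242) (nat_lit 219)) (XT.lf (nat_lit 0) (nat_lit 1369838497) (nat_lit 168) (nat_lit 20114343910) (nat_lit 0) (nat_lit 1369838497) (nat_lit 2) (nat_lit 5) (nat_lit 4) (nat_lit 4) (nat_lit 2) (nat_lit 4) (nat_lit 402) (nat_lit 243) (nat_lit 243)))))) (XT.nd (nat_lit 564) (nat_lit 0) (nat_lit 0) (XT.nd (nat_lit 282) (nat_lit 0) (nat_lit 0) (XT.nd (nat_lit 94) (nat_lit 0) (nat_lit 0) (XT.lf (nat_lit 0) (nat_lit 4288447102) (nat_lit 168) (nat_lit 38755900186) (nat_lit 0) (nat_lit 4019630055) (nat_lit 2) (nat_lit 5) (nat_lit 4) (nat_lit 4) (nat_lit 2) (nat_lit 4) (nat_lit 403) (nat_lit 243) (nat_lit 242)) (XT.nd (nat_lit 94) (nat_lit 0) (nat_lit 0) (XT.lf (nat_lit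 0) (nat_lit 5850507128) (nat_lit 168) (nat_lit 37291700799) (nat_lit 0) (nat_lit 5320955796) (nat_lit 2) (nat_lit 5) (nat_lit 4) (nat_lit 4) (nat_lit 2) (nat_lit 4) (nat_lit 404) (nat_lit 243) (nat_lit 241)) (XT.lf (nat_lit 0) (nat_lit 7427313077) (nat_lit 168) (nat_lit 35834724872) (nat_lit 0) (nat_lit 6644867191) (nat_lit 2) (nat_lit 5) (nat_lit 4) (nat_lit 4) (nat_lit 2) (nat_lit 4) (nat_lit 405) (nat_lit 243) (nat_lit 240)))) (XT.nd (nat_lit 94) (nat_lit 0) (nat_lit 0) (XT.lf (nat_lit 0) (nat_lit 9020334696) (nat_lit 168) (nat_lit 34383614351) (nat_lit 0) (nat_lit 7992598263) (nat_lit 2) (nat_lit 5) (nat_lit 4) (nat_lit 4) (nat_lit 2) (nat_lit 4) (nat_lit 406) (nat_lit 243) (nat_lit 239)) (XT.nd (nat_lit 94) (nat_lit 0) (nat_lit 0) (XT.lf (nat_lit 0) (nat_lit 10631056848) (nat_lit 168) (nat_lit 32937016649) (nat_lit 0) (nat_lit 9365405240) (nat_lit 2) (nat_lit 5) (nat_lit 4)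 (nat_lit 4) (nat_lit 2) (nat_lit 4) (nat_lit 407) (nat_lit 243) (nat_lit 238)) (XT.lf (nat_lit 0) (nat_lit 12260980896) (nat_lit 168) (nat_lit 31493583385) (nat_lit 0) (nat_lit 10764567720) (nat_lit 2) (nat_lit 5) (nat_lit 4) (nat_lit 4) (nat_lit 2) (nat_lit 4) (nat_lit 408) (nat_lit 243) (nat_lit 237))))) (XT.nd (nat_lit 282) (nat_lit 0) (nat_lit 0) (XT.nd (nat_lit 94) (nat_lit 0) (nat_lit 0) (XT.lf (nat_lit 0) (nat_lit 13911626099) (nat_lit 168) (nat_lit 30051969128) (nat_lit 0) (nat_lit 12191389870) (nat_lit 2) (nat_lit 5) (nat_lit 4) (nat_lit 4) (nat_lit 2) (nat_lit 4) (nat_lit 409) (nat_lit 243) (nat_lit 236)) (XT.nd (nat_lit 94) (nat_lit 0) (nat_lit 0) (XT.lf (nat_lit 0) (nat_lit 15584531031) (nat_lit 168) (nat_lit 28610830144) (nat_lit 0) (nat_lit 13647201638) (nat_lit 2) (nat_lit 5) (nat_lit 4) (nat_lit 4) (nat_lit 2) (nat_lit 4) (nat_lit 410) (nat_lit 243) (nat_lit 235))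 (XT.lf (nat_lit 0) (nat_lit 17281255016) (nat_lit 168) (nat_lit 27168823138) (nat_lit 0) (nat_lit 15133359992) (nat_lit 2) (nat_lit 5) (nat_lit 4) (nat_lit 4) (nat_lit 2) (nat_lit 4) (nat_lit 411) (nat_lit 243) (nat_lit 234)))) (XT.nd (nat_lit 188) (nat_lit 0) (nat_lit 0) (XT.nd (nat_lit 94) (nat_lit 0) (nat_lit 0) (XT.lf (nat_lit 0) (nat_lit 19003379577) (nat_lit 168) (nat_lit 25724604010) (nat_lit 0) (nat_lit 16651250188) (nat_lit 2) (nat_lit 5) (nat_lit 4) (nat_lit 4) (nat_lit 2) (nat_lit 4) (nat_lit 412) (nat_lit 243) (nat_lit 233)) (XT.lf (nat_lit 0) (nat_lit 20752509916) (nat_lit 168) (nat_lit 24276826597) (nat_lit 0) (nat_lit 18202287060) (nat_lit 2) (nat_lit 5) (nat_lit 4) (nat_lit 4) (nat_lit 2) (nat_lit 4) (nat_lit 413) (nat_lit 243) (nat_lit 232))) (XT.nd (nat_lit 94) (nat_lit 0) (nat_lit 0) (XT.lf (nat_lit 0) (nat_lit 22530276404) (nat_lit 168) (nat_lit 22824141417) (nat_lit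 0) (nat_lit 19787916334) (nat_lit 2) (nat_lit 5) (nat_lit 4) (nat_lit 4) (nat_lit 2) (nat_lit 4) (nat_lit 414) (nat_lit 243) (nat_lit 231)) (XT.lf (nat_lit 0) (nat_lit 24338336107) (nat_lit 168) (nat_lit 21365194417) (nat_lit 0) (nat_lit 21409615985) (nat_lit 2) (nat_lit 5) (nat_lit 4) (nat_lit 4) (nat_lit 2) (nat_lit 4) (nat_lit 415) (nat_lit 243) (nat_lit 230))))))))
noncomputable def xc4 : XT := (XT.nd (nat_lit 55460) (nat_lit 0) (nat_lit 0) (XT.nd (nat_lit 54238) (nat_lit 0) (nat_lit 0) (XT.nd (nat_lit 564) (nat_lit 0) (nat_lit 0) (XT.nd (nat_lit 282) (nat_lit 0) (nat_lit 0) (XT.nd (nat_lit 94) (nat_lit 0) (nat_lit 0) (XT.lf (nat_lit 0) (nat_lit 26178374325) (nat_lit 168) (nat_lit 19898625704) (nat_lit 0) (nat_lit 23068897605) (nat_lit 2) (nat_lit 5) (nat_lit 4) (nat_lit 4) (nat_lit 2) (nat_lit 4) (nat_lit 416) (nat_lit 243) (nat_lit 229)) (XT.nd (nat_lit 94) (nat_lit 0) (nat_lit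 0) (XT.lf (nat_lit 0) (nat_lit 28052106167) (nat_lit 168) (nat_lit 18423068284) (nat_lit 0) (nat_lit 24767307820) (nat_lit 2) (nat_lit 5) (nat_lit 4) (nat_lit 4) (nat_lit 2) (nat_lit 4) (nat_lit 417) (nat_lit 243) (nat_lit 228)) (XT.lf (nat_lit 0) (nat_lit 29961278147) (nat_lit 168) (nat_lit 16937146782) (nat_lit 0) (nat_lit 26506429725) (nat_lit 2) (nat_lit 5) (nat_lit 4) (nat_lit 4) (nat_lit 2) (nat_lit 4) (nat_lit 418) (nat_lit 243) (nat_lit 227)))) (XT.nd (nat_lit 94) (nat_lit 0) (nat_lit 0) (XT.lf (nat_lit 0) (nat_lit 31907669814) (nat_lit 168) (nat_lit 15439476163) (nat_lit 0) (nat_lit 28287884365) (nat_lit 2) (nat_lit 5) (nat_lit 4) (nat_lit 4) (nat_lit 2) (nat_lit 4) (nat_lit 419) (nat_lit 243) (nat_lit 226)) (XT.nd (nat_lit 94) (nat_lit 0) (nat_lit 0) (XT.lf (nat_lit 0) (nat_lit 33893095408) (nat_lit 168) (nat_lit 13928660442) (nat_lit 0) (nat_lit 30113332241) (nat_lit 2)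 (nat_lit 5) (nat_lit 4) (nat_lit 4) (nat_lit 2) (nat_lit 4) (nat_lit 420) (nat_lit 243) (nat_lit 225)) (XT.lf (nat_lit 0) (nat_lit 35919405554) (nat_lit 168) (nat_lit 12403291380) (nat_lit 0) (nat_lit 31984474863) (nat_lit 2) (nat_lit 5) (nat_lit 4) (nat_lit 4) (nat_lit 2) (nat_lit 4) (nat_lit 421) (nat_lit 243) (nat_lit 224))))) (XT.nd (nat_lit 282) (nat_lit 0) (nat_lit 0) (XT.nd (nat_lit 94) (nat_lit 0) (nat_lit 0) (XT.lf (nat_lit 0) (nat_lit 37988488985) (nat_lit 168) (nat_lit 10861947173) (nat_lit 0) (nat_lit 33903056330) (nat_lit 2) (nat_lit 5) (nat_lit 4) (nat_lit 4) (nat_lit 2) (nat_lit 4) (nat_lit 422) (nat_lit 243) (nat_lit 223)) (XT.nd (nat_lit 94) (nat_lit 0) (nat_lit 0) (XT.lf (nat_lit 0) (nat_lit 40102274305) (nat_lit 168) (nat_lit 9303191128) (nat_lit 0) (nat_lit 35870864963) (nat_lit 2) (nat_lit 5) (nat_lit 4) (nat_lit 4) (nat_lit 2) (nat_lit 4) (nat_lit 423) (nat_lit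 243) (nat_lit 222)) (XT.lf (nat_lit 0) (nat_lit 42262731781) (nat_lit 168) (nat_lit 7725570320) (nat_lit 0) (nat_lit 37889734965) (nat_lit 2) (nat_lit 5) (nat_lit 4) (nat_lit 4) (nat_lit 2) (nat_lit 4) (nat_lit 424) (nat_lit 243) (nat_lit 221)))) (XT.nd (nat_lit 94) (nat_lit 0) (nat_lit 0) (XT.lf (nat_lit 0) (nat_lit 44471875188) (nat_lit 168) (nat_lit 6127614241) (nat_lit 0) (nat_lit 39961548134) (nat_lit 2) (nat_lit 5) (nat_lit 4) (nat_lit 4) (nat_lit 2) (nat_lit 4) (nat_lit 425) (nat_lit 243) (nat_lit 220)) (XT.nd (nat_lit 94) (nat_lit 0) (nat_lit 0) (XT.lf (nat_lit 0) (nat_lit 46731763677) (nat_lit 168) (nat_lit 4507833429) (nat_lit 0) (nat_lit 42088235617) (nat_lit 2) (nat_lit 5) (nat_lit 4) (nat_lit 4) (nat_lit 2) (nat_lit 4) (nat_lit 426) (nat_lit 243) (nat_lit 219)) (XT.lf (nat_lit 0) (nat_lit 49044503702) (nat_lit 168) (nat_lit 2864718079) (nat_lit 0) (nat_lit 44271779710)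 (nat_lit 2) (nat_lit 5) (nat_lit 4) (nat_lit 4) (nat_lit 2) (nat_lit 4) (nat_lit 427) (nat_lit 243) (nat_lit 218)))))) (XT.nd (nat_lit 564) (nat_lit 0) (nat_lit 0) (XT.nd (nat_lit 282) (nat_lit 0) (nat_lit 0) (XT.nd (nat_lit 94) (nat_lit 168) (nat_lit 0) (XT.lf (nat_lit 0) (nat_lit 21531971185) (nat_lit 84) (nat_lit 14073134) (nat_lit 84) (nat_lit 14073134) (nat_lit 4) (nat_lit 4) (nat_lit 5) (nat_lit 5) (nat_lit 5) (nat_lit 4) (nat_lit 400) (nat_lit 244) (nat_lit 244)) (XT.nd (nat_lit 94) (nat_lit 0) (nat_lit 0) (XT.lf (nat_lit 0) (nat_lit 1479903566) (nat_lit 168) (nat_lit 41711436495) (nat_lit 0) (nat_lit 1202753190) (nat_lit 2) (nat_lit 5) (nat_lit 4) (nat_lit 4) (nat_lit 2) (nat_lit 4) (nat_lit 401) (nat_lit 244) (nat_lit 243)) (XT.lf (nat_lit 0) (nat_lit 2999201406) (nat_lit 168) (nat_lit 40256224132) (nat_lit 0) (nat_lit 2453233982) (nat_lit 2) (nat_lit 5) (nat_lit 4) (nat_lit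 4) (nat_lit 2) (nat_lit 4) (nat_lit 402) (nat_lit 244) (nat_lit 242)))) (XT.nd (nat_lit 94) (nat_lit 0) (nat_lit 0) (XT.lf (nat_lit 0) (nat_lit 4530875524) (nat_lit 168) (nat_lit 38810144850) (nat_lit 0) (nat_lit 3724173815) (nat_lit 2) (nat_lit 5) (nat_lit 4) (nat_lit 4) (nat_lit 2) (nat_lit 4) (nat_lit 403) (nat_lit 244) (nat_lit 241)) (XT.nd (nat_lit 94) (nat_lit 0) (nat_lit 0) (XT.lf (nat_lit 0) (nat_lit 6076353601) (nat_lit 168) (nat_lit 37371850752) (nat_lit 0) (nat_lit 5016757339) (nat_lit 2) (nat_lit 5) (nat_lit 4) (nat_lit 4) (nat_lit 2) (nat_lit 4) (nat_lit 404) (nat_lit 244) (nat_lit 240)) (XT.lf (nat_lit 0) (nat_lit 7637076184) (nat_lit 168) (nat_lit 35940001196) (nat_lit 0) (nat_lit 6332189376) (nat_lit 2) (nat_lit 5) (nat_lit 4) (nat_lit 4) (nat_lit 2) (nat_lit 4) (nat_lit 405) (nat_lit 244) (nat_lit 239))))) (XT.nd (nat_lit 282) (nat_lit 0) (nat_lit 0) (XT.nd (nat_lit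 94) (nat_lit 0) (nat_lit 0) (XT.lf (nat_lit 0) (nat_lit 9214498031) (nat_lit 168) (nat_lit 34513261549) (nat_lit 0) (nat_lit 7671696047) (nat_lit 2) (nat_lit 5) (nat_lit 4) (nat_lit 4) (nat_lit 2) (nat_lit 4) (nat_lit 406) (nat_lit 244) (nat_lit 238)) (XT.nd (nat_lit 94) (nat_lit 0) (nat_lit 0) (XT.lf (nat_lit 0) (nat_lit 10810089464) (nat_lit 168) (nat_lit 33090301939) (nat_lit 0) (nat_lit 9036525912) (nat_lit 2) (nat_lit 5) (nat_lit 4) (nat_lit 4) (nat_lit 2) (nat_lit 4) (nat_lit 407) (nat_lit 244) (nat_lit 237)) (XT.lf (nat_lit 0) (nat_lit 12425337741) (nat_lit 168) (nat_lit 31669796021) (nat_lit 0) (nat_lit 10427951136) (nat_lit 2) (nat_lit 5) (nat_lit 4) (nat_lit 4) (nat_lit 2) (nat_lit 4) (nat_lit 408) (nat_lit 244) (nat_lit 236)))) (XT.nd (nat_lit 188) (nat_lit 0) (nat_lit 0) (XT.nd (nat_lit 94) (nat_lit 0) (nat_lit 0) (XT.lf (nat_lit 0) (nat_lit 14061748443) (nat_lit 168)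 (nat_lit 30250419733) (nat_lit 0) (nat_lit 11847268673) (nat_lit 2) (nat_lit 5) (nat_lit 4) (nat_lit 4) (nat_lit 2) (nat_lit 4) (nat_lit 409) (nat_lit 244) (nat_lit 235)) (XT.lf (nat_lit 0) (nat_lit 15720846876) (nat_lit 168) (nat_lit 28830850067) (nat_lit 0) (nat_lit 13295801476) (nat_lit 2) (nat_lit 5) (nat_lit 4) (nat_lit 4) (nat_lit 2) (nat_lit 4) (nat_lit 410) (nat_lit 244) (nat_lit 234))) (XT.nd (nat_lit 94) (nat_lit 0) (nat_lit 0) (XT.lf (nat_lit 0) (nat_lit 17404179493) (nat_lit 168) (nat_lit 27409763837) (nat_lit 0) (nat_lit 14774899729) (nat_lit 2) (nat_lit 5) (nat_lit 4) (nat_lit 4) (nat_lit 2) (nat_lit 4) (nat_lit 411) (nat_lit 244) (nat_lit 233)) (XT.lf (nat_lit 0) (nat_lit 19113315338) (nat_lit 168) (nat_lit 25985836441) (nat_lit 0) (nat_lit 16285942105) (nat_lit 2) (nat_lit 5) (nat_lit 4) (nat_lit 4) (nat_lit 2) (nat_lit 4) (nat_lit 412) (nat_lit 244) (nat_lit 232)))))))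 (XT.nd (nat_lit 1222) (nat_lit 0) (nat_lit 0) (XT.nd (nat_lit 564) (nat_lit 0) (nat_lit 0) (XT.nd (nat_lit 282) (nat_lit 0) (nat_lit 0) (XT.nd (nat_lit 94) (nat_lit 0) (nat_lit 0) (XT.lf (nat_lit 0) (nat_lit 20849847502) (nat_lit 168) (nat_lit 24557740630) (nat_lit 0) (nat_lit 17830337056) (nat_lit 2) (nat_lit 5) (nat_lit 4) (nat_lit 4) (nat_lit 2) (nat_lit 4) (nat_lit 413) (nat_lit 244) (nat_lit 231)) (XT.nd (nat_lit 94) (nat_lit 0) (nat_lit 0) (XT.lf (nat_lit 0) (nat_lit 22615394618) (nat_lit 168) (nat_lit 23124145268) (nat_lit 0) (nat_lit 19409524119) (nat_lit 2) (nat_lit 5) (nat_lit 4) (nat_lit 4) (nat_lit 2) (nat_lit 4) (nat_lit 414) (nat_lit 244) (nat_lit 230)) (XT.lf (nat_lit 0) (nat_lit 24411602358) (nat_lit 168) (nat_lit 21683714095) (nat_lit 0) (nat_lit 21024975262) (nat_lit 2) (nat_lit 5) (nat_lit 4) (nat_lit 4) (nat_lit 2) (nat_lit 4) (nat_lit 415) (nat_lit 244) (nat_lit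 229)))) (XT.nd (nat_lit 94) (nat_lit 0) (nat_lit 0) (XT.lf (nat_lit 0) (nat_lit 26240144978) (nat_lit 168) (nat_lit 20235104477) (nat_lit 0) (nat_lit 22678196255) (nat_lit 2) (nat_lit 5) (nat_lit 4) (nat_lit 4) (nat_lit 2) (nat_lit 4) (nat_lit 416) (nat_lit 244) (nat_lit 228)) (XT.nd (nat_lit 94) (nat_lit 0) (nat_lit 0) (XT.lf (nat_lit 0) (nat_lit 28102726869) (nat_lit 168) (nat_lit 18776966160) (nat_lit 0) (nat_lit 24370728071) (nat_lit 2) (nat_lit 5) (nat_lit 4) (nat_lit 4) (nat_lit 2) (nat_lit 4) (nat_lit 417) (nat_lit 244) (nat_lit 227)) (XT.lf (nat_lit 0) (nat_lit 30001084155) (nat_lit 168) (nat_lit 17307940005) (nat_lit 0) (nat_lit 26104148330) (nat_lit 2) (nat_lit 5) (nat_lit 4) (nat_lit 4) (nat_lit 2) (nat_lit 4) (nat_lit 418) (nat_lit 244) (nat_lit 226))))) (XT.nd (nat_lit 282) (nat_lit 0) (nat_lit 0) (XT.nd (nat_lit 94) (nat_lit 0) (nat_lit 0) (XT.lf (nat_lit 0) (nat_lit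 31936986302) (nat_lit 168) (nat_lit 15826656726) (nat_lit 0) (nat_lit 27880072759) (nat_lit 2) (nat_lit 5) (nat_lit 4) (nat_lit 4) (nat_lit 2) (nat_lit 4) (nat_lit 419) (nat_lit 244) (nat_lit 225)) (XT.nd (nat_lit 94) (nat_lit 0) (nat_lit 0) (XT.lf (nat_lit 0) (nat_lit 33912237774) (nat_lit 168) (nat_lit 14331735612) (nat_lit 0) (nat_lit 29700156707) (nat_lit 2) (nat_lit 5) (nat_lit 4) (nat_lit 4) (nat_lit 2) (nat_lit 4) (nat_lit 420) (nat_lit 244) (nat_lit 224)) (XT.lf (nat_lit 0) (nat_lit 35928679713) (nat_lit 168) (nat_lit 12821783239) (nat_lit 0) (nat_lit 31566096682) (nat_lit 2) (nat_lit 5) (nat_lit 4) (nat_lit 4) (nat_lit 2) (nat_lit 4) (nat_lit 421) (nat_lit 244) (nat_lit 223)))) (XT.nd (nat_lit 188) (nat_lit 0) (nat_lit 0) (XT.nd (nat_lit 94) (nat_lit 0) (nat_lit 0) (XT.lf (nat_lit 0) (nat_lit 37988191653) (nat_lit 168) (nat_lit 11295392175) (nat_lit 0) (nat_lit 33479631936)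 (nat_lit 2) (nat_lit 5) (nat_lit 4) (nat_lit 4) (nat_lit 2) (nat_lit 4) (nat_lit 422) (nat_lit 244) (nat_lit 222)) (XT.lf (nat_lit 0) (nat_lit 40092693276) (nat_lit 168) (nat_lit 9751139662) (nat_lit 0) (nat_lit 35442546084) (nat_lit 2) (nat_lit 5) (nat_lit 4) (nat_lit 4) (nat_lit 2) (nat_lit 4) (nat_lit 423) (nat_lit 244) (nat_lit 221))) (XT.nd (nat_lit 94) (nat_lit 0) (nat_lit 0) (XT.lf (nat_lit 0) (nat_lit 42244146197) (nat_lit 168) (nat_lit 8187586295) (nat_lit 0) (nat_lit 37456668768) (nat_lit 2) (nat_lit 5) (nat_lit 4) (nat_lit 4) (nat_lit 2) (nat_lit 4) (nat_lit 424) (nat_lit 244) (nat_lit 220)) (XT.lf (nat_lit 0) (nat_lit 44444555796) (nat_lit 168) (nat_lit 6603274680) (nat_lit 0) (nat_lit 39523877361) (nat_lit 2) (nat_lit 5) (nat_lit 4) (nat_lit 4) (nat_lit 2) (nat_lit 4) (nat_lit 425) (nat_lit 244) (nat_lit 219)))))) (XT.nd (nat_lit 53486) (nat_lit 0) (nat_lit 0) (XT.nd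 (nat_lit 53204) (nat_lit 0) (nat_lit 0) (XT.nd (nat_lit 94) (nat_lit 0) (nat_lit 0) (XT.lf (nat_lit 0) (nat_lit 46695973085) (nat_lit 168) (nat_lit 4996728071) (nat_lit 0) (nat_lit 41646098718) (nat_lit 2) (nat_lit 5) (nat_lit 4) (nat_lit 4) (nat_lit 2) (nat_lit 4) (nat_lit 426) (nat_lit 244) (nat_lit 218)) (XT.nd (nat_lit 53016) (nat_lit 0) (nat_lit 168) (XT.lf (nat_lit 0) (nat_lit 49000496621) (nat_lit 168) (nat_lit 3366449000) (nat_lit 0) (nat_lit 43825310971) (nat_lit 2) (nat_lit 5) (nat_lit 4) (nat_lit 4) (nat_lit 2) (nat_lit 4) (nat_lit 427) (nat_lit 244) (nat_lit 217)) (XT.lf (nat_lit 0) (nat_lit 17657168571) (nat_lit 84) (nat_lit 1342947906) (nat_lit 84) (nat_lit 1342947906) (nat_lit 4) (nat_lit 4) (nat_lit 5) (nat_lit 5) (nat_lit 5) (nat_lit 4) (nat_lit 398) (nat_lit 245) (nat_lit 245)))) (XT.nd (nat_lit 94) (nat_lit 168) (nat_lit 0) (XT.lf (nat_lit 0) (nat_lit 39143628160)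 (nat_lit 84) (nat_lit 1517631376) (nat_lit 84) (nat_lit 1223031335) (nat_lit 4) (nat_lit 4) (nat_lit 5) (nat_lit 5) (nat_lit 5) (nat_lit 4) (nat_lit 399) (nat_lit 245) (nat_lit 244)) (XT.nd (nat_lit 94) (nat_lit 84) (nat_lit 0) (XT.lf (nat_lit 0) (nat_lit 243286253) (nat_lit 168) (nat_lit 86227697) (nat_lit 84) (nat_lit 42791264304) (nat_lit 3) (nat_lit 5) (nat_lit 5) (nat_lit 5) (nat_lit 4) (nat_lit 4) (nat_lit 400) (nat_lit 245) (nat_lit 243)) (XT.lf (nat_lit 0) (nat_lit 1729847268) (nat_lit 168) (nat_lit 41767362743) (nat_lit 0) (nat_lit 898137807) (nat_lit 2) (nat_lit 5) (nat_lit 4) (nat_lit 4) (nat_lit 2) (nat_lit 4) (nat_lit 401) (nat_lit 245) (nat_lit 242))))) (XT.nd (nat_lit 282) (nat_lit 0) (nat_lit 0) (XT.nd (nat_lit 94) (nat_lit 0) (nat_lit 0) (XT.lf (nat_lit 0) (nat_lit 3232049118) (nat_lit 168) (nat_lit 40338858733) (nat_lit 0) (nat_lit 2139605373) (nat_lit 2) (nat_lit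 5) (nat_lit 4) (nat_lit 4) (nat_lit 2) (nat_lit 4) (nat_lit 402) (nat_lit 245) (nat_lit 241)) (XT.nd (nat_lit 94) (nat_lit 0) (nat_lit 0) (XT.lf (nat_lit 0) (nat_lit 4747141287) (nat_lit 168) (nat_lit 38918684740) (nat_lit 0) (nat_lit 3401802988) (nat_lit 2) (nat_lit 5) (nat_lit 4) (nat_lit 4) (nat_lit 2) (nat_lit 4) (nat_lit 403) (nat_lit 245) (nat_lit 240)) (XT.lf (nat_lit 0) (nat_lit 6276535999) (nat_lit 168) (nat_lit 37505517012) (nat_lit 0) (nat_lit 4685907154) (nat_lit 2) (nat_lit 5) (nat_lit 4) (nat_lit 4) (nat_lit 2) (nat_lit 4) (nat_lit 404) (nat_lit 245) (nat_lit 239)))) (XT.nd (nat_lit 188) (nat_lit 0) (nat_lit 0) (XT.nd (nat_lit 94) (nat_lit 0) (nat_lit 0) (XT.lf (nat_lit 0) (nat_lit 7821658811) (nat_lit 168) (nat_lit 36098038330) (nat_lit 0) (nat_lit 5993114789) (nat_lit 2) (nat_lit 5) (nat_lit 4) (nat_lit 4) (nat_lit 2) (nat_lit 4) (nat_lit 405) (nat_lit 245) (nat_lit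 238)) (XT.lf (nat_lit 0) (nat_lit 9383949939) (nat_lit 168) (nat_lit 34694936776) (nat_lit 0) (nat_lit 7324644349) (nat_lit 2) (nat_lit 5) (nat_lit 4) (nat_lit 4) (nat_lit 2) (nat_lit 4) (nat_lit 406) (nat_lit 245) (nat_lit 237))) (XT.nd (nat_lit 94) (nat_lit 0) (nat_lit 0) (XT.lf (nat_lit 0) (nat_lit 10964865601) (nat_lit 168) (nat_lit 33294904513) (nat_lit 0) (nat_lit 8681736958) (nat_lit 2) (nat_lit 5) (nat_lit 4) (nat_lit 4) (nat_lit 2) (nat_lit 4) (nat_lit 407) (nat_lit 245) (nat_lit 236)) (XT.lf (nat_lit 0) (nat_lit 12565879377) (nat_lit 168) (nat_lit 31896636563) (nat_lit 0) (nat_lit 10065657570) (nat_lit 2) (nat_lit 5) (nat_lit 4) (nat_lit 4) (nat_lit 2) (nat_lit 4) (nat_lit 408) (nat_lit 245) (nat_lit 235))))))))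
noncomputable def xc5 : XT := (XT.nd (nat_lit 55178) (nat_lit 0) (nat_lit 0) (XT.nd (nat_lit 1128) (nat_lit 0) (nat_lit 0) (XT.nd (nat_lit 564) (nat_lit 0) (nat_lit 0) (XT.nd (nat_lit 282) (nat_lit 0) (nat_lit 0) (XT.nd (nat_lit 94) (nat_lit 0) (nat_lit 0) (XT.lf (nat_lit 0) (nat_lit 14188483579) (nat_lit 168) (nat_lit 30498829594) (nat_lit 0) (nat_lit 11477696142) (nat_lit 2) (nat_lit 5) (nat_lit 4) (nat_lit 4) (nat_lit 2) (nat_lit 4) (nat_lit 409) (nat_lit 245) (nat_lit 234)) (XT.nd (nat_lit 94) (nat_lit 0) (nat_lit 0) (XT.lf (nat_lit 0) (nat_lit 15834190645) (nat_lit 168) (nat_lit 29100180704) (nat_lit 0) (nat_lit 12919168842) (nat_lit 2) (nat_lit 5) (nat_lit 4) (nat_lit 4) (nat_lit 2) (nat_lit 4) (nat_lit 410) (nat_lit 245) (nat_lit 233)) (XT.lf (nat_lit 0) (nat_lit 17504534545) (nat_lit 168) (nat_lit 27699386206) (nat_lit 0) (nat_lit 14391419275) (nat_lit 2) (nat_lit 5) (nat_lit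 4) (nat_lit 4) (nat_lit 2) (nat_lit 4) (nat_lit 411) (nat_lit 245) (nat_lit 232)))) (XT.nd (nat_lit 94) (nat_lit 0) (nat_lit 0) (XT.lf (nat_lit 0) (nat_lit 19201072216) (nat_lit 168) (nat_lit 26295140412) (nat_lit 0) (nat_lit 15895819732) (nat_lit 2) (nat_lit 5) (nat_lit 4) (nat_lit 4) (nat_lit 2) (nat_lit 4) (nat_lit 412) (nat_lit 245) (nat_lit 231)) (XT.nd (nat_lit 94) (nat_lit 0) (nat_lit 0) (XT.lf (nat_lit 0) (nat_lit 20925385008) (nat_lit 168) (nat_lit 24886134418) (nat_lit 0) (nat_lit 17433772472) (nat_lit 2) (nat_lit 5) (nat_lit 4) (nat_lit 4) (nat_lit 2) (nat_lit 4) (nat_lit 413) (nat_lit 245) (nat_lit 230)) (XT.lf (nat_lit 0) (nat_lit 22679080160) (nat_lit 168) (nat_lit 23471054883) (nat_lit 0) (nat_lit 19006711027) (nat_lit 2) (nat_lit 5) (nat_lit 4) (nat_lit 4) (nat_lit 2) (nat_lit 4) (nat_lit 414) (nat_lit 245) (nat_lit 229))))) (XT.nd (nat_lit 282) (nat_lit 0) (nat_lit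 0) (XT.nd (nat_lit 94) (nat_lit 0) (nat_lit 0) (XT.lf (nat_lit 0) (nat_lit 24463792302) (nat_lit 168) (nat_lit 22048582805) (nat_lit 0) (nat_lit 20616101542) (nat_lit 2) (nat_lit 5) (nat_lit 4) (nat_lit 4) (nat_lit 2) (nat_lit 4) (nat_lit 415) (nat_lit 245) (nat_lit 228)) (XT.nd (nat_lit 94) (nat_lit 0) (nat_lit 0) (XT.lf (nat_lit 0) (nat_lit 26281184972) (nat_lit 168) (nat_lit 20617392291) (nat_lit 0) (nat_lit 22263444136) (nat_lit 2) (nat_lit 5) (nat_lit 4) (nat_lit 4) (nat_lit 2) (nat_lit 4) (nat_lit 416) (nat_lit 245) (nat_lit 227)) (XT.lf (nat_lit 0) (nat_lit 28132952169) (nat_lit 168) (nat_lit 19176149320) (nat_lit 0) (nat_lit 23950274306) (nat_lit 2) (nat_lit 5) (nat_lit 4) (nat_lit 4) (nat_lit 2) (nat_lit 4) (nat_lit 417) (nat_lit 245) (nat_lit 226)))) (XT.nd (nat_lit 94) (nat_lit 0) (nat_lit 0) (XT.lf (nat_lit 0) (nat_lit 30020819935) (nat_lit 168) (nat_lit 17723510505)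 (nat_lit 0) (nat_lit 25678164354) (nat_lit 2) (nat_lit 5) (nat_lit 4) (nat_lit 4) (nat_lit 2) (nat_lit 4) (nat_lit 418) (nat_lit 245) (nat_lit 225)) (XT.nd (nat_lit 94) (nat_lit 0) (nat_lit 0) (XT.lf (nat_lit 0) (nat_lit 31946547960) (nat_lit 168) (nat_lit 16258121833) (nat_lit 0) (nat_lit 27448724855) (nat_lit 2) (nat_lit 5) (nat_lit 4) (nat_lit 4) (nat_lit 2) (nat_lit 4) (nat_lit 419) (nat_lit 245) (nat_lit 224)) (XT.lf (nat_lit 0) (nat_lit 33911931225) (nat_lit 168) (nat_lit 14778617408) (nat_lit 0) (nat_lit 29263606156) (nat_lit 2) (nat_lit 5) (nat_lit 4) (nat_lit 4) (nat_lit 2) (nat_lit 4) (nat_lit 420) (nat_lit 245) (nat_lit 223)))))) (XT.nd (nat_lit 53392) (nat_lit 0) (nat_lit 0) (XT.nd (nat_lit 282) (nat_lit 0) (nat_lit 0) (XT.nd (nat_lit 94) (nat_lit 0) (nat_lit 0) (XT.lf (nat_lit 0) (nat_lit 35918801672) (nat_lit 168) (nat_lit 13283618178) (nat_lit 0) (nat_lit 31124499917)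 (nat_lit 2) (nat_lit 5) (nat_lit 4) (nat_lit 4) (nat_lit 2) (nat_lit 4) (nat_lit 421) (nat_lit 245) (nat_lit 222)) (XT.nd (nat_lit 94) (nat_lit 0) (nat_lit 0) (XT.lf (nat_lit 0) (nat_lit 37969029916) (nat_lit 168) (nat_lit 11771730646) (nat_lit 0) (nat_lit 33033140686) (nat_lit 2) (nat_lit 5) (nat_lit 4) (nat_lit 4) (nat_lit 2) (nat_lit 4) (nat_lit 422) (nat_lit 245) (nat_lit 221)) (XT.lf (nat_lit 0) (nat_lit 40064526984) (nat_lit 168) (nat_lit 10241545575) (nat_lit 0) (nat_lit 34991307517) (nat_lit 2) (nat_lit 5) (nat_lit 4) (nat_lit 4) (nat_lit 2) (nat_lit 4) (nat_lit 423) (nat_lit 245) (nat_lit 220)))) (XT.nd (nat_lit 94) (nat_lit 0) (nat_lit 0) (XT.lf (nat_lit 0) (nat_lit 42207246097) (nat_lit 168) (nat_lit 8691636672) (nat_lit 0) (nat_lit 37000825624) (nat_lit 2) (nat_lit 5) (nat_lit 4) (nat_lit 4) (nat_lit 2) (nat_lit 4) (nat_lit 424) (nat_lit 245) (nat_lit 219)) (XT.nd (nat_lit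 94) (nat_lit 0) (nat_lit 0) (XT.lf (nat_lit 0) (nat_lit 44399184496) (nat_lit 168) (nat_lit 7120559260) (nat_lit 0) (nat_lit 39063568091) (nat_lit 2) (nat_lit 5) (nat_lit 4) (nat_lit 4) (nat_lit 2) (nat_lit 4) (nat_lit 425) (nat_lit 245) (nat_lit 218)) (XT.lf (nat_lit 0) (nat_lit 46642385296) (nat_lit 168) (nat_lit 5526848929) (nat_lit 0) (nat_lit 41181457609) (nat_lit 2) (nat_lit 5) (nat_lit 4) (nat_lit 4) (nat_lit 2) (nat_lit 4) (nat_lit 426) (nat_lit 245) (nat_lit 217))))) (XT.nd (nat_lit 282) (nat_lit 168) (nat_lit 0) (XT.nd (nat_lit 94) (nat_lit 0) (nat_lit 0) (XT.lf (nat_lit 0) (nat_lit 13931294910) (nat_lit 84) (nat_lit 2634332109) (nat_lit 84) (nat_lit 2634332109) (nat_lit 4) (nat_lit 4) (nat_lit 5) (nat_lit 5) (nat_lit 5) (nat_lit 4) (nat_lit 396) (nat_lit 246) (nat_lit 246)) (XT.nd (nat_lit 94) (nat_lit 0) (nat_lit 0) (XT.lf (nat_lit 0) (nat_lit 31545647614) (nat_lit 84)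 (nat_lit 4141668258) (nat_lit 84) (nat_lit 3837935616) (nat_lit 4) (nat_lit 4) (nat_lit 5) (nat_lit 5) (nat_lit 5) (nat_lit 4) (nat_lit 397) (nat_lit 246) (nat_lit 245)) (XT.lf (nat_lit 0) (nat_lit 35286652314) (nat_lit 84) (nat_lit 2999224023) (nat_lit 84) (nat_lit 2400891341) (nat_lit 4) (nat_lit 4) (nat_lit 5) (nat_lit 5) (nat_lit 5) (nat_lit 4) (nat_lit 398) (nat_lit 246) (nat_lit 244)))) (XT.nd (nat_lit 188) (nat_lit 84) (nat_lit 0) (XT.nd (nat_lit 94) (nat_lit 84) (nat_lit 0) (XT.lf (nat_lit 0) (nat_lit 39089090928) (nat_lit 84) (nat_lit 1840266637) (nat_lit 84) (nat_lit 956191916) (nat_lit 4) (nat_lit 4) (nat_lit 5) (nat_lit 5) (nat_lit 5) (nat_lit 4) (nat_lit 399) (nat_lit 246) (nat_lit 243)) (XT.lf (nat_lit 0) (nat_lit 487485565) (nat_lit 168) (nat_lit 171141913) (nat_lit 84) (nat_lit 42463933813) (nat_lit 3) (nat_lit 5) (nat_lit 5) (nat_lit 5) (nat_lit 4) (nat_lit 4) (nat_lit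 400) (nat_lit 246) (nat_lit 242))) (XT.nd (nat_lit 94) (nat_lit 0) (nat_lit 0) (XT.lf (nat_lit 0) (nat_lit 1952817271) (nat_lit 168) (nat_lit 41879267369) (nat_lit 0) (nat_lit 565773484) (nat_lit 2) (nat_lit 5) (nat_lit 4) (nat_lit 4) (nat_lit 2) (nat_lit 4) (nat_lit 401) (nat_lit 246) (nat_lit 241)) (XT.lf (nat_lit 0) (nat_lit 3438437172) (nat_lit 168) (nat_lit 40476668648) (nat_lit 0) (nat_lit 1798498832) (nat_lit 2) (nat_lit 5) (nat_lit 4) (nat_lit 4) (nat_lit 2) (nat_lit 4) (nat_lit 402) (nat_lit 246) (nat_lit 240))))))) (XT.nd (nat_lit 1222) (nat_lit 0) (nat_lit 0) (XT.nd (nat_lit 564) (nat_lit 0) (nat_lit 0) (XT.nd (nat_lit 282) (nat_lit 0) (nat_lit 0) (XT.nd (nat_lit 94) (nat_lit 0) (nat_lit 0) (XT.lf (nat_lit 0) (nat_lit 4937445976) (nat_lit 168) (nat_lit 39081621026) (nat_lit 0) (nat_lit 3052217089) (nat_lit 2) (nat_lit 5) (nat_lit 4) (nat_lit 4) (nat_lit 2) (nat_lit 4)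 (nat_lit 403) (nat_lit 246) (nat_lit 239)) (XT.nd (nat_lit 94) (nat_lit 0) (nat_lit 0) (XT.lf (nat_lit 0) (nat_lit 6451240916) (nat_lit 168) (nat_lit 37692824172) (nat_lit 0) (nat_lit 4328096853) (nat_lit 2) (nat_lit 5) (nat_lit 4) (nat_lit 4) (nat_lit 2) (nat_lit 4) (nat_lit 404) (nat_lit 246) (nat_lit 238)) (XT.lf (nat_lit 0) (nat_lit 7981233008) (nat_lit 168) (nat_lit 36308983583) (nat_lit 0) (nat_lit 5627327378) (nat_lit 2) (nat_lit 5) (nat_lit 4) (nat_lit 4) (nat_lit 2) (nat_lit 4) (nat_lit 405) (nat_lit 246) (nat_lit 237)))) (XT.nd (nat_lit 94) (nat_lit 0) (nat_lit 0) (XT.lf (nat_lit 0) (nat_lit 9528848365) (nat_lit 168) (nat_lit 34928809375) (nat_lit 0) (nat_lit 6951119682) (nat_lit 2) (nat_lit 5) (nat_lit 4) (nat_lit 4) (nat_lit 2) (nat_lit 4) (nat_lit 406) (nat_lit 246) (nat_lit 236)) (XT.nd (nat_lit 94) (nat_lit 0) (nat_lit 0) (XT.lf (nat_lit 0) (nat_lit 11095529526) (nat_lit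 168) (nat_lit 33551015079) (nat_lit 0) (nat_lit 8300707678) (nat_lit 2) (nat_lit 5) (nat_lit 4) (nat_lit 4) (nat_lit 2) (nat_lit 4) (nat_lit 407) (nat_lit 246) (nat_lit 235)) (XT.lf (nat_lit 0) (nat_lit 12682736803) (nat_lit 168) (nat_lit 32174316449) (nat_lit 0) (nat_lit 9677349324) (nat_lit 2) (nat_lit 5) (nat_lit 4) (nat_lit 4) (nat_lit 2) (nat_lit 4) (nat_lit 408) (nat_lit 246) (nat_lit 234))))) (XT.nd (nat_lit 282) (nat_lit 0) (nat_lit 0) (XT.nd (nat_lit 94) (nat_lit 0) (nat_lit 0) (XT.lf (nat_lit 0) (nat_lit 14291949638) (nat_lit 168) (nat_lit 30797430255) (nat_lit 0) (nat_lit 11082327794) (nat_lit 2) (nat_lit 5) (nat_lit 4) (nat_lit 4) (nat_lit 2) (nat_lit 4) (nat_lit 409) (nat_lit 246) (nat_lit 233)) (XT.nd (nat_lit 94) (nat_lit 0) (nat_lit 0) (XT.lf (nat_lit 0) (nat_lit 15924667986) (nat_lit 168) (nat_lit 29419073097) (nat_lit 0) (nat_lit 12516952676) (nat_lit 2) (nat_lit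 5) (nat_lit 4) (nat_lit 4) (nat_lit 2) (nat_lit 4) (nat_lit 410) (nat_lit 246) (nat_lit 232)) (XT.lf (nat_lit 0) (nat_lit 17582413713) (nat_lit 168) (nat_lit 28037960201) (nat_lit 0) (nat_lit 13982561189) (nat_lit 2) (nat_lit 5) (nat_lit 4) (nat_lit 4) (nat_lit 2) (nat_lit 4) (nat_lit 411) (nat_lit 246) (nat_lit 231)))) (XT.nd (nat_lit 188) (nat_lit 0) (nat_lit 0) (XT.nd (nat_lit 94) (nat_lit 0) (nat_lit 0) (XT.lf (nat_lit 0) (nat_lit 19266732011) (nat_lit 168) (nat_lit 26652804225) (nat_lit 0) (nat_lit 15480519434) (nat_lit 2) (nat_lit 5) (nat_lit 4) (nat_lit 4) (nat_lit 2) (nat_lit 4) (nat_lit 412) (nat_lit 246) (nat_lit 230)) (XT.lf (nat_lit 0) (nat_lit 20979192840) (nat_lit 168) (nat_lit 25262314058) (nat_lit 0) (nat_lit 17012223666) (nat_lit 2) (nat_lit 5) (nat_lit 4) (nat_lit 4) (nat_lit 2) (nat_lit 4) (nat_lit 413) (nat_lit 246) (nat_lit 229))) (XT.nd (nat_lit 94) (nat_lit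 0) (nat_lit 0) (XT.lf (nat_lit 0) (nat_lit 22721392394) (nat_lit 168) (nat_lit 23865193619) (nat_lit 0) (nat_lit 18579101593) (nat_lit 2) (nat_lit 5) (nat_lit 4) (nat_lit 4) (nat_lit 2) (nat_lit 4) (nat_lit 414) (nat_lit 246) (nat_lit 228)) (XT.lf (nat_lit 0) (nat_lit 24494954586) (nat_lit 168) (nat_lit 22460140643) (nat_lit 0) (nat_lit 20182613710) (nat_lit 2) (nat_lit 5) (nat_lit 4) (nat_lit 4) (nat_lit 2) (nat_lit 4) (nat_lit 415) (nat_lit 246) (nat_lit 227)))))) (XT.nd (nat_lit 564) (nat_lit 0) (nat_lit 0) (XT.nd (nat_lit 282) (nat_lit 0) (nat_lit 0) (XT.nd (nat_lit 94) (nat_lit 0) (nat_lit 0) (XT.lf (nat_lit 0) (nat_lit 26301532560) (nat_lit 168) (nat_lit 21045845476) (nat_lit 0) (nat_lit 21824254657) (nat_lit 2) (nat_lit 5) (nat_lit 4) (nat_lit 4) (nat_lit 2) (nat_lit 4) (nat_lit 416) (nat_lit 246) (nat_lit 226)) (XT.nd (nat_lit 94) (nat_lit 0) (nat_lit 0) (XT.lf (nat_lit 0)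 (nat_lit 28142810238) (nat_lit 168) (nat_lit 19620989846) (nat_lit 0) (nat_lit 23505554617) (nat_lit 2) (nat_lit 5) (nat_lit 4) (nat_lit 4) (nat_lit 2) (nat_lit 4) (nat_lit 417) (nat_lit 246) (nat_lit 225)) (XT.lf (nat_lit 0) (nat_lit 30020503882) (nat_lit 168) (nat_lit 18184245637) (nat_lit 0) (nat_lit 25228080736) (nat_lit 2) (nat_lit 5) (nat_lit 4) (nat_lit 4) (nat_lit 2) (nat_lit 4) (nat_lit 418) (nat_lit 246) (nat_lit 224)))) (XT.nd (nat_lit 94) (nat_lit 0) (nat_lit 0) (XT.lf (nat_lit 0) (nat_lit 31936363700) (nat_lit 168) (nat_lit 16734273654) (nat_lit 0) (nat_lit 26993438591) (nat_lit 2) (nat_lit 5) (nat_lit 4) (nat_lit 4) (nat_lit 2) (nat_lit 4) (nat_lit 419) (nat_lit 246) (nat_lit 223)) (XT.nd (nat_lit 94) (nat_lit 0) (nat_lit 0) (XT.lf (nat_lit 0) (nat_lit 33892175474) (nat_lit 168) (nat_lit 15269722371) (nat_lit 0) (nat_lit 28803273678) (nat_lit 2) (nat_lit 5) (nat_lit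 4) (nat_lit 4) (nat_lit 2) (nat_lit 4) (nat_lit 420) (nat_lit 246) (nat_lit 222)) (XT.lf (nat_lit 0) (nat_lit 35889762225) (nat_lit 168) (nat_lit 13789226674) (nat_lit 0) (nat_lit 30659272954) (nat_lit 2) (nat_lit 5) (nat_lit 4) (nat_lit 4) (nat_lit 2) (nat_lit 4) (nat_lit 421) (nat_lit 246) (nat_lit 221))))) (XT.nd (nat_lit 282) (nat_lit 0) (nat_lit 0) (XT.nd (nat_lit 94) (nat_lit 0) (nat_lit 0) (XT.lf (nat_lit 0) (nat_lit 37930985913) (nat_lit 168) (nat_lit 12291406584) (nat_lit 0) (nat_lit 32563166405) (nat_lit 2) (nat_lit 5) (nat_lit 4) (nat_lit 4) (nat_lit 2) (nat_lit 4) (nat_lit 422) (nat_lit 246) (nat_lit 220)) (XT.nd (nat_lit 94) (nat_lit 0) (nat_lit 0) (XT.lf (nat_lit 0) (nat_lit 40017749173) (nat_lit 168) (nat_lit 10774865976) (nat_lit 0) (nat_lit 34516728659) (nat_lit 2) (nat_lit 5) (nat_lit 4) (nat_lit 4) (nat_lit 2) (nat_lit 4) (nat_lit 423) (nat_lit 246) (nat_lit 219))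 (XT.lf (nat_lit 0) (nat_lit 42151997087) (nat_lit 168) (nat_lit 9238191276) (nat_lit 0) (nat_lit 36521780641) (nat_lit 2) (nat_lit 5) (nat_lit 4) (nat_lit 4) (nat_lit 2) (nat_lit 4) (nat_lit 424) (nat_lit 246) (nat_lit 218)))) (XT.nd (nat_lit 52828) (nat_lit 0) (nat_lit 168) (XT.nd (nat_lit 94) (nat_lit 0) (nat_lit 0) (XT.lf (nat_lit 0) (nat_lit 44335718997) (nat_lit 168) (nat_lit 7679950143) (nat_lit 0) (nat_lit 38580191268) (nat_lit 2) (nat_lit 5) (nat_lit 4) (nat_lit 4) (nat_lit 2) (nat_lit 4) (nat_lit 425) (nat_lit 246) (nat_lit 217)) (XT.lf (nat_lit 0) (nat_lit 46570950361) (nat_lit 168) (nat_lit 6098690131) (nat_lit 0) (nat_lit 40693879196) (nat_lit 2) (nat_lit 5) (nat_lit 4) (nat_lit 4) (nat_lit 2) (nat_lit 4) (nat_lit 426) (nat_lit 246) (nat_lit 216))) (XT.nd (nat_lit 94) (nat_lit 0) (nat_lit 0) (XT.lf (nat_lit 0) (nat_lit 10343030835) (nat_lit 84) (nat_lit 3891724222) (nat_lit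 84) (nat_lit 3891724222) (nat_lit 4) (nat_lit 4) (nat_lit 5) (nat_lit 5) (nat_lit 5) (nat_lit 4) (nat_lit 394) (nat_lit 247) (nat_lit 247)) (XT.lf (nat_lit 0) (nat_lit 24234045936) (nat_lit 84) (nat_lit 6694410735) (nat_lit 84) (nat_lit 6381262381) (nat_lit 4) (nat_lit 4) (nat_lit 5) (nat_lit 5) (nat_lit 5) (nat_lit 4) (nat_lit 395) (nat_lit 247) (nat_lit 246))))))))
noncomputable def xc6 : XT := (XT.nd (nat_lit 2350) (nat_lit 0) (nat_lit 0) (XT.nd (nat_lit 1128) (nat_lit 0) (nat_lit 0) (XT.nd (nat_lit 564) (nat_lit 0) (nat_lit 0) (XT.nd (nat_lit 282) (nat_lit 168) (nat_lit 0) (XT.nd (nat_lit 94) (nat_lit 0) (nat_lit 0) (XT.lf (nat_lit 0) (nat_lit 27834046762) (nat_lit 84) (nat_lit 5591705603) (nat_lit 84) (nat_lit 4974824607) (nat_lit 4) (nat_lit 4) (nat_lit 5) (nat_lit 5) (nat_lit 5) (nat_lit 4) (nat_lit 396) (nat_lit 247) (nat_lit 245)) (XT.nd (nat_lit 94) (nat_lit 0) (nat_lit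 0) (XT.lf (nat_lit 0) (nat_lit 31489419728) (nat_lit 84) (nat_lit 4474305212) (nat_lit 84) (nat_lit 3562824175) (nat_lit 4) (nat_lit 4) (nat_lit 5) (nat_lit 5) (nat_lit 5) (nat_lit 4) (nat_lit 397) (nat_lit 247) (nat_lit 244)) (XT.lf (nat_lit 0) (nat_lit 35203572025) (nat_lit 84) (nat_lit 3341168028) (nat_lit 84) (nat_lit 2143944953) (nat_lit 4) (nat_lit 4) (nat_lit 5) (nat_lit 5) (nat_lit 5) (nat_lit 4) (nat_lit 398) (nat_lit 247) (nat_lit 243)))) (XT.nd (nat_lit 94) (nat_lit 168) (nat_lit 0) (XT.lf (nat_lit 0) (nat_lit 38979965631) (nat_lit 84) (nat_lit 2191237848) (nat_lit 84) (nat_lit 716864397) (nat_lit 4) (nat_lit 4) (nat_lit 5) (nat_lit 5) (nat_lit 5) (nat_lit 4) (nat_lit 399) (nat_lit 247) (nat_lit 242)) (XT.nd (nat_lit 94) (nat_lit 84) (nat_lit 0) (XT.lf (nat_lit 0) (nat_lit 705246369) (nat_lit 168) (nat_lit 310835122) (nat_lit 84) (nat_lit 42109512845) (nat_lit 3) (nat_lit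 5) (nat_lit 5) (nat_lit 5) (nat_lit 4) (nat_lit 4) (nat_lit 400) (nat_lit 247) (nat_lit 241)) (XT.lf (nat_lit 0) (nat_lit 2149021405) (nat_lit 168) (nat_lit 42047254680) (nat_lit 0) (nat_lit 205350422) (nat_lit 2) (nat_lit 5) (nat_lit 4) (nat_lit 4) (nat_lit 2) (nat_lit 4) (nat_lit 401) (nat_lit 247) (nat_lit 240))))) (XT.nd (nat_lit 282) (nat_lit 0) (nat_lit 0) (XT.nd (nat_lit 94) (nat_lit 0) (nat_lit 0) (XT.lf (nat_lit 0) (nat_lit 3618557941) (nat_lit 168) (nat_lit 40669782330) (nat_lit 0) (nat_lit 1429596412) (nat_lit 2) (nat_lit 5) (nat_lit 4) (nat_lit 4) (nat_lit 2) (nat_lit 4) (nat_lit 402) (nat_lit 247) (nat_lit 239)) (XT.nd (nat_lit 94) (nat_lit 0) (nat_lit 0) (XT.lf (nat_lit 0) (nat_lit 5101966973) (nat_lit 168) (nat_lit 39299105581) (nat_lit 0) (nat_lit 2675090268) (nat_lit 2) (nat_lit 5) (nat_lit 4) (nat_lit 4) (nat_lit 2) (nat_lit 4) (nat_lit 403) (nat_lit 247) (nat_lit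 238)) (XT.lf (nat_lit 0) (nat_lit 6600631194) (nat_lit 168) (nat_lit 37933946821) (nat_lit 0) (nat_lit 3942992922) (nat_lit 2) (nat_lit 5) (nat_lit 4) (nat_lit 4) (nat_lit 2) (nat_lit 4) (nat_lit 404) (nat_lit 247) (nat_lit 237)))) (XT.nd (nat_lit 94) (nat_lit 0) (nat_lit 0) (XT.lf (nat_lit 0) (nat_lit 8115947515) (nat_lit 168) (nat_lit 36573033578) (nat_lit 0) (nat_lit 5234486190) (nat_lit 2) (nat_lit 5) (nat_lit 4) (nat_lit 4) (nat_lit 2) (nat_lit 4) (nat_lit 405) (nat_lit 247) (nat_lit 236)) (XT.nd (nat_lit 94) (nat_lit 0) (nat_lit 0) (XT.lf (nat_lit 0) (nat_lit 9649328371) (nat_lit 168) (nat_lit 35215097337) (nat_lit 0) (nat_lit 6550773881) (nat_lit 2) (nat_lit 5) (nat_lit 4) (nat_lit 4) (nat_lit 2) (nat_lit 4) (nat_lit 406) (nat_lit 247) (nat_lit 235)) (XT.lf (nat_lit 0) (nat_lit 11202203033) (nat_lit 168) (nat_lit 33858872361) (nat_lit 0) (nat_lit 7893082912) (nat_lit 2) (nat_lit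 5) (nat_lit 4) (nat_lit 4) (nat_lit 2) (nat_lit 4) (nat_lit 407) (nat_lit 247) (nat_lit 234)))))) (XT.nd (nat_lit 564) (nat_lit 0) (nat_lit 0) (XT.nd (nat_lit 282) (nat_lit 0) (nat_lit 0) (XT.nd (nat_lit 94) (nat_lit 0) (nat_lit 0) (XT.lf (nat_lit 0) (nat_lit 12776018942) (nat_lit 168) (nat_lit 32503094506) (nat_lit 0) (nat_lit 9262664456) (nat_lit 2) (nat_lit 5) (nat_lit 4) (nat_lit 4) (nat_lit 2) (nat_lit 4) (nat_lit 408) (nat_lit 247) (nat_lit 233)) (XT.nd (nat_lit 94) (nat_lit 0) (nat_lit 0) (XT.lf (nat_lit 0) (nat_lit 14372243060) (nat_lit 168) (nat_lit 31146500045) (nat_lit 0) (nat_lit 10660795107) (nat_lit 2) (nat_lit 5) (nat_lit 4) (nat_lit 4) (nat_lit 2) (nat_lit 4) (nat_lit 409) (nat_lit 247) (nat_lit 232)) (XT.lf (nat_lit 0) (nat_lit 15992363235) (nat_lit 168) (nat_lit 29787824489) (nat_lit 0) (nat_lit 12088778068) (nat_lit 2) (nat_lit 5) (nat_lit 4) (nat_lit 4) (nat_lit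 2) (nat_lit 4) (nat_lit 410) (nat_lit 247) (nat_lit 231)))) (XT.nd (nat_lit 94) (nat_lit 0) (nat_lit 0) (XT.lf (nat_lit 0) (nat_lit 17637889588) (nat_lit 168) (nat_lit 28425801410) (nat_lit 0) (nat_lit 13547944370) (nat_lit 2) (nat_lit 5) (nat_lit 4) (nat_lit 4) (nat_lit 2) (nat_lit 4) (nat_lit 411) (nat_lit 247) (nat_lit 230)) (XT.nd (nat_lit 94) (nat_lit 0) (nat_lit 0) (XT.lf (nat_lit 0) (nat_lit 19310355924) (nat_lit 168) (nat_lit 27059161261) (nat_lit 0) (nat_lit 15039654107) (nat_lit 2) (nat_lit 5) (nat_lit 4) (nat_lit 4) (nat_lit 2) (nat_lit 4) (nat_lit 412) (nat_lit 247) (nat_lit 229)) (XT.lf (nat_lit 0) (nat_lit 21011321154) (nat_lit 168) (nat_lit 25686630189) (nat_lit 0) (nat_lit 16565297711) (nat_lit 2) (nat_lit 5) (nat_lit 4) (nat_lit 4) (nat_lit 2) (nat_lit 4) (nat_lit 413) (nat_lit 247) (nat_lit 228))))) (XT.nd (nat_lit 282) (nat_lit 0) (nat_lit 0) (XT.nd (nat_lit 94)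 (nat_lit 0) (nat_lit 0) (XT.lf (nat_lit 0) (nat_lit 22742370759) (nat_lit 168) (nat_lit 24306928853) (nat_lit 0) (nat_lit 18126297240) (nat_lit 2) (nat_lit 5) (nat_lit 4) (nat_lit 4) (nat_lit 2) (nat_lit 4) (nat_lit 414) (nat_lit 247) (nat_lit 227)) (XT.nd (nat_lit 94) (nat_lit 0) (nat_lit 0) (XT.lf (nat_lit 0) (nat_lit 24505118255) (nat_lit 168) (nat_lit 22918771225) (nat_lit 0) (nat_lit 19724107710) (nat_lit 2) (nat_lit 5) (nat_lit 4) (nat_lit 4) (nat_lit 2) (nat_lit 4) (nat_lit 415) (nat_lit 247) (nat_lit 226)) (XT.lf (nat_lit 0) (nat_lit 26301206710) (nat_lit 168) (nat_lit 21520863397) (nat_lit 0) (nat_lit 21360218447) (nat_lit 2) (nat_lit 5) (nat_lit 4) (nat_lit 4) (nat_lit 2) (nat_lit 4) (nat_lit 416) (nat_lit 247) (nat_lit 225)))) (XT.nd (nat_lit 188) (nat_lit 0) (nat_lit 0) (XT.nd (nat_lit 94) (nat_lit 0) (nat_lit 0) (XT.lf (nat_lit 0) (nat_lit 28132310266) (nat_lit 168)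 (nat_lit 20111902374) (nat_lit 0) (nat_lit 23036154478) (nat_lit 2) (nat_lit 5) (nat_lit 4) (nat_lit 4) (nat_lit 2) (nat_lit 4) (nat_lit 417) (nat_lit 247) (nat_lit 224)) (XT.lf (nat_lit 0) (nat_lit 30000135703) (nat_lit 168) (nat_lit 18690574854) (nat_lit 0) (nat_lit 24753477951) (nat_lit 2) (nat_lit 5) (nat_lit 4) (nat_lit 4) (nat_lit 2) (nat_lit 4) (nat_lit 418) (nat_lit 247) (nat_lit 223))) (XT.nd (nat_lit 94) (nat_lit 0) (nat_lit 0) (XT.lf (nat_lit 0) (nat_lit 31906424030) (nat_lit 168) (nat_lit 17255556014) (nat_lit 0) (nat_lit 26513789592) (nat_lit 2) (nat_lit 5) (nat_lit 4) (nat_lit 4) (nat_lit 2) (nat_lit 4) (nat_lit 419) (nat_lit 247) (nat_lit 222)) (XT.lf (nat_lit 0) (nat_lit 33852952107) (nat_lit 168) (nat_lit 15805508264) (nat_lit 0) (nat_lit 28318730194) (nat_lit 2) (nat_lit 5) (nat_lit 4) (nat_lit 4) (nat_lit 2) (nat_lit 4) (nat_lit 420) (nat_lit 247) (nat_lit 221)))))))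 (XT.nd (nat_lit 53768) (nat_lit 0) (nat_lit 0) (XT.nd (nat_lit 53110) (nat_lit 0) (nat_lit 168) (XT.nd (nat_lit 282) (nat_lit 0) (nat_lit 0) (XT.nd (nat_lit 94) (nat_lit 0) (nat_lit 0) (XT.lf (nat_lit 0) (nat_lit 35841534302) (nat_lit 168) (nat_lit 14339080008) (nat_lit 0) (nat_lit 30169982153) (nat_lit 2) (nat_lit 5) (nat_lit 4) (nat_lit 4) (nat_lit 2) (nat_lit 4) (nat_lit 421) (nat_lit 247) (nat_lit 220)) (XT.nd (nat_lit 94) (nat_lit 0) (nat_lit 0) (XT.lf (nat_lit 0) (nat_lit 37874024184) (nat_lit 168) (nat_lit 12854904381) (nat_lit 0) (nat_lit 32069271028) (nat_lit 2) (nat_lit 5) (nat_lit 4) (nat_lit 4) (nat_lit 2) (nat_lit 4) (nat_lit 422) (nat_lit 247) (nat_lit 219)) (XT.lf (nat_lit 0) (nat_lit 39952316243) (nat_lit 168) (nat_lit 11351597977) (nat_lit 0) (nat_lit 34018367155) (nat_lit 2) (nat_lit 5) (nat_lit 4) (nat_lit 4) (nat_lit 2) (nat_lit 4) (nat_lit 423) (nat_lit 247)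 (nat_lit 218)))) (XT.nd (nat_lit 94) (nat_lit 0) (nat_lit 0) (XT.lf (nat_lit 0) (nat_lit 42078347668) (nat_lit 168) (nat_lit 9827759556) (nat_lit 0) (nat_lit 36019087298) (nat_lit 2) (nat_lit 5) (nat_lit 4) (nat_lit 4) (nat_lit 2) (nat_lit 4) (nat_lit 424) (nat_lit 247) (nat_lit 217)) (XT.nd (nat_lit 52640) (nat_lit 0) (nat_lit 168) (XT.lf (nat_lit 0) (nat_lit 44254100142) (nat_lit 168) (nat_lit 8281968741) (nat_lit 0) (nat_lit 38073296335) (nat_lit 2) (nat_lit 5) (nat_lit 4) (nat_lit 4) (nat_lit 2) (nat_lit 4) (nat_lit 425) (nat_lit 247) (nat_lit 216)) (XT.lf (nat_lit 0) (nat_lit 6881650008) (nat_lit 84) (nat_lit 5118455120) (nat_lit 84) (nat_lit 5118455120) (nat_lit 4) (nat_lit 4) (nat_lit 5) (nat_lit 5) (nat_lit 5) (nat_lit 4) (nat_lit 392) (nat_lit 248) (nat_lit 248))))) (XT.nd (nat_lit 282) (nat_lit 0) (nat_lit 0) (XT.nd (nat_lit 94) (nat_lit 0) (nat_lit 0) (XT.lf (nat_lit 0)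 (nat_lit 17186786876) (nat_lit 84) (nat_lit 9182689783) (nat_lit 84) (nat_lit 8859833830) (nat_lit 4) (nat_lit 4) (nat_lit 5) (nat_lit 5) (nat_lit 5) (nat_lit 4) (nat_lit 393) (nat_lit 248) (nat_lit 247)) (XT.nd (nat_lit 94) (nat_lit 0) (nat_lit 0) (XT.lf (nat_lit 0) (nat_lit 20656633779) (nat_lit 84) (nat_lit 8116504114) (nat_lit 84) (nat_lit 7480499807) (nat_lit 4) (nat_lit 4) (nat_lit 5) (nat_lit 5) (nat_lit 5) (nat_lit 4) (nat_lit 394) (nat_lit 248) (nat_lit 246)) (XT.lf (nat_lit 0) (nat_lit 24176074986) (nat_lit 84) (nat_lit 7037359435) (nat_lit 84) (nat_lit 6097622486) (nat_lit 4) (nat_lit 4) (nat_lit 5) (nat_lit 5) (nat_lit 5) (nat_lit 4) (nat_lit 395) (nat_lit 248) (nat_lit 245)))) (XT.nd (nat_lit 188) (nat_lit 0) (nat_lit 0) (XT.nd (nat_lit 94) (nat_lit 0) (nat_lit 0) (XT.lf (nat_lit 0) (nat_lit 27748390984) (nat_lit 84) (nat_lit 5944249872) (nat_lit 84) (nat_lit 4709912882)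 (nat_lit 4) (nat_lit 4) (nat_lit 5) (nat_lit 5) (nat_lit 5) (nat_lit 4) (nat_lit 396) (nat_lit 248) (nat_lit 244)) (XT.lf (nat_lit 0) (nat_lit 31376911546) (nat_lit 84) (nat_lit 4836156531) (nat_lit 84) (nat_lit 3316077503) (nat_lit 4) (nat_lit 4) (nat_lit 5) (nat_lit 5) (nat_lit 5) (nat_lit 4) (nat_lit 397) (nat_lit 248) (nat_lit 243))) (XT.nd (nat_lit 94) (nat_lit 0) (nat_lit 0) (XT.lf (nat_lit 0) (nat_lit 35065018835) (nat_lit 84) (nat_lit 3712046553) (nat_lit 84) (nat_lit 1914817150) (nat_lit 4) (nat_lit 4) (nat_lit 5) (nat_lit 5) (nat_lit 5) (nat_lit 4) (nat_lit 398) (nat_lit 248) (nat_lit 242)) (XT.lf (nat_lit 0) (nat_lit 38816150551) (nat_lit 84) (nat_lit 2570872151) (nat_lit 84) (nat_lit 504825700) (nat_lit 4) (nat_lit 4) (nat_lit 5) (nat_lit 5) (nat_lit 5) (nat_lit 4) (nat_lit 399) (nat_lit 248) (nat_lit 241)))))) (XT.nd (nat_lit 564) (nat_lit 0) (nat_lit 0) (XT.nd (nat_lit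 282) (nat_lit 0) (nat_lit 0) (XT.nd (nat_lit 94) (nat_lit 84) (nat_lit 0) (XT.lf (nat_lit 0) (nat_lit 896771641) (nat_lit 168) (nat_lit 505437531) (nat_lit 84) (nat_lit 41727671044) (nat_lit 3) (nat_lit 5) (nat_lit 5) (nat_lit 5) (nat_lit 4) (nat_lit 4) (nat_lit 400) (nat_lit 248) (nat_lit 240)) (XT.nd (nat_lit 94) (nat_lit 0) (nat_lit 0) (XT.lf (nat_lit 0) (nat_lit 2133260201) (nat_lit 84) (nat_lit 187239794) (nat_lit 168) (nat_lit 42086098905) (nat_lit 2) (nat_lit 5) (nat_lit 3) (nat_lit 5) (nat_lit 4) (nat_lit 4) (nat_lit 401) (nat_lit 248) (nat_lit 239)) (XT.lf (nat_lit 0) (nat_lit 3772579317) (nat_lit 168) (nat_lit 40918379781) (nat_lit 0) (nat_lit 1032554258) (nat_lit 2) (nat_lit 5) (nat_lit 4) (nat_lit 4) (nat_lit 2) (nat_lit 4) (nat_lit 402) (nat_lit 248) (nat_lit 238)))) (XT.nd (nat_lit 94) (nat_lit 0) (nat_lit 0) (XT.lf (nat_lit 0) (nat_lit 5240857630) (nat_lit 168) (nat_lit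 39571341126) (nat_lit 0) (nat_lit 2270071004) (nat_lit 2) (nat_lit 5) (nat_lit 4) (nat_lit 4) (nat_lit 2) (nat_lit 4) (nat_lit 403) (nat_lit 248) (nat_lit 237)) (XT.nd (nat_lit 94) (nat_lit 0) (nat_lit 0) (XT.lf (nat_lit 0) (nat_lit 6724846080) (nat_lit 168) (nat_lit 38229109711) (nat_lit 0) (nat_lit 3530236401) (nat_lit 2) (nat_lit 5) (nat_lit 4) (nat_lit 4) (nat_lit 2) (nat_lit 4) (nat_lit 404) (nat_lit 248) (nat_lit 236)) (XT.lf (nat_lit 0) (nat_lit 8225927900) (nat_lit 168) (nat_lit 36890434435) (nat_lit 0) (nat_lit 4814225056) (nat_lit 2) (nat_lit 5) (nat_lit 4) (nat_lit 4) (nat_lit 2) (nat_lit 4) (nat_lit 405) (nat_lit 248) (nat_lit 235))))) (XT.nd (nat_lit 282) (nat_lit 0) (nat_lit 0) (XT.nd (nat_lit 94) (nat_lit 0) (nat_lit 0) (XT.lf (nat_lit 0) (nat_lit 9745502256) (nat_lit 168) (nat_lit 35554067515) (nat_lit 0) (nat_lit 6123233782) (nat_lit 2) (nat_lit 5) (nat_lit 4) (nat_lit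 4) (nat_lit 2) (nat_lit 4) (nat_lit 406) (nat_lit 248) (nat_lit 234)) (XT.nd (nat_lit 94) (nat_lit 0) (nat_lit 0) (XT.lf (nat_lit 0) (nat_lit 11284985551) (nat_lit 168) (nat_lit 34218763314) (nat_lit 0) (nat_lit 7458482712) (nat_lit 2) (nat_lit 5) (nat_lit 4) (nat_lit 4) (nat_lit 2) (nat_lit 4) (nat_lit 407) (nat_lit 248) (nat_lit 233)) (XT.lf (nat_lit 0) (nat_lit 12845812743) (nat_lit 168) (nat_lit 32883277191) (nat_lit 0) (nat_lit 8821216436) (nat_lit 2) (nat_lit 5) (nat_lit 4) (nat_lit 4) (nat_lit 2) (nat_lit 4) (nat_lit 408) (nat_lit 248) (nat_lit 232)))) (XT.nd (nat_lit 188) (nat_lit 0) (nat_lit 0) (XT.nd (nat_lit 94) (nat_lit 0) (nat_lit 0) (XT.lf (nat_lit 0) (nat_lit 14429438687) (nat_lit 168) (nat_lit 31546364331) (nat_lit 0) (nat_lit 10212705167) (nat_lit 2) (nat_lit 5) (nat_lit 4) (nat_lit 4) (nat_lit 2) (nat_lit 4) (nat_lit 409) (nat_lit 248) (nat_lit 231)) (XT.lf (nat_lit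 0) (nat_lit 16037339489) (nat_lit 168) (nat_lit 30206778593) (nat_lit 0) (nat_lit 11634245916) (nat_lit 2) (nat_lit 5) (nat_lit 4) (nat_lit 4) (nat_lit 2) (nat_lit 4) (nat_lit 410) (nat_lit 248) (nat_lit 230))) (XT.nd (nat_lit 94) (nat_lit 0) (nat_lit 0) (XT.lf (nat_lit 0) (nat_lit 17671013880) (nat_lit 168) (nat_lit 28863271341) (nat_lit 0) (nat_lit 13087163710) (nat_lit 2) (nat_lit 5) (nat_lit 4) (nat_lit 4) (nat_lit 2) (nat_lit 4) (nat_lit 411) (nat_lit 248) (nat_lit 229)) (XT.lf (nat_lit 0) (nat_lit 19331984617) (nat_lit 168) (nat_lit 27514590287) (nat_lit 0) (nat_lit 14572812820) (nat_lit 2) (nat_lit 5) (nat_lit 4) (nat_lit 4) (nat_lit 2) (nat_lit 4) (nat_lit 412) (nat_lit 248) (nat_lit 228))))))))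
noncomputable def xc7 : XT := (XT.nd (nat_lit 54802) (nat_lit 0) (nat_lit 0) (XT.nd (nat_lit 53580) (nat_lit 0) (nat_lit 0) (XT.nd (nat_lit 564) (nat_lit 0) (nat_lit 0) (XT.nd (nat_lit 282) (nat_lit 0) (nat_lit 0) (XT.nd (nat_lit 94) (nat_lit 0) (nat_lit 0) (XT.lf (nat_lit 0) (nat_lit 21021799898) (nat_lit 168) (nat_lit 26159478319) (nat_lit 0) (nat_lit 16092578025) (nat_lit 2) (nat_lit 5) (nat_lit 4) (nat_lit 4) (nat_lit 2) (nat_lit 4) (nat_lit 413) (nat_lit 248) (nat_lit 227)) (XT.nd (nat_lit 94) (nat_lit 0) (nat_lit 0) (XT.lf (nat_lit 0) (nat_lit 22742034807) (nat_lit 168) (nat_lit 24796672329) (nat_lit 0) (nat_lit 17647875908) (nat_lit 2) (nat_lit 5) (nat_lit 4) (nat_lit 4) (nat_lit 2) (nat_lit 4) (nat_lit 414) (nat_lit 248) (nat_lit 226)) (XT.lf (nat_lit 0) (nat_lit 24494292784) (nat_lit 168) (nat_lit 23424902041) (nat_lit 0) (nat_lit 19240156167) (nat_lit 2) (nat_lit 5) (nat_lit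 4) (nat_lit 4) (nat_lit 2) (nat_lit 4) (nat_lit 415) (nat_lit 248) (nat_lit 225)))) (XT.nd (nat_lit 94) (nat_lit 0) (nat_lit 0) (XT.lf (nat_lit 0) (nat_lit 26280207118) (nat_lit 168) (nat_lit 22042888820) (nat_lit 0) (nat_lit 20870902976) (nat_lit 2) (nat_lit 5) (nat_lit 4) (nat_lit 4) (nat_lit 2) (nat_lit 4) (nat_lit 416) (nat_lit 248) (nat_lit 224)) (XT.nd (nat_lit 94) (nat_lit 0) (nat_lit 0) (XT.lf (nat_lit 0) (nat_lit 28101442466) (nat_lit 168) (nat_lit 20649344486) (nat_lit 0) (nat_lit 22541636361) (nat_lit 2) (nat_lit 5) (nat_lit 4) (nat_lit 4) (nat_lit 2) (nat_lit 4) (nat_lit 417) (nat_lit 248) (nat_lit 223)) (XT.lf (nat_lit 0) (nat_lit 29959696411) (nat_lit 168) (nat_lit 19242970109) (nat_lit 0) (nat_lit 24253913620) (nat_lit 2) (nat_lit 5) (nat_lit 4) (nat_lit 4) (nat_lit 2) (nat_lit 4) (nat_lit 418) (nat_lit 248) (nat_lit 222))))) (XT.nd (nat_lit 282) (nat_lit 0) (nat_lit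 0) (XT.nd (nat_lit 94) (nat_lit 0) (nat_lit 0) (XT.lf (nat_lit 0) (nat_lit 31856701042) (nat_lit 168) (nat_lit 17822454801) (nat_lit 0) (nat_lit 26009330775) (nat_lit 2) (nat_lit 5) (nat_lit 4) (nat_lit 4) (nat_lit 2) (nat_lit 4) (nat_lit 419) (nat_lit 248) (nat_lit 221)) (XT.nd (nat_lit 94) (nat_lit 0) (nat_lit 0) (XT.lf (nat_lit 0) (nat_lit 33794224564) (nat_lit 168) (nat_lit 16386474493) (nat_lit 0) (nat_lit 27809524060) (nat_lit 2) (nat_lit 5) (nat_lit 4) (nat_lit 4) (nat_lit 2) (nat_lit 4) (nat_lit 420) (nat_lit 248) (nat_lit 220)) (XT.lf (nat_lit 0) (nat_lit 35774072952) (nat_lit 168) (nat_lit 14933690700) (nat_lit 0) (nat_lit 29656171442) (nat_lit 2) (nat_lit 5) (nat_lit 4) (nat_lit 4) (nat_lit 2) (nat_lit 4) (nat_lit 421) (nat_lit 248) (nat_lit 219)))) (XT.nd (nat_lit 188) (nat_lit 0) (nat_lit 0) (XT.nd (nat_lit 94) (nat_lit 0) (nat_lit 0) (XT.lf (nat_lit 0) (nat_lit 37798091633)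 (nat_lit 168) (nat_lit 13462749277) (nat_lit 0) (nat_lit 31550994191) (nat_lit 2) (nat_lit 5) (nat_lit 4) (nat_lit 4) (nat_lit 2) (nat_lit 4) (nat_lit 422) (nat_lit 248) (nat_lit 218)) (XT.lf (nat_lit 0) (nat_lit 39868167204) (nat_lit 168) (nat_lit 11972279151) (nat_lit 0) (nat_lit 33495758479) (nat_lit 2) (nat_lit 5) (nat_lit 4) (nat_lit 4) (nat_lit 2) (nat_lit 4) (nat_lit 423) (nat_lit 248) (nat_lit 217))) (XT.nd (nat_lit 94) (nat_lit 0) (nat_lit 0) (XT.lf (nat_lit 0) (nat_lit 41986229192) (nat_lit 168) (nat_lit 10460891049) (nat_lit 0) (nat_lit 35492277032) (nat_lit 2) (nat_lit 5) (nat_lit 4) (nat_lit 4) (nat_lit 2) (nat_lit 4) (nat_lit 424) (nat_lit 248) (nat_lit 216)) (XT.lf (nat_lit 0) (nat_lit 44154251853) (nat_lit 168) (nat_lit 8927176197) (nat_lit 0) (nat_lit 37542410812) (nat_lit 2) (nat_lit 5) (nat_lit 4) (nat_lit 4) (nat_lit 2) (nat_lit 4) (nat_lit 425) (nat_lit 248)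 (nat_lit 215)))))) (XT.nd (nat_lit 564) (nat_lit 168) (nat_lit 0) (XT.nd (nat_lit 282) (nat_lit 0) (nat_lit 0) (XT.nd (nat_lit 94) (nat_lit 0) (nat_lit 0) (XT.lf (nat_lit 0) (nat_lit 3536981585) (nat_lit 84) (nat_lit 6317699222) (nat_lit 84) (nat_lit 6317699222) (nat_lit 4) (nat_lit 4) (nat_lit 5) (nat_lit 5) (nat_lit 5) (nat_lit 4) (nat_lit 390) (nat_lit 249) (nat_lit 249)) (XT.nd (nat_lit 94) (nat_lit 0) (nat_lit 0) (XT.lf (nat_lit 0) (nat_lit 10382982151) (nat_lit 84) (nat_lit 11613012617) (nat_lit 84) (nat_lit 11280148129) (nat_lit 4) (nat_lit 4) (nat_lit 5) (nat_lit 5) (nat_lit 5) (nat_lit 4) (nat_lit 391) (nat_lit 249) (nat_lit 248)) (XT.lf (nat_lit 0) (nat_lit 13732959859) (nat_lit 84) (nat_lit 10580290634) (nat_lit 84) (nat_lit 9924570194) (nat_lit 4) (nat_lit 4) (nat_lit 5) (nat_lit 5) (nat_lit 5) (nat_lit 4) (nat_lit 392) (nat_lit 249) (nat_lit 247)))) (XT.nd (nat_lit 94)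 (nat_lit 0) (nat_lit 0) (XT.lf (nat_lit 0) (nat_lit 17127018826) (nat_lit 84) (nat_lit 9536269893) (nat_lit 84) (nat_lit 8567401098) (nat_lit 4) (nat_lit 4) (nat_lit 5) (nat_lit 5) (nat_lit 5) (nat_lit 4) (nat_lit 393) (nat_lit 249) (nat_lit 246)) (XT.nd (nat_lit 94) (nat_lit 0) (nat_lit 0) (XT.lf (nat_lit 0) (nat_lit 20568322671) (nat_lit 84) (nat_lit 8479977254) (nat_lit 84) (nat_lit 7207375818) (nat_lit 4) (nat_lit 4) (nat_lit 5) (nat_lit 5) (nat_lit 5) (nat_lit 4) (nat_lit 394) (nat_lit 249) (nat_lit 245)) (XT.lf (nat_lit 0) (nat_lit 24060079050) (nat_lit 84) (nat_lit 7410428145) (nat_lit 84) (nat_lit 5843226667) (nat_lit 4) (nat_lit 4) (nat_lit 5) (nat_lit 5) (nat_lit 5) (nat_lit 4) (nat_lit 395) (nat_lit 249) (nat_lit 244))))) (XT.nd (nat_lit 282) (nat_lit 168) (nat_lit 0) (XT.nd (nat_lit 94) (nat_lit 0) (nat_lit 0) (XT.lf (nat_lit 0) (nat_lit 27605542645) (nat_lit 84) (nat_lit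 6326625631) (nat_lit 84) (nat_lit 4473682117) (nat_lit 4) (nat_lit 4) (nat_lit 5) (nat_lit 5) (nat_lit 5) (nat_lit 4) (nat_lit 396) (nat_lit 249) (nat_lit 243)) (XT.nd (nat_lit 94) (nat_lit 0) (nat_lit 0) (XT.lf (nat_lit 0) (nat_lit 31208018199) (nat_lit 84) (nat_lit 5227559497) (nat_lit 84) (nat_lit 3097465606) (nat_lit 4) (nat_lit 4) (nat_lit 5) (nat_lit 5) (nat_lit 5) (nat_lit 4) (nat_lit 397) (nat_lit 249) (nat_lit 242)) (XT.lf (nat_lit 0) (nat_lit 34870863597) (nat_lit 84) (nat_lit 4112205297) (nat_lit 84) (nat_lit 1713294359) (nat_lit 4) (nat_lit 4) (nat_lit 5) (nat_lit 5) (nat_lit 5) (nat_lit 4) (nat_lit 398) (nat_lit 249) (nat_lit 241)))) (XT.nd (nat_lit 188) (nat_lit 84) (nat_lit 0) (XT.nd (nat_lit 94) (nat_lit 84) (nat_lit 0) (XT.lf (nat_lit 0) (nat_lit 38597492996) (nat_lit 84) (nat_lit 2979523405) (nat_lit 84) (nat_lit 319878182) (nat_lit 4) (nat_lit 4) (nat_lit 5) (nat_lit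 5) (nat_lit 5) (nat_lit 4) (nat_lit 399) (nat_lit 249) (nat_lit 240)) (XT.lf (nat_lit 0) (nat_lit 1062239903) (nat_lit 168) (nat_lit 755130532) (nat_lit 84) (nat_lit 41318052493) (nat_lit 3) (nat_lit 5) (nat_lit 5) (nat_lit 5) (nat_lit 4) (nat_lit 4) (nat_lit 400) (nat_lit 249) (nat_lit 239))) (XT.nd (nat_lit 94) (nat_lit 0) (nat_lit 0) (XT.lf (nat_lit 0) (nat_lit 1854522981) (nat_lit 84) (nat_lit 613400851) (nat_lit 168) (nat_lit 41944840264) (nat_lit 2) (nat_lit 5) (nat_lit 3) (nat_lit 5) (nat_lit 4) (nat_lit 4) (nat_lit 401) (nat_lit 249) (nat_lit 238)) (XT.lf (nat_lit 0) (nat_lit 3900644865) (nat_lit 168) (nat_lit 41222692720) (nat_lit 0) (nat_lit 607002285) (nat_lit 2) (nat_lit 5) (nat_lit 4) (nat_lit 4) (nat_lit 2) (nat_lit 4) (nat_lit 402) (nat_lit 249) (nat_lit 237))))))) (XT.nd (nat_lit 1222) (nat_lit 0) (nat_lit 0) (XT.nd (nat_lit 564) (nat_lit 0) (nat_lit 0) (XT.nd (nat_lit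 282) (nat_lit 0) (nat_lit 0) (XT.nd (nat_lit 94) (nat_lit 0) (nat_lit 0) (XT.lf (nat_lit 0) (nat_lit 5354247407) (nat_lit 168) (nat_lit 39898581410) (nat_lit 0) (nat_lit 1836781775) (nat_lit 2) (nat_lit 5) (nat_lit 4) (nat_lit 4) (nat_lit 2) (nat_lit 4) (nat_lit 403) (nat_lit 249) (nat_lit 236)) (XT.nd (nat_lit 94) (nat_lit 0) (nat_lit 0) (XT.lf (nat_lit 0) (nat_lit 6824001356) (nat_lit 168) (nat_lit 38578587963) (nat_lit 0) (nat_lit 3089442559) (nat_lit 2) (nat_lit 5) (nat_lit 4) (nat_lit 4) (nat_lit 2) (nat_lit 4) (nat_lit 404) (nat_lit 249) (nat_lit 235)) (XT.lf (nat_lit 0) (nat_lit 8311276677) (nat_lit 168) (nat_lit 37261482008) (nat_lit 0) (nat_lit 4366152249) (nat_lit 2) (nat_lit 5) (nat_lit 4) (nat_lit 4) (nat_lit 2) (nat_lit 4) (nat_lit 405) (nat_lit 249) (nat_lit 234)))) (XT.nd (nat_lit 94) (nat_lit 0) (nat_lit 0) (XT.lf (nat_lit 0) (nat_lit 9817459665) (nat_lit 168) (nat_lit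 35946035862) (nat_lit 0) (nat_lit 5668100873) (nat_lit 2) (nat_lit 5) (nat_lit 4) (nat_lit 4) (nat_lit 2) (nat_lit 4) (nat_lit 406) (nat_lit 249) (nat_lit 233)) (XT.nd (nat_lit 94) (nat_lit 0) (nat_lit 0) (XT.lf (nat_lit 0) (nat_lit 11343954243) (nat_lit 168) (nat_lit 34631023394) (nat_lit 0) (nat_lit 6996501983) (nat_lit 2) (nat_lit 5) (nat_lit 4) (nat_lit 4) (nat_lit 2) (nat_lit 4) (nat_lit 407) (nat_lit 249) (nat_lit 232)) (XT.lf (nat_lit 0) (nat_lit 12892183261) (nat_lit 168) (nat_lit 33315218872) (nat_lit 0) (nat_lit 8352593788) (nat_lit 2) (nat_lit 5) (nat_lit 4) (nat_lit 4) (nat_lit 2) (nat_lit 4) (nat_lit 408) (nat_lit 249) (nat_lit 231))))) (XT.nd (nat_lit 282) (nat_lit 0) (nat_lit 0) (XT.nd (nat_lit 94) (nat_lit 0) (nat_lit 0) (XT.lf (nat_lit 0) (nat_lit 14463589832) (nat_lit 168) (nat_lit 31997395831) (nat_lit 0) (nat_lit 9737640307) (nat_lit 2) (nat_lit 5) (nat_lit 4)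 (nat_lit 4) (nat_lit 2) (nat_lit 4) (nat_lit 409) (nat_lit 249) (nat_lit 230)) (XT.nd (nat_lit 94) (nat_lit 0) (nat_lit 0) (XT.lf (nat_lit 0) (nat_lit 16059638672) (nat_lit 168) (nat_lit 30676325919) (nat_lit 0) (nat_lit 11152932549) (nat_lit 2) (nat_lit 5) (nat_lit 4) (nat_lit 4) (nat_lit 2) (nat_lit 4) (nat_lit 410) (nat_lit 249) (nat_lit 229)) (XT.lf (nat_lit 0) (nat_lit 17681817465) (nat_lit 168) (nat_lit 29350777763) (nat_lit 0) (nat_lit 12599789714) (nat_lit 2) (nat_lit 5) (nat_lit 4) (nat_lit 4) (nat_lit 2) (nat_lit 4) (nat_lit 411) (nat_lit 249) (nat_lit 228)))) (XT.nd (nat_lit 188) (nat_lit 0) (nat_lit 0) (XT.nd (nat_lit 94) (nat_lit 0) (nat_lit 0) (XT.lf (nat_lit 0) (nat_lit 19331638251) (nat_lit 168) (nat_lit 28019515812) (nat_lit 0) (nat_lit 14079560426) (nat_lit 2) (nat_lit 5) (nat_lit 4) (nat_lit 4) (nat_lit 2) (nat_lit 4) (nat_lit 412) (nat_lit 249) (nat_lit 227))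 (XT.lf (nat_lit 0) (nat_lit 21010638837) (nat_lit 168) (nat_lit 26681299191) (nat_lit 0) (nat_lit 15593623985) (nat_lit 2) (nat_lit 5) (nat_lit 4) (nat_lit 4) (nat_lit 2) (nat_lit 4) (nat_lit 413) (nat_lit 249) (nat_lit 226))) (XT.nd (nat_lit 94) (nat_lit 0) (nat_lit 0) (XT.lf (nat_lit 0) (nat_lit 22720384227) (nat_lit 168) (nat_lit 25334880541) (nat_lit 0) (nat_lit 17143391657) (nat_lit 2) (nat_lit 5) (nat_lit 4) (nat_lit 4) (nat_lit 2) (nat_lit 4) (nat_lit 414) (nat_lit 249) (nat_lit 225)) (XT.lf (nat_lit 0) (nat_lit 24462468082) (nat_lit 168) (nat_lit 23979004859) (nat_lit 0) (nat_lit 18730307988) (nat_lit 2) (nat_lit 5) (nat_lit 4) (nat_lit 4) (nat_lit 2) (nat_lit 4) (nat_lit 415) (nat_lit 249) (nat_lit 224)))))) (XT.nd (nat_lit 564) (nat_lit 0) (nat_lit 0) (XT.nd (nat_lit 282) (nat_lit 0) (nat_lit 0) (XT.nd (nat_lit 94) (nat_lit 0) (nat_lit 0) (XT.lf (nat_lit 0) (nat_lit 26238514208)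 (nat_lit 168) (nat_lit 22612408328) (nat_lit 0) (nat_lit 20355852150) (nat_lit 2) (nat_lit 5) (nat_lit 4) (nat_lit 4) (nat_lit 2) (nat_lit 4) (nat_lit 416) (nat_lit 249) (nat_lit 223)) (XT.nd (nat_lit 94) (nat_lit 0) (nat_lit 0) (XT.lf (nat_lit 0) (nat_lit 28050178065) (nat_lit 168) (nat_lit 21233817136) (nat_lit 0) (nat_lit 22021539321) (nat_lit 2) (nat_lit 5) (nat_lit 4) (nat_lit 4) (nat_lit 2) (nat_lit 4) (nat_lit 417) (nat_lit 249) (nat_lit 222)) (XT.lf (nat_lit 0) (nat_lit 29899148314) (nat_lit 168) (nat_lit 19841946291) (nat_lit 0) (nat_lit 23728922095) (nat_lit 2) (nat_lit 5) (nat_lit 4) (nat_lit 4) (nat_lit 2) (nat_lit 4) (nat_lit 418) (nat_lit 249) (nat_lit 221)))) (XT.nd (nat_lit 94) (nat_lit 0) (nat_lit 0) (XT.lf (nat_lit 0) (nat_lit 31787148389) (nat_lit 168) (nat_lit 18435498425) (nat_lit 0) (nat_lit 25479591933) (nat_lit 2) (nat_lit 5) (nat_lit 4) (nat_lit 4) (nat_lit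 2) (nat_lit 4) (nat_lit 419) (nat_lit 249) (nat_lit 220)) (XT.nd (nat_lit 94) (nat_lit 0) (nat_lit 0) (XT.lf (nat_lit 0) (nat_lit 33715938104) (nat_lit 168) (nat_lit 17013162580) (nat_lit 0) (nat_lit 27275180641) (nat_lit 2) (nat_lit 5) (nat_lit 4) (nat_lit 4) (nat_lit 2) (nat_lit 4) (nat_lit 420) (nat_lit 249) (nat_lit 219)) (XT.lf (nat_lit 0) (nat_lit 35687315292) (nat_lit 168) (nat_lit 15573612991) (nat_lit 0) (nat_lit 29117361897) (nat_lit 2) (nat_lit 5) (nat_lit 4) (nat_lit 4) (nat_lit 2) (nat_lit 4) (nat_lit 421) (nat_lit 249) (nat_lit 218))))) (XT.nd (nat_lit 282) (nat_lit 0) (nat_lit 0) (XT.nd (nat_lit 94) (nat_lit 0) (nat_lit 0) (XT.lf (nat_lit 0) (nat_lit 37703117484) (nat_lit 168) (nat_lit 14115507846) (nat_lit 0) (nat_lit 31007852806) (nat_lit 2) (nat_lit 5) (nat_lit 4) (nat_lit 4) (nat_lit 2) (nat_lit 4) (nat_lit 422) (nat_lit 249) (nat_lit 217)) (XT.nd (nat_lit 94)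 (nat_lit 0) (nat_lit 0) (XT.lf (nat_lit 0) (nat_lit 39765223619) (nat_lit 168) (nat_lit 12637488039) (nat_lit 0) (nat_lit 32948415505) (nat_lit 2) (nat_lit 5) (nat_lit 4) (nat_lit 4) (nat_lit 2) (nat_lit 4) (nat_lit 423) (nat_lit 249) (nat_lit 216)) (XT.lf (nat_lit 0) (nat_lit 41875555795) (nat_lit 168) (nat_lit 11138175900) (nat_lit 0) (nat_lit 34940858800) (nat_lit 2) (nat_lit 5) (nat_lit 4) (nat_lit 4) (nat_lit 2) (nat_lit 4) (nat_lit 424) (nat_lit 249) (nat_lit 215)))) (XT.nd (nat_lit 52358) (nat_lit 0) (nat_lit 168) (XT.nd (nat_lit 52264) (nat_lit 0) (nat_lit 168) (XT.lf (nat_lit 0) (nat_lit 44036081063) (nat_lit 168) (nat_lit 9616173914) (nat_lit 0) (nat_lit 36987039859) (nat_lit 2) (nat_lit 5) (nat_lit 4) (nat_lit 4) (nat_lit 2) (nat_lit 4) (nat_lit 425) (nat_lit 249) (nat_lit 214)) (XT.lf (nat_lit 0) (nat_lit 299374849) (nat_lit 84) (nat_lit 7492485030) (nat_lit 84) (nat_lit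 7492485030) (nat_lit 4) (nat_lit 4) (nat_lit 5) (nat_lit 5) (nat_lit 5) (nat_lit 4) (nat_lit 388) (nat_lit 250) (nat_lit 250))) (XT.nd (nat_lit 94) (nat_lit 0) (nat_lit 0) (XT.lf (nat_lit 0) (nat_lit 3802818569) (nat_lit 84) (nat_lit 13991584375) (nat_lit 84) (nat_lit 13648401089) (nat_lit 4) (nat_lit 4) (nat_lit 5) (nat_lit 5) (nat_lit 5) (nat_lit 4) (nat_lit 389) (nat_lit 250) (nat_lit 249)) (XT.lf (nat_lit 0) (nat_lit 7042682469) (nat_lit 84) (nat_lit 12989423631) (nat_lit 84) (nat_lit 12313375857) (nat_lit 4) (nat_lit 4) (nat_lit 5) (nat_lit 5) (nat_lit 5) (nat_lit 4) (nat_lit 390) (nat_lit 250) (nat_lit 248))))))))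
noncomputable def xc8 : XT := (XT.nd (nat_lit 2350) (nat_lit 0) (nat_lit 0) (XT.nd (nat_lit 1128) (nat_lit 0) (nat_lit 0) (XT.nd (nat_lit 564) (nat_lit 168) (nat_lit 0) (XT.nd (nat_lit 282) (nat_lit 0) (nat_lit 0) (XT.nd (nat_lit 94) (nat_lit 0) (nat_lit 0) (XT.lf (nat_lit 0) (nat_lit 10321361291) (nat_lit 84) (nat_lit 11977553709) (nat_lit 84) (nat_lit 10978649982) (nat_lit 4) (nat_lit 4) (nat_lit 5) (nat_lit 5) (nat_lit 5) (nat_lit 4) (nat_lit 391) (nat_lit 250) (nat_lit 247)) (XT.nd (nat_lit 94) (nat_lit 0) (nat_lit 0) (XT.lf (nat_lit 0) (nat_lit 13641911107) (nat_lit 84) (nat_lit 10955031443) (nat_lit 84) (nat_lit 9642979362) (nat_lit 4) (nat_lit 4) (nat_lit 5) (nat_lit 5) (nat_lit 5) (nat_lit 4) (nat_lit 392) (nat_lit 250) (nat_lit 246)) (XT.lf (nat_lit 0) (nat_lit 17007427017) (nat_lit 84) (nat_lit 9920903732) (nat_lit 84) (nat_lit 8305119009) (nat_lit 4) (nat_lit 4) (nat_lit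 5) (nat_lit 5) (nat_lit 5) (nat_lit 4) (nat_lit 393) (nat_lit 250) (nat_lit 245)))) (XT.nd (nat_lit 94) (nat_lit 0) (nat_lit 0) (XT.lf (nat_lit 0) (nat_lit 20421046034) (nat_lit 84) (nat_lit 8874206663) (nat_lit 84) (nat_lit 6963821899) (nat_lit 4) (nat_lit 4) (nat_lit 5) (nat_lit 5) (nat_lit 5) (nat_lit 4) (nat_lit 394) (nat_lit 250) (nat_lit 244)) (XT.nd (nat_lit 94) (nat_lit 0) (nat_lit 0) (XT.lf (nat_lit 0) (nat_lit 23885950009) (nat_lit 84) (nat_lit 7813964603) (nat_lit 84) (nat_lit 5617837802) (nat_lit 4) (nat_lit 4) (nat_lit 5) (nat_lit 5) (nat_lit 5) (nat_lit 4) (nat_lit 395) (nat_lit 250) (nat_lit 243)) (XT.lf (nat_lit 0) (nat_lit 27405368595) (nat_lit 84) (nat_lit 6739189297) (nat_lit 84) (nat_lit 4265912119) (nat_lit 4) (nat_lit 4) (nat_lit 5) (nat_lit 5) (nat_lit 5) (nat_lit 4) (nat_lit 396) (nat_lit 250) (nat_lit 242))))) (XT.nd (nat_lit 282) (nat_lit 168) (nat_lit 0)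 (XT.nd (nat_lit 94) (nat_lit 0) (nat_lit 0) (XT.lf (nat_lit 0) (nat_lit 30982582260) (nat_lit 84) (nat_lit 5648878940) (nat_lit 84) (nat_lit 2906784715) (nat_lit 4) (nat_lit 4) (nat_lit 5) (nat_lit 5) (nat_lit 5) (nat_lit 4) (nat_lit 397) (nat_lit 250) (nat_lit 241)) (XT.nd (nat_lit 94) (nat_lit 0) (nat_lit 0) (XT.lf (nat_lit 0) (nat_lit 34620925340) (nat_lit 84) (nat_lit 4542017250) (nat_lit 84) (nat_lit 1539188741) (nat_lit 4) (nat_lit 4) (nat_lit 5) (nat_lit 5) (nat_lit 5) (nat_lit 4) (nat_lit 398) (nat_lit 250) (nat_lit 240)) (XT.lf (nat_lit 0) (nat_lit 38323789154) (nat_lit 84) (nat_lit 3417572516) (nat_lit 84) (nat_lit 161849452) (nat_lit 4) (nat_lit 4) (nat_lit 5) (nat_lit 5) (nat_lit 5) (nat_lit 4) (nat_lit 399) (nat_lit 250) (nat_lit 239)))) (XT.nd (nat_lit 94) (nat_lit 84) (nat_lit 0) (XT.lf (nat_lit 0) (nat_lit 1201805389) (nat_lit 168) (nat_lit 1060146864) (nat_lit 84)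 (nat_lit 40880275384) (nat_lit 3) (nat_lit 5) (nat_lit 5) (nat_lit 5) (nat_lit 4) (nat_lit 4) (nat_lit 400) (nat_lit 250) (nat_lit 238)) (XT.nd (nat_lit 94) (nat_lit 0) (nat_lit 0) (XT.lf (nat_lit 0) (nat_lit 1520043793) (nat_lit 84) (nat_lit 1069307550) (nat_lit 168) (nat_lit 41830840949) (nat_lit 2) (nat_lit 5) (nat_lit 3) (nat_lit 5) (nat_lit 4) (nat_lit 4) (nat_lit 401) (nat_lit 250) (nat_lit 237)) (XT.lf (nat_lit 0) (nat_lit 4002873954) (nat_lit 168) (nat_lit 41583004798) (nat_lit 0) (nat_lit 152543835) (nat_lit 2) (nat_lit 5) (nat_lit 4) (nat_lit 4) (nat_lit 2) (nat_lit 4) (nat_lit 402) (nat_lit 250) (nat_lit 236)))))) (XT.nd (nat_lit 564) (nat_lit 0) (nat_lit 0) (XT.nd (nat_lit 282) (nat_lit 0) (nat_lit 0) (XT.nd (nat_lit 94) (nat_lit 0) (nat_lit 0) (XT.lf (nat_lit 0) (nat_lit 5442241995) (nat_lit 168) (nat_lit 40281131457) (nat_lit 0) (nat_lit 1374818711) (nat_lit 2) (nat_lit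 5) (nat_lit 4) (nat_lit 4) (nat_lit 2) (nat_lit 4) (nat_lit 403) (nat_lit 250) (nat_lit 235)) (XT.nd (nat_lit 94) (nat_lit 0) (nat_lit 0) (XT.lf (nat_lit 0) (nat_lit 6898189444) (nat_lit 168) (nat_lit 38982707330) (nat_lit 0) (nat_lit 2620200530) (nat_lit 2) (nat_lit 5) (nat_lit 4) (nat_lit 4) (nat_lit 2) (nat_lit 4) (nat_lit 404) (nat_lit 250) (nat_lit 234)) (XT.lf (nat_lit 0) (nat_lit 8372073398) (nat_lit 168) (nat_lit 37686522150) (nat_lit 0) (nat_lit 3889850118) (nat_lit 2) (nat_lit 5) (nat_lit 4) (nat_lit 4) (nat_lit 2) (nat_lit 4) (nat_lit 405) (nat_lit 250) (nat_lit 233)))) (XT.nd (nat_lit 94) (nat_lit 0) (nat_lit 0) (XT.lf (nat_lit 0) (nat_lit 9865267670) (nat_lit 168) (nat_lit 36391367736) (nat_lit 0) (nat_lit 5184950923) (nat_lit 2) (nat_lit 5) (nat_lit 4) (nat_lit 4) (nat_lit 2) (nat_lit 4) (nat_lit 406) (nat_lit 250) (nat_lit 232)) (XT.nd (nat_lit 94) (nat_lit 0) (nat_lit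 0) (XT.lf (nat_lit 0) (nat_lit 11379164073) (nat_lit 168) (nat_lit 35096036869) (nat_lit 0) (nat_lit 6506710112) (nat_lit 2) (nat_lit 5) (nat_lit 4) (nat_lit 4) (nat_lit 2) (nat_lit 4) (nat_lit 407) (nat_lit 250) (nat_lit 231)) (XT.lf (nat_lit 0) (nat_lit 12915173719) (nat_lit 168) (nat_lit 33799322166) (nat_lit 0) (nat_lit 7856359706) (nat_lit 2) (nat_lit 5) (nat_lit 4) (nat_lit 4) (nat_lit 2) (nat_lit 4) (nat_lit 408) (nat_lit 250) (nat_lit 230))))) (XT.nd (nat_lit 282) (nat_lit 0) (nat_lit 0) (XT.nd (nat_lit 94) (nat_lit 0) (nat_lit 0) (XT.lf (nat_lit 0) (nat_lit 14474728328) (nat_lit 168) (nat_lit 32500014951) (nat_lit 0) (nat_lit 9235157717) (nat_lit 2) (nat_lit 5) (nat_lit 4) (nat_lit 4) (nat_lit 2) (nat_lit 4) (nat_lit 409) (nat_lit 250) (nat_lit 229)) (XT.nd (nat_lit 94) (nat_lit 0) (nat_lit 0) (XT.lf (nat_lit 0) (nat_lit 16059281569) (nat_lit 168) (nat_lit 31196904135) (nat_lit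 0) (nat_lit 10644389331) (nat_lit 2) (nat_lit 5) (nat_lit 4) (nat_lit 4) (nat_lit 2) (nat_lit 4) (nat_lit 410) (nat_lit 250) (nat_lit 228)) (XT.lf (nat_lit 0) (nat_lit 17670310411) (nat_lit 168) (nat_lit 29888775082) (nat_lit 0) (nat_lit 12085368098) (nat_lit 2) (nat_lit 5) (nat_lit 4) (nat_lit 4) (nat_lit 2) (nat_lit 4) (nat_lit 411) (nat_lit 250) (nat_lit 227)))) (XT.nd (nat_lit 188) (nat_lit 0) (nat_lit 0) (XT.nd (nat_lit 94) (nat_lit 0) (nat_lit 0) (XT.lf (nat_lit 0) (nat_lit 19309316503) (nat_lit 168) (nat_lit 28574408478) (nat_lit 0) (nat_lit 13559437163) (nat_lit 2) (nat_lit 5) (nat_lit 4) (nat_lit 4) (nat_lit 2) (nat_lit 4) (nat_lit 412) (nat_lit 250) (nat_lit 226)) (XT.lf (nat_lit 0) (nat_lit 20977827569) (nat_lit 168) (nat_lit 27252579196) (nat_lit 0) (nat_lit 15067970512) (nat_lit 2) (nat_lit 5) (nat_lit 4) (nat_lit 4) (nat_lit 2) (nat_lit 4) (nat_lit 413) (nat_lit 250)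 (nat_lit 225))) (XT.nd (nat_lit 94) (nat_lit 0) (nat_lit 0) (XT.lf (nat_lit 0) (nat_lit 22677398837) (nat_lit 168) (nat_lit 25922055153) (nat_lit 0) (nat_lit 16612374255) (nat_lit 2) (nat_lit 5) (nat_lit 4) (nat_lit 4) (nat_lit 2) (nat_lit 4) (nat_lit 414) (nat_lit 250) (nat_lit 224)) (XT.lf (nat_lit 0) (nat_lit 24409614485) (nat_lit 168) (nat_lit 24581596161) (nat_lit 0) (nat_lit 18194087940) (nat_lit 2) (nat_lit 5) (nat_lit 4) (nat_lit 4) (nat_lit 2) (nat_lit 4) (nat_lit 415) (nat_lit 250) (nat_lit 223))))))) (XT.nd (nat_lit 53298) (nat_lit 0) (nat_lit 0) (XT.nd (nat_lit 564) (nat_lit 0) (nat_lit 0) (XT.nd (nat_lit 282) (nat_lit 0) (nat_lit 0) (XT.nd (nat_lit 94) (nat_lit 0) (nat_lit 0) (XT.lf (nat_lit 0) (nat_lit 26176089120) (nat_lit 168) (nat_lit 23229952772) (nat_lit 0) (nat_lit 19814585888) (nat_lit 2) (nat_lit 5) (nat_lit 4) (nat_lit 4) (nat_lit 2) (nat_lit 4) (nat_lit 416)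 (nat_lit 250) (nat_lit 222)) (XT.nd (nat_lit 94) (nat_lit 0) (nat_lit 0) (XT.lf (nat_lit 0) (nat_lit 27978469281) (nat_lit 168) (nat_lit 21865865112) (nat_lit 0) (nat_lit 21475378574) (nat_lit 2) (nat_lit 5) (nat_lit 4) (nat_lit 4) (nat_lit 2) (nat_lit 4) (nat_lit 417) (nat_lit 250) (nat_lit 221)) (XT.lf (nat_lit 0) (nat_lit 29818434974) (nat_lit 168) (nat_lit 20488061710) (nat_lit 0) (nat_lit 23178014030) (nat_lit 2) (nat_lit 5) (nat_lit 4) (nat_lit 4) (nat_lit 2) (nat_lit 4) (nat_lit 418) (nat_lit 250) (nat_lit 220)))) (XT.nd (nat_lit 94) (nat_lit 0) (nat_lit 0) (XT.lf (nat_lit 0) (nat_lit 31697701242) (nat_lit 168) (nat_lit 19095258307) (nat_lit 0) (nat_lit 24924079292) (nat_lit 2) (nat_lit 5) (nat_lit 4) (nat_lit 4) (nat_lit 2) (nat_lit 4) (nat_lit 419) (nat_lit 250) (nat_lit 219)) (XT.nd (nat_lit 94) (nat_lit 0) (nat_lit 0) (XT.lf (nat_lit 0) (nat_lit 33618019756) (nat_lit 168)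 (nat_lit 17686156665) (nat_lit 0) (nat_lit 26715201874) (nat_lit 2) (nat_lit 5) (nat_lit 4) (nat_lit 4) (nat_lit 2) (nat_lit 4) (nat_lit 420) (nat_lit 250) (nat_lit 218)) (XT.lf (nat_lit 0) (nat_lit 35581180456) (nat_lit 168) (nat_lit 16259443354) (nat_lit 0) (nat_lit 28553051291) (nat_lit 2) (nat_lit 5) (nat_lit 4) (nat_lit 4) (nat_lit 2) (nat_lit 4) (nat_lit 421) (nat_lit 250) (nat_lit 217))))) (XT.nd (nat_lit 52358) (nat_lit 0) (nat_lit 168) (XT.nd (nat_lit 94) (nat_lit 0) (nat_lit 0) (XT.lf (nat_lit 0) (nat_lit 37589013211) (nat_lit 168) (nat_lit 14813788528) (nat_lit 0) (nat_lit 30439340610) (nat_lit 2) (nat_lit 5) (nat_lit 4) (nat_lit 4) (nat_lit 2) (nat_lit 4) (nat_lit 422) (nat_lit 250) (nat_lit 216)) (XT.nd (nat_lit 94) (nat_lit 0) (nat_lit 0) (XT.lf (nat_lit 0) (nat_lit 39643389533) (nat_lit 168) (nat_lit 13347844685) (nat_lit 0) (nat_lit 32375828052) (nat_lit 2) (nat_lit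 5) (nat_lit 4) (nat_lit 4) (nat_lit 2) (nat_lit 4) (nat_lit 423) (nat_lit 250) (nat_lit 215)) (XT.lf (nat_lit 0) (nat_lit 41746224316) (nat_lit 168) (nat_lit 11860245411) (nat_lit 0) (nat_lit 34364318625) (nat_lit 2) (nat_lit 5) (nat_lit 4) (nat_lit 4) (nat_lit 2) (nat_lit 4) (nat_lit 424) (nat_lit 250) (nat_lit 214)))) (XT.nd (nat_lit 188) (nat_lit 84) (nat_lit 0) (XT.nd (nat_lit 94) (nat_lit 0) (nat_lit 0) (XT.lf (nat_lit 0) (nat_lit 5833547383) (nat_lit 168) (nat_lit 2783107756) (nat_lit 0) (nat_lit 5833547383) (nat_lit 5) (nat_lit 5) (nat_lit 7) (nat_lit 4) (nat_lit 5) (nat_lit 4) (nat_lit 386) (nat_lit 251) (nat_lit 251)) (XT.lf (nat_lit 0) (nat_lit 13777337550) (nat_lit 168) (nat_lit 2520680314) (nat_lit 0) (nat_lit 13423515582) (nat_lit 5) (nat_lit 5) (nat_lit 7) (nat_lit 4) (nat_lit 5) (nat_lit 4) (nat_lit 387) (nat_lit 251) (nat_lit 250))) (XT.nd (nat_lit 94) (nat_lit 0)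 (nat_lit 0) (XT.lf (nat_lit 0) (nat_lit 566499294) (nat_lit 84) (nat_lit 15349970028) (nat_lit 84) (nat_lit 14652964773) (nat_lit 4) (nat_lit 4) (nat_lit 5) (nat_lit 5) (nat_lit 5) (nat_lit 4) (nat_lit 388) (nat_lit 251) (nat_lit 249)) (XT.lf (nat_lit 0) (nat_lit 3739287463) (nat_lit 84) (nat_lit 14367426242) (nat_lit 84) (nat_lit 13337556499) (nat_lit 4) (nat_lit 4) (nat_lit 5) (nat_lit 5) (nat_lit 5) (nat_lit 4) (nat_lit 389) (nat_lit 251) (nat_lit 248)))))) (XT.nd (nat_lit 564) (nat_lit 168) (nat_lit 0) (XT.nd (nat_lit 282) (nat_lit 0) (nat_lit 0) (XT.nd (nat_lit 94) (nat_lit 0) (nat_lit 0) (XT.lf (nat_lit 0) (nat_lit 6948811206) (nat_lit 84) (nat_lit 13375781404) (nat_lit 84) (nat_lit 12023055708) (nat_lit 4) (nat_lit 4) (nat_lit 5) (nat_lit 5) (nat_lit 5) (nat_lit 4) (nat_lit 390) (nat_lit 251) (nat_lit 247)) (XT.nd (nat_lit 94) (nat_lit 0) (nat_lit 0) (XT.lf (nat_lit 0) (nat_lit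 10198062136) (nat_lit 84) (nat_lit 12374111198) (nat_lit 84) (nat_lit 10708237149) (nat_lit 4) (nat_lit 4) (nat_lit 5) (nat_lit 5) (nat_lit 5) (nat_lit 4) (nat_lit 391) (nat_lit 251) (nat_lit 246)) (XT.lf (nat_lit 0) (nat_lit 13490068894) (nat_lit 84) (nat_lit 11361481962) (nat_lit 84) (nat_lit 9391875271) (nat_lit 4) (nat_lit 4) (nat_lit 5) (nat_lit 5) (nat_lit 5) (nat_lit 4) (nat_lit 392) (nat_lit 251) (nat_lit 245)))) (XT.nd (nat_lit 94) (nat_lit 0) (nat_lit 0) (XT.lf (nat_lit 0) (nat_lit 16827899975) (nat_lit 84) (nat_lit 10336949821) (nat_lit 84) (nat_lit 8072743088) (nat_lit 4) (nat_lit 4) (nat_lit 5) (nat_lit 5) (nat_lit 5) (nat_lit 4) (nat_lit 393) (nat_lit 251) (nat_lit 244)) (XT.nd (nat_lit 94) (nat_lit 0) (nat_lit 0) (XT.lf (nat_lit 0) (nat_lit 20214666589) (nat_lit 84) (nat_lit 9299559801) (nat_lit 84) (nat_lit 6749611032) (nat_lit 4) (nat_lit 4) (nat_lit 5) (nat_lit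 5) (nat_lit 5) (nat_lit 4) (nat_lit 394) (nat_lit 251) (nat_lit 243)) (XT.lf (nat_lit 0) (nat_lit 23653525556) (nat_lit 84) (nat_lit 8248344949) (nat_lit 84) (nat_lit 5421245803) (nat_lit 4) (nat_lit 4) (nat_lit 5) (nat_lit 5) (nat_lit 5) (nat_lit 4) (nat_lit 395) (nat_lit 251) (nat_lit 242))))) (XT.nd (nat_lit 282) (nat_lit 168) (nat_lit 0) (XT.nd (nat_lit 94) (nat_lit 0) (nat_lit 0) (XT.lf (nat_lit 0) (nat_lit 27147682252) (nat_lit 84) (nat_lit 7182325420) (nat_lit 84) (nat_lit 4086409227) (nat_lit 4) (nat_lit 4) (nat_lit 5) (nat_lit 5) (nat_lit 5) (nat_lit 4) (nat_lit 396) (nat_lit 251) (nat_lit 241)) (XT.nd (nat_lit 94) (nat_lit 0) (nat_lit 0) (XT.lf (nat_lit 0) (nat_lit 30700393599) (nat_lit 84) (nat_lit 6100507573) (nat_lit 84) (nat_lit 2743857095) (nat_lit 4) (nat_lit 4) (nat_lit 5) (nat_lit 5) (nat_lit 5) (nat_lit 4) (nat_lit 397) (nat_lit 251) (nat_lit 240)) (XT.lf (nat_lit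 0) (nat_lit 34314971095) (nat_lit 84) (nat_lit 5001883041) (nat_lit 84) (nat_lit 1392338010) (nat_lit 4) (nat_lit 4) (nat_lit 5) (nat_lit 5) (nat_lit 5) (nat_lit 4) (nat_lit 398) (nat_lit 251) (nat_lit 239)))) (XT.nd (nat_lit 188) (nat_lit 84) (nat_lit 0) (XT.nd (nat_lit 94) (nat_lit 84) (nat_lit 0) (XT.lf (nat_lit 0) (nat_lit 37994783905) (nat_lit 84) (nat_lit 3885427791) (nat_lit 84) (nat_lit 30592213) (nat_lit 4) (nat_lit 4) (nat_lit 5) (nat_lit 5) (nat_lit 5) (nat_lit 4) (nat_lit 399) (nat_lit 251) (nat_lit 238)) (XT.lf (nat_lit 0) (nat_lit 1315598188) (nat_lit 168) (nat_lit 1420770833) (nat_lit 84) (nat_lit 40413931664) (nat_lit 3) (nat_lit 5) (nat_lit 5) (nat_lit 5) (nat_lit 4) (nat_lit 4) (nat_lit 400) (nat_lit 251) (nat_lit 237))) (XT.nd (nat_lit 94) (nat_lit 0) (nat_lit 0) (XT.lf (nat_lit 0) (nat_lit 1129510867) (nat_lit 84) (nat_lit 1555384843) (nat_lit 168) (nat_lit 41743994702)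 (nat_lit 2) (nat_lit 5) (nat_lit 3) (nat_lit 5) (nat_lit 4) (nat_lit 4) (nat_lit 401) (nat_lit 251) (nat_lit 236)) (XT.lf (nat_lit 0) (nat_lit 3744659661) (nat_lit 84) (nat_lit 338055767) (nat_lit 168) (nat_lit 41664949653) (nat_lit 2) (nat_lit 5) (nat_lit 3) (nat_lit 5) (nat_lit 4) (nat_lit 4) (nat_lit 402) (nat_lit 251) (nat_lit 235))))))))
noncomputable def xc9 : XT := (XT.nd (nat_lit 54238) (nat_lit 0) (nat_lit 0) (XT.nd (nat_lit 1128) (nat_lit 0) (nat_lit 0) (XT.nd (nat_lit 564) (nat_lit 0) (nat_lit 0) (XT.nd (nat_lit 282) (nat_lit 0) (nat_lit 0) (XT.nd (nat_lit 94) (nat_lit 0) (nat_lit 0) (XT.lf (nat_lit 0) (nat_lit 5504923415) (nat_lit 168) (nat_lit 40719347843) (nat_lit 0) (nat_lit 883751214) (nat_lit 2) (nat_lit 5) (nat_lit 4) (nat_lit 4) (nat_lit 2) (nat_lit 4) (nat_lit 403) (nat_lit 251) (nat_lit 234)) (XT.nd (nat_lit 94) (nat_lit 0) (nat_lit 0) (XT.lf (nat_lit 0) (nat_lit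 6947479497) (nat_lit 168) (nat_lit 39441844492) (nat_lit 0) (nat_lit 2122072931) (nat_lit 2) (nat_lit 5) (nat_lit 4) (nat_lit 4) (nat_lit 2) (nat_lit 4) (nat_lit 404) (nat_lit 251) (nat_lit 233)) (XT.lf (nat_lit 0) (nat_lit 8408374733) (nat_lit 168) (nat_lit 38165951043) (nat_lit 0) (nat_lit 3384874700) (nat_lit 2) (nat_lit 5) (nat_lit 4) (nat_lit 4) (nat_lit 2) (nat_lit 4) (nat_lit 405) (nat_lit 251) (nat_lit 232)))) (XT.nd (nat_lit 94) (nat_lit 0) (nat_lit 0) (XT.lf (nat_lit 0) (nat_lit 9888970832) (nat_lit 168) (nat_lit 36890478232) (nat_lit 0) (nat_lit 4673333584) (nat_lit 2) (nat_lit 5) (nat_lit 4) (nat_lit 4) (nat_lit 2) (nat_lit 4) (nat_lit 406) (nat_lit 251) (nat_lit 231)) (XT.nd (nat_lit 94) (nat_lit 0) (nat_lit 0) (XT.lf (nat_lit 0) (nat_lit 11390647862) (nat_lit 168) (nat_lit 35614237183) (nat_lit 0) (nat_lit 5988650562) (nat_lit 2) (nat_lit 5) (nat_lit 4) (nat_lit 4)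 (nat_lit 2) (nat_lit 4) (nat_lit 407) (nat_lit 251) (nat_lit 230)) (XT.lf (nat_lit 0) (nat_lit 12914805545) (nat_lit 168) (nat_lit 34336038306) (nat_lit 0) (nat_lit 7332051648) (nat_lit 2) (nat_lit 5) (nat_lit 4) (nat_lit 4) (nat_lit 2) (nat_lit 4) (nat_lit 408) (nat_lit 251) (nat_lit 229))))) (XT.nd (nat_lit 282) (nat_lit 0) (nat_lit 0) (XT.nd (nat_lit 94) (nat_lit 0) (nat_lit 0) (XT.lf (nat_lit 0) (nat_lit 14462864555) (nat_lit 168) (nat_lit 33054690187) (nat_lit 0) (nat_lit 8704789031) (nat_lit 2) (nat_lit 5) (nat_lit 4) (nat_lit 4) (nat_lit 2) (nat_lit 4) (nat_lit 409) (nat_lit 251) (nat_lit 228)) (XT.nd (nat_lit 94) (nat_lit 0) (nat_lit 0) (XT.lf (nat_lit 0) (nat_lit 16036267846) (nat_lit 168) (nat_lit 31768998473) (nat_lit 0) (nat_lit 10108142247) (nat_lit 2) (nat_lit 5) (nat_lit 4) (nat_lit 4) (nat_lit 2) (nat_lit 4) (nat_lit 410) (nat_lit 251) (nat_lit 227)) (XT.lf (nat_lit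 0) (nat_lit 17636481994) (nat_lit 168) (nat_lit 30477764767) (nat_lit 0) (nat_lit 11543419368) (nat_lit 2) (nat_lit 5) (nat_lit 4) (nat_lit 4) (nat_lit 2) (nat_lit 4) (nat_lit 411) (nat_lit 251) (nat_lit 226)))) (XT.nd (nat_lit 94) (nat_lit 0) (nat_lit 0) (XT.lf (nat_lit 0) (nat_lit 19264998566) (nat_lit 168) (nat_lit 29179785503) (nat_lit 0) (nat_lit 13011958222) (nat_lit 2) (nat_lit 5) (nat_lit 4) (nat_lit 4) (nat_lit 2) (nat_lit 4) (nat_lit 412) (nat_lit 251) (nat_lit 225)) (XT.nd (nat_lit 94) (nat_lit 0) (nat_lit 0) (XT.lf (nat_lit 0) (nat_lit 20923335511) (nat_lit 168) (nat_lit 27873850828) (nat_lit 0) (nat_lit 14515127642) (nat_lit 2) (nat_lit 5) (nat_lit 4) (nat_lit 4) (nat_lit 2) (nat_lit 4) (nat_lit 413) (nat_lit 251) (nat_lit 224)) (XT.lf (nat_lit 0) (nat_lit 22613038571) (nat_lit 168) (nat_lit 26558743475) (nat_lit 0) (nat_lit 16054328739) (nat_lit 2) (nat_lit 5) (nat_lit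 4) (nat_lit 4) (nat_lit 2) (nat_lit 4) (nat_lit 414) (nat_lit 251) (nat_lit 223)))))) (XT.nd (nat_lit 564) (nat_lit 0) (nat_lit 0) (XT.nd (nat_lit 282) (nat_lit 0) (nat_lit 0) (XT.nd (nat_lit 94) (nat_lit 0) (nat_lit 0) (XT.lf (nat_lit 0) (nat_lit 24335682728) (nat_lit 168) (nat_lit 25233237625) (nat_lit 0) (nat_lit 17630996210) (nat_lit 2) (nat_lit 5) (nat_lit 4) (nat_lit 4) (nat_lit 2) (nat_lit 4) (nat_lit 415) (nat_lit 251) (nat_lit 222)) (XT.nd (nat_lit 94) (nat_lit 0) (nat_lit 0) (XT.lf (nat_lit 0) (nat_lit 26092873666) (nat_lit 168) (nat_lit 23896097768) (nat_lit 0) (nat_lit 19246599673) (nat_lit 2) (nat_lit 5) (nat_lit 4) (nat_lit 4) (nat_lit 2) (nat_lit 4) (nat_lit 416) (nat_lit 251) (nat_lit 221)) (XT.lf (nat_lit 0) (nat_lit 27886249272) (nat_lit 168) (nat_lit 22546077550) (nat_lit 0) (nat_lit 20902645041) (nat_lit 2) (nat_lit 5) (nat_lit 4) (nat_lit 4) (nat_lit 2) (nat_lit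 4) (nat_lit 417) (nat_lit 251) (nat_lit 220)))) (XT.nd (nat_lit 94) (nat_lit 0) (nat_lit 0) (XT.lf (nat_lit 0) (nat_lit 29717481158) (nat_lit 168) (nat_lit 21181918611) (nat_lit 0) (nat_lit 22600675921) (nat_lit 2) (nat_lit 5) (nat_lit 4) (nat_lit 4) (nat_lit 2) (nat_lit 4) (nat_lit 418) (nat_lit 251) (nat_lit 219)) (XT.nd (nat_lit 94) (nat_lit 0) (nat_lit 0) (XT.lf (nat_lit 0) (nat_lit 31588276226) (nat_lit 168) (nat_lit 19802349412) (nat_lit 0) (nat_lit 24342275056) (nat_lit 2) (nat_lit 5) (nat_lit 4) (nat_lit 4) (nat_lit 2) (nat_lit 4) (nat_lit 419) (nat_lit 251) (nat_lit 218)) (XT.lf (nat_lit 0) (nat_lit 33500378251) (nat_lit 168) (nat_lit 18406084049) (nat_lit 0) (nat_lit 26129065799) (nat_lit 2) (nat_lit 5) (nat_lit 4) (nat_lit 4) (nat_lit 2) (nat_lit 4) (nat_lit 420) (nat_lit 251) (nat_lit 217))))) (XT.nd (nat_lit 282) (nat_lit 0) (nat_lit 0) (XT.nd (nat_lit 94) (nat_lit 0)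 (nat_lit 0) (XT.lf (nat_lit 0) (nat_lit 35455569514) (nat_lit 168) (nat_lit 16991821056) (nat_lit 0) (nat_lit 27962713626) (nat_lit 2) (nat_lit 5) (nat_lit 4) (nat_lit 4) (nat_lit 2) (nat_lit 4) (nat_lit 421) (nat_lit 251) (nat_lit 216)) (XT.nd (nat_lit 94) (nat_lit 0) (nat_lit 0) (XT.lf (nat_lit 0) (nat_lit 37455672457) (nat_lit 168) (nat_lit 15558242194) (nat_lit 0) (nat_lit 29844927689) (nat_lit 2) (nat_lit 5) (nat_lit 4) (nat_lit 4) (nat_lit 2) (nat_lit 4) (nat_lit 422) (nat_lit 251) (nat_lit 215)) (XT.lf (nat_lit 0) (nat_lit 39502551386) (nat_lit 168) (nat_lit 14104011216) (nat_lit 0) (nat_lit 31777462408) (nat_lit 2) (nat_lit 5) (nat_lit 4) (nat_lit 4) (nat_lit 2) (nat_lit 4) (nat_lit 423) (nat_lit 251) (nat_lit 214)))) (XT.nd (nat_lit 52076) (nat_lit 0) (nat_lit 252) (XT.nd (nat_lit 51982) (nat_lit 0) (nat_lit 252) (XT.lf (nat_lit 0) (nat_lit 41598114207) (nat_lit 168) (nat_lit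 12627772626) (nat_lit 0) (nat_lit 33762119108) (nat_lit 2) (nat_lit 5) (nat_lit 4) (nat_lit 4) (nat_lit 2) (nat_lit 4) (nat_lit 424) (nat_lit 251) (nat_lit 213)) (XT.lf (nat_lit 0) (nat_lit 3947709220) (nat_lit 168) (nat_lit 5772166519) (nat_lit 0) (nat_lit 3947709220) (nat_lit 5) (nat_lit 5) (nat_lit 7) (nat_lit 4) (nat_lit 5) (nat_lit 4) (nat_lit 384) (nat_lit 252) (nat_lit 252))) (XT.nd (nat_lit 94) (nat_lit 0) (nat_lit 0) (XT.lf (nat_lit 0) (nat_lit 9942944708) (nat_lit 168) (nat_lit 8584358759) (nat_lit 0) (nat_lit 9578154259) (nat_lit 5) (nat_lit 5) (nat_lit 7) (nat_lit 4) (nat_lit 5) (nat_lit 4) (nat_lit 385) (nat_lit 252) (nat_lit 251)) (XT.lf (nat_lit 0) (nat_lit 12010489411) (nat_lit 168) (nat_lit 5598795763) (nat_lit 0) (nat_lit 11291876993) (nat_lit 5) (nat_lit 5) (nat_lit 7) (nat_lit 4) (nat_lit 5) (nat_lit 4) (nat_lit 386) (nat_lit 252) (nat_lit 250))))))) (XT.nd (nat_lit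 1222) (nat_lit 84) (nat_lit 0) (XT.nd (nat_lit 564) (nat_lit 84) (nat_lit 0) (XT.nd (nat_lit 282) (nat_lit 0) (nat_lit 0) (XT.nd (nat_lit 94) (nat_lit 84) (nat_lit 0) (XT.lf (nat_lit 0) (nat_lit 14099979718) (nat_lit 168) (nat_lit 2584861194) (nat_lit 0) (nat_lit 13038184014) (nat_lit 5) (nat_lit 5) (nat_lit 7) (nat_lit 4) (nat_lit 5) (nat_lit 4) (nat_lit 387) (nat_lit 252) (nat_lit 249)) (XT.nd (nat_lit 94) (nat_lit 0) (nat_lit 0) (XT.lf (nat_lit 0) (nat_lit 469718022) (nat_lit 84) (nat_lit 15748304893) (nat_lit 84) (nat_lit 14353644701) (nat_lit 4) (nat_lit 4) (nat_lit 5) (nat_lit 5) (nat_lit 5) (nat_lit 4) (nat_lit 388) (nat_lit 252) (nat_lit 248)) (XT.lf (nat_lit 0) (nat_lit 3612166034) (nat_lit 84) (nat_lit 14776277012) (nat_lit 84) (nat_lit 13058760868) (nat_lit 4) (nat_lit 4) (nat_lit 5) (nat_lit 5) (nat_lit 5) (nat_lit 4) (nat_lit 389) (nat_lit 252) (nat_lit 247)))) (XT.nd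 (nat_lit 94) (nat_lit 0) (nat_lit 0) (XT.lf (nat_lit 0) (nat_lit 6792261884) (nat_lit 84) (nat_lit 13794831890) (nat_lit 84) (nat_lit 11764167391) (nat_lit 4) (nat_lit 4) (nat_lit 5) (nat_lit 5) (nat_lit 5) (nat_lit 4) (nat_lit 390) (nat_lit 252) (nat_lit 246)) (XT.nd (nat_lit 94) (nat_lit 0) (nat_lit 0) (XT.lf (nat_lit 0) (nat_lit 10012969756) (nat_lit 84) (nat_lit 12803054715) (nat_lit 84) (nat_lit 10468657574) (nat_lit 4) (nat_lit 4) (nat_lit 5) (nat_lit 5) (nat_lit 5) (nat_lit 4) (nat_lit 391) (nat_lit 252) (nat_lit 245)) (XT.lf (nat_lit 0) (nat_lit 13277291686) (nat_lit 84) (nat_lit 11800021049) (nat_lit 84) (nat_lit 9171023867) (nat_lit 4) (nat_lit 4) (nat_lit 5) (nat_lit 5) (nat_lit 5) (nat_lit 4) (nat_lit 392) (nat_lit 252) (nat_lit 244))))) (XT.nd (nat_lit 282) (nat_lit 84) (nat_lit 0) (XT.nd (nat_lit 94) (nat_lit 0) (nat_lit 0) (XT.lf (nat_lit 0) (nat_lit 16588270364) (nat_lit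 84) (nat_lit 10784795957) (nat_lit 84) (nat_lit 7870056738) (nat_lit 4) (nat_lit 4) (nat_lit 5) (nat_lit 5) (nat_lit 5) (nat_lit 4) (nat_lit 393) (nat_lit 252) (nat_lit 243)) (XT.nd (nat_lit 94) (nat_lit 0) (nat_lit 0) (XT.lf (nat_lit 0) (nat_lit 19948991969) (nat_lit 84) (nat_lit 9756433145) (nat_lit 84) (nat_lit 6564543549) (nat_lit 4) (nat_lit 4) (nat_lit 5) (nat_lit 5) (nat_lit 5) (nat_lit 4) (nat_lit 394) (nat_lit 252) (nat_lit 242)) (XT.lf (nat_lit 0) (nat_lit 23362589046) (nat_lit 84) (nat_lit 8713974070) (nat_lit 84) (nat_lit 5253267427) (nat_lit 4) (nat_lit 4) (nat_lit 5) (nat_lit 5) (nat_lit 5) (nat_lit 4) (nat_lit 395) (nat_lit 252) (nat_lit 241)))) (XT.nd (nat_lit 188) (nat_lit 84) (nat_lit 0) (XT.nd (nat_lit 94) (nat_lit 0) (nat_lit 0) (XT.lf (nat_lit 0) (nat_lit 26832243425) (nat_lit 84) (nat_lit 7656447051) (nat_lit 84) (nat_lit 3935006123) (nat_lit 4) (nat_lit 4)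 (nat_lit 5) (nat_lit 5) (nat_lit 5) (nat_lit 4) (nat_lit 396) (nat_lit 252) (nat_lit 240)) (XT.lf (nat_lit 0) (nat_lit 30361189187) (nat_lit 84) (nat_lit 6582866362) (nat_lit 84) (nat_lit 2608530881) (nat_lit 4) (nat_lit 4) (nat_lit 5) (nat_lit 5) (nat_lit 5) (nat_lit 4) (nat_lit 397) (nat_lit 252) (nat_lit 239))) (XT.nd (nat_lit 94) (nat_lit 84) (nat_lit 0) (XT.lf (nat_lit 0) (nat_lit 33952715679) (nat_lit 84) (nat_lit 5492231314) (nat_lit 84) (nat_lit 1272605286) (nat_lit 4) (nat_lit 4) (nat_lit 5) (nat_lit 5) (nat_lit 5) (nat_lit 4) (nat_lit 398) (nat_lit 252) (nat_lit 238)) (XT.lf (nat_lit 0) (nat_lit 72524627) (nat_lit 168) (nat_lit 4310243684) (nat_lit 84) (nat_lit 37536888944) (nat_lit 3) (nat_lit 5) (nat_lit 5) (nat_lit 5) (nat_lit 4) (nat_lit 4) (nat_lit 399) (nat_lit 252) (nat_lit 237)))))) (XT.nd (nat_lit 564) (nat_lit 0) (nat_lit 0) (XT.nd (nat_lit 282) (nat_lit 0) (nat_lit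 0) (XT.nd (nat_lit 94) (nat_lit 84) (nat_lit 0) (XT.lf (nat_lit 0) (nat_lit 1403724367) (nat_lit 168) (nat_lit 1837338580) (nat_lit 84) (nat_lit 39918586651) (nat_lit 3) (nat_lit 5) (nat_lit 5) (nat_lit 5) (nat_lit 4) (nat_lit 4) (nat_lit 400) (nat_lit 252) (nat_lit 236)) (XT.nd (nat_lit 94) (nat_lit 0) (nat_lit 0) (XT.lf (nat_lit 0) (nat_lit 682560186) (nat_lit 84) (nat_lit 2072085806) (nat_lit 168) (nat_lit 41684220571) (nat_lit 2) (nat_lit 5) (nat_lit 3) (nat_lit 5) (nat_lit 4) (nat_lit 4) (nat_lit 401) (nat_lit 252) (nat_lit 235)) (XT.lf (nat_lit 0) (nat_lit 3276547538) (nat_lit 84) (nat_lit 862185365) (nat_lit 168) (nat_lit 41619389899) (nat_lit 2) (nat_lit 5) (nat_lit 3) (nat_lit 5) (nat_lit 4) (nat_lit 4) (nat_lit 402) (nat_lit 252) (nat_lit 234)))) (XT.nd (nat_lit 94) (nat_lit 0) (nat_lit 0) (XT.lf (nat_lit 0) (nat_lit 5542350092) (nat_lit 168) (nat_lit 41213639033) (nat_lit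 0) (nat_lit 363121557) (nat_lit 2) (nat_lit 5) (nat_lit 4) (nat_lit 4) (nat_lit 2) (nat_lit 4) (nat_lit 403) (nat_lit 252) (nat_lit 233)) (XT.nd (nat_lit 94) (nat_lit 0) (nat_lit 0) (XT.lf (nat_lit 0) (nat_lit 6971917457) (nat_lit 168) (nat_lit 39956427413) (nat_lit 0) (nat_lit 1594595455) (nat_lit 2) (nat_lit 5) (nat_lit 4) (nat_lit 4) (nat_lit 2) (nat_lit 4) (nat_lit 404) (nat_lit 252) (nat_lit 232)) (XT.lf (nat_lit 0) (nat_lit 8420214520) (nat_lit 168) (nat_lit 38700215566) (nat_lit 0) (nat_lit 2850755304) (nat_lit 2) (nat_lit 5) (nat_lit 4) (nat_lit 4) (nat_lit 2) (nat_lit 4) (nat_lit 405) (nat_lit 252) (nat_lit 231))))) (XT.nd (nat_lit 282) (nat_lit 0) (nat_lit 0) (XT.nd (nat_lit 94) (nat_lit 0) (nat_lit 0) (XT.lf (nat_lit 0) (nat_lit 9888591245) (nat_lit 168) (nat_lit 37443832572) (nat_lit 0) (nat_lit 4132771977) (nat_lit 2) (nat_lit 5) (nat_lit 4) (nat_lit 4) (nat_lit 2) (nat_lit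 4) (nat_lit 406) (nat_lit 252) (nat_lit 230)) (XT.nd (nat_lit 94) (nat_lit 0) (nat_lit 0) (XT.lf (nat_lit 0) (nat_lit 11378416313) (nat_lit 168) (nat_lit 36186107351) (nat_lit 0) (nat_lit 5441840447) (nat_lit 2) (nat_lit 5) (nat_lit 4) (nat_lit 4) (nat_lit 2) (nat_lit 4) (nat_lit 407) (nat_lit 252) (nat_lit 229)) (XT.lf (nat_lit 0) (nat_lit 12891078397) (nat_lit 168) (nat_lit 34925867569) (nat_lit 0) (nat_lit 6779180904) (nat_lit 2) (nat_lit 5) (nat_lit 4) (nat_lit 4) (nat_lit 2) (nat_lit 4) (nat_lit 408) (nat_lit 252) (nat_lit 228)))) (XT.nd (nat_lit 188) (nat_lit 0) (nat_lit 0) (XT.nd (nat_lit 94) (nat_lit 0) (nat_lit 0) (XT.lf (nat_lit 0) (nat_lit 14427987457) (nat_lit 168) (nat_lit 33661938552) (nat_lit 0) (nat_lit 8146039890) (nat_lit 2) (nat_lit 5) (nat_lit 4) (nat_lit 4) (nat_lit 2) (nat_lit 4) (nat_lit 409) (nat_lit 252) (nat_lit 227)) (XT.lf (nat_lit 0) (nat_lit 15990576054)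 (nat_lit 168) (nat_lit 32393142187) (nat_lit 0) (nat_lit 9543691459) (nat_lit 2) (nat_lit 5) (nat_lit 4) (nat_lit 4) (nat_lit 2) (nat_lit 4) (nat_lit 410) (nat_lit 252) (nat_lit 226))) (XT.nd (nat_lit 94) (nat_lit 0) (nat_lit 0) (XT.lf (nat_lit 0) (nat_lit 17580300682) (nat_lit 168) (nat_lit 31118295820) (nat_lit 0) (nat_lit 10973438369) (nat_lit 2) (nat_lit 5) (nat_lit 4) (nat_lit 4) (nat_lit 2) (nat_lit 4) (nat_lit 411) (nat_lit 252) (nat_lit 225)) (XT.lf (nat_lit 0) (nat_lit 19198643132) (nat_lit 168) (nat_lit 29836211163) (nat_lit 0) (nat_lit 12436613295) (nat_lit 2) (nat_lit 5) (nat_lit 4) (nat_lit 4) (nat_lit 2) (nat_lit 4) (nat_lit 412) (nat_lit 252) (nat_lit 224))))))))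
noncomputable def xc10 : XT := (XT.nd (nat_lit 53956) (nat_lit 0) (nat_lit 0) (XT.nd (nat_lit 1128) (nat_lit 0) (nat_lit 0) (XT.nd (nat_lit 564) (nat_lit 0) (nat_lit 0) (XT.nd (nat_lit 282) (nat_lit 0) (nat_lit 0) (XT.nd (nat_lit 94) (nat_lit 0) (nat_lit 0) (XT.lf (nat_lit 0) (nat_lit 20847111869) (nat_lit 168) (nat_lit 28545693177) (nat_lit 0) (nat_lit 13934580068) (nat_lit 2) (nat_lit 5) (nat_lit 4) (nat_lit 4) (nat_lit 2) (nat_lit 4) (nat_lit 413) (nat_lit 252) (nat_lit 223)) (XT.nd (nat_lit 94) (nat_lit 0) (nat_lit 0) (XT.lf (nat_lit 0) (nat_lit 22527243439) (nat_lit 168) (nat_lit 27245538966) (nat_lit 0) (nat_lit 15468734951) (nat_lit 2) (nat_lit 5) (nat_lit 4) (nat_lit 4) (nat_lit 2) (nat_lit 4) (nat_lit 414) (nat_lit 252) (nat_lit 222)) (XT.lf (nat_lit 0) (nat_lit 24240603899) (nat_lit 168) (nat_lit 25934536648) (nat_lit 0) (nat_lit 17040507937) (nat_lit 2) (nat_lit 5) (nat_lit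 4) (nat_lit 4) (nat_lit 2) (nat_lit 4) (nat_lit 415) (nat_lit 252) (nat_lit 221)))) (XT.nd (nat_lit 94) (nat_lit 0) (nat_lit 0) (XT.lf (nat_lit 0) (nat_lit 25988790282) (nat_lit 168) (nat_lit 24611464234) (nat_lit 0) (nat_lit 18651364083) (nat_lit 2) (nat_lit 5) (nat_lit 4) (nat_lit 4) (nat_lit 2) (nat_lit 4) (nat_lit 416) (nat_lit 252) (nat_lit 220)) (XT.nd (nat_lit 94) (nat_lit 0) (nat_lit 0) (XT.lf (nat_lit 0) (nat_lit 27773432080) (nat_lit 168) (nat_lit 23275088479) (nat_lit 0) (nat_lit 20302804874) (nat_lit 2) (nat_lit 5) (nat_lit 4) (nat_lit 4) (nat_lit 2) (nat_lit 4) (nat_lit 417) (nat_lit 252) (nat_lit 219)) (XT.lf (nat_lit 0) (nat_lit 29596192766) (nat_lit 168) (nat_lit 21924163743) (nat_lit 0) (nat_lit 21996369629) (nat_lit 2) (nat_lit 5) (nat_lit 4) (nat_lit 4) (nat_lit 2) (nat_lit 4) (nat_lit 418) (nat_lit 252) (nat_lit 218))))) (XT.nd (nat_lit 282) (nat_lit 0) (nat_lit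 0) (XT.nd (nat_lit 94) (nat_lit 0) (nat_lit 0) (XT.lf (nat_lit 0) (nat_lit 31458771345) (nat_lit 168) (nat_lit 20557430822) (nat_lit 0) (nat_lit 23733636925) (nat_lit 2) (nat_lit 5) (nat_lit 4) (nat_lit 4) (nat_lit 2) (nat_lit 4) (nat_lit 419) (nat_lit 252) (nat_lit 217)) (XT.nd (nat_lit 94) (nat_lit 0) (nat_lit 0) (XT.lf (nat_lit 0) (nat_lit 33362903934) (nat_lit 168) (nat_lit 19173615778) (nat_lit 0) (nat_lit 25516226078) (nat_lit 2) (nat_lit 5) (nat_lit 4) (nat_lit 4) (nat_lit 2) (nat_lit 4) (nat_lit 420) (nat_lit 252) (nat_lit 216)) (XT.lf (nat_lit 0) (nat_lit 35310365384) (nat_lit 168) (nat_lit 17771428750) (nat_lit 0) (nat_lit 27345798648) (nat_lit 2) (nat_lit 5) (nat_lit 4) (nat_lit 4) (nat_lit 2) (nat_lit 4) (nat_lit 421) (nat_lit 252) (nat_lit 215)))) (XT.nd (nat_lit 94) (nat_lit 0) (nat_lit 0) (XT.lf (nat_lit 0) (nat_lit 37302970934) (nat_lit 168) (nat_lit 16349562752)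 (nat_lit 0) (nat_lit 29224059988) (nat_lit 2) (nat_lit 5) (nat_lit 4) (nat_lit 4) (nat_lit 2) (nat_lit 4) (nat_lit 422) (nat_lit 252) (nat_lit 214)) (XT.nd (nat_lit 94) (nat_lit 0) (nat_lit 0) (XT.lf (nat_lit 0) (nat_lit 39342577901) (nat_lit 168) (nat_lit 14906692458) (nat_lit 0) (nat_lit 31152760834) (nat_lit 2) (nat_lit 5) (nat_lit 4) (nat_lit 4) (nat_lit 2) (nat_lit 4) (nat_lit 423) (nat_lit 252) (nat_lit 213)) (XT.lf (nat_lit 0) (nat_lit 41431087413) (nat_lit 168) (nat_lit 13441472960) (nat_lit 0) (nat_lit 33133698939) (nat_lit 2) (nat_lit 5) (nat_lit 4) (nat_lit 4) (nat_lit 2) (nat_lit 4) (nat_lit 424) (nat_lit 252) (nat_lit 212)))))) (XT.nd (nat_lit 52170) (nat_lit 0) (nat_lit 168) (XT.nd (nat_lit 51888) (nat_lit 0) (nat_lit 252) (XT.nd (nat_lit 51700) (nat_lit 0) (nat_lit 252) (XT.lf (nat_lit 0) (nat_lit 43570446178) (nat_lit 168) (nat_lit 11952538521) (nat_lit 0) (nat_lit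 35168720742) (nat_lit 2) (nat_lit 5) (nat_lit 4) (nat_lit 4) (nat_lit 2) (nat_lit 4) (nat_lit 425) (nat_lit 252) (nat_lit 211)) (XT.nd (nat_lit 94) (nat_lit 0) (nat_lit 0) (XT.lf (nat_lit 0) (nat_lit 2125822960) (nat_lit 168) (nat_lit 8681949331) (nat_lit 0) (nat_lit 2125822960) (nat_lit 5) (nat_lit 5) (nat_lit 7) (nat_lit 4) (nat_lit 5) (nat_lit 4) (nat_lit 382) (nat_lit 253) (nat_lit 253)) (XT.lf (nat_lit 0) (nat_lit 6242101055) (nat_lit 168) (nat_lit 14481477610) (nat_lit 0) (nat_lit 5866002102) (nat_lit 5) (nat_lit 5) (nat_lit 7) (nat_lit 4) (nat_lit 5) (nat_lit 4) (nat_lit 383) (nat_lit 253) (nat_lit 252)))) (XT.nd (nat_lit 94) (nat_lit 0) (nat_lit 0) (XT.lf (nat_lit 0) (nat_lit 8249458321) (nat_lit 168) (nat_lit 11577923276) (nat_lit 0) (nat_lit 7508568918) (nat_lit 5) (nat_lit 5) (nat_lit 7) (nat_lit 4) (nat_lit 5) (nat_lit 4) (nat_lit 384) (nat_lit 253) (nat_lit 251)) (XT.nd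 (nat_lit 94) (nat_lit 0) (nat_lit 0) (XT.lf (nat_lit 0) (nat_lit 10275588783) (nat_lit 168) (nat_lit 8650529246) (nat_lit 0) (nat_lit 9180877412) (nat_lit 5) (nat_lit 5) (nat_lit 7) (nat_lit 4) (nat_lit 5) (nat_lit 4) (nat_lit 385) (nat_lit 253) (nat_lit 250)) (XT.lf (nat_lit 0) (nat_lit 12322381009) (nat_lit 168) (nat_lit 5696566880) (nat_lit 0) (nat_lit 10884486351) (nat_lit 5) (nat_lit 5) (nat_lit 7) (nat_lit 4) (nat_lit 5) (nat_lit 4) (nat_lit 386) (nat_lit 253) (nat_lit 249))))) (XT.nd (nat_lit 282) (nat_lit 0) (nat_lit 0) (XT.nd (nat_lit 94) (nat_lit 84) (nat_lit 0) (XT.lf (nat_lit 0) (nat_lit 14391742822) (nat_lit 168) (nat_lit 2713282776) (nat_lit 0) (nat_lit 12620983677) (nat_lit 5) (nat_lit 5) (nat_lit 7) (nat_lit 4) (nat_lit 5) (nat_lit 4) (nat_lit 387) (nat_lit 253) (nat_lit 248)) (XT.nd (nat_lit 94) (nat_lit 0) (nat_lit 0) (XT.lf (nat_lit 0) (nat_lit 308315671) (nat_lit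 84) (nat_lit 16180345944) (nat_lit 84) (nat_lit 14086730845) (nat_lit 4) (nat_lit 4) (nat_lit 5) (nat_lit 5) (nat_lit 5) (nat_lit 4) (nat_lit 388) (nat_lit 253) (nat_lit 247)) (XT.lf (nat_lit 0) (nat_lit 3421335790) (nat_lit 84) (nat_lit 15218517779) (nat_lit 84) (nat_lit 12811754327) (nat_lit 4) (nat_lit 4) (nat_lit 5) (nat_lit 5) (nat_lit 5) (nat_lit 4) (nat_lit 389) (nat_lit 253) (nat_lit 246)))) (XT.nd (nat_lit 188) (nat_lit 0) (nat_lit 0) (XT.nd (nat_lit 94) (nat_lit 0) (nat_lit 0) (XT.lf (nat_lit 0) (nat_lit 6572888583) (nat_lit 84) (nat_lit 14246965688) (nat_lit 84) (nat_lit 11536469593) (nat_lit 4) (nat_lit 4) (nat_lit 5) (nat_lit 5) (nat_lit 5) (nat_lit 4) (nat_lit 390) (nat_lit 253) (nat_lit 245)) (XT.lf (nat_lit 0) (nat_lit 9765911627) (nat_lit 84) (nat_lit 13264784082) (nat_lit 84) (nat_lit 10259687947) (nat_lit 4) (nat_lit 4) (nat_lit 5) (nat_lit 5) (nat_lit 5) (nat_lit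 4) (nat_lit 391) (nat_lit 253) (nat_lit 244))) (XT.nd (nat_lit 94) (nat_lit 0) (nat_lit 0) (XT.lf (nat_lit 0) (nat_lit 13003381153) (nat_lit 84) (nat_lit 12271057465) (nat_lit 84) (nat_lit 8980219293) (nat_lit 4) (nat_lit 4) (nat_lit 5) (nat_lit 5) (nat_lit 5) (nat_lit 4) (nat_lit 392) (nat_lit 253) (nat_lit 243)) (XT.lf (nat_lit 0) (nat_lit 16288314823) (nat_lit 84) (nat_lit 11264859581) (nat_lit 84) (nat_lit 7696871032) (nat_lit 4) (nat_lit 4) (nat_lit 5) (nat_lit 5) (nat_lit 5) (nat_lit 4) (nat_lit 393) (nat_lit 253) (nat_lit 242))))))) (XT.nd (nat_lit 1222) (nat_lit 0) (nat_lit 0) (XT.nd (nat_lit 564) (nat_lit 84) (nat_lit 0) (XT.nd (nat_lit 282) (nat_lit 84) (nat_lit 0) (XT.nd (nat_lit 94) (nat_lit 0) (nat_lit 0) (XT.lf (nat_lit 0) (nat_lit 19623774538) (nat_lit 84) (nat_lit 10245252546) (nat_lit 84) (nat_lit 6408446950) (nat_lit 4) (nat_lit 4) (nat_lit 5) (nat_lit 5) (nat_lit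 5) (nat_lit 4) (nat_lit 394) (nat_lit 253) (nat_lit 241)) (XT.nd (nat_lit 94) (nat_lit 0) (nat_lit 0) (XT.lf (nat_lit 0) (nat_lit 23012869297) (nat_lit 84) (nat_lit 9211285981) (nat_lit 84) (nat_lit 5113746100) (nat_lit 4) (nat_lit 4) (nat_lit 5) (nat_lit 5) (nat_lit 5) (nat_lit 4) (nat_lit 395) (nat_lit 253) (nat_lit 240)) (XT.lf (nat_lit 0) (nat_lit 26458758091) (nat_lit 84) (nat_lit 8161996120) (nat_lit 84) (nat_lit 3811561685) (nat_lit 4) (nat_lit 4) (nat_lit 5) (nat_lit 5) (nat_lit 5) (nat_lit 4) (nat_lit 396) (nat_lit 253) (nat_lit 239)))) (XT.nd (nat_lit 94) (nat_lit 84) (nat_lit 0) (XT.lf (nat_lit 0) (nat_lit 29964652850) (nat_lit 84) (nat_lit 7096404915) (nat_lit 84) (nat_lit 2500679934) (nat_lit 4) (nat_lit 4) (nat_lit 5) (nat_lit 5) (nat_lit 5) (nat_lit 4) (nat_lit 397) (nat_lit 253) (nat_lit 238)) (XT.nd (nat_lit 94) (nat_lit 84) (nat_lit 0) (XT.lf (nat_lit 0) (nat_lit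 33533821433) (nat_lit 84) (nat_lit 6013519124) (nat_lit 84) (nat_lit 1179878967) (nat_lit 4) (nat_lit 4) (nat_lit 5) (nat_lit 5) (nat_lit 5) (nat_lit 4) (nat_lit 398) (nat_lit 253) (nat_lit 237)) (XT.lf (nat_lit 0) (nat_lit 149008421) (nat_lit 168) (nat_lit 4761765619) (nat_lit 84) (nat_lit 37019026917) (nat_lit 3) (nat_lit 5) (nat_lit 5) (nat_lit 5) (nat_lit 4) (nat_lit 4) (nat_lit 399) (nat_lit 253) (nat_lit 236))))) (XT.nd (nat_lit 282) (nat_lit 0) (nat_lit 0) (XT.nd (nat_lit 94) (nat_lit 84) (nat_lit 0) (XT.lf (nat_lit 0) (nat_lit 1466266069) (nat_lit 168) (nat_lit 2310238389) (nat_lit 84) (nat_lit 39393778632) (nat_lit 3) (nat_lit 5) (nat_lit 5) (nat_lit 5) (nat_lit 4) (nat_lit 4) (nat_lit 400) (nat_lit 253) (nat_lit 235)) (XT.nd (nat_lit 94) (nat_lit 0) (nat_lit 0) (XT.lf (nat_lit 0) (nat_lit 178775144) (nat_lit 84) (nat_lit 2619892057) (nat_lit 168) (nat_lit 41651462842) (nat_lit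 2) (nat_lit 5) (nat_lit 3) (nat_lit 5) (nat_lit 4) (nat_lit 4) (nat_lit 401) (nat_lit 253) (nat_lit 234)) (XT.lf (nat_lit 0) (nat_lit 2752237334) (nat_lit 84) (nat_lit 1417196888) (nat_lit 168) (nat_lit 41600419151) (nat_lit 2) (nat_lit 5) (nat_lit 3) (nat_lit 5) (nat_lit 4) (nat_lit 4) (nat_lit 402) (nat_lit 253) (nat_lit 233)))) (XT.nd (nat_lit 188) (nat_lit 0) (nat_lit 0) (XT.nd (nat_lit 94) (nat_lit 0) (nat_lit 0) (XT.lf (nat_lit 0) (nat_lit 5365043676) (nat_lit 84) (nat_lit 191412066) (nat_lit 168) (nat_lit 41574952521) (nat_lit 2) (nat_lit 5) (nat_lit 3) (nat_lit 5) (nat_lit 4) (nat_lit 4) (nat_lit 403) (nat_lit 253) (nat_lit 232)) (XT.lf (nat_lit 0) (nat_lit 6971526103) (nat_lit 168) (nat_lit 40526935738) (nat_lit 0) (nat_lit 1037276437) (nat_lit 2) (nat_lit 5) (nat_lit 4) (nat_lit 4) (nat_lit 2) (nat_lit 4) (nat_lit 404) (nat_lit 253) (nat_lit 231))) (XT.nd (nat_lit 94) (nat_lit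 0) (nat_lit 0) (XT.lf (nat_lit 0) (nat_lit 8407603792) (nat_lit 168) (nat_lit 39289813709) (nat_lit 0) (nat_lit 2286994075) (nat_lit 2) (nat_lit 5) (nat_lit 4) (nat_lit 4) (nat_lit 2) (nat_lit 4) (nat_lit 405) (nat_lit 253) (nat_lit 230)) (XT.lf (nat_lit 0) (nat_lit 9864128555) (nat_lit 168) (nat_lit 38051946542) (nat_lit 0) (nat_lit 3562762240) (nat_lit 2) (nat_lit 5) (nat_lit 4) (nat_lit 4) (nat_lit 2) (nat_lit 4) (nat_lit 406) (nat_lit 253) (nat_lit 229)))))) (XT.nd (nat_lit 564) (nat_lit 0) (nat_lit 0) (XT.nd (nat_lit 282) (nat_lit 0) (nat_lit 0) (XT.nd (nat_lit 94) (nat_lit 0) (nat_lit 0) (XT.lf (nat_lit 0) (nat_lit 11342458025) (nat_lit 168) (nat_lit 36812180416) (nat_lit 0) (nat_lit 4865770082) (nat_lit 2) (nat_lit 5) (nat_lit 4) (nat_lit 4) (nat_lit 2) (nat_lit 4) (nat_lit 407) (nat_lit 253) (nat_lit 228)) (XT.nd (nat_lit 94) (nat_lit 0) (nat_lit 0) (XT.lf (nat_lit 0) (nat_lit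 12843970159) (nat_lit 168) (nat_lit 35569359737) (nat_lit 0) (nat_lit 6197232142) (nat_lit 2) (nat_lit 5) (nat_lit 4) (nat_lit 4) (nat_lit 2) (nat_lit 4) (nat_lit 408) (nat_lit 253) (nat_lit 227)) (XT.lf (nat_lit 0) (nat_lit 14370064524) (nat_lit 168) (nat_lit 34322326068) (nat_lit 0) (nat_lit 7558389480) (nat_lit 2) (nat_lit 5) (nat_lit 4) (nat_lit 4) (nat_lit 2) (nat_lit 4) (nat_lit 409) (nat_lit 253) (nat_lit 226)))) (XT.nd (nat_lit 94) (nat_lit 0) (nat_lit 0) (XT.lf (nat_lit 0) (nat_lit 15922163601) (nat_lit 168) (nat_lit 33069917042) (nat_lit 0) (nat_lit 8950510839) (nat_lit 2) (nat_lit 5) (nat_lit 4) (nat_lit 4) (nat_lit 2) (nat_lit 4) (nat_lit 410) (nat_lit 253) (nat_lit 225)) (XT.nd (nat_lit 94) (nat_lit 0) (nat_lit 0) (XT.lf (nat_lit 0) (nat_lit 17501714107) (nat_lit 168) (nat_lit 31810965282) (nat_lit 0) (nat_lit 10374893821) (nat_lit 2) (nat_lit 5) (nat_lit 4) (nat_lit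 4) (nat_lit 2) (nat_lit 4) (nat_lit 411) (nat_lit 253) (nat_lit 224)) (XT.lf (nat_lit 0) (nat_lit 19110188350) (nat_lit 168) (nat_lit 30544297314) (nat_lit 0) (nat_lit 11832866100) (nat_lit 2) (nat_lit 5) (nat_lit 4) (nat_lit 4) (nat_lit 2) (nat_lit 4) (nat_lit 412) (nat_lit 253) (nat_lit 223))))) (XT.nd (nat_lit 282) (nat_lit 0) (nat_lit 0) (XT.nd (nat_lit 94) (nat_lit 0) (nat_lit 0) (XT.lf (nat_lit 0) (nat_lit 20749085596) (nat_lit 168) (nat_lit 29268732471) (nat_lit 0) (nat_lit 13325786660) (nat_lit 2) (nat_lit 5) (nat_lit 4) (nat_lit 4) (nat_lit 2) (nat_lit 4) (nat_lit 413) (nat_lit 253) (nat_lit 222)) (XT.nd (nat_lit 94) (nat_lit 0) (nat_lit 0) (XT.lf (nat_lit 0) (nat_lit 22419933469) (nat_lit 168) (nat_lit 27983081792) (nat_lit 0) (nat_lit 14855047058) (nat_lit 2) (nat_lit 5) (nat_lit 4) (nat_lit 4) (nat_lit 2) (nat_lit 4) (nat_lit 414) (nat_lit 253) (nat_lit 221)) (XT.lf (nat_lit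 0) (nat_lit 24124289374) (nat_lit 168) (nat_lit 26686146916) (nat_lit 0) (nat_lit 16422072726) (nat_lit 2) (nat_lit 5) (nat_lit 4) (nat_lit 4) (nat_lit 2) (nat_lit 4) (nat_lit 415) (nat_lit 253) (nat_lit 220)))) (XT.nd (nat_lit 188) (nat_lit 0) (nat_lit 0) (XT.nd (nat_lit 94) (nat_lit 0) (nat_lit 0) (XT.lf (nat_lit 0) (nat_lit 25863741950) (nat_lit 168) (nat_lit 25376718965) (nat_lit 0) (nat_lit 18028324295) (nat_lit 2) (nat_lit 5) (nat_lit 4) (nat_lit 4) (nat_lit 2) (nat_lit 4) (nat_lit 416) (nat_lit 253) (nat_lit 219)) (XT.lf (nat_lit 0) (nat_lit 27639912548) (nat_lit 168) (nat_lit 24053577414) (nat_lit 0) (nat_lit 19675298961) (nat_lit 2) (nat_lit 5) (nat_lit 4) (nat_lit 4) (nat_lit 2) (nat_lit 4) (nat_lit 417) (nat_lit 253) (nat_lit 218))) (XT.nd (nat_lit 94) (nat_lit 0) (nat_lit 0) (XT.lf (nat_lit 0) (nat_lit 29454456745) (nat_lit 168) (nat_lit 22715488956) (nat_lit 0) (nat_lit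 21364531875) (nat_lit 2) (nat_lit 5) (nat_lit 4) (nat_lit 4) (nat_lit 2) (nat_lit 4) (nat_lit 418) (nat_lit 253) (nat_lit 217)) (XT.lf (nat_lit 0) (nat_lit 31309065887) (nat_lit 168) (nat_lit 21361206354) (nat_lit 0) (nat_lit 23097597581) (nat_lit 2) (nat_lit 5) (nat_lit 4) (nat_lit 4) (nat_lit 2) (nat_lit 4) (nat_lit 419) (nat_lit 253) (nat_lit 216))))))))
noncomputable def xc11 : XT := (XT.nd (nat_lit 53862) (nat_lit 0) (nat_lit 0) (XT.nd (nat_lit 52640) (nat_lit 0) (nat_lit 84) (XT.nd (nat_lit 51982) (nat_lit 0) (nat_lit 252) (XT.nd (nat_lit 282) (nat_lit 0) (nat_lit 0) (XT.nd (nat_lit 94) (nat_lit 0) (nat_lit 0) (XT.lf (nat_lit 0) (nat_lit 33205468664) (nat_lit 168) (nat_lit 19989467274) (nat_lit 0) (nat_lit 24876111478) (nat_lit 2) (nat_lit 5) (nat_lit 4) (nat_lit 4) (nat_lit 2) (nat_lit 4) (nat_lit 420) (nat_lit 253) (nat_lit 215)) (XT.nd (nat_lit 94) (nat_lit 0) (nat_lit 0)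 (XT.lf (nat_lit 0) (nat_lit 35145432721) (nat_lit 168) (nat_lit 18598993110) (nat_lit 0) (nat_lit 26701731325) (nat_lit 2) (nat_lit 5) (nat_lit 4) (nat_lit 4) (nat_lit 2) (nat_lit 4) (nat_lit 421) (nat_lit 253) (nat_lit 214)) (XT.lf (nat_lit 0) (nat_lit 37130766309) (nat_lit 168) (nat_lit 17188487797) (nat_lit 0) (nat_lit 28576158793) (nat_lit 2) (nat_lit 5) (nat_lit 4) (nat_lit 4) (nat_lit 2) (nat_lit 4) (nat_lit 422) (nat_lit 253) (nat_lit 213)))) (XT.nd (nat_lit 94) (nat_lit 0) (nat_lit 0) (XT.lf (nat_lit 0) (nat_lit 39163319967) (nat_lit 168) (nat_lit 15756636594) (nat_lit 0) (nat_lit 30501141043) (nat_lit 2) (nat_lit 5) (nat_lit 4) (nat_lit 4) (nat_lit 2) (nat_lit 4) (nat_lit 423) (nat_lit 253) (nat_lit 212)) (XT.nd (nat_lit 94) (nat_lit 0) (nat_lit 0) (XT.lf (nat_lit 0) (nat_lit 41244988246) (nat_lit 168) (nat_lit 14302104867) (nat_lit 0) (nat_lit 32478472362) (nat_lit 2) (nat_lit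 5) (nat_lit 4) (nat_lit 4) (nat_lit 2) (nat_lit 4) (nat_lit 424) (nat_lit 253) (nat_lit 211)) (XT.lf (nat_lit 0) (nat_lit 43377711481) (nat_lit 168) (nat_lit 12823536840) (nat_lit 0) (nat_lit 34509995828) (nat_lit 2) (nat_lit 5) (nat_lit 4) (nat_lit 4) (nat_lit 2) (nat_lit 4) (nat_lit 425) (nat_lit 253) (nat_lit 210))))) (XT.nd (nat_lit 282) (nat_lit 0) (nat_lit 0) (XT.nd (nat_lit 94) (nat_lit 0) (nat_lit 0) (XT.lf (nat_lit 0) (nat_lit 362620384) (nat_lit 168) (nat_lit 11520182746) (nat_lit 0) (nat_lit 362620384) (nat_lit 5) (nat_lit 5) (nat_lit 7) (nat_lit 4) (nat_lit 5) (nat_lit 4) (nat_lit 380) (nat_lit 254) (nat_lit 254)) (XT.nd (nat_lit 94) (nat_lit 0) (nat_lit 0) (XT.lf (nat_lit 0) (nat_lit 2663995622) (nat_lit 168) (nat_lit 20227873153) (nat_lit 0) (nat_lit 2276237601) (nat_lit 5) (nat_lit 5) (nat_lit 7) (nat_lit 4) (nat_lit 5) (nat_lit 4) (nat_lit 381) (nat_lit 254) (nat_lit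 253)) (XT.lf (nat_lit 0) (nat_lit 4616661035) (nat_lit 168) (nat_lit 17398530197) (nat_lit 0) (nat_lit 3852804061) (nat_lit 5) (nat_lit 5) (nat_lit 7) (nat_lit 4) (nat_lit 5) (nat_lit 4) (nat_lit 382) (nat_lit 254) (nat_lit 252)))) (XT.nd (nat_lit 188) (nat_lit 0) (nat_lit 0) (XT.nd (nat_lit 94) (nat_lit 0) (nat_lit 0) (XT.lf (nat_lit 0) (nat_lit 6585057097) (nat_lit 168) (nat_lit 14549699382) (nat_lit 0) (nat_lit 5456409673) (nat_lit 5) (nat_lit 5) (nat_lit 7) (nat_lit 4) (nat_lit 5) (nat_lit 4) (nat_lit 383) (nat_lit 254) (nat_lit 251)) (XT.lf (nat_lit 0) (nat_lit 8571018558) (nat_lit 168) (nat_lit 11678725298) (nat_lit 0) (nat_lit 7088549166) (nat_lit 5) (nat_lit 5) (nat_lit 7) (nat_lit 4) (nat_lit 5) (nat_lit 4) (nat_lit 384) (nat_lit 254) (nat_lit 250))) (XT.nd (nat_lit 94) (nat_lit 0) (nat_lit 0) (XT.lf (nat_lit 0) (nat_lit 10576396544) (nat_lit 168) (nat_lit 8782931898) (nat_lit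 0) (nat_lit 8750743865) (nat_lit 5) (nat_lit 5) (nat_lit 7) (nat_lit 4) (nat_lit 5) (nat_lit 4) (nat_lit 385) (nat_lit 254) (nat_lit 249)) (XT.lf (nat_lit 0) (nat_lit 12603060275) (nat_lit 168) (nat_lit 5859619997) (nat_lit 0) (nat_lit 10444543109) (nat_lit 5) (nat_lit 5) (nat_lit 7) (nat_lit 4) (nat_lit 5) (nat_lit 4) (nat_lit 386) (nat_lit 254) (nat_lit 248)))))) (XT.nd (nat_lit 564) (nat_lit 84) (nat_lit 0) (XT.nd (nat_lit 282) (nat_lit 0) (nat_lit 0) (XT.nd (nat_lit 94) (nat_lit 84) (nat_lit 0) (XT.lf (nat_lit 0) (nat_lit 14652898816) (nat_lit 168) (nat_lit 2906064764) (nat_lit 0) (nat_lit 12171525697) (nat_lit 5) (nat_lit 5) (nat_lit 7) (nat_lit 4) (nat_lit 5) (nat_lit 4) (nat_lit 387) (nat_lit 254) (nat_lit 247)) (XT.nd (nat_lit 94) (nat_lit 0) (nat_lit 0) (XT.lf (nat_lit 0) (nat_lit 82141797) (nat_lit 84) (nat_lit 16646495889) (nat_lit 84) (nat_lit 13851974416) (nat_lit 4)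 (nat_lit 4) (nat_lit 5) (nat_lit 5) (nat_lit 5) (nat_lit 4) (nat_lit 388) (nat_lit 254) (nat_lit 246)) (XT.lf (nat_lit 0) (nat_lit 3166618859) (nat_lit 84) (nat_lit 15694560756) (nat_lit 84) (nat_lit 12596306640) (nat_lit 4) (nat_lit 4) (nat_lit 5) (nat_lit 5) (nat_lit 5) (nat_lit 4) (nat_lit 389) (nat_lit 254) (nat_lit 245)))) (XT.nd (nat_lit 94) (nat_lit 0) (nat_lit 0) (XT.lf (nat_lit 0) (nat_lit 6290486824) (nat_lit 84) (nat_lit 14732604234) (nat_lit 84) (nat_lit 11339750077) (nat_lit 4) (nat_lit 4) (nat_lit 5) (nat_lit 5) (nat_lit 5) (nat_lit 4) (nat_lit 390) (nat_lit 254) (nat_lit 244)) (XT.nd (nat_lit 94) (nat_lit 0) (nat_lit 0) (XT.lf (nat_lit 0) (nat_lit 9456657464) (nat_lit 84) (nat_lit 13759729678) (nat_lit 84) (nat_lit 10081133484) (nat_lit 4) (nat_lit 4) (nat_lit 5) (nat_lit 5) (nat_lit 5) (nat_lit 4) (nat_lit 391) (nat_lit 254) (nat_lit 243)) (XT.lf (nat_lit 0) (nat_lit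 12668081982) (nat_lit 84) (nat_lit 12775030268) (nat_lit 84) (nat_lit 8819283698) (nat_lit 4) (nat_lit 4) (nat_lit 5) (nat_lit 5) (nat_lit 5) (nat_lit 4) (nat_lit 392) (nat_lit 254) (nat_lit 242))))) (XT.nd (nat_lit 282) (nat_lit 84) (nat_lit 0) (XT.nd (nat_lit 94) (nat_lit 0) (nat_lit 0) (XT.lf (nat_lit 0) (nat_lit 15927753762) (nat_lit 84) (nat_lit 11777588161) (nat_lit 84) (nat_lit 7553024544) (nat_lit 4) (nat_lit 4) (nat_lit 5) (nat_lit 5) (nat_lit 5) (nat_lit 4) (nat_lit 393) (nat_lit 254) (nat_lit 241)) (XT.nd (nat_lit 94) (nat_lit 0) (nat_lit 0) (XT.lf (nat_lit 0) (nat_lit 19238711159) (nat_lit 84) (nat_lit 10766473636) (nat_lit 84) (nat_lit 6281175734) (nat_lit 4) (nat_lit 4) (nat_lit 5) (nat_lit 5) (nat_lit 5) (nat_lit 4) (nat_lit 394) (nat_lit 254) (nat_lit 240)) (XT.lf (nat_lit 0) (nat_lit 22604040334) (nat_lit 84) (nat_lit 9740744229) (nat_lit 84) (nat_lit 5002551773)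 (nat_lit 4) (nat_lit 4) (nat_lit 5) (nat_lit 5) (nat_lit 5) (nat_lit 4) (nat_lit 395) (nat_lit 254) (nat_lit 239)))) (XT.nd (nat_lit 188) (nat_lit 84) (nat_lit 0) (XT.nd (nat_lit 94) (nat_lit 0) (nat_lit 0) (XT.lf (nat_lit 0) (nat_lit 26026878124) (nat_lit 84) (nat_lit 8699443852) (nat_lit 84) (nat_lit 3715960850) (nat_lit 4) (nat_lit 4) (nat_lit 5) (nat_lit 5) (nat_lit 5) (nat_lit 4) (nat_lit 396) (nat_lit 254) (nat_lit 238)) (XT.lf (nat_lit 0) (nat_lit 29510414974) (nat_lit 84) (nat_lit 7641601904) (nat_lit 84) (nat_lit 2420203726) (nat_lit 4) (nat_lit 4) (nat_lit 5) (nat_lit 5) (nat_lit 5) (nat_lit 4) (nat_lit 397) (nat_lit 254) (nat_lit 237))) (XT.nd (nat_lit 94) (nat_lit 84) (nat_lit 0) (XT.lf (nat_lit 0) (nat_lit 33057897905) (nat_lit 84) (nat_lit 6566232366) (nat_lit 84) (nat_lit 1114072621) (nat_lit 4) (nat_lit 4) (nat_lit 5) (nat_lit 5) (nat_lit 5) (nat_lit 4) (nat_lit 398)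 (nat_lit 254) (nat_lit 236)) (XT.lf (nat_lit 0) (nat_lit 199546824) (nat_lit 168) (nat_lit 5270703197) (nat_lit 84) (nat_lit 36471003857) (nat_lit 3) (nat_lit 5) (nat_lit 5) (nat_lit 5) (nat_lit 4) (nat_lit 4) (nat_lit 399) (nat_lit 254) (nat_lit 235))))))) (XT.nd (nat_lit 1222) (nat_lit 0) (nat_lit 0) (XT.nd (nat_lit 564) (nat_lit 0) (nat_lit 0) (XT.nd (nat_lit 282) (nat_lit 0) (nat_lit 0) (XT.nd (nat_lit 94) (nat_lit 84) (nat_lit 0) (XT.lf (nat_lit 0) (nat_lit 1503281590) (nat_lit 168) (nat_lit 2839911053) (nat_lit 84) (nat_lit 38839018430) (nat_lit 3) (nat_lit 5) (nat_lit 5) (nat_lit 5) (nat_lit 4) (nat_lit 4) (nat_lit 400) (nat_lit 254) (nat_lit 234)) (XT.nd (nat_lit 94) (nat_lit 84) (nat_lit 0) (XT.lf (nat_lit 0) (nat_lit 2820792973) (nat_lit 168) (nat_lit 374611065) (nat_lit 84) (nat_lit 41267169744) (nat_lit 3) (nat_lit 5) (nat_lit 5) (nat_lit 5) (nat_lit 4) (nat_lit 4) (nat_lit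 401) (nat_lit 254) (nat_lit 233)) (XT.lf (nat_lit 0) (nat_lit 2171240339) (nat_lit 84) (nat_lit 2003607665) (nat_lit 168) (nat_lit 41608019724) (nat_lit 2) (nat_lit 5) (nat_lit 3) (nat_lit 5) (nat_lit 4) (nat_lit 4) (nat_lit 402) (nat_lit 254) (nat_lit 232)))) (XT.nd (nat_lit 94) (nat_lit 0) (nat_lit 0) (XT.lf (nat_lit 0) (nat_lit 4764737259) (nat_lit 84) (nat_lit 784601335) (nat_lit 168) (nat_lit 41595523449) (nat_lit 2) (nat_lit 5) (nat_lit 3) (nat_lit 5) (nat_lit 4) (nat_lit 4) (nat_lit 403) (nat_lit 254) (nat_lit 231)) (XT.nd (nat_lit 94) (nat_lit 0) (nat_lit 0) (XT.lf (nat_lit 0) (nat_lit 6946305070) (nat_lit 168) (nat_lit 41153901241) (nat_lit 0) (nat_lit 449596399) (nat_lit 2) (nat_lit 5) (nat_lit 4) (nat_lit 4) (nat_lit 2) (nat_lit 4) (nat_lit 404) (nat_lit 254) (nat_lit 230)) (XT.lf (nat_lit 0) (nat_lit 8370530797) (nat_lit 168) (nat_lit 39935295039) (nat_lit 0) (nat_lit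 1693065529) (nat_lit 2) (nat_lit 5) (nat_lit 4) (nat_lit 4) (nat_lit 2) (nat_lit 4) (nat_lit 405) (nat_lit 254) (nat_lit 229))))) (XT.nd (nat_lit 282) (nat_lit 0) (nat_lit 0) (XT.nd (nat_lit 94) (nat_lit 0) (nat_lit 0) (XT.lf (nat_lit 0) (nat_lit 9815559962) (nat_lit 168) (nat_lit 38715386968) (nat_lit 0) (nat_lit 2962773066) (nat_lit 2) (nat_lit 5) (nat_lit 4) (nat_lit 4) (nat_lit 2) (nat_lit 4) (nat_lit 406) (nat_lit 254) (nat_lit 228)) (XT.nd (nat_lit 94) (nat_lit 0) (nat_lit 0) (XT.lf (nat_lit 0) (nat_lit 11282739481) (nat_lit 168) (nat_lit 37493039944) (nat_lit 0) (nat_lit 4259902510) (nat_lit 2) (nat_lit 5) (nat_lit 4) (nat_lit 4) (nat_lit 2) (nat_lit 4) (nat_lit 407) (nat_lit 254) (nat_lit 227)) (XT.lf (nat_lit 0) (nat_lit 12773436920) (nat_lit 168) (nat_lit 36267114613) (nat_lit 0) (nat_lit 5585662923) (nat_lit 2) (nat_lit 5) (nat_lit 4) (nat_lit 4) (nat_lit 2) (nat_lit 4)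 (nat_lit 408) (nat_lit 254) (nat_lit 226)))) (XT.nd (nat_lit 188) (nat_lit 0) (nat_lit 0) (XT.nd (nat_lit 94) (nat_lit 0) (nat_lit 0) (XT.lf (nat_lit 0) (nat_lit 14289041766) (nat_lit 168) (nat_lit 35036468283) (nat_lit 0) (nat_lit 6941290051) (nat_lit 2) (nat_lit 5) (nat_lit 4) (nat_lit 4) (nat_lit 2) (nat_lit 4) (nat_lit 409) (nat_lit 254) (nat_lit 225)) (XT.lf (nat_lit 0) (nat_lit 15830966721) (nat_lit 168) (nat_lit 33799953864) (nat_lit 0) (nat_lit 8328047481) (nat_lit 2) (nat_lit 5) (nat_lit 4) (nat_lit 4) (nat_lit 2) (nat_lit 4) (nat_lit 410) (nat_lit 254) (nat_lit 224))) (XT.nd (nat_lit 94) (nat_lit 0) (nat_lit 0) (XT.lf (nat_lit 0) (nat_lit 17400649020) (nat_lit 168) (nat_lit 32556418793) (nat_lit 0) (nat_lit 9747227816) (nat_lit 2) (nat_lit 5) (nat_lit 4) (nat_lit 4) (nat_lit 2) (nat_lit 4) (nat_lit 411) (nat_lit 254) (nat_lit 223)) (XT.lf (nat_lit 0) (nat_lit 18999551772)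 (nat_lit 168) (nat_lit 31304703968) (nat_lit 0) (nat_lit 11200153882) (nat_lit 2) (nat_lit 5) (nat_lit 4) (nat_lit 4) (nat_lit 2) (nat_lit 4) (nat_lit 412) (nat_lit 254) (nat_lit 222)))))) (XT.nd (nat_lit 564) (nat_lit 0) (nat_lit 0) (XT.nd (nat_lit 282) (nat_lit 0) (nat_lit 0) (XT.nd (nat_lit 94) (nat_lit 0) (nat_lit 0) (XT.lf (nat_lit 0) (nat_lit 20629165321) (nat_lit 168) (nat_lit 30043642657) (nat_lit 0) (nat_lit 12688179956) (nat_lit 2) (nat_lit 5) (nat_lit 4) (nat_lit 4) (nat_lit 2) (nat_lit 4) (nat_lit 413) (nat_lit 254) (nat_lit 221)) (XT.nd (nat_lit 94) (nat_lit 0) (nat_lit 0) (XT.lf (nat_lit 0) (nat_lit 22291008639) (nat_lit 168) (nat_lit 28772059420) (nat_lit 0) (nat_lit 14212693037) (nat_lit 2) (nat_lit 5) (nat_lit 4) (nat_lit 4) (nat_lit 2) (nat_lit 4) (nat_lit 414) (nat_lit 254) (nat_lit 220)) (XT.lf (nat_lit 0) (nat_lit 23986630737) (nat_lit 168) (nat_lit 27488769008)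 (nat_lit 0) (nat_lit 15775114128) (nat_lit 2) (nat_lit 5) (nat_lit 4) (nat_lit 4) (nat_lit 2) (nat_lit 4) (nat_lit 415) (nat_lit 254) (nat_lit 219)))) (XT.nd (nat_lit 94) (nat_lit 0) (nat_lit 0) (XT.lf (nat_lit 0) (nat_lit 25717612112) (nat_lit 168) (nat_lit 26192575260) (nat_lit 0) (nat_lit 17376899571) (nat_lit 2) (nat_lit 5) (nat_lit 4) (nat_lit 4) (nat_lit 2) (nat_lit 4) (nat_lit 416) (nat_lit 254) (nat_lit 218)) (XT.nd (nat_lit 94) (nat_lit 0) (nat_lit 0) (XT.lf (nat_lit 0) (nat_lit 27485566221) (nat_lit 168) (nat_lit 24882269987) (nat_lit 0) (nat_lit 19019542398) (nat_lit 2) (nat_lit 5) (nat_lit 4) (nat_lit 4) (nat_lit 2) (nat_lit 4) (nat_lit 417) (nat_lit 254) (nat_lit 217)) (XT.lf (nat_lit 0) (nat_lit 29292140982) (nat_lit 168) (nat_lit 23556631848) (nat_lit 0) (nat_lit 20704573723) (nat_lit 2) (nat_lit 5) (nat_lit 4) (nat_lit 4) (nat_lit 2) (nat_lit 4) (nat_lit 418) (nat_lit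 254) (nat_lit 216))))) (XT.nd (nat_lit 282) (nat_lit 0) (nat_lit 0) (XT.nd (nat_lit 94) (nat_lit 0) (nat_lit 0) (XT.lf (nat_lit 0) (nat_lit 31139020311) (nat_lit 168) (nat_lit 22214425210) (nat_lit 0) (nat_lit 22433564172) (nat_lit 2) (nat_lit 5) (nat_lit 4) (nat_lit 4) (nat_lit 2) (nat_lit 4) (nat_lit 419) (nat_lit 254) (nat_lit 215)) (XT.nd (nat_lit 94) (nat_lit 0) (nat_lit 0) (XT.lf (nat_lit 0) (nat_lit 33027925695) (nat_lit 168) (nat_lit 20854398994) (nat_lit 0) (nat_lit 24208125345) (nat_lit 2) (nat_lit 5) (nat_lit 4) (nat_lit 4) (nat_lit 2) (nat_lit 4) (nat_lit 420) (nat_lit 254) (nat_lit 214)) (XT.lf (nat_lit 0) (nat_lit 34960617790) (nat_lit 168) (nat_lit 19475285515) (nat_lit 0) (nat_lit 26029911320) (nat_lit 2) (nat_lit 5) (nat_lit 4) (nat_lit 4) (nat_lit 2) (nat_lit 4) (nat_lit 421) (nat_lit 254) (nat_lit 213)))) (XT.nd (nat_lit 188) (nat_lit 0) (nat_lit 0) (XT.nd (nat_lit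 94) (nat_lit 0) (nat_lit 0) (XT.lf (nat_lit 0) (nat_lit 36938898069) (nat_lit 168) (nat_lit 18075799293) (nat_lit 0) (nat_lit 27900620192) (nat_lit 2) (nat_lit 5) (nat_lit 4) (nat_lit 4) (nat_lit 2) (nat_lit 4) (nat_lit 422) (nat_lit 254) (nat_lit 212)) (XT.lf (nat_lit 0) (nat_lit 38964610495) (nat_lit 168) (nat_lit 16654635862) (nat_lit 0) (nat_lit 29821995657) (nat_lit 2) (nat_lit 5) (nat_lit 4) (nat_lit 4) (nat_lit 2) (nat_lit 4) (nat_lit 423) (nat_lit 254) (nat_lit 211))) (XT.nd (nat_lit 94) (nat_lit 0) (nat_lit 0) (XT.lf (nat_lit 0) (nat_lit 41039643244) (nat_lit 168) (nat_lit 15210470547) (nat_lit 0) (nat_lit 31795828638) (nat_lit 2) (nat_lit 5) (nat_lit 4) (nat_lit 4) (nat_lit 2) (nat_lit 4) (nat_lit 424) (nat_lit 254) (nat_lit 210)) (XT.lf (nat_lit 0) (nat_lit 43165930466) (nat_lit 168) (nat_lit 13741957236) (nat_lit 0) (nat_lit 33823958955) (nat_lit 2) (nat_lit 5) (nat_lit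 4) (nat_lit 4) (nat_lit 2) (nat_lit 4) (nat_lit 425) (nat_lit 254) (nat_lit 209))))))))
noncomputable def xc12 : XT := (XT.nd (nat_lit 2350) (nat_lit 0) (nat_lit 0) (XT.nd (nat_lit 1128) (nat_lit 168) (nat_lit 0) (XT.nd (nat_lit 564) (nat_lit 84) (nat_lit 0) (XT.nd (nat_lit 282) (nat_lit 0) (nat_lit 0) (XT.nd (nat_lit 94) (nat_lit 168) (nat_lit 0) (XT.lf (nat_lit 0) (nat_lit 8932234222) (nat_lit 168) (nat_lit 1333264404) (nat_lit 168) (nat_lit 1333264404) (nat_lit 7) (nat_lit 4) (nat_lit 9) (nat_lit 5) (nat_lit 9) (nat_lit 4) (nat_lit 378) (nat_lit 255) (nat_lit 255)) (XT.nd (nat_lit 94) (nat_lit 168) (nat_lit 0) (XT.lf (nat_lit 0) (nat_lit 21851583817) (nat_lit 168) (nat_lit 1197467710) (nat_lit 168) (nat_lit 785296056) (nat_lit 7) (nat_lit 4) (nat_lit 9) (nat_lit 5) (nat_lit 9) (nat_lit 4) (nat_lit 379) (nat_lit 255) (nat_lit 254)) (XT.lf (nat_lit 0) (nat_lit 1101571353) (nat_lit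 168) (nat_lit 23076070605) (nat_lit 0) (nat_lit 314034812) (nat_lit 5) (nat_lit 5) (nat_lit 7) (nat_lit 4) (nat_lit 5) (nat_lit 4) (nat_lit 380) (nat_lit 255) (nat_lit 253)))) (XT.nd (nat_lit 94) (nat_lit 0) (nat_lit 0) (XT.lf (nat_lit 0) (nat_lit 3017583301) (nat_lit 168) (nat_lit 20298209800) (nat_lit 0) (nat_lit 1853947807) (nat_lit 5) (nat_lit 5) (nat_lit 7) (nat_lit 4) (nat_lit 5) (nat_lit 4) (nat_lit 381) (nat_lit 255) (nat_lit 252)) (XT.nd (nat_lit 94) (nat_lit 0) (nat_lit 0) (XT.lf (nat_lit 0) (nat_lit 4948189640) (nat_lit 168) (nat_lit 17502457081) (nat_lit 0) (nat_lit 3419763696) (nat_lit 5) (nat_lit 5) (nat_lit 7) (nat_lit 4) (nat_lit 5) (nat_lit 4) (nat_lit 382) (nat_lit 255) (nat_lit 251)) (XT.lf (nat_lit 0) (nat_lit 6895189898) (nat_lit 168) (nat_lit 14686206516) (nat_lit 0) (nat_lit 5012941986) (nat_lit 5) (nat_lit 5) (nat_lit 7) (nat_lit 4) (nat_lit 5) (nat_lit 4)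 (nat_lit 383) (nat_lit 255) (nat_lit 250))))) (XT.nd (nat_lit 282) (nat_lit 84) (nat_lit 0) (XT.nd (nat_lit 94) (nat_lit 0) (nat_lit 0) (XT.lf (nat_lit 0) (nat_lit 8860398882) (nat_lit 168) (nat_lit 11846833062) (nat_lit 0) (nat_lit 6634967683) (nat_lit 5) (nat_lit 5) (nat_lit 7) (nat_lit 4) (nat_lit 5) (nat_lit 4) (nat_lit 384) (nat_lit 255) (nat_lit 249)) (XT.nd (nat_lit 94) (nat_lit 0) (nat_lit 0) (XT.lf (nat_lit 0) (nat_lit 10845648373) (nat_lit 168) (nat_lit 8981690127) (nat_lit 0) (nat_lit 8287352687) (nat_lit 5) (nat_lit 5) (nat_lit 7) (nat_lit 4) (nat_lit 5) (nat_lit 4) (nat_lit 385) (nat_lit 255) (nat_lit 248)) (XT.lf (nat_lit 0) (nat_lit 12852788832) (nat_lit 168) (nat_lit 6088107098) (nat_lit 0) (nat_lit 9971637193) (nat_lit 5) (nat_lit 5) (nat_lit 7) (nat_lit 4) (nat_lit 5) (nat_lit 4) (nat_lit 386) (nat_lit 255) (nat_lit 247)))) (XT.nd (nat_lit 94) (nat_lit 84) (nat_lit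 0) (XT.lf (nat_lit 0) (nat_lit 14883691124) (nat_lit 168) (nat_lit 3163386851) (nat_lit 0) (nat_lit 11689391131) (nat_lit 5) (nat_lit 5) (nat_lit 7) (nat_lit 4) (nat_lit 5) (nat_lit 4) (nat_lit 387) (nat_lit 255) (nat_lit 246)) (XT.nd (nat_lit 94) (nat_lit 84) (nat_lit 0) (XT.lf (nat_lit 0) (nat_lit 16940248262) (nat_lit 168) (nat_lit 204803241) (nat_lit 0) (nat_lit 13442215627) (nat_lit 5) (nat_lit 5) (nat_lit 7) (nat_lit 4) (nat_lit 5) (nat_lit 4) (nat_lit 388) (nat_lit 255) (nat_lit 245)) (XT.lf (nat_lit 0) (nat_lit 2847777817) (nat_lit 84) (nat_lit 16204849665) (nat_lit 84) (nat_lit 12412216989) (nat_lit 4) (nat_lit 4) (nat_lit 5) (nat_lit 5) (nat_lit 5) (nat_lit 4) (nat_lit 389) (nat_lit 255) (nat_lit 244)))))) (XT.nd (nat_lit 564) (nat_lit 168) (nat_lit 0) (XT.nd (nat_lit 282) (nat_lit 0) (nat_lit 0) (XT.nd (nat_lit 94) (nat_lit 0) (nat_lit 0) (XT.lf (nat_lit 0) (nat_lit 5944793378)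 (nat_lit 84) (nat_lit 15252200193) (nat_lit 84) (nat_lit 11173825480) (nat_lit 4) (nat_lit 4) (nat_lit 5) (nat_lit 5) (nat_lit 5) (nat_lit 4) (nat_lit 390) (nat_lit 255) (nat_lit 243)) (XT.nd (nat_lit 94) (nat_lit 0) (nat_lit 0) (XT.lf (nat_lit 0) (nat_lit 9084919010) (nat_lit 84) (nat_lit 14288352844) (nat_lit 84) (nat_lit 9932827755) (nat_lit 4) (nat_lit 4) (nat_lit 5) (nat_lit 5) (nat_lit 5) (nat_lit 4) (nat_lit 391) (nat_lit 255) (nat_lit 242)) (XT.lf (nat_lit 0) (nat_lit 12271081638) (nat_lit 84) (nat_lit 13312409212) (nat_lit 84) (nat_lit 8688067075) (nat_lit 4) (nat_lit 4) (nat_lit 5) (nat_lit 5) (nat_lit 5) (nat_lit 4) (nat_lit 392) (nat_lit 255) (nat_lit 241)))) (XT.nd (nat_lit 94) (nat_lit 0) (nat_lit 0) (XT.lf (nat_lit 0) (nat_lit 15506251100) (nat_lit 84) (nat_lit 12323459615) (nat_lit 84) (nat_lit 7438383193) (nat_lit 4) (nat_lit 4) (nat_lit 5) (nat_lit 5) (nat_lit 5)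 (nat_lit 4) (nat_lit 393) (nat_lit 255) (nat_lit 240)) (XT.nd (nat_lit 94) (nat_lit 0) (nat_lit 0) (XT.lf (nat_lit 0) (nat_lit 18793442913) (nat_lit 84) (nat_lit 11320582248) (nat_lit 84) (nat_lit 6182611273) (nat_lit 4) (nat_lit 4) (nat_lit 5) (nat_lit 5) (nat_lit 5) (nat_lit 4) (nat_lit 394) (nat_lit 255) (nat_lit 239)) (XT.lf (nat_lit 0) (nat_lit 22135721084) (nat_lit 84) (nat_lit 10302842325) (nat_lit 84) (nat_lit 4919580803) (nat_lit 4) (nat_lit 4) (nat_lit 5) (nat_lit 5) (nat_lit 5) (nat_lit 4) (nat_lit 395) (nat_lit 255) (nat_lit 238))))) (XT.nd (nat_lit 282) (nat_lit 168) (nat_lit 0) (XT.nd (nat_lit 94) (nat_lit 0) (nat_lit 0) (XT.lf (nat_lit 0) (nat_lit 25536200966) (nat_lit 84) (nat_lit 9269291205) (nat_lit 84) (nat_lit 3648114507) (nat_lit 4) (nat_lit 4) (nat_lit 5) (nat_lit 5) (nat_lit 5) (nat_lit 4) (nat_lit 396) (nat_lit 255) (nat_lit 237)) (XT.nd (nat_lit 94) (nat_lit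 0) (nat_lit 0) (XT.lf (nat_lit 0) (nat_lit 28998052163) (nat_lit 84) (nat_lit 8218965510) (nat_lit 84) (nat_lit 2367027245) (nat_lit 4) (nat_lit 4) (nat_lit 5) (nat_lit 5) (nat_lit 5) (nat_lit 4) (nat_lit 397) (nat_lit 255) (nat_lit 236)) (XT.lf (nat_lit 0) (nat_lit 32524501482) (nat_lit 84) (nat_lit 7150886228) (nat_lit 84) (nat_lit 1075124909) (nat_lit 4) (nat_lit 4) (nat_lit 5) (nat_lit 5) (nat_lit 5) (nat_lit 4) (nat_lit 398) (nat_lit 255) (nat_lit 235)))) (XT.nd (nat_lit 188) (nat_lit 84) (nat_lit 0) (XT.nd (nat_lit 94) (nat_lit 0) (nat_lit 0) (XT.lf (nat_lit 0) (nat_lit 224186944) (nat_lit 168) (nat_lit 5837530799) (nat_lit 84) (nat_lit 35892308948) (nat_lit 3) (nat_lit 5) (nat_lit 5) (nat_lit 5) (nat_lit 4) (nat_lit 4) (nat_lit 399) (nat_lit 255) (nat_lit 234)) (XT.lf (nat_lit 0) (nat_lit 1514805431) (nat_lit 168) (nat_lit 3426850281) (nat_lit 84) (nat_lit 38253788951) (nat_lit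 3) (nat_lit 5) (nat_lit 5) (nat_lit 5) (nat_lit 4) (nat_lit 4) (nat_lit 400) (nat_lit 255) (nat_lit 233))) (XT.nd (nat_lit 94) (nat_lit 84) (nat_lit 0) (XT.lf (nat_lit 0) (nat_lit 2819594915) (nat_lit 168) (nat_lit 981057205) (nat_lit 84) (nat_lit 40675602177) (nat_lit 3) (nat_lit 5) (nat_lit 5) (nat_lit 5) (nat_lit 4) (nat_lit 4) (nat_lit 401) (nat_lit 255) (nat_lit 232)) (XT.lf (nat_lit 0) (nat_lit 1533015001) (nat_lit 84) (nat_lit 2621964293) (nat_lit 168) (nat_lit 41642198705) (nat_lit 2) (nat_lit 5) (nat_lit 3) (nat_lit 5) (nat_lit 4) (nat_lit 4) (nat_lit 402) (nat_lit 255) (nat_lit 231))))))) (XT.nd (nat_lit 1222) (nat_lit 0) (nat_lit 0) (XT.nd (nat_lit 564) (nat_lit 0) (nat_lit 0) (XT.nd (nat_lit 282) (nat_lit 0) (nat_lit 0) (XT.nd (nat_lit 94) (nat_lit 0) (nat_lit 0) (XT.lf (nat_lit 0) (nat_lit 4107783093) (nat_lit 84) (nat_lit 1409532639) (nat_lit 168) (nat_lit 41642282792)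 (nat_lit 2) (nat_lit 5) (nat_lit 3) (nat_lit 5) (nat_lit 4) (nat_lit 4) (nat_lit 403) (nat_lit 255) (nat_lit 230)) (XT.nd (nat_lit 94) (nat_lit 0) (nat_lit 0) (XT.lf (nat_lit 0) (nat_lit 6725474476) (nat_lit 84) (nat_lit 172467270) (nat_lit 168) (nat_lit 41667151946) (nat_lit 2) (nat_lit 5) (nat_lit 3) (nat_lit 5) (nat_lit 4) (nat_lit 4) (nat_lit 404) (nat_lit 255) (nat_lit 229)) (XT.lf (nat_lit 0) (nat_lit 8308960979) (nat_lit 168) (nat_lit 40637261213) (nat_lit 0) (nat_lit 1068416062) (nat_lit 2) (nat_lit 5) (nat_lit 4) (nat_lit 4) (nat_lit 2) (nat_lit 4) (nat_lit 405) (nat_lit 255) (nat_lit 228)))) (XT.nd (nat_lit 94) (nat_lit 0) (nat_lit 0) (XT.lf (nat_lit 0) (nat_lit 9742840193) (nat_lit 168) (nat_lit 39434772245) (nat_lit 0) (nat_lit 2332245201) (nat_lit 2) (nat_lit 5) (nat_lit 4) (nat_lit 4) (nat_lit 2) (nat_lit 4) (nat_lit 406) (nat_lit 255) (nat_lit 227)) (XT.nd (nat_lit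 94) (nat_lit 0) (nat_lit 0) (XT.lf (nat_lit 0) (nat_lit 11199205017) (nat_lit 168) (nat_lit 38229320568) (nat_lit 0) (nat_lit 3623672999) (nat_lit 2) (nat_lit 5) (nat_lit 4) (nat_lit 4) (nat_lit 2) (nat_lit 4) (nat_lit 407) (nat_lit 255) (nat_lit 226)) (XT.lf (nat_lit 0) (nat_lit 12679412937) (nat_lit 168) (nat_lit 37019782576) (nat_lit 0) (nat_lit 4943903201) (nat_lit 2) (nat_lit 5) (nat_lit 4) (nat_lit 4) (nat_lit 2) (nat_lit 4) (nat_lit 408) (nat_lit 255) (nat_lit 225))))) (XT.nd (nat_lit 282) (nat_lit 0) (nat_lit 0) (XT.nd (nat_lit 94) (nat_lit 0) (nat_lit 0) (XT.lf (nat_lit 0) (nat_lit 14184843661) (nat_lit 168) (nat_lit 35805030853) (nat_lit 0) (nat_lit 6294166400) (nat_lit 2) (nat_lit 5) (nat_lit 4) (nat_lit 4) (nat_lit 2) (nat_lit 4) (nat_lit 409) (nat_lit 255) (nat_lit 224)) (XT.nd (nat_lit 94) (nat_lit 0) (nat_lit 0) (XT.lf (nat_lit 0) (nat_lit 15716900409) (nat_lit 168)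 (nat_lit 34583933123) (nat_lit 0) (nat_lit 7675721184) (nat_lit 2) (nat_lit 5) (nat_lit 4) (nat_lit 4) (nat_lit 2) (nat_lit 4) (nat_lit 410) (nat_lit 255) (nat_lit 223)) (XT.lf (nat_lit 0) (nat_lit 17277011216) (nat_lit 168) (nat_lit 33355351195) (nat_lit 0) (nat_lit 9089855305) (nat_lit 2) (nat_lit 5) (nat_lit 4) (nat_lit 4) (nat_lit 2) (nat_lit 4) (nat_lit 411) (nat_lit 255) (nat_lit 222)))) (XT.nd (nat_lit 188) (nat_lit 0) (nat_lit 0) (XT.nd (nat_lit 94) (nat_lit 0) (nat_lit 0) (XT.lf (nat_lit 0) (nat_lit 18866630272) (nat_lit 168) (nat_lit 32118139902) (nat_lit 0) (nat_lit 10537886886) (nat_lit 2) (nat_lit 5) (nat_lit 4) (nat_lit 4) (nat_lit 2) (nat_lit 4) (nat_lit 412) (nat_lit 255) (nat_lit 221)) (XT.lf (nat_lit 0) (nat_lit 20487239266) (nat_lit 168) (nat_lit 30871146033) (nat_lit 0) (nat_lit 12021165643) (nat_lit 2) (nat_lit 5) (nat_lit 4) (nat_lit 4) (nat_lit 2) (nat_lit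 4) (nat_lit 413) (nat_lit 255) (nat_lit 220))) (XT.nd (nat_lit 94) (nat_lit 0) (nat_lit 0) (XT.lf (nat_lit 0) (nat_lit 22140348776) (nat_lit 168) (nat_lit 29613207260) (nat_lit 0) (nat_lit 13541074147) (nat_lit 2) (nat_lit 5) (nat_lit 4) (nat_lit 4) (nat_lit 2) (nat_lit 4) (nat_lit 414) (nat_lit 255) (nat_lit 219)) (XT.lf (nat_lit 0) (nat_lit 23827499674) (nat_lit 168) (nat_lit 28343151051) (nat_lit 0) (nat_lit 15099029112) (nat_lit 2) (nat_lit 5) (nat_lit 4) (nat_lit 4) (nat_lit 2) (nat_lit 4) (nat_lit 415) (nat_lit 255) (nat_lit 218)))))) (XT.nd (nat_lit 564) (nat_lit 0) (nat_lit 0) (XT.nd (nat_lit 282) (nat_lit 0) (nat_lit 0) (XT.nd (nat_lit 94) (nat_lit 0) (nat_lit 0) (XT.lf (nat_lit 0) (nat_lit 25550264560) (nat_lit 168) (nat_lit 27059793581) (nat_lit 0) (nat_lit 16696482716) (nat_lit 2) (nat_lit 5) (nat_lit 4) (nat_lit 4) (nat_lit 2) (nat_lit 4) (nat_lit 416) (nat_lit 255)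 (nat_lit 217)) (XT.nd (nat_lit 94) (nat_lit 0) (nat_lit 0) (XT.lf (nat_lit 0) (nat_lit 27310249232) (nat_lit 168) (nat_lit 25761938627) (nat_lit 0) (nat_lit 18334923953) (nat_lit 2) (nat_lit 5) (nat_lit 4) (nat_lit 4) (nat_lit 2) (nat_lit 4) (nat_lit 417) (nat_lit 255) (nat_lit 216)) (XT.lf (nat_lit 0) (nat_lit 29109094181) (nat_lit 168) (nat_lit 24448376452) (nat_lit 0) (nat_lit 20015880021) (nat_lit 2) (nat_lit 5) (nat_lit 4) (nat_lit 4) (nat_lit 2) (nat_lit 4) (nat_lit 418) (nat_lit 255) (nat_lit 215)))) (XT.nd (nat_lit 94) (nat_lit 0) (nat_lit 0) (XT.lf (nat_lit 0) (nat_lit 30948476118) (nat_lit 168) (nat_lit 23117882679) (nat_lit 0) (nat_lit 21740917747) (nat_lit 2) (nat_lit 5) (nat_lit 4) (nat_lit 4) (nat_lit 2) (nat_lit 4) (nat_lit 419) (nat_lit 255) (nat_lit 214)) (XT.nd (nat_lit 94) (nat_lit 0) (nat_lit 0) (XT.lf (nat_lit 0) (nat_lit 32830109539) (nat_lit 168) (nat_lit 21769217147)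 (nat_lit 0) (nat_lit 23511645048) (nat_lit 2) (nat_lit 5) (nat_lit 4) (nat_lit 4) (nat_lit 2) (nat_lit 4) (nat_lit 420) (nat_lit 255) (nat_lit 213)) (XT.lf (nat_lit 0) (nat_lit 34755748325) (nat_lit 168) (nat_lit 20401122759) (nat_lit 0) (nat_lit 25329712427) (nat_lit 2) (nat_lit 5) (nat_lit 4) (nat_lit 4) (nat_lit 2) (nat_lit 4) (nat_lit 421) (nat_lit 255) (nat_lit 212))))) (XT.nd (nat_lit 282) (nat_lit 0) (nat_lit 0) (XT.nd (nat_lit 94) (nat_lit 0) (nat_lit 0) (XT.lf (nat_lit 0) (nat_lit 36727187372) (nat_lit 168) (nat_lit 19012324309) (nat_lit 0) (nat_lit 27196814513) (nat_lit 2) (nat_lit 5) (nat_lit 4) (nat_lit 4) (nat_lit 2) (nat_lit 4) (nat_lit 422) (nat_lit 255) (nat_lit 211)) (XT.nd (nat_lit 94) (nat_lit 0) (nat_lit 0) (XT.lf (nat_lit 0) (nat_lit 38746264268) (nat_lit 168) (nat_lit 17601527290) (nat_lit 0) (nat_lit 29114691641) (nat_lit 2) (nat_lit 5) (nat_lit 4) (nat_lit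 4) (nat_lit 2) (nat_lit 4) (nat_lit 423) (nat_lit 255) (nat_lit 210)) (XT.lf (nat_lit 0) (nat_lit 40814861004) (nat_lit 168) (nat_lit 16167416691) (nat_lit 0) (nat_lit 31085131473) (nat_lit 2) (nat_lit 5) (nat_lit 4) (nat_lit 4) (nat_lit 2) (nat_lit 4) (nat_lit 424) (nat_lit 255) (nat_lit 209)))) (XT.nd (nat_lit 51136) (nat_lit 0) (nat_lit 420) (XT.nd (nat_lit 94) (nat_lit 0) (nat_lit 0) (XT.lf (nat_lit 0) (nat_lit 42934905729) (nat_lit 168) (nat_lit 14708655772) (nat_lit 0) (nat_lit 33109970665) (nat_lit 2) (nat_lit 5) (nat_lit 4) (nat_lit 4) (nat_lit 2) (nat_lit 4) (nat_lit 425) (nat_lit 255) (nat_lit 208)) (XT.lf (nat_lit 0) (nat_lit 45108374547) (nat_lit 168) (nat_lit 13223884814) (nat_lit 0) (nat_lit 35191096580) (nat_lit 2) (nat_lit 5) (nat_lit 4) (nat_lit 4) (nat_lit 2) (nat_lit 4) (nat_lit 426) (nat_lit 255) (nat_lit 207))) (XT.nd (nat_lit 94) (nat_lit 0) (nat_lit 0) (XT.lf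 (nat_lit 0) (nat_lit 5038319206) (nat_lit 168) (nat_lit 2977044805) (nat_lit 168) (nat_lit 2977044805) (nat_lit 7) (nat_lit 4) (nat_lit 9) (nat_lit 5) (nat_lit 9) (nat_lit 4) (nat_lit 376) (nat_lit 256) (nat_lit 256)) (XT.lf (nat_lit 0) (nat_lit 13928763876) (nat_lit 168) (nat_lit 4538839467) (nat_lit 168) (nat_lit 4113890492) (nat_lit 7) (nat_lit 4) (nat_lit 9) (nat_lit 5) (nat_lit 9) (nat_lit 4) (nat_lit 377) (nat_lit 256) (nat_lit 255))))))))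
noncomputable def xc13 : XT := (XT.nd (nat_lit 2350) (nat_lit 0) (nat_lit 0) (XT.nd (nat_lit 1128) (nat_lit 168) (nat_lit 0) (XT.nd (nat_lit 564) (nat_lit 84) (nat_lit 0) (XT.nd (nat_lit 282) (nat_lit 0) (nat_lit 0) (XT.nd (nat_lit 94) (nat_lit 168) (nat_lit 0) (XT.lf (nat_lit 0) (nat_lit 17829709194) (nat_lit 168) (nat_lit 3102885364) (nat_lit 168) (nat_lit 2265764735) (nat_lit 7) (nat_lit 4) (nat_lit 9) (nat_lit 5) (nat_lit 9) (nat_lit 4) (nat_lit 378) (nat_lit 256) (nat_lit 254)) (XT.nd (nat_lit 94) (nat_lit 168) (nat_lit 0) (XT.lf (nat_lit 0) (nat_lit 21783110455) (nat_lit 168) (nat_lit 1644888843) (nat_lit 168) (nat_lit 407989694) (nat_lit 7) (nat_lit 4) (nat_lit 9) (nat_lit 5) (nat_lit 9) (nat_lit 4) (nat_lit 379) (nat_lit 256) (nat_lit 253)) (XT.lf (nat_lit 0) (nat_lit 1309565246) (nat_lit 84) (nat_lit 135152831) (nat_lit 168) (nat_lit 23049407124) (nat_lit 5) (nat_lit 5)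 (nat_lit 6) (nat_lit 5) (nat_lit 7) (nat_lit 4) (nat_lit 380) (nat_lit 256) (nat_lit 252)))) (XT.nd (nat_lit 94) (nat_lit 0) (nat_lit 0) (XT.lf (nat_lit 0) (nat_lit 3337330218) (nat_lit 168) (nat_lit 20438948655) (nat_lit 0) (nat_lit 1396732621) (nat_lit 5) (nat_lit 5) (nat_lit 7) (nat_lit 4) (nat_lit 5) (nat_lit 4) (nat_lit 381) (nat_lit 256) (nat_lit 251)) (XT.nd (nat_lit 94) (nat_lit 0) (nat_lit 0) (XT.lf (nat_lit 0) (nat_lit 5246540753) (nat_lit 168) (nat_lit 17675776186) (nat_lit 0) (nat_lit 2952121188) (nat_lit 5) (nat_lit 5) (nat_lit 7) (nat_lit 4) (nat_lit 5) (nat_lit 4) (nat_lit 382) (nat_lit 256) (nat_lit 250)) (XT.lf (nat_lit 0) (nat_lit 7172788534) (nat_lit 168) (nat_lit 14891126250) (nat_lit 0) (nat_lit 4535185681) (nat_lit 5) (nat_lit 5) (nat_lit 7) (nat_lit 4) (nat_lit 5) (nat_lit 4) (nat_lit 383) (nat_lit 256) (nat_lit 249))))) (XT.nd (nat_lit 282) (nat_lit 84) (nat_lit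 0) (XT.nd (nat_lit 94) (nat_lit 0) (nat_lit 0) (XT.lf (nat_lit 0) (nat_lit 9117869024) (nat_lit 168) (nat_lit 12082403263) (nat_lit 0) (nat_lit 6147401684) (nat_lit 5) (nat_lit 5) (nat_lit 7) (nat_lit 4) (nat_lit 5) (nat_lit 4) (nat_lit 384) (nat_lit 256) (nat_lit 248)) (XT.nd (nat_lit 94) (nat_lit 0) (nat_lit 0) (XT.lf (nat_lit 0) (nat_lit 11083595243) (nat_lit 168) (nat_lit 9246989198) (nat_lit 0) (nat_lit 7790271950) (nat_lit 5) (nat_lit 5) (nat_lit 7) (nat_lit 4) (nat_lit 5) (nat_lit 4) (nat_lit 385) (nat_lit 256) (nat_lit 247)) (XT.lf (nat_lit 0) (nat_lit 13071799453) (nat_lit 168) (nat_lit 6382241155) (nat_lit 0) (nat_lit 9465327806) (nat_lit 5) (nat_lit 5) (nat_lit 7) (nat_lit 4) (nat_lit 5) (nat_lit 4) (nat_lit 386) (nat_lit 256) (nat_lit 246)))) (XT.nd (nat_lit 94) (nat_lit 84) (nat_lit 0) (XT.lf (nat_lit 0) (nat_lit 15084334869) (nat_lit 168) (nat_lit 3485488887) (nat_lit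 0) (nat_lit 11174130580) (nat_lit 5) (nat_lit 5) (nat_lit 7) (nat_lit 4) (nat_lit 5) (nat_lit 4) (nat_lit 387) (nat_lit 256) (nat_lit 245)) (XT.nd (nat_lit 94) (nat_lit 84) (nat_lit 0) (XT.lf (nat_lit 0) (nat_lit 17123077385) (nat_lit 168) (nat_lit 554032317) (nat_lit 0) (nat_lit 12918273056) (nat_lit 5) (nat_lit 5) (nat_lit 7) (nat_lit 4) (nat_lit 5) (nat_lit 4) (nat_lit 388) (nat_lit 256) (nat_lit 244)) (XT.lf (nat_lit 0) (nat_lit 2464515471) (nat_lit 84) (nat_lit 16749860150) (nat_lit 84) (nat_lit 12259313783) (nat_lit 4) (nat_lit 4) (nat_lit 5) (nat_lit 5) (nat_lit 5) (nat_lit 4) (nat_lit 389) (nat_lit 256) (nat_lit 243)))))) (XT.nd (nat_lit 564) (nat_lit 168) (nat_lit 0) (XT.nd (nat_lit 282) (nat_lit 0) (nat_lit 0) (XT.nd (nat_lit 94) (nat_lit 0) (nat_lit 0) (XT.lf (nat_lit 0) (nat_lit 5535486024) (nat_lit 84) (nat_lit 15806237884) (nat_lit 84) (nat_lit 11038541141) (nat_lit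 4) (nat_lit 4) (nat_lit 5) (nat_lit 5) (nat_lit 5) (nat_lit 4) (nat_lit 390) (nat_lit 256) (nat_lit 242)) (XT.nd (nat_lit 94) (nat_lit 0) (nat_lit 0) (XT.lf (nat_lit 0) (nat_lit 8650349766) (nat_lit 84) (nat_lit 14851146313) (nat_lit 84) (nat_lit 9814632523) (nat_lit 4) (nat_lit 4) (nat_lit 5) (nat_lit 5) (nat_lit 5) (nat_lit 4) (nat_lit 391) (nat_lit 256) (nat_lit 241)) (XT.lf (nat_lit 0) (nat_lit 11812010076) (nat_lit 84) (nat_lit 13883695191) (nat_lit 84) (nat_lit 8586447116) (nat_lit 4) (nat_lit 4) (nat_lit 5) (nat_lit 5) (nat_lit 5) (nat_lit 4) (nat_lit 392) (nat_lit 256) (nat_lit 240)))) (XT.nd (nat_lit 94) (nat_lit 0) (nat_lit 0) (XT.lf (nat_lit 0) (nat_lit 15023413954) (nat_lit 84) (nat_lit 12902982752) (nat_lit 84) (nat_lit 7352840123) (nat_lit 4) (nat_lit 4) (nat_lit 5) (nat_lit 5) (nat_lit 5) (nat_lit 4) (nat_lit 393) (nat_lit 256) (nat_lit 239)) (XT.nd (nat_lit 94) (nat_lit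 0) (nat_lit 0) (XT.lf (nat_lit 0) (nat_lit 18287554763) (nat_lit 84) (nat_lit 11908094869) (nat_lit 84) (nat_lit 6112661693) (nat_lit 4) (nat_lit 4) (nat_lit 5) (nat_lit 5) (nat_lit 5) (nat_lit 4) (nat_lit 394) (nat_lit 256) (nat_lit 238)) (XT.lf (nat_lit 0) (nat_lit 21607475025) (nat_lit 84) (nat_lit 10898104202) (nat_lit 84) (nat_lit 4864755851) (nat_lit 4) (nat_lit 4) (nat_lit 5) (nat_lit 5) (nat_lit 5) (nat_lit 4) (nat_lit 395) (nat_lit 256) (nat_lit 237))))) (XT.nd (nat_lit 282) (nat_lit 168) (nat_lit 0) (XT.nd (nat_lit 94) (nat_lit 0) (nat_lit 0) (XT.lf (nat_lit 0) (nat_lit 24986269254) (nat_lit 84) (nat_lit 9872069336) (nat_lit 84) (nat_lit 3607959417) (nat_lit 4) (nat_lit 4) (nat_lit 5) (nat_lit 5) (nat_lit 5) (nat_lit 4) (nat_lit 396) (nat_lit 256) (nat_lit 236)) (XT.nd (nat_lit 94) (nat_lit 0) (nat_lit 0) (XT.lf (nat_lit 0) (nat_lit 28427086839) (nat_lit 84) (nat_lit 8829033896)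 (nat_lit 84) (nat_lit 2341100924) (nat_lit 4) (nat_lit 4) (nat_lit 5) (nat_lit 5) (nat_lit 5) (nat_lit 4) (nat_lit 397) (nat_lit 256) (nat_lit 235)) (XT.lf (nat_lit 0) (nat_lit 31933134984) (nat_lit 84) (nat_lit 7768025666) (nat_lit 84) (nat_lit 1062999530) (nat_lit 4) (nat_lit 4) (nat_lit 5) (nat_lit 5) (nat_lit 5) (nat_lit 4) (nat_lit 398) (nat_lit 256) (nat_lit 234)))) (XT.nd (nat_lit 188) (nat_lit 84) (nat_lit 0) (XT.nd (nat_lit 94) (nat_lit 0) (nat_lit 0) (XT.lf (nat_lit 0) (nat_lit 222951746) (nat_lit 168) (nat_lit 6462776769) (nat_lit 84) (nat_lit 35282402786) (nat_lit 3) (nat_lit 5) (nat_lit 5) (nat_lit 5) (nat_lit 4) (nat_lit 4) (nat_lit 399) (nat_lit 256) (nat_lit 233)) (XT.lf (nat_lit 0) (nat_lit 1500848334) (nat_lit 168) (nat_lit 4071603163) (nat_lit 84) (nat_lit 37637544701) (nat_lit 3) (nat_lit 5) (nat_lit 5) (nat_lit 5) (nat_lit 4) (nat_lit 4) (nat_lit 400) (nat_lit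 256) (nat_lit 232))) (XT.nd (nat_lit 94) (nat_lit 84) (nat_lit 0) (XT.lf (nat_lit 0) (nat_lit 2793298440) (nat_lit 168) (nat_lit 1644730466) (nat_lit 84) (nat_lit 40053210410) (nat_lit 3) (nat_lit 5) (nat_lit 5) (nat_lit 5) (nat_lit 4) (nat_lit 4) (nat_lit 401) (nat_lit 256) (nat_lit 231)) (XT.lf (nat_lit 0) (nat_lit 836966427) (nat_lit 84) (nat_lit 3272843144) (nat_lit 168) (nat_lit 41702987951) (nat_lit 2) (nat_lit 5) (nat_lit 3) (nat_lit 5) (nat_lit 4) (nat_lit 4) (nat_lit 402) (nat_lit 256) (nat_lit 230))))))) (XT.nd (nat_lit 1222) (nat_lit 0) (nat_lit 0) (XT.nd (nat_lit 564) (nat_lit 0) (nat_lit 0) (XT.nd (nat_lit 282) (nat_lit 0) (nat_lit 0) (XT.nd (nat_lit 94) (nat_lit 0) (nat_lit 0) (XT.lf (nat_lit 0) (nat_lit 3393568828) (nat_lit 84) (nat_lit 2066788480) (nat_lit 168) (nat_lit 41715274135) (nat_lit 2) (nat_lit 5) (nat_lit 3) (nat_lit 5) (nat_lit 4) (nat_lit 4) (nat_lit 403)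 (nat_lit 256) (nat_lit 229)) (XT.nd (nat_lit 94) (nat_lit 0) (nat_lit 0) (XT.lf (nat_lit 0) (nat_lit 5993640724) (nat_lit 84) (nat_lit 835908358) (nat_lit 168) (nat_lit 41751978496) (nat_lit 2) (nat_lit 5) (nat_lit 3) (nat_lit 5) (nat_lit 4) (nat_lit 4) (nat_lit 404) (nat_lit 256) (nat_lit 228)) (XT.lf (nat_lit 0) (nat_lit 8222836947) (nat_lit 168) (nat_lit 41396366536) (nat_lit 0) (nat_lit 412463435) (nat_lit 2) (nat_lit 5) (nat_lit 4) (nat_lit 4) (nat_lit 2) (nat_lit 4) (nat_lit 405) (nat_lit 256) (nat_lit 227)))) (XT.nd (nat_lit 94) (nat_lit 0) (nat_lit 0) (XT.lf (nat_lit 0) (nat_lit 9645901466) (nat_lit 168) (nat_lit 40210772915) (nat_lit 0) (nat_lit 1670590927) (nat_lit 2) (nat_lit 5) (nat_lit 4) (nat_lit 4) (nat_lit 2) (nat_lit 4) (nat_lit 406) (nat_lit 256) (nat_lit 226)) (XT.nd (nat_lit 94) (nat_lit 0) (nat_lit 0) (XT.lf (nat_lit 0) (nat_lit 11091776771) (nat_lit 168) (nat_lit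 39021708578) (nat_lit 0) (nat_lit 2956488515) (nat_lit 2) (nat_lit 5) (nat_lit 4) (nat_lit 4) (nat_lit 2) (nat_lit 4) (nat_lit 407) (nat_lit 256) (nat_lit 225)) (XT.lf (nat_lit 0) (nat_lit 12561810569) (nat_lit 168) (nat_lit 37828065193) (nat_lit 0) (nat_lit 4271354788) (nat_lit 2) (nat_lit 5) (nat_lit 4) (nat_lit 4) (nat_lit 2) (nat_lit 4) (nat_lit 408) (nat_lit 256) (nat_lit 224))))) (XT.nd (nat_lit 282) (nat_lit 0) (nat_lit 0) (XT.nd (nat_lit 94) (nat_lit 0) (nat_lit 0) (XT.lf (nat_lit 0) (nat_lit 14057373086) (nat_lit 168) (nat_lit 36628730160) (nat_lit 0) (nat_lit 5616415341) (nat_lit 2) (nat_lit 5) (nat_lit 4) (nat_lit 4) (nat_lit 2) (nat_lit 4) (nat_lit 409) (nat_lit 256) (nat_lit 223)) (XT.nd (nat_lit 94) (nat_lit 0) (nat_lit 0) (XT.lf (nat_lit 0) (nat_lit 15579858342) (nat_lit 168) (nat_lit 35422585572) (nat_lit 0) (nat_lit 6992923911) (nat_lit 2) (nat_lit 5) (nat_lit 4)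 (nat_lit 4) (nat_lit 2) (nat_lit 4) (nat_lit 410) (nat_lit 256) (nat_lit 222)) (XT.lf (nat_lit 0) (nat_lit 17130685453) (nat_lit 168) (nat_lit 34208507176) (nat_lit 0) (nat_lit 8402163548) (nat_lit 2) (nat_lit 5) (nat_lit 4) (nat_lit 4) (nat_lit 2) (nat_lit 4) (nat_lit 411) (nat_lit 256) (nat_lit 221)))) (XT.nd (nat_lit 188) (nat_lit 0) (nat_lit 0) (XT.nd (nat_lit 94) (nat_lit 0) (nat_lit 0) (XT.lf (nat_lit 0) (nat_lit 18711299953) (nat_lit 168) (nat_lit 32985363325) (nat_lit 0) (nat_lit 9845447810) (nat_lit 2) (nat_lit 5) (nat_lit 4) (nat_lit 4) (nat_lit 2) (nat_lit 4) (nat_lit 412) (nat_lit 256) (nat_lit 220)) (XT.lf (nat_lit 0) (nat_lit 20323175140) (nat_lit 168) (nat_lit 31752013919) (nat_lit 0) (nat_lit 11324121991) (nat_lit 2) (nat_lit 5) (nat_lit 4) (nat_lit 4) (nat_lit 2) (nat_lit 4) (nat_lit 413) (nat_lit 256) (nat_lit 219))) (XT.nd (nat_lit 94) (nat_lit 0) (nat_lit 0) (XT.lf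 (nat_lit 0) (nat_lit 21967813450) (nat_lit 168) (nat_lit 30507309349) (nat_lit 0) (nat_lit 12839564369) (nat_lit 2) (nat_lit 5) (nat_lit 4) (nat_lit 4) (nat_lit 2) (nat_lit 4) (nat_lit 414) (nat_lit 256) (nat_lit 218)) (XT.lf (nat_lit 0) (nat_lit 23646747859) (nat_lit 168) (nat_lit 29250089419) (nat_lit 0) (nat_lit 14393187495) (nat_lit 2) (nat_lit 5) (nat_lit 4) (nat_lit 4) (nat_lit 2) (nat_lit 4) (nat_lit 415) (nat_lit 256) (nat_lit 217)))))) (XT.nd (nat_lit 564) (nat_lit 0) (nat_lit 0) (XT.nd (nat_lit 282) (nat_lit 0) (nat_lit 0) (XT.nd (nat_lit 94) (nat_lit 0) (nat_lit 0) (XT.lf (nat_lit 0) (nat_lit 25361543309) (nat_lit 168) (nat_lit 27979182268) (nat_lit 0) (nat_lit 15986439509) (nat_lit 2) (nat_lit 5) (nat_lit 4) (nat_lit 4) (nat_lit 2) (nat_lit 4) (nat_lit 416) (nat_lit 256) (nat_lit 216)) (XT.nd (nat_lit 94) (nat_lit 0) (nat_lit 0) (XT.lf (nat_lit 0) (nat_lit 27113798169)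 (nat_lit 168) (nat_lit 26693403278) (nat_lit 0) (nat_lit 17620805489) (nat_lit 2) (nat_lit 5) (nat_lit 4) (nat_lit 4) (nat_lit 2) (nat_lit 4) (nat_lit 417) (nat_lit 256) (nat_lit 215)) (XT.lf (nat_lit 0) (nat_lit 28905145724) (nat_lit 168) (nat_lit 25391553968) (nat_lit 0) (nat_lit 19297808834) (nat_lit 2) (nat_lit 5) (nat_lit 4) (nat_lit 4) (nat_lit 2) (nat_lit 4) (nat_lit 418) (nat_lit 256) (nat_lit 214)))) (XT.nd (nat_lit 94) (nat_lit 0) (nat_lit 0) (XT.lf (nat_lit 0) (nat_lit 30737255699) (nat_lit 168) (nat_lit 24072420878) (nat_lit 0) (nat_lit 21019012688) (nat_lit 2) (nat_lit 5) (nat_lit 4) (nat_lit 4) (nat_lit 2) (nat_lit 4) (nat_lit 419) (nat_lit 256) (nat_lit 213)) (XT.nd (nat_lit 94) (nat_lit 0) (nat_lit 0) (XT.lf (nat_lit 0) (nat_lit 32611835811) (nat_lit 168) (nat_lit 22734774438) (nat_lit 0) (nat_lit 22786021393) (nat_lit 2) (nat_lit 5) (nat_lit 4) (nat_lit 4) (nat_lit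 2) (nat_lit 4) (nat_lit 420) (nat_lit 256) (nat_lit 212)) (XT.lf (nat_lit 0) (nat_lit 34530633365) (nat_lit 168) (nat_lit 21377367822) (nat_lit 0) (nat_lit 24600481986) (nat_lit 2) (nat_lit 5) (nat_lit 4) (nat_lit 4) (nat_lit 2) (nat_lit 4) (nat_lit 421) (nat_lit 256) (nat_lit 211))))) (XT.nd (nat_lit 282) (nat_lit 0) (nat_lit 0) (XT.nd (nat_lit 94) (nat_lit 0) (nat_lit 0) (XT.lf (nat_lit 0) (nat_lit 36495436882) (nat_lit 168) (nat_lit 19998935783) (nat_lit 0) (nat_lit 26464085735) (nat_lit 2) (nat_lit 5) (nat_lit 4) (nat_lit 4) (nat_lit 2) (nat_lit 4) (nat_lit 422) (nat_lit 256) (nat_lit 210)) (XT.nd (nat_lit 94) (nat_lit 0) (nat_lit 0) (XT.lf (nat_lit 0) (nat_lit 38508077764) (nat_lit 168) (nat_lit 18598193480) (nat_lit 0) (nat_lit 28378569713) (nat_lit 2) (nat_lit 5) (nat_lit 4) (nat_lit 4) (nat_lit 2) (nat_lit 4) (nat_lit 423) (nat_lit 256) (nat_lit 209)) (XT.lf (nat_lit 0) (nat_lit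 40570432004) (nat_lit 168) (nat_lit 17173835274) (nat_lit 0) (nat_lit 30345718420) (nat_lit 2) (nat_lit 5) (nat_lit 4) (nat_lit 4) (nat_lit 2) (nat_lit 4) (nat_lit 424) (nat_lit 256) (nat_lit 208)))) (XT.nd (nat_lit 50948) (nat_lit 0) (nat_lit 420) (XT.nd (nat_lit 94) (nat_lit 0) (nat_lit 0) (XT.lf (nat_lit 0) (nat_lit 42684421932) (nat_lit 168) (nat_lit 15724533512) (nat_lit 0) (nat_lit 32367365445) (nat_lit 2) (nat_lit 5) (nat_lit 4) (nat_lit 4) (nat_lit 2) (nat_lit 4) (nat_lit 425) (nat_lit 256) (nat_lit 207)) (XT.lf (nat_lit 0) (nat_lit 44852018007) (nat_lit 168) (nat_lit 14248937296) (nat_lit 0) (nat_lit 34445395175) (nat_lit 2) (nat_lit 5) (nat_lit 4) (nat_lit 4) (nat_lit 2) (nat_lit 4) (nat_lit 426) (nat_lit 256) (nat_lit 206))) (XT.nd (nat_lit 94) (nat_lit 0) (nat_lit 0) (XT.lf (nat_lit 0) (nat_lit 1270737295) (nat_lit 168) (nat_lit 4576866587) (nat_lit 168) (nat_lit 4576866587)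 (nat_lit 7) (nat_lit 4) (nat_lit 9) (nat_lit 5) (nat_lit 9) (nat_lit 4) (nat_lit 374) (nat_lit 257) (nat_lit 257)) (XT.lf (nat_lit 0) (nat_lit 6269742216) (nat_lit 168) (nat_lit 7788077348) (nat_lit 168) (nat_lit 7349954955) (nat_lit 7) (nat_lit 4) (nat_lit 9) (nat_lit 5) (nat_lit 9) (nat_lit 4) (nat_lit 375) (nat_lit 257) (nat_lit 256))))))))
noncomputable def xc14 : XT := (XT.nd (nat_lit 2350) (nat_lit 84) (nat_lit 0) (XT.nd (nat_lit 1128) (nat_lit 168) (nat_lit 0) (XT.nd (nat_lit 564) (nat_lit 0) (nat_lit 0) (XT.nd (nat_lit 282) (nat_lit 168) (nat_lit 0) (XT.nd (nat_lit 94) (nat_lit 0) (nat_lit 0) (XT.lf (nat_lit 0) (nat_lit 10040801626) (nat_lit 168) (nat_lit 6403973218) (nat_lit 168) (nat_lit 5540901850) (nat_lit 7) (nat_lit 4) (nat_lit 9) (nat_lit 5) (nat_lit 9) (nat_lit 4) (nat_lit 376) (nat_lit 257) (nat_lit 255)) (XT.nd (nat_lit 94) (nat_lit 0) (nat_lit 0) (XT.lf (nat_lit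 0) (nat_lit 13858167840) (nat_lit 168) (nat_lit 5000130655) (nat_lit 168) (nat_lit 3724887633) (nat_lit 7) (nat_lit 4) (nat_lit 9) (nat_lit 5) (nat_lit 9) (nat_lit 4) (nat_lit 377) (nat_lit 257) (nat_lit 254)) (XT.lf (nat_lit 0) (nat_lit 17725399046) (nat_lit 168) (nat_lit 3575241131) (nat_lit 168) (nat_lit 1900219589) (nat_lit 7) (nat_lit 4) (nat_lit 9) (nat_lit 5) (nat_lit 9) (nat_lit 4) (nat_lit 378) (nat_lit 257) (nat_lit 253)))) (XT.nd (nat_lit 94) (nat_lit 168) (nat_lit 0) (XT.lf (nat_lit 0) (nat_lit 21646099907) (nat_lit 168) (nat_lit 2127976499) (nat_lit 168) (nat_lit 65196936) (nat_lit 7) (nat_lit 4) (nat_lit 9) (nat_lit 5) (nat_lit 9) (nat_lit 4) (nat_lit 379) (nat_lit 257) (nat_lit 252)) (XT.nd (nat_lit 94) (nat_lit 0) (nat_lit 0) (XT.lf (nat_lit 0) (nat_lit 1129993270) (nat_lit 84) (nat_lit 627206033) (nat_lit 168) (nat_lit 22740927148) (nat_lit 5) (nat_lit 5) (nat_lit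 6) (nat_lit 5) (nat_lit 7) (nat_lit 4) (nat_lit 380) (nat_lit 257) (nat_lit 251)) (XT.lf (nat_lit 0) (nat_lit 3623534412) (nat_lit 168) (nat_lit 20650220901) (nat_lit 0) (nat_lit 904165871) (nat_lit 5) (nat_lit 5) (nat_lit 7) (nat_lit 4) (nat_lit 5) (nat_lit 4) (nat_lit 381) (nat_lit 257) (nat_lit 250))))) (XT.nd (nat_lit 282) (nat_lit 0) (nat_lit 0) (XT.nd (nat_lit 94) (nat_lit 0) (nat_lit 0) (XT.lf (nat_lit 0) (nat_lit 5511992470) (nat_lit 168) (nat_lit 17918649063) (nat_lit 0) (nat_lit 2449440643) (nat_lit 5) (nat_lit 5) (nat_lit 7) (nat_lit 4) (nat_lit 5) (nat_lit 4) (nat_lit 382) (nat_lit 257) (nat_lit 249)) (XT.nd (nat_lit 94) (nat_lit 0) (nat_lit 0) (XT.lf (nat_lit 0) (nat_lit 7418111756) (nat_lit 168) (nat_lit 15164649593) (nat_lit 0) (nat_lit 4022695442) (nat_lit 5) (nat_lit 5) (nat_lit 7) (nat_lit 4) (nat_lit 5) (nat_lit 4) (nat_lit 383) (nat_lit 257) (nat_lit 248)) (XT.lf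 (nat_lit 0) (nat_lit 9343668974) (nat_lit 168) (nat_lit 12385655475) (nat_lit 0) (nat_lit 5625396706) (nat_lit 5) (nat_lit 5) (nat_lit 7) (nat_lit 4) (nat_lit 5) (nat_lit 4) (nat_lit 384) (nat_lit 257) (nat_lit 247)))) (XT.nd (nat_lit 94) (nat_lit 0) (nat_lit 0) (XT.lf (nat_lit 0) (nat_lit 11290458944) (nat_lit 168) (nat_lit 9579076397) (nat_lit 0) (nat_lit 7259038322) (nat_lit 5) (nat_lit 5) (nat_lit 7) (nat_lit 4) (nat_lit 5) (nat_lit 4) (nat_lit 385) (nat_lit 257) (nat_lit 246)) (XT.nd (nat_lit 94) (nat_lit 0) (nat_lit 0) (XT.lf (nat_lit 0) (nat_lit 13260296278) (nat_lit 168) (nat_lit 6742296332) (nat_lit 0) (nat_lit 8925143015) (nat_lit 5) (nat_lit 5) (nat_lit 7) (nat_lit 4) (nat_lit 5) (nat_lit 4) (nat_lit 386) (nat_lit 257) (nat_lit 245)) (XT.lf (nat_lit 0) (nat_lit 15255017072) (nat_lit 168) (nat_lit 3872671105) (nat_lit 0) (nat_lit 10625263768) (nat_lit 5) (nat_lit 5) (nat_lit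 7) (nat_lit 4) (nat_lit 5) (nat_lit 4) (nat_lit 387) (nat_lit 257) (nat_lit 244)))))) (XT.nd (nat_lit 564) (nat_lit 84) (nat_lit 0) (XT.nd (nat_lit 282) (nat_lit 0) (nat_lit 0) (XT.nd (nat_lit 94) (nat_lit 84) (nat_lit 0) (XT.lf (nat_lit 0) (nat_lit 17276480614) (nat_lit 168) (nat_lit 967525923) (nat_lit 0) (nat_lit 12360985272) (nat_lit 5) (nat_lit 5) (nat_lit 7) (nat_lit 4) (nat_lit 5) (nat_lit 4) (nat_lit 388) (nat_lit 257) (nat_lit 243)) (XT.nd (nat_lit 94) (nat_lit 0) (nat_lit 0) (XT.lf (nat_lit 0) (nat_lit 2016474580) (nat_lit 84) (nat_lit 17330100216) (nat_lit 84) (nat_lit 12137454498) (nat_lit 4) (nat_lit 4) (nat_lit 5) (nat_lit 5) (nat_lit 5) (nat_lit 4) (nat_lit 389) (nat_lit 257) (nat_lit 242)) (XT.lf (nat_lit 0) (nat_lit 5062183244) (nat_lit 84) (nat_lit 16395233729) (nat_lit 84) (nat_lit 10933770963) (nat_lit 4) (nat_lit 4) (nat_lit 5) (nat_lit 5) (nat_lit 5) (nat_lit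 4) (nat_lit 390) (nat_lit 257) (nat_lit 241)))) (XT.nd (nat_lit 94) (nat_lit 0) (nat_lit 0) (XT.lf (nat_lit 0) (nat_lit 8152544668) (nat_lit 84) (nat_lit 15448634667) (nat_lit 84) (nat_lit 9726437617) (nat_lit 4) (nat_lit 4) (nat_lit 5) (nat_lit 5) (nat_lit 5) (nat_lit 4) (nat_lit 391) (nat_lit 257) (nat_lit 240)) (XT.nd (nat_lit 94) (nat_lit 0) (nat_lit 0) (XT.lf (nat_lit 0) (nat_lit 11290439393) (nat_lit 84) (nat_lit 14489420703) (nat_lit 84) (nat_lit 8514329099) (nat_lit 4) (nat_lit 4) (nat_lit 5) (nat_lit 5) (nat_lit 5) (nat_lit 4) (nat_lit 392) (nat_lit 257) (nat_lit 239)) (XT.lf (nat_lit 0) (nat_lit 14478792267) (nat_lit 84) (nat_lit 13516697748) (nat_lit 84) (nat_lit 7296315597) (nat_lit 4) (nat_lit 4) (nat_lit 5) (nat_lit 5) (nat_lit 5) (nat_lit 4) (nat_lit 393) (nat_lit 257) (nat_lit 238))))) (XT.nd (nat_lit 282) (nat_lit 84) (nat_lit 0) (XT.nd (nat_lit 94) (nat_lit 0) (nat_lit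 0) (XT.lf (nat_lit 0) (nat_lit 17720575168) (nat_lit 84) (nat_lit 12529559122) (nat_lit 84) (nat_lit 6071261795) (nat_lit 4) (nat_lit 4) (nat_lit 5) (nat_lit 5) (nat_lit 5) (nat_lit 4) (nat_lit 394) (nat_lit 257) (nat_lit 237)) (XT.nd (nat_lit 94) (nat_lit 0) (nat_lit 0) (XT.lf (nat_lit 0) (nat_lit 21018809777) (nat_lit 84) (nat_lit 11527084709) (nat_lit 84) (nat_lit 4838025815) (nat_lit 4) (nat_lit 4) (nat_lit 5) (nat_lit 5) (nat_lit 5) (nat_lit 4) (nat_lit 395) (nat_lit 257) (nat_lit 236)) (XT.lf (nat_lit 0) (nat_lit 24376570395) (nat_lit 84) (nat_lit 10508340097) (nat_lit 84) (nat_lit 3595458150) (nat_lit 4) (nat_lit 4) (nat_lit 5) (nat_lit 5) (nat_lit 5) (nat_lit 4) (nat_lit 396) (nat_lit 257) (nat_lit 235)))) (XT.nd (nat_lit 188) (nat_lit 84) (nat_lit 0) (XT.nd (nat_lit 94) (nat_lit 0) (nat_lit 0) (XT.lf (nat_lit 0) (nat_lit 27796986805) (nat_lit 84) (nat_lit 9472375710) (nat_lit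 84) (nat_lit 2342400599) (nat_lit 4) (nat_lit 4) (nat_lit 5) (nat_lit 5) (nat_lit 5) (nat_lit 4) (nat_lit 397) (nat_lit 257) (nat_lit 234)) (XT.lf (nat_lit 0) (nat_lit 31283247195) (nat_lit 84) (nat_lit 8418225921) (nat_lit 84) (nat_lit 1077685179) (nat_lit 4) (nat_lit 4) (nat_lit 5) (nat_lit 5) (nat_lit 5) (nat_lit 4) (nat_lit 398) (nat_lit 257) (nat_lit 233))) (XT.nd (nat_lit 94) (nat_lit 0) (nat_lit 0) (XT.lf (nat_lit 0) (nat_lit 195840080) (nat_lit 168) (nat_lit 7147023902) (nat_lit 84) (nat_lit 34640716875) (nat_lit 3) (nat_lit 5) (nat_lit 5) (nat_lit 5) (nat_lit 4) (nat_lit 4) (nat_lit 399) (nat_lit 257) (nat_lit 232)) (XT.lf (nat_lit 0) (nat_lit 1461397291) (nat_lit 168) (nat_lit 4774770676) (nat_lit 84) (nat_lit 36989711274) (nat_lit 3) (nat_lit 5) (nat_lit 5) (nat_lit 5) (nat_lit 4) (nat_lit 4) (nat_lit 400) (nat_lit 257) (nat_lit 231))))))) (XT.nd (nat_lit 1222) (nat_lit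 0) (nat_lit 0) (XT.nd (nat_lit 564) (nat_lit 0) (nat_lit 0) (XT.nd (nat_lit 282) (nat_lit 0) (nat_lit 0) (XT.nd (nat_lit 94) (nat_lit 84) (nat_lit 0) (XT.lf (nat_lit 0) (nat_lit 2741879037) (nat_lit 168) (nat_lit 2366249463) (nat_lit 84) (nat_lit 39399414310) (nat_lit 3) (nat_lit 5) (nat_lit 5) (nat_lit 5) (nat_lit 4) (nat_lit 4) (nat_lit 401) (nat_lit 257) (nat_lit 230)) (XT.nd (nat_lit 94) (nat_lit 0) (nat_lit 0) (XT.lf (nat_lit 0) (nat_lit 82445829) (nat_lit 84) (nat_lit 3956850906) (nat_lit 168) (nat_lit 41790444124) (nat_lit 2) (nat_lit 5) (nat_lit 3) (nat_lit 5) (nat_lit 4) (nat_lit 4) (nat_lit 402) (nat_lit 257) (nat_lit 229)) (XT.lf (nat_lit 0) (nat_lit 2621428742) (nat_lit 84) (nat_lit 2756981489) (nat_lit 168) (nat_lit 41814565515) (nat_lit 2) (nat_lit 5) (nat_lit 3) (nat_lit 5) (nat_lit 4) (nat_lit 4) (nat_lit 403) (nat_lit 257) (nat_lit 228)))) (XT.nd (nat_lit 94) (nat_lit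 0) (nat_lit 0) (XT.lf (nat_lit 0) (nat_lit 5204410932) (nat_lit 84) (nat_lit 1532100637) (nat_lit 168) (nat_lit 41862749222) (nat_lit 2) (nat_lit 5) (nat_lit 3) (nat_lit 5) (nat_lit 4) (nat_lit 4) (nat_lit 404) (nat_lit 257) (nat_lit 227)) (XT.nd (nat_lit 94) (nat_lit 0) (nat_lit 0) (XT.lf (nat_lit 0) (nat_lit 7833800007) (nat_lit 84) (nat_lit 281066633) (nat_lit 168) (nat_lit 41935040157) (nat_lit 2) (nat_lit 5) (nat_lit 3) (nat_lit 5) (nat_lit 4) (nat_lit 4) (nat_lit 405) (nat_lit 257) (nat_lit 226)) (XT.lf (nat_lit 0) (nat_lit 9524653424) (nat_lit 168) (nat_lit 41044112293) (nat_lit 0) (nat_lit 977193514) (nat_lit 2) (nat_lit 5) (nat_lit 4) (nat_lit 4) (nat_lit 2) (nat_lit 4) (nat_lit 406) (nat_lit 257) (nat_lit 225))))) (XT.nd (nat_lit 282) (nat_lit 0) (nat_lit 0) (XT.nd (nat_lit 94) (nat_lit 0) (nat_lit 0) (XT.lf (nat_lit 0) (nat_lit 10960354608) (nat_lit 168) (nat_lit 39870942563)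 (nat_lit 0) (nat_lit 2257727173) (nat_lit 2) (nat_lit 5) (nat_lit 4) (nat_lit 4) (nat_lit 2) (nat_lit 4) (nat_lit 407) (nat_lit 257) (nat_lit 224)) (XT.nd (nat_lit 94) (nat_lit 0) (nat_lit 0) (XT.lf (nat_lit 0) (nat_lit 12420520198) (nat_lit 168) (nat_lit 38692715868) (nat_lit 0) (nat_lit 3567390800) (nat_lit 2) (nat_lit 5) (nat_lit 4) (nat_lit 4) (nat_lit 2) (nat_lit 4) (nat_lit 408) (nat_lit 257) (nat_lit 223)) (XT.lf (nat_lit 0) (nat_lit 13906511224) (nat_lit 168) (nat_lit 37508333976) (nat_lit 0) (nat_lit 4907405139) (nat_lit 2) (nat_lit 5) (nat_lit 4) (nat_lit 4) (nat_lit 2) (nat_lit 4) (nat_lit 409) (nat_lit 257) (nat_lit 222)))) (XT.nd (nat_lit 188) (nat_lit 0) (nat_lit 0) (XT.nd (nat_lit 94) (nat_lit 0) (nat_lit 0) (XT.lf (nat_lit 0) (nat_lit 15419712783) (nat_lit 168) (nat_lit 36316692921) (nat_lit 0) (nat_lit 6279019224) (nat_lit 2) (nat_lit 5) (nat_lit 4) (nat_lit 4) (nat_lit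 2) (nat_lit 4) (nat_lit 410) (nat_lit 257) (nat_lit 221)) (XT.lf (nat_lit 0) (nat_lit 16961535339) (nat_lit 168) (nat_lit 35116681967) (nat_lit 0) (nat_lit 7683511543) (nat_lit 2) (nat_lit 5) (nat_lit 4) (nat_lit 4) (nat_lit 2) (nat_lit 4) (nat_lit 411) (nat_lit 257) (nat_lit 220))) (XT.nd (nat_lit 94) (nat_lit 0) (nat_lit 0) (XT.lf (nat_lit 0) (nat_lit 18533416032) (nat_lit 168) (nat_lit 33907182579) (nat_lit 0) (nat_lit 9122191229) (nat_lit 2) (nat_lit 5) (nat_lit 4) (nat_lit 4) (nat_lit 2) (nat_lit 4) (nat_lit 412) (nat_lit 257) (nat_lit 219)) (XT.lf (nat_lit 0) (nat_lit 20136820019) (nat_lit 168) (nat_lit 32687067377) (nat_lit 0) (nat_lit 10596399284) (nat_lit 2) (nat_lit 5) (nat_lit 4) (nat_lit 4) (nat_lit 2) (nat_lit 4) (nat_lit 413) (nat_lit 257) (nat_lit 218)))))) (XT.nd (nat_lit 564) (nat_lit 0) (nat_lit 0) (XT.nd (nat_lit 282) (nat_lit 0) (nat_lit 0) (XT.nd (nat_lit 94)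 (nat_lit 0) (nat_lit 0) (XT.lf (nat_lit 0) (nat_lit 21773241840) (nat_lit 168) (nat_lit 31455199085) (nat_lit 0) (nat_lit 12107509822) (nat_lit 2) (nat_lit 5) (nat_lit 4) (nat_lit 4) (nat_lit 2) (nat_lit 4) (nat_lit 414) (nat_lit 257) (nat_lit 217)) (XT.nd (nat_lit 94) (nat_lit 0) (nat_lit 0) (XT.lf (nat_lit 0) (nat_lit 23444206812) (nat_lit 168) (nat_lit 30210429474) (nat_lit 0) (nat_lit 13656931359) (nat_lit 2) (nat_lit 5) (nat_lit 4) (nat_lit 4) (nat_lit 2) (nat_lit 4) (nat_lit 415) (nat_lit 257) (nat_lit 216)) (XT.lf (nat_lit 0) (nat_lit 25151272450) (nat_lit 168) (nat_lit 28951598287) (nat_lit 0) (nat_lit 15246108116) (nat_lit 2) (nat_lit 5) (nat_lit 4) (nat_lit 4) (nat_lit 2) (nat_lit 4) (nat_lit 416) (nat_lit 257) (nat_lit 215)))) (XT.nd (nat_lit 94) (nat_lit 0) (nat_lit 0) (XT.lf (nat_lit 0) (nat_lit 26896029917) (nat_lit 168) (nat_lit 27677532161) (nat_lit 0) (nat_lit 16876521373)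 (nat_lit 2) (nat_lit 5) (nat_lit 4) (nat_lit 4) (nat_lit 2) (nat_lit 4) (nat_lit 417) (nat_lit 257) (nat_lit 214)) (XT.nd (nat_lit 94) (nat_lit 0) (nat_lit 0) (XT.lf (nat_lit 0) (nat_lit 28680105510) (nat_lit 168) (nat_lit 26387043535) (nat_lit 0) (nat_lit 18549690846) (nat_lit 2) (nat_lit 5) (nat_lit 4) (nat_lit 4) (nat_lit 2) (nat_lit 4) (nat_lit 418) (nat_lit 257) (nat_lit 213)) (XT.lf (nat_lit 0) (nat_lit 30505162175) (nat_lit 168) (nat_lit 25078929537) (nat_lit 0) (nat_lit 20267176104) (nat_lit 2) (nat_lit 5) (nat_lit 4) (nat_lit 4) (nat_lit 2) (nat_lit 4) (nat_lit 419) (nat_lit 257) (nat_lit 212))))) (XT.nd (nat_lit 282) (nat_lit 0) (nat_lit 0) (XT.nd (nat_lit 94) (nat_lit 0) (nat_lit 0) (XT.lf (nat_lit 0) (nat_lit 32372901055) (nat_lit 168) (nat_lit 23751970869) (nat_lit 0) (nat_lit 22030578023) (nat_lit 2) (nat_lit 5) (nat_lit 4) (nat_lit 4) (nat_lit 2) (nat_lit 4) (nat_lit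 420) (nat_lit 257) (nat_lit 211)) (XT.nd (nat_lit 94) (nat_lit 0) (nat_lit 0) (XT.lf (nat_lit 0) (nat_lit 34285063080) (nat_lit 168) (nat_lit 22404930664) (nat_lit 0) (nat_lit 23841540279) (nat_lit 2) (nat_lit 5) (nat_lit 4) (nat_lit 4) (nat_lit 2) (nat_lit 4) (nat_lit 421) (nat_lit 257) (nat_lit 210)) (XT.lf (nat_lit 0) (nat_lit 36243430583) (nat_lit 168) (nat_lit 21036553342) (nat_lit 0) (nat_lit 25701750878) (nat_lit 2) (nat_lit 5) (nat_lit 4) (nat_lit 4) (nat_lit 2) (nat_lit 4) (nat_lit 422) (nat_lit 257) (nat_lit 209)))) (XT.nd (nat_lit 188) (nat_lit 0) (nat_lit 0) (XT.nd (nat_lit 94) (nat_lit 0) (nat_lit 0) (XT.lf (nat_lit 0) (nat_lit 38249828969) (nat_lit 168) (nat_lit 19645563431) (nat_lit 0) (nat_lit 27612943732) (nat_lit 2) (nat_lit 5) (nat_lit 4) (nat_lit 4) (nat_lit 2) (nat_lit 4) (nat_lit 423) (nat_lit 257) (nat_lit 208)) (XT.lf (nat_lit 0) (nat_lit 40306128411) (nat_lit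 168) (nat_lit 18230664382) (nat_lit 0) (nat_lit 29576900271) (nat_lit 2) (nat_lit 5) (nat_lit 4) (nat_lit 4) (nat_lit 2) (nat_lit 4) (nat_lit 424) (nat_lit 257) (nat_lit 207))) (XT.nd (nat_lit 94) (nat_lit 0) (nat_lit 0) (XT.lf (nat_lit 0) (nat_lit 42414245596) (nat_lit 168) (nat_lit 16790537362) (nat_lit 0) (nat_lit 31595451110) (nat_lit 2) (nat_lit 5) (nat_lit 4) (nat_lit 4) (nat_lit 2) (nat_lit 4) (nat_lit 425) (nat_lit 257) (nat_lit 206)) (XT.lf (nat_lit 0) (nat_lit 44576145510) (nat_lit 168) (nat_lit 15323840021) (nat_lit 0) (nat_lit 33670477750) (nat_lit 2) (nat_lit 5) (nat_lit 4) (nat_lit 4) (nat_lit 2) (nat_lit 4) (nat_lit 426) (nat_lit 257) (nat_lit 205))))))))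
noncomputable def xc15 : XT := (XT.nd (nat_lit 2444) (nat_lit 168) (nat_lit 0) (XT.nd (nat_lit 1222) (nat_lit 84) (nat_lit 0) (XT.nd (nat_lit 564) (nat_lit 168) (nat_lit 0) (XT.nd (nat_lit 282) (nat_lit 0) (nat_lit 0) (XT.nd (nat_lit 94) (nat_lit 168) (nat_lit 0) (XT.lf (nat_lit 0) (nat_lit 3779383088) (nat_lit 168) (nat_lit 2333251612) (nat_lit 0) (nat_lit 3779383088) (nat_lit 9) (nat_lit 5) (nat_lit 11) (nat_lit 4) (nat_lit 9) (nat_lit 4) (nat_lit 372) (nat_lit 258) (nat_lit 258)) (XT.nd (nat_lit 94) (nat_lit 168) (nat_lit 0) (XT.lf (nat_lit 0) (nat_lit 9817824542) (nat_lit 168) (nat_lit 1124357295) (nat_lit 0) (nat_lit 9366120354) (nat_lit 9) (nat_lit 5) (nat_lit 11) (nat_lit 4) (nat_lit 9) (nat_lit 4) (nat_lit 373) (nat_lit 258) (nat_lit 257)) (XT.lf (nat_lit 0) (nat_lit 2504526864) (nat_lit 168) (nat_lit 9617563175) (nat_lit 168) (nat_lit 8727736595) (nat_lit 7) (nat_lit 4)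 (nat_lit 9) (nat_lit 5) (nat_lit 9) (nat_lit 4) (nat_lit 374) (nat_lit 258) (nat_lit 256)))) (XT.nd (nat_lit 94) (nat_lit 0) (nat_lit 0) (XT.lf (nat_lit 0) (nat_lit 6196957703) (nat_lit 168) (nat_lit 8263668563) (nat_lit 168) (nat_lit 6948893008) (nat_lit 7) (nat_lit 4) (nat_lit 9) (nat_lit 5) (nat_lit 9) (nat_lit 4) (nat_lit 375) (nat_lit 258) (nat_lit 255)) (XT.nd (nat_lit 94) (nat_lit 0) (nat_lit 0) (XT.lf (nat_lit 0) (nat_lit 9933257863) (nat_lit 168) (nat_lit 6890972013) (nat_lit 168) (nat_lit 5164024804) (nat_lit 7) (nat_lit 4) (nat_lit 9) (nat_lit 5) (nat_lit 9) (nat_lit 4) (nat_lit 376) (nat_lit 258) (nat_lit 254)) (XT.lf (nat_lit 0) (nat_lit 13716909965) (nat_lit 168) (nat_lit 5498194028) (nat_lit 168) (nat_lit 3371468299) (nat_lit 7) (nat_lit 4) (nat_lit 9) (nat_lit 5) (nat_lit 9) (nat_lit 4) (nat_lit 377) (nat_lit 258) (nat_lit 253))))) (XT.nd (nat_lit 282) (nat_lit 0)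 (nat_lit 0) (XT.nd (nat_lit 94) (nat_lit 168) (nat_lit 0) (XT.lf (nat_lit 0) (nat_lit 17551440771) (nat_lit 168) (nat_lit 4084036393) (nat_lit 168) (nat_lit 1569552643) (nat_lit 7) (nat_lit 4) (nat_lit 9) (nat_lit 5) (nat_lit 9) (nat_lit 4) (nat_lit 378) (nat_lit 258) (nat_lit 252)) (XT.nd (nat_lit 94) (nat_lit 84) (nat_lit 0) (XT.lf (nat_lit 0) (nat_lit 238497734) (nat_lit 252) (nat_lit 2406193804) (nat_lit 84) (nat_lit 21199437303) (nat_lit 6) (nat_lit 5) (nat_lit 9) (nat_lit 5) (nat_lit 7) (nat_lit 4) (nat_lit 379) (nat_lit 258) (nat_lit 251)) (XT.lf (nat_lit 0) (nat_lit 880000739) (nat_lit 84) (nat_lit 1156126238) (nat_lit 168) (nat_lit 22467655832) (nat_lit 5) (nat_lit 5) (nat_lit 6) (nat_lit 5) (nat_lit 7) (nat_lit 4) (nat_lit 380) (nat_lit 258) (nat_lit 250)))) (XT.nd (nat_lit 188) (nat_lit 0) (nat_lit 0) (XT.nd (nat_lit 94) (nat_lit 0) (nat_lit 0) (XT.lf (nat_lit 0) (nat_lit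 3876462655) (nat_lit 168) (nat_lit 20932223467) (nat_lit 0) (nat_lit 375788434) (nat_lit 5) (nat_lit 5) (nat_lit 7) (nat_lit 4) (nat_lit 5) (nat_lit 4) (nat_lit 381) (nat_lit 258) (nat_lit 249)) (XT.lf (nat_lit 0) (nat_lit 5744792219) (nat_lit 168) (nat_lit 18231302094) (nat_lit 0) (nat_lit 1911253510) (nat_lit 5) (nat_lit 5) (nat_lit 7) (nat_lit 4) (nat_lit 5) (nat_lit 4) (nat_lit 382) (nat_lit 258) (nat_lit 248))) (XT.nd (nat_lit 94) (nat_lit 0) (nat_lit 0) (XT.lf (nat_lit 0) (nat_lit 7631388232) (nat_lit 168) (nat_lit 15507031495) (nat_lit 0) (nat_lit 3474993571) (nat_lit 5) (nat_lit 5) (nat_lit 7) (nat_lit 4) (nat_lit 5) (nat_lit 4) (nat_lit 383) (nat_lit 258) (nat_lit 247)) (XT.lf (nat_lit 0) (nat_lit 9538009201) (nat_lit 168) (nat_lit 12756872364) (nat_lit 0) (nat_lit 5068466186) (nat_lit 5) (nat_lit 5) (nat_lit 7) (nat_lit 4) (nat_lit 5) (nat_lit 4) (nat_lit 384) (nat_lit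 258) (nat_lit 246)))))) (XT.nd (nat_lit 564) (nat_lit 0) (nat_lit 0) (XT.nd (nat_lit 282) (nat_lit 84) (nat_lit 0) (XT.nd (nat_lit 94) (nat_lit 0) (nat_lit 0) (XT.lf (nat_lit 0) (nat_lit 11466432295) (nat_lit 168) (nat_lit 9978261264) (nat_lit 0) (nat_lit 6693156638) (nat_lit 5) (nat_lit 5) (nat_lit 7) (nat_lit 4) (nat_lit 5) (nat_lit 4) (nat_lit 385) (nat_lit 258) (nat_lit 245)) (XT.nd (nat_lit 94) (nat_lit 0) (nat_lit 0) (XT.lf (nat_lit 0) (nat_lit 13418455007) (nat_lit 168) (nat_lit 7168608240) (nat_lit 0) (nat_lit 8350579310) (nat_lit 5) (nat_lit 5) (nat_lit 7) (nat_lit 4) (nat_lit 5) (nat_lit 4) (nat_lit 386) (nat_lit 258) (nat_lit 244)) (XT.lf (nat_lit 0) (nat_lit 15395896827) (nat_lit 168) (nat_lit 4325294400) (nat_lit 0) (nat_lit 10042279092) (nat_lit 5) (nat_lit 5) (nat_lit 7) (nat_lit 4) (nat_lit 5) (nat_lit 4) (nat_lit 387) (nat_lit 258) (nat_lit 243)))) (XT.nd (nat_lit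 94) (nat_lit 84) (nat_lit 0) (XT.lf (nat_lit 0) (nat_lit 17400600937) (nat_lit 168) (nat_lit 1445669477) (nat_lit 0) (nat_lit 11769832826) (nat_lit 5) (nat_lit 5) (nat_lit 7) (nat_lit 4) (nat_lit 5) (nat_lit 4) (nat_lit 388) (nat_lit 258) (nat_lit 242)) (XT.nd (nat_lit 94) (nat_lit 0) (nat_lit 0) (XT.lf (nat_lit 0) (nat_lit 1503237524) (nat_lit 84) (nat_lit 17946110709) (nat_lit 84) (nat_lit 12046525550) (nat_lit 4) (nat_lit 4) (nat_lit 5) (nat_lit 5) (nat_lit 5) (nat_lit 4) (nat_lit 389) (nat_lit 258) (nat_lit 241)) (XT.lf (nat_lit 0) (nat_lit 4524443870) (nat_lit 84) (nat_lit 17019736731) (nat_lit 84) (nat_lit 10859417288) (nat_lit 4) (nat_lit 4) (nat_lit 5) (nat_lit 5) (nat_lit 5) (nat_lit 4) (nat_lit 390) (nat_lit 258) (nat_lit 240))))) (XT.nd (nat_lit 282) (nat_lit 0) (nat_lit 0) (XT.nd (nat_lit 94) (nat_lit 0) (nat_lit 0) (XT.lf (nat_lit 0) (nat_lit 7591039709) (nat_lit 84)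 (nat_lit 16081374828) (nat_lit 84) (nat_lit 9668160831) (nat_lit 4) (nat_lit 4) (nat_lit 5) (nat_lit 5) (nat_lit 5) (nat_lit 4) (nat_lit 391) (nat_lit 258) (nat_lit 239)) (XT.nd (nat_lit 94) (nat_lit 0) (nat_lit 0) (XT.lf (nat_lit 0) (nat_lit 10705883431) (nat_lit 84) (nat_lit 15130150348) (nat_lit 84) (nat_lit 8471645804) (nat_lit 4) (nat_lit 4) (nat_lit 5) (nat_lit 5) (nat_lit 5) (nat_lit 4) (nat_lit 392) (nat_lit 258) (nat_lit 238)) (XT.lf (nat_lit 0) (nat_lit 13871878396) (nat_lit 84) (nat_lit 14165176650) (nat_lit 84) (nat_lit 7268756930) (nat_lit 4) (nat_lit 4) (nat_lit 5) (nat_lit 5) (nat_lit 5) (nat_lit 4) (nat_lit 393) (nat_lit 258) (nat_lit 237)))) (XT.nd (nat_lit 188) (nat_lit 0) (nat_lit 0) (XT.nd (nat_lit 94) (nat_lit 0) (nat_lit 0) (XT.lf (nat_lit 0) (nat_lit 17091975644) (nat_lit 84) (nat_lit 13185554277) (nat_lit 84) (nat_lit 6058372990) (nat_lit 4) (nat_lit 4) (nat_lit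 5) (nat_lit 5) (nat_lit 5) (nat_lit 4) (nat_lit 394) (nat_lit 258) (nat_lit 236)) (XT.lf (nat_lit 0) (nat_lit 20369176642) (nat_lit 84) (nat_lit 12190370119) (nat_lit 84) (nat_lit 4839365779) (nat_lit 4) (nat_lit 4) (nat_lit 5) (nat_lit 5) (nat_lit 5) (nat_lit 4) (nat_lit 395) (nat_lit 258) (nat_lit 235))) (XT.nd (nat_lit 94) (nat_lit 0) (nat_lit 0) (XT.lf (nat_lit 0) (nat_lit 23706536084) (nat_lit 84) (nat_lit 11178696560) (nat_lit 84) (nat_lit 3610599055) (nat_lit 4) (nat_lit 4) (nat_lit 5) (nat_lit 5) (nat_lit 5) (nat_lit 4) (nat_lit 396) (nat_lit 258) (nat_lit 234)) (XT.lf (nat_lit 0) (nat_lit 27107164740) (nat_lit 84) (nat_lit 10149590614) (nat_lit 84) (nat_lit 2370927479) (nat_lit 4) (nat_lit 4) (nat_lit 5) (nat_lit 5) (nat_lit 5) (nat_lit 4) (nat_lit 397) (nat_lit 258) (nat_lit 233))))))) (XT.nd (nat_lit 1222) (nat_lit 0) (nat_lit 0) (XT.nd (nat_lit 564) (nat_lit 0) (nat_lit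 0) (XT.nd (nat_lit 282) (nat_lit 84) (nat_lit 0) (XT.nd (nat_lit 94) (nat_lit 84) (nat_lit 0) (XT.lf (nat_lit 0) (nat_lit 30574232352) (nat_lit 84) (nat_lit 9102093047) (nat_lit 84) (nat_lit 1119195547) (nat_lit 4) (nat_lit 4) (nat_lit 5) (nat_lit 5) (nat_lit 5) (nat_lit 4) (nat_lit 398) (nat_lit 258) (nat_lit 232)) (XT.nd (nat_lit 94) (nat_lit 0) (nat_lit 0) (XT.lf (nat_lit 0) (nat_lit 142826676) (nat_lit 168) (nat_lit 7890909988) (nat_lit 84) (nat_lit 33966653096) (nat_lit 3) (nat_lit 5) (nat_lit 5) (nat_lit 5) (nat_lit 4) (nat_lit 4) (nat_lit 399) (nat_lit 258) (nat_lit 231)) (XT.lf (nat_lit 0) (nat_lit 1396415527) (nat_lit 168) (nat_lit 5537008245) (nat_lit 84) (nat_lit 36309684822) (nat_lit 3) (nat_lit 5) (nat_lit 5) (nat_lit 5) (nat_lit 4) (nat_lit 4) (nat_lit 400) (nat_lit 258) (nat_lit 230)))) (XT.nd (nat_lit 94) (nat_lit 84) (nat_lit 0) (XT.lf (nat_lit 0) (nat_lit 2665288777)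 (nat_lit 168) (nat_lit 3146286726) (nat_lit 84) (nat_lit 38713604470) (nat_lit 3) (nat_lit 5) (nat_lit 5) (nat_lit 5) (nat_lit 4) (nat_lit 4) (nat_lit 401) (nat_lit 258) (nat_lit 229)) (XT.nd (nat_lit 94) (nat_lit 84) (nat_lit 0) (XT.lf (nat_lit 0) (nat_lit 3950629150) (nat_lit 168) (nat_lit 716517027) (nat_lit 84) (nat_lit 41180652747) (nat_lit 3) (nat_lit 5) (nat_lit 5) (nat_lit 5) (nat_lit 4) (nat_lit 4) (nat_lit 402) (nat_lit 258) (nat_lit 228)) (XT.lf (nat_lit 0) (nat_lit 1790643119) (nat_lit 84) (nat_lit 3480754998) (nat_lit 168) (nat_lit 41940249480) (nat_lit 2) (nat_lit 5) (nat_lit 3) (nat_lit 5) (nat_lit 4) (nat_lit 4) (nat_lit 403) (nat_lit 258) (nat_lit 227))))) (XT.nd (nat_lit 282) (nat_lit 0) (nat_lit 0) (XT.nd (nat_lit 94) (nat_lit 0) (nat_lit 0) (XT.lf (nat_lit 0) (nat_lit 4357049454) (nat_lit 84) (nat_lit 2261693030) (nat_lit 168) (nat_lit 41999567374) (nat_lit 2)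 (nat_lit 5) (nat_lit 3) (nat_lit 5) (nat_lit 4) (nat_lit 4) (nat_lit 404) (nat_lit 258) (nat_lit 226)) (XT.nd (nat_lit 94) (nat_lit 0) (nat_lit 0) (XT.lf (nat_lit 0) (nat_lit 6970361076) (nat_lit 84) (nat_lit 1016302949) (nat_lit 168) (nat_lit 42082657715) (nat_lit 2) (nat_lit 5) (nat_lit 3) (nat_lit 5) (nat_lit 4) (nat_lit 4) (nat_lit 405) (nat_lit 258) (nat_lit 225)) (XT.lf (nat_lit 0) (nat_lit 9378983052) (nat_lit 168) (nat_lit 41935567138) (nat_lit 0) (nat_lit 251406643) (nat_lit 2) (nat_lit 5) (nat_lit 4) (nat_lit 4) (nat_lit 2) (nat_lit 4) (nat_lit 406) (nat_lit 258) (nat_lit 224)))) (XT.nd (nat_lit 188) (nat_lit 0) (nat_lit 0) (XT.nd (nat_lit 94) (nat_lit 0) (nat_lit 0) (XT.lf (nat_lit 0) (nat_lit 10804816028) (nat_lit 168) (nat_lit 40777814098) (nat_lit 0) (nat_lit 1526737655) (nat_lit 2) (nat_lit 5) (nat_lit 4) (nat_lit 4) (nat_lit 2) (nat_lit 4) (nat_lit 407) (nat_lit 258)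 (nat_lit 223)) (XT.lf (nat_lit 0) (nat_lit 12255410128) (nat_lit 168) (nat_lit 39614540544) (nat_lit 0) (nat_lit 2831355068) (nat_lit 2) (nat_lit 5) (nat_lit 4) (nat_lit 4) (nat_lit 2) (nat_lit 4) (nat_lit 408) (nat_lit 258) (nat_lit 222))) (XT.nd (nat_lit 94) (nat_lit 0) (nat_lit 0) (XT.lf (nat_lit 0) (nat_lit 13732117456) (nat_lit 168) (nat_lit 38444662186) (nat_lit 0) (nat_lit 4166474922) (nat_lit 2) (nat_lit 5) (nat_lit 4) (nat_lit 4) (nat_lit 2) (nat_lit 4) (nat_lit 409) (nat_lit 258) (nat_lit 221)) (XT.lf (nat_lit 0) (nat_lit 15236314461) (nat_lit 168) (nat_lit 37267088572) (nat_lit 0) (nat_lit 5533341689) (nat_lit 2) (nat_lit 5) (nat_lit 4) (nat_lit 4) (nat_lit 2) (nat_lit 4) (nat_lit 410) (nat_lit 258) (nat_lit 220)))))) (XT.nd (nat_lit 564) (nat_lit 0) (nat_lit 0) (XT.nd (nat_lit 282) (nat_lit 0) (nat_lit 0) (XT.nd (nat_lit 94) (nat_lit 0) (nat_lit 0) (XT.lf (nat_lit 0)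 (nat_lit 16769403209) (nat_lit 168) (nat_lit 36080722082) (nat_lit 0) (nat_lit 6933229432) (nat_lit 2) (nat_lit 5) (nat_lit 4) (nat_lit 4) (nat_lit 2) (nat_lit 4) (nat_lit 411) (nat_lit 258) (nat_lit 219)) (XT.nd (nat_lit 94) (nat_lit 0) (nat_lit 0) (XT.lf (nat_lit 0) (nat_lit 18332812702) (nat_lit 168) (nat_lit 34884456897) (nat_lit 0) (nat_lit 8367442992) (nat_lit 2) (nat_lit 5) (nat_lit 4) (nat_lit 4) (nat_lit 2) (nat_lit 4) (nat_lit 412) (nat_lit 258) (nat_lit 218)) (XT.lf (nat_lit 0) (nat_lit 19928000200) (nat_lit 168) (nat_lit 33677177973) (nat_lit 0) (nat_lit 9837319207) (nat_lit 2) (nat_lit 5) (nat_lit 4) (nat_lit 4) (nat_lit 2) (nat_lit 4) (nat_lit 413) (nat_lit 258) (nat_lit 217)))) (XT.nd (nat_lit 94) (nat_lit 0) (nat_lit 0) (XT.lf (nat_lit 0) (nat_lit 21556452584) (nat_lit 168) (nat_lit 32457760000) (nat_lit 0) (nat_lit 11344228156) (nat_lit 2) (nat_lit 5) (nat_lit 4)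 (nat_lit 4) (nat_lit 2) (nat_lit 4) (nat_lit 414) (nat_lit 258) (nat_lit 216)) (XT.nd (nat_lit 94) (nat_lit 0) (nat_lit 0) (XT.lf (nat_lit 0) (nat_lit 23219687744) (nat_lit 168) (nat_lit 31225066353) (nat_lit 0) (nat_lit 12889574435) (nat_lit 2) (nat_lit 5) (nat_lit 4) (nat_lit 4) (nat_lit 2) (nat_lit 4) (nat_lit 415) (nat_lit 258) (nat_lit 215)) (XT.lf (nat_lit 0) (nat_lit 24919255989) (nat_lit 168) (nat_lit 29977948030) (nat_lit 0) (nat_lit 14474798470) (nat_lit 2) (nat_lit 5) (nat_lit 4) (nat_lit 4) (nat_lit 2) (nat_lit 4) (nat_lit 416) (nat_lit 258) (nat_lit 214))))) (XT.nd (nat_lit 282) (nat_lit 0) (nat_lit 0) (XT.nd (nat_lit 94) (nat_lit 0) (nat_lit 0) (XT.lf (nat_lit 0) (nat_lit 26656741494) (nat_lit 168) (nat_lit 28715242589) (nat_lit 0) (nat_lit 16101377854) (nat_lit 2) (nat_lit 5) (nat_lit 4) (nat_lit 4) (nat_lit 2) (nat_lit 4) (nat_lit 417) (nat_lit 258) (nat_lit 213))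 (XT.nd (nat_lit 94) (nat_lit 0) (nat_lit 0) (XT.lf (nat_lit 0) (nat_lit 28433763778) (nat_lit 168) (nat_lit 27435773055) (nat_lit 0) (nat_lit 17770828731) (nat_lit 2) (nat_lit 5) (nat_lit 4) (nat_lit 4) (nat_lit 2) (nat_lit 4) (nat_lit 418) (nat_lit 258) (nat_lit 212)) (XT.lf (nat_lit 0) (nat_lit 30251979211) (nat_lit 168) (nat_lit 26138346828) (nat_lit 0) (nat_lit 19484707204) (nat_lit 2) (nat_lit 5) (nat_lit 4) (nat_lit 4) (nat_lit 2) (nat_lit 4) (nat_lit 419) (nat_lit 258) (nat_lit 211)))) (XT.nd (nat_lit 188) (nat_lit 0) (nat_lit 0) (XT.nd (nat_lit 94) (nat_lit 0) (nat_lit 0) (XT.lf (nat_lit 0) (nat_lit 32113082561) (nat_lit 168) (nat_lit 24821754572) (nat_lit 0) (nat_lit 21244610786) (nat_lit 2) (nat_lit 5) (nat_lit 4) (nat_lit 4) (nat_lit 2) (nat_lit 4) (nat_lit 420) (nat_lit 258) (nat_lit 210)) (XT.lf (nat_lit 0) (nat_lit 34018808572) (nat_lit 168) (nat_lit 23484769083) (nat_lit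 0) (nat_lit 23052179892) (nat_lit 2) (nat_lit 5) (nat_lit 4) (nat_lit 4) (nat_lit 2) (nat_lit 4) (nat_lit 421) (nat_lit 258) (nat_lit 209))) (XT.nd (nat_lit 94) (nat_lit 0) (nat_lit 0) (XT.lf (nat_lit 0) (nat_lit 35970933579) (nat_lit 168) (nat_lit 22126144153) (nat_lit 0) (nat_lit 24909099367) (nat_lit 2) (nat_lit 5) (nat_lit 4) (nat_lit 4) (nat_lit 2) (nat_lit 4) (nat_lit 422) (nat_lit 258) (nat_lit 208)) (XT.lf (nat_lit 0) (nat_lit 37971277168) (nat_lit 168) (nat_lit 20744613400) (nat_lit 0) (nat_lit 26817100053) (nat_lit 2) (nat_lit 5) (nat_lit 4) (nat_lit 4) (nat_lit 2) (nat_lit 4) (nat_lit 423) (nat_lit 258) (nat_lit 207))))))))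
noncomputable def xc16 : XT := (XT.nd (nat_lit 52828) (nat_lit 0) (nat_lit 0) (XT.nd (nat_lit 51606) (nat_lit 0) (nat_lit 168) (XT.nd (nat_lit 51042) (nat_lit 0) (nat_lit 336) (XT.nd (nat_lit 50760) (nat_lit 0) (nat_lit 588) (XT.nd (nat_lit 94) (nat_lit 0) (nat_lit 0) (XT.lf (nat_lit 0) (nat_lit 40021703867) (nat_lit 168) (nat_lit 19338889092) (nat_lit 0) (nat_lit 28777960406) (nat_lit 2) (nat_lit 5) (nat_lit 4) (nat_lit 4) (nat_lit 2) (nat_lit 4) (nat_lit 424) (nat_lit 258) (nat_lit 206)) (XT.nd (nat_lit 50572) (nat_lit 0) (nat_lit 588) (XT.lf (nat_lit 0) (nat_lit 42124124891) (nat_lit 168) (nat_lit 17907660948) (nat_lit 0) (nat_lit 30793508156) (nat_lit 2) (nat_lit 5) (nat_lit 4) (nat_lit 4) (nat_lit 2) (nat_lit 4) (nat_lit 425) (nat_lit 258) (nat_lit 205)) (XT.lf (nat_lit 0) (nat_lit 1792515817) (nat_lit 168) (nat_lit 5808327725) (nat_lit 0) (nat_lit 1792515817) (nat_lit 9) (nat_lit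 5) (nat_lit 11) (nat_lit 4) (nat_lit 9) (nat_lit 4) (nat_lit 370) (nat_lit 259) (nat_lit 259)))) (XT.nd (nat_lit 94) (nat_lit 0) (nat_lit 0) (XT.lf (nat_lit 0) (nat_lit 5783671065) (nat_lit 168) (nat_lit 8175673207) (nat_lit 0) (nat_lit 5317964048) (nat_lit 9) (nat_lit 5) (nat_lit 11) (nat_lit 4) (nat_lit 9) (nat_lit 4) (nat_lit 371) (nat_lit 259) (nat_lit 258)) (XT.nd (nat_lit 94) (nat_lit 0) (nat_lit 0) (XT.lf (nat_lit 0) (nat_lit 7999259688) (nat_lit 168) (nat_lit 4703828839) (nat_lit 0) (nat_lit 7081848484) (nat_lit 9) (nat_lit 5) (nat_lit 11) (nat_lit 4) (nat_lit 9) (nat_lit 4) (nat_lit 372) (nat_lit 259) (nat_lit 257)) (XT.lf (nat_lit 0) (nat_lit 10233862666) (nat_lit 168) (nat_lit 1197886222) (nat_lit 0) (nat_lit 8878329068) (nat_lit 9) (nat_lit 5) (nat_lit 11) (nat_lit 4) (nat_lit 9) (nat_lit 4) (nat_lit 373) (nat_lit 259) (nat_lit 256))))) (XT.nd (nat_lit 282) (nat_lit 84)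 (nat_lit 0) (XT.nd (nat_lit 94) (nat_lit 0) (nat_lit 0) (XT.lf (nat_lit 0) (nat_lit 2393649244) (nat_lit 168) (nat_lit 10119658933) (nat_lit 168) (nat_lit 8339176360) (nat_lit 7) (nat_lit 4) (nat_lit 9) (nat_lit 5) (nat_lit 9) (nat_lit 4) (nat_lit 374) (nat_lit 259) (nat_lit 255)) (XT.nd (nat_lit 94) (nat_lit 0) (nat_lit 0) (XT.lf (nat_lit 0) (nat_lit 6051320834) (nat_lit 168) (nat_lit 8777171901) (nat_lit 168) (nat_lit 6584517674) (nat_lit 7) (nat_lit 4) (nat_lit 9) (nat_lit 5) (nat_lit 9) (nat_lit 4) (nat_lit 375) (nat_lit 259) (nat_lit 254)) (XT.lf (nat_lit 0) (nat_lit 9753906882) (nat_lit 168) (nat_lit 7415539929) (nat_lit 168) (nat_lit 4823107183) (nat_lit 7) (nat_lit 4) (nat_lit 9) (nat_lit 5) (nat_lit 9) (nat_lit 4) (nat_lit 376) (nat_lit 259) (nat_lit 253)))) (XT.nd (nat_lit 94) (nat_lit 84) (nat_lit 0) (XT.lf (nat_lit 0) (nat_lit 13504858584) (nat_lit 168) (nat_lit 6033493834)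 (nat_lit 168) (nat_lit 3053303066) (nat_lit 7) (nat_lit 4) (nat_lit 9) (nat_lit 5) (nat_lit 9) (nat_lit 4) (nat_lit 377) (nat_lit 259) (nat_lit 252)) (XT.nd (nat_lit 94) (nat_lit 84) (nat_lit 0) (XT.lf (nat_lit 0) (nat_lit 17307672223) (nat_lit 168) (nat_lit 4629745403) (nat_lit 168) (nat_lit 1273455682) (nat_lit 7) (nat_lit 4) (nat_lit 9) (nat_lit 5) (nat_lit 9) (nat_lit 4) (nat_lit 378) (nat_lit 259) (nat_lit 251)) (XT.lf (nat_lit 0) (nat_lit 507655534) (nat_lit 252) (nat_lit 2690031780) (nat_lit 84) (nat_lit 20652938000) (nat_lit 6) (nat_lit 5) (nat_lit 9) (nat_lit 5) (nat_lit 7) (nat_lit 4) (nat_lit 379) (nat_lit 259) (nat_lit 250)))))) (XT.nd (nat_lit 564) (nat_lit 84) (nat_lit 0) (XT.nd (nat_lit 282) (nat_lit 0) (nat_lit 0) (XT.nd (nat_lit 94) (nat_lit 0) (nat_lit 0) (XT.lf (nat_lit 0) (nat_lit 559354631) (nat_lit 84) (nat_lit 1722406456) (nat_lit 168) (nat_lit 22229338460)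 (nat_lit 5) (nat_lit 5) (nat_lit 6) (nat_lit 5) (nat_lit 7) (nat_lit 4) (nat_lit 380) (nat_lit 259) (nat_lit 249)) (XT.nd (nat_lit 94) (nat_lit 0) (nat_lit 0) (XT.lf (nat_lit 0) (nat_lit 3905486861) (nat_lit 84) (nat_lit 192776204) (nat_lit 168) (nat_lit 21094355368) (nat_lit 5) (nat_lit 5) (nat_lit 6) (nat_lit 5) (nat_lit 7) (nat_lit 4) (nat_lit 381) (nat_lit 259) (nat_lit 248)) (XT.lf (nat_lit 0) (nat_lit 5945156993) (nat_lit 168) (nat_lit 18614026706) (nat_lit 0) (nat_lit 1337058144) (nat_lit 5) (nat_lit 5) (nat_lit 7) (nat_lit 4) (nat_lit 5) (nat_lit 4) (nat_lit 382) (nat_lit 259) (nat_lit 247)))) (XT.nd (nat_lit 94) (nat_lit 0) (nat_lit 0) (XT.lf (nat_lit 0) (nat_lit 7812816758) (nat_lit 168) (nat_lit 15918591093) (nat_lit 0) (nat_lit 2891569555) (nat_lit 5) (nat_lit 5) (nat_lit 7) (nat_lit 4) (nat_lit 5) (nat_lit 4) (nat_lit 383) (nat_lit 259) (nat_lit 246)) (XT.nd (nat_lit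 94) (nat_lit 0) (nat_lit 0) (XT.lf (nat_lit 0) (nat_lit 9701070851) (nat_lit 168) (nat_lit 13196399940) (nat_lit 0) (nat_lit 4476091006) (nat_lit 5) (nat_lit 5) (nat_lit 7) (nat_lit 4) (nat_lit 5) (nat_lit 4) (nat_lit 384) (nat_lit 259) (nat_lit 245)) (XT.lf (nat_lit 0) (nat_lit 11611679322) (nat_lit 168) (nat_lit 10444915881) (nat_lit 0) (nat_lit 6092099437) (nat_lit 5) (nat_lit 5) (nat_lit 7) (nat_lit 4) (nat_lit 5) (nat_lit 4) (nat_lit 385) (nat_lit 259) (nat_lit 244))))) (XT.nd (nat_lit 282) (nat_lit 84) (nat_lit 0) (XT.nd (nat_lit 94) (nat_lit 0) (nat_lit 0) (XT.lf (nat_lit 0) (nat_lit 13546423060) (nat_lit 168) (nat_lit 7661574244) (nat_lit 0) (nat_lit 7741101138) (nat_lit 5) (nat_lit 5) (nat_lit 7) (nat_lit 4) (nat_lit 5) (nat_lit 4) (nat_lit 386) (nat_lit 259) (nat_lit 243)) (XT.nd (nat_lit 94) (nat_lit 0) (nat_lit 0) (XT.lf (nat_lit 0) (nat_lit 15507105448) (nat_lit 168)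 (nat_lit 4843780664) (nat_lit 0) (nat_lit 9424633149) (nat_lit 5) (nat_lit 5) (nat_lit 7) (nat_lit 4) (nat_lit 5) (nat_lit 4) (nat_lit 387) (nat_lit 259) (nat_lit 242)) (XT.lf (nat_lit 0) (nat_lit 17495554047) (nat_lit 168) (nat_lit 1988908660) (nat_lit 0) (nat_lit 11144264701) (nat_lit 5) (nat_lit 5) (nat_lit 7) (nat_lit 4) (nat_lit 5) (nat_lit 4) (nat_lit 388) (nat_lit 259) (nat_lit 241)))) (XT.nd (nat_lit 188) (nat_lit 0) (nat_lit 0) (XT.nd (nat_lit 94) (nat_lit 0) (nat_lit 0) (XT.lf (nat_lit 0) (nat_lit 924325912) (nat_lit 84) (nat_lit 18598465815) (nat_lit 84) (nat_lit 11986442184) (nat_lit 4) (nat_lit 4) (nat_lit 5) (nat_lit 5) (nat_lit 5) (nat_lit 4) (nat_lit 389) (nat_lit 259) (nat_lit 240)) (XT.lf (nat_lit 0) (nat_lit 3921766672) (nat_lit 84) (nat_lit 17680328995) (nat_lit 84) (nat_lit 10815410811) (nat_lit 4) (nat_lit 4) (nat_lit 5) (nat_lit 5) (nat_lit 5) (nat_lit 4) (nat_lit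 390) (nat_lit 259) (nat_lit 239))) (XT.nd (nat_lit 94) (nat_lit 0) (nat_lit 0) (XT.lf (nat_lit 0) (nat_lit 6965311508) (nat_lit 84) (nat_lit 16749956576) (nat_lit 84) (nat_lit 9639747845) (nat_lit 4) (nat_lit 4) (nat_lit 5) (nat_lit 5) (nat_lit 5) (nat_lit 4) (nat_lit 391) (nat_lit 259) (nat_lit 238)) (XT.lf (nat_lit 0) (nat_lit 10057797322) (nat_lit 84) (nat_lit 15806481353) (nat_lit 84) (nat_lit 8458357445) (nat_lit 4) (nat_lit 4) (nat_lit 5) (nat_lit 5) (nat_lit 5) (nat_lit 4) (nat_lit 392) (nat_lit 259) (nat_lit 237))))))) (XT.nd (nat_lit 1222) (nat_lit 0) (nat_lit 0) (XT.nd (nat_lit 564) (nat_lit 168) (nat_lit 0) (XT.nd (nat_lit 282) (nat_lit 0) (nat_lit 0) (XT.nd (nat_lit 94) (nat_lit 0) (nat_lit 0) (XT.lf (nat_lit 0) (nat_lit 13202106634) (nat_lit 84) (nat_lit 14849023908) (nat_lit 84) (nat_lit 7270138433) (nat_lit 4) (nat_lit 4) (nat_lit 5) (nat_lit 5) (nat_lit 5) (nat_lit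 4) (nat_lit 393) (nat_lit 259) (nat_lit 236)) (XT.nd (nat_lit 94) (nat_lit 0) (nat_lit 0) (XT.lf (nat_lit 0) (nat_lit 16401170270) (nat_lit 84) (nat_lit 13876691790) (nat_lit 84) (nat_lit 6073983262) (nat_lit 4) (nat_lit 4) (nat_lit 5) (nat_lit 5) (nat_lit 5) (nat_lit 4) (nat_lit 394) (nat_lit 259) (nat_lit 235)) (XT.lf (nat_lit 0) (nat_lit 19657970093) (nat_lit 84) (nat_lit 12888578685) (nat_lit 84) (nat_lit 4868776992) (nat_lit 4) (nat_lit 4) (nat_lit 5) (nat_lit 5) (nat_lit 5) (nat_lit 4) (nat_lit 395) (nat_lit 259) (nat_lit 234)))) (XT.nd (nat_lit 94) (nat_lit 0) (nat_lit 0) (XT.lf (nat_lit 0) (nat_lit 22975541781) (nat_lit 84) (nat_lit 11883763567) (nat_lit 84) (nat_lit 3653396244) (nat_lit 4) (nat_lit 4) (nat_lit 5) (nat_lit 5) (nat_lit 5) (nat_lit 4) (nat_lit 396) (nat_lit 259) (nat_lit 233)) (XT.nd (nat_lit 94) (nat_lit 0) (nat_lit 0) (XT.lf (nat_lit 0) (nat_lit 26356977659)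 (nat_lit 84) (nat_lit 10861309843) (nat_lit 84) (nat_lit 2426708156) (nat_lit 4) (nat_lit 4) (nat_lit 5) (nat_lit 5) (nat_lit 5) (nat_lit 4) (nat_lit 397) (nat_lit 259) (nat_lit 232)) (XT.lf (nat_lit 0) (nat_lit 29805429579) (nat_lit 84) (nat_lit 9820264480) (nat_lit 84) (nat_lit 1187569325) (nat_lit 4) (nat_lit 4) (nat_lit 5) (nat_lit 5) (nat_lit 5) (nat_lit 4) (nat_lit 398) (nat_lit 259) (nat_lit 231))))) (XT.nd (nat_lit 282) (nat_lit 84) (nat_lit 0) (XT.nd (nat_lit 94) (nat_lit 0) (nat_lit 0) (XT.lf (nat_lit 0) (nat_lit 63862118) (nat_lit 168) (nat_lit 8695128406) (nat_lit 84) (nat_lit 33259583151) (nat_lit 3) (nat_lit 5) (nat_lit 5) (nat_lit 5) (nat_lit 4) (nat_lit 4) (nat_lit 399) (nat_lit 259) (nat_lit 230)) (XT.nd (nat_lit 94) (nat_lit 0) (nat_lit 0) (XT.lf (nat_lit 0) (nat_lit 1305842473) (nat_lit 168) (nat_lit 6359026356) (nat_lit 84) (nat_lit 35596831489) (nat_lit 3) (nat_lit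 5) (nat_lit 5) (nat_lit 5) (nat_lit 4) (nat_lit 4) (nat_lit 400) (nat_lit 259) (nat_lit 229)) (XT.lf (nat_lit 0) (nat_lit 2563456271) (nat_lit 168) (nat_lit 3985569331) (nat_lit 84) (nat_lit 37995141644) (nat_lit 3) (nat_lit 5) (nat_lit 5) (nat_lit 5) (nat_lit 4) (nat_lit 4) (nat_lit 401) (nat_lit 259) (nat_lit 228)))) (XT.nd (nat_lit 188) (nat_lit 0) (nat_lit 0) (XT.nd (nat_lit 94) (nat_lit 84) (nat_lit 0) (XT.lf (nat_lit 0) (nat_lit 3837875739) (nat_lit 168) (nat_lit 1572545019) (nat_lit 84) (nat_lit 40456749093) (nat_lit 3) (nat_lit 5) (nat_lit 5) (nat_lit 5) (nat_lit 4) (nat_lit 4) (nat_lit 402) (nat_lit 259) (nat_lit 227)) (XT.lf (nat_lit 0) (nat_lit 900437581) (nat_lit 84) (nat_lit 4238783640) (nat_lit 168) (nat_lit 42092443181) (nat_lit 2) (nat_lit 5) (nat_lit 3) (nat_lit 5) (nat_lit 4) (nat_lit 4) (nat_lit 403) (nat_lit 259) (nat_lit 226))) (XT.nd (nat_lit 94) (nat_lit 0)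 (nat_lit 0) (XT.lf (nat_lit 0) (nat_lit 3450766461) (nat_lit 84) (nat_lit 3025365596) (nat_lit 168) (nat_lit 42162560480) (nat_lit 2) (nat_lit 5) (nat_lit 3) (nat_lit 5) (nat_lit 4) (nat_lit 4) (nat_lit 404) (nat_lit 259) (nat_lit 225)) (XT.lf (nat_lit 0) (nat_lit 6048484044) (nat_lit 84) (nat_lit 1785449736) (nat_lit 168) (nat_lit 42256125511) (nat_lit 2) (nat_lit 5) (nat_lit 3) (nat_lit 5) (nat_lit 4) (nat_lit 4) (nat_lit 405) (nat_lit 259) (nat_lit 224)))))) (XT.nd (nat_lit 564) (nat_lit 0) (nat_lit 0) (XT.nd (nat_lit 282) (nat_lit 0) (nat_lit 0) (XT.nd (nat_lit 94) (nat_lit 0) (nat_lit 0) (XT.lf (nat_lit 0) (nat_lit 8696011675) (nat_lit 84) (nat_lit 517880331) (nat_lit 168) (nat_lit 42373225486) (nat_lit 2) (nat_lit 5) (nat_lit 3) (nat_lit 5) (nat_lit 4) (nat_lit 4) (nat_lit 406) (nat_lit 259) (nat_lit 223)) (XT.nd (nat_lit 94) (nat_lit 0) (nat_lit 0) (XT.lf (nat_lit 0) (nat_lit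 10625016054) (nat_lit 168) (nat_lit 41743168482) (nat_lit 0) (nat_lit 762838601) (nat_lit 2) (nat_lit 5) (nat_lit 4) (nat_lit 4) (nat_lit 2) (nat_lit 4) (nat_lit 407) (nat_lit 259) (nat_lit 222)) (XT.lf (nat_lit 0) (nat_lit 12066326457) (nat_lit 168) (nat_lit 40594398461) (nat_lit 0) (nat_lit 2062561529) (nat_lit 2) (nat_lit 5) (nat_lit 4) (nat_lit 4) (nat_lit 2) (nat_lit 4) (nat_lit 408) (nat_lit 259) (nat_lit 221)))) (XT.nd (nat_lit 94) (nat_lit 0) (nat_lit 0) (XT.lf (nat_lit 0) (nat_lit 13534029230) (nat_lit 168) (nat_lit 39438587544) (nat_lit 0) (nat_lit 3392934066) (nat_lit 2) (nat_lit 5) (nat_lit 4) (nat_lit 4) (nat_lit 2) (nat_lit 4) (nat_lit 409) (nat_lit 259) (nat_lit 220)) (XT.nd (nat_lit 94) (nat_lit 0) (nat_lit 0) (XT.lf (nat_lit 0) (nat_lit 15029492427) (nat_lit 168) (nat_lit 38274658394) (nat_lit 0) (nat_lit 4755196256) (nat_lit 2) (nat_lit 5) (nat_lit 4) (nat_lit 4)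 (nat_lit 2) (nat_lit 4) (nat_lit 410) (nat_lit 259) (nat_lit 219)) (XT.lf (nat_lit 0) (nat_lit 16554109976) (nat_lit 168) (nat_lit 37101526107) (nat_lit 0) (nat_lit 6150617873) (nat_lit 2) (nat_lit 5) (nat_lit 4) (nat_lit 4) (nat_lit 2) (nat_lit 4) (nat_lit 411) (nat_lit 259) (nat_lit 218))))) (XT.nd (nat_lit 282) (nat_lit 0) (nat_lit 0) (XT.nd (nat_lit 94) (nat_lit 0) (nat_lit 0) (XT.lf (nat_lit 0) (nat_lit 18109302980) (nat_lit 168) (nat_lit 35918097201) (nat_lit 0) (nat_lit 7580499594) (nat_lit 2) (nat_lit 5) (nat_lit 4) (nat_lit 4) (nat_lit 2) (nat_lit 4) (nat_lit 412) (nat_lit 259) (nat_lit 217)) (XT.nd (nat_lit 94) (nat_lit 0) (nat_lit 0) (XT.lf (nat_lit 0) (nat_lit 19696521041) (nat_lit 168) (nat_lit 34723268596) (nat_lit 0) (nat_lit 9046174219) (nat_lit 2) (nat_lit 5) (nat_lit 4) (nat_lit 4) (nat_lit 2) (nat_lit 4) (nat_lit 413) (nat_lit 259) (nat_lit 216)) (XT.lf (nat_lit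 0) (nat_lit 21317243613) (nat_lit 168) (nat_lit 33515926586) (nat_lit 0) (nat_lit 10549007911) (nat_lit 2) (nat_lit 5) (nat_lit 4) (nat_lit 4) (nat_lit 2) (nat_lit 4) (nat_lit 414) (nat_lit 259) (nat_lit 215)))) (XT.nd (nat_lit 188) (nat_lit 0) (nat_lit 0) (XT.nd (nat_lit 94) (nat_lit 0) (nat_lit 0) (XT.lf (nat_lit 0) (nat_lit 22972981380) (nat_lit 168) (nat_lit 32294945803) (nat_lit 0) (nat_lit 12090401468) (nat_lit 2) (nat_lit 5) (nat_lit 4) (nat_lit 4) (nat_lit 2) (nat_lit 4) (nat_lit 415) (nat_lit 259) (nat_lit 214)) (XT.lf (nat_lit 0) (nat_lit 24665277663) (nat_lit 168) (nat_lit 31059188165) (nat_lit 0) (nat_lit 13671791630) (nat_lit 2) (nat_lit 5) (nat_lit 4) (nat_lit 4) (nat_lit 2) (nat_lit 4) (nat_lit 416) (nat_lit 259) (nat_lit 213))) (XT.nd (nat_lit 94) (nat_lit 0) (nat_lit 0) (XT.lf (nat_lit 0) (nat_lit 26395709858) (nat_lit 168) (nat_lit 29807501816) (nat_lit 0) (nat_lit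 15294652418) (nat_lit 2) (nat_lit 5) (nat_lit 4) (nat_lit 4) (nat_lit 2) (nat_lit 4) (nat_lit 417) (nat_lit 259) (nat_lit 212)) (XT.lf (nat_lit 0) (nat_lit 28165890910) (nat_lit 168) (nat_lit 28538720053) (nat_lit 0) (nat_lit 16960496510) (nat_lit 2) (nat_lit 5) (nat_lit 4) (nat_lit 4) (nat_lit 2) (nat_lit 4) (nat_lit 418) (nat_lit 259) (nat_lit 211))))))))
noncomputable def xc17 : XT := (XT.nd (nat_lit 52640) (nat_lit 0) (nat_lit 0) (XT.nd (nat_lit 51418) (nat_lit 0) (nat_lit 252) (XT.nd (nat_lit 564) (nat_lit 0) (nat_lit 0) (XT.nd (nat_lit 282) (nat_lit 0) (nat_lit 0) (XT.nd (nat_lit 94) (nat_lit 0) (nat_lit 0) (XT.lf (nat_lit 0) (nat_lit 29977470813) (nat_lit 168) (nat_lit 27251660238) (nat_lit 0) (nat_lit 18670876645) (nat_lit 2) (nat_lit 5) (nat_lit 4) (nat_lit 4) (nat_lit 2) (nat_lit 4) (nat_lit 419) (nat_lit 259) (nat_lit 210)) (XT.nd (nat_lit 94) (nat_lit 0) (nat_lit 0) (XT.lf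 (nat_lit 0) (nat_lit 31832138150) (nat_lit 168) (nat_lit 25945122698) (nat_lit 0) (nat_lit 20427387077) (nat_lit 2) (nat_lit 5) (nat_lit 4) (nat_lit 4) (nat_lit 2) (nat_lit 4) (nat_lit 420) (nat_lit 259) (nat_lit 209)) (XT.lf (nat_lit 0) (nat_lit 33731621665) (nat_lit 168) (nat_lit 24617889601) (nat_lit 0) (nat_lit 22231665059) (nat_lit 2) (nat_lit 5) (nat_lit 4) (nat_lit 4) (nat_lit 2) (nat_lit 4) (nat_lit 421) (nat_lit 259) (nat_lit 208)))) (XT.nd (nat_lit 94) (nat_lit 0) (nat_lit 0) (XT.lf (nat_lit 0) (nat_lit 35677691874) (nat_lit 168) (nat_lit 23268723829) (nat_lit 0) (nat_lit 24085392366) (nat_lit 2) (nat_lit 5) (nat_lit 4) (nat_lit 4) (nat_lit 2) (nat_lit 4) (nat_lit 422) (nat_lit 259) (nat_lit 207)) (XT.nd (nat_lit 94) (nat_lit 0) (nat_lit 0) (XT.lf (nat_lit 0) (nat_lit 37672162720) (nat_lit 168) (nat_lit 21896367817) (nat_lit 0) (nat_lit 25990296866) (nat_lit 2) (nat_lit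 5) (nat_lit 4) (nat_lit 4) (nat_lit 2) (nat_lit 4) (nat_lit 423) (nat_lit 259) (nat_lit 206)) (XT.lf (nat_lit 0) (nat_lit 39716893259) (nat_lit 168) (nat_lit 20499542385) (nat_lit 0) (nat_lit 27948154130) (nat_lit 2) (nat_lit 5) (nat_lit 4) (nat_lit 4) (nat_lit 2) (nat_lit 4) (nat_lit 424) (nat_lit 259) (nat_lit 205))))) (XT.nd (nat_lit 50572) (nat_lit 0) (nat_lit 588) (XT.nd (nat_lit 50384) (nat_lit 0) (nat_lit 588) (XT.lf (nat_lit 0) (nat_lit 41813789392) (nat_lit 168) (nat_lit 19076945546) (nat_lit 0) (nat_lit 29960789086) (nat_lit 2) (nat_lit 5) (nat_lit 4) (nat_lit 4) (nat_lit 2) (nat_lit 4) (nat_lit 425) (nat_lit 259) (nat_lit 204)) (XT.nd (nat_lit 94) (nat_lit 168) (nat_lit 0) (XT.lf (nat_lit 0) (nat_lit 8666800772) (nat_lit 168) (nat_lit 129989659) (nat_lit 168) (nat_lit 129989659) (nat_lit 11) (nat_lit 4) (nat_lit 13) (nat_lit 5) (nat_lit 13) (nat_lit 4) (nat_lit 368) (nat_lit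 260) (nat_lit 260)) (XT.lf (nat_lit 0) (nat_lit 1881435972) (nat_lit 168) (nat_lit 15029982924) (nat_lit 0) (nat_lit 1401292037) (nat_lit 9) (nat_lit 5) (nat_lit 11) (nat_lit 4) (nat_lit 9) (nat_lit 4) (nat_lit 369) (nat_lit 260) (nat_lit 259)))) (XT.nd (nat_lit 94) (nat_lit 0) (nat_lit 0) (XT.lf (nat_lit 0) (nat_lit 4039180446) (nat_lit 168) (nat_lit 11655138159) (nat_lit 0) (nat_lit 3093329494) (nat_lit 9) (nat_lit 5) (nat_lit 11) (nat_lit 4) (nat_lit 9) (nat_lit 4) (nat_lit 370) (nat_lit 260) (nat_lit 258)) (XT.nd (nat_lit 94) (nat_lit 0) (nat_lit 0) (XT.lf (nat_lit 0) (nat_lit 6212606371) (nat_lit 168) (nat_lit 8251481531) (nat_lit 0) (nat_lit 4815051232) (nat_lit 9) (nat_lit 5) (nat_lit 11) (nat_lit 4) (nat_lit 9) (nat_lit 4) (nat_lit 371) (nat_lit 260) (nat_lit 257)) (XT.lf (nat_lit 0) (nat_lit 8403739606) (nat_lit 168) (nat_lit 4815840475) (nat_lit 0) (nat_lit 6568062073)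 (nat_lit 9) (nat_lit 5) (nat_lit 11) (nat_lit 4) (nat_lit 9) (nat_lit 4) (nat_lit 372) (nat_lit 260) (nat_lit 256)))))) (XT.nd (nat_lit 564) (nat_lit 168) (nat_lit 0) (XT.nd (nat_lit 282) (nat_lit 0) (nat_lit 0) (XT.nd (nat_lit 94) (nat_lit 168) (nat_lit 0) (XT.lf (nat_lit 0) (nat_lit 10614622518) (nat_lit 168) (nat_lit 1345012614) (nat_lit 0) (nat_lit 8353996010) (nat_lit 9) (nat_lit 5) (nat_lit 11) (nat_lit 4) (nat_lit 9) (nat_lit 4) (nat_lit 373) (nat_lit 260) (nat_lit 255)) (XT.nd (nat_lit 94) (nat_lit 0) (nat_lit 0) (XT.lf (nat_lit 0) (nat_lit 2208738383) (nat_lit 168) (nat_lit 10660488455) (nat_lit 168) (nat_lit 7987690293) (nat_lit 7) (nat_lit 4) (nat_lit 9) (nat_lit 5) (nat_lit 9) (nat_lit 4) (nat_lit 374) (nat_lit 260) (nat_lit 254)) (XT.lf (nat_lit 0) (nat_lit 5832695860) (nat_lit 168) (nat_lit 9329066001) (nat_lit 168) (nat_lit 6256489319) (nat_lit 7) (nat_lit 4) (nat_lit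 9) (nat_lit 5) (nat_lit 9) (nat_lit 4) (nat_lit 375) (nat_lit 260) (nat_lit 253)))) (XT.nd (nat_lit 94) (nat_lit 0) (nat_lit 0) (XT.lf (nat_lit 0) (nat_lit 9502581508) (nat_lit 168) (nat_lit 7978165918) (nat_lit 168) (nat_lit 4517831216) (nat_lit 7) (nat_lit 4) (nat_lit 9) (nat_lit 5) (nat_lit 9) (nat_lit 4) (nat_lit 376) (nat_lit 260) (nat_lit 252)) (XT.nd (nat_lit 94) (nat_lit 0) (nat_lit 0) (XT.lf (nat_lit 0) (nat_lit 13221816043) (nat_lit 168) (nat_lit 6606529027) (nat_lit 168) (nat_lit 2770095371) (nat_lit 7) (nat_lit 4) (nat_lit 9) (nat_lit 5) (nat_lit 9) (nat_lit 4) (nat_lit 377) (nat_lit 260) (nat_lit 251)) (XT.lf (nat_lit 0) (nat_lit 16993866182) (nat_lit 168) (nat_lit 5212876818) (nat_lit 168) (nat_lit 1011652713) (nat_lit 7) (nat_lit 4) (nat_lit 9) (nat_lit 5) (nat_lit 9) (nat_lit 4) (nat_lit 378) (nat_lit 260) (nat_lit 250))))) (XT.nd (nat_lit 282) (nat_lit 0) (nat_lit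 0) (XT.nd (nat_lit 94) (nat_lit 84) (nat_lit 0) (XT.lf (nat_lit 0) (nat_lit 743840917) (nat_lit 252) (nat_lit 3044305169) (nat_lit 84) (nat_lit 20070642780) (nat_lit 6) (nat_lit 5) (nat_lit 9) (nat_lit 5) (nat_lit 7) (nat_lit 4) (nat_lit 379) (nat_lit 260) (nat_lit 249)) (XT.nd (nat_lit 94) (nat_lit 0) (nat_lit 0) (XT.lf (nat_lit 0) (nat_lit 167756073) (nat_lit 84) (nat_lit 2326574519) (nat_lit 168) (nat_lit 22025752894) (nat_lit 5) (nat_lit 5) (nat_lit 6) (nat_lit 5) (nat_lit 7) (nat_lit 4) (nat_lit 380) (nat_lit 260) (nat_lit 248)) (XT.lf (nat_lit 0) (nat_lit 3484750977) (nat_lit 84) (nat_lit 806654647) (nat_lit 168) (nat_lit 20910884620) (nat_lit 5) (nat_lit 5) (nat_lit 6) (nat_lit 5) (nat_lit 7) (nat_lit 4) (nat_lit 381) (nat_lit 260) (nat_lit 247)))) (XT.nd (nat_lit 188) (nat_lit 0) (nat_lit 0) (XT.nd (nat_lit 94) (nat_lit 0) (nat_lit 0) (XT.lf (nat_lit 0) (nat_lit 6113273553)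 (nat_lit 168) (nat_lit 19067179637) (nat_lit 0) (nat_lit 726319334) (nat_lit 5) (nat_lit 5) (nat_lit 7) (nat_lit 4) (nat_lit 5) (nat_lit 4) (nat_lit 382) (nat_lit 260) (nat_lit 246)) (XT.lf (nat_lit 0) (nat_lit 7962566443) (nat_lit 168) (nat_lit 16399712003) (nat_lit 0) (nat_lit 2271879581) (nat_lit 5) (nat_lit 5) (nat_lit 7) (nat_lit 4) (nat_lit 5) (nat_lit 4) (nat_lit 383) (nat_lit 260) (nat_lit 245))) (XT.nd (nat_lit 94) (nat_lit 0) (nat_lit 0) (XT.lf (nat_lit 0) (nat_lit 9833005913) (nat_lit 168) (nat_lit 13704647891) (nat_lit 0) (nat_lit 3847719011) (nat_lit 5) (nat_lit 5) (nat_lit 7) (nat_lit 4) (nat_lit 5) (nat_lit 4) (nat_lit 384) (nat_lit 260) (nat_lit 244)) (XT.lf (nat_lit 0) (nat_lit 11726335411) (nat_lit 168) (nat_lit 10979475219) (nat_lit 0) (nat_lit 5455306471) (nat_lit 5) (nat_lit 5) (nat_lit 7) (nat_lit 4) (nat_lit 5) (nat_lit 4) (nat_lit 385) (nat_lit 260) (nat_lit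 243))))))) (XT.nd (nat_lit 1222) (nat_lit 168) (nat_lit 0) (XT.nd (nat_lit 564) (nat_lit 0) (nat_lit 0) (XT.nd (nat_lit 282) (nat_lit 84) (nat_lit 0) (XT.nd (nat_lit 94) (nat_lit 0) (nat_lit 0) (XT.lf (nat_lit 0) (nat_lit 13644319717) (nat_lit 168) (nat_lit 8221653842) (nat_lit 0) (nat_lit 7096140401) (nat_lit 5) (nat_lit 5) (nat_lit 7) (nat_lit 4) (nat_lit 5) (nat_lit 4) (nat_lit 386) (nat_lit 260) (nat_lit 242)) (XT.nd (nat_lit 94) (nat_lit 0) (nat_lit 0) (XT.lf (nat_lit 0) (nat_lit 15588746594) (nat_lit 168) (nat_lit 5428613180) (nat_lit 0) (nat_lit 8771750230) (nat_lit 5) (nat_lit 5) (nat_lit 7) (nat_lit 4) (nat_lit 5) (nat_lit 4) (nat_lit 387) (nat_lit 260) (nat_lit 241)) (XT.lf (nat_lit 0) (nat_lit 17561428451) (nat_lit 168) (nat_lit 2597749828) (nat_lit 0) (nat_lit 10483697803) (nat_lit 5) (nat_lit 5) (nat_lit 7) (nat_lit 4) (nat_lit 5) (nat_lit 4) (nat_lit 388) (nat_lit 260)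 (nat_lit 240)))) (XT.nd (nat_lit 94) (nat_lit 0) (nat_lit 0) (XT.lf (nat_lit 0) (nat_lit 279200137) (nat_lit 84) (nat_lit 19287773597) (nat_lit 84) (nat_lit 11957148395) (nat_lit 4) (nat_lit 4) (nat_lit 5) (nat_lit 5) (nat_lit 5) (nat_lit 4) (nat_lit 389) (nat_lit 260) (nat_lit 239)) (XT.nd (nat_lit 94) (nat_lit 0) (nat_lit 0) (XT.lf (nat_lit 0) (nat_lit 3253589894) (nat_lit 84) (nat_lit 18377626261) (nat_lit 84) (nat_lit 10801710513) (nat_lit 4) (nat_lit 4) (nat_lit 5) (nat_lit 5) (nat_lit 5) (nat_lit 4) (nat_lit 390) (nat_lit 260) (nat_lit 238)) (XT.lf (nat_lit 0) (nat_lit 6274776821) (nat_lit 84) (nat_lit 17455003099) (nat_lit 84) (nat_lit 9641172175) (nat_lit 4) (nat_lit 4) (nat_lit 5) (nat_lit 5) (nat_lit 5) (nat_lit 4) (nat_lit 391) (nat_lit 260) (nat_lit 237))))) (XT.nd (nat_lit 282) (nat_lit 0) (nat_lit 0) (XT.nd (nat_lit 94) (nat_lit 0) (nat_lit 0) (XT.lf (nat_lit 0) (nat_lit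 9345576981) (nat_lit 84) (nat_lit 16519044129) (nat_lit 84) (nat_lit 8474451637) (nat_lit 4) (nat_lit 4) (nat_lit 5) (nat_lit 5) (nat_lit 5) (nat_lit 4) (nat_lit 392) (nat_lit 260) (nat_lit 236)) (XT.nd (nat_lit 94) (nat_lit 0) (nat_lit 0) (XT.lf (nat_lit 0) (nat_lit 12468852682) (nat_lit 84) (nat_lit 15568876939) (nat_lit 84) (nat_lit 7300461394) (nat_lit 4) (nat_lit 4) (nat_lit 5) (nat_lit 5) (nat_lit 5) (nat_lit 4) (nat_lit 393) (nat_lit 260) (nat_lit 235)) (XT.lf (nat_lit 0) (nat_lit 15647515144) (nat_lit 84) (nat_lit 14603615874) (nat_lit 84) (nat_lit 6118107164) (nat_lit 4) (nat_lit 4) (nat_lit 5) (nat_lit 5) (nat_lit 5) (nat_lit 4) (nat_lit 394) (nat_lit 260) (nat_lit 234)))) (XT.nd (nat_lit 188) (nat_lit 0) (nat_lit 0) (XT.nd (nat_lit 94) (nat_lit 0) (nat_lit 0) (XT.lf (nat_lit 0) (nat_lit 18884527212) (nat_lit 84) (nat_lit 13622361210) (nat_lit 84) (nat_lit 4926286870) (nat_lit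 4) (nat_lit 4) (nat_lit 5) (nat_lit 5) (nat_lit 5) (nat_lit 4) (nat_lit 395) (nat_lit 260) (nat_lit 233)) (XT.lf (nat_lit 0) (nat_lit 22182906122) (nat_lit 84) (nat_lit 12624198314) (nat_lit 84) (nat_lit 3723889609) (nat_lit 4) (nat_lit 4) (nat_lit 5) (nat_lit 5) (nat_lit 5) (nat_lit 4) (nat_lit 396) (nat_lit 260) (nat_lit 232))) (XT.nd (nat_lit 94) (nat_lit 0) (nat_lit 0) (XT.lf (nat_lit 0) (nat_lit 25545726308) (nat_lit 84) (nat_lit 11608196794) (nat_lit 84) (nat_lit 2509794622) (nat_lit 4) (nat_lit 4) (nat_lit 5) (nat_lit 5) (nat_lit 5) (nat_lit 4) (nat_lit 397) (nat_lit 260) (nat_lit 231)) (XT.lf (nat_lit 0) (nat_lit 28976122270) (nat_lit 84) (nat_lit 10573409630) (nat_lit 84) (nat_lit 1282870244) (nat_lit 4) (nat_lit 4) (nat_lit 5) (nat_lit 5) (nat_lit 5) (nat_lit 4) (nat_lit 398) (nat_lit 260) (nat_lit 230)))))) (XT.nd (nat_lit 564) (nat_lit 0) (nat_lit 0) (XT.nd (nat_lit 282)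 (nat_lit 84) (nat_lit 0) (XT.nd (nat_lit 94) (nat_lit 84) (nat_lit 0) (XT.lf (nat_lit 0) (nat_lit 32477291498) (nat_lit 84) (nat_lit 9518872293) (nat_lit 84) (nat_lit 41972854) (nat_lit 4) (nat_lit 4) (nat_lit 5) (nat_lit 5) (nat_lit 5) (nat_lit 4) (nat_lit 399) (nat_lit 260) (nat_lit 229)) (XT.nd (nat_lit 94) (nat_lit 0) (nat_lit 0) (XT.lf (nat_lit 0) (nat_lit 1189593707) (nat_lit 168) (nat_lit 7241591216) (nat_lit 84) (nat_lit 34850486821) (nat_lit 3) (nat_lit 5) (nat_lit 5) (nat_lit 5) (nat_lit 4) (nat_lit 4) (nat_lit 400) (nat_lit 260) (nat_lit 228)) (XT.lf (nat_lit 0) (nat_lit 2436286599) (nat_lit 168) (nat_lit 4884879578) (nat_lit 84) (nat_lit 37243356149) (nat_lit 3) (nat_lit 5) (nat_lit 5) (nat_lit 5) (nat_lit 4) (nat_lit 4) (nat_lit 401) (nat_lit 260) (nat_lit 227)))) (XT.nd (nat_lit 94) (nat_lit 84) (nat_lit 0) (XT.lf (nat_lit 0) (nat_lit 3700113531) (nat_lit 168) (nat_lit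 2488097154) (nat_lit 84) (nat_lit 39699686363) (nat_lit 3) (nat_lit 5) (nat_lit 5) (nat_lit 5) (nat_lit 4) (nat_lit 4) (nat_lit 402) (nat_lit 260) (nat_lit 226)) (XT.nd (nat_lit 94) (nat_lit 84) (nat_lit 0) (XT.lf (nat_lit 0) (nat_lit 4982252521) (nat_lit 168) (nat_lit 49009893) (nat_lit 84) (nat_lit 42221767023) (nat_lit 3) (nat_lit 5) (nat_lit 5) (nat_lit 5) (nat_lit 4) (nat_lit 4) (nat_lit 403) (nat_lit 260) (nat_lit 225)) (XT.lf (nat_lit 0) (nat_lit 2484717203) (nat_lit 84) (nat_lit 3823830155) (nat_lit 168) (nat_lit 42351880469) (nat_lit 2) (nat_lit 5) (nat_lit 3) (nat_lit 5) (nat_lit 4) (nat_lit 4) (nat_lit 404) (nat_lit 260) (nat_lit 224))))) (XT.nd (nat_lit 282) (nat_lit 0) (nat_lit 0) (XT.nd (nat_lit 94) (nat_lit 0) (nat_lit 0) (XT.lf (nat_lit 0) (nat_lit 5067309628) (nat_lit 84) (nat_lit 2589223919) (nat_lit 168) (nat_lit 42455605237) (nat_lit 2) (nat_lit 5) (nat_lit 3)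 (nat_lit 5) (nat_lit 4) (nat_lit 4) (nat_lit 405) (nat_lit 260) (nat_lit 223)) (XT.nd (nat_lit 94) (nat_lit 0) (nat_lit 0) (XT.lf (nat_lit 0) (nat_lit 7700166881) (nat_lit 84) (nat_lit 1326804488) (nat_lit 168) (nat_lit 42582559468) (nat_lit 2) (nat_lit 5) (nat_lit 3) (nat_lit 5) (nat_lit 4) (nat_lit 4) (nat_lit 406) (nat_lit 260) (nat_lit 222)) (XT.lf (nat_lit 0) (nat_lit 10385743062) (nat_lit 84) (nat_lit 35395155) (nat_lit 168) (nat_lit 42732861495) (nat_lit 2) (nat_lit 5) (nat_lit 3) (nat_lit 5) (nat_lit 4) (nat_lit 4) (nat_lit 407) (nat_lit 260) (nat_lit 221)))) (XT.nd (nat_lit 188) (nat_lit 0) (nat_lit 0) (XT.nd (nat_lit 94) (nat_lit 0) (nat_lit 0) (XT.lf (nat_lit 0) (nat_lit 11853092940) (nat_lit 168) (nat_lit 41633202947) (nat_lit 0) (nat_lit 1260293588) (nat_lit 2) (nat_lit 5) (nat_lit 4) (nat_lit 4) (nat_lit 2) (nat_lit 4) (nat_lit 408) (nat_lit 260) (nat_lit 220)) (XT.lf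 (nat_lit 0) (nat_lit 13312061907) (nat_lit 168) (nat_lit 40491036493) (nat_lit 0) (nat_lit 2586061548) (nat_lit 2) (nat_lit 5) (nat_lit 4) (nat_lit 4) (nat_lit 2) (nat_lit 4) (nat_lit 409) (nat_lit 260) (nat_lit 219))) (XT.nd (nat_lit 94) (nat_lit 0) (nat_lit 0) (XT.lf (nat_lit 0) (nat_lit 14799053904) (nat_lit 168) (nat_lit 39340341547) (nat_lit 0) (nat_lit 3943857613) (nat_lit 2) (nat_lit 5) (nat_lit 4) (nat_lit 4) (nat_lit 2) (nat_lit 4) (nat_lit 410) (nat_lit 260) (nat_lit 218)) (XT.lf (nat_lit 0) (nat_lit 16315454963) (nat_lit 168) (nat_lit 38180045538) (nat_lit 0) (nat_lit 5334947390) (nat_lit 2) (nat_lit 5) (nat_lit 4) (nat_lit 4) (nat_lit 2) (nat_lit 4) (nat_lit 411) (nat_lit 260) (nat_lit 217))))))))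
noncomputable def xc18 : XT := (XT.nd (nat_lit 52546) (nat_lit 0) (nat_lit 84) (XT.nd (nat_lit 1128) (nat_lit 0) (nat_lit 0) (XT.nd (nat_lit 564) (nat_lit 0) (nat_lit 0) (XT.nd (nat_lit 282) (nat_lit 0) (nat_lit 0) (XT.nd (nat_lit 94) (nat_lit 0) (nat_lit 0) (XT.lf (nat_lit 0) (nat_lit 17862678530) (nat_lit 168) (nat_lit 37009066951) (nat_lit 0) (nat_lit 6760627521) (nat_lit 2) (nat_lit 5) (nat_lit 4) (nat_lit 4) (nat_lit 2) (nat_lit 4) (nat_lit 412) (nat_lit 260) (nat_lit 216)) (XT.nd (nat_lit 94) (nat_lit 0) (nat_lit 0) (XT.lf (nat_lit 0) (nat_lit 19442166779) (nat_lit 168) (nat_lit 35826314309) (nat_lit 0) (nat_lit 8222226890) (nat_lit 2) (nat_lit 5) (nat_lit 4) (nat_lit 4) (nat_lit 2) (nat_lit 4) (nat_lit 413) (nat_lit 260) (nat_lit 215)) (XT.lf (nat_lit 0) (nat_lit 21055391959) (nat_lit 168) (nat_lit 34630685165) (nat_lit 0) (nat_lit 9721107859) (nat_lit 2) (nat_lit 5) (nat_lit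 4) (nat_lit 4) (nat_lit 2) (nat_lit 4) (nat_lit 414) (nat_lit 260) (nat_lit 214)))) (XT.nd (nat_lit 94) (nat_lit 0) (nat_lit 0) (XT.lf (nat_lit 0) (nat_lit 22703857763) (nat_lit 168) (nat_lit 33421065066) (nat_lit 0) (nat_lit 11258667543) (nat_lit 2) (nat_lit 5) (nat_lit 4) (nat_lit 4) (nat_lit 2) (nat_lit 4) (nat_lit 415) (nat_lit 260) (nat_lit 213)) (XT.nd (nat_lit 94) (nat_lit 0) (nat_lit 0) (XT.lf (nat_lit 0) (nat_lit 24389100736) (nat_lit 168) (nat_lit 32196326520) (nat_lit 0) (nat_lit 12836339109) (nat_lit 2) (nat_lit 5) (nat_lit 4) (nat_lit 4) (nat_lit 2) (nat_lit 4) (nat_lit 416) (nat_lit 260) (nat_lit 212)) (XT.lf (nat_lit 0) (nat_lit 26112691700) (nat_lit 168) (nat_lit 30955327942) (nat_lit 0) (nat_lit 14455593112) (nat_lit 2) (nat_lit 5) (nat_lit 4) (nat_lit 4) (nat_lit 2) (nat_lit 4) (nat_lit 417) (nat_lit 260) (nat_lit 211))))) (XT.nd (nat_lit 282) (nat_lit 0) (nat_lit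 0) (XT.nd (nat_lit 94) (nat_lit 0) (nat_lit 0) (XT.lf (nat_lit 0) (nat_lit 27876237222) (nat_lit 168) (nat_lit 29696912591) (nat_lit 0) (nat_lit 16117938866) (nat_lit 2) (nat_lit 5) (nat_lit 4) (nat_lit 4) (nat_lit 2) (nat_lit 4) (nat_lit 418) (nat_lit 260) (nat_lit 210)) (XT.nd (nat_lit 94) (nat_lit 0) (nat_lit 0) (XT.lf (nat_lit 0) (nat_lit 29681381112) (nat_lit 168) (nat_lit 28419907492) (nat_lit 0) (nat_lit 17824925852) (nat_lit 2) (nat_lit 5) (nat_lit 4) (nat_lit 4) (nat_lit 2) (nat_lit 4) (nat_lit 419) (nat_lit 260) (nat_lit 209)) (XT.lf (nat_lit 0) (nat_lit 31529805953) (nat_lit 168) (nat_lit 27123122343) (nat_lit 0) (nat_lit 19578145160) (nat_lit 2) (nat_lit 5) (nat_lit 4) (nat_lit 4) (nat_lit 2) (nat_lit 4) (nat_lit 420) (nat_lit 260) (nat_lit 208)))) (XT.nd (nat_lit 94) (nat_lit 0) (nat_lit 0) (XT.lf (nat_lit 0) (nat_lit 33423234669) (nat_lit 168) (nat_lit 25805348405)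 (nat_lit 0) (nat_lit 21379230974) (nat_lit 2) (nat_lit 5) (nat_lit 4) (nat_lit 4) (nat_lit 2) (nat_lit 4) (nat_lit 421) (nat_lit 260) (nat_lit 207)) (XT.nd (nat_lit 94) (nat_lit 0) (nat_lit 0) (XT.lf (nat_lit 0) (nat_lit 35363432137) (nat_lit 168) (nat_lit 24465357374) (nat_lit 0) (nat_lit 23229862095) (nat_lit 2) (nat_lit 5) (nat_lit 4) (nat_lit 4) (nat_lit 2) (nat_lit 4) (nat_lit 422) (nat_lit 260) (nat_lit 206)) (XT.lf (nat_lit 0) (nat_lit 37352206821) (nat_lit 168) (nat_lit 23101900237) (nat_lit 0) (nat_lit 25131763505) (nat_lit 2) (nat_lit 5) (nat_lit 4) (nat_lit 4) (nat_lit 2) (nat_lit 4) (nat_lit 423) (nat_lit 260) (nat_lit 205)))))) (XT.nd (nat_lit 50760) (nat_lit 0) (nat_lit 420) (XT.nd (nat_lit 50478) (nat_lit 0) (nat_lit 588) (XT.nd (nat_lit 50290) (nat_lit 0) (nat_lit 756) (XT.lf (nat_lit 0) (nat_lit 39391412470) (nat_lit 168) (nat_lit 21713706111) (nat_lit 0) (nat_lit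 27086707976) (nat_lit 2) (nat_lit 5) (nat_lit 4) (nat_lit 4) (nat_lit 2) (nat_lit 4) (nat_lit 424) (nat_lit 260) (nat_lit 204)) (XT.nd (nat_lit 94) (nat_lit 0) (nat_lit 0) (XT.lf (nat_lit 0) (nat_lit 4533818900) (nat_lit 168) (nat_lit 1977326176) (nat_lit 168) (nat_lit 1977326176) (nat_lit 11) (nat_lit 4) (nat_lit 13) (nat_lit 5) (nat_lit 13) (nat_lit 4) (nat_lit 366) (nat_lit 261) (nat_lit 261)) (XT.lf (nat_lit 0) (nat_lit 13156517231) (nat_lit 168) (nat_lit 2380972022) (nat_lit 168) (nat_lit 1870597745) (nat_lit 11) (nat_lit 4) (nat_lit 13) (nat_lit 5) (nat_lit 13) (nat_lit 4) (nat_lit 367) (nat_lit 261) (nat_lit 260)))) (XT.nd (nat_lit 94) (nat_lit 84) (nat_lit 0) (XT.lf (nat_lit 0) (nat_lit 219055044) (nat_lit 252) (nat_lit 560501878) (nat_lit 84) (nat_lit 17074868764) (nat_lit 10) (nat_lit 5) (nat_lit 13) (nat_lit 5) (nat_lit 11) (nat_lit 4) (nat_lit 368) (nat_lit 261) (nat_lit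 259)) (XT.nd (nat_lit 94) (nat_lit 0) (nat_lit 0) (XT.lf (nat_lit 0) (nat_lit 2323668272) (nat_lit 168) (nat_lit 15108141306) (nat_lit 0) (nat_lit 882788923) (nat_lit 9) (nat_lit 5) (nat_lit 11) (nat_lit 4) (nat_lit 9) (nat_lit 4) (nat_lit 369) (nat_lit 261) (nat_lit 258)) (XT.lf (nat_lit 0) (nat_lit 4456199242) (nat_lit 168) (nat_lit 11770622157) (nat_lit 0) (nat_lit 2563615706) (nat_lit 9) (nat_lit 5) (nat_lit 11) (nat_lit 4) (nat_lit 9) (nat_lit 4) (nat_lit 370) (nat_lit 261) (nat_lit 257))))) (XT.nd (nat_lit 282) (nat_lit 168) (nat_lit 0) (XT.nd (nat_lit 94) (nat_lit 0) (nat_lit 0) (XT.lf (nat_lit 0) (nat_lit 6605169778) (nat_lit 168) (nat_lit 8403168841) (nat_lit 0) (nat_lit 4274463849) (nat_lit 9) (nat_lit 5) (nat_lit 11) (nat_lit 4) (nat_lit 9) (nat_lit 4) (nat_lit 371) (nat_lit 261) (nat_lit 256)) (XT.nd (nat_lit 94) (nat_lit 0) (nat_lit 0) (XT.lf (nat_lit 0) (nat_lit 8772582947)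 (nat_lit 168) (nat_lit 5002642540) (nat_lit 0) (nat_lit 6016928043) (nat_lit 9) (nat_lit 5) (nat_lit 11) (nat_lit 4) (nat_lit 9) (nat_lit 4) (nat_lit 372) (nat_lit 261) (nat_lit 255)) (XT.lf (nat_lit 0) (nat_lit 10960459005) (nat_lit 168) (nat_lit 1565873607) (nat_lit 0) (nat_lit 7792632447) (nat_lit 9) (nat_lit 5) (nat_lit 11) (nat_lit 4) (nat_lit 9) (nat_lit 4) (nat_lit 373) (nat_lit 261) (nat_lit 254)))) (XT.nd (nat_lit 188) (nat_lit 0) (nat_lit 0) (XT.nd (nat_lit 94) (nat_lit 0) (nat_lit 0) (XT.lf (nat_lit 0) (nat_lit 1949621923) (nat_lit 168) (nat_lit 11240555849) (nat_lit 168) (nat_lit 7672950771) (nat_lit 7) (nat_lit 4) (nat_lit 9) (nat_lit 5) (nat_lit 9) (nat_lit 4) (nat_lit 374) (nat_lit 261) (nat_lit 253)) (XT.lf (nat_lit 0) (nat_lit 5540879001) (nat_lit 168) (nat_lit 9919865285) (nat_lit 168) (nat_lit 5964502186) (nat_lit 7) (nat_lit 4) (nat_lit 9) (nat_lit 5) (nat_lit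 9) (nat_lit 4) (nat_lit 375) (nat_lit 261) (nat_lit 252))) (XT.nd (nat_lit 94) (nat_lit 0) (nat_lit 0) (XT.lf (nat_lit 0) (nat_lit 9179047481) (nat_lit 168) (nat_lit 8579374406) (nat_lit 168) (nat_lit 4247912354) (nat_lit 7) (nat_lit 4) (nat_lit 9) (nat_lit 5) (nat_lit 9) (nat_lit 4) (nat_lit 376) (nat_lit 261) (nat_lit 251)) (XT.lf (nat_lit 0) (nat_lit 12867518517) (nat_lit 168) (nat_lit 7217833737) (nat_lit 168) (nat_lit 2521581235) (nat_lit 7) (nat_lit 4) (nat_lit 9) (nat_lit 5) (nat_lit 9) (nat_lit 4) (nat_lit 377) (nat_lit 261) (nat_lit 250))))))) (XT.nd (nat_lit 1222) (nat_lit 84) (nat_lit 0) (XT.nd (nat_lit 564) (nat_lit 84) (nat_lit 0) (XT.nd (nat_lit 282) (nat_lit 84) (nat_lit 0) (XT.nd (nat_lit 94) (nat_lit 84) (nat_lit 0) (XT.lf (nat_lit 0) (nat_lit 16609730150) (nat_lit 168) (nat_lit 5833974176) (nat_lit 168) (nat_lit 783899706) (nat_lit 7) (nat_lit 4) (nat_lit 9) (nat_lit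 5) (nat_lit 9) (nat_lit 4) (nat_lit 378) (nat_lit 261) (nat_lit 249)) (XT.nd (nat_lit 94) (nat_lit 0) (nat_lit 0) (XT.lf (nat_lit 0) (nat_lit 947274035) (nat_lit 252) (nat_lit 3469344191) (nat_lit 84) (nat_lit 19452008882) (nat_lit 6) (nat_lit 5) (nat_lit 9) (nat_lit 5) (nat_lit 7) (nat_lit 4) (nat_lit 379) (nat_lit 261) (nat_lit 248)) (XT.lf (nat_lit 0) (nat_lit 2676961650) (nat_lit 252) (nat_lit 289213132) (nat_lit 84) (nat_lit 21564477447) (nat_lit 6) (nat_lit 5) (nat_lit 9) (nat_lit 5) (nat_lit 7) (nat_lit 4) (nat_lit 380) (nat_lit 261) (nat_lit 247)))) (XT.nd (nat_lit 94) (nat_lit 0) (nat_lit 0) (XT.lf (nat_lit 0) (nat_lit 2993573730) (nat_lit 84) (nat_lit 1458692112) (nat_lit 168) (nat_lit 20761351105) (nat_lit 5) (nat_lit 5) (nat_lit 6) (nat_lit 5) (nat_lit 7) (nat_lit 4) (nat_lit 381) (nat_lit 261) (nat_lit 246)) (XT.nd (nat_lit 94) (nat_lit 0) (nat_lit 0) (XT.lf (nat_lit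 0) (nat_lit 6249298603) (nat_lit 168) (nat_lit 19591183274) (nat_lit 0) (nat_lit 78467806) (nat_lit 5) (nat_lit 5) (nat_lit 7) (nat_lit 4) (nat_lit 5) (nat_lit 4) (nat_lit 382) (nat_lit 261) (nat_lit 245)) (XT.lf (nat_lit 0) (nat_lit 8080776870) (nat_lit 168) (nat_lit 16950842680) (nat_lit 0) (nat_lit 1615346032) (nat_lit 5) (nat_lit 5) (nat_lit 7) (nat_lit 4) (nat_lit 5) (nat_lit 4) (nat_lit 383) (nat_lit 261) (nat_lit 244))))) (XT.nd (nat_lit 282) (nat_lit 84) (nat_lit 0) (XT.nd (nat_lit 94) (nat_lit 0) (nat_lit 0) (XT.lf (nat_lit 0) (nat_lit 9933937366) (nat_lit 168) (nat_lit 14282089956) (nat_lit 0) (nat_lit 3182764491) (nat_lit 5) (nat_lit 5) (nat_lit 7) (nat_lit 4) (nat_lit 5) (nat_lit 4) (nat_lit 384) (nat_lit 261) (nat_lit 243)) (XT.nd (nat_lit 94) (nat_lit 0) (nat_lit 0) (XT.lf (nat_lit 0) (nat_lit 11810507432) (nat_lit 168) (nat_lit 11582437544) (nat_lit 0) (nat_lit 4782184181)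 (nat_lit 5) (nat_lit 5) (nat_lit 7) (nat_lit 4) (nat_lit 5) (nat_lit 4) (nat_lit 385) (nat_lit 261) (nat_lit 242)) (XT.lf (nat_lit 0) (nat_lit 13712236227) (nat_lit 168) (nat_lit 8849369085) (nat_lit 0) (nat_lit 6415095929) (nat_lit 5) (nat_lit 5) (nat_lit 7) (nat_lit 4) (nat_lit 5) (nat_lit 4) (nat_lit 386) (nat_lit 261) (nat_lit 241)))) (XT.nd (nat_lit 188) (nat_lit 84) (nat_lit 0) (XT.nd (nat_lit 94) (nat_lit 0) (nat_lit 0) (XT.lf (nat_lit 0) (nat_lit 15640896362) (nat_lit 168) (nat_lit 6080337074) (nat_lit 0) (nat_lit 8083021779) (nat_lit 5) (nat_lit 5) (nat_lit 7) (nat_lit 4) (nat_lit 5) (nat_lit 4) (nat_lit 387) (nat_lit 261) (nat_lit 240)) (XT.lf (nat_lit 0) (nat_lit 17598285550) (nat_lit 168) (nat_lit 3272760483) (nat_lit 0) (nat_lit 9787516413) (nat_lit 5) (nat_lit 5) (nat_lit 7) (nat_lit 4) (nat_lit 5) (nat_lit 4) (nat_lit 388) (nat_lit 261) (nat_lit 239))) (XT.nd (nat_lit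 94) (nat_lit 84) (nat_lit 0) (XT.lf (nat_lit 0) (nat_lit 19586228283) (nat_lit 168) (nat_lit 424022356) (nat_lit 0) (nat_lit 11530168599) (nat_lit 5) (nat_lit 5) (nat_lit 7) (nat_lit 4) (nat_lit 5) (nat_lit 4) (nat_lit 389) (nat_lit 261) (nat_lit 238)) (XT.lf (nat_lit 0) (nat_lit 2519290723) (nat_lit 84) (nat_lit 19112278483) (nat_lit 84) (nat_lit 10818303624) (nat_lit 4) (nat_lit 4) (nat_lit 5) (nat_lit 5) (nat_lit 5) (nat_lit 4) (nat_lit 390) (nat_lit 261) (nat_lit 237)))))) (XT.nd (nat_lit 564) (nat_lit 84) (nat_lit 0) (XT.nd (nat_lit 282) (nat_lit 0) (nat_lit 0) (XT.nd (nat_lit 94) (nat_lit 0) (nat_lit 0) (XT.lf (nat_lit 0) (nat_lit 5518791997) (nat_lit 84) (nat_lit 18197171574) (nat_lit 84) (nat_lit 9672435148) (nat_lit 4) (nat_lit 4) (nat_lit 5) (nat_lit 5) (nat_lit 5) (nat_lit 4) (nat_lit 391) (nat_lit 261) (nat_lit 236)) (XT.nd (nat_lit 94) (nat_lit 0) (nat_lit 0) (XT.lf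 (nat_lit 0) (nat_lit 8568558546) (nat_lit 84) (nat_lit 17268502859) (nat_lit 84) (nat_lit 8519943380) (nat_lit 4) (nat_lit 4) (nat_lit 5) (nat_lit 5) (nat_lit 5) (nat_lit 4) (nat_lit 392) (nat_lit 261) (nat_lit 235)) (XT.lf (nat_lit 0) (nat_lit 11671433072) (nat_lit 84) (nat_lit 16325406722) (nat_lit 84) (nat_lit 7359754078) (nat_lit 4) (nat_lit 4) (nat_lit 5) (nat_lit 5) (nat_lit 5) (nat_lit 4) (nat_lit 393) (nat_lit 261) (nat_lit 234)))) (XT.nd (nat_lit 94) (nat_lit 0) (nat_lit 0) (XT.lf (nat_lit 0) (nat_lit 14830307779) (nat_lit 84) (nat_lit 15367004098) (nat_lit 84) (nat_lit 6190785824) (nat_lit 4) (nat_lit 4) (nat_lit 5) (nat_lit 5) (nat_lit 5) (nat_lit 4) (nat_lit 394) (nat_lit 261) (nat_lit 233)) (XT.nd (nat_lit 94) (nat_lit 0) (nat_lit 0) (XT.lf (nat_lit 0) (nat_lit 18048127069) (nat_lit 84) (nat_lit 14392401656) (nat_lit 84) (nat_lit 5011949016) (nat_lit 4) (nat_lit 4) (nat_lit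 5) (nat_lit 5) (nat_lit 5) (nat_lit 4) (nat_lit 395) (nat_lit 261) (nat_lit 232)) (XT.lf (nat_lit 0) (nat_lit 21327890287) (nat_lit 84) (nat_lit 13400690964) (nat_lit 84) (nat_lit 3822144857) (nat_lit 4) (nat_lit 4) (nat_lit 5) (nat_lit 5) (nat_lit 5) (nat_lit 4) (nat_lit 396) (nat_lit 261) (nat_lit 231))))) (XT.nd (nat_lit 282) (nat_lit 84) (nat_lit 0) (XT.nd (nat_lit 94) (nat_lit 0) (nat_lit 0) (XT.lf (nat_lit 0) (nat_lit 24672654516) (nat_lit 84) (nat_lit 12390947643) (nat_lit 84) (nat_lit 2620264323) (nat_lit 4) (nat_lit 4) (nat_lit 5) (nat_lit 5) (nat_lit 5) (nat_lit 4) (nat_lit 397) (nat_lit 261) (nat_lit 230)) (XT.nd (nat_lit 94) (nat_lit 0) (nat_lit 0) (XT.lf (nat_lit 0) (nat_lit 28085537426) (nat_lit 84) (nat_lit 11362230508) (nat_lit 84) (nat_lit 1405187135) (nat_lit 4) (nat_lit 4) (nat_lit 5) (nat_lit 5) (nat_lit 5) (nat_lit 4) (nat_lit 398) (nat_lit 261) (nat_lit 229))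 (XT.lf (nat_lit 0) (nat_lit 31569720181) (nat_lit 84) (nat_lit 10313580686) (nat_lit 84) (nat_lit 175780716) (nat_lit 4) (nat_lit 4) (nat_lit 5) (nat_lit 5) (nat_lit 5) (nat_lit 4) (nat_lit 399) (nat_lit 261) (nat_lit 228)))) (XT.nd (nat_lit 188) (nat_lit 0) (nat_lit 0) (XT.nd (nat_lit 94) (nat_lit 0) (nat_lit 0) (XT.lf (nat_lit 0) (nat_lit 1047560871) (nat_lit 168) (nat_lit 8185525468) (nat_lit 84) (nat_lit 34069955148) (nat_lit 3) (nat_lit 5) (nat_lit 5) (nat_lit 5) (nat_lit 4) (nat_lit 4) (nat_lit 400) (nat_lit 261) (nat_lit 227)) (XT.lf (nat_lit 0) (nat_lit 2283661227) (nat_lit 168) (nat_lit 5845055718) (nat_lit 84) (nat_lit 36457547241) (nat_lit 3) (nat_lit 5) (nat_lit 5) (nat_lit 5) (nat_lit 4) (nat_lit 4) (nat_lit 401) (nat_lit 261) (nat_lit 226))) (XT.nd (nat_lit 94) (nat_lit 0) (nat_lit 0) (XT.lf (nat_lit 0) (nat_lit 3537214118) (nat_lit 168) (nat_lit 3464026824) (nat_lit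 84) (nat_lit 38908758898) (nat_lit 3) (nat_lit 5) (nat_lit 5) (nat_lit 5) (nat_lit 4) (nat_lit 4) (nat_lit 402) (nat_lit 261) (nat_lit 225)) (XT.lf (nat_lit 0) (nat_lit 4809387986) (nat_lit 168) (nat_lit 1040219416) (nat_lit 84) (nat_lit 41425874903) (nat_lit 3) (nat_lit 5) (nat_lit 5) (nat_lit 5) (nat_lit 4) (nat_lit 4) (nat_lit 403) (nat_lit 261) (nat_lit 224))))))))
noncomputable def xc19 : XT := (XT.nd (nat_lit 52358) (nat_lit 0) (nat_lit 168) (XT.nd (nat_lit 1128) (nat_lit 0) (nat_lit 0) (XT.nd (nat_lit 564) (nat_lit 0) (nat_lit 0) (XT.nd (nat_lit 282) (nat_lit 0) (nat_lit 0) (XT.nd (nat_lit 94) (nat_lit 0) (nat_lit 0) (XT.lf (nat_lit 0) (nat_lit 1458001221) (nat_lit 84) (nat_lit 4657830961) (nat_lit 168) (nat_lit 42567703804) (nat_lit 2) (nat_lit 5) (nat_lit 3) (nat_lit 5) (nat_lit 4) (nat_lit 4) (nat_lit 404) (nat_lit 261) (nat_lit 223)) (XT.nd (nat_lit 94) (nat_lit 0) (nat_lit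 0) (XT.lf (nat_lit 0) (nat_lit 4025923268) (nat_lit 84) (nat_lit 3428374700) (nat_lit 168) (nat_lit 42681282829) (nat_lit 2) (nat_lit 5) (nat_lit 3) (nat_lit 5) (nat_lit 4) (nat_lit 4) (nat_lit 405) (nat_lit 261) (nat_lit 222)) (XT.lf (nat_lit 0) (nat_lit 6644551251) (nat_lit 84) (nat_lit 2170950394) (nat_lit 168) (nat_lit 42817795019) (nat_lit 2) (nat_lit 5) (nat_lit 3) (nat_lit 5) (nat_lit 4) (nat_lit 4) (nat_lit 406) (nat_lit 261) (nat_lit 221)))) (XT.nd (nat_lit 94) (nat_lit 0) (nat_lit 0) (XT.lf (nat_lit 0) (nat_lit 9316326007) (nat_lit 84) (nat_lit 884385993) (nat_lit 168) (nat_lit 42977367618) (nat_lit 2) (nat_lit 5) (nat_lit 3) (nat_lit 5) (nat_lit 4) (nat_lit 4) (nat_lit 407) (nat_lit 261) (nat_lit 220)) (XT.nd (nat_lit 94) (nat_lit 0) (nat_lit 0) (XT.lf (nat_lit 0) (nat_lit 11615510822) (nat_lit 168) (nat_lit 42731922278) (nat_lit 0) (nat_lit 423803447) (nat_lit 2) (nat_lit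 5) (nat_lit 4) (nat_lit 4) (nat_lit 2) (nat_lit 4) (nat_lit 408) (nat_lit 261) (nat_lit 219)) (XT.lf (nat_lit 0) (nat_lit 13066008589) (nat_lit 168) (nat_lit 41602990027) (nat_lit 0) (nat_lit 1745105281) (nat_lit 2) (nat_lit 5) (nat_lit 4) (nat_lit 4) (nat_lit 2) (nat_lit 4) (nat_lit 409) (nat_lit 261) (nat_lit 218))))) (XT.nd (nat_lit 282) (nat_lit 0) (nat_lit 0) (XT.nd (nat_lit 94) (nat_lit 0) (nat_lit 0) (XT.lf (nat_lit 0) (nat_lit 14544784096) (nat_lit 168) (nat_lit 40465131359) (nat_lit 0) (nat_lit 3098569506) (nat_lit 2) (nat_lit 5) (nat_lit 4) (nat_lit 4) (nat_lit 2) (nat_lit 4) (nat_lit 410) (nat_lit 261) (nat_lit 217)) (XT.nd (nat_lit 94) (nat_lit 0) (nat_lit 0) (XT.lf (nat_lit 0) (nat_lit 16053215720) (nat_lit 168) (nat_lit 39317285669) (nat_lit 0) (nat_lit 4485457693) (nat_lit 2) (nat_lit 5) (nat_lit 4) (nat_lit 4) (nat_lit 2) (nat_lit 4) (nat_lit 411) (nat_lit 261) (nat_lit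 216)) (XT.lf (nat_lit 0) (nat_lit 17592709475) (nat_lit 168) (nat_lit 38158383046) (nat_lit 0) (nat_lit 5907062568) (nat_lit 2) (nat_lit 5) (nat_lit 4) (nat_lit 4) (nat_lit 2) (nat_lit 4) (nat_lit 412) (nat_lit 261) (nat_lit 215)))) (XT.nd (nat_lit 94) (nat_lit 0) (nat_lit 0) (XT.lf (nat_lit 0) (nat_lit 19164700330) (nat_lit 168) (nat_lit 36987343269) (nat_lit 0) (nat_lit 7364709213) (nat_lit 2) (nat_lit 5) (nat_lit 4) (nat_lit 4) (nat_lit 2) (nat_lit 4) (nat_lit 413) (nat_lit 261) (nat_lit 214)) (XT.nd (nat_lit 94) (nat_lit 0) (nat_lit 0) (XT.lf (nat_lit 0) (nat_lit 20770653548) (nat_lit 168) (nat_lit 35803074809) (nat_lit 0) (nat_lit 8859756310) (nat_lit 2) (nat_lit 5) (nat_lit 4) (nat_lit 4) (nat_lit 2) (nat_lit 4) (nat_lit 414) (nat_lit 261) (nat_lit 213)) (XT.lf (nat_lit 0) (nat_lit 22412066043) (nat_lit 168) (nat_lit 34604473802) (nat_lit 0) (nat_lit 10393597399) (nat_lit 2)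 (nat_lit 5) (nat_lit 4) (nat_lit 4) (nat_lit 2) (nat_lit 4) (nat_lit 415) (nat_lit 261) (nat_lit 212)))))) (XT.nd (nat_lit 564) (nat_lit 0) (nat_lit 0) (XT.nd (nat_lit 282) (nat_lit 0) (nat_lit 0) (XT.nd (nat_lit 94) (nat_lit 0) (nat_lit 0) (XT.lf (nat_lit 0) (nat_lit 24090467784) (nat_lit 168) (nat_lit 33390423026) (nat_lit 0) (nat_lit 11967662179) (nat_lit 2) (nat_lit 5) (nat_lit 4) (nat_lit 4) (nat_lit 2) (nat_lit 4) (nat_lit 416) (nat_lit 261) (nat_lit 211)) (XT.nd (nat_lit 94) (nat_lit 0) (nat_lit 0) (XT.lf (nat_lit 0) (nat_lit 25807423218) (nat_lit 168) (nat_lit 32159790860) (nat_lit 0) (nat_lit 13583417844) (nat_lit 2) (nat_lit 5) (nat_lit 4) (nat_lit 4) (nat_lit 2) (nat_lit 4) (nat_lit 417) (nat_lit 261) (nat_lit 210)) (XT.lf (nat_lit 0) (nat_lit 27564532726) (nat_lit 168) (nat_lit 30911430225) (nat_lit 0) (nat_lit 15242370449) (nat_lit 2) (nat_lit 5) (nat_lit 4) (nat_lit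 4) (nat_lit 2) (nat_lit 4) (nat_lit 418) (nat_lit 261) (nat_lit 209)))) (XT.nd (nat_lit 94) (nat_lit 0) (nat_lit 0) (XT.lf (nat_lit 0) (nat_lit 29363434120) (nat_lit 168) (nat_lit 29644177519) (nat_lit 0) (nat_lit 16946066310) (nat_lit 2) (nat_lit 5) (nat_lit 4) (nat_lit 4) (nat_lit 2) (nat_lit 4) (nat_lit 419) (nat_lit 261) (nat_lit 208)) (XT.nd (nat_lit 94) (nat_lit 0) (nat_lit 0) (XT.lf (nat_lit 0) (nat_lit 31205804163) (nat_lit 168) (nat_lit 28356851528) (nat_lit 0) (nat_lit 18696093450) (nat_lit 2) (nat_lit 5) (nat_lit 4) (nat_lit 4) (nat_lit 2) (nat_lit 4) (nat_lit 420) (nat_lit 261) (nat_lit 207)) (XT.lf (nat_lit 0) (nat_lit 33093360137) (nat_lit 168) (nat_lit 27048252331) (nat_lit 0) (nat_lit 20494083079) (nat_lit 2) (nat_lit 5) (nat_lit 4) (nat_lit 4) (nat_lit 2) (nat_lit 4) (nat_lit 421) (nat_lit 261) (nat_lit 206))))) (XT.nd (nat_lit 50290) (nat_lit 0) (nat_lit 756) (XT.nd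 (nat_lit 94) (nat_lit 0) (nat_lit 0) (XT.lf (nat_lit 0) (nat_lit 35027861443) (nat_lit 168) (nat_lit 25717160176) (nat_lit 0) (nat_lit 22341711110) (nat_lit 2) (nat_lit 5) (nat_lit 4) (nat_lit 4) (nat_lit 2) (nat_lit 4) (nat_lit 422) (nat_lit 261) (nat_lit 205)) (XT.nd (nat_lit 94) (nat_lit 0) (nat_lit 0) (XT.lf (nat_lit 0) (nat_lit 37011111238) (nat_lit 168) (nat_lit 24362334345) (nat_lit 0) (nat_lit 24240699727) (nat_lit 2) (nat_lit 5) (nat_lit 4) (nat_lit 4) (nat_lit 2) (nat_lit 4) (nat_lit 423) (nat_lit 261) (nat_lit 204)) (XT.lf (nat_lit 0) (nat_lit 39044958118) (nat_lit 168) (nat_lit 22982511999) (nat_lit 0) (nat_lit 26192818985) (nat_lit 2) (nat_lit 5) (nat_lit 4) (nat_lit 4) (nat_lit 2) (nat_lit 4) (nat_lit 424) (nat_lit 261) (nat_lit 203)))) (XT.nd (nat_lit 188) (nat_lit 0) (nat_lit 0) (XT.nd (nat_lit 94) (nat_lit 0) (nat_lit 0) (XT.lf (nat_lit 0) (nat_lit 533432016) (nat_lit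 168) (nat_lit 3772747905) (nat_lit 168) (nat_lit 3772747905) (nat_lit 11) (nat_lit 4) (nat_lit 13) (nat_lit 5) (nat_lit 13) (nat_lit 4) (nat_lit 364) (nat_lit 262) (nat_lit 262)) (XT.lf (nat_lit 0) (nat_lit 5025760738) (nat_lit 168) (nat_lit 6030547116) (nat_lit 168) (nat_lit 5504351236) (nat_lit 11) (nat_lit 4) (nat_lit 13) (nat_lit 5) (nat_lit 13) (nat_lit 4) (nat_lit 365) (nat_lit 262) (nat_lit 261))) (XT.nd (nat_lit 94) (nat_lit 0) (nat_lit 0) (XT.lf (nat_lit 0) (nat_lit 9029087421) (nat_lit 168) (nat_lit 4492694229) (nat_lit 168) (nat_lit 3456124072) (nat_lit 11) (nat_lit 4) (nat_lit 13) (nat_lit 5) (nat_lit 13) (nat_lit 4) (nat_lit 366) (nat_lit 262) (nat_lit 260)) (XT.lf (nat_lit 0) (nat_lit 13080575601) (nat_lit 168) (nat_lit 2930503709) (nat_lit 168) (nat_lit 1398905155) (nat_lit 11) (nat_lit 4) (nat_lit 13) (nat_lit 5) (nat_lit 13) (nat_lit 4) (nat_lit 367) (nat_lit 262)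 (nat_lit 259))))))) (XT.nd (nat_lit 1222) (nat_lit 168) (nat_lit 0) (XT.nd (nat_lit 564) (nat_lit 252) (nat_lit 0) (XT.nd (nat_lit 282) (nat_lit 0) (nat_lit 0) (XT.nd (nat_lit 94) (nat_lit 84) (nat_lit 0) (XT.lf (nat_lit 0) (nat_lit 655739702) (nat_lit 252) (nat_lit 679935152) (nat_lit 84) (nat_lit 16521417409) (nat_lit 10) (nat_lit 5) (nat_lit 13) (nat_lit 5) (nat_lit 11) (nat_lit 4) (nat_lit 368) (nat_lit 262) (nat_lit 258)) (XT.nd (nat_lit 94) (nat_lit 0) (nat_lit 0) (XT.lf (nat_lit 0) (nat_lit 2728401145) (nat_lit 168) (nat_lit 15264530922) (nat_lit 0) (nat_lit 325443332) (nat_lit 9) (nat_lit 5) (nat_lit 11) (nat_lit 4) (nat_lit 9) (nat_lit 4) (nat_lit 369) (nat_lit 262) (nat_lit 257)) (XT.lf (nat_lit 0) (nat_lit 4836476727) (nat_lit 168) (nat_lit 11963215085) (nat_lit 0) (nat_lit 1995396520) (nat_lit 9) (nat_lit 5) (nat_lit 11) (nat_lit 4) (nat_lit 9) (nat_lit 4) (nat_lit 370)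 (nat_lit 262) (nat_lit 256)))) (XT.nd (nat_lit 94) (nat_lit 0) (nat_lit 0) (XT.lf (nat_lit 0) (nat_lit 6961727197) (nat_lit 168) (nat_lit 8630876525) (nat_lit 0) (nat_lit 3695698016) (nat_lit 9) (nat_lit 5) (nat_lit 11) (nat_lit 4) (nat_lit 9) (nat_lit 4) (nat_lit 371) (nat_lit 262) (nat_lit 255)) (XT.nd (nat_lit 94) (nat_lit 0) (nat_lit 0) (XT.lf (nat_lit 0) (nat_lit 9106133513) (nat_lit 168) (nat_lit 5264409152) (nat_lit 0) (nat_lit 5427932678) (nat_lit 9) (nat_lit 5) (nat_lit 11) (nat_lit 4) (nat_lit 9) (nat_lit 4) (nat_lit 372) (nat_lit 262) (nat_lit 254)) (XT.lf (nat_lit 0) (nat_lit 11271694485) (nat_lit 168) (nat_lit 1860675067) (nat_lit 0) (nat_lit 7193715130) (nat_lit 9) (nat_lit 5) (nat_lit 11) (nat_lit 4) (nat_lit 9) (nat_lit 4) (nat_lit 373) (nat_lit 262) (nat_lit 253))))) (XT.nd (nat_lit 282) (nat_lit 84) (nat_lit 0) (XT.nd (nat_lit 94) (nat_lit 0) (nat_lit 0) (XT.lf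 (nat_lit 0) (nat_lit 1616058340) (nat_lit 168) (nat_lit 11860401801) (nat_lit 168) (nat_lit 7394664425) (nat_lit 7) (nat_lit 4) (nat_lit 9) (nat_lit 5) (nat_lit 9) (nat_lit 4) (nat_lit 374) (nat_lit 262) (nat_lit 252)) (XT.nd (nat_lit 94) (nat_lit 0) (nat_lit 0) (XT.lf (nat_lit 0) (nat_lit 5175598251) (nat_lit 168) (nat_lit 10550120440) (nat_lit 168) (nat_lit 5708284111) (nat_lit 7) (nat_lit 4) (nat_lit 9) (nat_lit 5) (nat_lit 9) (nat_lit 4) (nat_lit 375) (nat_lit 262) (nat_lit 251)) (XT.lf (nat_lit 0) (nat_lit 8783003232) (nat_lit 168) (nat_lit 9219725784) (nat_lit 168) (nat_lit 4013099005) (nat_lit 7) (nat_lit 4) (nat_lit 9) (nat_lit 5) (nat_lit 9) (nat_lit 4) (nat_lit 376) (nat_lit 262) (nat_lit 250)))) (XT.nd (nat_lit 188) (nat_lit 84) (nat_lit 0) (XT.nd (nat_lit 94) (nat_lit 0) (nat_lit 0) (XT.lf (nat_lit 0) (nat_lit 12441635762) (nat_lit 168) (nat_lit 7867977763) (nat_lit 168)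 (nat_lit 2307529016) (nat_lit 7) (nat_lit 4) (nat_lit 9) (nat_lit 5) (nat_lit 9) (nat_lit 4) (nat_lit 377) (nat_lit 262) (nat_lit 249)) (XT.lf (nat_lit 0) (nat_lit 16154906072) (nat_lit 168) (nat_lit 6493616408) (nat_lit 168) (nat_lit 589984374) (nat_lit 7) (nat_lit 4) (nat_lit 9) (nat_lit 5) (nat_lit 9) (nat_lit 4) (nat_lit 378) (nat_lit 262) (nat_lit 248))) (XT.nd (nat_lit 94) (nat_lit 0) (nat_lit 0) (XT.lf (nat_lit 0) (nat_lit 1118144507) (nat_lit 252) (nat_lit 3965545026) (nat_lit 84) (nat_lit 18796459674) (nat_lit 6) (nat_lit 5) (nat_lit 9) (nat_lit 5) (nat_lit 7) (nat_lit 4) (nat_lit 379) (nat_lit 262) (nat_lit 247)) (XT.lf (nat_lit 0) (nat_lit 2829269660) (nat_lit 252) (nat_lit 813105793) (nat_lit 84) (nat_lit 20900457375) (nat_lit 6) (nat_lit 5) (nat_lit 9) (nat_lit 5) (nat_lit 7) (nat_lit 4) (nat_lit 380) (nat_lit 262) (nat_lit 246)))))) (XT.nd (nat_lit 564) (nat_lit 84)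 (nat_lit 0) (XT.nd (nat_lit 282) (nat_lit 0) (nat_lit 0) (XT.nd (nat_lit 94) (nat_lit 0) (nat_lit 0) (XT.lf (nat_lit 0) (nat_lit 2431497289) (nat_lit 84) (nat_lit 2149496367) (nat_lit 168) (nat_lit 20645615443) (nat_lit 5) (nat_lit 5) (nat_lit 6) (nat_lit 5) (nat_lit 7) (nat_lit 4) (nat_lit 381) (nat_lit 262) (nat_lit 245)) (XT.nd (nat_lit 94) (nat_lit 0) (nat_lit 0) (XT.lf (nat_lit 0) (nat_lit 5739921746) (nat_lit 84) (nat_lit 619583529) (nat_lit 168) (nat_lit 19573088859) (nat_lit 5) (nat_lit 5) (nat_lit 6) (nat_lit 5) (nat_lit 7) (nat_lit 4) (nat_lit 382) (nat_lit 262) (nat_lit 244)) (XT.lf (nat_lit 0) (nat_lit 8167558224) (nat_lit 168) (nat_lit 17572496837) (nat_lit 0) (nat_lit 921356952) (nat_lit 5) (nat_lit 5) (nat_lit 7) (nat_lit 4) (nat_lit 5) (nat_lit 4) (nat_lit 383) (nat_lit 262) (nat_lit 243)))) (XT.nd (nat_lit 94) (nat_lit 0) (nat_lit 0) (XT.lf (nat_lit 0) (nat_lit 10003959288)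 (nat_lit 168) (nat_lit 14929264372) (nat_lit 0) (nat_lit 2480607641) (nat_lit 5) (nat_lit 5) (nat_lit 7) (nat_lit 4) (nat_lit 5) (nat_lit 4) (nat_lit 384) (nat_lit 262) (nat_lit 242)) (XT.nd (nat_lit 94) (nat_lit 0) (nat_lit 0) (XT.lf (nat_lit 0) (nat_lit 11864273843) (nat_lit 168) (nat_lit 12254364879) (nat_lit 0) (nat_lit 4072105148) (nat_lit 5) (nat_lit 5) (nat_lit 7) (nat_lit 4) (nat_lit 5) (nat_lit 4) (nat_lit 385) (nat_lit 262) (nat_lit 241)) (XT.lf (nat_lit 0) (nat_lit 13750235896) (nat_lit 168) (nat_lit 9545305071) (nat_lit 0) (nat_lit 5697332917) (nat_lit 5) (nat_lit 5) (nat_lit 7) (nat_lit 4) (nat_lit 5) (nat_lit 4) (nat_lit 386) (nat_lit 262) (nat_lit 240))))) (XT.nd (nat_lit 282) (nat_lit 84) (nat_lit 0) (XT.nd (nat_lit 94) (nat_lit 0) (nat_lit 0) (XT.lf (nat_lit 0) (nat_lit 15663603362) (nat_lit 168) (nat_lit 6799559821) (nat_lit 0) (nat_lit 7357805829) (nat_lit 5) (nat_lit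 5) (nat_lit 7) (nat_lit 4) (nat_lit 5) (nat_lit 4) (nat_lit 387) (nat_lit 262) (nat_lit 239)) (XT.nd (nat_lit 94) (nat_lit 0) (nat_lit 0) (XT.lf (nat_lit 0) (nat_lit 17606159699) (nat_lit 168) (nat_lit 4014569807) (nat_lit 0) (nat_lit 9055071619) (nat_lit 5) (nat_lit 5) (nat_lit 7) (nat_lit 4) (nat_lit 5) (nat_lit 4) (nat_lit 388) (nat_lit 262) (nat_lit 238)) (XT.lf (nat_lit 0) (nat_lit 19579715573) (nat_lit 168) (nat_lit 1187739126) (nat_lit 0) (nat_lit 10790712317) (nat_lit 5) (nat_lit 5) (nat_lit 7) (nat_lit 4) (nat_lit 5) (nat_lit 4) (nat_lit 389) (nat_lit 262) (nat_lit 237)))) (XT.nd (nat_lit 188) (nat_lit 0) (nat_lit 0) (XT.nd (nat_lit 94) (nat_lit 0) (nat_lit 0) (XT.lf (nat_lit 0) (nat_lit 1718184716) (nat_lit 84) (nat_lit 19884970435) (nat_lit 84) (nat_lit 10865205611) (nat_lit 4) (nat_lit 4) (nat_lit 5) (nat_lit 5) (nat_lit 5) (nat_lit 4) (nat_lit 390) (nat_lit 262) (nat_lit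 236)) (XT.lf (nat_lit 0) (nat_lit 4696652379) (nat_lit 84) (nat_lit 18977153781) (nat_lit 84) (nat_lit 9733565904) (nat_lit 4) (nat_lit 4) (nat_lit 5) (nat_lit 5) (nat_lit 5) (nat_lit 4) (nat_lit 391) (nat_lit 262) (nat_lit 235))) (XT.nd (nat_lit 94) (nat_lit 0) (nat_lit 0) (XT.lf (nat_lit 0) (nat_lit 7726017753) (nat_lit 84) (nat_lit 18055556118) (nat_lit 84) (nat_lit 8594875077) (nat_lit 4) (nat_lit 4) (nat_lit 5) (nat_lit 5) (nat_lit 5) (nat_lit 4) (nat_lit 392) (nat_lit 262) (nat_lit 234)) (XT.lf (nat_lit 0) (nat_lit 10809104524) (nat_lit 84) (nat_lit 17119318422) (nat_lit 84) (nat_lit 7448071751) (nat_lit 4) (nat_lit 4) (nat_lit 5) (nat_lit 5) (nat_lit 5) (nat_lit 4) (nat_lit 393) (nat_lit 262) (nat_lit 233))))))))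
noncomputable def xc20 : XT := (XT.nd (nat_lit 2350) (nat_lit 0) (nat_lit 0) (XT.nd (nat_lit 1128) (nat_lit 0) (nat_lit 0) (XT.nd (nat_lit 564) (nat_lit 168) (nat_lit 0) (XT.nd (nat_lit 282) (nat_lit 0) (nat_lit 0) (XT.nd (nat_lit 94) (nat_lit 0) (nat_lit 0) (XT.lf (nat_lit 0) (nat_lit 13948786453) (nat_lit 84) (nat_lit 16167568020) (nat_lit 84) (nat_lit 6292086984) (nat_lit 4) (nat_lit 4) (nat_lit 5) (nat_lit 5) (nat_lit 5) (nat_lit 4) (nat_lit 394) (nat_lit 262) (nat_lit 232)) (XT.nd (nat_lit 94) (nat_lit 0) (nat_lit 0) (XT.lf (nat_lit 0) (nat_lit 17147990051) (nat_lit 84) (nat_lit 15199417782) (nat_lit 84) (nat_lit 5125843278) (nat_lit 4) (nat_lit 4) (nat_lit 5) (nat_lit 5) (nat_lit 5) (nat_lit 4) (nat_lit 395) (nat_lit 262) (nat_lit 231)) (XT.lf (nat_lit 0) (nat_lit 20409697312) (nat_lit 84) (nat_lit 14213965289) (nat_lit 84) (nat_lit 3948253572) (nat_lit 4) (nat_lit 4) (nat_lit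 5) (nat_lit 5) (nat_lit 5) (nat_lit 4) (nat_lit 396) (nat_lit 262) (nat_lit 230)))) (XT.nd (nat_lit 94) (nat_lit 0) (nat_lit 0) (XT.lf (nat_lit 0) (nat_lit 23736948488) (nat_lit 84) (nat_lit 13210291997) (nat_lit 84) (nat_lit 2758220228) (nat_lit 4) (nat_lit 4) (nat_lit 5) (nat_lit 5) (nat_lit 5) (nat_lit 4) (nat_lit 397) (nat_lit 262) (nat_lit 229)) (XT.nd (nat_lit 94) (nat_lit 0) (nat_lit 0) (XT.lf (nat_lit 0) (nat_lit 27132844926) (nat_lit 84) (nat_lit 12187462378) (nat_lit 84) (nat_lit 1554634011) (nat_lit 4) (nat_lit 4) (nat_lit 5) (nat_lit 5) (nat_lit 5) (nat_lit 4) (nat_lit 398) (nat_lit 262) (nat_lit 228)) (XT.lf (nat_lit 0) (nat_lit 30600551957) (nat_lit 84) (nat_lit 11144523047) (nat_lit 84) (nat_lit 336373052) (nat_lit 4) (nat_lit 4) (nat_lit 5) (nat_lit 5) (nat_lit 5) (nat_lit 4) (nat_lit 399) (nat_lit 262) (nat_lit 227))))) (XT.nd (nat_lit 282) (nat_lit 84) (nat_lit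 0) (XT.nd (nat_lit 94) (nat_lit 0) (nat_lit 0) (XT.lf (nat_lit 0) (nat_lit 879611576) (nat_lit 168) (nat_lit 9191708957) (nat_lit 84) (nat_lit 33254508931) (nat_lit 3) (nat_lit 5) (nat_lit 5) (nat_lit 5) (nat_lit 4) (nat_lit 4) (nat_lit 400) (nat_lit 262) (nat_lit 226)) (XT.nd (nat_lit 94) (nat_lit 0) (nat_lit 0) (XT.lf (nat_lit 0) (nat_lit 2105437892) (nat_lit 168) (nat_lit 6866992737) (nat_lit 84) (nat_lit 35636982466) (nat_lit 3) (nat_lit 5) (nat_lit 5) (nat_lit 5) (nat_lit 4) (nat_lit 4) (nat_lit 401) (nat_lit 262) (nat_lit 225)) (XT.lf (nat_lit 0) (nat_lit 3349025661) (nat_lit 168) (nat_lit 4501243696) (nat_lit 84) (nat_lit 38083229468) (nat_lit 3) (nat_lit 5) (nat_lit 5) (nat_lit 5) (nat_lit 4) (nat_lit 4) (nat_lit 402) (nat_lit 262) (nat_lit 224)))) (XT.nd (nat_lit 94) (nat_lit 84) (nat_lit 0) (XT.lf (nat_lit 0) (nat_lit 4611534037) (nat_lit 168) (nat_lit 2092256709) (nat_lit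 84) (nat_lit 40595530096) (nat_lit 3) (nat_lit 5) (nat_lit 5) (nat_lit 5) (nat_lit 4) (nat_lit 4) (nat_lit 403) (nat_lit 262) (nat_lit 223)) (XT.nd (nat_lit 94) (nat_lit 0) (nat_lit 0) (XT.lf (nat_lit 0) (nat_lit 369661507) (nat_lit 84) (nat_lit 5528145390) (nat_lit 168) (nat_lit 42810231658) (nat_lit 2) (nat_lit 5) (nat_lit 3) (nat_lit 5) (nat_lit 4) (nat_lit 4) (nat_lit 404) (nat_lit 262) (nat_lit 222)) (XT.lf (nat_lit 0) (nat_lit 2923354284) (nat_lit 84) (nat_lit 4303684254) (nat_lit 168) (nat_lit 42933368642) (nat_lit 2) (nat_lit 5) (nat_lit 3) (nat_lit 5) (nat_lit 4) (nat_lit 4) (nat_lit 405) (nat_lit 262) (nat_lit 221)))))) (XT.nd (nat_lit 564) (nat_lit 0) (nat_lit 0) (XT.nd (nat_lit 282) (nat_lit 0) (nat_lit 0) (XT.nd (nat_lit 94) (nat_lit 0) (nat_lit 0) (XT.lf (nat_lit 0) (nat_lit 5528180842) (nat_lit 84) (nat_lit 3051104881) (nat_lit 168) (nat_lit 43079151403) (nat_lit 2)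 (nat_lit 5) (nat_lit 3) (nat_lit 5) (nat_lit 4) (nat_lit 4) (nat_lit 406) (nat_lit 262) (nat_lit 220)) (XT.nd (nat_lit 94) (nat_lit 0) (nat_lit 0) (XT.lf (nat_lit 0) (nat_lit 8186569152) (nat_lit 84) (nat_lit 1769239736) (nat_lit 168) (nat_lit 43247715827) (nat_lit 2) (nat_lit 5) (nat_lit 3) (nat_lit 5) (nat_lit 4) (nat_lit 4) (nat_lit 407) (nat_lit 262) (nat_lit 219)) (XT.lf (nat_lit 0) (nat_lit 10900997110) (nat_lit 84) (nat_lit 456893986) (nat_lit 168) (nat_lit 43439219033) (nat_lit 2) (nat_lit 5) (nat_lit 3) (nat_lit 5) (nat_lit 4) (nat_lit 4) (nat_lit 408) (nat_lit 262) (nat_lit 218)))) (XT.nd (nat_lit 94) (nat_lit 0) (nat_lit 0) (XT.lf (nat_lit 0) (nat_lit 12795639929) (nat_lit 168) (nat_lit 42775484602) (nat_lit 0) (nat_lit 869281404) (nat_lit 2) (nat_lit 5) (nat_lit 4) (nat_lit 4) (nat_lit 2) (nat_lit 4) (nat_lit 409) (nat_lit 262) (nat_lit 217)) (XT.nd (nat_lit 94) (nat_lit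 0) (nat_lit 0) (XT.lf (nat_lit 0) (nat_lit 14266446000) (nat_lit 168) (nat_lit 41650076253) (nat_lit 0) (nat_lit 2218544039) (nat_lit 2) (nat_lit 5) (nat_lit 4) (nat_lit 4) (nat_lit 2) (nat_lit 4) (nat_lit 410) (nat_lit 262) (nat_lit 216)) (XT.lf (nat_lit 0) (nat_lit 15767147811) (nat_lit 168) (nat_lit 40514306527) (nat_lit 0) (nat_lit 3601356969) (nat_lit 2) (nat_lit 5) (nat_lit 4) (nat_lit 4) (nat_lit 2) (nat_lit 4) (nat_lit 411) (nat_lit 262) (nat_lit 215))))) (XT.nd (nat_lit 282) (nat_lit 0) (nat_lit 0) (XT.nd (nat_lit 94) (nat_lit 0) (nat_lit 0) (XT.lf (nat_lit 0) (nat_lit 17299144173) (nat_lit 168) (nat_lit 39367116768) (nat_lit 0) (nat_lit 5019009121) (nat_lit 2) (nat_lit 5) (nat_lit 4) (nat_lit 4) (nat_lit 2) (nat_lit 4) (nat_lit 412) (nat_lit 262) (nat_lit 214)) (XT.nd (nat_lit 94) (nat_lit 0) (nat_lit 0) (XT.lf (nat_lit 0) (nat_lit 18863863066) (nat_lit 168) (nat_lit 38207437676)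 (nat_lit 0) (nat_lit 6472821894) (nat_lit 2) (nat_lit 5) (nat_lit 4) (nat_lit 4) (nat_lit 2) (nat_lit 4) (nat_lit 413) (nat_lit 262) (nat_lit 213)) (XT.lf (nat_lit 0) (nat_lit 20462762974) (nat_lit 168) (nat_lit 37034188307) (nat_lit 0) (nat_lit 7964150395) (nat_lit 2) (nat_lit 5) (nat_lit 4) (nat_lit 4) (nat_lit 2) (nat_lit 4) (nat_lit 414) (nat_lit 262) (nat_lit 212)))) (XT.nd (nat_lit 188) (nat_lit 0) (nat_lit 0) (XT.nd (nat_lit 94) (nat_lit 0) (nat_lit 0) (XT.lf (nat_lit 0) (nat_lit 22097334238) (nat_lit 168) (nat_lit 35846275071) (nat_lit 0) (nat_lit 9494384698) (nat_lit 2) (nat_lit 5) (nat_lit 4) (nat_lit 4) (nat_lit 2) (nat_lit 4) (nat_lit 415) (nat_lit 262) (nat_lit 211)) (XT.lf (nat_lit 0) (nat_lit 23769100449) (nat_lit 168) (nat_lit 34642590708) (nat_lit 0) (nat_lit 11064951141) (nat_lit 2) (nat_lit 5) (nat_lit 4) (nat_lit 4) (nat_lit 2) (nat_lit 4) (nat_lit 416) (nat_lit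 262) (nat_lit 210))) (XT.nd (nat_lit 94) (nat_lit 0) (nat_lit 0) (XT.lf (nat_lit 0) (nat_lit 25479619869) (nat_lit 168) (nat_lit 33422013258) (nat_lit 0) (nat_lit 12677313657) (nat_lit 2) (nat_lit 5) (nat_lit 4) (nat_lit 4) (nat_lit 2) (nat_lit 4) (nat_lit 417) (nat_lit 262) (nat_lit 209)) (XT.lf (nat_lit 0) (nat_lit 27230486881) (nat_lit 168) (nat_lit 32183405015) (nat_lit 0) (nat_lit 14332975136) (nat_lit 2) (nat_lit 5) (nat_lit 4) (nat_lit 4) (nat_lit 2) (nat_lit 4) (nat_lit 418) (nat_lit 262) (nat_lit 208))))))) (XT.nd (nat_lit 51042) (nat_lit 0) (nat_lit 252) (XT.nd (nat_lit 50384) (nat_lit 0) (nat_lit 672) (XT.nd (nat_lit 282) (nat_lit 0) (nat_lit 0) (XT.nd (nat_lit 94) (nat_lit 0) (nat_lit 0) (XT.lf (nat_lit 0) (nat_lit 29023333477) (nat_lit 168) (nat_lit 30925611466) (nat_lit 0) (nat_lit 16033478830) (nat_lit 2) (nat_lit 5) (nat_lit 4) (nat_lit 4) (nat_lit 2) (nat_lit 4)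 (nat_lit 419) (nat_lit 262) (nat_lit 207)) (XT.nd (nat_lit 94) (nat_lit 0) (nat_lit 0) (XT.lf (nat_lit 0) (nat_lit 30859830778) (nat_lit 168) (nat_lit 29647460217) (nat_lit 0) (nat_lit 17780409784) (nat_lit 2) (nat_lit 5) (nat_lit 4) (nat_lit 4) (nat_lit 2) (nat_lit 4) (nat_lit 420) (nat_lit 262) (nat_lit 206)) (XT.lf (nat_lit 0) (nat_lit 32741690591) (nat_lit 168) (nat_lit 28347759896) (nat_lit 0) (nat_lit 19575396323) (nat_lit 2) (nat_lit 5) (nat_lit 4) (nat_lit 4) (nat_lit 2) (nat_lit 4) (nat_lit 421) (nat_lit 262) (nat_lit 205)))) (XT.nd (nat_lit 94) (nat_lit 0) (nat_lit 0) (XT.lf (nat_lit 0) (nat_lit 34670667007) (nat_lit 168) (nat_lit 27025299045) (nat_lit 0) (nat_lit 21420111561) (nat_lit 2) (nat_lit 5) (nat_lit 4) (nat_lit 4) (nat_lit 2) (nat_lit 4) (nat_lit 422) (nat_lit 262) (nat_lit 204)) (XT.nd (nat_lit 94) (nat_lit 0) (nat_lit 0) (XT.lf (nat_lit 0) (nat_lit 36648558033)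 (nat_lit 168) (nat_lit 25678844995) (nat_lit 0) (nat_lit 23316274966) (nat_lit 2) (nat_lit 5) (nat_lit 4) (nat_lit 4) (nat_lit 2) (nat_lit 4) (nat_lit 423) (nat_lit 262) (nat_lit 203)) (XT.lf (nat_lit 0) (nat_lit 38677207272) (nat_lit 168) (nat_lit 24307142707) (nat_lit 0) (nat_lit 25265653961) (nat_lit 2) (nat_lit 5) (nat_lit 4) (nat_lit 4) (nat_lit 2) (nat_lit 4) (nat_lit 424) (nat_lit 262) (nat_lit 202))))) (XT.nd (nat_lit 282) (nat_lit 84) (nat_lit 0) (XT.nd (nat_lit 94) (nat_lit 168) (nat_lit 0) (XT.lf (nat_lit 0) (nat_lit 2208610043) (nat_lit 252) (nat_lit 3278283934) (nat_lit 0) (nat_lit 2208610043) (nat_lit 13) (nat_lit 5) (nat_lit 16) (nat_lit 4) (nat_lit 13) (nat_lit 4) (nat_lit 362) (nat_lit 263) (nat_lit 263)) (XT.nd (nat_lit 94) (nat_lit 168) (nat_lit 0) (XT.lf (nat_lit 0) (nat_lit 6758452731) (nat_lit 252) (nat_lit 2793845607) (nat_lit 0) (nat_lit 6215944779) (nat_lit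 13) (nat_lit 5) (nat_lit 16) (nat_lit 4) (nat_lit 13) (nat_lit 4) (nat_lit 363) (nat_lit 263) (nat_lit 262)) (XT.lf (nat_lit 0) (nat_lit 1027118590) (nat_lit 168) (nat_lit 8100216985) (nat_lit 168) (nat_lit 7031513153) (nat_lit 11) (nat_lit 4) (nat_lit 13) (nat_lit 5) (nat_lit 13) (nat_lit 4) (nat_lit 364) (nat_lit 263) (nat_lit 261)))) (XT.nd (nat_lit 188) (nat_lit 84) (nat_lit 0) (XT.nd (nat_lit 94) (nat_lit 0) (nat_lit 0) (XT.lf (nat_lit 0) (nat_lit 4947464917) (nat_lit 168) (nat_lit 6597114285) (nat_lit 168) (nat_lit 5018036177) (nat_lit 11) (nat_lit 4) (nat_lit 13) (nat_lit 5) (nat_lit 13) (nat_lit 4) (nat_lit 365) (nat_lit 263) (nat_lit 260)) (XT.lf (nat_lit 0) (nat_lit 8913400349) (nat_lit 168) (nat_lit 5070751209) (nat_lit 168) (nat_lit 2996644704) (nat_lit 11) (nat_lit 4) (nat_lit 13) (nat_lit 5) (nat_lit 13) (nat_lit 4) (nat_lit 366) (nat_lit 263) (nat_lit 259))) (XT.nd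 (nat_lit 94) (nat_lit 84) (nat_lit 0) (XT.lf (nat_lit 0) (nat_lit 12928621554) (nat_lit 168) (nat_lit 3519705027) (nat_lit 168) (nat_lit 965454587) (nat_lit 11) (nat_lit 4) (nat_lit 13) (nat_lit 5) (nat_lit 13) (nat_lit 4) (nat_lit 367) (nat_lit 263) (nat_lit 258)) (XT.lf (nat_lit 0) (nat_lit 1055719694) (nat_lit 252) (nat_lit 875790757) (nat_lit 84) (nat_lit 15930131896) (nat_lit 10) (nat_lit 5) (nat_lit 13) (nat_lit 5) (nat_lit 11) (nat_lit 4) (nat_lit 368) (nat_lit 263) (nat_lit 257)))))) (XT.nd (nat_lit 564) (nat_lit 168) (nat_lit 0) (XT.nd (nat_lit 282) (nat_lit 168) (nat_lit 0) (XT.nd (nat_lit 94) (nat_lit 0) (nat_lit 0) (XT.lf (nat_lit 0) (nat_lit 2821916160) (nat_lit 84) (nat_lit 276841990) (nat_lit 168) (nat_lit 15225201860) (nat_lit 9) (nat_lit 5) (nat_lit 10) (nat_lit 5) (nat_lit 11) (nat_lit 4) (nat_lit 369) (nat_lit 263) (nat_lit 256)) (XT.nd (nat_lit 94) (nat_lit 0)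 (nat_lit 0) (XT.lf (nat_lit 0) (nat_lit 5180367359) (nat_lit 168) (nat_lit 12233096462) (nat_lit 0) (nat_lit 1388142298) (nat_lit 9) (nat_lit 5) (nat_lit 11) (nat_lit 4) (nat_lit 9) (nat_lit 4) (nat_lit 370) (nat_lit 263) (nat_lit 255)) (XT.lf (nat_lit 0) (nat_lit 7282610976) (nat_lit 168) (nat_lit 8934816830) (nat_lit 0) (nat_lit 3078214262) (nat_lit 9) (nat_lit 5) (nat_lit 11) (nat_lit 4) (nat_lit 9) (nat_lit 4) (nat_lit 371) (nat_lit 263) (nat_lit 254)))) (XT.nd (nat_lit 94) (nat_lit 168) (nat_lit 0) (XT.lf (nat_lit 0) (nat_lit 9404702206) (nat_lit 168) (nat_lit 5601384305) (nat_lit 0) (nat_lit 4800526972) (nat_lit 9) (nat_lit 5) (nat_lit 11) (nat_lit 4) (nat_lit 9) (nat_lit 4) (nat_lit 372) (nat_lit 263) (nat_lit 253)) (XT.nd (nat_lit 94) (nat_lit 168) (nat_lit 0) (XT.lf (nat_lit 0) (nat_lit 11548619060) (nat_lit 168) (nat_lit 2229691780) (nat_lit 0) (nat_lit 6556685804) (nat_lit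 9) (nat_lit 5) (nat_lit 11) (nat_lit 4) (nat_lit 9) (nat_lit 4) (nat_lit 373) (nat_lit 263) (nat_lit 252)) (XT.lf (nat_lit 0) (nat_lit 1207736720) (nat_lit 168) (nat_lit 12520604070) (nat_lit 168) (nat_lit 7152571861) (nat_lit 7) (nat_lit 4) (nat_lit 9) (nat_lit 5) (nat_lit 9) (nat_lit 4) (nat_lit 374) (nat_lit 263) (nat_lit 251))))) (XT.nd (nat_lit 282) (nat_lit 168) (nat_lit 0) (XT.nd (nat_lit 94) (nat_lit 0) (nat_lit 0) (XT.lf (nat_lit 0) (nat_lit 4736513131) (nat_lit 168) (nat_lit 11220418931) (nat_lit 168) (nat_lit 5487596273) (nat_lit 7) (nat_lit 4) (nat_lit 9) (nat_lit 5) (nat_lit 9) (nat_lit 4) (nat_lit 375) (nat_lit 263) (nat_lit 250)) (XT.nd (nat_lit 94) (nat_lit 0) (nat_lit 0) (XT.lf (nat_lit 0) (nat_lit 8314079606) (nat_lit 168) (nat_lit 9899816924) (nat_lit 168) (nat_lit 3813172297) (nat_lit 7) (nat_lit 4) (nat_lit 9) (nat_lit 5) (nat_lit 9) (nat_lit 4) (nat_lit 376)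 (nat_lit 263) (nat_lit 249)) (XT.lf (nat_lit 0) (nat_lit 11943770813) (nat_lit 168) (nat_lit 8557567108) (nat_lit 168) (nat_lit 2127739195) (nat_lit 7) (nat_lit 4) (nat_lit 9) (nat_lit 5) (nat_lit 9) (nat_lit 4) (nat_lit 377) (nat_lit 263) (nat_lit 248)))) (XT.nd (nat_lit 188) (nat_lit 84) (nat_lit 0) (XT.nd (nat_lit 94) (nat_lit 84) (nat_lit 0) (XT.lf (nat_lit 0) (nat_lit 15628970002) (nat_lit 168) (nat_lit 7192418367) (nat_lit 168) (nat_lit 429725966) (nat_lit 7) (nat_lit 4) (nat_lit 9) (nat_lit 5) (nat_lit 9) (nat_lit 4) (nat_lit 378) (nat_lit 263) (nat_lit 247)) (XT.lf (nat_lit 0) (nat_lit 1256611603) (nat_lit 252) (nat_lit 4533370186) (nat_lit 84) (nat_lit 18103384116) (nat_lit 6) (nat_lit 5) (nat_lit 9) (nat_lit 5) (nat_lit 7) (nat_lit 4) (nat_lit 379) (nat_lit 263) (nat_lit 246))) (XT.nd (nat_lit 94) (nat_lit 84) (nat_lit 0) (XT.lf (nat_lit 0) (nat_lit 2949732428) (nat_lit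 252) (nat_lit 1407790145) (nat_lit 84) (nat_lit 20199165654) (nat_lit 6) (nat_lit 5) (nat_lit 9) (nat_lit 5) (nat_lit 7) (nat_lit 4) (nat_lit 380) (nat_lit 263) (nat_lit 245)) (XT.lf (nat_lit 0) (nat_lit 1797997742) (nat_lit 84) (nat_lit 2879711313) (nat_lit 168) (nat_lit 20563569755) (nat_lit 5) (nat_lit 5) (nat_lit 6) (nat_lit 5) (nat_lit 7) (nat_lit 4) (nat_lit 381) (nat_lit 263) (nat_lit 244))))))))
noncomputable def xc21 : XT := (XT.nd (nat_lit 2350) (nat_lit 0) (nat_lit 0) (XT.nd (nat_lit 1128) (nat_lit 168) (nat_lit 0) (XT.nd (nat_lit 564) (nat_lit 84) (nat_lit 0) (XT.nd (nat_lit 282) (nat_lit 0) (nat_lit 0) (XT.nd (nat_lit 94) (nat_lit 0) (nat_lit 0) (XT.lf (nat_lit 0) (nat_lit 5080634356) (nat_lit 84) (nat_lit 1358392599) (nat_lit 168) (nat_lit 19508845690) (nat_lit 5) (nat_lit 5) (nat_lit 6) (nat_lit 5) (nat_lit 7) (nat_lit 4) (nat_lit 382) (nat_lit 263) (nat_lit 243))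 (XT.nd (nat_lit 94) (nat_lit 0) (nat_lit 0) (XT.lf (nat_lit 0) (nat_lit 8222991393) (nat_lit 168) (nat_lit 18265253919) (nat_lit 0) (nat_lit 189265469) (nat_lit 5) (nat_lit 5) (nat_lit 7) (nat_lit 4) (nat_lit 5) (nat_lit 4) (nat_lit 383) (nat_lit 263) (nat_lit 242)) (XT.lf (nat_lit 0) (nat_lit 10043136947) (nat_lit 168) (nat_lit 15646774373) (nat_lit 0) (nat_lit 1740593975) (nat_lit 5) (nat_lit 5) (nat_lit 7) (nat_lit 4) (nat_lit 5) (nat_lit 4) (nat_lit 384) (nat_lit 263) (nat_lit 241)))) (XT.nd (nat_lit 94) (nat_lit 0) (nat_lit 0) (XT.lf (nat_lit 0) (nat_lit 11887684760) (nat_lit 168) (nat_lit 12995883531) (nat_lit 0) (nat_lit 3324407503) (nat_lit 5) (nat_lit 5) (nat_lit 7) (nat_lit 4) (nat_lit 5) (nat_lit 4) (nat_lit 385) (nat_lit 263) (nat_lit 240)) (XT.nd (nat_lit 94) (nat_lit 0) (nat_lit 0) (XT.lf (nat_lit 0) (nat_lit 13758354144) (nat_lit 168) (nat_lit 10310110484) (nat_lit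 0) (nat_lit 4942182334) (nat_lit 5) (nat_lit 5) (nat_lit 7) (nat_lit 4) (nat_lit 5) (nat_lit 4) (nat_lit 386) (nat_lit 263) (nat_lit 239)) (XT.lf (nat_lit 0) (nat_lit 15656888759) (nat_lit 168) (nat_lit 7586951812) (nat_lit 0) (nat_lit 6595426402) (nat_lit 5) (nat_lit 5) (nat_lit 7) (nat_lit 4) (nat_lit 5) (nat_lit 4) (nat_lit 387) (nat_lit 263) (nat_lit 238))))) (XT.nd (nat_lit 282) (nat_lit 0) (nat_lit 0) (XT.nd (nat_lit 94) (nat_lit 84) (nat_lit 0) (XT.lf (nat_lit 0) (nat_lit 17585058238) (nat_lit 168) (nat_lit 4823869244) (nat_lit 0) (nat_lit 8285680704) (nat_lit 5) (nat_lit 5) (nat_lit 7) (nat_lit 4) (nat_lit 5) (nat_lit 4) (nat_lit 388) (nat_lit 263) (nat_lit 237)) (XT.nd (nat_lit 94) (nat_lit 84) (nat_lit 0) (XT.lf (nat_lit 0) (nat_lit 19544659836) (nat_lit 168) (nat_lit 2018287299) (nat_lit 0) (nat_lit 10014520736) (nat_lit 5) (nat_lit 5) (nat_lit 7) (nat_lit 4) (nat_lit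 5) (nat_lit 4) (nat_lit 389) (nat_lit 263) (nat_lit 236)) (XT.lf (nat_lit 0) (nat_lit 849525158) (nat_lit 84) (nat_lit 20696422345) (nat_lit 84) (nat_lit 10942460191) (nat_lit 4) (nat_lit 4) (nat_lit 5) (nat_lit 5) (nat_lit 5) (nat_lit 4) (nat_lit 390) (nat_lit 263) (nat_lit 235)))) (XT.nd (nat_lit 94) (nat_lit 0) (nat_lit 0) (XT.lf (nat_lit 0) (nat_lit 3807591646) (nat_lit 84) (nat_lit 19795676744) (nat_lit 84) (nat_lit 9824621425) (nat_lit 4) (nat_lit 4) (nat_lit 5) (nat_lit 5) (nat_lit 5) (nat_lit 4) (nat_lit 391) (nat_lit 263) (nat_lit 234)) (XT.nd (nat_lit 94) (nat_lit 0) (nat_lit 0) (XT.lf (nat_lit 0) (nat_lit 6817169266) (nat_lit 84) (nat_lit 18880937522) (nat_lit 84) (nat_lit 8699316574) (nat_lit 4) (nat_lit 4) (nat_lit 5) (nat_lit 5) (nat_lit 5) (nat_lit 4) (nat_lit 392) (nat_lit 263) (nat_lit 233)) (XT.lf (nat_lit 0) (nat_lit 9881063259) (nat_lit 84) (nat_lit 17951352048)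 (nat_lit 84) (nat_lit 7565496735) (nat_lit 4) (nat_lit 4) (nat_lit 5) (nat_lit 5) (nat_lit 5) (nat_lit 4) (nat_lit 393) (nat_lit 263) (nat_lit 232)))))) (XT.nd (nat_lit 564) (nat_lit 168) (nat_lit 0) (XT.nd (nat_lit 282) (nat_lit 0) (nat_lit 0) (XT.nd (nat_lit 94) (nat_lit 0) (nat_lit 0) (XT.lf (nat_lit 0) (nat_lit 13002129496) (nat_lit 84) (nat_lit 17006053850) (nat_lit 84) (nat_lit 6422105069) (nat_lit 4) (nat_lit 4) (nat_lit 5) (nat_lit 5) (nat_lit 5) (nat_lit 4) (nat_lit 394) (nat_lit 263) (nat_lit 231)) (XT.nd (nat_lit 94) (nat_lit 0) (nat_lit 0) (XT.lf (nat_lit 0) (nat_lit 16183277137) (nat_lit 84) (nat_lit 16044161811) (nat_lit 84) (nat_lit 5268075816) (nat_lit 4) (nat_lit 4) (nat_lit 5) (nat_lit 5) (nat_lit 5) (nat_lit 4) (nat_lit 395) (nat_lit 263) (nat_lit 230)) (XT.lf (nat_lit 0) (nat_lit 19427471345) (nat_lit 84) (nat_lit 15064779347) (nat_lit 84) (nat_lit 4102333300)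 (nat_lit 4) (nat_lit 4) (nat_lit 5) (nat_lit 5) (nat_lit 5) (nat_lit 4) (nat_lit 396) (nat_lit 263) (nat_lit 229)))) (XT.nd (nat_lit 94) (nat_lit 0) (nat_lit 0) (XT.lf (nat_lit 0) (nat_lit 22737736049) (nat_lit 84) (nat_lit 14066993571) (nat_lit 84) (nat_lit 2923790926) (nat_lit 4) (nat_lit 4) (nat_lit 5) (nat_lit 5) (nat_lit 5) (nat_lit 4) (nat_lit 397) (nat_lit 263) (nat_lit 228)) (XT.nd (nat_lit 94) (nat_lit 0) (nat_lit 0) (XT.lf (nat_lit 0) (nat_lit 26117156763) (nat_lit 84) (nat_lit 13049874442) (nat_lit 84) (nat_lit 1731350170) (nat_lit 4) (nat_lit 4) (nat_lit 5) (nat_lit 5) (nat_lit 5) (nat_lit 4) (nat_lit 398) (nat_lit 263) (nat_lit 227)) (XT.lf (nat_lit 0) (nat_lit 29568883460) (nat_lit 84) (nat_lit 12012473899) (nat_lit 84) (nat_lit 523899552) (nat_lit 4) (nat_lit 4) (nat_lit 5) (nat_lit 5) (nat_lit 5) (nat_lit 4) (nat_lit 399) (nat_lit 263) (nat_lit 226))))) (XT.nd (nat_lit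 282) (nat_lit 84) (nat_lit 0) (XT.nd (nat_lit 94) (nat_lit 0) (nat_lit 0) (XT.lf (nat_lit 0) (nat_lit 685589276) (nat_lit 168) (nat_lit 10261079552) (nat_lit 84) (nat_lit 32403388089) (nat_lit 3) (nat_lit 5) (nat_lit 5) (nat_lit 5) (nat_lit 4) (nat_lit 4) (nat_lit 400) (nat_lit 263) (nat_lit 225)) (XT.nd (nat_lit 94) (nat_lit 0) (nat_lit 0) (XT.lf (nat_lit 0) (nat_lit 1901450470) (nat_lit 168) (nat_lit 7951643185) (nat_lit 84) (nat_lit 34780896970) (nat_lit 3) (nat_lit 5) (nat_lit 5) (nat_lit 5) (nat_lit 4) (nat_lit 4) (nat_lit 401) (nat_lit 263) (nat_lit 224)) (XT.lf (nat_lit 0) (nat_lit 3135372747) (nat_lit 168) (nat_lit 5600714565) (nat_lit 84) (nat_lit 37222328595) (nat_lit 3) (nat_lit 5) (nat_lit 5) (nat_lit 5) (nat_lit 4) (nat_lit 4) (nat_lit 402) (nat_lit 263) (nat_lit 223)))) (XT.nd (nat_lit 188) (nat_lit 84) (nat_lit 0) (XT.nd (nat_lit 94) (nat_lit 0) (nat_lit 0) (XT.lf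 (nat_lit 0) (nat_lit 4388506252) (nat_lit 168) (nat_lit 3206102380) (nat_lit 84) (nat_lit 39729958633) (nat_lit 3) (nat_lit 5) (nat_lit 5) (nat_lit 5) (nat_lit 4) (nat_lit 4) (nat_lit 403) (nat_lit 263) (nat_lit 222)) (XT.lf (nat_lit 0) (nat_lit 5662019037) (nat_lit 168) (nat_lit 765574601) (nat_lit 84) (nat_lit 42306124460) (nat_lit 3) (nat_lit 5) (nat_lit 5) (nat_lit 5) (nat_lit 4) (nat_lit 4) (nat_lit 404) (nat_lit 263) (nat_lit 221))) (XT.nd (nat_lit 94) (nat_lit 0) (nat_lit 0) (XT.lf (nat_lit 0) (nat_lit 1758574966) (nat_lit 84) (nat_lit 5215968463) (nat_lit 168) (nat_lit 43212097645) (nat_lit 2) (nat_lit 5) (nat_lit 3) (nat_lit 5) (nat_lit 4) (nat_lit 4) (nat_lit 405) (nat_lit 263) (nat_lit 220)) (XT.lf (nat_lit 0) (nat_lit 4350015078) (nat_lit 84) (nat_lit 3968088346) (nat_lit 168) (nat_lit 43366872232) (nat_lit 2) (nat_lit 5) (nat_lit 3) (nat_lit 5) (nat_lit 4) (nat_lit 4)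 (nat_lit 406) (nat_lit 263) (nat_lit 219))))))) (XT.nd (nat_lit 1222) (nat_lit 0) (nat_lit 0) (XT.nd (nat_lit 564) (nat_lit 0) (nat_lit 0) (XT.nd (nat_lit 282) (nat_lit 0) (nat_lit 0) (XT.nd (nat_lit 94) (nat_lit 0) (nat_lit 0) (XT.lf (nat_lit 0) (nat_lit 6995419445) (nat_lit 84) (nat_lit 2690781160) (nat_lit 168) (nat_lit 43544158115) (nat_lit 2) (nat_lit 5) (nat_lit 3) (nat_lit 5) (nat_lit 4) (nat_lit 4) (nat_lit 407) (nat_lit 263) (nat_lit 218)) (XT.nd (nat_lit 94) (nat_lit 0) (nat_lit 0) (XT.lf (nat_lit 0) (nat_lit 9697253859) (nat_lit 84) (nat_lit 1382856320) (nat_lit 168) (nat_lit 43744120545) (nat_lit 2) (nat_lit 5) (nat_lit 3) (nat_lit 5) (nat_lit 4) (nat_lit 4) (nat_lit 408) (nat_lit 263) (nat_lit 217)) (XT.lf (nat_lit 0) (nat_lit 12458036715) (nat_lit 84) (nat_lit 43094704) (nat_lit 168) (nat_lit 43966945907) (nat_lit 2) (nat_lit 5) (nat_lit 3) (nat_lit 5) (nat_lit 4) (nat_lit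 4) (nat_lit 409) (nat_lit 263) (nat_lit 216)))) (XT.nd (nat_lit 94) (nat_lit 0) (nat_lit 0) (XT.lf (nat_lit 0) (nat_lit 13963780174) (nat_lit 168) (nat_lit 42896280721) (nat_lit 0) (nat_lit 1302960935) (nat_lit 2) (nat_lit 5) (nat_lit 4) (nat_lit 4) (nat_lit 2) (nat_lit 4) (nat_lit 410) (nat_lit 263) (nat_lit 215)) (XT.nd (nat_lit 94) (nat_lit 0) (nat_lit 0) (XT.lf (nat_lit 0) (nat_lit 15456984592) (nat_lit 168) (nat_lit 41772223860) (nat_lit 0) (nat_lit 2681821143) (nat_lit 2) (nat_lit 5) (nat_lit 4) (nat_lit 4) (nat_lit 2) (nat_lit 4) (nat_lit 411) (nat_lit 263) (nat_lit 214)) (XT.lf (nat_lit 0) (nat_lit 16981708991) (nat_lit 168) (nat_lit 40636394785) (nat_lit 0) (nat_lit 4095639422) (nat_lit 2) (nat_lit 5) (nat_lit 4) (nat_lit 4) (nat_lit 2) (nat_lit 4) (nat_lit 412) (nat_lit 263) (nat_lit 213))))) (XT.nd (nat_lit 282) (nat_lit 0) (nat_lit 0) (XT.nd (nat_lit 94) (nat_lit 0) (nat_lit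 0) (XT.lf (nat_lit 0) (nat_lit 18539374575) (nat_lit 168) (nat_lit 39487734784) (nat_lit 0) (nat_lit 5545733600) (nat_lit 2) (nat_lit 5) (nat_lit 4) (nat_lit 4) (nat_lit 2) (nat_lit 4) (nat_lit 413) (nat_lit 263) (nat_lit 212)) (XT.nd (nat_lit 94) (nat_lit 0) (nat_lit 0) (XT.lf (nat_lit 0) (nat_lit 20131433251) (nat_lit 168) (nat_lit 38325173187) (nat_lit 0) (nat_lit 7033455315) (nat_lit 2) (nat_lit 5) (nat_lit 4) (nat_lit 4) (nat_lit 2) (nat_lit 4) (nat_lit 414) (nat_lit 263) (nat_lit 211)) (XT.lf (nat_lit 0) (nat_lit 21759368985) (nat_lit 168) (nat_lit 37147626363) (nat_lit 0) (nat_lit 8560191280) (nat_lit 2) (nat_lit 5) (nat_lit 4) (nat_lit 4) (nat_lit 2) (nat_lit 4) (nat_lit 415) (nat_lit 263) (nat_lit 210)))) (XT.nd (nat_lit 188) (nat_lit 0) (nat_lit 0) (XT.nd (nat_lit 94) (nat_lit 0) (nat_lit 0) (XT.lf (nat_lit 0) (nat_lit 23424699183) (nat_lit 168) (nat_lit 35953996716) (nat_lit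 0) (nat_lit 10127364574) (nat_lit 2) (nat_lit 5) (nat_lit 4) (nat_lit 4) (nat_lit 2) (nat_lit 4) (nat_lit 416) (nat_lit 263) (nat_lit 209)) (XT.lf (nat_lit 0) (nat_lit 25128976107) (nat_lit 168) (nat_lit 34743171658) (nat_lit 0) (nat_lit 11736435965) (nat_lit 2) (nat_lit 5) (nat_lit 4) (nat_lit 4) (nat_lit 2) (nat_lit 4) (nat_lit 417) (nat_lit 263) (nat_lit 208))) (XT.nd (nat_lit 94) (nat_lit 0) (nat_lit 0) (XT.lf (nat_lit 0) (nat_lit 26873788322) (nat_lit 168) (nat_lit 33514022573) (nat_lit 0) (nat_lit 13388905277) (nat_lit 2) (nat_lit 5) (nat_lit 4) (nat_lit 4) (nat_lit 2) (nat_lit 4) (nat_lit 418) (nat_lit 263) (nat_lit 207)) (XT.lf (nat_lit 0) (nat_lit 28660762175) (nat_lit 168) (nat_lit 32265403765) (nat_lit 0) (nat_lit 15086312785) (nat_lit 2) (nat_lit 5) (nat_lit 4) (nat_lit 4) (nat_lit 2) (nat_lit 4) (nat_lit 419) (nat_lit 263) (nat_lit 206)))))) (XT.nd (nat_lit 50102) (nat_lit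 0) (nat_lit 756) (XT.nd (nat_lit 282) (nat_lit 0) (nat_lit 0) (XT.nd (nat_lit 94) (nat_lit 0) (nat_lit 0) (XT.lf (nat_lit 0) (nat_lit 30491563314) (nat_lit 168) (nat_lit 30996151392) (nat_lit 0) (nat_lit 16830240649) (nat_lit 2) (nat_lit 5) (nat_lit 4) (nat_lit 4) (nat_lit 2) (nat_lit 4) (nat_lit 420) (nat_lit 263) (nat_lit 205)) (XT.nd (nat_lit 94) (nat_lit 0) (nat_lit 0) (XT.lf (nat_lit 0) (nat_lit 32367898237) (nat_lit 168) (nat_lit 29705082376) (nat_lit 0) (nat_lit 18622314394) (nat_lit 2) (nat_lit 5) (nat_lit 4) (nat_lit 4) (nat_lit 2) (nat_lit 4) (nat_lit 421) (nat_lit 263) (nat_lit 204)) (XT.lf (nat_lit 0) (nat_lit 34291515885) (nat_lit 168) (nat_lit 28390993306) (nat_lit 0) (nat_lit 20464204420) (nat_lit 2) (nat_lit 5) (nat_lit 4) (nat_lit 4) (nat_lit 2) (nat_lit 4) (nat_lit 422) (nat_lit 263) (nat_lit 203)))) (XT.nd (nat_lit 94) (nat_lit 0) (nat_lit 0) (XT.lf (nat_lit 0)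 (nat_lit 36264209270) (nat_lit 168) (nat_lit 27052659314) (nat_lit 0) (nat_lit 22357627562) (nat_lit 2) (nat_lit 5) (nat_lit 4) (nat_lit 4) (nat_lit 2) (nat_lit 4) (nat_lit 423) (nat_lit 263) (nat_lit 202)) (XT.nd (nat_lit 94) (nat_lit 0) (nat_lit 0) (XT.lf (nat_lit 0) (nat_lit 38287817150) (nat_lit 168) (nat_lit 25688832931) (nat_lit 0) (nat_lit 24304348687) (nat_lit 2) (nat_lit 5) (nat_lit 4) (nat_lit 4) (nat_lit 2) (nat_lit 4) (nat_lit 424) (nat_lit 263) (nat_lit 201)) (XT.lf (nat_lit 0) (nat_lit 40364225740) (nat_lit 168) (nat_lit 24298242930) (nat_lit 0) (nat_lit 26306182345) (nat_lit 2) (nat_lit 5) (nat_lit 4) (nat_lit 4) (nat_lit 2) (nat_lit 4) (nat_lit 425) (nat_lit 263) (nat_lit 200))))) (XT.nd (nat_lit 282) (nat_lit 168) (nat_lit 0) (XT.nd (nat_lit 94) (nat_lit 0) (nat_lit 0) (XT.lf (nat_lit 0) (nat_lit 183297688) (nat_lit 252) (nat_lit 6970984825) (nat_lit 0) (nat_lit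 183297688) (nat_lit 13) (nat_lit 5) (nat_lit 16) (nat_lit 4) (nat_lit 13) (nat_lit 4) (nat_lit 360) (nat_lit 264) (nat_lit 264)) (XT.nd (nat_lit 94) (nat_lit 0) (nat_lit 0) (XT.lf (nat_lit 0) (nat_lit 2650591920) (nat_lit 252) (nat_lit 10285249594) (nat_lit 0) (nat_lit 2091266222) (nat_lit 13) (nat_lit 5) (nat_lit 16) (nat_lit 4) (nat_lit 13) (nat_lit 4) (nat_lit 361) (nat_lit 264) (nat_lit 263)) (XT.lf (nat_lit 0) (nat_lit 4948566568) (nat_lit 252) (nat_lit 6596719812) (nat_lit 0) (nat_lit 3846732918) (nat_lit 13) (nat_lit 5) (nat_lit 16) (nat_lit 4) (nat_lit 13) (nat_lit 4) (nat_lit 362) (nat_lit 264) (nat_lit 262)))) (XT.nd (nat_lit 188) (nat_lit 0) (nat_lit 0) (XT.nd (nat_lit 94) (nat_lit 168) (nat_lit 0) (XT.lf (nat_lit 0) (nat_lit 7262661273) (nat_lit 252) (nat_lit 2872942210) (nat_lit 0) (nat_lit 5634631743) (nat_lit 13) (nat_lit 5) (nat_lit 16) (nat_lit 4) (nat_lit 13) (nat_lit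 4) (nat_lit 363) (nat_lit 264) (nat_lit 261)) (XT.lf (nat_lit 0) (nat_lit 907845219) (nat_lit 168) (nat_lit 8696193732) (nat_lit 168) (nat_lit 6557789925) (nat_lit 11) (nat_lit 4) (nat_lit 13) (nat_lit 5) (nat_lit 13) (nat_lit 4) (nat_lit 364) (nat_lit 264) (nat_lit 260))) (XT.nd (nat_lit 94) (nat_lit 0) (nat_lit 0) (XT.lf (nat_lit 0) (nat_lit 4790800295) (nat_lit 168) (nat_lit 7204580844) (nat_lit 168) (nat_lit 4571148640) (nat_lit 11) (nat_lit 4) (nat_lit 13) (nat_lit 5) (nat_lit 13) (nat_lit 4) (nat_lit 365) (nat_lit 264) (nat_lit 259)) (XT.lf (nat_lit 0) (nat_lit 8720468753) (nat_lit 168) (nat_lit 5689362105) (nat_lit 168) (nat_lit 2575785967) (nat_lit 11) (nat_lit 4) (nat_lit 13) (nat_lit 5) (nat_lit 13) (nat_lit 4) (nat_lit 366) (nat_lit 264) (nat_lit 258))))))))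
noncomputable def xc22 : XT := (XT.nd (nat_lit 2350) (nat_lit 168) (nat_lit 0) (XT.nd (nat_lit 1128) (nat_lit 252) (nat_lit 0) (XT.nd (nat_lit 564) (nat_lit 168) (nat_lit 0) (XT.nd (nat_lit 282) (nat_lit 0) (nat_lit 0) (XT.nd (nat_lit 94) (nat_lit 168) (nat_lit 0) (XT.lf (nat_lit 0) (nat_lit 12700513455) (nat_lit 168) (nat_lit 4149125173) (nat_lit 168) (nat_lit 569842017) (nat_lit 11) (nat_lit 4) (nat_lit 13) (nat_lit 5) (nat_lit 13) (nat_lit 4) (nat_lit 367) (nat_lit 264) (nat_lit 257)) (XT.nd (nat_lit 94) (nat_lit 84) (nat_lit 0) (XT.lf (nat_lit 0) (nat_lit 1419367843) (nat_lit 252) (nat_lit 1148251253) (nat_lit 84) (nat_lit 15300461087) (nat_lit 10) (nat_lit 5) (nat_lit 13) (nat_lit 5) (nat_lit 11) (nat_lit 4) (nat_lit 368) (nat_lit 264) (nat_lit 256)) (XT.lf (nat_lit 0) (nat_lit 2509476519) (nat_lit 84) (nat_lit 926558072) (nat_lit 168) (nat_lit 14895293497) (nat_lit 9) (nat_lit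 5) (nat_lit 10) (nat_lit 5) (nat_lit 11) (nat_lit 4) (nat_lit 369) (nat_lit 264) (nat_lit 255)))) (XT.nd (nat_lit 94) (nat_lit 0) (nat_lit 0) (XT.lf (nat_lit 0) (nat_lit 5488191682) (nat_lit 168) (nat_lit 12580517845) (nat_lit 0) (nat_lit 741287016) (nat_lit 9) (nat_lit 5) (nat_lit 11) (nat_lit 4) (nat_lit 9) (nat_lit 4) (nat_lit 370) (nat_lit 264) (nat_lit 254)) (XT.nd (nat_lit 94) (nat_lit 0) (nat_lit 0) (XT.lf (nat_lit 0) (nat_lit 7568120213) (nat_lit 168) (nat_lit 9315273061) (nat_lit 0) (nat_lit 2421437027) (nat_lit 9) (nat_lit 5) (nat_lit 11) (nat_lit 4) (nat_lit 9) (nat_lit 4) (nat_lit 371) (nat_lit 264) (nat_lit 253)) (XT.lf (nat_lit 0) (nat_lit 9668567325) (nat_lit 168) (nat_lit 6013882096) (nat_lit 0) (nat_lit 4134126118) (nat_lit 9) (nat_lit 5) (nat_lit 11) (nat_lit 4) (nat_lit 9) (nat_lit 4) (nat_lit 372) (nat_lit 264) (nat_lit 252))))) (XT.nd (nat_lit 282) (nat_lit 0)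 (nat_lit 0) (XT.nd (nat_lit 94) (nat_lit 168) (nat_lit 0) (XT.lf (nat_lit 0) (nat_lit 11791490853) (nat_lit 168) (nat_lit 2673267707) (nat_lit 0) (nat_lit 5880950693) (nat_lit 9) (nat_lit 5) (nat_lit 11) (nat_lit 4) (nat_lit 9) (nat_lit 4) (nat_lit 373) (nat_lit 264) (nat_lit 251)) (XT.nd (nat_lit 94) (nat_lit 0) (nat_lit 0) (XT.lf (nat_lit 0) (nat_lit 724276462) (nat_lit 168) (nat_lit 13221778036) (nat_lit 168) (nat_lit 6946447426) (nat_lit 7) (nat_lit 4) (nat_lit 9) (nat_lit 5) (nat_lit 9) (nat_lit 4) (nat_lit 374) (nat_lit 264) (nat_lit 250)) (XT.lf (nat_lit 0) (nat_lit 4223214368) (nat_lit 168) (nat_lit 11931385546) (nat_lit 168) (nat_lit 5302232968) (nat_lit 7) (nat_lit 4) (nat_lit 9) (nat_lit 5) (nat_lit 9) (nat_lit 4) (nat_lit 375) (nat_lit 264) (nat_lit 249)))) (XT.nd (nat_lit 94) (nat_lit 0) (nat_lit 0) (XT.lf (nat_lit 0) (nat_lit 7771839519) (nat_lit 168) (nat_lit 10620281744)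 (nat_lit 168) (nat_lit 3647945878) (nat_lit 7) (nat_lit 4) (nat_lit 9) (nat_lit 5) (nat_lit 9) (nat_lit 4) (nat_lit 376) (nat_lit 264) (nat_lit 248)) (XT.nd (nat_lit 94) (nat_lit 0) (nat_lit 0) (XT.lf (nat_lit 0) (nat_lit 11373459606) (nat_lit 168) (nat_lit 9287244542) (nat_lit 168) (nat_lit 1982044189) (nat_lit 7) (nat_lit 4) (nat_lit 9) (nat_lit 5) (nat_lit 9) (nat_lit 4) (nat_lit 377) (nat_lit 264) (nat_lit 247)) (XT.lf (nat_lit 0) (nat_lit 15031431715) (nat_lit 168) (nat_lit 7931031410) (nat_lit 168) (nat_lit 302975104) (nat_lit 7) (nat_lit 4) (nat_lit 9) (nat_lit 5) (nat_lit 9) (nat_lit 4) (nat_lit 378) (nat_lit 264) (nat_lit 246)))))) (XT.nd (nat_lit 564) (nat_lit 84) (nat_lit 0) (XT.nd (nat_lit 282) (nat_lit 0) (nat_lit 0) (XT.nd (nat_lit 94) (nat_lit 84) (nat_lit 0) (XT.lf (nat_lit 0) (nat_lit 1362804389) (nat_lit 252) (nat_lit 5173348944) (nat_lit 84) (nat_lit 17372136188)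 (nat_lit 6) (nat_lit 5) (nat_lit 9) (nat_lit 5) (nat_lit 7) (nat_lit 4) (nat_lit 379) (nat_lit 264) (nat_lit 245)) (XT.nd (nat_lit 94) (nat_lit 84) (nat_lit 0) (XT.lf (nat_lit 0) (nat_lit 3038462238) (nat_lit 252) (nat_lit 2073820494) (nat_lit 84) (nat_lit 19459948607) (nat_lit 6) (nat_lit 5) (nat_lit 9) (nat_lit 5) (nat_lit 7) (nat_lit 4) (nat_lit 380) (nat_lit 264) (nat_lit 244)) (XT.lf (nat_lit 0) (nat_lit 1092484599) (nat_lit 84) (nat_lit 3650017587) (nat_lit 168) (nat_lit 20515137567) (nat_lit 5) (nat_lit 5) (nat_lit 6) (nat_lit 5) (nat_lit 7) (nat_lit 4) (nat_lit 381) (nat_lit 264) (nat_lit 243)))) (XT.nd (nat_lit 94) (nat_lit 0) (nat_lit 0) (XT.lf (nat_lit 0) (nat_lit 4350108757) (nat_lit 84) (nat_lit 2137034589) (nat_lit 168) (nat_lit 19477680736) (nat_lit 5) (nat_lit 5) (nat_lit 6) (nat_lit 5) (nat_lit 7) (nat_lit 4) (nat_lit 382) (nat_lit 264) (nat_lit 242)) (XT.nd (nat_lit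 94) (nat_lit 0) (nat_lit 0) (XT.lf (nat_lit 0) (nat_lit 7659446422) (nat_lit 84) (nat_lit 593569913) (nat_lit 168) (nat_lit 18442078023) (nat_lit 5) (nat_lit 5) (nat_lit 6) (nat_lit 5) (nat_lit 7) (nat_lit 4) (nat_lit 383) (nat_lit 264) (nat_lit 241)) (XT.lf (nat_lit 0) (nat_lit 10051506860) (nat_lit 168) (nat_lit 16435288754) (nat_lit 0) (nat_lit 962033724) (nat_lit 5) (nat_lit 5) (nat_lit 7) (nat_lit 4) (nat_lit 5) (nat_lit 4) (nat_lit 384) (nat_lit 264) (nat_lit 240))))) (XT.nd (nat_lit 282) (nat_lit 84) (nat_lit 0) (XT.nd (nat_lit 94) (nat_lit 0) (nat_lit 0) (XT.lf (nat_lit 0) (nat_lit 11880762004) (nat_lit 168) (nat_lit 13807684673) (nat_lit 0) (nat_lit 2538394314) (nat_lit 5) (nat_lit 5) (nat_lit 7) (nat_lit 4) (nat_lit 5) (nat_lit 4) (nat_lit 385) (nat_lit 264) (nat_lit 239)) (XT.nd (nat_lit 94) (nat_lit 0) (nat_lit 0) (XT.lf (nat_lit 0) (nat_lit 13736598537) (nat_lit 168)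 (nat_lit 11144498204) (nat_lit 0) (nat_lit 4148940301) (nat_lit 5) (nat_lit 5) (nat_lit 7) (nat_lit 4) (nat_lit 5) (nat_lit 4) (nat_lit 386) (nat_lit 264) (nat_lit 238)) (XT.lf (nat_lit 0) (nat_lit 15620746294) (nat_lit 168) (nat_lit 8443246977) (nat_lit 0) (nat_lit 5795172881) (nat_lit 5) (nat_lit 5) (nat_lit 7) (nat_lit 4) (nat_lit 5) (nat_lit 4) (nat_lit 387) (nat_lit 264) (nat_lit 237)))) (XT.nd (nat_lit 188) (nat_lit 84) (nat_lit 0) (XT.nd (nat_lit 94) (nat_lit 0) (nat_lit 0) (XT.lf (nat_lit 0) (nat_lit 17534961497) (nat_lit 168) (nat_lit 5701413145) (nat_lit 0) (nat_lit 7478626517) (nat_lit 5) (nat_lit 5) (nat_lit 7) (nat_lit 4) (nat_lit 5) (nat_lit 4) (nat_lit 388) (nat_lit 264) (nat_lit 236)) (XT.lf (nat_lit 0) (nat_lit 19481028395) (nat_lit 168) (nat_lit 2916441031) (nat_lit 0) (nat_lit 9200870362) (nat_lit 5) (nat_lit 5) (nat_lit 7) (nat_lit 4) (nat_lit 5) (nat_lit 4) (nat_lit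 389) (nat_lit 264) (nat_lit 235))) (XT.nd (nat_lit 94) (nat_lit 84) (nat_lit 0) (XT.lf (nat_lit 0) (nat_lit 21460760928) (nat_lit 168) (nat_lit 85734749) (nat_lit 0) (nat_lit 10963509730) (nat_lit 5) (nat_lit 5) (nat_lit 7) (nat_lit 4) (nat_lit 5) (nat_lit 4) (nat_lit 390) (nat_lit 264) (nat_lit 234)) (XT.lf (nat_lit 0) (nat_lit 2850781102) (nat_lit 84) (nat_lit 20653503412) (nat_lit 84) (nat_lit 9945686584) (nat_lit 4) (nat_lit 4) (nat_lit 5) (nat_lit 5) (nat_lit 5) (nat_lit 4) (nat_lit 391) (nat_lit 264) (nat_lit 233))))))) (XT.nd (nat_lit 1222) (nat_lit 84) (nat_lit 0) (XT.nd (nat_lit 564) (nat_lit 84) (nat_lit 0) (XT.nd (nat_lit 282) (nat_lit 0) (nat_lit 0) (XT.nd (nat_lit 94) (nat_lit 0) (nat_lit 0) (XT.lf (nat_lit 0) (nat_lit 5841165943) (nat_lit 84) (nat_lit 19745416412) (nat_lit 84) (nat_lit 8833365219) (nat_lit 4) (nat_lit 4) (nat_lit 5) (nat_lit 5) (nat_lit 5) (nat_lit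 4) (nat_lit 392) (nat_lit 264) (nat_lit 232)) (XT.nd (nat_lit 94) (nat_lit 0) (nat_lit 0) (XT.lf (nat_lit 0) (nat_lit 8886444244) (nat_lit 84) (nat_lit 18822283142) (nat_lit 84) (nat_lit 7712138481) (nat_lit 4) (nat_lit 4) (nat_lit 5) (nat_lit 5) (nat_lit 5) (nat_lit 4) (nat_lit 393) (nat_lit 264) (nat_lit 231)) (XT.lf (nat_lit 0) (nat_lit 11989454524) (nat_lit 84) (nat_lit 17883243143) (nat_lit 84) (nat_lit 6580961269) (nat_lit 4) (nat_lit 4) (nat_lit 5) (nat_lit 5) (nat_lit 5) (nat_lit 4) (nat_lit 394) (nat_lit 264) (nat_lit 230)))) (XT.nd (nat_lit 94) (nat_lit 0) (nat_lit 0) (XT.lf (nat_lit 0) (nat_lit 15153089113) (nat_lit 84) (nat_lit 16927421133) (nat_lit 84) (nat_lit 5438779207) (nat_lit 4) (nat_lit 4) (nat_lit 5) (nat_lit 5) (nat_lit 5) (nat_lit 4) (nat_lit 395) (nat_lit 264) (nat_lit 229)) (XT.nd (nat_lit 94) (nat_lit 0) (nat_lit 0) (XT.lf (nat_lit 0) (nat_lit 18380296849)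 (nat_lit 84) (nat_lit 15953926185) (nat_lit 84) (nat_lit 4284527661) (nat_lit 4) (nat_lit 4) (nat_lit 5) (nat_lit 5) (nat_lit 5) (nat_lit 4) (nat_lit 396) (nat_lit 264) (nat_lit 228)) (XT.lf (nat_lit 0) (nat_lit 21674085828) (nat_lit 84) (nat_lit 14961850899) (nat_lit 84) (nat_lit 3117130748) (nat_lit 4) (nat_lit 4) (nat_lit 5) (nat_lit 5) (nat_lit 5) (nat_lit 4) (nat_lit 397) (nat_lit 264) (nat_lit 227))))) (XT.nd (nat_lit 282) (nat_lit 0) (nat_lit 0) (XT.nd (nat_lit 94) (nat_lit 84) (nat_lit 0) (XT.lf (nat_lit 0) (nat_lit 25037526208) (nat_lit 84) (nat_lit 13950270558) (nat_lit 84) (nat_lit 1935500332) (nat_lit 4) (nat_lit 4) (nat_lit 5) (nat_lit 5) (nat_lit 5) (nat_lit 4) (nat_lit 398) (nat_lit 264) (nat_lit 226)) (XT.nd (nat_lit 94) (nat_lit 84) (nat_lit 0) (XT.lf (nat_lit 0) (nat_lit 28473753066) (nat_lit 84) (nat_lit 12918242263) (nat_lit 84) (nat_lit 738535010) (nat_lit 4)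 (nat_lit 4) (nat_lit 5) (nat_lit 5) (nat_lit 5) (nat_lit 4) (nat_lit 399) (nat_lit 264) (nat_lit 225)) (XT.lf (nat_lit 0) (nat_lit 465313122) (nat_lit 168) (nat_lit 11394634018) (nat_lit 84) (nat_lit 31515799288) (nat_lit 3) (nat_lit 5) (nat_lit 5) (nat_lit 5) (nat_lit 4) (nat_lit 4) (nat_lit 400) (nat_lit 264) (nat_lit 224)))) (XT.nd (nat_lit 188) (nat_lit 0) (nat_lit 0) (XT.nd (nat_lit 94) (nat_lit 0) (nat_lit 0) (XT.lf (nat_lit 0) (nat_lit 1671508824) (nat_lit 168) (nat_lit 9100018072) (nat_lit 84) (nat_lit 33888492792) (nat_lit 3) (nat_lit 5) (nat_lit 5) (nat_lit 5) (nat_lit 4) (nat_lit 4) (nat_lit 401) (nat_lit 264) (nat_lit 223)) (XT.lf (nat_lit 0) (nat_lit 2896056231) (nat_lit 168) (nat_lit 6763464253) (nat_lit 84) (nat_lit 36325253828) (nat_lit 3) (nat_lit 5) (nat_lit 5) (nat_lit 5) (nat_lit 4) (nat_lit 4) (nat_lit 402) (nat_lit 264) (nat_lit 222))) (XT.nd (nat_lit 94) (nat_lit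 0) (nat_lit 0) (XT.lf (nat_lit 0) (nat_lit 4140096747) (nat_lit 168) (nat_lit 4382794650) (nat_lit 84) (nat_lit 38828353712) (nat_lit 3) (nat_lit 5) (nat_lit 5) (nat_lit 5) (nat_lit 4) (nat_lit 4) (nat_lit 403) (nat_lit 264) (nat_lit 221)) (XT.lf (nat_lit 0) (nat_lit 5404789951) (nat_lit 168) (nat_lit 1955790228) (nat_lit 84) (nat_lit 41400125596) (nat_lit 3) (nat_lit 5) (nat_lit 5) (nat_lit 5) (nat_lit 4) (nat_lit 4) (nat_lit 404) (nat_lit 264) (nat_lit 220)))))) (XT.nd (nat_lit 564) (nat_lit 0) (nat_lit 0) (XT.nd (nat_lit 282) (nat_lit 0) (nat_lit 0) (XT.nd (nat_lit 94) (nat_lit 0) (nat_lit 0) (XT.lf (nat_lit 0) (nat_lit 530499618) (nat_lit 84) (nat_lit 6166077671) (nat_lit 168) (nat_lit 43517729645) (nat_lit 2) (nat_lit 5) (nat_lit 3) (nat_lit 5) (nat_lit 4) (nat_lit 4) (nat_lit 405) (nat_lit 264) (nat_lit 219)) (XT.nd (nat_lit 94) (nat_lit 0) (nat_lit 0) (XT.lf (nat_lit 0) (nat_lit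 3108955787) (nat_lit 84) (nat_lit 4922755513) (nat_lit 168) (nat_lit 43681225691) (nat_lit 2) (nat_lit 5) (nat_lit 3) (nat_lit 5) (nat_lit 4) (nat_lit 4) (nat_lit 406) (nat_lit 264) (nat_lit 218)) (XT.lf (nat_lit 0) (nat_lit 5741766610) (nat_lit 84) (nat_lit 3649869237) (nat_lit 168) (nat_lit 43866970798) (nat_lit 2) (nat_lit 5) (nat_lit 3) (nat_lit 5) (nat_lit 4) (nat_lit 4) (nat_lit 407) (nat_lit 264) (nat_lit 217)))) (XT.nd (nat_lit 94) (nat_lit 0) (nat_lit 0) (XT.lf (nat_lit 0) (nat_lit 8431386142) (nat_lit 84) (nat_lit 2346232381) (nat_lit 168) (nat_lit 44075138101) (nat_lit 2) (nat_lit 5) (nat_lit 3) (nat_lit 5) (nat_lit 4) (nat_lit 4) (nat_lit 408) (nat_lit 264) (nat_lit 216)) (XT.nd (nat_lit 94) (nat_lit 0) (nat_lit 0) (XT.lf (nat_lit 0) (nat_lit 11180321391) (nat_lit 84) (nat_lit 1010629817) (nat_lit 168) (nat_lit 44305921632) (nat_lit 2) (nat_lit 5) (nat_lit 3) (nat_lit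 5) (nat_lit 4) (nat_lit 4) (nat_lit 409) (nat_lit 264) (nat_lit 215)) (XT.lf (nat_lit 0) (nat_lit 13636504502) (nat_lit 168) (nat_lit 44204906356) (nat_lit 0) (nat_lit 350966776) (nat_lit 2) (nat_lit 5) (nat_lit 4) (nat_lit 4) (nat_lit 2) (nat_lit 4) (nat_lit 410) (nat_lit 264) (nat_lit 214))))) (XT.nd (nat_lit 282) (nat_lit 0) (nat_lit 0) (XT.nd (nat_lit 94) (nat_lit 0) (nat_lit 0) (XT.lf (nat_lit 0) (nat_lit 15122436957) (nat_lit 168) (nat_lit 43092210179) (nat_lit 0) (nat_lit 1725993111) (nat_lit 2) (nat_lit 5) (nat_lit 4) (nat_lit 4) (nat_lit 2) (nat_lit 4) (nat_lit 411) (nat_lit 264) (nat_lit 213)) (XT.nd (nat_lit 94) (nat_lit 0) (nat_lit 0) (XT.lf (nat_lit 0) (nat_lit 16640108047) (nat_lit 168) (nat_lit 41967400196) (nat_lit 0) (nat_lit 3136092794) (nat_lit 2) (nat_lit 5) (nat_lit 4) (nat_lit 4) (nat_lit 2) (nat_lit 4) (nat_lit 412) (nat_lit 264) (nat_lit 212)) (XT.lf (nat_lit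 0) (nat_lit 18190932400) (nat_lit 168) (nat_lit 40829427966) (nat_lit 0) (nat_lit 4582580186) (nat_lit 2) (nat_lit 5) (nat_lit 4) (nat_lit 4) (nat_lit 2) (nat_lit 4) (nat_lit 413) (nat_lit 264) (nat_lit 211)))) (XT.nd (nat_lit 188) (nat_lit 0) (nat_lit 0) (XT.nd (nat_lit 94) (nat_lit 0) (nat_lit 0) (XT.lf (nat_lit 0) (nat_lit 19776355546) (nat_lit 168) (nat_lit 39677232781) (nat_lit 0) (nat_lit 6066803564) (nat_lit 2) (nat_lit 5) (nat_lit 4) (nat_lit 4) (nat_lit 2) (nat_lit 4) (nat_lit 414) (nat_lit 264) (nat_lit 210)) (XT.lf (nat_lit 0) (nat_lit 21397855266) (nat_lit 168) (nat_lit 38509740673) (nat_lit 0) (nat_lit 7590146380) (nat_lit 2) (nat_lit 5) (nat_lit 4) (nat_lit 4) (nat_lit 2) (nat_lit 4) (nat_lit 415) (nat_lit 264) (nat_lit 209))) (XT.nd (nat_lit 94) (nat_lit 0) (nat_lit 0) (XT.lf (nat_lit 0) (nat_lit 23056942967) (nat_lit 168) (nat_lit 37325863418) (nat_lit 0) (nat_lit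 9154028549) (nat_lit 2) (nat_lit 5) (nat_lit 4) (nat_lit 4) (nat_lit 2) (nat_lit 4) (nat_lit 416) (nat_lit 264) (nat_lit 208)) (XT.lf (nat_lit 0) (nat_lit 24755165094) (nat_lit 168) (nat_lit 36124497518) (nat_lit 0) (nat_lit 10759907772) (nat_lit 2) (nat_lit 5) (nat_lit 4) (nat_lit 4) (nat_lit 2) (nat_lit 4) (nat_lit 417) (nat_lit 264) (nat_lit 207))))))))
noncomputable def xc23 : XT := (XT.nd (nat_lit 51700) (nat_lit 0) (nat_lit 84) (XT.nd (nat_lit 50478) (nat_lit 0) (nat_lit 420) (XT.nd (nat_lit 564) (nat_lit 0) (nat_lit 0) (XT.nd (nat_lit 282) (nat_lit 0) (nat_lit 0) (XT.nd (nat_lit 94) (nat_lit 0) (nat_lit 0) (XT.lf (nat_lit 0) (nat_lit 26494104566) (nat_lit 168) (nat_lit 34904523174) (nat_lit 0) (nat_lit 12409280899) (nat_lit 2) (nat_lit 5) (nat_lit 4) (nat_lit 4) (nat_lit 2) (nat_lit 4) (nat_lit 418) (nat_lit 264) (nat_lit 206)) (XT.nd (nat_lit 94) (nat_lit 0) (nat_lit 0) (XT.lf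 (nat_lit 0) (nat_lit 28275382258) (nat_lit 168) (nat_lit 33664803243) (nat_lit 0) (nat_lit 14103685316) (nat_lit 2) (nat_lit 5) (nat_lit 4) (nat_lit 4) (nat_lit 2) (nat_lit 4) (nat_lit 419) (nat_lit 264) (nat_lit 205)) (XT.lf (nat_lit 0) (nat_lit 30100658508) (nat_lit 168) (nat_lit 32404182174) (nat_lit 0) (nat_lit 15844700388) (nat_lit 2) (nat_lit 5) (nat_lit 4) (nat_lit 4) (nat_lit 2) (nat_lit 4) (nat_lit 420) (nat_lit 264) (nat_lit 204)))) (XT.nd (nat_lit 94) (nat_lit 0) (nat_lit 0) (XT.lf (nat_lit 0) (nat_lit 31971634662) (nat_lit 168) (nat_lit 31121484939) (nat_lit 0) (nat_lit 17633948921) (nat_lit 2) (nat_lit 5) (nat_lit 4) (nat_lit 4) (nat_lit 2) (nat_lit 4) (nat_lit 421) (nat_lit 264) (nat_lit 203)) (XT.nd (nat_lit 94) (nat_lit 0) (nat_lit 0) (XT.lf (nat_lit 0) (nat_lit 33890054669) (nat_lit 168) (nat_lit 29815515927) (nat_lit 0) (nat_lit 19473098683) (nat_lit 2) (nat_lit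 5) (nat_lit 4) (nat_lit 4) (nat_lit 2) (nat_lit 4) (nat_lit 422) (nat_lit 264) (nat_lit 202)) (XT.lf (nat_lit 0) (nat_lit 35857706695) (nat_lit 168) (nat_lit 28485057840) (nat_lit 0) (nat_lit 21363863955) (nat_lit 2) (nat_lit 5) (nat_lit 4) (nat_lit 4) (nat_lit 2) (nat_lit 4) (nat_lit 423) (nat_lit 264) (nat_lit 201))))) (XT.nd (nat_lit 49538) (nat_lit 0) (nat_lit 924) (XT.nd (nat_lit 94) (nat_lit 0) (nat_lit 0) (XT.lf (nat_lit 0) (nat_lit 37876424799) (nat_lit 168) (nat_lit 27128870551) (nat_lit 0) (nat_lit 23308007127) (nat_lit 2) (nat_lit 5) (nat_lit 4) (nat_lit 4) (nat_lit 2) (nat_lit 4) (nat_lit 424) (nat_lit 264) (nat_lit 200)) (XT.nd (nat_lit 94) (nat_lit 0) (nat_lit 0) (XT.lf (nat_lit 0) (nat_lit 39948090638) (nat_lit 168) (nat_lit 25745689952) (nat_lit 0) (nat_lit 25307340345) (nat_lit 2) (nat_lit 5) (nat_lit 4) (nat_lit 4) (nat_lit 2) (nat_lit 4) (nat_lit 425) (nat_lit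 264) (nat_lit 199)) (XT.lf (nat_lit 0) (nat_lit 42074635220) (nat_lit 168) (nat_lit 24334226773) (nat_lit 0) (nat_lit 27363727197) (nat_lit 2) (nat_lit 5) (nat_lit 4) (nat_lit 4) (nat_lit 2) (nat_lit 4) (nat_lit 426) (nat_lit 264) (nat_lit 198)))) (XT.nd (nat_lit 188) (nat_lit 252) (nat_lit 0) (XT.nd (nat_lit 94) (nat_lit 0) (nat_lit 0) (XT.lf (nat_lit 0) (nat_lit 3476184766) (nat_lit 168) (nat_lit 1762752406) (nat_lit 168) (nat_lit 1762752406) (nat_lit 16) (nat_lit 4) (nat_lit 18) (nat_lit 5) (nat_lit 18) (nat_lit 4) (nat_lit 358) (nat_lit 265) (nat_lit 265)) (XT.lf (nat_lit 0) (nat_lit 11132156159) (nat_lit 168) (nat_lit 1898117392) (nat_lit 168) (nat_lit 1303575989) (nat_lit 16) (nat_lit 4) (nat_lit 18) (nat_lit 5) (nat_lit 18) (nat_lit 4) (nat_lit 359) (nat_lit 265) (nat_lit 264))) (XT.nd (nat_lit 94) (nat_lit 0) (nat_lit 0) (XT.lf (nat_lit 0) (nat_lit 690523900) (nat_lit 168)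 (nat_lit 226132967) (nat_lit 252) (nat_lit 13759476605) (nat_lit 13) (nat_lit 5) (nat_lit 15) (nat_lit 5) (nat_lit 16) (nat_lit 4) (nat_lit 360) (nat_lit 265) (nat_lit 263)) (XT.lf (nat_lit 0) (nat_lit 3170430927) (nat_lit 252) (nat_lit 10366798191) (nat_lit 0) (nat_lit 1491932482) (nat_lit 13) (nat_lit 5) (nat_lit 16) (nat_lit 4) (nat_lit 13) (nat_lit 4) (nat_lit 361) (nat_lit 265) (nat_lit 262)))))) (XT.nd (nat_lit 564) (nat_lit 336) (nat_lit 0) (XT.nd (nat_lit 282) (nat_lit 0) (nat_lit 0) (XT.nd (nat_lit 94) (nat_lit 168) (nat_lit 0) (XT.lf (nat_lit 0) (nat_lit 5441267635) (nat_lit 252) (nat_lit 6717213069) (nat_lit 0) (nat_lit 3236573310) (nat_lit 13) (nat_lit 5) (nat_lit 16) (nat_lit 4) (nat_lit 13) (nat_lit 4) (nat_lit 362) (nat_lit 265) (nat_lit 261)) (XT.nd (nat_lit 94) (nat_lit 168) (nat_lit 0) (XT.lf (nat_lit 0) (nat_lit 7729040380) (nat_lit 252) (nat_lit 3031209143) (nat_lit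 0) (nat_lit 5013971778) (nat_lit 13) (nat_lit 5) (nat_lit 16) (nat_lit 4) (nat_lit 13) (nat_lit 4) (nat_lit 363) (nat_lit 265) (nat_lit 260)) (XT.lf (nat_lit 0) (nat_lit 708932743) (nat_lit 168) (nat_lit 9333981565) (nat_lit 168) (nat_lit 6123884567) (nat_lit 11) (nat_lit 4) (nat_lit 13) (nat_lit 5) (nat_lit 13) (nat_lit 4) (nat_lit 364) (nat_lit 265) (nat_lit 259)))) (XT.nd (nat_lit 94) (nat_lit 0) (nat_lit 0) (XT.lf (nat_lit 0) (nat_lit 4555620844) (nat_lit 168) (nat_lit 7853513015) (nat_lit 168) (nat_lit 4163272081) (nat_lit 11) (nat_lit 4) (nat_lit 13) (nat_lit 5) (nat_lit 13) (nat_lit 4) (nat_lit 365) (nat_lit 265) (nat_lit 258)) (XT.nd (nat_lit 94) (nat_lit 0) (nat_lit 0) (XT.lf (nat_lit 0) (nat_lit 8450112799) (nat_lit 168) (nat_lit 6349103526) (nat_lit 168) (nat_lit 2193155575) (nat_lit 11) (nat_lit 4) (nat_lit 13) (nat_lit 5) (nat_lit 13) (nat_lit 4) (nat_lit 366) (nat_lit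 265) (nat_lit 257)) (XT.lf (nat_lit 0) (nat_lit 12396038681) (nat_lit 168) (nat_lit 4819350833) (nat_lit 168) (nat_lit 211698695) (nat_lit 11) (nat_lit 4) (nat_lit 13) (nat_lit 5) (nat_lit 13) (nat_lit 4) (nat_lit 367) (nat_lit 265) (nat_lit 256))))) (XT.nd (nat_lit 282) (nat_lit 168) (nat_lit 0) (XT.nd (nat_lit 94) (nat_lit 84) (nat_lit 0) (XT.lf (nat_lit 0) (nat_lit 1747023107) (nat_lit 252) (nat_lit 1497570600) (nat_lit 84) (nat_lit 14631818062) (nat_lit 10) (nat_lit 5) (nat_lit 13) (nat_lit 5) (nat_lit 11) (nat_lit 4) (nat_lit 368) (nat_lit 265) (nat_lit 255)) (XT.nd (nat_lit 94) (nat_lit 0) (nat_lit 0) (XT.lf (nat_lit 0) (nat_lit 2119631288) (nat_lit 84) (nat_lit 1617618733) (nat_lit 168) (nat_lit 14603338617) (nat_lit 9) (nat_lit 5) (nat_lit 10) (nat_lit 5) (nat_lit 11) (nat_lit 4) (nat_lit 369) (nat_lit 265) (nat_lit 254)) (XT.lf (nat_lit 0) (nat_lit 5760236620) (nat_lit 168)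 (nat_lit 13005803067) (nat_lit 0) (nat_lit 54227735) (nat_lit 9) (nat_lit 5) (nat_lit 11) (nat_lit 4) (nat_lit 9) (nat_lit 4) (nat_lit 370) (nat_lit 265) (nat_lit 253)))) (XT.nd (nat_lit 188) (nat_lit 168) (nat_lit 0) (XT.nd (nat_lit 94) (nat_lit 0) (nat_lit 0) (XT.lf (nat_lit 0) (nat_lit 7818521033) (nat_lit 168) (nat_lit 9772599842) (nat_lit 0) (nat_lit 1724754127) (nat_lit 9) (nat_lit 5) (nat_lit 11) (nat_lit 4) (nat_lit 9) (nat_lit 4) (nat_lit 371) (nat_lit 265) (nat_lit 252)) (XT.lf (nat_lit 0) (nat_lit 9897974819) (nat_lit 168) (nat_lit 6502287014) (nat_lit 0) (nat_lit 3428108960) (nat_lit 9) (nat_lit 5) (nat_lit 11) (nat_lit 4) (nat_lit 9) (nat_lit 4) (nat_lit 372) (nat_lit 265) (nat_lit 251))) (XT.nd (nat_lit 94) (nat_lit 168) (nat_lit 0) (XT.lf (nat_lit 0) (nat_lit 12000536248) (nat_lit 168) (nat_lit 3191816309) (nat_lit 0) (nat_lit 5165879939) (nat_lit 9) (nat_lit 5) (nat_lit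 11) (nat_lit 4) (nat_lit 9) (nat_lit 4) (nat_lit 373) (nat_lit 265) (nat_lit 250)) (XT.lf (nat_lit 0) (nat_lit 165226932) (nat_lit 168) (nat_lit 13964577265) (nat_lit 168) (nat_lit 6776098988) (nat_lit 7) (nat_lit 4) (nat_lit 9) (nat_lit 5) (nat_lit 9) (nat_lit 4) (nat_lit 374) (nat_lit 265) (nat_lit 249))))))) (XT.nd (nat_lit 1222) (nat_lit 168) (nat_lit 0) (XT.nd (nat_lit 564) (nat_lit 84) (nat_lit 0) (XT.nd (nat_lit 282) (nat_lit 84) (nat_lit 0) (XT.nd (nat_lit 94) (nat_lit 0) (nat_lit 0) (XT.lf (nat_lit 0) (nat_lit 3635223513) (nat_lit 168) (nat_lit 12683682980) (nat_lit 168) (nat_lit 5152021417) (nat_lit 7) (nat_lit 4) (nat_lit 9) (nat_lit 5) (nat_lit 9) (nat_lit 4) (nat_lit 375) (nat_lit 265) (nat_lit 248)) (XT.nd (nat_lit 94) (nat_lit 0) (nat_lit 0) (XT.lf (nat_lit 0) (nat_lit 7155777545) (nat_lit 168) (nat_lit 11381791791) (nat_lit 168) (nat_lit 3517265740) (nat_lit 7) (nat_lit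 4) (nat_lit 9) (nat_lit 5) (nat_lit 9) (nat_lit 4) (nat_lit 376) (nat_lit 265) (nat_lit 247)) (XT.lf (nat_lit 0) (nat_lit 10730170551) (nat_lit 168) (nat_lit 10057690199) (nat_lit 168) (nat_lit 1870308195) (nat_lit 7) (nat_lit 4) (nat_lit 9) (nat_lit 5) (nat_lit 9) (nat_lit 4) (nat_lit 377) (nat_lit 265) (nat_lit 246)))) (XT.nd (nat_lit 94) (nat_lit 84) (nat_lit 0) (XT.lf (nat_lit 0) (nat_lit 14361734242) (nat_lit 168) (nat_lit 8710144003) (nat_lit 168) (nat_lit 209613645) (nat_lit 7) (nat_lit 4) (nat_lit 9) (nat_lit 5) (nat_lit 9) (nat_lit 4) (nat_lit 378) (nat_lit 265) (nat_lit 245)) (XT.nd (nat_lit 94) (nat_lit 0) (nat_lit 0) (XT.lf (nat_lit 0) (nat_lit 1436821848) (nat_lit 252) (nat_lit 5886077826) (nat_lit 84) (nat_lit 16602034292) (nat_lit 6) (nat_lit 5) (nat_lit 9) (nat_lit 5) (nat_lit 7) (nat_lit 4) (nat_lit 379) (nat_lit 265) (nat_lit 244)) (XT.lf (nat_lit 0) (nat_lit 3095541796)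 (nat_lit 252) (nat_lit 2811817652) (nat_lit 84) (nat_lit 18682117205) (nat_lit 6) (nat_lit 5) (nat_lit 9) (nat_lit 5) (nat_lit 7) (nat_lit 4) (nat_lit 380) (nat_lit 265) (nat_lit 243))))) (XT.nd (nat_lit 282) (nat_lit 0) (nat_lit 0) (XT.nd (nat_lit 94) (nat_lit 0) (nat_lit 0) (XT.lf (nat_lit 0) (nat_lit 314300250) (nat_lit 84) (nat_lit 4461133195) (nat_lit 168) (nat_lit 20500273734) (nat_lit 5) (nat_lit 5) (nat_lit 6) (nat_lit 5) (nat_lit 7) (nat_lit 4) (nat_lit 381) (nat_lit 265) (nat_lit 242)) (XT.nd (nat_lit 94) (nat_lit 0) (nat_lit 0) (XT.lf (nat_lit 0) (nat_lit 3547664023) (nat_lit 84) (nat_lit 2956235276) (nat_lit 168) (nat_lit 19479564948) (nat_lit 5) (nat_lit 5) (nat_lit 6) (nat_lit 5) (nat_lit 7) (nat_lit 4) (nat_lit 382) (nat_lit 265) (nat_lit 241)) (XT.lf (nat_lit 0) (nat_lit 6833470762) (nat_lit 84) (nat_lit 1420612578) (nat_lit 168) (nat_lit 18460206702) (nat_lit 5)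 (nat_lit 5) (nat_lit 6) (nat_lit 5) (nat_lit 7) (nat_lit 4) (nat_lit 383) (nat_lit 265) (nat_lit 240)))) (XT.nd (nat_lit 188) (nat_lit 0) (nat_lit 0) (XT.nd (nat_lit 94) (nat_lit 0) (nat_lit 0) (XT.lf (nat_lit 0) (nat_lit 10029076830) (nat_lit 168) (nat_lit 17295542493) (nat_lit 0) (nat_lit 144201188) (nat_lit 5) (nat_lit 5) (nat_lit 7) (nat_lit 4) (nat_lit 5) (nat_lit 4) (nat_lit 384) (nat_lit 265) (nat_lit 239)) (XT.lf (nat_lit 0) (nat_lit 11843499123) (nat_lit 168) (nat_lit 14690524989) (nat_lit 0) (nat_lit 1713332934) (nat_lit 5) (nat_lit 5) (nat_lit 7) (nat_lit 4) (nat_lit 5) (nat_lit 4) (nat_lit 385) (nat_lit 265) (nat_lit 238))) (XT.nd (nat_lit 94) (nat_lit 0) (nat_lit 0) (XT.lf (nat_lit 0) (nat_lit 13684948798) (nat_lit 168) (nat_lit 12049245966) (nat_lit 0) (nat_lit 3316867433) (nat_lit 5) (nat_lit 5) (nat_lit 7) (nat_lit 4) (nat_lit 5) (nat_lit 4) (nat_lit 386) (nat_lit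 265) (nat_lit 237)) (XT.lf (nat_lit 0) (nat_lit 15555142278) (nat_lit 168) (nat_lit 9369243476) (nat_lit 0) (nat_lit 4956299346) (nat_lit 5) (nat_lit 5) (nat_lit 7) (nat_lit 4) (nat_lit 5) (nat_lit 4) (nat_lit 387) (nat_lit 265) (nat_lit 236)))))) (XT.nd (nat_lit 564) (nat_lit 84) (nat_lit 0) (XT.nd (nat_lit 282) (nat_lit 84) (nat_lit 0) (XT.nd (nat_lit 94) (nat_lit 0) (nat_lit 0) (XT.lf (nat_lit 0) (nat_lit 17455822781) (nat_lit 168) (nat_lit 6648019474) (nat_lit 0) (nat_lit 6633156797) (nat_lit 5) (nat_lit 5) (nat_lit 7) (nat_lit 4) (nat_lit 5) (nat_lit 4) (nat_lit 388) (nat_lit 265) (nat_lit 235)) (XT.nd (nat_lit 94) (nat_lit 0) (nat_lit 0) (XT.lf (nat_lit 0) (nat_lit 19388761940) (nat_lit 168) (nat_lit 3883037497) (nat_lit 0) (nat_lit 8349002790) (nat_lit 5) (nat_lit 5) (nat_lit 7) (nat_lit 4) (nat_lit 5) (nat_lit 4) (nat_lit 389) (nat_lit 265) (nat_lit 234)) (XT.lf (nat_lit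 0) (nat_lit 21355761456) (nat_lit 168) (nat_lit 1071720290) (nat_lit 0) (nat_lit 10105436676) (nat_lit 5) (nat_lit 5) (nat_lit 7) (nat_lit 4) (nat_lit 5) (nat_lit 4) (nat_lit 390) (nat_lit 265) (nat_lit 233)))) (XT.nd (nat_lit 94) (nat_lit 0) (nat_lit 0) (XT.lf (nat_lit 0) (nat_lit 1825328897) (nat_lit 84) (nat_lit 21551433370) (nat_lit 84) (nat_lit 10096874225) (nat_lit 4) (nat_lit 4) (nat_lit 5) (nat_lit 5) (nat_lit 5) (nat_lit 4) (nat_lit 391) (nat_lit 265) (nat_lit 232)) (XT.nd (nat_lit 94) (nat_lit 0) (nat_lit 0) (XT.lf (nat_lit 0) (nat_lit 4797098047) (nat_lit 84) (nat_lit 20649798574) (nat_lit 84) (nat_lit 8997145962) (nat_lit 4) (nat_lit 4) (nat_lit 5) (nat_lit 5) (nat_lit 5) (nat_lit 4) (nat_lit 392) (nat_lit 265) (nat_lit 231)) (XT.lf (nat_lit 0) (nat_lit 7824320391) (nat_lit 84) (nat_lit 19732923503) (nat_lit 84) (nat_lit 7888133677) (nat_lit 4) (nat_lit 4) (nat_lit 5)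 (nat_lit 5) (nat_lit 5) (nat_lit 4) (nat_lit 393) (nat_lit 265) (nat_lit 230))))) (XT.nd (nat_lit 282) (nat_lit 84) (nat_lit 0) (XT.nd (nat_lit 94) (nat_lit 0) (nat_lit 0) (XT.lf (nat_lit 0) (nat_lit 10909817618) (nat_lit 84) (nat_lit 18799953533) (nat_lit 84) (nat_lit 6768803655) (nat_lit 4) (nat_lit 4) (nat_lit 5) (nat_lit 5) (nat_lit 5) (nat_lit 4) (nat_lit 394) (nat_lit 265) (nat_lit 229)) (XT.nd (nat_lit 94) (nat_lit 0) (nat_lit 0) (XT.lf (nat_lit 0) (nat_lit 14056465735) (nat_lit 84) (nat_lit 17850019039) (nat_lit 84) (nat_lit 5638112563) (nat_lit 4) (nat_lit 4) (nat_lit 5) (nat_lit 5) (nat_lit 5) (nat_lit 4) (nat_lit 395) (nat_lit 265) (nat_lit 228)) (XT.lf (nat_lit 0) (nat_lit 17267197747) (nat_lit 84) (nat_lit 16882234581) (nat_lit 84) (nat_lit 4495006478) (nat_lit 4) (nat_lit 4) (nat_lit 5) (nat_lit 5) (nat_lit 5) (nat_lit 4) (nat_lit 396) (nat_lit 265) (nat_lit 227))))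 (XT.nd (nat_lit 188) (nat_lit 84) (nat_lit 0) (XT.nd (nat_lit 94) (nat_lit 0) (nat_lit 0) (XT.lf (nat_lit 0) (nat_lit 20545006392) (nat_lit 84) (nat_lit 15895698083) (nat_lit 84) (nat_lit 3338419905) (nat_lit 4) (nat_lit 4) (nat_lit 5) (nat_lit 5) (nat_lit 5) (nat_lit 4) (nat_lit 397) (nat_lit 265) (nat_lit 226)) (XT.lf (nat_lit 0) (nat_lit 23892946932) (nat_lit 84) (nat_lit 14889489991) (nat_lit 84) (nat_lit 2167274786) (nat_lit 4) (nat_lit 4) (nat_lit 5) (nat_lit 5) (nat_lit 5) (nat_lit 4) (nat_lit 398) (nat_lit 265) (nat_lit 225))) (XT.nd (nat_lit 94) (nat_lit 84) (nat_lit 0) (XT.lf (nat_lit 0) (nat_lit 27314139999) (nat_lit 84) (nat_lit 13862672412) (nat_lit 84) (nat_lit 980479489) (nat_lit 4) (nat_lit 4) (nat_lit 5) (nat_lit 5) (nat_lit 5) (nat_lit 4) (nat_lit 399) (nat_lit 265) (nat_lit 224)) (XT.lf (nat_lit 0) (nat_lit 218577794) (nat_lit 168) (nat_lit 12593428947) (nat_lit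 84) (nat_lit 30590915203) (nat_lit 3) (nat_lit 5) (nat_lit 5) (nat_lit 5) (nat_lit 4) (nat_lit 4) (nat_lit 400) (nat_lit 265) (nat_lit 223))))))))
noncomputable def xc24 : XT := (XT.nd (nat_lit 2350) (nat_lit 0) (nat_lit 0) (XT.nd (nat_lit 1128) (nat_lit 0) (nat_lit 0) (XT.nd (nat_lit 564) (nat_lit 0) (nat_lit 0) (XT.nd (nat_lit 282) (nat_lit 84) (nat_lit 0) (XT.nd (nat_lit 94) (nat_lit 0) (nat_lit 0) (XT.lf (nat_lit 0) (nat_lit 1415398625) (nat_lit 168) (nat_lit 10313187802) (nat_lit 84) (nat_lit 32958938118) (nat_lit 3) (nat_lit 5) (nat_lit 5) (nat_lit 5) (nat_lit 4) (nat_lit 4) (nat_lit 401) (nat_lit 265) (nat_lit 222)) (XT.nd (nat_lit 94) (nat_lit 0) (nat_lit 0) (XT.lf (nat_lit 0) (nat_lit 2630853043) (nat_lit 168) (nat_lit 7990576566) (nat_lit 84) (nat_lit 35391168999) (nat_lit 3) (nat_lit 5) (nat_lit 5) (nat_lit 5) (nat_lit 4) (nat_lit 4) (nat_lit 402) (nat_lit 265) (nat_lit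 221)) (XT.lf (nat_lit 0) (nat_lit 3866073979) (nat_lit 168) (nat_lit 5623430320) (nat_lit 84) (nat_lit 37889874942) (nat_lit 3) (nat_lit 5) (nat_lit 5) (nat_lit 5) (nat_lit 4) (nat_lit 4) (nat_lit 403) (nat_lit 265) (nat_lit 220)))) (XT.nd (nat_lit 94) (nat_lit 84) (nat_lit 0) (XT.lf (nat_lit 0) (nat_lit 5122212787) (nat_lit 168) (nat_lit 3209542637) (nat_lit 84) (nat_lit 40457385000) (nat_lit 3) (nat_lit 5) (nat_lit 5) (nat_lit 5) (nat_lit 4) (nat_lit 4) (nat_lit 404) (nat_lit 265) (nat_lit 219)) (XT.nd (nat_lit 94) (nat_lit 84) (nat_lit 0) (XT.lf (nat_lit 0) (nat_lit 6400440322) (nat_lit 168) (nat_lit 746663520) (nat_lit 84) (nat_lit 43096092364) (nat_lit 3) (nat_lit 5) (nat_lit 5) (nat_lit 5) (nat_lit 4) (nat_lit 4) (nat_lit 405) (nat_lit 265) (nat_lit 218)) (XT.lf (nat_lit 0) (nat_lit 1803846170) (nat_lit 84) (nat_lit 5915996231) (nat_lit 168) (nat_lit 44022504791) (nat_lit 2)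 (nat_lit 5) (nat_lit 3) (nat_lit 5) (nat_lit 4) (nat_lit 4) (nat_lit 406) (nat_lit 265) (nat_lit 217))))) (XT.nd (nat_lit 282) (nat_lit 0) (nat_lit 0) (XT.nd (nat_lit 94) (nat_lit 0) (nat_lit 0) (XT.lf (nat_lit 0) (nat_lit 4424442110) (nat_lit 84) (nat_lit 4647397938) (nat_lit 168) (nat_lit 44216454771) (nat_lit 2) (nat_lit 5) (nat_lit 3) (nat_lit 5) (nat_lit 4) (nat_lit 4) (nat_lit 407) (nat_lit 265) (nat_lit 216)) (XT.nd (nat_lit 94) (nat_lit 0) (nat_lit 0) (XT.lf (nat_lit 0) (nat_lit 7102214036) (nat_lit 84) (nat_lit 3347920135) (nat_lit 168) (nat_lit 44432580243) (nat_lit 2) (nat_lit 5) (nat_lit 3) (nat_lit 5) (nat_lit 4) (nat_lit 4) (nat_lit 408) (nat_lit 265) (nat_lit 215)) (XT.lf (nat_lit 0) (nat_lit 9839657911) (nat_lit 84) (nat_lit 2016351570) (nat_lit 168) (nat_lit 44671082658) (nat_lit 2) (nat_lit 5) (nat_lit 3) (nat_lit 5) (nat_lit 4) (nat_lit 4) (nat_lit 409) (nat_lit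 265) (nat_lit 214)))) (XT.nd (nat_lit 94) (nat_lit 0) (nat_lit 0) (XT.lf (nat_lit 0) (nat_lit 12639325320) (nat_lit 84) (nat_lit 651451084) (nat_lit 168) (nat_lit 44932184326) (nat_lit 2) (nat_lit 5) (nat_lit 3) (nat_lit 5) (nat_lit 4) (nat_lit 4) (nat_lit 410) (nat_lit 265) (nat_lit 213)) (XT.nd (nat_lit 94) (nat_lit 0) (nat_lit 0) (XT.lf (nat_lit 0) (nat_lit 14763193074) (nat_lit 168) (nat_lit 44475495850) (nat_lit 0) (nat_lit 732981942) (nat_lit 2) (nat_lit 5) (nat_lit 4) (nat_lit 4) (nat_lit 2) (nat_lit 4) (nat_lit 411) (nat_lit 265) (nat_lit 212)) (XT.lf (nat_lit 0) (nat_lit 16274022933) (nat_lit 168) (nat_lit 43361373638) (nat_lit 0) (nat_lit 2139474840) (nat_lit 2) (nat_lit 5) (nat_lit 4) (nat_lit 4) (nat_lit 2) (nat_lit 4) (nat_lit 412) (nat_lit 265) (nat_lit 211)))))) (XT.nd (nat_lit 564) (nat_lit 0) (nat_lit 0) (XT.nd (nat_lit 282) (nat_lit 0) (nat_lit 0) (XT.nd (nat_lit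 94) (nat_lit 0) (nat_lit 0) (XT.lf (nat_lit 0) (nat_lit 17818211756) (nat_lit 168) (nat_lit 42233767820) (nat_lit 0) (nat_lit 3582463894) (nat_lit 2) (nat_lit 5) (nat_lit 4) (nat_lit 4) (nat_lit 2) (nat_lit 4) (nat_lit 413) (nat_lit 265) (nat_lit 210)) (XT.nd (nat_lit 94) (nat_lit 0) (nat_lit 0) (XT.lf (nat_lit 0) (nat_lit 19397198888) (nat_lit 168) (nat_lit 41091627351) (nat_lit 0) (nat_lit 5063294122) (nat_lit 2) (nat_lit 5) (nat_lit 4) (nat_lit 4) (nat_lit 2) (nat_lit 4) (nat_lit 414) (nat_lit 265) (nat_lit 209)) (XT.lf (nat_lit 0) (nat_lit 21012456112) (nat_lit 168) (nat_lit 39933887635) (nat_lit 0) (nat_lit 6583345813) (nat_lit 2) (nat_lit 5) (nat_lit 4) (nat_lit 4) (nat_lit 2) (nat_lit 4) (nat_lit 415) (nat_lit 265) (nat_lit 208)))) (XT.nd (nat_lit 94) (nat_lit 0) (nat_lit 0) (XT.lf (nat_lit 0) (nat_lit 22665489016) (nat_lit 168) (nat_lit 38759469538) (nat_lit 0) (nat_lit 8144035815)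 (nat_lit 2) (nat_lit 5) (nat_lit 4) (nat_lit 4) (nat_lit 2) (nat_lit 4) (nat_lit 416) (nat_lit 265) (nat_lit 207)) (XT.nd (nat_lit 94) (nat_lit 0) (nat_lit 0) (XT.lf (nat_lit 0) (nat_lit 24357838400) (nat_lit 168) (nat_lit 37567278379) (nat_lit 0) (nat_lit 9746818853) (nat_lit 2) (nat_lit 5) (nat_lit 4) (nat_lit 4) (nat_lit 2) (nat_lit 4) (nat_lit 417) (nat_lit 265) (nat_lit 206)) (XT.lf (nat_lit 0) (nat_lit 26091081711) (nat_lit 168) (nat_lit 36356202911) (nat_lit 0) (nat_lit 11393188889) (nat_lit 2) (nat_lit 5) (nat_lit 4) (nat_lit 4) (nat_lit 2) (nat_lit 4) (nat_lit 418) (nat_lit 265) (nat_lit 205))))) (XT.nd (nat_lit 282) (nat_lit 0) (nat_lit 0) (XT.nd (nat_lit 94) (nat_lit 0) (nat_lit 0) (XT.lf (nat_lit 0) (nat_lit 27866834513) (nat_lit 168) (nat_lit 35125114285) (nat_lit 0) (nat_lit 13084680513) (nat_lit 2) (nat_lit 5) (nat_lit 4) (nat_lit 4) (nat_lit 2) (nat_lit 4) (nat_lit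 419) (nat_lit 265) (nat_lit 204)) (XT.nd (nat_lit 94) (nat_lit 0) (nat_lit 0) (XT.lf (nat_lit 0) (nat_lit 29686751994) (nat_lit 168) (nat_lit 33872864997) (nat_lit 0) (nat_lit 14822870373) (nat_lit 2) (nat_lit 5) (nat_lit 4) (nat_lit 4) (nat_lit 2) (nat_lit 4) (nat_lit 420) (nat_lit 265) (nat_lit 203)) (XT.lf (nat_lit 0) (nat_lit 31552530508) (nat_lit 168) (nat_lit 32598287820) (nat_lit 0) (nat_lit 16609378642) (nat_lit 2) (nat_lit 5) (nat_lit 4) (nat_lit 4) (nat_lit 2) (nat_lit 4) (nat_lit 421) (nat_lit 265) (nat_lit 202)))) (XT.nd (nat_lit 188) (nat_lit 0) (nat_lit 0) (XT.nd (nat_lit 94) (nat_lit 0) (nat_lit 0) (XT.lf (nat_lit 0) (nat_lit 33465909155) (nat_lit 168) (nat_lit 31300194714) (nat_lit 0) (nat_lit 18445870535) (nat_lit 2) (nat_lit 5) (nat_lit 4) (nat_lit 4) (nat_lit 2) (nat_lit 4) (nat_lit 422) (nat_lit 265) (nat_lit 201)) (XT.lf (nat_lit 0) (nat_lit 35428671405) (nat_lit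 168) (nat_lit 29977375720) (nat_lit 0) (nat_lit 20334057854) (nat_lit 2) (nat_lit 5) (nat_lit 4) (nat_lit 4) (nat_lit 2) (nat_lit 4) (nat_lit 423) (nat_lit 265) (nat_lit 200))) (XT.nd (nat_lit 94) (nat_lit 0) (nat_lit 0) (XT.lf (nat_lit 0) (nat_lit 37442646759) (nat_lit 168) (nat_lit 28628597833) (nat_lit 0) (nat_lit 22275700586) (nat_lit 2) (nat_lit 5) (nat_lit 4) (nat_lit 4) (nat_lit 2) (nat_lit 4) (nat_lit 424) (nat_lit 265) (nat_lit 199)) (XT.lf (nat_lit 0) (nat_lit 39509712451) (nat_lit 168) (nat_lit 27252603851) (nat_lit 0) (nat_lit 24272608548) (nat_lit 2) (nat_lit 5) (nat_lit 4) (nat_lit 4) (nat_lit 2) (nat_lit 4) (nat_lit 425) (nat_lit 265) (nat_lit 198))))))) (XT.nd (nat_lit 50290) (nat_lit 0) (nat_lit 336) (XT.nd (nat_lit 49632) (nat_lit 0) (nat_lit 672) (XT.nd (nat_lit 49350) (nat_lit 0) (nat_lit 924) (XT.nd (nat_lit 49162) (nat_lit 0) (nat_lit 1176) (XT.lf (nat_lit 0)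 (nat_lit 41631795204) (nat_lit 168) (nat_lit 25848111202) (nat_lit 0) (nat_lit 26326643065) (nat_lit 2) (nat_lit 5) (nat_lit 4) (nat_lit 4) (nat_lit 2) (nat_lit 4) (nat_lit 426) (nat_lit 265) (nat_lit 197)) (XT.nd (nat_lit 94) (nat_lit 168) (nat_lit 0) (XT.lf (nat_lit 0) (nat_lit 3042909394) (nat_lit 252) (nat_lit 602527139) (nat_lit 0) (nat_lit 3042909394) (nat_lit 18) (nat_lit 5) (nat_lit 21) (nat_lit 4) (nat_lit 18) (nat_lit 4) (nat_lit 356) (nat_lit 266) (nat_lit 266)) (XT.lf (nat_lit 0) (nat_lit 2819197849) (nat_lit 168) (nat_lit 5739343265) (nat_lit 168) (nat_lit 5126371077) (nat_lit 16) (nat_lit 4) (nat_lit 18) (nat_lit 5) (nat_lit 18) (nat_lit 4) (nat_lit 357) (nat_lit 266) (nat_lit 265)))) (XT.nd (nat_lit 94) (nat_lit 252) (nat_lit 0) (XT.lf (nat_lit 0) (nat_lit 6912234929) (nat_lit 168) (nat_lit 4149853513) (nat_lit 168) (nat_lit 2942339922) (nat_lit 16) (nat_lit 4) (nat_lit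 18) (nat_lit 5) (nat_lit 18) (nat_lit 4) (nat_lit 358) (nat_lit 266) (nat_lit 264)) (XT.nd (nat_lit 94) (nat_lit 252) (nat_lit 0) (XT.lf (nat_lit 0) (nat_lit 11053093714) (nat_lit 168) (nat_lit 2533500537) (nat_lit 168) (nat_lit 749322151) (nat_lit 16) (nat_lit 4) (nat_lit 18) (nat_lit 5) (nat_lit 18) (nat_lit 4) (nat_lit 359) (nat_lit 266) (nat_lit 263)) (XT.lf (nat_lit 0) (nat_lit 562857896) (nat_lit 168) (nat_lit 868142586) (nat_lit 252) (nat_lit 13248064349) (nat_lit 13) (nat_lit 5) (nat_lit 15) (nat_lit 5) (nat_lit 16) (nat_lit 4) (nat_lit 360) (nat_lit 266) (nat_lit 262))))) (XT.nd (nat_lit 282) (nat_lit 252) (nat_lit 0) (XT.nd (nat_lit 94) (nat_lit 0) (nat_lit 0) (XT.lf (nat_lit 0) (nat_lit 3651267787) (nat_lit 252) (nat_lit 10529971399) (nat_lit 0) (nat_lit 852032058) (nat_lit 13) (nat_lit 5) (nat_lit 16) (nat_lit 4) (nat_lit 13) (nat_lit 4) (nat_lit 361) (nat_lit 266) (nat_lit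 261)) (XT.nd (nat_lit 94) (nat_lit 0) (nat_lit 0) (XT.lf (nat_lit 0) (nat_lit 5895782535) (nat_lit 252) (nat_lit 6918159952) (nat_lit 0) (nat_lit 2586172529) (nat_lit 13) (nat_lit 5) (nat_lit 16) (nat_lit 4) (nat_lit 13) (nat_lit 4) (nat_lit 362) (nat_lit 266) (nat_lit 260)) (XT.lf (nat_lit 0) (nat_lit 8158024767) (nat_lit 252) (nat_lit 3268793926) (nat_lit 0) (nat_lit 4353386365) (nat_lit 13) (nat_lit 5) (nat_lit 16) (nat_lit 4) (nat_lit 13) (nat_lit 4) (nat_lit 363) (nat_lit 266) (nat_lit 259)))) (XT.nd (nat_lit 188) (nat_lit 84) (nat_lit 0) (XT.nd (nat_lit 94) (nat_lit 0) (nat_lit 0) (XT.lf (nat_lit 0) (nat_lit 430195755) (nat_lit 168) (nat_lit 10014174971) (nat_lit 168) (nat_lit 5729392633) (nat_lit 11) (nat_lit 4) (nat_lit 13) (nat_lit 5) (nat_lit 13) (nat_lit 4) (nat_lit 364) (nat_lit 266) (nat_lit 258)) (XT.lf (nat_lit 0) (nat_lit 4241707353) (nat_lit 168) (nat_lit 8544515670)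 (nat_lit 168) (nat_lit 3794026316) (nat_lit 11) (nat_lit 4) (nat_lit 13) (nat_lit 5) (nat_lit 13) (nat_lit 4) (nat_lit 365) (nat_lit 266) (nat_lit 257))) (XT.nd (nat_lit 94) (nat_lit 84) (nat_lit 0) (XT.lf (nat_lit 0) (nat_lit 8102080488) (nat_lit 168) (nat_lit 7050590421) (nat_lit 168) (nat_lit 1848396879) (nat_lit 11) (nat_lit 4) (nat_lit 13) (nat_lit 5) (nat_lit 13) (nat_lit 4) (nat_lit 366) (nat_lit 266) (nat_lit 256)) (XT.lf (nat_lit 0) (nat_lit 107106870) (nat_lit 252) (nat_lit 5422781881) (nat_lit 84) (nat_lit 11906688586) (nat_lit 10) (nat_lit 5) (nat_lit 13) (nat_lit 5) (nat_lit 11) (nat_lit 4) (nat_lit 367) (nat_lit 266) (nat_lit 255)))))) (XT.nd (nat_lit 564) (nat_lit 252) (nat_lit 0) (XT.nd (nat_lit 282) (nat_lit 0) (nat_lit 0) (XT.nd (nat_lit 94) (nat_lit 84) (nat_lit 0) (XT.lf (nat_lit 0) (nat_lit 2038990895) (nat_lit 252) (nat_lit 1924074400) (nat_lit 84) (nat_lit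 13923579576) (nat_lit 10) (nat_lit 5) (nat_lit 13) (nat_lit 5) (nat_lit 11) (nat_lit 4) (nat_lit 368) (nat_lit 266) (nat_lit 254)) (XT.nd (nat_lit 94) (nat_lit 0) (nat_lit 0) (XT.lf (nat_lit 0) (nat_lit 1652017092) (nat_lit 84) (nat_lit 2350668115) (nat_lit 168) (nat_lit 14349065088) (nat_lit 9) (nat_lit 5) (nat_lit 10) (nat_lit 5) (nat_lit 11) (nat_lit 4) (nat_lit 369) (nat_lit 266) (nat_lit 253)) (XT.lf (nat_lit 0) (nat_lit 5316047997) (nat_lit 84) (nat_lit 687528113) (nat_lit 168) (nat_lit 12828640789) (nat_lit 9) (nat_lit 5) (nat_lit 10) (nat_lit 5) (nat_lit 11) (nat_lit 4) (nat_lit 370) (nat_lit 266) (nat_lit 252)))) (XT.nd (nat_lit 94) (nat_lit 0) (nat_lit 0) (XT.lf (nat_lit 0) (nat_lit 8034046834) (nat_lit 168) (nat_lit 10307223451) (nat_lit 0) (nat_lit 987516180) (nat_lit 9) (nat_lit 5) (nat_lit 11) (nat_lit 4) (nat_lit 9) (nat_lit 4) (nat_lit 371) (nat_lit 266) (nat_lit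 251)) (XT.nd (nat_lit 94) (nat_lit 0) (nat_lit 0) (XT.lf (nat_lit 0) (nat_lit 10093138520) (nat_lit 168) (nat_lit 7067054306) (nat_lit 0) (nat_lit 2681817416) (nat_lit 9) (nat_lit 5) (nat_lit 11) (nat_lit 4) (nat_lit 9) (nat_lit 4) (nat_lit 372) (nat_lit 266) (nat_lit 250)) (XT.lf (nat_lit 0) (nat_lit 12175950094) (nat_lit 168) (nat_lit 3785820927) (nat_lit 0) (nat_lit 4410807022) (nat_lit 9) (nat_lit 5) (nat_lit 11) (nat_lit 4) (nat_lit 9) (nat_lit 4) (nat_lit 373) (nat_lit 266) (nat_lit 249))))) (XT.nd (nat_lit 282) (nat_lit 84) (nat_lit 0) (XT.nd (nat_lit 94) (nat_lit 168) (nat_lit 0) (XT.lf (nat_lit 0) (nat_lit 14284422954) (nat_lit 168) (nat_lit 460464861) (nat_lit 0) (nat_lit 6176096596) (nat_lit 9) (nat_lit 5) (nat_lit 11) (nat_lit 4) (nat_lit 9) (nat_lit 4) (nat_lit 374) (nat_lit 266) (nat_lit 248)) (XT.nd (nat_lit 94) (nat_lit 0) (nat_lit 0) (XT.lf (nat_lit 0) (nat_lit 2971992498)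 (nat_lit 168) (nat_lit 13478012453) (nat_lit 168) (nat_lit 5036821607) (nat_lit 7) (nat_lit 4) (nat_lit 9) (nat_lit 5) (nat_lit 9) (nat_lit 4) (nat_lit 375) (nat_lit 266) (nat_lit 247)) (XT.lf (nat_lit 0) (nat_lit 6465319449) (nat_lit 168) (nat_lit 12185056874) (nat_lit 168) (nat_lit 3421010075) (nat_lit 7) (nat_lit 4) (nat_lit 9) (nat_lit 5) (nat_lit 9) (nat_lit 4) (nat_lit 376) (nat_lit 266) (nat_lit 246)))) (XT.nd (nat_lit 188) (nat_lit 84) (nat_lit 0) (XT.nd (nat_lit 94) (nat_lit 0) (nat_lit 0) (XT.lf (nat_lit 0) (nat_lit 10013304037) (nat_lit 168) (nat_lit 10869622217) (nat_lit 168) (nat_lit 1792427064) (nat_lit 7) (nat_lit 4) (nat_lit 9) (nat_lit 5) (nat_lit 9) (nat_lit 4) (nat_lit 377) (nat_lit 266) (nat_lit 245)) (XT.lf (nat_lit 0) (nat_lit 13619253353) (nat_lit 168) (nat_lit 9530482359) (nat_lit 168) (nat_lit 149554564) (nat_lit 7) (nat_lit 4) (nat_lit 9) (nat_lit 5) (nat_lit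 9) (nat_lit 4) (nat_lit 378) (nat_lit 266) (nat_lit 244))) (XT.nd (nat_lit 94) (nat_lit 0) (nat_lit 0) (XT.lf (nat_lit 0) (nat_lit 1478732971) (nat_lit 252) (nat_lit 6672221171) (nat_lit 84) (nat_lit 15792360611) (nat_lit 6) (nat_lit 5) (nat_lit 9) (nat_lit 5) (nat_lit 7) (nat_lit 4) (nat_lit 379) (nat_lit 266) (nat_lit 243)) (XT.lf (nat_lit 0) (nat_lit 3121024305) (nat_lit 252) (nat_lit 3622469508) (nat_lit 84) (nat_lit 17864946429) (nat_lit 6) (nat_lit 5) (nat_lit 9) (nat_lit 5) (nat_lit 7) (nat_lit 4) (nat_lit 380) (nat_lit 266) (nat_lit 242))))))))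
noncomputable def xc25 : XT := (XT.nd (nat_lit 2350) (nat_lit 84) (nat_lit 0) (XT.nd (nat_lit 1128) (nat_lit 84) (nat_lit 0) (XT.nd (nat_lit 564) (nat_lit 84) (nat_lit 0) (XT.nd (nat_lit 282) (nat_lit 0) (nat_lit 0) (XT.nd (nat_lit 94) (nat_lit 84) (nat_lit 0) (XT.lf (nat_lit 0) (nat_lit 4781863418) (nat_lit 252) (nat_lit 526455647) (nat_lit 84) (nat_lit 19987013637) (nat_lit 6) (nat_lit 5) (nat_lit 9) (nat_lit 5) (nat_lit 7) (nat_lit 4) (nat_lit 381) (nat_lit 266) (nat_lit 241)) (XT.nd (nat_lit 94) (nat_lit 0) (nat_lit 0) (XT.lf (nat_lit 0) (nat_lit 2672552191) (nat_lit 84) (nat_lit 3816758241) (nat_lit 168) (nat_lit 19514500082) (nat_lit 5) (nat_lit 5) (nat_lit 6) (nat_lit 5) (nat_lit 7) (nat_lit 4) (nat_lit 382) (nat_lit 266) (nat_lit 240)) (XT.lf (nat_lit 0) (nat_lit 5935535529) (nat_lit 84) (nat_lit 2288741728) (nat_lit 168) (nat_lit 18510897866) (nat_lit 5) (nat_lit 5) (nat_lit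 6) (nat_lit 5) (nat_lit 7) (nat_lit 4) (nat_lit 383) (nat_lit 266) (nat_lit 239)))) (XT.nd (nat_lit 94) (nat_lit 0) (nat_lit 0) (XT.lf (nat_lit 0) (nat_lit 9254710801) (nat_lit 84) (nat_lit 728340373) (nat_lit 168) (nat_lit 17507222289) (nat_lit 5) (nat_lit 5) (nat_lit 6) (nat_lit 5) (nat_lit 7) (nat_lit 4) (nat_lit 384) (nat_lit 266) (nat_lit 238)) (XT.nd (nat_lit 94) (nat_lit 0) (nat_lit 0) (XT.lf (nat_lit 0) (nat_lit 11775861383) (nat_lit 168) (nat_lit 15645227378) (nat_lit 0) (nat_lit 848454320) (nat_lit 5) (nat_lit 5) (nat_lit 7) (nat_lit 4) (nat_lit 5) (nat_lit 4) (nat_lit 385) (nat_lit 266) (nat_lit 237)) (XT.lf (nat_lit 0) (nat_lit 13603356782) (nat_lit 168) (nat_lit 13025197091) (nat_lit 0) (nat_lit 2445188152) (nat_lit 5) (nat_lit 5) (nat_lit 7) (nat_lit 4) (nat_lit 5) (nat_lit 4) (nat_lit 386) (nat_lit 266) (nat_lit 236))))) (XT.nd (nat_lit 282) (nat_lit 84) (nat_lit 0)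 (XT.nd (nat_lit 94) (nat_lit 0) (nat_lit 0) (XT.lf (nat_lit 0) (nat_lit 15460015563) (nat_lit 168) (nat_lit 10365804432) (nat_lit 0) (nat_lit 4078023880) (nat_lit 5) (nat_lit 5) (nat_lit 7) (nat_lit 4) (nat_lit 5) (nat_lit 4) (nat_lit 387) (nat_lit 266) (nat_lit 235)) (XT.nd (nat_lit 94) (nat_lit 0) (nat_lit 0) (XT.lf (nat_lit 0) (nat_lit 17347568326) (nat_lit 168) (nat_lit 7664570567) (nat_lit 0) (nat_lit 5748483478) (nat_lit 5) (nat_lit 5) (nat_lit 7) (nat_lit 4) (nat_lit 5) (nat_lit 4) (nat_lit 388) (nat_lit 266) (nat_lit 234)) (XT.lf (nat_lit 0) (nat_lit 19267774468) (nat_lit 168) (nat_lit 4918977665) (nat_lit 0) (nat_lit 7458123990) (nat_lit 5) (nat_lit 5) (nat_lit 7) (nat_lit 4) (nat_lit 5) (nat_lit 4) (nat_lit 389) (nat_lit 266) (nat_lit 233)))) (XT.nd (nat_lit 94) (nat_lit 84) (nat_lit 0) (XT.lf (nat_lit 0) (nat_lit 21222423822) (nat_lit 168) (nat_lit 2126466544) (nat_lit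 0) (nat_lit 9208538979) (nat_lit 5) (nat_lit 5) (nat_lit 7) (nat_lit 4) (nat_lit 5) (nat_lit 4) (nat_lit 390) (nat_lit 266) (nat_lit 232)) (XT.nd (nat_lit 94) (nat_lit 0) (nat_lit 0) (XT.lf (nat_lit 0) (nat_lit 730279205) (nat_lit 84) (nat_lit 22490303582) (nat_lit 84) (nat_lit 10278325271) (nat_lit 4) (nat_lit 4) (nat_lit 5) (nat_lit 5) (nat_lit 5) (nat_lit 4) (nat_lit 391) (nat_lit 266) (nat_lit 231)) (XT.lf (nat_lit 0) (nat_lit 3683992397) (nat_lit 84) (nat_lit 21594926986) (nat_lit 84) (nat_lit 9190811461) (nat_lit 4) (nat_lit 4) (nat_lit 5) (nat_lit 5) (nat_lit 5) (nat_lit 4) (nat_lit 392) (nat_lit 266) (nat_lit 230)))))) (XT.nd (nat_lit 564) (nat_lit 84) (nat_lit 0) (XT.nd (nat_lit 282) (nat_lit 0) (nat_lit 0) (XT.nd (nat_lit 94) (nat_lit 0) (nat_lit 0) (XT.lf (nat_lit 0) (nat_lit 6693701689) (nat_lit 84) (nat_lit 20684121944) (nat_lit 84) (nat_lit 8093646367) (nat_lit 4) (nat_lit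 4) (nat_lit 5) (nat_lit 5) (nat_lit 5) (nat_lit 4) (nat_lit 393) (nat_lit 266) (nat_lit 229)) (XT.nd (nat_lit 94) (nat_lit 0) (nat_lit 0) (XT.lf (nat_lit 0) (nat_lit 9762212444) (nat_lit 84) (nat_lit 19757039489) (nat_lit 84) (nat_lit 6985807315) (nat_lit 4) (nat_lit 4) (nat_lit 5) (nat_lit 5) (nat_lit 5) (nat_lit 4) (nat_lit 394) (nat_lit 266) (nat_lit 228)) (XT.lf (nat_lit 0) (nat_lit 12892384836) (nat_lit 84) (nat_lit 18812815485) (nat_lit 84) (nat_lit 5866261684) (nat_lit 4) (nat_lit 4) (nat_lit 5) (nat_lit 5) (nat_lit 5) (nat_lit 4) (nat_lit 395) (nat_lit 266) (nat_lit 227)))) (XT.nd (nat_lit 94) (nat_lit 0) (nat_lit 0) (XT.lf (nat_lit 0) (nat_lit 16087136513) (nat_lit 84) (nat_lit 17850569816) (nat_lit 84) (nat_lit 4733965939) (nat_lit 4) (nat_lit 4) (nat_lit 5) (nat_lit 5) (nat_lit 5) (nat_lit 4) (nat_lit 396) (nat_lit 266) (nat_lit 226)) (XT.nd (nat_lit 94) (nat_lit 0) (nat_lit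 0) (XT.lf (nat_lit 0) (nat_lit 19349445320) (nat_lit 84) (nat_lit 16869405566) (nat_lit 84) (nat_lit 3587864663) (nat_lit 4) (nat_lit 4) (nat_lit 5) (nat_lit 5) (nat_lit 5) (nat_lit 4) (nat_lit 397) (nat_lit 266) (nat_lit 225)) (XT.lf (nat_lit 0) (nat_lit 22682352068) (nat_lit 84) (nat_lit 15868408190) (nat_lit 84) (nat_lit 2426889569) (nat_lit 4) (nat_lit 4) (nat_lit 5) (nat_lit 5) (nat_lit 5) (nat_lit 4) (nat_lit 398) (nat_lit 266) (nat_lit 224))))) (XT.nd (nat_lit 282) (nat_lit 0) (nat_lit 0) (XT.nd (nat_lit 94) (nat_lit 84) (nat_lit 0) (XT.lf (nat_lit 0) (nat_lit 26088963378) (nat_lit 84) (nat_lit 14846644652) (nat_lit 84) (nat_lit 1249958506) (nat_lit 4) (nat_lit 4) (nat_lit 5) (nat_lit 5) (nat_lit 5) (nat_lit 4) (nat_lit 399) (nat_lit 266) (nat_lit 223)) (XT.nd (nat_lit 94) (nat_lit 84) (nat_lit 0) (XT.lf (nat_lit 0) (nat_lit 29572454566) (nat_lit 84) (nat_lit 13803162562)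 (nat_lit 84) (nat_lit 55974452) (nat_lit 4) (nat_lit 4) (nat_lit 5) (nat_lit 5) (nat_lit 5) (nat_lit 4) (nat_lit 400) (nat_lit 266) (nat_lit 222)) (XT.lf (nat_lit 0) (nat_lit 1132881150) (nat_lit 168) (nat_lit 11592283178) (nat_lit 84) (nat_lit 31991366505) (nat_lit 3) (nat_lit 5) (nat_lit 5) (nat_lit 5) (nat_lit 4) (nat_lit 4) (nat_lit 401) (nat_lit 266) (nat_lit 221)))) (XT.nd (nat_lit 188) (nat_lit 0) (nat_lit 0) (XT.nd (nat_lit 94) (nat_lit 0) (nat_lit 0) (XT.lf (nat_lit 0) (nat_lit 2339515987) (nat_lit 168) (nat_lit 9283195299) (nat_lit 84) (nat_lit 34419203445) (nat_lit 3) (nat_lit 5) (nat_lit 5) (nat_lit 5) (nat_lit 4) (nat_lit 4) (nat_lit 402) (nat_lit 266) (nat_lit 220)) (XT.lf (nat_lit 0) (nat_lit 3566182528) (nat_lit 168) (nat_lit 6929165792) (nat_lit 84) (nat_lit 36913647562) (nat_lit 3) (nat_lit 5) (nat_lit 5) (nat_lit 5) (nat_lit 4) (nat_lit 4) (nat_lit 403) (nat_lit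 266) (nat_lit 219))) (XT.nd (nat_lit 94) (nat_lit 0) (nat_lit 0) (XT.lf (nat_lit 0) (nat_lit 4814024154) (nat_lit 168) (nat_lit 4528000455) (nat_lit 84) (nat_lit 39477023939) (nat_lit 3) (nat_lit 5) (nat_lit 5) (nat_lit 5) (nat_lit 4) (nat_lit 4) (nat_lit 404) (nat_lit 266) (nat_lit 218)) (XT.lf (nat_lit 0) (nat_lit 6084203985) (nat_lit 168) (nat_lit 2077461150) (nat_lit 84) (nat_lit 42111721912) (nat_lit 3) (nat_lit 5) (nat_lit 5) (nat_lit 5) (nat_lit 4) (nat_lit 4) (nat_lit 405) (nat_lit 266) (nat_lit 217))))))) (XT.nd (nat_lit 1222) (nat_lit 0) (nat_lit 0) (XT.nd (nat_lit 564) (nat_lit 0) (nat_lit 0) (XT.nd (nat_lit 282) (nat_lit 0) (nat_lit 0) (XT.nd (nat_lit 94) (nat_lit 0) (nat_lit 0) (XT.lf (nat_lit 0) (nat_lit 433469729) (nat_lit 84) (nat_lit 6948736305) (nat_lit 168) (nat_lit 44391027640) (nat_lit 2) (nat_lit 5) (nat_lit 3) (nat_lit 5) (nat_lit 4) (nat_lit 4) (nat_lit 406)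 (nat_lit 266) (nat_lit 216)) (XT.nd (nat_lit 94) (nat_lit 0) (nat_lit 0) (XT.lf (nat_lit 0) (nat_lit 3042218063) (nat_lit 84) (nat_lit 5684297066) (nat_lit 168) (nat_lit 44592935790) (nat_lit 2) (nat_lit 5) (nat_lit 3) (nat_lit 5) (nat_lit 4) (nat_lit 4) (nat_lit 407) (nat_lit 266) (nat_lit 215)) (XT.lf (nat_lit 0) (nat_lit 5708498615) (nat_lit 84) (nat_lit 4388853260) (nat_lit 168) (nat_lit 44816780146) (nat_lit 2) (nat_lit 5) (nat_lit 3) (nat_lit 5) (nat_lit 4) (nat_lit 4) (nat_lit 408) (nat_lit 266) (nat_lit 214)))) (XT.nd (nat_lit 94) (nat_lit 0) (nat_lit 0) (XT.lf (nat_lit 0) (nat_lit 8434796637) (nat_lit 84) (nat_lit 3061197401) (nat_lit 168) (nat_lit 45062769354) (nat_lit 2) (nat_lit 5) (nat_lit 3) (nat_lit 5) (nat_lit 4) (nat_lit 4) (nat_lit 409) (nat_lit 266) (nat_lit 213)) (XT.nd (nat_lit 94) (nat_lit 0) (nat_lit 0) (XT.lf (nat_lit 0) (nat_lit 11223653326) (nat_lit 84)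 (nat_lit 1700091972) (nat_lit 168) (nat_lit 45331132703) (nat_lit 2) (nat_lit 5) (nat_lit 3) (nat_lit 5) (nat_lit 4) (nat_lit 4) (nat_lit 410) (nat_lit 266) (nat_lit 212)) (XT.lf (nat_lit 0) (nat_lit 14077668187) (nat_lit 84) (nat_lit 304268282) (nat_lit 168) (nat_lit 45622120336) (nat_lit 2) (nat_lit 5) (nat_lit 3) (nat_lit 5) (nat_lit 4) (nat_lit 4) (nat_lit 411) (nat_lit 266) (nat_lit 211))))) (XT.nd (nat_lit 282) (nat_lit 0) (nat_lit 0) (XT.nd (nat_lit 94) (nat_lit 0) (nat_lit 0) (XT.lf (nat_lit 0) (nat_lit 15883112419) (nat_lit 168) (nat_lit 44819614439) (nat_lit 0) (nat_lit 1104856605) (nat_lit 2) (nat_lit 5) (nat_lit 4) (nat_lit 4) (nat_lit 2) (nat_lit 4) (nat_lit 412) (nat_lit 266) (nat_lit 210)) (XT.nd (nat_lit 94) (nat_lit 0) (nat_lit 0) (XT.lf (nat_lit 0) (nat_lit 17420865228) (nat_lit 168) (nat_lit 43702063338) (nat_lit 0) (nat_lit 2544452510) (nat_lit 2) (nat_lit 5)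 (nat_lit 4) (nat_lit 4) (nat_lit 2) (nat_lit 4) (nat_lit 413) (nat_lit 266) (nat_lit 209)) (XT.lf (nat_lit 0) (nat_lit 18993609864) (nat_lit 168) (nat_lit 42569675261) (nat_lit 0) (nat_lit 4021991613) (nat_lit 2) (nat_lit 5) (nat_lit 4) (nat_lit 4) (nat_lit 2) (nat_lit 4) (nat_lit 414) (nat_lit 266) (nat_lit 208)))) (XT.nd (nat_lit 188) (nat_lit 0) (nat_lit 0) (XT.nd (nat_lit 94) (nat_lit 0) (nat_lit 0) (XT.lf (nat_lit 0) (nat_lit 20602812290) (nat_lit 168) (nat_lit 41421394703) (nat_lit 0) (nat_lit 5538851137) (nat_lit 2) (nat_lit 5) (nat_lit 4) (nat_lit 4) (nat_lit 2) (nat_lit 4) (nat_lit 415) (nat_lit 266) (nat_lit 207)) (XT.lf (nat_lit 0) (nat_lit 22249972452) (nat_lit 168) (nat_lit 40256151347) (nat_lit 0) (nat_lit 7096444953) (nat_lit 2) (nat_lit 5) (nat_lit 4) (nat_lit 4) (nat_lit 2) (nat_lit 4) (nat_lit 416) (nat_lit 266) (nat_lit 206))) (XT.nd (nat_lit 94) (nat_lit 0) (nat_lit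 0) (XT.lf (nat_lit 0) (nat_lit 23936625674) (nat_lit 168) (nat_lit 39072859064) (nat_lit 0) (nat_lit 8696224901) (nat_lit 2) (nat_lit 5) (nat_lit 4) (nat_lit 4) (nat_lit 2) (nat_lit 4) (nat_lit 417) (nat_lit 266) (nat_lit 205)) (XT.lf (nat_lit 0) (nat_lit 25664344095) (nat_lit 168) (nat_lit 37870414901) (nat_lit 0) (nat_lit 10339682144) (nat_lit 2) (nat_lit 5) (nat_lit 4) (nat_lit 4) (nat_lit 2) (nat_lit 4) (nat_lit 418) (nat_lit 266) (nat_lit 204)))))) (XT.nd (nat_lit 564) (nat_lit 0) (nat_lit 0) (XT.nd (nat_lit 282) (nat_lit 0) (nat_lit 0) (XT.nd (nat_lit 94) (nat_lit 0) (nat_lit 0) (XT.lf (nat_lit 0) (nat_lit 27434738129) (nat_lit 168) (nat_lit 36647698055) (nat_lit 0) (nat_lit 12028348556) (nat_lit 2) (nat_lit 5) (nat_lit 4) (nat_lit 4) (nat_lit 2) (nat_lit 4) (nat_lit 419) (nat_lit 266) (nat_lit 203)) (XT.nd (nat_lit 94) (nat_lit 0) (nat_lit 0) (XT.lf (nat_lit 0) (nat_lit 29249457969)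 (nat_lit 168) (nat_lit 35403568826) (nat_lit 0) (nat_lit 13763798152) (nat_lit 2) (nat_lit 5) (nat_lit 4) (nat_lit 4) (nat_lit 2) (nat_lit 4) (nat_lit 420) (nat_lit 266) (nat_lit 202)) (XT.lf (nat_lit 0) (nat_lit 31110195124) (nat_lit 168) (nat_lit 34136867554) (nat_lit 0) (nat_lit 15547648552) (nat_lit 2) (nat_lit 5) (nat_lit 4) (nat_lit 4) (nat_lit 2) (nat_lit 4) (nat_lit 421) (nat_lit 266) (nat_lit 201)))) (XT.nd (nat_lit 94) (nat_lit 0) (nat_lit 0) (XT.lf (nat_lit 0) (nat_lit 33018683995) (nat_lit 168) (nat_lit 32846413541) (nat_lit 0) (nat_lit 17381562491) (nat_lit 2) (nat_lit 5) (nat_lit 4) (nat_lit 4) (nat_lit 2) (nat_lit 4) (nat_lit 422) (nat_lit 266) (nat_lit 200)) (XT.nd (nat_lit 94) (nat_lit 0) (nat_lit 0) (XT.lf (nat_lit 0) (nat_lit 34976703495) (nat_lit 168) (nat_lit 31531003950) (nat_lit 0) (nat_lit 19267249371) (nat_lit 2) (nat_lit 5) (nat_lit 4) (nat_lit 4) (nat_lit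 2) (nat_lit 4) (nat_lit 423) (nat_lit 266) (nat_lit 199)) (XT.lf (nat_lit 0) (nat_lit 36986078702) (nat_lit 168) (nat_lit 30189412680) (nat_lit 0) (nat_lit 21206466847) (nat_lit 2) (nat_lit 5) (nat_lit 4) (nat_lit 4) (nat_lit 2) (nat_lit 4) (nat_lit 424) (nat_lit 266) (nat_lit 198))))) (XT.nd (nat_lit 49068) (nat_lit 0) (nat_lit 1176) (XT.nd (nat_lit 94) (nat_lit 0) (nat_lit 0) (XT.lf (nat_lit 0) (nat_lit 39048682565) (nat_lit 168) (nat_lit 28820389228) (nat_lit 0) (nat_lit 23201022474) (nat_lit 2) (nat_lit 5) (nat_lit 4) (nat_lit 4) (nat_lit 2) (nat_lit 4) (nat_lit 425) (nat_lit 266) (nat_lit 197)) (XT.nd (nat_lit 94) (nat_lit 0) (nat_lit 0) (XT.lf (nat_lit 0) (nat_lit 41166437646) (nat_lit 168) (nat_lit 27422657520) (nat_lit 0) (nat_lit 25252775387) (nat_lit 2) (nat_lit 5) (nat_lit 4) (nat_lit 4) (nat_lit 2) (nat_lit 4) (nat_lit 426) (nat_lit 266) (nat_lit 196)) (XT.lf (nat_lit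 0) (nat_lit 43341317916) (nat_lit 168) (nat_lit 25994914725) (nat_lit 0) (nat_lit 27363638035) (nat_lit 2) (nat_lit 5) (nat_lit 4) (nat_lit 4) (nat_lit 2) (nat_lit 4) (nat_lit 427) (nat_lit 266) (nat_lit 195)))) (XT.nd (nat_lit 188) (nat_lit 168) (nat_lit 0) (XT.nd (nat_lit 94) (nat_lit 0) (nat_lit 0) (XT.lf (nat_lit 0) (nat_lit 951946203) (nat_lit 252) (nat_lit 4491775614) (nat_lit 0) (nat_lit 951946203) (nat_lit 18) (nat_lit 5) (nat_lit 21) (nat_lit 4) (nat_lit 18) (nat_lit 4) (nat_lit 354) (nat_lit 267) (nat_lit 267)) (XT.lf (nat_lit 0) (nat_lit 4288947172) (nat_lit 252) (nat_lit 5133084003) (nat_lit 0) (nat_lit 3656972847) (nat_lit 18) (nat_lit 5) (nat_lit 21) (nat_lit 4) (nat_lit 18) (nat_lit 4) (nat_lit 355) (nat_lit 267) (nat_lit 266))) (XT.nd (nat_lit 94) (nat_lit 168) (nat_lit 0) (XT.lf (nat_lit 0) (nat_lit 6688554004) (nat_lit 252) (nat_lit 1245599366) (nat_lit 0) (nat_lit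 5443607491) (nat_lit 18) (nat_lit 5) (nat_lit 21) (nat_lit 4) (nat_lit 18) (nat_lit 4) (nat_lit 356) (nat_lit 267) (nat_lit 265)) (XT.lf (nat_lit 0) (nat_lit 2737684467) (nat_lit 168) (nat_lit 6394423287) (nat_lit 168) (nat_lit 4554935371) (nat_lit 16) (nat_lit 4) (nat_lit 18) (nat_lit 5) (nat_lit 18) (nat_lit 4) (nat_lit 357) (nat_lit 267) (nat_lit 264))))))))
noncomputable def xc26 : XT := (XT.nd (nat_lit 2350) (nat_lit 252) (nat_lit 0) (XT.nd (nat_lit 1128) (nat_lit 336) (nat_lit 0) (XT.nd (nat_lit 564) (nat_lit 336) (nat_lit 0) (XT.nd (nat_lit 282) (nat_lit 0) (nat_lit 0) (XT.nd (nat_lit 94) (nat_lit 252) (nat_lit 0) (XT.lf (nat_lit 0) (nat_lit 6791793707) (nat_lit 168) (nat_lit 4815967981) (nat_lit 168) (nat_lit 2399815270) (nat_lit 16) (nat_lit 4) (nat_lit 18) (nat_lit 5) (nat_lit 18) (nat_lit 4) (nat_lit 358) (nat_lit 267) (nat_lit 263)) (XT.nd (nat_lit 94) (nat_lit 252) (nat_lit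 0) (XT.lf (nat_lit 0) (nat_lit 10894895128) (nat_lit 168) (nat_lit 3210317668) (nat_lit 168) (nat_lit 234839258) (nat_lit 16) (nat_lit 4) (nat_lit 18) (nat_lit 5) (nat_lit 18) (nat_lit 4) (nat_lit 359) (nat_lit 267) (nat_lit 262)) (XT.lf (nat_lit 0) (nat_lit 353900249) (nat_lit 168) (nat_lit 1552493945) (nat_lit 252) (nat_lit 12777678076) (nat_lit 13) (nat_lit 5) (nat_lit 15) (nat_lit 5) (nat_lit 16) (nat_lit 4) (nat_lit 360) (nat_lit 267) (nat_lit 261)))) (XT.nd (nat_lit 94) (nat_lit 0) (nat_lit 0) (XT.lf (nat_lit 0) (nat_lit 4093550690) (nat_lit 252) (nat_lit 10774921310) (nat_lit 0) (nat_lit 170968497) (nat_lit 13) (nat_lit 5) (nat_lit 16) (nat_lit 4) (nat_lit 13) (nat_lit 4) (nat_lit 361) (nat_lit 267) (nat_lit 260)) (XT.nd (nat_lit 94) (nat_lit 0) (nat_lit 0) (XT.lf (nat_lit 0) (nat_lit 6312534924) (nat_lit 252) (nat_lit 7199747764) (nat_lit 0) (nat_lit 1894924335) (nat_lit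 13) (nat_lit 5) (nat_lit 16) (nat_lit 4) (nat_lit 13) (nat_lit 4) (nat_lit 362) (nat_lit 267) (nat_lit 259)) (XT.lf (nat_lit 0) (nat_lit 8550014292) (nat_lit 252) (nat_lit 3585918014) (nat_lit 0) (nat_lit 3652259768) (nat_lit 13) (nat_lit 5) (nat_lit 16) (nat_lit 4) (nat_lit 13) (nat_lit 4) (nat_lit 363) (nat_lit 267) (nat_lit 258))))) (XT.nd (nat_lit 282) (nat_lit 168) (nat_lit 0) (XT.nd (nat_lit 94) (nat_lit 0) (nat_lit 0) (XT.lf (nat_lit 0) (nat_lit 71374442) (nat_lit 168) (nat_lit 10737407959) (nat_lit 168) (nat_lit 5373946417) (nat_lit 11) (nat_lit 4) (nat_lit 13) (nat_lit 5) (nat_lit 13) (nat_lit 4) (nat_lit 364) (nat_lit 267) (nat_lit 257)) (XT.nd (nat_lit 94) (nat_lit 0) (nat_lit 0) (XT.lf (nat_lit 0) (nat_lit 3848767221) (nat_lit 168) (nat_lit 9278232897) (nat_lit 168) (nat_lit 3463067168) (nat_lit 11) (nat_lit 4) (nat_lit 13) (nat_lit 5) (nat_lit 13) (nat_lit 4) (nat_lit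 365) (nat_lit 267) (nat_lit 256)) (XT.lf (nat_lit 0) (nat_lit 7676047417) (nat_lit 168) (nat_lit 7794476648) (nat_lit 168) (nat_lit 1541188525) (nat_lit 11) (nat_lit 4) (nat_lit 13) (nat_lit 5) (nat_lit 13) (nat_lit 4) (nat_lit 366) (nat_lit 267) (nat_lit 255)))) (XT.nd (nat_lit 94) (nat_lit 84) (nat_lit 0) (XT.lf (nat_lit 0) (nat_lit 385553139) (nat_lit 252) (nat_lit 5895178671) (nat_lit 84) (nat_lit 11167204934) (nat_lit 10) (nat_lit 5) (nat_lit 13) (nat_lit 5) (nat_lit 11) (nat_lit 4) (nat_lit 367) (nat_lit 267) (nat_lit 254)) (XT.nd (nat_lit 94) (nat_lit 84) (nat_lit 0) (XT.lf (nat_lit 0) (nat_lit 2295543352) (nat_lit 252) (nat_lit 2428160201) (nat_lit 84) (nat_lit 13175085476) (nat_lit 10) (nat_lit 5) (nat_lit 13) (nat_lit 5) (nat_lit 11) (nat_lit 4) (nat_lit 368) (nat_lit 267) (nat_lit 253)) (XT.lf (nat_lit 0) (nat_lit 1106198065) (nat_lit 84) (nat_lit 3126389495) (nat_lit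 168) (nat_lit 14132235900) (nat_lit 9) (nat_lit 5) (nat_lit 10) (nat_lit 5) (nat_lit 11) (nat_lit 4) (nat_lit 369) (nat_lit 267) (nat_lit 252)))))) (XT.nd (nat_lit 564) (nat_lit 168) (nat_lit 0) (XT.nd (nat_lit 282) (nat_lit 168) (nat_lit 0) (XT.nd (nat_lit 94) (nat_lit 0) (nat_lit 0) (XT.lf (nat_lit 0) (nat_lit 4739803956) (nat_lit 84) (nat_lit 1472775683) (nat_lit 168) (nat_lit 12633458050) (nat_lit 9) (nat_lit 5) (nat_lit 10) (nat_lit 5) (nat_lit 11) (nat_lit 4) (nat_lit 370) (nat_lit 267) (nat_lit 251)) (XT.nd (nat_lit 94) (nat_lit 0) (nat_lit 0) (XT.lf (nat_lit 0) (nat_lit 8214898510) (nat_lit 168) (nat_lit 10919642212) (nat_lit 0) (nat_lit 209036002) (nat_lit 9) (nat_lit 5) (nat_lit 11) (nat_lit 4) (nat_lit 9) (nat_lit 4) (nat_lit 371) (nat_lit 267) (nat_lit 250)) (XT.lf (nat_lit 0) (nat_lit 10254240342) (nat_lit 168) (nat_lit 7708710393) (nat_lit 0) (nat_lit 1894555866) (nat_lit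 9) (nat_lit 5) (nat_lit 11) (nat_lit 4) (nat_lit 9) (nat_lit 4) (nat_lit 372) (nat_lit 267) (nat_lit 249)))) (XT.nd (nat_lit 94) (nat_lit 168) (nat_lit 0) (XT.lf (nat_lit 0) (nat_lit 12317895898) (nat_lit 168) (nat_lit 4455835235) (nat_lit 0) (nat_lit 3615028135) (nat_lit 9) (nat_lit 5) (nat_lit 11) (nat_lit 4) (nat_lit 9) (nat_lit 4) (nat_lit 373) (nat_lit 267) (nat_lit 248)) (XT.nd (nat_lit 94) (nat_lit 168) (nat_lit 0) (XT.lf (nat_lit 0) (nat_lit 14407788721) (nat_lit 168) (nat_lit 1157984718) (nat_lit 0) (nat_lit 5372056471) (nat_lit 9) (nat_lit 5) (nat_lit 11) (nat_lit 4) (nat_lit 9) (nat_lit 4) (nat_lit 374) (nat_lit 267) (nat_lit 247)) (XT.lf (nat_lit 0) (nat_lit 2232903122) (nat_lit 168) (nat_lit 14315114364) (nat_lit 168) (nat_lit 4956526161) (nat_lit 7) (nat_lit 4) (nat_lit 9) (nat_lit 5) (nat_lit 9) (nat_lit 4) (nat_lit 375) (nat_lit 267) (nat_lit 246))))) (XT.nd (nat_lit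 282) (nat_lit 168) (nat_lit 0) (XT.nd (nat_lit 94) (nat_lit 0) (nat_lit 0) (XT.lf (nat_lit 0) (nat_lit 5699821654) (nat_lit 168) (nat_lit 13030825720) (nat_lit 168) (nat_lit 3359089163) (nat_lit 7) (nat_lit 4) (nat_lit 9) (nat_lit 5) (nat_lit 9) (nat_lit 4) (nat_lit 376) (nat_lit 267) (nat_lit 245)) (XT.nd (nat_lit 94) (nat_lit 0) (nat_lit 0) (XT.lf (nat_lit 0) (nat_lit 9222191868) (nat_lit 168) (nat_lit 11723797401) (nat_lit 168) (nat_lit 1748328202) (nat_lit 7) (nat_lit 4) (nat_lit 9) (nat_lit 5) (nat_lit 9) (nat_lit 4) (nat_lit 377) (nat_lit 267) (nat_lit 244)) (XT.lf (nat_lit 0) (nat_lit 12803296981) (nat_lit 168) (nat_lit 10392811121) (nat_lit 168) (nat_lit 122741881) (nat_lit 7) (nat_lit 4) (nat_lit 9) (nat_lit 5) (nat_lit 9) (nat_lit 4) (nat_lit 378) (nat_lit 267) (nat_lit 243)))) (XT.nd (nat_lit 188) (nat_lit 84) (nat_lit 0) (XT.nd (nat_lit 94) (nat_lit 0) (nat_lit 0) (XT.lf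 (nat_lit 0) (nat_lit 1488576824) (nat_lit 252) (nat_lit 7532511746) (nat_lit 84) (nat_lit 14942360445) (nat_lit 6) (nat_lit 5) (nat_lit 9) (nat_lit 5) (nat_lit 7) (nat_lit 4) (nat_lit 379) (nat_lit 267) (nat_lit 242)) (XT.lf (nat_lit 0) (nat_lit 3114933519) (nat_lit 252) (nat_lit 4506531675) (nat_lit 84) (nat_lit 17007674589) (nat_lit 6) (nat_lit 5) (nat_lit 9) (nat_lit 5) (nat_lit 7) (nat_lit 4) (nat_lit 380) (nat_lit 267) (nat_lit 241))) (XT.nd (nat_lit 94) (nat_lit 84) (nat_lit 0) (XT.lf (nat_lit 0) (nat_lit 4760317112) (nat_lit 252) (nat_lit 1433574644) (nat_lit 84) (nat_lit 19122688768) (nat_lit 6) (nat_lit 5) (nat_lit 9) (nat_lit 5) (nat_lit 7) (nat_lit 4) (nat_lit 381) (nat_lit 267) (nat_lit 240)) (XT.lf (nat_lit 0) (nat_lit 1723957566) (nat_lit 84) (nat_lit 4719405580) (nat_lit 168) (nat_lit 19582518702) (nat_lit 5) (nat_lit 5) (nat_lit 6) (nat_lit 5) (nat_lit 7) (nat_lit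 4) (nat_lit 382) (nat_lit 267) (nat_lit 239))))))) (XT.nd (nat_lit 1222) (nat_lit 168) (nat_lit 0) (XT.nd (nat_lit 564) (nat_lit 84) (nat_lit 0) (XT.nd (nat_lit 282) (nat_lit 0) (nat_lit 0) (XT.nd (nat_lit 94) (nat_lit 0) (nat_lit 0) (XT.lf (nat_lit 0) (nat_lit 4964803755) (nat_lit 84) (nat_lit 3198766551) (nat_lit 168) (nat_lit 18594198765) (nat_lit 5) (nat_lit 5) (nat_lit 6) (nat_lit 5) (nat_lit 7) (nat_lit 4) (nat_lit 383) (nat_lit 267) (nat_lit 238)) (XT.nd (nat_lit 94) (nat_lit 0) (nat_lit 0) (XT.lf (nat_lit 0) (nat_lit 8262507495) (nat_lit 84) (nat_lit 1645520855) (nat_lit 168) (nat_lit 17605345961) (nat_lit 5) (nat_lit 5) (nat_lit 6) (nat_lit 5) (nat_lit 7) (nat_lit 4) (nat_lit 384) (nat_lit 267) (nat_lit 237)) (XT.lf (nat_lit 0) (nat_lit 11620142592) (nat_lit 84) (nat_lit 58220703) (nat_lit 168) (nat_lit 16615038577) (nat_lit 5) (nat_lit 5) (nat_lit 6) (nat_lit 5) (nat_lit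 7) (nat_lit 4) (nat_lit 385) (nat_lit 267) (nat_lit 236)))) (XT.nd (nat_lit 94) (nat_lit 0) (nat_lit 0) (XT.lf (nat_lit 0) (nat_lit 13491746438) (nat_lit 168) (nat_lit 14073261268) (nat_lit 0) (nat_lit 1533089960) (nat_lit 5) (nat_lit 5) (nat_lit 7) (nat_lit 4) (nat_lit 5) (nat_lit 4) (nat_lit 386) (nat_lit 267) (nat_lit 235)) (XT.nd (nat_lit 94) (nat_lit 0) (nat_lit 0) (XT.lf (nat_lit 0) (nat_lit 15335277479) (nat_lit 168) (nat_lit 11433858745) (nat_lit 0) (nat_lit 3159527836) (nat_lit 5) (nat_lit 5) (nat_lit 7) (nat_lit 4) (nat_lit 5) (nat_lit 4) (nat_lit 387) (nat_lit 267) (nat_lit 234)) (XT.lf (nat_lit 0) (nat_lit 17210097226) (nat_lit 168) (nat_lit 8752013956) (nat_lit 0) (nat_lit 4823781952) (nat_lit 5) (nat_lit 5) (nat_lit 7) (nat_lit 4) (nat_lit 5) (nat_lit 4) (nat_lit 388) (nat_lit 267) (nat_lit 233))))) (XT.nd (nat_lit 282) (nat_lit 84) (nat_lit 0) (XT.nd (nat_lit 94) (nat_lit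 0) (nat_lit 0) (XT.lf (nat_lit 0) (nat_lit 19117953206) (nat_lit 168) (nat_lit 6025227140) (nat_lit 0) (nat_lit 6527403568) (nat_lit 5) (nat_lit 5) (nat_lit 7) (nat_lit 4) (nat_lit 5) (nat_lit 4) (nat_lit 389) (nat_lit 267) (nat_lit 232)) (XT.nd (nat_lit 94) (nat_lit 0) (nat_lit 0) (XT.lf (nat_lit 0) (nat_lit 21060623742) (nat_lit 168) (nat_lit 3250956646) (nat_lit 0) (nat_lit 8271980637) (nat_lit 5) (nat_lit 5) (nat_lit 7) (nat_lit 4) (nat_lit 5) (nat_lit 4) (nat_lit 390) (nat_lit 267) (nat_lit 231)) (XT.lf (nat_lit 0) (nat_lit 23039919607) (nat_lit 168) (nat_lit 426616565) (nat_lit 0) (nat_lit 10059139287) (nat_lit 5) (nat_lit 5) (nat_lit 7) (nat_lit 4) (nat_lit 5) (nat_lit 4) (nat_lit 391) (nat_lit 267) (nat_lit 230)))) (XT.nd (nat_lit 188) (nat_lit 0) (nat_lit 0) (XT.nd (nat_lit 94) (nat_lit 0) (nat_lit 0) (XT.lf (nat_lit 0) (nat_lit 2500811462) (nat_lit 84) (nat_lit 22581682607)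 (nat_lit 84) (nat_lit 9414542235) (nat_lit 4) (nat_lit 4) (nat_lit 5) (nat_lit 5) (nat_lit 5) (nat_lit 4) (nat_lit 392) (nat_lit 267) (nat_lit 229)) (XT.lf (nat_lit 0) (nat_lit 5493534282) (nat_lit 84) (nat_lit 21676765080) (nat_lit 84) (nat_lit 8328868111) (nat_lit 4) (nat_lit 4) (nat_lit 5) (nat_lit 5) (nat_lit 5) (nat_lit 4) (nat_lit 393) (nat_lit 267) (nat_lit 228))) (XT.nd (nat_lit 94) (nat_lit 0) (nat_lit 0) (XT.lf (nat_lit 0) (nat_lit 8545569313) (nat_lit 84) (nat_lit 20755393117) (nat_lit 84) (nat_lit 7232174520) (nat_lit 4) (nat_lit 4) (nat_lit 5) (nat_lit 5) (nat_lit 5) (nat_lit 4) (nat_lit 394) (nat_lit 267) (nat_lit 227)) (XT.lf (nat_lit 0) (nat_lit 11659761370) (nat_lit 84) (nat_lit 19816707900) (nat_lit 84) (nat_lit 6123439229) (nat_lit 4) (nat_lit 4) (nat_lit 5) (nat_lit 5) (nat_lit 5) (nat_lit 4) (nat_lit 395) (nat_lit 267) (nat_lit 226)))))) (XT.nd (nat_lit 564)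 (nat_lit 84) (nat_lit 0) (XT.nd (nat_lit 282) (nat_lit 84) (nat_lit 0) (XT.nd (nat_lit 94) (nat_lit 0) (nat_lit 0) (XT.lf (nat_lit 0) (nat_lit 14839013209) (nat_lit 84) (nat_lit 18859834479) (nat_lit 84) (nat_lit 5001628780) (nat_lit 4) (nat_lit 4) (nat_lit 5) (nat_lit 5) (nat_lit 5) (nat_lit 4) (nat_lit 396) (nat_lit 267) (nat_lit 225)) (XT.nd (nat_lit 94) (nat_lit 0) (nat_lit 0) (XT.lf (nat_lit 0) (nat_lit 18086288224) (nat_lit 84) (nat_lit 17883880946) (nat_lit 84) (nat_lit 3865697530) (nat_lit 4) (nat_lit 4) (nat_lit 5) (nat_lit 5) (nat_lit 5) (nat_lit 4) (nat_lit 397) (nat_lit 267) (nat_lit 224)) (XT.lf (nat_lit 0) (nat_lit 21404613215) (nat_lit 84) (nat_lit 16887937611) (nat_lit 84) (nat_lit 2714586670) (nat_lit 4) (nat_lit 4) (nat_lit 5) (nat_lit 5) (nat_lit 5) (nat_lit 4) (nat_lit 398) (nat_lit 267) (nat_lit 223)))) (XT.nd (nat_lit 94) (nat_lit 84) (nat_lit 0) (XT.lf (nat_lit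 0) (nat_lit 24797081210) (nat_lit 84) (nat_lit 15871076149) (nat_lit 84) (nat_lit 1547223244) (nat_lit 4) (nat_lit 4) (nat_lit 5) (nat_lit 5) (nat_lit 5) (nat_lit 4) (nat_lit 399) (nat_lit 267) (nat_lit 222)) (XT.nd (nat_lit 94) (nat_lit 84) (nat_lit 0) (XT.lf (nat_lit 0) (nat_lit 28266854344) (nat_lit 84) (nat_lit 14832348740) (nat_lit 84) (nat_lit 362519149) (nat_lit 4) (nat_lit 4) (nat_lit 5) (nat_lit 5) (nat_lit 5) (nat_lit 4) (nat_lit 400) (nat_lit 267) (nat_lit 221)) (XT.lf (nat_lit 0) (nat_lit 823693065) (nat_lit 168) (nat_lit 12938496450) (nat_lit 84) (nat_lit 30984876077) (nat_lit 3) (nat_lit 5) (nat_lit 5) (nat_lit 5) (nat_lit 4) (nat_lit 4) (nat_lit 401) (nat_lit 267) (nat_lit 220))))) (XT.nd (nat_lit 282) (nat_lit 84) (nat_lit 0) (XT.nd (nat_lit 94) (nat_lit 0) (nat_lit 0) (XT.lf (nat_lit 0) (nat_lit 2021773507) (nat_lit 168) (nat_lit 10642525309) (nat_lit 84) (nat_lit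 33408451191) (nat_lit 3) (nat_lit 5) (nat_lit 5) (nat_lit 5) (nat_lit 4) (nat_lit 4) (nat_lit 402) (nat_lit 267) (nat_lit 219)) (XT.nd (nat_lit 94) (nat_lit 0) (nat_lit 0) (XT.lf (nat_lit 0) (nat_lit 3240142865) (nat_lit 168) (nat_lit 8301218148) (nat_lit 84) (nat_lit 35898761626) (nat_lit 3) (nat_lit 5) (nat_lit 5) (nat_lit 5) (nat_lit 4) (nat_lit 4) (nat_lit 403) (nat_lit 267) (nat_lit 218)) (XT.lf (nat_lit 0) (nat_lit 4479936788) (nat_lit 168) (nat_lit 5912392623) (nat_lit 84) (nat_lit 38458128613) (nat_lit 3) (nat_lit 5) (nat_lit 5) (nat_lit 5) (nat_lit 4) (nat_lit 4) (nat_lit 404) (nat_lit 267) (nat_lit 217)))) (XT.nd (nat_lit 188) (nat_lit 84) (nat_lit 0) (XT.nd (nat_lit 94) (nat_lit 0) (nat_lit 0) (XT.lf (nat_lit 0) (nat_lit 5742310893) (nat_lit 168) (nat_lit 3473822098) (nat_lit 84) (nat_lit 41088937750) (nat_lit 3) (nat_lit 5) (nat_lit 5) (nat_lit 5) (nat_lit 4) (nat_lit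 4) (nat_lit 405) (nat_lit 267) (nat_lit 216)) (XT.lf (nat_lit 0) (nat_lit 7028441845) (nat_lit 168) (nat_lit 983233570) (nat_lit 84) (nat_lit 43793641227) (nat_lit 3) (nat_lit 5) (nat_lit 5) (nat_lit 5) (nat_lit 4) (nat_lit 4) (nat_lit 406) (nat_lit 267) (nat_lit 215))) (XT.nd (nat_lit 94) (nat_lit 0) (nat_lit 0) (XT.lf (nat_lit 0) (nat_lit 1593806090) (nat_lit 84) (nat_lit 6761533117) (nat_lit 168) (nat_lit 44996764773) (nat_lit 2) (nat_lit 5) (nat_lit 3) (nat_lit 5) (nat_lit 4) (nat_lit 4) (nat_lit 407) (nat_lit 267) (nat_lit 214)) (XT.lf (nat_lit 0) (nat_lit 4248940789) (nat_lit 84) (nat_lit 5470002016) (nat_lit 168) (nat_lit 45228095923) (nat_lit 2) (nat_lit 5) (nat_lit 3) (nat_lit 5) (nat_lit 4) (nat_lit 4) (nat_lit 408) (nat_lit 267) (nat_lit 213))))))))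
noncomputable def xc27 : XT := (XT.nd (nat_lit 51042) (nat_lit 0) (nat_lit 252) (XT.nd (nat_lit 1222) (nat_lit 0) (nat_lit 0) (XT.nd (nat_lit 564) (nat_lit 0) (nat_lit 0) (XT.nd (nat_lit 282) (nat_lit 0) (nat_lit 0) (XT.nd (nat_lit 94) (nat_lit 0) (nat_lit 0) (XT.lf (nat_lit 0) (nat_lit 6964428091) (nat_lit 84) (nat_lit 4146141215) (nat_lit 168) (nat_lit 45481346813) (nat_lit 2) (nat_lit 5) (nat_lit 3) (nat_lit 5) (nat_lit 4) (nat_lit 4) (nat_lit 409) (nat_lit 267) (nat_lit 212)) (XT.nd (nat_lit 94) (nat_lit 0) (nat_lit 0) (XT.lf (nat_lit 0) (nat_lit 9742799115) (nat_lit 84) (nat_lit 2788716735) (nat_lit 168) (nat_lit 45756753500) (nat_lit 2) (nat_lit 5) (nat_lit 3) (nat_lit 5) (nat_lit 4) (nat_lit 4) (nat_lit 410) (nat_lit 267) (nat_lit 211)) (XT.lf (nat_lit 0) (nat_lit 12586643593) (nat_lit 84) (nat_lit 1396463315) (nat_lit 168) (nat_lit 46054572691) (nat_lit 2) (nat_lit 5) (nat_lit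 3) (nat_lit 5) (nat_lit 4) (nat_lit 4) (nat_lit 411) (nat_lit 267) (nat_lit 210)))) (XT.nd (nat_lit 94) (nat_lit 0) (nat_lit 0) (XT.lf (nat_lit 0) (nat_lit 15467012135) (nat_lit 168) (nat_lit 46343481834) (nat_lit 0) (nat_lit 31273719) (nat_lit 2) (nat_lit 5) (nat_lit 4) (nat_lit 4) (nat_lit 2) (nat_lit 4) (nat_lit 412) (nat_lit 267) (nat_lit 209)) (XT.nd (nat_lit 94) (nat_lit 0) (nat_lit 0) (XT.lf (nat_lit 0) (nat_lit 16998522447) (nat_lit 168) (nat_lit 45235683125) (nat_lit 0) (nat_lit 1467578499) (nat_lit 2) (nat_lit 5) (nat_lit 4) (nat_lit 4) (nat_lit 2) (nat_lit 4) (nat_lit 413) (nat_lit 267) (nat_lit 208)) (XT.lf (nat_lit 0) (nat_lit 18565212286) (nat_lit 168) (nat_lit 44112754206) (nat_lit 0) (nat_lit 2941925435) (nat_lit 2) (nat_lit 5) (nat_lit 4) (nat_lit 4) (nat_lit 2) (nat_lit 4) (nat_lit 414) (nat_lit 267) (nat_lit 207))))) (XT.nd (nat_lit 282) (nat_lit 0) (nat_lit 0)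 (XT.nd (nat_lit 94) (nat_lit 0) (nat_lit 0) (XT.lf (nat_lit 0) (nat_lit 20168541970) (nat_lit 168) (nat_lit 42973648389) (nat_lit 0) (nat_lit 4455688773) (nat_lit 2) (nat_lit 5) (nat_lit 4) (nat_lit 4) (nat_lit 2) (nat_lit 4) (nat_lit 415) (nat_lit 267) (nat_lit 206)) (XT.nd (nat_lit 94) (nat_lit 0) (nat_lit 0) (XT.lf (nat_lit 0) (nat_lit 21810005970) (nat_lit 168) (nat_lit 41817303909) (nat_lit 0) (nat_lit 6010279498) (nat_lit 2) (nat_lit 5) (nat_lit 4) (nat_lit 4) (nat_lit 2) (nat_lit 4) (nat_lit 416) (nat_lit 267) (nat_lit 205)) (XT.lf (nat_lit 0) (nat_lit 23491134303) (nat_lit 168) (nat_lit 40642642931) (nat_lit 0) (nat_lit 7607146653) (nat_lit 2) (nat_lit 5) (nat_lit 4) (nat_lit 4) (nat_lit 2) (nat_lit 4) (nat_lit 417) (nat_lit 267) (nat_lit 204)))) (XT.nd (nat_lit 188) (nat_lit 0) (nat_lit 0) (XT.nd (nat_lit 94) (nat_lit 0) (nat_lit 0) (XT.lf (nat_lit 0) (nat_lit 25213493955)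 (nat_lit 168) (nat_lit 39448570549) (nat_lit 0) (nat_lit 9247778684) (nat_lit 2) (nat_lit 5) (nat_lit 4) (nat_lit 4) (nat_lit 2) (nat_lit 4) (nat_lit 418) (nat_lit 267) (nat_lit 203)) (XT.lf (nat_lit 0) (nat_lit 26978690348) (nat_lit 168) (nat_lit 38233973761) (nat_lit 0) (nat_lit 10933704833) (nat_lit 2) (nat_lit 5) (nat_lit 4) (nat_lit 4) (nat_lit 2) (nat_lit 4) (nat_lit 419) (nat_lit 267) (nat_lit 202))) (XT.nd (nat_lit 94) (nat_lit 0) (nat_lit 0) (XT.lf (nat_lit 0) (nat_lit 28788368829) (nat_lit 168) (nat_lit 36997720437) (nat_lit 0) (nat_lit 12666496559) (nat_lit 2) (nat_lit 5) (nat_lit 4) (nat_lit 4) (nat_lit 2) (nat_lit 4) (nat_lit 420) (nat_lit 267) (nat_lit 201)) (XT.lf (nat_lit 0) (nat_lit 30644216208) (nat_lit 168) (nat_lit 35738658258) (nat_lit 0) (nat_lit 14447769006) (nat_lit 2) (nat_lit 5) (nat_lit 4) (nat_lit 4) (nat_lit 2) (nat_lit 4) (nat_lit 421) (nat_lit 267)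 (nat_lit 200)))))) (XT.nd (nat_lit 49162) (nat_lit 0) (nat_lit 1176) (XT.nd (nat_lit 282) (nat_lit 0) (nat_lit 0) (XT.nd (nat_lit 94) (nat_lit 0) (nat_lit 0) (XT.lf (nat_lit 0) (nat_lit 32547962328) (nat_lit 168) (nat_lit 34455613648) (nat_lit 0) (nat_lit 16279182506) (nat_lit 2) (nat_lit 5) (nat_lit 4) (nat_lit 4) (nat_lit 2) (nat_lit 4) (nat_lit 422) (nat_lit 267) (nat_lit 199)) (XT.nd (nat_lit 94) (nat_lit 0) (nat_lit 0) (XT.lf (nat_lit 0) (nat_lit 34501381682) (nat_lit 168) (nat_lit 33147390673) (nat_lit 0) (nat_lit 18162444128) (nat_lit 2) (nat_lit 5) (nat_lit 4) (nat_lit 4) (nat_lit 2) (nat_lit 4) (nat_lit 423) (nat_lit 267) (nat_lit 198)) (XT.lf (nat_lit 0) (nat_lit 36506295059) (nat_lit 168) (nat_lit 31812769933) (nat_lit 0) (nat_lit 20099309270) (nat_lit 2) (nat_lit 5) (nat_lit 4) (nat_lit 4) (nat_lit 2) (nat_lit 4) (nat_lit 424) (nat_lit 267) (nat_lit 197)))) (XT.nd (nat_lit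 94) (nat_lit 0) (nat_lit 0) (XT.lf (nat_lit 0) (nat_lit 38564571251) (nat_lit 168) (nat_lit 30450507423) (nat_lit 0) (nat_lit 22091583293) (nat_lit 2) (nat_lit 5) (nat_lit 4) (nat_lit 4) (nat_lit 2) (nat_lit 4) (nat_lit 425) (nat_lit 267) (nat_lit 196)) (XT.nd (nat_lit 94) (nat_lit 0) (nat_lit 0) (XT.lf (nat_lit 0) (nat_lit 40678128784) (nat_lit 168) (nat_lit 29059333369) (nat_lit 0) (nat_lit 24141123205) (nat_lit 2) (nat_lit 5) (nat_lit 4) (nat_lit 4) (nat_lit 2) (nat_lit 4) (nat_lit 426) (nat_lit 267) (nat_lit 195)) (XT.lf (nat_lit 0) (nat_lit 42848937718) (nat_lit 168) (nat_lit 27637951053) (nat_lit 0) (nat_lit 26249839391) (nat_lit 2) (nat_lit 5) (nat_lit 4) (nat_lit 4) (nat_lit 2) (nat_lit 4) (nat_lit 427) (nat_lit 267) (nat_lit 194))))) (XT.nd (nat_lit 282) (nat_lit 168) (nat_lit 0) (XT.nd (nat_lit 94) (nat_lit 252) (nat_lit 0) (XT.lf (nat_lit 0) (nat_lit 3995163707) (nat_lit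 252) (nat_lit 1063520861) (nat_lit 252) (nat_lit 1063520861) (nat_lit 21) (nat_lit 4) (nat_lit 24) (nat_lit 5) (nat_lit 24) (nat_lit 4) (nat_lit 352) (nat_lit 268) (nat_lit 268)) (XT.nd (nat_lit 94) (nat_lit 168) (nat_lit 0) (XT.lf (nat_lit 0) (nat_lit 190365338) (nat_lit 336) (nat_lit 285132057) (nat_lit 84) (nat_lit 12038754754) (nat_lit 20) (nat_lit 5) (nat_lit 24) (nat_lit 5) (nat_lit 21) (nat_lit 4) (nat_lit 353) (nat_lit 268) (nat_lit 267)) (XT.lf (nat_lit 0) (nat_lit 2525312413) (nat_lit 252) (nat_lit 9025353213) (nat_lit 0) (nat_lit 1241772559) (nat_lit 18) (nat_lit 5) (nat_lit 21) (nat_lit 4) (nat_lit 18) (nat_lit 4) (nat_lit 354) (nat_lit 268) (nat_lit 266)))) (XT.nd (nat_lit 188) (nat_lit 168) (nat_lit 0) (XT.nd (nat_lit 94) (nat_lit 0) (nat_lit 0) (XT.lf (nat_lit 0) (nat_lit 4881128069) (nat_lit 252) (nat_lit 5215431074) (nat_lit 0) (nat_lit 2984616028) (nat_lit 18) (nat_lit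 5) (nat_lit 21) (nat_lit 4) (nat_lit 18) (nat_lit 4) (nat_lit 355) (nat_lit 268) (nat_lit 265)) (XT.lf (nat_lit 0) (nat_lit 7252374950) (nat_lit 252) (nat_lit 1367272418) (nat_lit 0) (nat_lit 4761321505) (nat_lit 18) (nat_lit 5) (nat_lit 21) (nat_lit 4) (nat_lit 18) (nat_lit 4) (nat_lit 356) (nat_lit 268) (nat_lit 264))) (XT.nd (nat_lit 94) (nat_lit 0) (nat_lit 0) (XT.lf (nat_lit 0) (nat_lit 2574581726) (nat_lit 168) (nat_lit 7092221748) (nat_lit 168) (nat_lit 4024503508) (nat_lit 16) (nat_lit 4) (nat_lit 18) (nat_lit 5) (nat_lit 18) (nat_lit 4) (nat_lit 357) (nat_lit 268) (nat_lit 263)) (XT.lf (nat_lit 0) (nat_lit 6590933602) (nat_lit 168) (nat_lit 5524469105) (nat_lit 168) (nat_lit 1897425166) (nat_lit 16) (nat_lit 4) (nat_lit 18) (nat_lit 5) (nat_lit 18) (nat_lit 4) (nat_lit 358) (nat_lit 268) (nat_lit 262))))))) (XT.nd (nat_lit 1222) (nat_lit 336) (nat_lit 0) (XT.nd (nat_lit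 564) (nat_lit 336) (nat_lit 0) (XT.nd (nat_lit 282) (nat_lit 0) (nat_lit 0) (XT.nd (nat_lit 94) (nat_lit 168) (nat_lit 0) (XT.lf (nat_lit 0) (nat_lit 235509680) (nat_lit 252) (nat_lit 3691231729) (nat_lit 84) (nat_lit 10419445027) (nat_lit 15) (nat_lit 5) (nat_lit 18) (nat_lit 5) (nat_lit 16) (nat_lit 4) (nat_lit 359) (nat_lit 268) (nat_lit 261)) (XT.nd (nat_lit 94) (nat_lit 0) (nat_lit 0) (XT.lf (nat_lit 0) (nat_lit 63456189) (nat_lit 168) (nat_lit 2279824932) (nat_lit 252) (nat_lit 12347879336) (nat_lit 13) (nat_lit 5) (nat_lit 15) (nat_lit 5) (nat_lit 16) (nat_lit 4) (nat_lit 360) (nat_lit 268) (nat_lit 260)) (XT.lf (nat_lit 0) (nat_lit 3940038234) (nat_lit 168) (nat_lit 563241076) (nat_lit 252) (nat_lit 10544222590) (nat_lit 13) (nat_lit 5) (nat_lit 15) (nat_lit 5) (nat_lit 16) (nat_lit 4) (nat_lit 361) (nat_lit 268) (nat_lit 259)))) (XT.nd (nat_lit 94) (nat_lit 0) (nat_lit 0)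 (XT.lf (nat_lit 0) (nat_lit 6691913260) (nat_lit 252) (nat_lit 7562238975) (nat_lit 0) (nat_lit 1162184410) (nat_lit 13) (nat_lit 5) (nat_lit 16) (nat_lit 4) (nat_lit 13) (nat_lit 4) (nat_lit 362) (nat_lit 268) (nat_lit 258)) (XT.nd (nat_lit 94) (nat_lit 0) (nat_lit 0) (XT.lf (nat_lit 0) (nat_lit 8905374330) (nat_lit 252) (nat_lit 3982877000) (nat_lit 0) (nat_lit 2909938463) (nat_lit 13) (nat_lit 5) (nat_lit 16) (nat_lit 4) (nat_lit 13) (nat_lit 4) (nat_lit 363) (nat_lit 268) (nat_lit 257)) (XT.lf (nat_lit 0) (nat_lit 11140138279) (nat_lit 252) (nat_lit 360453980) (nat_lit 0) (nat_lit 4692998224) (nat_lit 13) (nat_lit 5) (nat_lit 16) (nat_lit 4) (nat_lit 13) (nat_lit 4) (nat_lit 364) (nat_lit 268) (nat_lit 256))))) (XT.nd (nat_lit 282) (nat_lit 84) (nat_lit 0) (XT.nd (nat_lit 94) (nat_lit 84) (nat_lit 0) (XT.lf (nat_lit 0) (nat_lit 3376434186) (nat_lit 168) (nat_lit 10055348597)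 (nat_lit 168) (nat_lit 3170086150) (nat_lit 11) (nat_lit 4) (nat_lit 13) (nat_lit 5) (nat_lit 13) (nat_lit 4) (nat_lit 365) (nat_lit 268) (nat_lit 255)) (XT.nd (nat_lit 94) (nat_lit 84) (nat_lit 0) (XT.lf (nat_lit 0) (nat_lit 7171616479) (nat_lit 168) (nat_lit 8581455588) (nat_lit 168) (nat_lit 1271244165) (nat_lit 11) (nat_lit 4) (nat_lit 13) (nat_lit 5) (nat_lit 13) (nat_lit 4) (nat_lit 366) (nat_lit 268) (nat_lit 254)) (XT.lf (nat_lit 0) (nat_lit 628164910) (nat_lit 252) (nat_lit 6446580143) (nat_lit 84) (nat_lit 10386497069) (nat_lit 10) (nat_lit 5) (nat_lit 13) (nat_lit 5) (nat_lit 11) (nat_lit 4) (nat_lit 367) (nat_lit 268) (nat_lit 253)))) (XT.nd (nat_lit 188) (nat_lit 0) (nat_lit 0) (XT.nd (nat_lit 94) (nat_lit 84) (nat_lit 0) (XT.lf (nat_lit 0) (nat_lit 2516919612) (nat_lit 252) (nat_lit 3010297863) (nat_lit 84) (nat_lit 12385638088) (nat_lit 10) (nat_lit 5) (nat_lit 13)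 (nat_lit 5) (nat_lit 11) (nat_lit 4) (nat_lit 368) (nat_lit 268) (nat_lit 252)) (XT.lf (nat_lit 0) (nat_lit 481665445) (nat_lit 84) (nat_lit 3945505929) (nat_lit 168) (nat_lit 13952648946) (nat_lit 9) (nat_lit 5) (nat_lit 10) (nat_lit 5) (nat_lit 11) (nat_lit 4) (nat_lit 369) (nat_lit 268) (nat_lit 251))) (XT.nd (nat_lit 94) (nat_lit 0) (nat_lit 0) (XT.lf (nat_lit 0) (nat_lit 4085761140) (nat_lit 84) (nat_lit 2301131873) (nat_lit 168) (nat_lit 12474866682) (nat_lit 9) (nat_lit 5) (nat_lit 10) (nat_lit 5) (nat_lit 11) (nat_lit 4) (nat_lit 370) (nat_lit 268) (nat_lit 250)) (XT.lf (nat_lit 0) (nat_lit 7743450716) (nat_lit 84) (nat_lit 623983914) (nat_lit 168) (nat_lit 10992633046) (nat_lit 9) (nat_lit 5) (nat_lit 10) (nat_lit 5) (nat_lit 11) (nat_lit 4) (nat_lit 371) (nat_lit 268) (nat_lit 249)))))) (XT.nd (nat_lit 564) (nat_lit 168) (nat_lit 0) (XT.nd (nat_lit 282) (nat_lit 168) (nat_lit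 0) (XT.nd (nat_lit 94) (nat_lit 0) (nat_lit 0) (XT.lf (nat_lit 0) (nat_lit 10381430447) (nat_lit 168) (nat_lit 8427853366) (nat_lit 0) (nat_lit 1065590497) (nat_lit 9) (nat_lit 5) (nat_lit 11) (nat_lit 4) (nat_lit 9) (nat_lit 4) (nat_lit 372) (nat_lit 268) (nat_lit 248)) (XT.nd (nat_lit 94) (nat_lit 0) (nat_lit 0) (XT.lf (nat_lit 0) (nat_lit 12426505966) (nat_lit 168) (nat_lit 5202483757) (nat_lit 0) (nat_lit 2777801529) (nat_lit 9) (nat_lit 5) (nat_lit 11) (nat_lit 4) (nat_lit 9) (nat_lit 4) (nat_lit 373) (nat_lit 268) (nat_lit 247)) (XT.lf (nat_lit 0) (nat_lit 14498377415) (nat_lit 168) (nat_lit 1931311755) (nat_lit 0) (nat_lit 4526817025) (nat_lit 9) (nat_lit 5) (nat_lit 11) (nat_lit 4) (nat_lit 9) (nat_lit 4) (nat_lit 374) (nat_lit 268) (nat_lit 246)))) (XT.nd (nat_lit 94) (nat_lit 0) (nat_lit 0) (XT.lf (nat_lit 0) (nat_lit 1417266475) (nat_lit 168) (nat_lit 15195768979) (nat_lit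 168) (nat_lit 4911060234) (nat_lit 7) (nat_lit 4) (nat_lit 9) (nat_lit 5) (nat_lit 9) (nat_lit 4) (nat_lit 375) (nat_lit 268) (nat_lit 245)) (XT.nd (nat_lit 94) (nat_lit 0) (nat_lit 0) (XT.lf (nat_lit 0) (nat_lit 4858570634) (nat_lit 168) (nat_lit 13919886673) (nat_lit 168) (nat_lit 3331445287) (nat_lit 7) (nat_lit 4) (nat_lit 9) (nat_lit 5) (nat_lit 9) (nat_lit 4) (nat_lit 376) (nat_lit 268) (nat_lit 244)) (XT.lf (nat_lit 0) (nat_lit 8356096644) (nat_lit 168) (nat_lit 12621011932) (nat_lit 168) (nat_lit 1737970505) (nat_lit 7) (nat_lit 4) (nat_lit 9) (nat_lit 5) (nat_lit 9) (nat_lit 4) (nat_lit 377) (nat_lit 268) (nat_lit 243))))) (XT.nd (nat_lit 282) (nat_lit 84) (nat_lit 0) (XT.nd (nat_lit 94) (nat_lit 84) (nat_lit 0) (XT.lf (nat_lit 0) (nat_lit 11913104567) (nat_lit 168) (nat_lit 11297934068) (nat_lit 168) (nat_lit 129150603) (nat_lit 7) (nat_lit 4) (nat_lit 9) (nat_lit 5) (nat_lit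 9) (nat_lit 4) (nat_lit 378) (nat_lit 268) (nat_lit 242)) (XT.nd (nat_lit 94) (nat_lit 0) (nat_lit 0) (XT.lf (nat_lit 0) (nat_lit 1466362583) (nat_lit 252) (nat_lit 8467751432) (nat_lit 84) (nat_lit 14051241505) (nat_lit 6) (nat_lit 5) (nat_lit 9) (nat_lit 5) (nat_lit 7) (nat_lit 4) (nat_lit 379) (nat_lit 268) (nat_lit 241)) (XT.lf (nat_lit 0) (nat_lit 3077263759) (nat_lit 252) (nat_lit 5464828192) (nat_lit 84) (nat_lit 16109502619) (nat_lit 6) (nat_lit 5) (nat_lit 9) (nat_lit 5) (nat_lit 7) (nat_lit 4) (nat_lit 380) (nat_lit 268) (nat_lit 240)))) (XT.nd (nat_lit 188) (nat_lit 0) (nat_lit 0) (XT.nd (nat_lit 94) (nat_lit 84) (nat_lit 0) (XT.lf (nat_lit 0) (nat_lit 4707656548) (nat_lit 252) (nat_lit 2414234721) (nat_lit 84) (nat_lit 18217675838) (nat_lit 6) (nat_lit 5) (nat_lit 9) (nat_lit 5) (nat_lit 7) (nat_lit 4) (nat_lit 381) (nat_lit 268) (nat_lit 239)) (XT.lf (nat_lit 0) (nat_lit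 700995957) (nat_lit 84) (nat_lit 5665018657) (nat_lit 168) (nat_lit 19683684208) (nat_lit 5) (nat_lit 5) (nat_lit 6) (nat_lit 5) (nat_lit 7) (nat_lit 4) (nat_lit 382) (nat_lit 268) (nat_lit 238))) (XT.nd (nat_lit 94) (nat_lit 0) (nat_lit 0) (XT.lf (nat_lit 0) (nat_lit 3920370615) (nat_lit 84) (nat_lit 4151535287) (nat_lit 168) (nat_lit 18710187044) (nat_lit 5) (nat_lit 5) (nat_lit 6) (nat_lit 5) (nat_lit 7) (nat_lit 4) (nat_lit 383) (nat_lit 268) (nat_lit 237)) (XT.lf (nat_lit 0) (nat_lit 7197248428) (nat_lit 84) (nat_lit 2605230093) (nat_lit 168) (nat_lit 17735711324) (nat_lit 5) (nat_lit 5) (nat_lit 6) (nat_lit 5) (nat_lit 7) (nat_lit 4) (nat_lit 384) (nat_lit 268) (nat_lit 236))))))))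
noncomputable def xc28 : XT := (XT.nd (nat_lit 2350) (nat_lit 0) (nat_lit 0) (XT.nd (nat_lit 1128) (nat_lit 168) (nat_lit 0) (XT.nd (nat_lit 564) (nat_lit 84) (nat_lit 0) (XT.nd (nat_lit 282) (nat_lit 0) (nat_lit 0) (XT.nd (nat_lit 94) (nat_lit 0) (nat_lit 0) (XT.lf (nat_lit 0) (nat_lit 10534683789) (nat_lit 84) (nat_lit 1024661757) (nat_lit 168) (nat_lit 16759348735) (nat_lit 5) (nat_lit 5) (nat_lit 6) (nat_lit 5) (nat_lit 7) (nat_lit 4) (nat_lit 385) (nat_lit 268) (nat_lit 235)) (XT.nd (nat_lit 94) (nat_lit 0) (nat_lit 0) (XT.lf (nat_lit 0) (nat_lit 13350013734) (nat_lit 168) (nat_lit 15194415401) (nat_lit 0) (nat_lit 579722687) (nat_lit 5) (nat_lit 5) (nat_lit 7) (nat_lit 4) (nat_lit 5) (nat_lit 4) (nat_lit 386) (nat_lit 268) (nat_lit 234)) (XT.lf (nat_lit 0) (nat_lit 15180811758) (nat_lit 168) (nat_lit 12574401954) (nat_lit 0) (nat_lit 2199955081) (nat_lit 5) (nat_lit 5) (nat_lit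 7) (nat_lit 4) (nat_lit 5) (nat_lit 4) (nat_lit 387) (nat_lit 268) (nat_lit 233)))) (XT.nd (nat_lit 94) (nat_lit 0) (nat_lit 0) (XT.lf (nat_lit 0) (nat_lit 17043281343) (nat_lit 168) (nat_lit 9911363251) (nat_lit 0) (nat_lit 3858190301) (nat_lit 5) (nat_lit 5) (nat_lit 7) (nat_lit 4) (nat_lit 5) (nat_lit 4) (nat_lit 388) (nat_lit 268) (nat_lit 232)) (XT.nd (nat_lit 94) (nat_lit 0) (nat_lit 0) (XT.lf (nat_lit 0) (nat_lit 18939158506) (nat_lit 168) (nat_lit 7202817062) (nat_lit 0) (nat_lit 5555973996) (nat_lit 5) (nat_lit 5) (nat_lit 7) (nat_lit 4) (nat_lit 5) (nat_lit 4) (nat_lit 389) (nat_lit 268) (nat_lit 231)) (XT.lf (nat_lit 0) (nat_lit 20870210401) (nat_lit 168) (nat_lit 4446238739) (nat_lit 0) (nat_lit 7294888678) (nat_lit 5) (nat_lit 5) (nat_lit 7) (nat_lit 4) (nat_lit 5) (nat_lit 4) (nat_lit 390) (nat_lit 268) (nat_lit 230))))) (XT.nd (nat_lit 282) (nat_lit 0) (nat_lit 0)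 (XT.nd (nat_lit 94) (nat_lit 84) (nat_lit 0) (XT.lf (nat_lit 0) (nat_lit 22838236974) (nat_lit 168) (nat_lit 1639058861) (nat_lit 0) (nat_lit 9076555198) (nat_lit 5) (nat_lit 5) (nat_lit 7) (nat_lit 4) (nat_lit 5) (nat_lit 4) (nat_lit 391) (nat_lit 268) (nat_lit 229)) (XT.nd (nat_lit 94) (nat_lit 0) (nat_lit 0) (XT.lf (nat_lit 0) (nat_lit 1246452394) (nat_lit 84) (nat_lit 23610985196) (nat_lit 84) (nat_lit 9668546823) (nat_lit 4) (nat_lit 4) (nat_lit 5) (nat_lit 5) (nat_lit 5) (nat_lit 4) (nat_lit 392) (nat_lit 268) (nat_lit 228)) (XT.lf (nat_lit 0) (nat_lit 4222699489) (nat_lit 84) (nat_lit 22711778160) (nat_lit 84) (nat_lit 8594018160) (nat_lit 4) (nat_lit 4) (nat_lit 5) (nat_lit 5) (nat_lit 5) (nat_lit 4) (nat_lit 393) (nat_lit 268) (nat_lit 227)))) (XT.nd (nat_lit 94) (nat_lit 0) (nat_lit 0) (XT.lf (nat_lit 0) (nat_lit 7258754186) (nat_lit 84) (nat_lit 21795944985) (nat_lit 84)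 (nat_lit 7508134909) (nat_lit 4) (nat_lit 4) (nat_lit 5) (nat_lit 5) (nat_lit 5) (nat_lit 4) (nat_lit 394) (nat_lit 268) (nat_lit 226)) (XT.nd (nat_lit 94) (nat_lit 0) (nat_lit 0) (XT.lf (nat_lit 0) (nat_lit 10357446404) (nat_lit 84) (nat_lit 20862632017) (nat_lit 84) (nat_lit 6409884914) (nat_lit 4) (nat_lit 4) (nat_lit 5) (nat_lit 5) (nat_lit 5) (nat_lit 4) (nat_lit 395) (nat_lit 268) (nat_lit 225)) (XT.lf (nat_lit 0) (nat_lit 13521664451) (nat_lit 84) (nat_lit 19910969312) (nat_lit 84) (nat_lit 5298244491) (nat_lit 4) (nat_lit 4) (nat_lit 5) (nat_lit 5) (nat_lit 5) (nat_lit 4) (nat_lit 396) (nat_lit 268) (nat_lit 224)))))) (XT.nd (nat_lit 564) (nat_lit 84) (nat_lit 0) (XT.nd (nat_lit 282) (nat_lit 84) (nat_lit 0) (XT.nd (nat_lit 94) (nat_lit 0) (nat_lit 0) (XT.lf (nat_lit 0) (nat_lit 16754357709) (nat_lit 84) (nat_lit 18940069819) (nat_lit 84) (nat_lit 4172177475) (nat_lit 4)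 (nat_lit 4) (nat_lit 5) (nat_lit 5) (nat_lit 5) (nat_lit 4) (nat_lit 397) (nat_lit 268) (nat_lit 223)) (XT.nd (nat_lit 94) (nat_lit 0) (nat_lit 0) (XT.lf (nat_lit 0) (nat_lit 20058539386) (nat_lit 84) (nat_lit 17949028561) (nat_lit 84) (nat_lit 3030634252) (nat_lit 4) (nat_lit 4) (nat_lit 5) (nat_lit 5) (nat_lit 5) (nat_lit 4) (nat_lit 398) (nat_lit 268) (nat_lit 222)) (XT.lf (nat_lit 0) (nat_lit 23437289326) (nat_lit 84) (nat_lit 16936921780) (nat_lit 84) (nat_lit 1872550786) (nat_lit 4) (nat_lit 4) (nat_lit 5) (nat_lit 5) (nat_lit 5) (nat_lit 4) (nat_lit 399) (nat_lit 268) (nat_lit 221)))) (XT.nd (nat_lit 94) (nat_lit 84) (nat_lit 0) (XT.lf (nat_lit 0) (nat_lit 26893756878) (nat_lit 84) (nat_lit 15902806090) (nat_lit 84) (nat_lit 696847620) (nat_lit 4) (nat_lit 4) (nat_lit 5) (nat_lit 5) (nat_lit 5) (nat_lit 4) (nat_lit 400) (nat_lit 268) (nat_lit 220)) (XT.nd (nat_lit 94) (nat_lit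 0) (nat_lit 0) (XT.lf (nat_lit 0) (nat_lit 487546172) (nat_lit 168) (nat_lit 14353082429) (nat_lit 84) (nat_lit 29938528677) (nat_lit 3) (nat_lit 5) (nat_lit 5) (nat_lit 5) (nat_lit 4) (nat_lit 4) (nat_lit 401) (nat_lit 268) (nat_lit 219)) (XT.lf (nat_lit 0) (nat_lit 1677329432) (nat_lit 168) (nat_lit 12069833635) (nat_lit 84) (nat_lit 32357970109) (nat_lit 3) (nat_lit 5) (nat_lit 5) (nat_lit 5) (nat_lit 4) (nat_lit 4) (nat_lit 402) (nat_lit 268) (nat_lit 218))))) (XT.nd (nat_lit 282) (nat_lit 84) (nat_lit 0) (XT.nd (nat_lit 94) (nat_lit 0) (nat_lit 0) (XT.lf (nat_lit 0) (nat_lit 2887651087) (nat_lit 168) (nat_lit 9740866286) (nat_lit 84) (nat_lit 34844271154) (nat_lit 3) (nat_lit 5) (nat_lit 5) (nat_lit 5) (nat_lit 4) (nat_lit 4) (nat_lit 403) (nat_lit 268) (nat_lit 217)) (XT.nd (nat_lit 94) (nat_lit 0) (nat_lit 0) (XT.lf (nat_lit 0) (nat_lit 4119639284) (nat_lit 168) (nat_lit 7364009540)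 (nat_lit 84) (nat_lit 37399749305) (nat_lit 3) (nat_lit 5) (nat_lit 5) (nat_lit 5) (nat_lit 4) (nat_lit 4) (nat_lit 404) (nat_lit 268) (nat_lit 216)) (XT.lf (nat_lit 0) (nat_lit 5374442365) (nat_lit 168) (nat_lit 4937047919) (nat_lit 84) (nat_lit 40026786535) (nat_lit 3) (nat_lit 5) (nat_lit 5) (nat_lit 5) (nat_lit 4) (nat_lit 4) (nat_lit 405) (nat_lit 268) (nat_lit 215)))) (XT.nd (nat_lit 188) (nat_lit 0) (nat_lit 0) (XT.nd (nat_lit 94) (nat_lit 84) (nat_lit 0) (XT.lf (nat_lit 0) (nat_lit 6653229938) (nat_lit 168) (nat_lit 2457719239) (nat_lit 84) (nat_lit 42727831517) (nat_lit 3) (nat_lit 5) (nat_lit 5) (nat_lit 5) (nat_lit 4) (nat_lit 4) (nat_lit 406) (nat_lit 268) (nat_lit 214)) (XT.lf (nat_lit 0) (nat_lit 77856119) (nat_lit 84) (nat_lit 7880110189) (nat_lit 168) (nat_lit 45428318133) (nat_lit 2) (nat_lit 5) (nat_lit 3) (nat_lit 5) (nat_lit 4) (nat_lit 4) (nat_lit 407) (nat_lit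 268) (nat_lit 213))) (XT.nd (nat_lit 94) (nat_lit 0) (nat_lit 0) (XT.lf (nat_lit 0) (nat_lit 2722180098) (nat_lit 84) (nat_lit 6592374147) (nat_lit 168) (nat_lit 45666910964) (nat_lit 2) (nat_lit 5) (nat_lit 3) (nat_lit 5) (nat_lit 4) (nat_lit 4) (nat_lit 408) (nat_lit 268) (nat_lit 212)) (XT.lf (nat_lit 0) (nat_lit 5427181736) (nat_lit 84) (nat_lit 5272194294) (nat_lit 168) (nat_lit 45927205192) (nat_lit 2) (nat_lit 5) (nat_lit 3) (nat_lit 5) (nat_lit 4) (nat_lit 4) (nat_lit 409) (nat_lit 268) (nat_lit 211))))))) (XT.nd (nat_lit 1222) (nat_lit 0) (nat_lit 0) (XT.nd (nat_lit 564) (nat_lit 0) (nat_lit 0) (XT.nd (nat_lit 282) (nat_lit 0) (nat_lit 0) (XT.nd (nat_lit 94) (nat_lit 0) (nat_lit 0) (XT.lf (nat_lit 0) (nat_lit 8195382377) (nat_lit 84) (nat_lit 3918340084) (nat_lit 168) (nat_lit 46209443438) (nat_lit 2) (nat_lit 5) (nat_lit 3) (nat_lit 5) (nat_lit 4) (nat_lit 4) (nat_lit 410)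 (nat_lit 268) (nat_lit 210)) (XT.nd (nat_lit 94) (nat_lit 0) (nat_lit 0) (XT.lf (nat_lit 0) (nat_lit 11029362274) (nat_lit 84) (nat_lit 2529549584) (nat_lit 168) (nat_lit 46513888779) (nat_lit 2) (nat_lit 5) (nat_lit 3) (nat_lit 5) (nat_lit 4) (nat_lit 4) (nat_lit 411) (nat_lit 268) (nat_lit 209)) (XT.lf (nat_lit 0) (nat_lit 13931762995) (nat_lit 84) (nat_lit 1104528294) (nat_lit 168) (nat_lit 46840824989) (nat_lit 2) (nat_lit 5) (nat_lit 3) (nat_lit 5) (nat_lit 4) (nat_lit 4) (nat_lit 412) (nat_lit 268) (nat_lit 208)))) (XT.nd (nat_lit 94) (nat_lit 0) (nat_lit 0) (XT.lf (nat_lit 0) (nat_lit 16550789747) (nat_lit 168) (nat_lit 46836056675) (nat_lit 0) (nat_lit 350838101) (nat_lit 2) (nat_lit 5) (nat_lit 4) (nat_lit 4) (nat_lit 2) (nat_lit 4) (nat_lit 413) (nat_lit 268) (nat_lit 207)) (XT.nd (nat_lit 94) (nat_lit 0) (nat_lit 0) (XT.lf (nat_lit 0) (nat_lit 18111606844) (nat_lit 168)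 (nat_lit 45722302497) (nat_lit 0) (nat_lit 1822088851) (nat_lit 2) (nat_lit 5) (nat_lit 4) (nat_lit 4) (nat_lit 2) (nat_lit 4) (nat_lit 414) (nat_lit 268) (nat_lit 206)) (XT.lf (nat_lit 0) (nat_lit 19709240366) (nat_lit 168) (nat_lit 44592095556) (nat_lit 0) (nat_lit 3332849099) (nat_lit 2) (nat_lit 5) (nat_lit 4) (nat_lit 4) (nat_lit 2) (nat_lit 4) (nat_lit 415) (nat_lit 268) (nat_lit 205))))) (XT.nd (nat_lit 282) (nat_lit 0) (nat_lit 0) (XT.nd (nat_lit 94) (nat_lit 0) (nat_lit 0) (XT.lf (nat_lit 0) (nat_lit 21345179476) (nat_lit 168) (nat_lit 43444382381) (nat_lit 0) (nat_lit 4884527031) (nat_lit 2) (nat_lit 5) (nat_lit 4) (nat_lit 4) (nat_lit 2) (nat_lit 4) (nat_lit 416) (nat_lit 268) (nat_lit 204)) (XT.nd (nat_lit 94) (nat_lit 0) (nat_lit 0) (XT.lf (nat_lit 0) (nat_lit 23020949041) (nat_lit 168) (nat_lit 42278093184) (nat_lit 0) (nat_lit 6478568974) (nat_lit 2) (nat_lit 5) (nat_lit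 4) (nat_lit 4) (nat_lit 2) (nat_lit 4) (nat_lit 417) (nat_lit 268) (nat_lit 203)) (XT.lf (nat_lit 0) (nat_lit 24738111052) (nat_lit 168) (nat_lit 41092140860) (nat_lit 0) (nat_lit 8116460742) (nat_lit 2) (nat_lit 5) (nat_lit 4) (nat_lit 4) (nat_lit 2) (nat_lit 4) (nat_lit 418) (nat_lit 268) (nat_lit 202)))) (XT.nd (nat_lit 188) (nat_lit 0) (nat_lit 0) (XT.nd (nat_lit 94) (nat_lit 0) (nat_lit 0) (XT.lf (nat_lit 0) (nat_lit 26498266086) (nat_lit 168) (nat_lit 39885419977) (nat_lit 0) (nat_lit 9799729021) (nat_lit 2) (nat_lit 5) (nat_lit 4) (nat_lit 4) (nat_lit 2) (nat_lit 4) (nat_lit 419) (nat_lit 268) (nat_lit 201)) (XT.lf (nat_lit 0) (nat_lit 28303054791) (nat_lit 168) (nat_lit 38656805747) (nat_lit 0) (nat_lit 11529942794) (nat_lit 2) (nat_lit 5) (nat_lit 4) (nat_lit 4) (nat_lit 2) (nat_lit 4) (nat_lit 420) (nat_lit 268) (nat_lit 200))) (XT.nd (nat_lit 94) (nat_lit 0) (nat_lit 0)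 (XT.lf (nat_lit 0) (nat_lit 30154159419) (nat_lit 168) (nat_lit 37405152970) (nat_lit 0) (nat_lit 13308714801) (nat_lit 2) (nat_lit 5) (nat_lit 4) (nat_lit 4) (nat_lit 2) (nat_lit 4) (nat_lit 421) (nat_lit 268) (nat_lit 199)) (XT.lf (nat_lit 0) (nat_lit 32053305393) (nat_lit 168) (nat_lit 36129294976) (nat_lit 0) (nat_lit 15137703045) (nat_lit 2) (nat_lit 5) (nat_lit 4) (nat_lit 4) (nat_lit 2) (nat_lit 4) (nat_lit 422) (nat_lit 268) (nat_lit 198)))))) (XT.nd (nat_lit 48880) (nat_lit 0) (nat_lit 1344) (XT.nd (nat_lit 282) (nat_lit 0) (nat_lit 0) (XT.nd (nat_lit 94) (nat_lit 0) (nat_lit 0) (XT.lf (nat_lit 0) (nat_lit 34002262917) (nat_lit 168) (nat_lit 34828042532) (nat_lit 0) (nat_lit 17018612333) (nat_lit 2) (nat_lit 5) (nat_lit 4) (nat_lit 4) (nat_lit 2) (nat_lit 4) (nat_lit 423) (nat_lit 268) (nat_lit 197)) (XT.nd (nat_lit 94) (nat_lit 0) (nat_lit 0) (XT.lf (nat_lit 0) (nat_lit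 36002848623) (nat_lit 168) (nat_lit 33500182734) (nat_lit 0) (nat_lit 18953195871) (nat_lit 2) (nat_lit 5) (nat_lit 4) (nat_lit 4) (nat_lit 2) (nat_lit 4) (nat_lit 424) (nat_lit 268) (nat_lit 196)) (XT.lf (nat_lit 0) (nat_lit 38056927267) (nat_lit 168) (nat_lit 32144477877) (nat_lit 0) (nat_lit 20943256892) (nat_lit 2) (nat_lit 5) (nat_lit 4) (nat_lit 4) (nat_lit 2) (nat_lit 4) (nat_lit 425) (nat_lit 268) (nat_lit 195)))) (XT.nd (nat_lit 94) (nat_lit 0) (nat_lit 0) (XT.lf (nat_lit 0) (nat_lit 40166413464) (nat_lit 168) (nat_lit 30759664303) (nat_lit 0) (nat_lit 22990650342) (nat_lit 2) (nat_lit 5) (nat_lit 4) (nat_lit 4) (nat_lit 2) (nat_lit 4) (nat_lit 426) (nat_lit 268) (nat_lit 194)) (XT.nd (nat_lit 94) (nat_lit 0) (nat_lit 0) (XT.lf (nat_lit 0) (nat_lit 42333273478) (nat_lit 168) (nat_lit 29344451220) (nat_lit 0) (nat_lit 25097284607) (nat_lit 2) (nat_lit 5) (nat_lit 4) (nat_lit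 4) (nat_lit 2) (nat_lit 4) (nat_lit 427) (nat_lit 268) (nat_lit 193)) (XT.lf (nat_lit 0) (nat_lit 44559527048) (nat_lit 168) (nat_lit 27897519501) (nat_lit 0) (nat_lit 27265123290) (nat_lit 2) (nat_lit 5) (nat_lit 4) (nat_lit 4) (nat_lit 2) (nat_lit 4) (nat_lit 428) (nat_lit 268) (nat_lit 192))))) (XT.nd (nat_lit 282) (nat_lit 252) (nat_lit 0) (XT.nd (nat_lit 94) (nat_lit 252) (nat_lit 0) (XT.lf (nat_lit 0) (nat_lit 2857609812) (nat_lit 336) (nat_lit 151797804) (nat_lit 0) (nat_lit 2857609812) (nat_lit 24) (nat_lit 5) (nat_lit 28) (nat_lit 4) (nat_lit 24) (nat_lit 4) (nat_lit 350) (nat_lit 269) (nat_lit 269)) (XT.nd (nat_lit 94) (nat_lit 0) (nat_lit 0) (XT.lf (nat_lit 0) (nat_lit 3797421879) (nat_lit 252) (nat_lit 4439989698) (nat_lit 252) (nat_lit 3747400951) (nat_lit 21) (nat_lit 4) (nat_lit 24) (nat_lit 5) (nat_lit 24) (nat_lit 4) (nat_lit 351) (nat_lit 269) (nat_lit 268)) (XT.lf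 (nat_lit 0) (nat_lit 7949901070) (nat_lit 252) (nat_lit 2829986482) (nat_lit 252) (nat_lit 1465633675) (nat_lit 21) (nat_lit 4) (nat_lit 24) (nat_lit 5) (nat_lit 24) (nat_lit 4) (nat_lit 352) (nat_lit 269) (nat_lit 267)))) (XT.nd (nat_lit 188) (nat_lit 0) (nat_lit 0) (XT.nd (nat_lit 94) (nat_lit 168) (nat_lit 0) (XT.lf (nat_lit 0) (nat_lit 808813659) (nat_lit 336) (nat_lit 373217794) (nat_lit 84) (nat_lit 11334213949) (nat_lit 20) (nat_lit 5) (nat_lit 24) (nat_lit 5) (nat_lit 21) (nat_lit 4) (nat_lit 353) (nat_lit 269) (nat_lit 266)) (XT.lf (nat_lit 0) (nat_lit 3106611809) (nat_lit 252) (nat_lit 9150798130) (nat_lit 0) (nat_lit 538335707) (nat_lit 18) (nat_lit 5) (nat_lit 21) (nat_lit 4) (nat_lit 18) (nat_lit 4) (nat_lit 354) (nat_lit 269) (nat_lit 265))) (XT.nd (nat_lit 94) (nat_lit 0) (nat_lit 0) (XT.lf (nat_lit 0) (nat_lit 5434067514) (nat_lit 252) (nat_lit 5380201973) (nat_lit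 0) (nat_lit 2271250008) (nat_lit 18) (nat_lit 5) (nat_lit 21) (nat_lit 4) (nat_lit 18) (nat_lit 4) (nat_lit 355) (nat_lit 269) (nat_lit 264)) (XT.lf (nat_lit 0) (nat_lit 7777807167) (nat_lit 252) (nat_lit 1570186849) (nat_lit 0) (nat_lit 4038324866) (nat_lit 18) (nat_lit 5) (nat_lit 21) (nat_lit 4) (nat_lit 18) (nat_lit 4) (nat_lit 356) (nat_lit 269) (nat_lit 263))))))))
noncomputable def xc29 : XT := (XT.nd (nat_lit 2350) (nat_lit 252) (nat_lit 0) (XT.nd (nat_lit 1128) (nat_lit 336) (nat_lit 0) (XT.nd (nat_lit 564) (nat_lit 252) (nat_lit 0) (XT.nd (nat_lit 282) (nat_lit 168) (nat_lit 0) (XT.nd (nat_lit 94) (nat_lit 84) (nat_lit 0) (XT.lf (nat_lit 0) (nat_lit 2329737595) (nat_lit 168) (nat_lit 7833389070) (nat_lit 168) (nat_lit 3534581071) (nat_lit 16) (nat_lit 4) (nat_lit 18) (nat_lit 5) (nat_lit 18) (nat_lit 4) (nat_lit 357) (nat_lit 269) (nat_lit 262)) (XT.nd (nat_lit 94) (nat_lit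 84) (nat_lit 0) (XT.lf (nat_lit 0) (nat_lit 6309467393) (nat_lit 168) (nat_lit 6276017282) (nat_lit 168) (nat_lit 1434701331) (nat_lit 16) (nat_lit 4) (nat_lit 18) (nat_lit 5) (nat_lit 18) (nat_lit 4) (nat_lit 358) (nat_lit 269) (nat_lit 261)) (XT.lf (nat_lit 0) (nat_lit 663061378) (nat_lit 252) (nat_lit 4020834171) (nat_lit 84) (nat_lit 9670443427) (nat_lit 15) (nat_lit 5) (nat_lit 18) (nat_lit 5) (nat_lit 16) (nat_lit 4) (nat_lit 359) (nat_lit 269) (nat_lit 260)))) (XT.nd (nat_lit 94) (nat_lit 168) (nat_lit 0) (XT.lf (nat_lit 0) (nat_lit 2745131276) (nat_lit 252) (nat_lit 302524484) (nat_lit 84) (nat_lit 11652585294) (nat_lit 15) (nat_lit 5) (nat_lit 18) (nat_lit 5) (nat_lit 16) (nat_lit 4) (nat_lit 360) (nat_lit 269) (nat_lit 259)) (XT.nd (nat_lit 94) (nat_lit 0) (nat_lit 0) (XT.lf (nat_lit 0) (nat_lit 3533092659) (nat_lit 168) (nat_lit 1344311163) (nat_lit 252) (nat_lit 10180165529)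 (nat_lit 13) (nat_lit 5) (nat_lit 15) (nat_lit 5) (nat_lit 16) (nat_lit 4) (nat_lit 361) (nat_lit 269) (nat_lit 258)) (XT.lf (nat_lit 0) (nat_lit 7034271162) (nat_lit 252) (nat_lit 8005971464) (nat_lit 0) (nat_lit 387269766) (nat_lit 13) (nat_lit 5) (nat_lit 16) (nat_lit 4) (nat_lit 13) (nat_lit 4) (nat_lit 362) (nat_lit 269) (nat_lit 257))))) (XT.nd (nat_lit 282) (nat_lit 84) (nat_lit 0) (XT.nd (nat_lit 94) (nat_lit 168) (nat_lit 0) (XT.lf (nat_lit 0) (nat_lit 9224436114) (nat_lit 252) (nat_lit 4460040890) (nat_lit 0) (nat_lit 2125730531) (nat_lit 13) (nat_lit 5) (nat_lit 16) (nat_lit 4) (nat_lit 13) (nat_lit 4) (nat_lit 363) (nat_lit 269) (nat_lit 256)) (XT.nd (nat_lit 94) (nat_lit 168) (nat_lit 0) (XT.lf (nat_lit 0) (nat_lit 11436604410) (nat_lit 252) (nat_lit 870044060) (nat_lit 0) (nat_lit 3899776433) (nat_lit 13) (nat_lit 5) (nat_lit 16) (nat_lit 4) (nat_lit 13) (nat_lit 4)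 (nat_lit 364) (nat_lit 269) (nat_lit 255)) (XT.lf (nat_lit 0) (nat_lit 2824267985) (nat_lit 168) (nat_lit 10876587124) (nat_lit 168) (nat_lit 2914810172) (nat_lit 11) (nat_lit 4) (nat_lit 13) (nat_lit 5) (nat_lit 13) (nat_lit 4) (nat_lit 365) (nat_lit 269) (nat_lit 254)))) (XT.nd (nat_lit 94) (nat_lit 84) (nat_lit 0) (XT.lf (nat_lit 0) (nat_lit 6588317491) (nat_lit 168) (nat_lit 9412260786) (nat_lit 168) (nat_lit 1038312181) (nat_lit 11) (nat_lit 4) (nat_lit 13) (nat_lit 5) (nat_lit 13) (nat_lit 4) (nat_lit 366) (nat_lit 269) (nat_lit 253)) (XT.nd (nat_lit 94) (nat_lit 0) (nat_lit 0) (XT.lf (nat_lit 0) (nat_lit 835168322) (nat_lit 252) (nat_lit 7077500261) (nat_lit 84) (nat_lit 9563837288) (nat_lit 10) (nat_lit 5) (nat_lit 13) (nat_lit 5) (nat_lit 11) (nat_lit 4) (nat_lit 367) (nat_lit 269) (nat_lit 252)) (XT.lf (nat_lit 0) (nat_lit 2703326020) (nat_lit 252) (nat_lit 3671029999)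 (nat_lit 84) (nat_lit 11554501563) (nat_lit 10) (nat_lit 5) (nat_lit 13) (nat_lit 5) (nat_lit 11) (nat_lit 4) (nat_lit 368) (nat_lit 269) (nat_lit 251)))))) (XT.nd (nat_lit 564) (nat_lit 252) (nat_lit 0) (XT.nd (nat_lit 282) (nat_lit 0) (nat_lit 0) (XT.nd (nat_lit 94) (nat_lit 84) (nat_lit 0) (XT.lf (nat_lit 0) (nat_lit 4588821906) (nat_lit 252) (nat_lit 217686807) (nat_lit 84) (nat_lit 13590177820) (nat_lit 10) (nat_lit 5) (nat_lit 13) (nat_lit 5) (nat_lit 11) (nat_lit 4) (nat_lit 369) (nat_lit 269) (nat_lit 250)) (XT.nd (nat_lit 94) (nat_lit 0) (nat_lit 0) (XT.lf (nat_lit 0) (nat_lit 3353309912) (nat_lit 84) (nat_lit 3173368798) (nat_lit 168) (nat_lit 12352718860) (nat_lit 9) (nat_lit 5) (nat_lit 10) (nat_lit 5) (nat_lit 11) (nat_lit 4) (nat_lit 370) (nat_lit 269) (nat_lit 249)) (XT.lf (nat_lit 0) (nat_lit 6983237230) (nat_lit 84) (nat_lit 1504913309) (nat_lit 168) (nat_lit 10890237206)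 (nat_lit 9) (nat_lit 5) (nat_lit 10) (nat_lit 5) (nat_lit 11) (nat_lit 4) (nat_lit 371) (nat_lit 269) (nat_lit 248)))) (XT.nd (nat_lit 94) (nat_lit 0) (nat_lit 0) (XT.lf (nat_lit 0) (nat_lit 10474827391) (nat_lit 168) (nat_lit 9225153542) (nat_lit 0) (nat_lit 194148628) (nat_lit 9) (nat_lit 5) (nat_lit 11) (nat_lit 4) (nat_lit 9) (nat_lit 4) (nat_lit 372) (nat_lit 269) (nat_lit 247)) (XT.nd (nat_lit 94) (nat_lit 0) (nat_lit 0) (XT.lf (nat_lit 0) (nat_lit 12501881536) (nat_lit 168) (nat_lit 6026462448) (nat_lit 0) (nat_lit 1898346820) (nat_lit 9) (nat_lit 5) (nat_lit 11) (nat_lit 4) (nat_lit 9) (nat_lit 4) (nat_lit 373) (nat_lit 269) (nat_lit 246)) (XT.lf (nat_lit 0) (nat_lit 14556273475) (nat_lit 168) (nat_lit 2781166794) (nat_lit 0) (nat_lit 3639590406) (nat_lit 9) (nat_lit 5) (nat_lit 11) (nat_lit 4) (nat_lit 9) (nat_lit 4) (nat_lit 374) (nat_lit 269) (nat_lit 245))))) (XT.nd (nat_lit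 282) (nat_lit 84) (nat_lit 0) (XT.nd (nat_lit 94) (nat_lit 0) (nat_lit 0) (XT.lf (nat_lit 0) (nat_lit 524322300) (nat_lit 168) (nat_lit 16120797160) (nat_lit 168) (nat_lit 4900381449) (nat_lit 7) (nat_lit 4) (nat_lit 9) (nat_lit 5) (nat_lit 9) (nat_lit 4) (nat_lit 375) (nat_lit 269) (nat_lit 244)) (XT.nd (nat_lit 94) (nat_lit 0) (nat_lit 0) (XT.lf (nat_lit 0) (nat_lit 3940782255) (nat_lit 168) (nat_lit 14853068432) (nat_lit 168) (nat_lit 3338052680) (nat_lit 7) (nat_lit 4) (nat_lit 9) (nat_lit 5) (nat_lit 9) (nat_lit 4) (nat_lit 376) (nat_lit 269) (nat_lit 243)) (XT.lf (nat_lit 0) (nat_lit 7414211075) (nat_lit 168) (nat_lit 13562102107) (nat_lit 168) (nat_lit 1761344318) (nat_lit 7) (nat_lit 4) (nat_lit 9) (nat_lit 5) (nat_lit 9) (nat_lit 4) (nat_lit 377) (nat_lit 269) (nat_lit 242)))) (XT.nd (nat_lit 188) (nat_lit 0) (nat_lit 0) (XT.nd (nat_lit 94) (nat_lit 84) (nat_lit 0) (XT.lf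 (nat_lit 0) (nat_lit 10947846360) (nat_lit 168) (nat_lit 12246694871) (nat_lit 168) (nat_lit 168786705) (nat_lit 7) (nat_lit 4) (nat_lit 9) (nat_lit 5) (nat_lit 9) (nat_lit 4) (nat_lit 378) (nat_lit 269) (nat_lit 241)) (XT.lf (nat_lit 0) (nat_lit 1412069542) (nat_lit 252) (nat_lit 9478811972) (nat_lit 84) (nat_lit 13118173174) (nat_lit 6) (nat_lit 5) (nat_lit 9) (nat_lit 5) (nat_lit 7) (nat_lit 4) (nat_lit 379) (nat_lit 269) (nat_lit 240))) (XT.nd (nat_lit 94) (nat_lit 0) (nat_lit 0) (XT.lf (nat_lit 0) (nat_lit 3007979914) (nat_lit 252) (nat_lit 6498252291) (nat_lit 84) (nat_lit 15169593328) (nat_lit 6) (nat_lit 5) (nat_lit 9) (nat_lit 5) (nat_lit 7) (nat_lit 4) (nat_lit 380) (nat_lit 269) (nat_lit 239)) (XT.lf (nat_lit 0) (nat_lit 4623832641) (nat_lit 252) (nat_lit 3469349955) (nat_lit 84) (nat_lit 17271131280) (nat_lit 6) (nat_lit 5) (nat_lit 9) (nat_lit 5) (nat_lit 7) (nat_lit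 4) (nat_lit 381) (nat_lit 269) (nat_lit 238))))))) (XT.nd (nat_lit 1222) (nat_lit 84) (nat_lit 0) (XT.nd (nat_lit 564) (nat_lit 84) (nat_lit 0) (XT.nd (nat_lit 282) (nat_lit 0) (nat_lit 0) (XT.nd (nat_lit 94) (nat_lit 84) (nat_lit 0) (XT.lf (nat_lit 0) (nat_lit 6261133868) (nat_lit 252) (nat_lit 389281710) (nat_lit 84) (nat_lit 19424745884) (nat_lit 6) (nat_lit 5) (nat_lit 9) (nat_lit 5) (nat_lit 7) (nat_lit 4) (nat_lit 382) (nat_lit 269) (nat_lit 237)) (XT.nd (nat_lit 94) (nat_lit 0) (nat_lit 0) (XT.lf (nat_lit 0) (nat_lit 2801262588) (nat_lit 84) (nat_lit 5147936014) (nat_lit 168) (nat_lit 18858970816) (nat_lit 5) (nat_lit 5) (nat_lit 6) (nat_lit 5) (nat_lit 7) (nat_lit 4) (nat_lit 383) (nat_lit 269) (nat_lit 236)) (XT.lf (nat_lit 0) (nat_lit 6057940665) (nat_lit 84) (nat_lit 3608362636) (nat_lit 168) (nat_lit 17898439891) (nat_lit 5) (nat_lit 5) (nat_lit 6) (nat_lit 5) (nat_lit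 7) (nat_lit 4) (nat_lit 384) (nat_lit 269) (nat_lit 235)))) (XT.nd (nat_lit 94) (nat_lit 0) (nat_lit 0) (XT.lf (nat_lit 0) (nat_lit 9375783653) (nat_lit 84) (nat_lit 2034323706) (nat_lit 168) (nat_lit 16935602806) (nat_lit 5) (nat_lit 5) (nat_lit 6) (nat_lit 5) (nat_lit 7) (nat_lit 4) (nat_lit 385) (nat_lit 269) (nat_lit 234)) (XT.nd (nat_lit 94) (nat_lit 0) (nat_lit 0) (XT.lf (nat_lit 0) (nat_lit 12757884131) (nat_lit 84) (nat_lit 424352052) (nat_lit 168) (nat_lit 15969562097) (nat_lit 5) (nat_lit 5) (nat_lit 6) (nat_lit 5) (nat_lit 7) (nat_lit 4) (nat_lit 386) (nat_lit 269) (nat_lit 233)) (XT.lf (nat_lit 0) (nat_lit 14996474422) (nat_lit 168) (nat_lit 13788497164) (nat_lit 0) (nat_lit 1198411193) (nat_lit 5) (nat_lit 5) (nat_lit 7) (nat_lit 4) (nat_lit 5) (nat_lit 4) (nat_lit 387) (nat_lit 269) (nat_lit 232))))) (XT.nd (nat_lit 282) (nat_lit 84) (nat_lit 0) (XT.nd (nat_lit 94)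 (nat_lit 0) (nat_lit 0) (XT.lf (nat_lit 0) (nat_lit 16846965189) (nat_lit 168) (nat_lit 11143699088) (nat_lit 0) (nat_lit 2850808492) (nat_lit 5) (nat_lit 5) (nat_lit 7) (nat_lit 4) (nat_lit 5) (nat_lit 4) (nat_lit 388) (nat_lit 269) (nat_lit 231)) (XT.nd (nat_lit 94) (nat_lit 0) (nat_lit 0) (XT.lf (nat_lit 0) (nat_lit 18731223711) (nat_lit 168) (nat_lit 8452845070) (nat_lit 0) (nat_lit 4542929800) (nat_lit 5) (nat_lit 5) (nat_lit 7) (nat_lit 4) (nat_lit 5) (nat_lit 4) (nat_lit 389) (nat_lit 269) (nat_lit 230)) (XT.lf (nat_lit 0) (nat_lit 20651006314) (nat_lit 168) (nat_lit 5713426950) (nat_lit 0) (nat_lit 6276352352) (nat_lit 5) (nat_lit 5) (nat_lit 7) (nat_lit 4) (nat_lit 5) (nat_lit 4) (nat_lit 390) (nat_lit 269) (nat_lit 229)))) (XT.nd (nat_lit 188) (nat_lit 84) (nat_lit 0) (XT.nd (nat_lit 94) (nat_lit 0) (nat_lit 0) (XT.lf (nat_lit 0) (nat_lit 22608102438) (nat_lit 168) (nat_lit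 2922891304) (nat_lit 0) (nat_lit 8052691878) (nat_lit 5) (nat_lit 5) (nat_lit 7) (nat_lit 4) (nat_lit 5) (nat_lit 4) (nat_lit 391) (nat_lit 269) (nat_lit 228)) (XT.lf (nat_lit 0) (nat_lit 24604336301) (nat_lit 168) (nat_lit 78637062) (nat_lit 0) (nat_lit 9873604113) (nat_lit 5) (nat_lit 5) (nat_lit 7) (nat_lit 4) (nat_lit 5) (nat_lit 4) (nat_lit 392) (nat_lit 269) (nat_lit 227))) (XT.nd (nat_lit 94) (nat_lit 0) (nat_lit 0) (XT.lf (nat_lit 0) (nat_lit 2880012759) (nat_lit 84) (nat_lit 23790125924) (nat_lit 84) (nat_lit 8889343662) (nat_lit 4) (nat_lit 4) (nat_lit 5) (nat_lit 5) (nat_lit 5) (nat_lit 4) (nat_lit 393) (nat_lit 269) (nat_lit 226)) (XT.lf (nat_lit 0) (nat_lit 5900567616) (nat_lit 84) (nat_lit 22879664997) (nat_lit 84) (nat_lit 7813945707) (nat_lit 4) (nat_lit 4) (nat_lit 5) (nat_lit 5) (nat_lit 5) (nat_lit 4) (nat_lit 394) (nat_lit 269) (nat_lit 225)))))) (XT.nd (nat_lit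 564) (nat_lit 84) (nat_lit 0) (XT.nd (nat_lit 282) (nat_lit 0) (nat_lit 0) (XT.nd (nat_lit 94) (nat_lit 0) (nat_lit 0) (XT.lf (nat_lit 0) (nat_lit 8984226044) (nat_lit 84) (nat_lit 21951562745) (nat_lit 84) (nat_lit 6725865738) (nat_lit 4) (nat_lit 4) (nat_lit 5) (nat_lit 5) (nat_lit 5) (nat_lit 4) (nat_lit 395) (nat_lit 269) (nat_lit 224)) (XT.nd (nat_lit 94) (nat_lit 0) (nat_lit 0) (XT.lf (nat_lit 0) (nat_lit 12133862333) (nat_lit 84) (nat_lit 21004954081) (nat_lit 84) (nat_lit 5624089549) (nat_lit 4) (nat_lit 4) (nat_lit 5) (nat_lit 5) (nat_lit 5) (nat_lit 4) (nat_lit 396) (nat_lit 269) (nat_lit 223)) (XT.lf (nat_lit 0) (nat_lit 15352412277) (nat_lit 84) (nat_lit 20038956665) (nat_lit 84) (nat_lit 4507590170) (nat_lit 4) (nat_lit 4) (nat_lit 5) (nat_lit 5) (nat_lit 5) (nat_lit 4) (nat_lit 397) (nat_lit 269) (nat_lit 222)))) (XT.nd (nat_lit 94) (nat_lit 0) (nat_lit 0) (XT.lf (nat_lit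 0) (nat_lit 18642875899) (nat_lit 84) (nat_lit 19052670088) (nat_lit 84) (nat_lit 3375326906) (nat_lit 4) (nat_lit 4) (nat_lit 5) (nat_lit 5) (nat_lit 5) (nat_lit 4) (nat_lit 398) (nat_lit 269) (nat_lit 221)) (XT.nd (nat_lit 94) (nat_lit 0) (nat_lit 0) (XT.lf (nat_lit 0) (nat_lit 22008320258) (nat_lit 84) (nat_lit 18045175026) (nat_lit 84) (nat_lit 2226244369) (nat_lit 4) (nat_lit 4) (nat_lit 5) (nat_lit 5) (nat_lit 5) (nat_lit 4) (nat_lit 399) (nat_lit 269) (nat_lit 220)) (XT.lf (nat_lit 0) (nat_lit 25451882299) (nat_lit 84) (nat_lit 17015532389) (nat_lit 84) (nat_lit 1059271495) (nat_lit 4) (nat_lit 4) (nat_lit 5) (nat_lit 5) (nat_lit 5) (nat_lit 4) (nat_lit 400) (nat_lit 269) (nat_lit 219))))) (XT.nd (nat_lit 282) (nat_lit 0) (nat_lit 0) (XT.nd (nat_lit 94) (nat_lit 0) (nat_lit 0) (XT.lf (nat_lit 0) (nat_lit 124127149) (nat_lit 168) (nat_lit 15837359659) (nat_lit 84) (nat_lit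 28851349001) (nat_lit 3) (nat_lit 5) (nat_lit 5) (nat_lit 5) (nat_lit 4) (nat_lit 4) (nat_lit 401) (nat_lit 269) (nat_lit 218)) (XT.nd (nat_lit 94) (nat_lit 0) (nat_lit 0) (XT.lf (nat_lit 0) (nat_lit 1305862705) (nat_lit 168) (nat_lit 13566450676) (nat_lit 84) (nat_lit 31266781043) (nat_lit 3) (nat_lit 5) (nat_lit 5) (nat_lit 5) (nat_lit 4) (nat_lit 4) (nat_lit 402) (nat_lit 269) (nat_lit 217)) (XT.lf (nat_lit 0) (nat_lit 2508378635) (nat_lit 168) (nat_lit 11249452107) (nat_lit 84) (nat_lit 33749193252) (nat_lit 3) (nat_lit 5) (nat_lit 5) (nat_lit 5) (nat_lit 4) (nat_lit 4) (nat_lit 403) (nat_lit 269) (nat_lit 216)))) (XT.nd (nat_lit 188) (nat_lit 0) (nat_lit 0) (XT.nd (nat_lit 94) (nat_lit 0) (nat_lit 0) (XT.lf (nat_lit 0) (nat_lit 3732795807) (nat_lit 168) (nat_lit 8884204265) (nat_lit 84) (nat_lit 36300899495) (nat_lit 3) (nat_lit 5) (nat_lit 5) (nat_lit 5) (nat_lit 4) (nat_lit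 4) (nat_lit 404) (nat_lit 269) (nat_lit 215)) (XT.lf (nat_lit 0) (nat_lit 4980255509) (nat_lit 168) (nat_lit 6468502492) (nat_lit 84) (nat_lit 38924278231) (nat_lit 3) (nat_lit 5) (nat_lit 5) (nat_lit 5) (nat_lit 4) (nat_lit 4) (nat_lit 405) (nat_lit 269) (nat_lit 214))) (XT.nd (nat_lit 94) (nat_lit 0) (nat_lit 0) (XT.lf (nat_lit 0) (nat_lit 6251920502) (nat_lit 168) (nat_lit 4000095101) (nat_lit 84) (nat_lit 41621774723) (nat_lit 3) (nat_lit 5) (nat_lit 5) (nat_lit 5) (nat_lit 4) (nat_lit 4) (nat_lit 406) (nat_lit 269) (nat_lit 213)) (XT.lf (nat_lit 0) (nat_lit 7548976112) (nat_lit 168) (nat_lit 1476681277) (nat_lit 84) (nat_lit 44395903320) (nat_lit 3) (nat_lit 5) (nat_lit 5) (nat_lit 5) (nat_lit 4) (nat_lit 4) (nat_lit 407) (nat_lit 269) (nat_lit 212))))))))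
noncomputable def xc30 : XT := (XT.nd (nat_lit 50478) (nat_lit 0) (nat_lit 420) (XT.nd (nat_lit 1128) (nat_lit 0) (nat_lit 0) (XT.nd (nat_lit 564) (nat_lit 0) (nat_lit 0) (XT.nd (nat_lit 282) (nat_lit 0) (nat_lit 0) (XT.nd (nat_lit 94) (nat_lit 0) (nat_lit 0) (XT.lf (nat_lit 0) (nat_lit 1126793441) (nat_lit 84) (nat_lit 7757015820) (nat_lit 168) (nat_lit 46133634290) (nat_lit 2) (nat_lit 5) (nat_lit 3) (nat_lit 5) (nat_lit 4) (nat_lit 4) (nat_lit 408) (nat_lit 269) (nat_lit 211)) (XT.nd (nat_lit 94) (nat_lit 0) (nat_lit 0) (XT.lf (nat_lit 0) (nat_lit 3821624696) (nat_lit 84) (nat_lit 6440406237) (nat_lit 168) (nat_lit 46400760078) (nat_lit 2) (nat_lit 5) (nat_lit 3) (nat_lit 5) (nat_lit 4) (nat_lit 4) (nat_lit 409) (nat_lit 269) (nat_lit 210)) (XT.lf (nat_lit 0) (nat_lit 6579960756) (nat_lit 84) (nat_lit 5090014947) (nat_lit 168) (nat_lit 46689624473) (nat_lit 2) (nat_lit 5) (nat_lit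 3) (nat_lit 5) (nat_lit 4) (nat_lit 4) (nat_lit 410) (nat_lit 269) (nat_lit 209)))) (XT.nd (nat_lit 94) (nat_lit 0) (nat_lit 0) (XT.lf (nat_lit 0) (nat_lit 9404372680) (nat_lit 84) (nat_lit 3704583243) (nat_lit 168) (nat_lit 47000496729) (nat_lit 2) (nat_lit 5) (nat_lit 3) (nat_lit 5) (nat_lit 4) (nat_lit 4) (nat_lit 411) (nat_lit 269) (nat_lit 208)) (XT.nd (nat_lit 94) (nat_lit 0) (nat_lit 0) (XT.lf (nat_lit 0) (nat_lit 12297493116) (nat_lit 84) (nat_lit 2282819759) (nat_lit 168) (nat_lit 47333666609) (nat_lit 2) (nat_lit 5) (nat_lit 3) (nat_lit 5) (nat_lit 4) (nat_lit 4) (nat_lit 412) (nat_lit 269) (nat_lit 207)) (XT.lf (nat_lit 0) (nat_lit 15262018754) (nat_lit 84) (nat_lit 823399262) (nat_lit 168) (nat_lit 47689444665) (nat_lit 2) (nat_lit 5) (nat_lit 3) (nat_lit 5) (nat_lit 4) (nat_lit 4) (nat_lit 413) (nat_lit 269) (nat_lit 206))))) (XT.nd (nat_lit 282) (nat_lit 0) (nat_lit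 0) (XT.nd (nat_lit 94) (nat_lit 0) (nat_lit 0) (XT.lf (nat_lit 0) (nat_lit 17632370728) (nat_lit 168) (nat_lit 47399820402) (nat_lit 0) (nat_lit 661438058) (nat_lit 2) (nat_lit 5) (nat_lit 4) (nat_lit 4) (nat_lit 2) (nat_lit 4) (nat_lit 414) (nat_lit 269) (nat_lit 205)) (XT.nd (nat_lit 94) (nat_lit 0) (nat_lit 0) (XT.lf (nat_lit 0) (nat_lit 19224479361) (nat_lit 168) (nat_lit 46278244766) (nat_lit 0) (nat_lit 2169285512) (nat_lit 2) (nat_lit 5) (nat_lit 4) (nat_lit 4) (nat_lit 2) (nat_lit 4) (nat_lit 415) (nat_lit 269) (nat_lit 204)) (XT.lf (nat_lit 0) (nat_lit 20855059703) (nat_lit 168) (nat_lit 45138903372) (nat_lit 0) (nat_lit 3718138233) (nat_lit 2) (nat_lit 5) (nat_lit 4) (nat_lit 4) (nat_lit 2) (nat_lit 4) (nat_lit 416) (nat_lit 269) (nat_lit 203)))) (XT.nd (nat_lit 94) (nat_lit 0) (nat_lit 0) (XT.lf (nat_lit 0) (nat_lit 22525631626) (nat_lit 168) (nat_lit 43980734233) (nat_lit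 0) (nat_lit 5309439912) (nat_lit 2) (nat_lit 5) (nat_lit 4) (nat_lit 4) (nat_lit 2) (nat_lit 4) (nat_lit 417) (nat_lit 269) (nat_lit 202)) (XT.nd (nat_lit 94) (nat_lit 0) (nat_lit 0) (XT.lf (nat_lit 0) (nat_lit 24237752279) (nat_lit 168) (nat_lit 42802657814) (nat_lit 0) (nat_lit 6944673810) (nat_lit 2) (nat_lit 5) (nat_lit 4) (nat_lit 4) (nat_lit 2) (nat_lit 4) (nat_lit 418) (nat_lit 269) (nat_lit 201)) (XT.lf (nat_lit 0) (nat_lit 25993017537) (nat_lit 168) (nat_lit 41603576025) (nat_lit 0) (nat_lit 8625364136) (nat_lit 2) (nat_lit 5) (nat_lit 4) (nat_lit 4) (nat_lit 2) (nat_lit 4) (nat_lit 419) (nat_lit 269) (nat_lit 200)))))) (XT.nd (nat_lit 564) (nat_lit 0) (nat_lit 0) (XT.nd (nat_lit 282) (nat_lit 0) (nat_lit 0) (XT.nd (nat_lit 94) (nat_lit 0) (nat_lit 0) (XT.lf (nat_lit 0) (nat_lit 27793063491) (nat_lit 168) (nat_lit 40382371196) (nat_lit 0) (nat_lit 10353077469) (nat_lit 2)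 (nat_lit 5) (nat_lit 4) (nat_lit 4) (nat_lit 2) (nat_lit 4) (nat_lit 420) (nat_lit 269) (nat_lit 199)) (XT.nd (nat_lit 94) (nat_lit 0) (nat_lit 0) (XT.lf (nat_lit 0) (nat_lit 29639567972) (nat_lit 168) (nat_lit 39137905037) (nat_lit 0) (nat_lit 12129424220) (nat_lit 2) (nat_lit 5) (nat_lit 4) (nat_lit 4) (nat_lit 2) (nat_lit 4) (nat_lit 421) (nat_lit 269) (nat_lit 198)) (XT.lf (nat_lit 0) (nat_lit 31534252117) (nat_lit 168) (nat_lit 37869017574) (nat_lit 0) (nat_lit 13956060129) (nat_lit 2) (nat_lit 5) (nat_lit 4) (nat_lit 4) (nat_lit 2) (nat_lit 4) (nat_lit 422) (nat_lit 269) (nat_lit 197)))) (XT.nd (nat_lit 94) (nat_lit 0) (nat_lit 0) (XT.lf (nat_lit 0) (nat_lit 33478881969) (nat_lit 168) (nat_lit 36574526071) (nat_lit 0) (nat_lit 15834687813) (nat_lit 2) (nat_lit 5) (nat_lit 4) (nat_lit 4) (nat_lit 2) (nat_lit 4) (nat_lit 423) (nat_lit 269) (nat_lit 196)) (XT.nd (nat_lit 94) (nat_lit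 0) (nat_lit 0) (XT.lf (nat_lit 0) (nat_lit 35475270128) (nat_lit 168) (nat_lit 35253223926) (nat_lit 0) (nat_lit 17767058349) (nat_lit 2) (nat_lit 5) (nat_lit 4) (nat_lit 4) (nat_lit 2) (nat_lit 4) (nat_lit 424) (nat_lit 269) (nat_lit 195)) (XT.lf (nat_lit 0) (nat_lit 37525277435) (nat_lit 168) (nat_lit 33903879549) (nat_lit 0) (nat_lit 19754972910) (nat_lit 2) (nat_lit 5) (nat_lit 4) (nat_lit 4) (nat_lit 2) (nat_lit 4) (nat_lit 425) (nat_lit 269) (nat_lit 194))))) (XT.nd (nat_lit 48410) (nat_lit 0) (nat_lit 1596) (XT.nd (nat_lit 94) (nat_lit 0) (nat_lit 0) (XT.lf (nat_lit 0) (nat_lit 39630814713) (nat_lit 168) (nat_lit 32525235207) (nat_lit 0) (nat_lit 21800284439) (nat_lit 2) (nat_lit 5) (nat_lit 4) (nat_lit 4) (nat_lit 2) (nat_lit 4) (nat_lit 426) (nat_lit 269) (nat_lit 193)) (XT.nd (nat_lit 94) (nat_lit 0) (nat_lit 0) (XT.lf (nat_lit 0) (nat_lit 41793844542) (nat_lit 168) (nat_lit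 31116005861) (nat_lit 0) (nat_lit 23904899381) (nat_lit 2) (nat_lit 5) (nat_lit 4) (nat_lit 4) (nat_lit 2) (nat_lit 4) (nat_lit 427) (nat_lit 269) (nat_lit 192)) (XT.lf (nat_lit 0) (nat_lit 44016383094) (nat_lit 168) (nat_lit 29674877961) (nat_lit 0) (nat_lit 26070779458) (nat_lit 2) (nat_lit 5) (nat_lit 4) (nat_lit 4) (nat_lit 2) (nat_lit 4) (nat_lit 428) (nat_lit 269) (nat_lit 191)))) (XT.nd (nat_lit 188) (nat_lit 252) (nat_lit 0) (XT.nd (nat_lit 94) (nat_lit 0) (nat_lit 0) (XT.lf (nat_lit 0) (nat_lit 766404688) (nat_lit 336) (nat_lit 4096274268) (nat_lit 0) (nat_lit 766404688) (nat_lit 24) (nat_lit 5) (nat_lit 28) (nat_lit 4) (nat_lit 24) (nat_lit 4) (nat_lit 348) (nat_lit 270) (nat_lit 270)) (XT.lf (nat_lit 0) (nat_lit 3959203543) (nat_lit 336) (nat_lit 4287546679) (nat_lit 0) (nat_lit 3245144545) (nat_lit 24) (nat_lit 5) (nat_lit 28) (nat_lit 4) (nat_lit 24) (nat_lit 4) (nat_lit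 349) (nat_lit 270) (nat_lit 269))) (XT.nd (nat_lit 94) (nat_lit 252) (nat_lit 0) (XT.lf (nat_lit 0) (nat_lit 6398689577) (nat_lit 336) (nat_lit 344435418) (nat_lit 0) (nat_lit 4992041833) (nat_lit 24) (nat_lit 5) (nat_lit 28) (nat_lit 4) (nat_lit 24) (nat_lit 4) (nat_lit 350) (nat_lit 270) (nat_lit 268)) (XT.lf (nat_lit 0) (nat_lit 3715315974) (nat_lit 252) (nat_lit 5175081758) (nat_lit 252) (nat_lit 3096669953) (nat_lit 21) (nat_lit 4) (nat_lit 24) (nat_lit 5) (nat_lit 24) (nat_lit 4) (nat_lit 351) (nat_lit 270) (nat_lit 267))))))) (XT.nd (nat_lit 1222) (nat_lit 504) (nat_lit 0) (XT.nd (nat_lit 564) (nat_lit 252) (nat_lit 0) (XT.nd (nat_lit 282) (nat_lit 168) (nat_lit 0) (XT.nd (nat_lit 94) (nat_lit 252) (nat_lit 0) (XT.lf (nat_lit 0) (nat_lit 7828584356) (nat_lit 252) (nat_lit 3575123172) (nat_lit 252) (nat_lit 845145838) (nat_lit 21) (nat_lit 4) (nat_lit 24) (nat_lit 5) (nat_lit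 24) (nat_lit 4) (nat_lit 352) (nat_lit 270) (nat_lit 266)) (XT.nd (nat_lit 94) (nat_lit 168) (nat_lit 0) (XT.lf (nat_lit 0) (nat_lit 1388057246) (nat_lit 336) (nat_lit 542807390) (nat_lit 84) (nat_lit 10589575709) (nat_lit 20) (nat_lit 5) (nat_lit 24) (nat_lit 5) (nat_lit 21) (nat_lit 4) (nat_lit 353) (nat_lit 270) (nat_lit 265)) (XT.lf (nat_lit 0) (nat_lit 3439097172) (nat_lit 168) (nat_lit 211331689) (nat_lit 252) (nat_lit 9150767656) (nat_lit 18) (nat_lit 5) (nat_lit 20) (nat_lit 5) (nat_lit 21) (nat_lit 4) (nat_lit 354) (nat_lit 270) (nat_lit 264)))) (XT.nd (nat_lit 94) (nat_lit 168) (nat_lit 0) (XT.lf (nat_lit 0) (nat_lit 5948280903) (nat_lit 252) (nat_lit 5627550284) (nat_lit 0) (nat_lit 1516209856) (nat_lit 18) (nat_lit 5) (nat_lit 21) (nat_lit 4) (nat_lit 18) (nat_lit 4) (nat_lit 355) (nat_lit 270) (nat_lit 263)) (XT.nd (nat_lit 94) (nat_lit 168) (nat_lit 0) (XT.lf (nat_lit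 0) (nat_lit 8265340413) (nat_lit 252) (nat_lit 1854531796) (nat_lit 0) (nat_lit 3273943668) (nat_lit 18) (nat_lit 5) (nat_lit 21) (nat_lit 4) (nat_lit 18) (nat_lit 4) (nat_lit 356) (nat_lit 270) (nat_lit 262)) (XT.lf (nat_lit 0) (nat_lit 2002923855) (nat_lit 168) (nat_lit 8618616096) (nat_lit 168) (nat_lit 3084711399) (nat_lit 16) (nat_lit 4) (nat_lit 18) (nat_lit 5) (nat_lit 18) (nat_lit 4) (nat_lit 357) (nat_lit 270) (nat_lit 261))))) (XT.nd (nat_lit 282) (nat_lit 168) (nat_lit 0) (XT.nd (nat_lit 94) (nat_lit 84) (nat_lit 0) (XT.lf (nat_lit 0) (nat_lit 5947132723) (nat_lit 168) (nat_lit 7071313034) (nat_lit 168) (nat_lit 1011212457) (nat_lit 16) (nat_lit 4) (nat_lit 18) (nat_lit 5) (nat_lit 18) (nat_lit 4) (nat_lit 358) (nat_lit 270) (nat_lit 260)) (XT.nd (nat_lit 94) (nat_lit 0) (nat_lit 0) (XT.lf (nat_lit 0) (nat_lit 1052945845) (nat_lit 252) (nat_lit 4431941842) (nat_lit 84)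 (nat_lit 8879701806) (nat_lit 15) (nat_lit 5) (nat_lit 18) (nat_lit 5) (nat_lit 16) (nat_lit 4) (nat_lit 359) (nat_lit 270) (nat_lit 259)) (XT.lf (nat_lit 0) (nat_lit 3110697557) (nat_lit 252) (nat_lit 747676511) (nat_lit 84) (nat_lit 10852998726) (nat_lit 15) (nat_lit 5) (nat_lit 18) (nat_lit 5) (nat_lit 16) (nat_lit 4) (nat_lit 360) (nat_lit 270) (nat_lit 258)))) (XT.nd (nat_lit 188) (nat_lit 0) (nat_lit 0) (XT.nd (nat_lit 94) (nat_lit 0) (nat_lit 0) (XT.lf (nat_lit 0) (nat_lit 3045087706) (nat_lit 168) (nat_lit 2169454337) (nat_lit 252) (nat_lit 9855163848) (nat_lit 13) (nat_lit 5) (nat_lit 15) (nat_lit 5) (nat_lit 16) (nat_lit 4) (nat_lit 361) (nat_lit 270) (nat_lit 257)) (XT.lf (nat_lit 0) (nat_lit 6904891869) (nat_lit 168) (nat_lit 439394724) (nat_lit 252) (nat_lit 8096322961) (nat_lit 13) (nat_lit 5) (nat_lit 15) (nat_lit 5) (nat_lit 16) (nat_lit 4) (nat_lit 362) (nat_lit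 270) (nat_lit 256))) (XT.nd (nat_lit 94) (nat_lit 0) (nat_lit 0) (XT.lf (nat_lit 0) (nat_lit 9507497043) (nat_lit 252) (nat_lit 5017854452) (nat_lit 0) (nat_lit 1298905006) (nat_lit 13) (nat_lit 5) (nat_lit 16) (nat_lit 4) (nat_lit 13) (nat_lit 4) (nat_lit 363) (nat_lit 270) (nat_lit 255)) (XT.lf (nat_lit 0) (nat_lit 11697749090) (nat_lit 252) (nat_lit 1459308824) (nat_lit 0) (nat_lit 3064208078) (nat_lit 13) (nat_lit 5) (nat_lit 16) (nat_lit 4) (nat_lit 13) (nat_lit 4) (nat_lit 364) (nat_lit 270) (nat_lit 254)))))) (XT.nd (nat_lit 564) (nat_lit 168) (nat_lit 0) (XT.nd (nat_lit 282) (nat_lit 84) (nat_lit 0) (XT.nd (nat_lit 94) (nat_lit 84) (nat_lit 0) (XT.lf (nat_lit 0) (nat_lit 2191753942) (nat_lit 168) (nat_lit 11742713957) (nat_lit 168) (nat_lit 2697001291) (nat_lit 11) (nat_lit 4) (nat_lit 13) (nat_lit 5) (nat_lit 13) (nat_lit 4) (nat_lit 365) (nat_lit 270) (nat_lit 253)) (XT.nd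 (nat_lit 94) (nat_lit 84) (nat_lit 0) (XT.lf (nat_lit 0) (nat_lit 5925606758) (nat_lit 168) (nat_lit 10287666642) (nat_lit 168) (nat_lit 842175457) (nat_lit 11) (nat_lit 4) (nat_lit 13) (nat_lit 5) (nat_lit 13) (nat_lit 4) (nat_lit 366) (nat_lit 270) (nat_lit 252)) (XT.lf (nat_lit 0) (nat_lit 1006756324) (nat_lit 252) (nat_lit 7788527110) (nat_lit 84) (nat_lit 8698458786) (nat_lit 10) (nat_lit 5) (nat_lit 13) (nat_lit 5) (nat_lit 11) (nat_lit 4) (nat_lit 367) (nat_lit 270) (nat_lit 251)))) (XT.nd (nat_lit 94) (nat_lit 84) (nat_lit 0) (XT.lf (nat_lit 0) (nat_lit 2854936326) (nat_lit 252) (nat_lit 4410972480) (nat_lit 84) (nat_lit 10680901195) (nat_lit 10) (nat_lit 5) (nat_lit 13) (nat_lit 5) (nat_lit 11) (nat_lit 4) (nat_lit 368) (nat_lit 270) (nat_lit 250)) (XT.nd (nat_lit 94) (nat_lit 84) (nat_lit 0) (XT.lf (nat_lit 0) (nat_lit 4721055204) (nat_lit 252) (nat_lit 985675489) (nat_lit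 84) (nat_lit 12708602800) (nat_lit 10) (nat_lit 5) (nat_lit 13) (nat_lit 5) (nat_lit 11) (nat_lit 4) (nat_lit 369) (nat_lit 270) (nat_lit 249)) (XT.lf (nat_lit 0) (nat_lit 2541767550) (nat_lit 84) (nat_lit 4090299474) (nat_lit 168) (nat_lit 12266900730) (nat_lit 9) (nat_lit 5) (nat_lit 10) (nat_lit 5) (nat_lit 11) (nat_lit 4) (nat_lit 370) (nat_lit 270) (nat_lit 248))))) (XT.nd (nat_lit 282) (nat_lit 168) (nat_lit 0) (XT.nd (nat_lit 94) (nat_lit 0) (nat_lit 0) (XT.lf (nat_lit 0) (nat_lit 6144767364) (nat_lit 84) (nat_lit 2430275092) (nat_lit 168) (nat_lit 10823577158) (nat_lit 9) (nat_lit 5) (nat_lit 10) (nat_lit 5) (nat_lit 11) (nat_lit 4) (nat_lit 371) (nat_lit 270) (nat_lit 247)) (XT.nd (nat_lit 94) (nat_lit 0) (nat_lit 0) (XT.lf (nat_lit 0) (nat_lit 9806414815) (nat_lit 84) (nat_lit 735398659) (nat_lit 168) (nat_lit 9373250673) (nat_lit 9) (nat_lit 5) (nat_lit 10) (nat_lit 5)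 (nat_lit 11) (nat_lit 4) (nat_lit 372) (nat_lit 270) (nat_lit 246)) (XT.lf (nat_lit 0) (nat_lit 12544092864) (nat_lit 168) (nat_lit 6928539342) (nat_lit 0) (nat_lit 975844266) (nat_lit 9) (nat_lit 5) (nat_lit 11) (nat_lit 4) (nat_lit 9) (nat_lit 4) (nat_lit 373) (nat_lit 270) (nat_lit 245)))) (XT.nd (nat_lit 188) (nat_lit 168) (nat_lit 0) (XT.nd (nat_lit 94) (nat_lit 0) (nat_lit 0) (XT.lf (nat_lit 0) (nat_lit 14581530866) (nat_lit 168) (nat_lit 3708341989) (nat_lit 0) (nat_lit 2709549626) (nat_lit 9) (nat_lit 5) (nat_lit 11) (nat_lit 4) (nat_lit 9) (nat_lit 4) (nat_lit 374) (nat_lit 270) (nat_lit 244)) (XT.lf (nat_lit 0) (nat_lit 16648731341) (nat_lit 168) (nat_lit 437760467) (nat_lit 0) (nat_lit 4482150060) (nat_lit 9) (nat_lit 5) (nat_lit 11) (nat_lit 4) (nat_lit 9) (nat_lit 4) (nat_lit 375) (nat_lit 270) (nat_lit 243))) (XT.nd (nat_lit 94) (nat_lit 0) (nat_lit 0) (XT.lf (nat_lit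 0) (nat_lit 2945601043) (nat_lit 168) (nat_lit 15831240819) (nat_lit 168) (nat_lit 3378917500) (nat_lit 7) (nat_lit 4) (nat_lit 9) (nat_lit 5) (nat_lit 9) (nat_lit 4) (nat_lit 376) (nat_lit 270) (nat_lit 242)) (XT.lf (nat_lit 0) (nat_lit 6395657225) (nat_lit 168) (nat_lit 14547945122) (nat_lit 168) (nat_lit 1818471427) (nat_lit 7) (nat_lit 4) (nat_lit 9) (nat_lit 5) (nat_lit 9) (nat_lit 4) (nat_lit 377) (nat_lit 270) (nat_lit 241))))))))
noncomputable def xc31 : XT := (XT.nd (nat_lit 2444) (nat_lit 84) (nat_lit 0) (XT.nd (nat_lit 1222) (nat_lit 168) (nat_lit 0) (XT.nd (nat_lit 564) (nat_lit 0) (nat_lit 0) (XT.nd (nat_lit 282) (nat_lit 84) (nat_lit 0) (XT.nd (nat_lit 94) (nat_lit 84) (nat_lit 0) (XT.lf (nat_lit 0) (nat_lit 9906622637) (nat_lit 168) (nat_lit 13239977873) (nat_lit 168) (nat_lit 241687130) (nat_lit 7) (nat_lit 4) (nat_lit 9) (nat_lit 5) (nat_lit 9) (nat_lit 4) (nat_lit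 378) (nat_lit 270) (nat_lit 240)) (XT.nd (nat_lit 94) (nat_lit 0) (nat_lit 0) (XT.lf (nat_lit 0) (nat_lit 1325647094) (nat_lit 252) (nat_lit 10566635778) (nat_lit 84) (nat_lit 12142285736) (nat_lit 6) (nat_lit 5) (nat_lit 9) (nat_lit 5) (nat_lit 7) (nat_lit 4) (nat_lit 379) (nat_lit 270) (nat_lit 239)) (XT.lf (nat_lit 0) (nat_lit 2907017403) (nat_lit 252) (nat_lit 7607767232) (nat_lit 84) (nat_lit 14187070623) (nat_lit 6) (nat_lit 5) (nat_lit 9) (nat_lit 5) (nat_lit 7) (nat_lit 4) (nat_lit 380) (nat_lit 270) (nat_lit 238)))) (XT.nd (nat_lit 94) (nat_lit 84) (nat_lit 0) (XT.lf (nat_lit 0) (nat_lit 4508767258) (nat_lit 252) (nat_lit 4599903825) (nat_lit 84) (nat_lit 16282172816) (nat_lit 6) (nat_lit 5) (nat_lit 9) (nat_lit 5) (nat_lit 7) (nat_lit 4) (nat_lit 381) (nat_lit 270) (nat_lit 237)) (XT.nd (nat_lit 94) (nat_lit 84) (nat_lit 0) (XT.lf (nat_lit 0) (nat_lit 6132389656) (nat_lit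 252) (nat_lit 1540241911) (nat_lit 84) (nat_lit 18429545171) (nat_lit 6) (nat_lit 5) (nat_lit 9) (nat_lit 5) (nat_lit 7) (nat_lit 4) (nat_lit 382) (nat_lit 270) (nat_lit 236)) (XT.lf (nat_lit 0) (nat_lit 1606436549) (nat_lit 84) (nat_lit 6188897483) (nat_lit 168) (nat_lit 19040688763) (nat_lit 5) (nat_lit 5) (nat_lit 6) (nat_lit 5) (nat_lit 7) (nat_lit 4) (nat_lit 383) (nat_lit 270) (nat_lit 235))))) (XT.nd (nat_lit 282) (nat_lit 0) (nat_lit 0) (XT.nd (nat_lit 94) (nat_lit 0) (nat_lit 0) (XT.lf (nat_lit 0) (nat_lit 4843522253) (nat_lit 84) (nat_lit 4655853510) (nat_lit 168) (nat_lit 18093683343) (nat_lit 5) (nat_lit 5) (nat_lit 6) (nat_lit 5) (nat_lit 7) (nat_lit 4) (nat_lit 384) (nat_lit 270) (nat_lit 234)) (XT.nd (nat_lit 94) (nat_lit 0) (nat_lit 0) (XT.lf (nat_lit 0) (nat_lit 8142361971) (nat_lit 84) (nat_lit 3088147659) (nat_lit 168) (nat_lit 17143965079) (nat_lit 5) (nat_lit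 5) (nat_lit 6) (nat_lit 5) (nat_lit 7) (nat_lit 4) (nat_lit 385) (nat_lit 270) (nat_lit 233)) (XT.lf (nat_lit 0) (nat_lit 11506030566) (nat_lit 84) (nat_lit 1484318663) (nat_lit 168) (nat_lit 16190648735) (nat_lit 5) (nat_lit 5) (nat_lit 6) (nat_lit 5) (nat_lit 7) (nat_lit 4) (nat_lit 386) (nat_lit 270) (nat_lit 232)))) (XT.nd (nat_lit 188) (nat_lit 0) (nat_lit 0) (XT.nd (nat_lit 94) (nat_lit 0) (nat_lit 0) (XT.lf (nat_lit 0) (nat_lit 14782093648) (nat_lit 168) (nat_lit 15077276039) (nat_lit 0) (nat_lit 153962627) (nat_lit 5) (nat_lit 5) (nat_lit 7) (nat_lit 4) (nat_lit 5) (nat_lit 4) (nat_lit 387) (nat_lit 270) (nat_lit 231)) (XT.lf (nat_lit 0) (nat_lit 16620965775) (nat_lit 168) (nat_lit 12450170134) (nat_lit 0) (nat_lit 1800697539) (nat_lit 5) (nat_lit 5) (nat_lit 7) (nat_lit 4) (nat_lit 5) (nat_lit 4) (nat_lit 388) (nat_lit 270) (nat_lit 230))) (XT.nd (nat_lit 94) (nat_lit 0)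 (nat_lit 0) (XT.lf (nat_lit 0) (nat_lit 18493955005) (nat_lit 168) (nat_lit 9776476319) (nat_lit 0) (nat_lit 3487326717) (nat_lit 5) (nat_lit 5) (nat_lit 7) (nat_lit 4) (nat_lit 5) (nat_lit 4) (nat_lit 389) (nat_lit 270) (nat_lit 229)) (XT.lf (nat_lit 0) (nat_lit 20402807160) (nat_lit 168) (nat_lit 7053702431) (nat_lit 0) (nat_lit 5215422274) (nat_lit 5) (nat_lit 5) (nat_lit 7) (nat_lit 4) (nat_lit 5) (nat_lit 4) (nat_lit 390) (nat_lit 270) (nat_lit 228)))))) (XT.nd (nat_lit 564) (nat_lit 84) (nat_lit 0) (XT.nd (nat_lit 282) (nat_lit 0) (nat_lit 0) (XT.nd (nat_lit 94) (nat_lit 84) (nat_lit 0) (XT.lf (nat_lit 0) (nat_lit 22349301491) (nat_lit 168) (nat_lit 4279310561) (nat_lit 0) (nat_lit 6986594978) (nat_lit 5) (nat_lit 5) (nat_lit 7) (nat_lit 4) (nat_lit 5) (nat_lit 4) (nat_lit 391) (nat_lit 270) (nat_lit 227)) (XT.nd (nat_lit 94) (nat_lit 84) (nat_lit 0) (XT.lf (nat_lit 0) (nat_lit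 24335252334) (nat_lit 168) (nat_lit 1450714684) (nat_lit 0) (nat_lit 8802495747) (nat_lit 5) (nat_lit 5) (nat_lit 7) (nat_lit 4) (nat_lit 5) (nat_lit 4) (nat_lit 392) (nat_lit 270) (nat_lit 226)) (XT.lf (nat_lit 0) (nat_lit 1464222567) (nat_lit 84) (nat_lit 24912813505) (nat_lit 84) (nat_lit 9215119891) (nat_lit 4) (nat_lit 4) (nat_lit 5) (nat_lit 5) (nat_lit 5) (nat_lit 4) (nat_lit 393) (nat_lit 270) (nat_lit 225)))) (XT.nd (nat_lit 94) (nat_lit 0) (nat_lit 0) (XT.lf (nat_lit 0) (nat_lit 4469743633) (nat_lit 84) (nat_lit 24007563294) (nat_lit 84) (nat_lit 8149891962) (nat_lit 4) (nat_lit 4) (nat_lit 5) (nat_lit 5) (nat_lit 5) (nat_lit 4) (nat_lit 394) (nat_lit 270) (nat_lit 224)) (XT.nd (nat_lit 94) (nat_lit 0) (nat_lit 0) (XT.lf (nat_lit 0) (nat_lit 7538820303) (nat_lit 84) (nat_lit 23084515083) (nat_lit 84) (nat_lit 7071676226) (nat_lit 4) (nat_lit 4) (nat_lit 5) (nat_lit 5) (nat_lit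 5) (nat_lit 4) (nat_lit 395) (nat_lit 270) (nat_lit 223)) (XT.lf (nat_lit 0) (nat_lit 10674313279) (nat_lit 84) (nat_lit 22142808496) (nat_lit 84) (nat_lit 5979467675) (nat_lit 4) (nat_lit 4) (nat_lit 5) (nat_lit 5) (nat_lit 5) (nat_lit 4) (nat_lit 396) (nat_lit 270) (nat_lit 222))))) (XT.nd (nat_lit 282) (nat_lit 84) (nat_lit 0) (XT.nd (nat_lit 94) (nat_lit 0) (nat_lit 0) (XT.lf (nat_lit 0) (nat_lit 13879145167) (nat_lit 84) (nat_lit 21181565761) (nat_lit 84) (nat_lit 4872248254) (nat_lit 4) (nat_lit 4) (nat_lit 5) (nat_lit 5) (nat_lit 5) (nat_lit 4) (nat_lit 397) (nat_lit 270) (nat_lit 221)) (XT.nd (nat_lit 94) (nat_lit 0) (nat_lit 0) (XT.lf (nat_lit 0) (nat_lit 17156303208) (nat_lit 84) (nat_lit 20199890902) (nat_lit 84) (nat_lit 3748985920) (nat_lit 4) (nat_lit 4) (nat_lit 5) (nat_lit 5) (nat_lit 5) (nat_lit 4) (nat_lit 398) (nat_lit 270) (nat_lit 220)) (XT.lf (nat_lit 0) (nat_lit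 20508842056) (nat_lit 84) (nat_lit 19196868893) (nat_lit 84) (nat_lit 2608633674) (nat_lit 4) (nat_lit 4) (nat_lit 5) (nat_lit 5) (nat_lit 5) (nat_lit 4) (nat_lit 399) (nat_lit 270) (nat_lit 219)))) (XT.nd (nat_lit 188) (nat_lit 84) (nat_lit 0) (XT.nd (nat_lit 94) (nat_lit 0) (nat_lit 0) (XT.lf (nat_lit 0) (nat_lit 23939886628) (nat_lit 84) (nat_lit 18171564814) (nat_lit 84) (nat_lit 1450128589) (nat_lit 4) (nat_lit 4) (nat_lit 5) (nat_lit 5) (nat_lit 5) (nat_lit 4) (nat_lit 400) (nat_lit 270) (nat_lit 218)) (XT.lf (nat_lit 0) (nat_lit 27452635017) (nat_lit 84) (nat_lit 17123022974) (nat_lit 84) (nat_lit 272390816) (nat_lit 4) (nat_lit 4) (nat_lit 5) (nat_lit 5) (nat_lit 5) (nat_lit 4) (nat_lit 401) (nat_lit 270) (nat_lit 217))) (XT.nd (nat_lit 94) (nat_lit 0) (nat_lit 0) (XT.lf (nat_lit 0) (nat_lit 907027081) (nat_lit 168) (nat_lit 15133771437) (nat_lit 84) (nat_lit 30133866889)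 (nat_lit 3) (nat_lit 5) (nat_lit 5) (nat_lit 5) (nat_lit 4) (nat_lit 4) (nat_lit 402) (nat_lit 270) (nat_lit 216)) (XT.lf (nat_lit 0) (nat_lit 2101971986) (nat_lit 168) (nat_lit 12828381771) (nat_lit 84) (nat_lit 32612507190) (nat_lit 3) (nat_lit 5) (nat_lit 5) (nat_lit 5) (nat_lit 4) (nat_lit 4) (nat_lit 403) (nat_lit 270) (nat_lit 215))))))) (XT.nd (nat_lit 1222) (nat_lit 0) (nat_lit 0) (XT.nd (nat_lit 564) (nat_lit 0) (nat_lit 0) (XT.nd (nat_lit 282) (nat_lit 84) (nat_lit 0) (XT.nd (nat_lit 94) (nat_lit 0) (nat_lit 0) (XT.lf (nat_lit 0) (nat_lit 3319045779) (nat_lit 168) (nat_lit 10474393778) (nat_lit 84) (nat_lit 35160554940) (nat_lit 3) (nat_lit 5) (nat_lit 5) (nat_lit 5) (nat_lit 4) (nat_lit 4) (nat_lit 404) (nat_lit 270) (nat_lit 214)) (XT.nd (nat_lit 94) (nat_lit 0) (nat_lit 0) (XT.lf (nat_lit 0) (nat_lit 4559382901) (nat_lit 168) (nat_lit 8069613293) (nat_lit 84) (nat_lit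 37780385185) (nat_lit 3) (nat_lit 5) (nat_lit 5) (nat_lit 5) (nat_lit 4) (nat_lit 4) (nat_lit 405) (nat_lit 270) (nat_lit 213)) (XT.lf (nat_lit 0) (nat_lit 5824139476) (nat_lit 168) (nat_lit 5611798810) (nat_lit 84) (nat_lit 40474439881) (nat_lit 3) (nat_lit 5) (nat_lit 5) (nat_lit 5) (nat_lit 4) (nat_lit 4) (nat_lit 406) (nat_lit 270) (nat_lit 212)))) (XT.nd (nat_lit 94) (nat_lit 84) (nat_lit 0) (XT.lf (nat_lit 0) (nat_lit 7114494389) (nat_lit 168) (nat_lit 3098659389) (nat_lit 84) (nat_lit 43245230171) (nat_lit 3) (nat_lit 5) (nat_lit 5) (nat_lit 5) (nat_lit 4) (nat_lit 4) (nat_lit 407) (nat_lit 270) (nat_lit 211)) (XT.nd (nat_lit 94) (nat_lit 84) (nat_lit 0) (XT.lf (nat_lit 0) (nat_lit 8431650386) (nat_lit 168) (nat_lit 527852519) (nat_lit 84) (nat_lit 46095338721) (nat_lit 3) (nat_lit 5) (nat_lit 5) (nat_lit 5) (nat_lit 4) (nat_lit 4) (nat_lit 408) (nat_lit 270) (nat_lit 210))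 (XT.lf (nat_lit 0) (nat_lit 2146260424) (nat_lit 84) (nat_lit 7651865940) (nat_lit 168) (nat_lit 46902452874) (nat_lit 2) (nat_lit 5) (nat_lit 3) (nat_lit 5) (nat_lit 4) (nat_lit 4) (nat_lit 409) (nat_lit 270) (nat_lit 209))))) (XT.nd (nat_lit 282) (nat_lit 0) (nat_lit 0) (XT.nd (nat_lit 94) (nat_lit 0) (nat_lit 0) (XT.lf (nat_lit 0) (nat_lit 4895028511) (nat_lit 84) (nat_lit 6304833447) (nat_lit 168) (nat_lit 47197744184) (nat_lit 2) (nat_lit 5) (nat_lit 3) (nat_lit 5) (nat_lit 4) (nat_lit 4) (nat_lit 410) (nat_lit 270) (nat_lit 208)) (XT.nd (nat_lit 94) (nat_lit 0) (nat_lit 0) (XT.lf (nat_lit 0) (nat_lit 7710160151) (nat_lit 84) (nat_lit 4922659549) (nat_lit 168) (nat_lit 47514850110) (nat_lit 2) (nat_lit 5) (nat_lit 3) (nat_lit 5) (nat_lit 4) (nat_lit 4) (nat_lit 411) (nat_lit 270) (nat_lit 207)) (XT.lf (nat_lit 0) (nat_lit 10594279340) (nat_lit 84) (nat_lit 3504055914) (nat_lit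 168) (nat_lit 47854066228) (nat_lit 2) (nat_lit 5) (nat_lit 3) (nat_lit 5) (nat_lit 4) (nat_lit 4) (nat_lit 412) (nat_lit 270) (nat_lit 206)))) (XT.nd (nat_lit 188) (nat_lit 0) (nat_lit 0) (XT.nd (nat_lit 94) (nat_lit 0) (nat_lit 0) (XT.lf (nat_lit 0) (nat_lit 13550074381) (nat_lit 84) (nat_lit 2047700256) (nat_lit 168) (nat_lit 48215708723) (nat_lit 2) (nat_lit 5) (nat_lit 3) (nat_lit 5) (nat_lit 4) (nat_lit 4) (nat_lit 413) (nat_lit 270) (nat_lit 205)) (XT.lf (nat_lit 0) (nat_lit 16580300383) (nat_lit 84) (nat_lit 552235099) (nat_lit 168) (nat_lit 48600114684) (nat_lit 2) (nat_lit 5) (nat_lit 3) (nat_lit 5) (nat_lit 4) (nat_lit 4) (nat_lit 414) (nat_lit 270) (nat_lit 204))) (XT.nd (nat_lit 94) (nat_lit 0) (nat_lit 0) (XT.lf (nat_lit 0) (nat_lit 18713807107) (nat_lit 168) (nat_lit 48033667688) (nat_lit 0) (nat_lit 963913449) (nat_lit 2) (nat_lit 5) (nat_lit 4) (nat_lit 4) (nat_lit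 2) (nat_lit 4) (nat_lit 415) (nat_lit 270) (nat_lit 203)) (XT.lf (nat_lit 0) (nat_lit 20339189807) (nat_lit 168) (nat_lit 46902446352) (nat_lit 0) (nat_lit 2510025906) (nat_lit 2) (nat_lit 5) (nat_lit 4) (nat_lit 4) (nat_lit 2) (nat_lit 4) (nat_lit 416) (nat_lit 270) (nat_lit 202)))))) (XT.nd (nat_lit 564) (nat_lit 0) (nat_lit 0) (XT.nd (nat_lit 282) (nat_lit 0) (nat_lit 0) (XT.nd (nat_lit 94) (nat_lit 0) (nat_lit 0) (XT.lf (nat_lit 0) (nat_lit 22004720372) (nat_lit 168) (nat_lit 45752153118) (nat_lit 0) (nat_lit 4098669715) (nat_lit 2) (nat_lit 5) (nat_lit 4) (nat_lit 4) (nat_lit 2) (nat_lit 4) (nat_lit 417) (nat_lit 270) (nat_lit 201)) (XT.nd (nat_lit 94) (nat_lit 0) (nat_lit 0) (XT.lf (nat_lit 0) (nat_lit 23711951248) (nat_lit 168) (nat_lit 44581715793) (nat_lit 0) (nat_lit 5731325660) (nat_lit 2) (nat_lit 5) (nat_lit 4) (nat_lit 4) (nat_lit 2) (nat_lit 4) (nat_lit 418) (nat_lit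 270) (nat_lit 200)) (XT.lf (nat_lit 0) (nat_lit 25462473755) (nat_lit 168) (nat_lit 43390043406) (nat_lit 0) (nat_lit 7409515547) (nat_lit 2) (nat_lit 5) (nat_lit 4) (nat_lit 4) (nat_lit 2) (nat_lit 4) (nat_lit 419) (nat_lit 270) (nat_lit 199)))) (XT.nd (nat_lit 94) (nat_lit 0) (nat_lit 0) (XT.lf (nat_lit 0) (nat_lit 27257919563) (nat_lit 168) (nat_lit 42176025194) (nat_lit 0) (nat_lit 9134803624) (nat_lit 2) (nat_lit 5) (nat_lit 4) (nat_lit 4) (nat_lit 2) (nat_lit 4) (nat_lit 420) (nat_lit 270) (nat_lit 198)) (XT.nd (nat_lit 94) (nat_lit 0) (nat_lit 0) (XT.lf (nat_lit 0) (nat_lit 29099962215) (nat_lit 168) (nat_lit 40938529565) (nat_lit 0) (nat_lit 10908798040) (nat_lit 2) (nat_lit 5) (nat_lit 4) (nat_lit 4) (nat_lit 2) (nat_lit 4) (nat_lit 421) (nat_lit 270) (nat_lit 197)) (XT.lf (nat_lit 0) (nat_lit 30990318689) (nat_lit 168) (nat_lit 39676403043) (nat_lit 0) (nat_lit 12733152345)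 (nat_lit 2) (nat_lit 5) (nat_lit 4) (nat_lit 4) (nat_lit 2) (nat_lit 4) (nat_lit 422) (nat_lit 270) (nat_lit 196))))) (XT.nd (nat_lit 282) (nat_lit 0) (nat_lit 0) (XT.nd (nat_lit 94) (nat_lit 0) (nat_lit 0) (XT.lf (nat_lit 0) (nat_lit 32930750993) (nat_lit 168) (nat_lit 38388469194) (nat_lit 0) (nat_lit 14609567028) (nat_lit 2) (nat_lit 5) (nat_lit 4) (nat_lit 4) (nat_lit 2) (nat_lit 4) (nat_lit 423) (nat_lit 270) (nat_lit 195)) (XT.nd (nat_lit 94) (nat_lit 0) (nat_lit 0) (XT.lf (nat_lit 0) (nat_lit 34923067815) (nat_lit 168) (nat_lit 37073527529) (nat_lit 0) (nat_lit 16539791103) (nat_lit 2) (nat_lit 5) (nat_lit 4) (nat_lit 4) (nat_lit 2) (nat_lit 4) (nat_lit 424) (nat_lit 270) (nat_lit 194)) (XT.lf (nat_lit 0) (nat_lit 36969126203) (nat_lit 168) (nat_lit 35730352384) (nat_lit 0) (nat_lit 18525623741) (nat_lit 2) (nat_lit 5) (nat_lit 4) (nat_lit 4) (nat_lit 2) (nat_lit 4) (nat_lit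 425) (nat_lit 270) (nat_lit 193)))) (XT.nd (nat_lit 188) (nat_lit 0) (nat_lit 0) (XT.nd (nat_lit 94) (nat_lit 0) (nat_lit 0) (XT.lf (nat_lit 0) (nat_lit 39070833296) (nat_lit 168) (nat_lit 34357691780) (nat_lit 0) (nat_lit 20568915948) (nat_lit 2) (nat_lit 5) (nat_lit 4) (nat_lit 4) (nat_lit 2) (nat_lit 4) (nat_lit 426) (nat_lit 270) (nat_lit 192)) (XT.lf (nat_lit 0) (nat_lit 41230148107) (nat_lit 168) (nat_lit 32954266252) (nat_lit 0) (nat_lit 22671572284) (nat_lit 2) (nat_lit 5) (nat_lit 4) (nat_lit 4) (nat_lit 2) (nat_lit 4) (nat_lit 427) (nat_lit 270) (nat_lit 191))) (XT.nd (nat_lit 48034) (nat_lit 0) (nat_lit 2184) (XT.lf (nat_lit 0) (nat_lit 43449083343) (nat_lit 168) (nat_lit 31518767662) (nat_lit 0) (nat_lit 24835552647) (nat_lit 2) (nat_lit 5) (nat_lit 4) (nat_lit 4) (nat_lit 2) (nat_lit 4) (nat_lit 428) (nat_lit 270) (nat_lit 190)) (XT.lf (nat_lit 0) (nat_lit 2911574499)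 (nat_lit 252) (nat_lit 1247753456) (nat_lit 252) (nat_lit 1247753456) (nat_lit 28) (nat_lit 4) (nat_lit 31) (nat_lit 5) (nat_lit 31) (nat_lit 4) (nat_lit 346) (nat_lit 271) (nat_lit 271))))))))
noncomputable def xc32 : XT := (XT.nd (nat_lit 2350) (nat_lit 420) (nat_lit 0) (XT.nd (nat_lit 1128) (nat_lit 588) (nat_lit 0) (XT.nd (nat_lit 564) (nat_lit 420) (nat_lit 0) (XT.nd (nat_lit 282) (nat_lit 252) (nat_lit 0) (XT.nd (nat_lit 94) (nat_lit 336) (nat_lit 0) (XT.lf (nat_lit 0) (nat_lit 10014236726) (nat_lit 252) (nat_lit 888955151) (nat_lit 252) (nat_lit 129938285) (nat_lit 28) (nat_lit 4) (nat_lit 31) (nat_lit 5) (nat_lit 31) (nat_lit 4) (nat_lit 347) (nat_lit 271) (nat_lit 270)) (XT.nd (nat_lit 94) (nat_lit 0) (nat_lit 0) (XT.lf (nat_lit 0) (nat_lit 2237466898) (nat_lit 336) (nat_lit 8234654382) (nat_lit 0) (nat_lit 787213074) (nat_lit 24) (nat_lit 5) (nat_lit 28) (nat_lit 4) (nat_lit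 24) (nat_lit 4) (nat_lit 348) (nat_lit 271) (nat_lit 269)) (XT.lf (nat_lit 0) (nat_lit 4633272019) (nat_lit 336) (nat_lit 4370492334) (nat_lit 0) (nat_lit 2490429448) (nat_lit 24) (nat_lit 5) (nat_lit 28) (nat_lit 4) (nat_lit 24) (nat_lit 4) (nat_lit 349) (nat_lit 271) (nat_lit 268)))) (XT.nd (nat_lit 94) (nat_lit 252) (nat_lit 0) (XT.lf (nat_lit 0) (nat_lit 7043088757) (nat_lit 336) (nat_lit 466992917) (nat_lit 0) (nat_lit 4228482126) (nat_lit 24) (nat_lit 5) (nat_lit 28) (nat_lit 4) (nat_lit 24) (nat_lit 4) (nat_lit 350) (nat_lit 271) (nat_lit 267)) (XT.nd (nat_lit 94) (nat_lit 0) (nat_lit 0) (XT.lf (nat_lit 0) (nat_lit 3551027632) (nat_lit 252) (nat_lit 5953362315) (nat_lit 252) (nat_lit 2487190155) (nat_lit 21) (nat_lit 4) (nat_lit 24) (nat_lit 5) (nat_lit 24) (nat_lit 4) (nat_lit 351) (nat_lit 271) (nat_lit 266)) (XT.lf (nat_lit 0) (nat_lit 7626264192) (nat_lit 252) (nat_lit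 4363146337) (nat_lit 252) (nat_lit 264999852) (nat_lit 21) (nat_lit 4) (nat_lit 24) (nat_lit 5) (nat_lit 24) (nat_lit 4) (nat_lit 352) (nat_lit 271) (nat_lit 265))))) (XT.nd (nat_lit 282) (nat_lit 168) (nat_lit 0) (XT.nd (nat_lit 94) (nat_lit 168) (nat_lit 0) (XT.lf (nat_lit 0) (nat_lit 1928636017) (nat_lit 336) (nat_lit 794058920) (nat_lit 84) (nat_lit 9804145954) (nat_lit 20) (nat_lit 5) (nat_lit 24) (nat_lit 5) (nat_lit 21) (nat_lit 4) (nat_lit 353) (nat_lit 271) (nat_lit 264)) (XT.nd (nat_lit 94) (nat_lit 0) (nat_lit 0) (XT.lf (nat_lit 0) (nat_lit 3145441025) (nat_lit 168) (nat_lit 1015613184) (nat_lit 252) (nat_lit 8647624372) (nat_lit 18) (nat_lit 5) (nat_lit 20) (nat_lit 5) (nat_lit 21) (nat_lit 4) (nat_lit 354) (nat_lit 271) (nat_lit 263)) (XT.lf (nat_lit 0) (nat_lit 6424247537) (nat_lit 252) (nat_lit 5957706560) (nat_lit 0) (nat_lit 718791794) (nat_lit 18) (nat_lit 5) (nat_lit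 21) (nat_lit 4) (nat_lit 18) (nat_lit 4) (nat_lit 355) (nat_lit 271) (nat_lit 262)))) (XT.nd (nat_lit 94) (nat_lit 168) (nat_lit 0) (XT.lf (nat_lit 0) (nat_lit 8715429120) (nat_lit 252) (nat_lit 2220572297) (nat_lit 0) (nat_lit 2467465425) (nat_lit 18) (nat_lit 5) (nat_lit 21) (nat_lit 4) (nat_lit 18) (nat_lit 4) (nat_lit 356) (nat_lit 271) (nat_lit 261)) (XT.nd (nat_lit 94) (nat_lit 0) (nat_lit 0) (XT.lf (nat_lit 0) (nat_lit 1593835881) (nat_lit 168) (nat_lit 9448634742) (nat_lit 168) (nat_lit 2674475168) (nat_lit 16) (nat_lit 4) (nat_lit 18) (nat_lit 5) (nat_lit 18) (nat_lit 4) (nat_lit 357) (nat_lit 271) (nat_lit 260)) (XT.lf (nat_lit 0) (nat_lit 5503591859) (nat_lit 168) (nat_lit 7911097660) (nat_lit 168) (nat_lit 626563808) (nat_lit 16) (nat_lit 4) (nat_lit 18) (nat_lit 5) (nat_lit 18) (nat_lit 4) (nat_lit 358) (nat_lit 271) (nat_lit 259)))))) (XT.nd (nat_lit 564) (nat_lit 336)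 (nat_lit 0) (XT.nd (nat_lit 282) (nat_lit 0) (nat_lit 0) (XT.nd (nat_lit 94) (nat_lit 168) (nat_lit 0) (XT.lf (nat_lit 0) (nat_lit 1405526494) (nat_lit 252) (nat_lit 4924937937) (nat_lit 84) (nat_lit 8046483109) (nat_lit 15) (nat_lit 5) (nat_lit 18) (nat_lit 5) (nat_lit 16) (nat_lit 4) (nat_lit 359) (nat_lit 271) (nat_lit 258)) (XT.nd (nat_lit 94) (nat_lit 168) (nat_lit 0) (XT.lf (nat_lit 0) (nat_lit 3439691217) (nat_lit 252) (nat_lit 1273693320) (nat_lit 84) (nat_lit 10011201033) (nat_lit 15) (nat_lit 5) (nat_lit 18) (nat_lit 5) (nat_lit 16) (nat_lit 4) (nat_lit 360) (nat_lit 271) (nat_lit 257)) (XT.lf (nat_lit 0) (nat_lit 2475568504) (nat_lit 168) (nat_lit 3039439720) (nat_lit 252) (nat_lit 9568914611) (nat_lit 13) (nat_lit 5) (nat_lit 15) (nat_lit 5) (nat_lit 16) (nat_lit 4) (nat_lit 361) (nat_lit 271) (nat_lit 256)))) (XT.nd (nat_lit 94) (nat_lit 0) (nat_lit 0) (XT.lf (nat_lit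 0) (nat_lit 6303669069) (nat_lit 168) (nat_lit 1318579309) (nat_lit 252) (nat_lit 7833391969) (nat_lit 13) (nat_lit 5) (nat_lit 15) (nat_lit 5) (nat_lit 16) (nat_lit 4) (nat_lit 362) (nat_lit 271) (nat_lit 255)) (XT.nd (nat_lit 94) (nat_lit 0) (nat_lit 0) (XT.lf (nat_lit 0) (nat_lit 9754820960) (nat_lit 252) (nat_lit 5656837626) (nat_lit 0) (nat_lit 428691201) (nat_lit 13) (nat_lit 5) (nat_lit 16) (nat_lit 4) (nat_lit 13) (nat_lit 4) (nat_lit 363) (nat_lit 271) (nat_lit 254)) (XT.lf (nat_lit 0) (nat_lit 11923815733) (nat_lit 252) (nat_lit 2128797529) (nat_lit 0) (nat_lit 2185514321) (nat_lit 13) (nat_lit 5) (nat_lit 16) (nat_lit 4) (nat_lit 13) (nat_lit 4) (nat_lit 364) (nat_lit 271) (nat_lit 253))))) (XT.nd (nat_lit 282) (nat_lit 84) (nat_lit 0) (XT.nd (nat_lit 94) (nat_lit 84) (nat_lit 0) (XT.lf (nat_lit 0) (nat_lit 1478302486) (nat_lit 168) (nat_lit 12654536417) (nat_lit 168)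 (nat_lit 2516456485) (nat_lit 11) (nat_lit 4) (nat_lit 13) (nat_lit 5) (nat_lit 13) (nat_lit 4) (nat_lit 365) (nat_lit 271) (nat_lit 252)) (XT.nd (nat_lit 94) (nat_lit 84) (nat_lit 0) (XT.lf (nat_lit 0) (nat_lit 5182866563) (nat_lit 168) (nat_lit 11208489125) (nat_lit 168) (nat_lit 682651172) (nat_lit 11) (nat_lit 4) (nat_lit 13) (nat_lit 5) (nat_lit 13) (nat_lit 4) (nat_lit 366) (nat_lit 271) (nat_lit 251)) (XT.lf (nat_lit 0) (nat_lit 1143088855) (nat_lit 252) (nat_lit 8580323441) (nat_lit 84) (nat_lit 7789554941) (nat_lit 10) (nat_lit 5) (nat_lit 13) (nat_lit 5) (nat_lit 11) (nat_lit 4) (nat_lit 367) (nat_lit 271) (nat_lit 250)))) (XT.nd (nat_lit 188) (nat_lit 84) (nat_lit 0) (XT.nd (nat_lit 94) (nat_lit 0) (nat_lit 0) (XT.lf (nat_lit 0) (nat_lit 2971891848) (nat_lit 252) (nat_lit 5230815011) (nat_lit 84) (nat_lit 9764022698) (nat_lit 10) (nat_lit 5) (nat_lit 13) (nat_lit 5) (nat_lit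 11) (nat_lit 4) (nat_lit 368) (nat_lit 271) (nat_lit 249)) (XT.lf (nat_lit 0) (nat_lit 4819216343) (nat_lit 252) (nat_lit 1832720929) (nat_lit 84) (nat_lit 11783989432) (nat_lit 10) (nat_lit 5) (nat_lit 13) (nat_lit 5) (nat_lit 11) (nat_lit 4) (nat_lit 369) (nat_lit 271) (nat_lit 248))) (XT.nd (nat_lit 94) (nat_lit 0) (nat_lit 0) (XT.lf (nat_lit 0) (nat_lit 1650377613) (nat_lit 84) (nat_lit 5052778577) (nat_lit 168) (nat_lit 12217332301) (nat_lit 9) (nat_lit 5) (nat_lit 10) (nat_lit 5) (nat_lit 11) (nat_lit 4) (nat_lit 370) (nat_lit 271) (nat_lit 247)) (XT.lf (nat_lit 0) (nat_lit 5227259575) (nat_lit 84) (nat_lit 3400931795) (nat_lit 168) (nat_lit 10792590766) (nat_lit 9) (nat_lit 5) (nat_lit 10) (nat_lit 5) (nat_lit 11) (nat_lit 4) (nat_lit 371) (nat_lit 271) (nat_lit 246))))))) (XT.nd (nat_lit 1222) (nat_lit 84) (nat_lit 0) (XT.nd (nat_lit 564) (nat_lit 168) (nat_lit 0) (XT.nd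 (nat_lit 282) (nat_lit 168) (nat_lit 0) (XT.nd (nat_lit 94) (nat_lit 0) (nat_lit 0) (XT.lf (nat_lit 0) (nat_lit 8863574483) (nat_lit 84) (nat_lit 1713987079) (nat_lit 168) (nat_lit 9360287597) (nat_lit 9) (nat_lit 5) (nat_lit 10) (nat_lit 5) (nat_lit 11) (nat_lit 4) (nat_lit 372) (nat_lit 271) (nat_lit 245)) (XT.nd (nat_lit 94) (nat_lit 0) (nat_lit 0) (XT.lf (nat_lit 0) (nat_lit 12553179297) (nat_lit 168) (nat_lit 7909555269) (nat_lit 0) (nat_lit 9433996) (nat_lit 9) (nat_lit 5) (nat_lit 11) (nat_lit 4) (nat_lit 9) (nat_lit 4) (nat_lit 373) (nat_lit 271) (nat_lit 244)) (XT.lf (nat_lit 0) (nat_lit 14574173131) (nat_lit 168) (nat_lit 4713701564) (nat_lit 0) (nat_lit 1735827789) (nat_lit 9) (nat_lit 5) (nat_lit 11) (nat_lit 4) (nat_lit 9) (nat_lit 4) (nat_lit 374) (nat_lit 271) (nat_lit 243)))) (XT.nd (nat_lit 94) (nat_lit 168) (nat_lit 0) (XT.lf (nat_lit 0) (nat_lit 16625423879) (nat_lit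 168) (nat_lit 1466731728) (nat_lit 0) (nat_lit 3501336500) (nat_lit 9) (nat_lit 5) (nat_lit 11) (nat_lit 4) (nat_lit 9) (nat_lit 4) (nat_lit 375) (nat_lit 271) (nat_lit 242)) (XT.nd (nat_lit 94) (nat_lit 0) (nat_lit 0) (XT.lf (nat_lit 0) (nat_lit 1872099385) (nat_lit 168) (nat_lit 16855315594) (nat_lit 168) (nat_lit 3454077839) (nat_lit 7) (nat_lit 4) (nat_lit 9) (nat_lit 5) (nat_lit 9) (nat_lit 4) (nat_lit 376) (nat_lit 271) (nat_lit 241)) (XT.lf (nat_lit 0) (nat_lit 5299485694) (nat_lit 168) (nat_lit 15579459885) (nat_lit 168) (nat_lit 1909405082) (nat_lit 7) (nat_lit 4) (nat_lit 9) (nat_lit 5) (nat_lit 9) (nat_lit 4) (nat_lit 377) (nat_lit 271) (nat_lit 240))))) (XT.nd (nat_lit 282) (nat_lit 84) (nat_lit 0) (XT.nd (nat_lit 94) (nat_lit 84) (nat_lit 0) (XT.lf (nat_lit 0) (nat_lit 8788462868) (nat_lit 168) (nat_lit 14278708918) (nat_lit 168) (nat_lit 347919831) (nat_lit 7) (nat_lit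 4) (nat_lit 9) (nat_lit 5) (nat_lit 9) (nat_lit 4) (nat_lit 378) (nat_lit 271) (nat_lit 239)) (XT.nd (nat_lit 94) (nat_lit 0) (nat_lit 0) (XT.lf (nat_lit 0) (nat_lit 1207014683) (nat_lit 252) (nat_lit 11732236817) (nat_lit 84) (nat_lit 11122669559) (nat_lit 6) (nat_lit 5) (nat_lit 9) (nat_lit 5) (nat_lit 7) (nat_lit 4) (nat_lit 379) (nat_lit 271) (nat_lit 238)) (XT.lf (nat_lit 0) (nat_lit 2774282120) (nat_lit 252) (nat_lit 8794407200) (nat_lit 84) (nat_lit 13161018688) (nat_lit 6) (nat_lit 5) (nat_lit 9) (nat_lit 5) (nat_lit 7) (nat_lit 4) (nat_lit 380) (nat_lit 271) (nat_lit 237)))) (XT.nd (nat_lit 188) (nat_lit 84) (nat_lit 0) (XT.nd (nat_lit 94) (nat_lit 0) (nat_lit 0) (XT.lf (nat_lit 0) (nat_lit 4362353145) (nat_lit 252) (nat_lit 5806950124) (nat_lit 84) (nat_lit 15249878633) (nat_lit 6) (nat_lit 5) (nat_lit 9) (nat_lit 5) (nat_lit 7) (nat_lit 4) (nat_lit 381) (nat_lit 271) (nat_lit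 236)) (XT.lf (nat_lit 0) (nat_lit 5972708007) (nat_lit 252) (nat_lit 2767080967) (nat_lit 84) (nat_lit 17391196431) (nat_lit 6) (nat_lit 5) (nat_lit 9) (nat_lit 5) (nat_lit 7) (nat_lit 4) (nat_lit 382) (nat_lit 271) (nat_lit 235))) (XT.nd (nat_lit 94) (nat_lit 0) (nat_lit 0) (XT.lf (nat_lit 0) (nat_lit 334778794) (nat_lit 84) (nat_lit 7275389978) (nat_lit 168) (nat_lit 19255510267) (nat_lit 5) (nat_lit 5) (nat_lit 6) (nat_lit 5) (nat_lit 7) (nat_lit 4) (nat_lit 383) (nat_lit 271) (nat_lit 234)) (XT.lf (nat_lit 0) (nat_lit 3552861227) (nat_lit 84) (nat_lit 5748679085) (nat_lit 168) (nat_lit 18321623666) (nat_lit 5) (nat_lit 5) (nat_lit 6) (nat_lit 5) (nat_lit 7) (nat_lit 4) (nat_lit 384) (nat_lit 271) (nat_lit 233)))))) (XT.nd (nat_lit 564) (nat_lit 84) (nat_lit 0) (XT.nd (nat_lit 282) (nat_lit 0) (nat_lit 0) (XT.nd (nat_lit 94) (nat_lit 0) (nat_lit 0) (XT.lf (nat_lit 0) (nat_lit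 6833269062) (nat_lit 84) (nat_lit 4187115891) (nat_lit 168) (nat_lit 17384629768) (nat_lit 5) (nat_lit 5) (nat_lit 6) (nat_lit 5) (nat_lit 7) (nat_lit 4) (nat_lit 385) (nat_lit 271) (nat_lit 232)) (XT.nd (nat_lit 94) (nat_lit 0) (nat_lit 0) (XT.lf (nat_lit 0) (nat_lit 10179059982) (nat_lit 84) (nat_lit 2589244855) (nat_lit 168) (nat_lit 16443655195) (nat_lit 5) (nat_lit 5) (nat_lit 6) (nat_lit 5) (nat_lit 7) (nat_lit 4) (nat_lit 386) (nat_lit 271) (nat_lit 231)) (XT.lf (nat_lit 0) (nat_lit 13593352615) (nat_lit 84) (nat_lit 953576595) (nat_lit 168) (nat_lit 15497822860) (nat_lit 5) (nat_lit 5) (nat_lit 6) (nat_lit 5) (nat_lit 7) (nat_lit 4) (nat_lit 387) (nat_lit 271) (nat_lit 230)))) (XT.nd (nat_lit 94) (nat_lit 0) (nat_lit 0) (XT.lf (nat_lit 0) (nat_lit 16365072447) (nat_lit 168) (nat_lit 13831994155) (nat_lit 0) (nat_lit 706878630) (nat_lit 5) (nat_lit 5) (nat_lit 7) (nat_lit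 4) (nat_lit 5) (nat_lit 4) (nat_lit 388) (nat_lit 271) (nat_lit 229)) (XT.nd (nat_lit 94) (nat_lit 0) (nat_lit 0) (XT.lf (nat_lit 0) (nat_lit 18227131228) (nat_lit 168) (nat_lit 11174944572) (nat_lit 0) (nat_lit 2388180814) (nat_lit 5) (nat_lit 5) (nat_lit 7) (nat_lit 4) (nat_lit 5) (nat_lit 4) (nat_lit 389) (nat_lit 271) (nat_lit 228)) (XT.lf (nat_lit 0) (nat_lit 20125381591) (nat_lit 168) (nat_lit 8468314460) (nat_lit 0) (nat_lit 4111109549) (nat_lit 5) (nat_lit 5) (nat_lit 7) (nat_lit 4) (nat_lit 5) (nat_lit 4) (nat_lit 390) (nat_lit 271) (nat_lit 227))))) (XT.nd (nat_lit 282) (nat_lit 84) (nat_lit 0) (XT.nd (nat_lit 94) (nat_lit 0) (nat_lit 0) (XT.lf (nat_lit 0) (nat_lit 22061592902) (nat_lit 168) (nat_lit 5709580956) (nat_lit 0) (nat_lit 5877270786) (nat_lit 5) (nat_lit 5) (nat_lit 7) (nat_lit 4) (nat_lit 5) (nat_lit 4) (nat_lit 391) (nat_lit 271) (nat_lit 226)) (XT.nd (nat_lit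 94) (nat_lit 0) (nat_lit 0) (XT.lf (nat_lit 0) (nat_lit 24037569915) (nat_lit 168) (nat_lit 2896172632) (nat_lit 0) (nat_lit 7688310771) (nat_lit 5) (nat_lit 5) (nat_lit 7) (nat_lit 4) (nat_lit 5) (nat_lit 4) (nat_lit 392) (nat_lit 271) (nat_lit 225)) (XT.lf (nat_lit 0) (nat_lit 26055154447) (nat_lit 168) (nat_lit 25467095) (nat_lit 0) (nat_lit 9545917585) (nat_lit 5) (nat_lit 5) (nat_lit 7) (nat_lit 4) (nat_lit 5) (nat_lit 4) (nat_lit 393) (nat_lit 271) (nat_lit 224)))) (XT.nd (nat_lit 188) (nat_lit 0) (nat_lit 0) (XT.nd (nat_lit 94) (nat_lit 0) (nat_lit 0) (XT.lf (nat_lit 0) (nat_lit 2964948557) (nat_lit 84) (nat_lit 25180691196) (nat_lit 84) (nat_lit 8516286810) (nat_lit 4) (nat_lit 4) (nat_lit 5) (nat_lit 5) (nat_lit 5) (nat_lit 4) (nat_lit 394) (nat_lit 271) (nat_lit 223)) (XT.lf (nat_lit 0) (nat_lit 6019881913) (nat_lit 84) (nat_lit 24262545061) (nat_lit 84) (nat_lit 7447638712)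 (nat_lit 4) (nat_lit 4) (nat_lit 5) (nat_lit 5) (nat_lit 5) (nat_lit 4) (nat_lit 395) (nat_lit 271) (nat_lit 222))) (XT.nd (nat_lit 94) (nat_lit 0) (nat_lit 0) (XT.lf (nat_lit 0) (nat_lit 9141656834) (nat_lit 84) (nat_lit 23325593155) (nat_lit 84) (nat_lit 6364710119) (nat_lit 4) (nat_lit 4) (nat_lit 5) (nat_lit 5) (nat_lit 5) (nat_lit 4) (nat_lit 396) (nat_lit 271) (nat_lit 221)) (XT.lf (nat_lit 0) (nat_lit 12333183141) (nat_lit 84) (nat_lit 22368962139) (nat_lit 84) (nat_lit 5266491628) (nat_lit 4) (nat_lit 4) (nat_lit 5) (nat_lit 5) (nat_lit 5) (nat_lit 4) (nat_lit 397) (nat_lit 271) (nat_lit 220))))))))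
noncomputable def xc33 : XT := (XT.nd (nat_lit 2350) (nat_lit 0) (nat_lit 0) (XT.nd (nat_lit 1128) (nat_lit 0) (nat_lit 0) (XT.nd (nat_lit 564) (nat_lit 84) (nat_lit 0) (XT.nd (nat_lit 282) (nat_lit 84) (nat_lit 0) (XT.nd (nat_lit 94) (nat_lit 0) (nat_lit 0) (XT.lf (nat_lit 0) (nat_lit 15597435671) (nat_lit 84) (nat_lit 21391760333) (nat_lit 84) (nat_lit 4151959585) (nat_lit 4) (nat_lit 4) (nat_lit 5) (nat_lit 5) (nat_lit 5) (nat_lit 4) (nat_lit 398) (nat_lit 271) (nat_lit 219)) (XT.nd (nat_lit 94) (nat_lit 0) (nat_lit 0) (XT.lf (nat_lit 0) (nat_lit 18937457049) (nat_lit 84) (nat_lit 20393076883) (nat_lit 84) (nat_lit 3020075128) (nat_lit 4) (nat_lit 4) (nat_lit 5) (nat_lit 5) (nat_lit 5) (nat_lit 4) (nat_lit 399) (nat_lit 271) (nat_lit 218)) (XT.lf (nat_lit 0) (nat_lit 22356360526) (nat_lit 84) (nat_lit 19371980910) (nat_lit 84) (nat_lit 1869783224) (nat_lit 4) (nat_lit 4) (nat_lit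 5) (nat_lit 5) (nat_lit 5) (nat_lit 4) (nat_lit 400) (nat_lit 271) (nat_lit 217)))) (XT.nd (nat_lit 94) (nat_lit 84) (nat_lit 0) (XT.lf (nat_lit 0) (nat_lit 25857332877) (nat_lit 84) (nat_lit 18327520648) (nat_lit 84) (nat_lit 700011679) (nat_lit 4) (nat_lit 4) (nat_lit 5) (nat_lit 5) (nat_lit 5) (nat_lit 4) (nat_lit 401) (nat_lit 271) (nat_lit 216)) (XT.nd (nat_lit 94) (nat_lit 0) (nat_lit 0) (XT.lf (nat_lit 0) (nat_lit 480450802) (nat_lit 168) (nat_lit 16773256825) (nat_lit 84) (nat_lit 28958171652) (nat_lit 3) (nat_lit 5) (nat_lit 5) (nat_lit 5) (nat_lit 4) (nat_lit 4) (nat_lit 402) (nat_lit 271) (nat_lit 215)) (XT.lf (nat_lit 0) (nat_lit 1668052327) (nat_lit 168) (nat_lit 14479127008) (nat_lit 84) (nat_lit 31433153460) (nat_lit 3) (nat_lit 5) (nat_lit 5) (nat_lit 5) (nat_lit 4) (nat_lit 4) (nat_lit 403) (nat_lit 271) (nat_lit 214))))) (XT.nd (nat_lit 282) (nat_lit 84) (nat_lit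 0) (XT.nd (nat_lit 94) (nat_lit 0) (nat_lit 0) (XT.lf (nat_lit 0) (nat_lit 2878003541) (nat_lit 168) (nat_lit 12136060303) (nat_lit 84) (nat_lit 33977652718) (nat_lit 3) (nat_lit 5) (nat_lit 5) (nat_lit 5) (nat_lit 4) (nat_lit 4) (nat_lit 404) (nat_lit 271) (nat_lit 213)) (XT.nd (nat_lit 94) (nat_lit 0) (nat_lit 0) (XT.lf (nat_lit 0) (nat_lit 4111432244) (nat_lit 168) (nat_lit 9741872726) (nat_lit 84) (nat_lit 36594041168) (nat_lit 3) (nat_lit 5) (nat_lit 5) (nat_lit 5) (nat_lit 4) (nat_lit 4) (nat_lit 405) (nat_lit 271) (nat_lit 212)) (XT.lf (nat_lit 0) (nat_lit 5369488122) (nat_lit 168) (nat_lit 7294332645) (nat_lit 84) (nat_lit 39284757557) (nat_lit 3) (nat_lit 5) (nat_lit 5) (nat_lit 5) (nat_lit 4) (nat_lit 4) (nat_lit 406) (nat_lit 271) (nat_lit 211)))) (XT.nd (nat_lit 94) (nat_lit 84) (nat_lit 0) (XT.lf (nat_lit 0) (nat_lit 6653343814) (nat_lit 168) (nat_lit 4791158696) (nat_lit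 84) (nat_lit 42052309916) (nat_lit 3) (nat_lit 5) (nat_lit 5) (nat_lit 5) (nat_lit 4) (nat_lit 4) (nat_lit 407) (nat_lit 271) (nat_lit 210)) (XT.nd (nat_lit 94) (nat_lit 84) (nat_lit 0) (XT.lf (nat_lit 0) (nat_lit 7964196009) (nat_lit 168) (nat_lit 2230017657) (nat_lit 84) (nat_lit 44899277891) (nat_lit 3) (nat_lit 5) (nat_lit 5) (nat_lit 5) (nat_lit 4) (nat_lit 4) (nat_lit 408) (nat_lit 271) (nat_lit 209)) (XT.lf (nat_lit 0) (nat_lit 399527306) (nat_lit 84) (nat_lit 8907702611) (nat_lit 168) (nat_lit 47432751210) (nat_lit 2) (nat_lit 5) (nat_lit 3) (nat_lit 5) (nat_lit 4) (nat_lit 4) (nat_lit 409) (nat_lit 271) (nat_lit 208)))))) (XT.nd (nat_lit 564) (nat_lit 0) (nat_lit 0) (XT.nd (nat_lit 282) (nat_lit 0) (nat_lit 0) (XT.nd (nat_lit 94) (nat_lit 0) (nat_lit 0) (XT.lf (nat_lit 0) (nat_lit 3139015108) (nat_lit 84) (nat_lit 7563927923) (nat_lit 168) (nat_lit 47734276191) (nat_lit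 2) (nat_lit 5) (nat_lit 3) (nat_lit 5) (nat_lit 4) (nat_lit 4) (nat_lit 410) (nat_lit 271) (nat_lit 207)) (XT.nd (nat_lit 94) (nat_lit 0) (nat_lit 0) (XT.lf (nat_lit 0) (nat_lit 5945145502) (nat_lit 84) (nat_lit 6184913874) (nat_lit 168) (nat_lit 48057428355) (nat_lit 2) (nat_lit 5) (nat_lit 3) (nat_lit 5) (nat_lit 4) (nat_lit 4) (nat_lit 411) (nat_lit 271) (nat_lit 206)) (XT.lf (nat_lit 0) (nat_lit 8820534093) (nat_lit 84) (nat_lit 4769375079) (nat_lit 168) (nat_lit 48402508913) (nat_lit 2) (nat_lit 5) (nat_lit 3) (nat_lit 5) (nat_lit 4) (nat_lit 4) (nat_lit 412) (nat_lit 271) (nat_lit 205)))) (XT.nd (nat_lit 94) (nat_lit 0) (nat_lit 0) (XT.lf (nat_lit 0) (nat_lit 11767861047) (nat_lit 84) (nat_lit 3315992108) (nat_lit 168) (nat_lit 48769839516) (nat_lit 2) (nat_lit 5) (nat_lit 3) (nat_lit 5) (nat_lit 4) (nat_lit 4) (nat_lit 413) (nat_lit 271) (nat_lit 204)) (XT.nd (nat_lit 94)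 (nat_lit 0) (nat_lit 0) (XT.lf (nat_lit 0) (nat_lit 14789873580) (nat_lit 84) (nat_lit 1823410255) (nat_lit 168) (nat_lit 49159762556) (nat_lit 2) (nat_lit 5) (nat_lit 3) (nat_lit 5) (nat_lit 4) (nat_lit 4) (nat_lit 414) (nat_lit 271) (nat_lit 203)) (XT.lf (nat_lit 0) (nat_lit 17889388525) (nat_lit 84) (nat_lit 290238277) (nat_lit 168) (nat_lit 49572641481) (nat_lit 2) (nat_lit 5) (nat_lit 3) (nat_lit 5) (nat_lit 4) (nat_lit 4) (nat_lit 415) (nat_lit 271) (nat_lit 202))))) (XT.nd (nat_lit 282) (nat_lit 0) (nat_lit 0) (XT.nd (nat_lit 94) (nat_lit 0) (nat_lit 0) (XT.lf (nat_lit 0) (nat_lit 19797088945) (nat_lit 168) (nat_lit 48736655128) (nat_lit 0) (nat_lit 1259063964) (nat_lit 2) (nat_lit 5) (nat_lit 4) (nat_lit 4) (nat_lit 2) (nat_lit 4) (nat_lit 416) (nat_lit 271) (nat_lit 201)) (XT.nd (nat_lit 94) (nat_lit 0) (nat_lit 0) (XT.lf (nat_lit 0) (nat_lit 21457729733) (nat_lit 168) (nat_lit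 47594000988) (nat_lit 0) (nat_lit 2845129820) (nat_lit 2) (nat_lit 5) (nat_lit 4) (nat_lit 4) (nat_lit 2) (nat_lit 4) (nat_lit 417) (nat_lit 271) (nat_lit 200)) (XT.lf (nat_lit 0) (nat_lit 23160217859) (nat_lit 168) (nat_lit 46430973065) (nat_lit 0) (nat_lit 4475285325) (nat_lit 2) (nat_lit 5) (nat_lit 4) (nat_lit 4) (nat_lit 2) (nat_lit 4) (nat_lit 418) (nat_lit 271) (nat_lit 199)))) (XT.nd (nat_lit 188) (nat_lit 0) (nat_lit 0) (XT.nd (nat_lit 94) (nat_lit 0) (nat_lit 0) (XT.lf (nat_lit 0) (nat_lit 24906140220) (nat_lit 168) (nat_lit 45246487295) (nat_lit 0) (nat_lit 6151049955) (nat_lit 2) (nat_lit 5) (nat_lit 4) (nat_lit 4) (nat_lit 2) (nat_lit 4) (nat_lit 419) (nat_lit 271) (nat_lit 198)) (XT.lf (nat_lit 0) (nat_lit 26697124198) (nat_lit 168) (nat_lit 44039439613) (nat_lit 0) (nat_lit 7873985698) (nat_lit 2) (nat_lit 5) (nat_lit 4) (nat_lit 4) (nat_lit 2) (nat_lit 4) (nat_lit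 420) (nat_lit 271) (nat_lit 197))) (XT.nd (nat_lit 94) (nat_lit 0) (nat_lit 0) (XT.lf (nat_lit 0) (nat_lit 28534839179) (nat_lit 168) (nat_lit 42808704925) (nat_lit 0) (nat_lit 9645698510) (nat_lit 2) (nat_lit 5) (nat_lit 4) (nat_lit 4) (nat_lit 2) (nat_lit 4) (nat_lit 421) (nat_lit 271) (nat_lit 196)) (XT.lf (nat_lit 0) (nat_lit 30420998104) (nat_lit 168) (nat_lit 41553136057) (nat_lit 0) (nat_lit 11467839814) (nat_lit 2) (nat_lit 5) (nat_lit 4) (nat_lit 4) (nat_lit 2) (nat_lit 4) (nat_lit 422) (nat_lit 271) (nat_lit 195))))))) (XT.nd (nat_lit 48974) (nat_lit 0) (nat_lit 924) (XT.nd (nat_lit 48316) (nat_lit 0) (nat_lit 1848) (XT.nd (nat_lit 282) (nat_lit 0) (nat_lit 0) (XT.nd (nat_lit 94) (nat_lit 0) (nat_lit 0) (XT.lf (nat_lit 0) (nat_lit 32357359072) (nat_lit 168) (nat_lit 40271562687) (nat_lit 0) (nat_lit 13342108035) (nat_lit 2) (nat_lit 5) (nat_lit 4) (nat_lit 4) (nat_lit 2)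 (nat_lit 4) (nat_lit 423) (nat_lit 271) (nat_lit 194)) (XT.nd (nat_lit 94) (nat_lit 0) (nat_lit 0) (XT.lf (nat_lit 0) (nat_lit 34345726975) (nat_lit 168) (nat_lit 38962790255) (nat_lit 0) (nat_lit 15270250188) (nat_lit 2) (nat_lit 5) (nat_lit 4) (nat_lit 4) (nat_lit 2) (nat_lit 4) (nat_lit 424) (nat_lit 271) (nat_lit 193)) (XT.lf (nat_lit 0) (nat_lit 36387955178) (nat_lit 168) (nat_lit 37625598847) (nat_lit 0) (nat_lit 17254063505) (nat_lit 2) (nat_lit 5) (nat_lit 4) (nat_lit 4) (nat_lit 2) (nat_lit 4) (nat_lit 425) (nat_lit 271) (nat_lit 192)))) (XT.nd (nat_lit 94) (nat_lit 0) (nat_lit 0) (XT.lf (nat_lit 0) (nat_lit 38485947253) (nat_lit 168) (nat_lit 36258742062) (nat_lit 0) (nat_lit 19295397105) (nat_lit 2) (nat_lit 5) (nat_lit 4) (nat_lit 4) (nat_lit 2) (nat_lit 4) (nat_lit 426) (nat_lit 271) (nat_lit 191)) (XT.nd (nat_lit 94) (nat_lit 0) (nat_lit 0) (XT.lf (nat_lit 0) (nat_lit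 40641658749) (nat_lit 168) (nat_lit 34860945844) (nat_lit 0) (nat_lit 21396153727) (nat_lit 2) (nat_lit 5) (nat_lit 4) (nat_lit 4) (nat_lit 2) (nat_lit 4) (nat_lit 427) (nat_lit 271) (nat_lit 190)) (XT.lf (nat_lit 0) (nat_lit 42857099013) (nat_lit 168) (nat_lit 33430907303) (nat_lit 0) (nat_lit 23558291495) (nat_lit 2) (nat_lit 5) (nat_lit 4) (nat_lit 4) (nat_lit 2) (nat_lit 4) (nat_lit 428) (nat_lit 271) (nat_lit 189))))) (XT.nd (nat_lit 282) (nat_lit 336) (nat_lit 0) (XT.nd (nat_lit 94) (nat_lit 252) (nat_lit 0) (XT.lf (nat_lit 0) (nat_lit 2016467684) (nat_lit 336) (nat_lit 1167461761) (nat_lit 0) (nat_lit 2016467684) (nat_lit 31) (nat_lit 5) (nat_lit 35) (nat_lit 4) (nat_lit 31) (nat_lit 4) (nat_lit 344) (nat_lit 272) (nat_lit 272)) (XT.nd (nat_lit 94) (nat_lit 0) (nat_lit 0) (XT.lf (nat_lit 0) (nat_lit 1678092477) (nat_lit 252) (nat_lit 4854276093) (nat_lit 252) (nat_lit 4071729704)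 (nat_lit 28) (nat_lit 4) (nat_lit 31) (nat_lit 5) (nat_lit 31) (nat_lit 4) (nat_lit 345) (nat_lit 272) (nat_lit 271)) (XT.lf (nat_lit 0) (nat_lit 5782545578) (nat_lit 252) (nat_lit 3287178824) (nat_lit 252) (nat_lit 1745615569) (nat_lit 28) (nat_lit 4) (nat_lit 31) (nat_lit 5) (nat_lit 31) (nat_lit 4) (nat_lit 346) (nat_lit 272) (nat_lit 270)))) (XT.nd (nat_lit 188) (nat_lit 0) (nat_lit 0) (XT.nd (nat_lit 94) (nat_lit 252) (nat_lit 0) (XT.lf (nat_lit 0) (nat_lit 576427353) (nat_lit 336) (nat_lit 1107034126) (nat_lit 84) (nat_lit 9351806672) (nat_lit 27) (nat_lit 5) (nat_lit 31) (nat_lit 5) (nat_lit 28) (nat_lit 4) (nat_lit 347) (nat_lit 272) (nat_lit 269)) (XT.lf (nat_lit 0) (nat_lit 2901825290) (nat_lit 252) (nat_lit 17333) (nat_lit 336) (nat_lit 8360994002) (nat_lit 24) (nat_lit 5) (nat_lit 27) (nat_lit 5) (nat_lit 28) (nat_lit 4) (nat_lit 348) (nat_lit 272) (nat_lit 268))) (XT.nd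 (nat_lit 94) (nat_lit 0) (nat_lit 0) (XT.lf (nat_lit 0) (nat_lit 5267978276) (nat_lit 336) (nat_lit 4536460959) (nat_lit 0) (nat_lit 1694354779) (nat_lit 24) (nat_lit 5) (nat_lit 28) (nat_lit 4) (nat_lit 24) (nat_lit 4) (nat_lit 349) (nat_lit 272) (nat_lit 267)) (XT.lf (nat_lit 0) (nat_lit 7649017811) (nat_lit 336) (nat_lit 671382341) (nat_lit 0) (nat_lit 3423828784) (nat_lit 24) (nat_lit 5) (nat_lit 28) (nat_lit 4) (nat_lit 24) (nat_lit 4) (nat_lit 350) (nat_lit 272) (nat_lit 266)))))) (XT.nd (nat_lit 564) (nat_lit 420) (nat_lit 0) (XT.nd (nat_lit 282) (nat_lit 168) (nat_lit 0) (XT.nd (nat_lit 94) (nat_lit 84) (nat_lit 0) (XT.lf (nat_lit 0) (nat_lit 3304403720) (nat_lit 252) (nat_lit 6775556807) (nat_lit 252) (nat_lit 1918393456) (nat_lit 21) (nat_lit 4) (nat_lit 24) (nat_lit 5) (nat_lit 24) (nat_lit 4) (nat_lit 351) (nat_lit 272) (nat_lit 265)) (XT.nd (nat_lit 94) (nat_lit 0) (nat_lit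 0) (XT.lf (nat_lit 0) (nat_lit 269797449) (nat_lit 336) (nat_lit 4922176917) (nat_lit 84) (nat_lit 7070138412) (nat_lit 20) (nat_lit 5) (nat_lit 24) (nat_lit 5) (nat_lit 21) (nat_lit 4) (nat_lit 352) (nat_lit 272) (nat_lit 264)) (XT.lf (nat_lit 0) (nat_lit 2431053847) (nat_lit 336) (nat_lit 1127206578) (nat_lit 84) (nat_lit 8977192582) (nat_lit 20) (nat_lit 5) (nat_lit 24) (nat_lit 5) (nat_lit 21) (nat_lit 4) (nat_lit 353) (nat_lit 272) (nat_lit 263)))) (XT.nd (nat_lit 94) (nat_lit 0) (nat_lit 0) (XT.lf (nat_lit 0) (nat_lit 2769324479) (nat_lit 168) (nat_lit 1864189167) (nat_lit 252) (nat_lit 8184854125) (nat_lit 18) (nat_lit 5) (nat_lit 20) (nat_lit 5) (nat_lit 21) (nat_lit 4) (nat_lit 354) (nat_lit 272) (nat_lit 262)) (XT.nd (nat_lit 94) (nat_lit 0) (nat_lit 0) (XT.lf (nat_lit 0) (nat_lit 6739392819) (nat_lit 168) (nat_lit 124250831) (nat_lit 252) (nat_lit 6247960294) (nat_lit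 18) (nat_lit 5) (nat_lit 20) (nat_lit 5) (nat_lit 21) (nat_lit 4) (nat_lit 355) (nat_lit 272) (nat_lit 261)) (XT.lf (nat_lit 0) (nat_lit 9128492818) (nat_lit 252) (nat_lit 2668649541) (nat_lit 0) (nat_lit 1618138417) (nat_lit 18) (nat_lit 5) (nat_lit 21) (nat_lit 4) (nat_lit 18) (nat_lit 4) (nat_lit 356) (nat_lit 272) (nat_lit 260))))) (XT.nd (nat_lit 282) (nat_lit 168) (nat_lit 0) (XT.nd (nat_lit 94) (nat_lit 84) (nat_lit 0) (XT.lf (nat_lit 0) (nat_lit 1102092359) (nat_lit 168) (nat_lit 10324218672) (nat_lit 168) (nat_lit 2303489994) (nat_lit 16) (nat_lit 4) (nat_lit 18) (nat_lit 5) (nat_lit 18) (nat_lit 4) (nat_lit 357) (nat_lit 272) (nat_lit 259)) (XT.nd (nat_lit 94) (nat_lit 84) (nat_lit 0) (XT.lf (nat_lit 0) (nat_lit 4978431373) (nat_lit 168) (nat_lit 8796153927) (nat_lit 168) (nat_lit 280396852) (nat_lit 16) (nat_lit 4) (nat_lit 18) (nat_lit 5) (nat_lit 18) (nat_lit 4) (nat_lit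 358) (nat_lit 272) (nat_lit 258)) (XT.lf (nat_lit 0) (nat_lit 1721131968) (nat_lit 252) (nat_lit 5500281981) (nat_lit 84) (nat_lit 7170010690) (nat_lit 15) (nat_lit 5) (nat_lit 18) (nat_lit 5) (nat_lit 16) (nat_lit 4) (nat_lit 359) (nat_lit 272) (nat_lit 257)))) (XT.nd (nat_lit 188) (nat_lit 0) (nat_lit 0) (XT.nd (nat_lit 94) (nat_lit 168) (nat_lit 0) (XT.lf (nat_lit 0) (nat_lit 3732418912) (nat_lit 252) (nat_lit 1881065214) (nat_lit 84) (nat_lit 9126407568) (nat_lit 15) (nat_lit 5) (nat_lit 18) (nat_lit 5) (nat_lit 16) (nat_lit 4) (nat_lit 360) (nat_lit 272) (nat_lit 256)) (XT.lf (nat_lit 0) (nat_lit 1824004201) (nat_lit 168) (nat_lit 3955078228) (nat_lit 252) (nat_lit 9321151002) (nat_lit 13) (nat_lit 5) (nat_lit 15) (nat_lit 5) (nat_lit 16) (nat_lit 4) (nat_lit 361) (nat_lit 272) (nat_lit 255))) (XT.nd (nat_lit 94) (nat_lit 0) (nat_lit 0) (XT.lf (nat_lit 0) (nat_lit 5621354429)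 (nat_lit 168) (nat_lit 2243140418) (nat_lit 252) (nat_lit 7608245475) (nat_lit 13) (nat_lit 5) (nat_lit 15) (nat_lit 5) (nat_lit 16) (nat_lit 4) (nat_lit 362) (nat_lit 272) (nat_lit 254)) (XT.lf (nat_lit 0) (nat_lit 9475846440) (nat_lit 168) (nat_lit 495709454) (nat_lit 252) (nat_lit 5886794057) (nat_lit 13) (nat_lit 5) (nat_lit 15) (nat_lit 5) (nat_lit 16) (nat_lit 4) (nat_lit 363) (nat_lit 272) (nat_lit 253))))))))
noncomputable def xc34 : XT := (XT.nd (nat_lit 2350) (nat_lit 252) (nat_lit 0) (XT.nd (nat_lit 1128) (nat_lit 336) (nat_lit 0) (XT.nd (nat_lit 564) (nat_lit 84) (nat_lit 0) (XT.nd (nat_lit 282) (nat_lit 84) (nat_lit 0) (XT.nd (nat_lit 94) (nat_lit 168) (nat_lit 0) (XT.lf (nat_lit 0) (nat_lit 12115015057) (nat_lit 252) (nat_lit 2879134209) (nat_lit 0) (nat_lit 1262876128) (nat_lit 13) (nat_lit 5) (nat_lit 16) (nat_lit 4) (nat_lit 13) (nat_lit 4) (nat_lit 364) (nat_lit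 272) (nat_lit 252)) (XT.nd (nat_lit 94) (nat_lit 0) (nat_lit 0) (XT.lf (nat_lit 0) (nat_lit 683248606) (nat_lit 168) (nat_lit 13612904418) (nat_lit 168) (nat_lit 2373007468) (nat_lit 11) (nat_lit 4) (nat_lit 13) (nat_lit 5) (nat_lit 13) (nat_lit 4) (nat_lit 365) (nat_lit 272) (nat_lit 251)) (XT.lf (nat_lit 0) (nat_lit 4359404595) (nat_lit 168) (nat_lit 12175586537) (nat_lit 168) (nat_lit 559590633) (nat_lit 11) (nat_lit 4) (nat_lit 13) (nat_lit 5) (nat_lit 13) (nat_lit 4) (nat_lit 366) (nat_lit 272) (nat_lit 250)))) (XT.nd (nat_lit 94) (nat_lit 0) (nat_lit 0) (XT.lf (nat_lit 0) (nat_lit 1244292989) (nat_lit 252) (nat_lit 9453627291) (nat_lit 84) (nat_lit 6836278559) (nat_lit 10) (nat_lit 5) (nat_lit 13) (nat_lit 5) (nat_lit 11) (nat_lit 4) (nat_lit 367) (nat_lit 272) (nat_lit 249)) (XT.nd (nat_lit 94) (nat_lit 0) (nat_lit 0) (XT.lf (nat_lit 0) (nat_lit 3054301600) (nat_lit 252) (nat_lit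 6131321770) (nat_lit 84) (nat_lit 8803011444) (nat_lit 10) (nat_lit 5) (nat_lit 13) (nat_lit 5) (nat_lit 11) (nat_lit 4) (nat_lit 368) (nat_lit 272) (nat_lit 248)) (XT.lf (nat_lit 0) (nat_lit 4883396820) (nat_lit 252) (nat_lit 2759612665) (nat_lit 84) (nat_lit 10815475879) (nat_lit 10) (nat_lit 5) (nat_lit 13) (nat_lit 5) (nat_lit 11) (nat_lit 4) (nat_lit 369) (nat_lit 272) (nat_lit 247))))) (XT.nd (nat_lit 282) (nat_lit 0) (nat_lit 0) (XT.nd (nat_lit 94) (nat_lit 0) (nat_lit 0) (XT.lf (nat_lit 0) (nat_lit 678309231) (nat_lit 84) (nat_lit 6061703239) (nat_lit 168) (nat_lit 12203967370) (nat_lit 9) (nat_lit 5) (nat_lit 10) (nat_lit 5) (nat_lit 11) (nat_lit 4) (nat_lit 370) (nat_lit 272) (nat_lit 246)) (XT.nd (nat_lit 94) (nat_lit 0) (nat_lit 0) (XT.lf (nat_lit 0) (nat_lit 4229858650) (nat_lit 84) (nat_lit 4417788173) (nat_lit 168) (nat_lit 10797249150) (nat_lit 9) (nat_lit 5) (nat_lit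 10) (nat_lit 5) (nat_lit 11) (nat_lit 4) (nat_lit 371) (nat_lit 272) (nat_lit 245)) (XT.lf (nat_lit 0) (nat_lit 7841602712) (nat_lit 84) (nat_lit 2738536684) (nat_lit 168) (nat_lit 9382427373) (nat_lit 9) (nat_lit 5) (nat_lit 10) (nat_lit 5) (nat_lit 11) (nat_lit 4) (nat_lit 372) (nat_lit 272) (nat_lit 244)))) (XT.nd (nat_lit 94) (nat_lit 0) (nat_lit 0) (XT.lf (nat_lit 0) (nat_lit 11516907941) (nat_lit 84) (nat_lit 1022383533) (nat_lit 168) (nat_lit 7958183275) (nat_lit 9) (nat_lit 5) (nat_lit 10) (nat_lit 5) (nat_lit 11) (nat_lit 4) (nat_lit 373) (nat_lit 272) (nat_lit 243)) (XT.nd (nat_lit 94) (nat_lit 0) (nat_lit 0) (XT.lf (nat_lit 0) (nat_lit 14534193411) (nat_lit 168) (nat_lit 5798182619) (nat_lit 0) (nat_lit 717517285) (nat_lit 9) (nat_lit 5) (nat_lit 11) (nat_lit 4) (nat_lit 9) (nat_lit 4) (nat_lit 374) (nat_lit 272) (nat_lit 242)) (XT.lf (nat_lit 0) (nat_lit 16569974007)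 (nat_lit 168) (nat_lit 2574114515) (nat_lit 0) (nat_lit 2476147505) (nat_lit 9) (nat_lit 5) (nat_lit 11) (nat_lit 4) (nat_lit 9) (nat_lit 4) (nat_lit 375) (nat_lit 272) (nat_lit 241)))))) (XT.nd (nat_lit 564) (nat_lit 84) (nat_lit 0) (XT.nd (nat_lit 282) (nat_lit 84) (nat_lit 0) (XT.nd (nat_lit 94) (nat_lit 0) (nat_lit 0) (XT.lf (nat_lit 0) (nat_lit 719276664) (nat_lit 168) (nat_lit 17926247302) (nat_lit 168) (nat_lit 3563603753) (nat_lit 7) (nat_lit 4) (nat_lit 9) (nat_lit 5) (nat_lit 9) (nat_lit 4) (nat_lit 376) (nat_lit 272) (nat_lit 240)) (XT.nd (nat_lit 94) (nat_lit 0) (nat_lit 0) (XT.lf (nat_lit 0) (nat_lit 4124674735) (nat_lit 168) (nat_lit 16657607875) (nat_lit 168) (nat_lit 2034230042) (nat_lit 7) (nat_lit 4) (nat_lit 9) (nat_lit 5) (nat_lit 9) (nat_lit 4) (nat_lit 377) (nat_lit 272) (nat_lit 239)) (XT.lf (nat_lit 0) (nat_lit 7592324813) (nat_lit 168) (nat_lit 15363856213)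 (nat_lit 168) (nat_lit 487583826) (nat_lit 7) (nat_lit 4) (nat_lit 9) (nat_lit 5) (nat_lit 9) (nat_lit 4) (nat_lit 378) (nat_lit 272) (nat_lit 238)))) (XT.nd (nat_lit 94) (nat_lit 0) (nat_lit 0) (XT.lf (nat_lit 0) (nat_lit 1056061733) (nat_lit 252) (nat_lit 12976701552) (nat_lit 84) (nat_lit 10058374257) (nat_lit 6) (nat_lit 5) (nat_lit 9) (nat_lit 5) (nat_lit 7) (nat_lit 4) (nat_lit 379) (nat_lit 272) (nat_lit 237)) (XT.nd (nat_lit 94) (nat_lit 0) (nat_lit 0) (XT.lf (nat_lit 0) (nat_lit 2609650341) (nat_lit 252) (nat_lit 10059278266) (nat_lit 84) (nat_lit 12090481137) (nat_lit 6) (nat_lit 5) (nat_lit 9) (nat_lit 5) (nat_lit 7) (nat_lit 4) (nat_lit 380) (nat_lit 272) (nat_lit 236)) (XT.lf (nat_lit 0) (nat_lit 4184453830) (nat_lit 252) (nat_lit 7091613946) (nat_lit 84) (nat_lit 14173286525) (nat_lit 6) (nat_lit 5) (nat_lit 9) (nat_lit 5) (nat_lit 7) (nat_lit 4) (nat_lit 381) (nat_lit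 272) (nat_lit 235))))) (XT.nd (nat_lit 282) (nat_lit 0) (nat_lit 0) (XT.nd (nat_lit 94) (nat_lit 84) (nat_lit 0) (XT.lf (nat_lit 0) (nat_lit 5781940084) (nat_lit 252) (nat_lit 4070942419) (nat_lit 84) (nat_lit 16308731813) (nat_lit 6) (nat_lit 5) (nat_lit 9) (nat_lit 5) (nat_lit 7) (nat_lit 4) (nat_lit 382) (nat_lit 272) (nat_lit 234)) (XT.nd (nat_lit 94) (nat_lit 84) (nat_lit 0) (XT.lf (nat_lit 0) (nat_lit 7403598125) (nat_lit 252) (nat_lit 994448102) (nat_lit 84) (nat_lit 18498807461) (nat_lit 6) (nat_lit 5) (nat_lit 9) (nat_lit 5) (nat_lit 7) (nat_lit 4) (nat_lit 383) (nat_lit 272) (nat_lit 233)) (XT.lf (nat_lit 0) (nat_lit 2184754555) (nat_lit 84) (nat_lit 6887857990) (nat_lit 168) (nat_lit 18582473327) (nat_lit 5) (nat_lit 5) (nat_lit 6) (nat_lit 5) (nat_lit 7) (nat_lit 4) (nat_lit 384) (nat_lit 272) (nat_lit 232)))) (XT.nd (nat_lit 188) (nat_lit 0) (nat_lit 0) (XT.nd (nat_lit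 94) (nat_lit 0) (nat_lit 0) (XT.lf (nat_lit 0) (nat_lit 5447284715) (nat_lit 84) (nat_lit 5332252756) (nat_lit 168) (nat_lit 17657821199) (nat_lit 5) (nat_lit 5) (nat_lit 6) (nat_lit 5) (nat_lit 7) (nat_lit 4) (nat_lit 385) (nat_lit 272) (nat_lit 231)) (XT.lf (nat_lit 0) (nat_lit 8775735505) (nat_lit 84) (nat_lit 3740160537) (nat_lit 168) (nat_lit 16728817305) (nat_lit 5) (nat_lit 5) (nat_lit 6) (nat_lit 5) (nat_lit 7) (nat_lit 4) (nat_lit 386) (nat_lit 272) (nat_lit 230))) (XT.nd (nat_lit 94) (nat_lit 0) (nat_lit 0) (XT.lf (nat_lit 0) (nat_lit 12173209389) (nat_lit 84) (nat_lit 2110097336) (nat_lit 168) (nat_lit 15794595717) (nat_lit 5) (nat_lit 5) (nat_lit 6) (nat_lit 5) (nat_lit 7) (nat_lit 4) (nat_lit 387) (nat_lit 272) (nat_lit 229)) (XT.lf (nat_lit 0) (nat_lit 15642873168) (nat_lit 84) (nat_lit 440543764) (nat_lit 168) (nat_lit 14854285641) (nat_lit 5) (nat_lit 5) (nat_lit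 6) (nat_lit 5) (nat_lit 7) (nat_lit 4) (nat_lit 388) (nat_lit 272) (nat_lit 228))))))) (XT.nd (nat_lit 1222) (nat_lit 168) (nat_lit 0) (XT.nd (nat_lit 564) (nat_lit 0) (nat_lit 0) (XT.nd (nat_lit 282) (nat_lit 84) (nat_lit 0) (XT.nd (nat_lit 94) (nat_lit 0) (nat_lit 0) (XT.lf (nat_lit 0) (nat_lit 17930503673) (nat_lit 168) (nat_lit 12649553350) (nat_lit 0) (nat_lit 1244467571) (nat_lit 5) (nat_lit 5) (nat_lit 7) (nat_lit 4) (nat_lit 5) (nat_lit 4) (nat_lit 389) (nat_lit 272) (nat_lit 227)) (XT.nd (nat_lit 94) (nat_lit 0) (nat_lit 0) (XT.lf (nat_lit 0) (nat_lit 19818471017) (nat_lit 168) (nat_lit 9958581604) (nat_lit 0) (nat_lit 2962384839) (nat_lit 5) (nat_lit 5) (nat_lit 7) (nat_lit 4) (nat_lit 5) (nat_lit 4) (nat_lit 390) (nat_lit 272) (nat_lit 226)) (XT.lf (nat_lit 0) (nat_lit 21744708498) (nat_lit 168) (nat_lit 7215035652) (nat_lit 0) (nat_lit 4723685294) (nat_lit 5) (nat_lit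 5) (nat_lit 7) (nat_lit 4) (nat_lit 5) (nat_lit 4) (nat_lit 391) (nat_lit 272) (nat_lit 225)))) (XT.nd (nat_lit 94) (nat_lit 84) (nat_lit 0) (XT.lf (nat_lit 0) (nat_lit 23711011572) (nat_lit 168) (nat_lit 4416358221) (nat_lit 0) (nat_lit 6530010650) (nat_lit 5) (nat_lit 5) (nat_lit 7) (nat_lit 4) (nat_lit 5) (nat_lit 4) (nat_lit 392) (nat_lit 272) (nat_lit 224)) (XT.nd (nat_lit 94) (nat_lit 84) (nat_lit 0) (XT.lf (nat_lit 0) (nat_lit 25719213040) (nat_lit 168) (nat_lit 1559940651) (nat_lit 0) (nat_lit 8383044594) (nat_lit 5) (nat_lit 5) (nat_lit 7) (nat_lit 4) (nat_lit 5) (nat_lit 4) (nat_lit 393) (nat_lit 272) (nat_lit 223)) (XT.lf (nat_lit 0) (nat_lit 1384779763) (nat_lit 84) (nat_lit 26400142179) (nat_lit 84) (nat_lit 8913471769) (nat_lit 4) (nat_lit 4) (nat_lit 5) (nat_lit 5) (nat_lit 5) (nat_lit 4) (nat_lit 394) (nat_lit 272) (nat_lit 222))))) (XT.nd (nat_lit 282) (nat_lit 0)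 (nat_lit 0) (XT.nd (nat_lit 94) (nat_lit 0) (nat_lit 0) (XT.lf (nat_lit 0) (nat_lit 4425995064) (nat_lit 84) (nat_lit 25486750727) (nat_lit 84) (nat_lit 7854103630) (nat_lit 4) (nat_lit 4) (nat_lit 5) (nat_lit 5) (nat_lit 5) (nat_lit 4) (nat_lit 395) (nat_lit 272) (nat_lit 221)) (XT.nd (nat_lit 94) (nat_lit 0) (nat_lit 0) (XT.lf (nat_lit 0) (nat_lit 7534464403) (nat_lit 84) (nat_lit 24554410538) (nat_lit 84) (nat_lit 6780175967) (nat_lit 4) (nat_lit 4) (nat_lit 5) (nat_lit 5) (nat_lit 5) (nat_lit 4) (nat_lit 396) (nat_lit 272) (nat_lit 220)) (XT.lf (nat_lit 0) (nat_lit 10713085199) (nat_lit 84) (nat_lit 23602252576) (nat_lit 84) (nat_lit 5690687767) (nat_lit 4) (nat_lit 4) (nat_lit 5) (nat_lit 5) (nat_lit 5) (nat_lit 4) (nat_lit 397) (nat_lit 272) (nat_lit 219)))) (XT.nd (nat_lit 188) (nat_lit 0) (nat_lit 0) (XT.nd (nat_lit 94) (nat_lit 0) (nat_lit 0) (XT.lf (nat_lit 0) (nat_lit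 13964820260) (nat_lit 84) (nat_lit 22629389328) (nat_lit 84) (nat_lit 4584623513) (nat_lit 4) (nat_lit 4) (nat_lit 5) (nat_lit 5) (nat_lit 5) (nat_lit 4) (nat_lit 398) (nat_lit 272) (nat_lit 218)) (XT.lf (nat_lit 0) (nat_lit 17292700543) (nat_lit 84) (nat_lit 21634913984) (nat_lit 84) (nat_lit 3460952237) (nat_lit 4) (nat_lit 4) (nat_lit 5) (nat_lit 5) (nat_lit 5) (nat_lit 4) (nat_lit 399) (nat_lit 272) (nat_lit 217))) (XT.nd (nat_lit 94) (nat_lit 0) (nat_lit 0) (XT.lf (nat_lit 0) (nat_lit 20699827982) (nat_lit 84) (nat_lit 20617899590) (nat_lit 84) (nat_lit 2318626561) (nat_lit 4) (nat_lit 4) (nat_lit 5) (nat_lit 5) (nat_lit 5) (nat_lit 4) (nat_lit 400) (nat_lit 272) (nat_lit 216)) (XT.lf (nat_lit 0) (nat_lit 24189378375) (nat_lit 84) (nat_lit 19577398181) (nat_lit 84) (nat_lit 1156581716) (nat_lit 4) (nat_lit 4) (nat_lit 5) (nat_lit 5) (nat_lit 5) (nat_lit 4) (nat_lit 401) (nat_lit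 272) (nat_lit 215)))))) (XT.nd (nat_lit 564) (nat_lit 84) (nat_lit 0) (XT.nd (nat_lit 282) (nat_lit 0) (nat_lit 0) (XT.nd (nat_lit 94) (nat_lit 0) (nat_lit 0) (XT.lf (nat_lit 0) (nat_lit 25736254) (nat_lit 168) (nat_lit 18486435012) (nat_lit 84) (nat_lit 27738599462) (nat_lit 3) (nat_lit 5) (nat_lit 5) (nat_lit 5) (nat_lit 4) (nat_lit 4) (nat_lit 402) (nat_lit 272) (nat_lit 214)) (XT.nd (nat_lit 94) (nat_lit 0) (nat_lit 0) (XT.lf (nat_lit 0) (nat_lit 1206215200) (nat_lit 168) (nat_lit 16203226483) (nat_lit 84) (nat_lit 30210032779) (nat_lit 3) (nat_lit 5) (nat_lit 5) (nat_lit 5) (nat_lit 4) (nat_lit 4) (nat_lit 403) (nat_lit 272) (nat_lit 213)) (XT.lf (nat_lit 0) (nat_lit 2409257995) (nat_lit 168) (nat_lit 13870752686) (nat_lit 84) (nat_lit 32751090242) (nat_lit 3) (nat_lit 5) (nat_lit 5) (nat_lit 5) (nat_lit 4) (nat_lit 4) (nat_lit 404) (nat_lit 272) (nat_lit 212)))) (XT.nd (nat_lit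 94) (nat_lit 0) (nat_lit 0) (XT.lf (nat_lit 0) (nat_lit 3635986002) (nat_lit 168) (nat_lit 11486839512) (nat_lit 84) (nat_lit 35364140385) (nat_lit 3) (nat_lit 5) (nat_lit 5) (nat_lit 5) (nat_lit 4) (nat_lit 4) (nat_lit 405) (nat_lit 272) (nat_lit 211)) (XT.nd (nat_lit 94) (nat_lit 0) (nat_lit 0) (XT.lf (nat_lit 0) (nat_lit 4887542659) (nat_lit 168) (nat_lit 9049264903) (nat_lit 84) (nat_lit 38051618842) (nat_lit 3) (nat_lit 5) (nat_lit 5) (nat_lit 5) (nat_lit 4) (nat_lit 4) (nat_lit 406) (nat_lit 272) (nat_lit 210)) (XT.lf (nat_lit 0) (nat_lit 6165094548) (nat_lit 168) (nat_lit 6555756785) (nat_lit 84) (nat_lit 40816030626) (nat_lit 3) (nat_lit 5) (nat_lit 5) (nat_lit 5) (nat_lit 4) (nat_lit 4) (nat_lit 407) (nat_lit 272) (nat_lit 209))))) (XT.nd (nat_lit 282) (nat_lit 0) (nat_lit 0) (XT.nd (nat_lit 94) (nat_lit 84) (nat_lit 0) (XT.lf (nat_lit 0) (nat_lit 7469832481) (nat_lit 168)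 (nat_lit 4003990946) (nat_lit 84) (nat_lit 43659952459) (nat_lit 3) (nat_lit 5) (nat_lit 5) (nat_lit 5) (nat_lit 4) (nat_lit 4) (nat_lit 408) (nat_lit 272) (nat_lit 208)) (XT.nd (nat_lit 94) (nat_lit 84) (nat_lit 0) (XT.lf (nat_lit 0) (nat_lit 8802972611) (nat_lit 168) (nat_lit 1391588875) (nat_lit 84) (nat_lit 46586035172) (nat_lit 3) (nat_lit 5) (nat_lit 5) (nat_lit 5) (nat_lit 4) (nat_lit 4) (nat_lit 409) (nat_lit 272) (nat_lit 207)) (XT.lf (nat_lit 0) (nat_lit 1310283759) (nat_lit 84) (nat_lit 8868471982) (nat_lit 168) (nat_lit 48299720599) (nat_lit 2) (nat_lit 5) (nat_lit 3) (nat_lit 5) (nat_lit 4) (nat_lit 4) (nat_lit 410) (nat_lit 272) (nat_lit 206)))) (XT.nd (nat_lit 188) (nat_lit 0) (nat_lit 0) (XT.nd (nat_lit 94) (nat_lit 0) (nat_lit 0) (XT.lf (nat_lit 0) (nat_lit 4107683555) (nat_lit 84) (nat_lit 7492522773) (nat_lit 168) (nat_lit 48628737203) (nat_lit 2) (nat_lit 5) (nat_lit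 3) (nat_lit 5) (nat_lit 4) (nat_lit 4) (nat_lit 411) (nat_lit 272) (nat_lit 205)) (XT.lf (nat_lit 0) (nat_lit 6974604060) (nat_lit 84) (nat_lit 6079956664) (nat_lit 168) (nat_lit 48979505869) (nat_lit 2) (nat_lit 5) (nat_lit 3) (nat_lit 5) (nat_lit 4) (nat_lit 4) (nat_lit 412) (nat_lit 272) (nat_lit 204))) (XT.nd (nat_lit 94) (nat_lit 0) (nat_lit 0) (XT.lf (nat_lit 0) (nat_lit 9913717544) (nat_lit 84) (nat_lit 4629456997) (nat_lit 168) (nat_lit 49352353551) (nat_lit 2) (nat_lit 5) (nat_lit 3) (nat_lit 5) (nat_lit 4) (nat_lit 4) (nat_lit 413) (nat_lit 272) (nat_lit 203)) (XT.lf (nat_lit 0) (nat_lit 12927763570) (nat_lit 84) (nat_lit 3139671753) (nat_lit 168) (nat_lit 49747627783) (nat_lit 2) (nat_lit 5) (nat_lit 3) (nat_lit 5) (nat_lit 4) (nat_lit 4) (nat_lit 414) (nat_lit 272) (nat_lit 202))))))))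
noncomputable def xc35 : XT := (XT.nd (nat_lit 49820) (nat_lit 0) (nat_lit 420) (XT.nd (nat_lit 1128) (nat_lit 0) (nat_lit 0) (XT.nd (nat_lit 564) (nat_lit 0) (nat_lit 0) (XT.nd (nat_lit 282) (nat_lit 0) (nat_lit 0) (XT.nd (nat_lit 94) (nat_lit 0) (nat_lit 0) (XT.lf (nat_lit 0) (nat_lit 16019551543) (nat_lit 84) (nat_lit 1609212296) (nat_lit 168) (nat_lit 50165697001) (nat_lit 2) (nat_lit 5) (nat_lit 3) (nat_lit 5) (nat_lit 4) (nat_lit 4) (nat_lit 415) (nat_lit 272) (nat_lit 201)) (XT.nd (nat_lit 94) (nat_lit 0) (nat_lit 0) (XT.lf (nat_lit 0) (nat_lit 19191963335) (nat_lit 84) (nat_lit 36652078) (nat_lit 168) (nat_lit 50606950890) (nat_lit 2) (nat_lit 5) (nat_lit 3) (nat_lit 5) (nat_lit 4) (nat_lit 4) (nat_lit 416) (nat_lit 272) (nat_lit 200)) (XT.lf (nat_lit 0) (nat_lit 20884149858) (nat_lit 168) (nat_lit 49507994637) (nat_lit 0) (nat_lit 1547651795) (nat_lit 2) (nat_lit 5) (nat_lit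 4) (nat_lit 4) (nat_lit 2) (nat_lit 4) (nat_lit 417) (nat_lit 272) (nat_lit 199)))) (XT.nd (nat_lit 94) (nat_lit 0) (nat_lit 0) (XT.lf (nat_lit 0) (nat_lit 22582037838) (nat_lit 168) (nat_lit 48352153331) (nat_lit 0) (nat_lit 3175382044) (nat_lit 2) (nat_lit 5) (nat_lit 4) (nat_lit 4) (nat_lit 2) (nat_lit 4) (nat_lit 418) (nat_lit 272) (nat_lit 198)) (XT.nd (nat_lit 94) (nat_lit 0) (nat_lit 0) (XT.lf (nat_lit 0) (nat_lit 24323498369) (nat_lit 168) (nat_lit 47174638091) (nat_lit 0) (nat_lit 4848794340) (nat_lit 2) (nat_lit 5) (nat_lit 4) (nat_lit 4) (nat_lit 2) (nat_lit 4) (nat_lit 419) (nat_lit 272) (nat_lit 197)) (XT.lf (nat_lit 0) (nat_lit 26110154676) (nat_lit 168) (nat_lit 45974351351) (nat_lit 0) (nat_lit 6569448478) (nat_lit 2) (nat_lit 5) (nat_lit 4) (nat_lit 4) (nat_lit 2) (nat_lit 4) (nat_lit 420) (nat_lit 272) (nat_lit 196))))) (XT.nd (nat_lit 282) (nat_lit 0) (nat_lit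 0) (XT.nd (nat_lit 94) (nat_lit 0) (nat_lit 0) (XT.lf (nat_lit 0) (nat_lit 27943672109) (nat_lit 168) (nat_lit 44750174317) (nat_lit 0) (nat_lit 8338948289) (nat_lit 2) (nat_lit 5) (nat_lit 4) (nat_lit 4) (nat_lit 2) (nat_lit 4) (nat_lit 421) (nat_lit 272) (nat_lit 195)) (XT.nd (nat_lit 94) (nat_lit 0) (nat_lit 0) (XT.lf (nat_lit 0) (nat_lit 29825759698) (nat_lit 168) (nat_lit 43500965928) (nat_lit 0) (nat_lit 10158943131) (nat_lit 2) (nat_lit 5) (nat_lit 4) (nat_lit 4) (nat_lit 2) (nat_lit 4) (nat_lit 422) (nat_lit 272) (nat_lit 194)) (XT.lf (nat_lit 0) (nat_lit 31758171746) (nat_lit 168) (nat_lit 42225561791) (nat_lit 0) (nat_lit 12031129431) (nat_lit 2) (nat_lit 5) (nat_lit 4) (nat_lit 4) (nat_lit 2) (nat_lit 4) (nat_lit 423) (nat_lit 272) (nat_lit 193)))) (XT.nd (nat_lit 94) (nat_lit 0) (nat_lit 0) (XT.lf (nat_lit 0) (nat_lit 33742709464) (nat_lit 168) (nat_lit 40922773096) (nat_lit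 0) (nat_lit 13957252262) (nat_lit 2) (nat_lit 5) (nat_lit 4) (nat_lit 4) (nat_lit 2) (nat_lit 4) (nat_lit 424) (nat_lit 272) (nat_lit 192)) (XT.nd (nat_lit 94) (nat_lit 0) (nat_lit 0) (XT.lf (nat_lit 0) (nat_lit 35781222649) (nat_lit 168) (nat_lit 39591385507) (nat_lit 0) (nat_lit 15939106972) (nat_lit 2) (nat_lit 5) (nat_lit 4) (nat_lit 4) (nat_lit 2) (nat_lit 4) (nat_lit 425) (nat_lit 272) (nat_lit 191)) (XT.lf (nat_lit 0) (nat_lit 37875611409) (nat_lit 168) (nat_lit 38230158031) (nat_lit 0) (nat_lit 17978540858) (nat_lit 2) (nat_lit 5) (nat_lit 4) (nat_lit 4) (nat_lit 2) (nat_lit 4) (nat_lit 426) (nat_lit 272) (nat_lit 190)))))) (XT.nd (nat_lit 48034) (nat_lit 0) (nat_lit 1596) (XT.nd (nat_lit 47752) (nat_lit 0) (nat_lit 2436) (XT.nd (nat_lit 94) (nat_lit 0) (nat_lit 0) (XT.lf (nat_lit 0) (nat_lit 40027827933) (nat_lit 168) (nat_lit 36837821862) (nat_lit 0) (nat_lit 20077454886)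 (nat_lit 2) (nat_lit 5) (nat_lit 4) (nat_lit 4) (nat_lit 2) (nat_lit 4) (nat_lit 427) (nat_lit 272) (nat_lit 189)) (XT.nd (nat_lit 94) (nat_lit 0) (nat_lit 0) (XT.lf (nat_lit 0) (nat_lit 42239878312) (nat_lit 168) (nat_lit 35413079197) (nat_lit 0) (nat_lit 22237805463) (nat_lit 2) (nat_lit 5) (nat_lit 4) (nat_lit 4) (nat_lit 2) (nat_lit 4) (nat_lit 428) (nat_lit 272) (nat_lit 188)) (XT.lf (nat_lit 0) (nat_lit 44513824409) (nat_lit 168) (nat_lit 33954602027) (nat_lit 0) (nat_lit 24461606263) (nat_lit 2) (nat_lit 5) (nat_lit 4) (nat_lit 4) (nat_lit 2) (nat_lit 4) (nat_lit 429) (nat_lit 272) (nat_lit 187)))) (XT.nd (nat_lit 94) (nat_lit 336) (nat_lit 0) (XT.lf (nat_lit 0) (nat_lit 4948694898) (nat_lit 336) (nat_lit 29937769) (nat_lit 336) (nat_lit 29937769) (nat_lit 35) (nat_lit 4) (nat_lit 39) (nat_lit 5) (nat_lit 39) (nat_lit 4) (nat_lit 342) (nat_lit 273) (nat_lit 273)) (XT.nd (nat_lit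 94) (nat_lit 0) (nat_lit 0) (XT.lf (nat_lit 0) (nat_lit 2368492995) (nat_lit 336) (nat_lit 6275287394) (nat_lit 0) (nat_lit 1561687668) (nat_lit 31) (nat_lit 5) (nat_lit 35) (nat_lit 4) (nat_lit 31) (nat_lit 4) (nat_lit 343) (nat_lit 273) (nat_lit 272)) (XT.lf (nat_lit 0) (nat_lit 4807702260) (nat_lit 336) (nat_lit 2375942220) (nat_lit 0) (nat_lit 3218350544) (nat_lit 31) (nat_lit 5) (nat_lit 35) (nat_lit 4) (nat_lit 31) (nat_lit 4) (nat_lit 344) (nat_lit 273) (nat_lit 271))))) (XT.nd (nat_lit 282) (nat_lit 504) (nat_lit 0) (XT.nd (nat_lit 94) (nat_lit 84) (nat_lit 0) (XT.lf (nat_lit 0) (nat_lit 1595626930) (nat_lit 252) (nat_lit 5679615355) (nat_lit 252) (nat_lit 3331246773) (nat_lit 28) (nat_lit 4) (nat_lit 31) (nat_lit 5) (nat_lit 31) (nat_lit 4) (nat_lit 345) (nat_lit 273) (nat_lit 270)) (XT.nd (nat_lit 94) (nat_lit 84) (nat_lit 0) (XT.lf (nat_lit 0) (nat_lit 5660697471) (nat_lit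 252) (nat_lit 4121369223) (nat_lit 252) (nat_lit 1036805815) (nat_lit 28) (nat_lit 4) (nat_lit 31) (nat_lit 5) (nat_lit 31) (nat_lit 4) (nat_lit 346) (nat_lit 273) (nat_lit 269)) (XT.lf (nat_lit 0) (nat_lit 1240854296) (nat_lit 336) (nat_lit 1278447330) (nat_lit 84) (nat_lit 8520397956) (nat_lit 27) (nat_lit 5) (nat_lit 31) (nat_lit 5) (nat_lit 28) (nat_lit 4) (nat_lit 347) (nat_lit 273) (nat_lit 268)))) (XT.nd (nat_lit 188) (nat_lit 252) (nat_lit 0) (XT.nd (nat_lit 94) (nat_lit 0) (nat_lit 0) (XT.lf (nat_lit 0) (nat_lit 2688281252) (nat_lit 252) (nat_lit 846673156) (nat_lit 336) (nat_lit 7733462606) (nat_lit 24) (nat_lit 5) (nat_lit 27) (nat_lit 5) (nat_lit 28) (nat_lit 4) (nat_lit 348) (nat_lit 273) (nat_lit 267)) (XT.lf (nat_lit 0) (nat_lit 5863913927) (nat_lit 336) (nat_lit 4785607254) (nat_lit 0) (nat_lit 856178512) (nat_lit 24) (nat_lit 5) (nat_lit 28) (nat_lit 4) (nat_lit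 24) (nat_lit 4) (nat_lit 349) (nat_lit 273) (nat_lit 266))) (XT.nd (nat_lit 94) (nat_lit 252) (nat_lit 0) (XT.lf (nat_lit 0) (nat_lit 8217041528) (nat_lit 336) (nat_lit 957794202) (nat_lit 0) (nat_lit 2577331788) (nat_lit 24) (nat_lit 5) (nat_lit 28) (nat_lit 4) (nat_lit 24) (nat_lit 4) (nat_lit 350) (nat_lit 273) (nat_lit 265)) (XT.lf (nat_lit 0) (nat_lit 2975214358) (nat_lit 252) (nat_lit 7642431607) (nat_lit 252) (nat_lit 1389749680) (nat_lit 21) (nat_lit 4) (nat_lit 24) (nat_lit 5) (nat_lit 24) (nat_lit 4) (nat_lit 351) (nat_lit 273) (nat_lit 264))))))) (XT.nd (nat_lit 1222) (nat_lit 504) (nat_lit 0) (XT.nd (nat_lit 564) (nat_lit 252) (nat_lit 0) (XT.nd (nat_lit 282) (nat_lit 168) (nat_lit 0) (XT.nd (nat_lit 94) (nat_lit 168) (nat_lit 0) (XT.lf (nat_lit 0) (nat_lit 760749915) (nat_lit 336) (nat_lit 5302140252) (nat_lit 84) (nat_lit 6209092914) (nat_lit 20) (nat_lit 5) (nat_lit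 24) (nat_lit 5) (nat_lit 21) (nat_lit 4) (nat_lit 352) (nat_lit 273) (nat_lit 263)) (XT.nd (nat_lit 94) (nat_lit 168) (nat_lit 0) (XT.lf (nat_lit 0) (nat_lit 2895779041) (nat_lit 336) (nat_lit 1542560892) (nat_lit 84) (nat_lit 8107944786) (nat_lit 20) (nat_lit 5) (nat_lit 24) (nat_lit 5) (nat_lit 21) (nat_lit 4) (nat_lit 353) (nat_lit 273) (nat_lit 262)) (XT.lf (nat_lit 0) (nat_lit 2310396951) (nat_lit 168) (nat_lit 2757850599) (nat_lit 252) (nat_lit 7762025564) (nat_lit 18) (nat_lit 5) (nat_lit 20) (nat_lit 5) (nat_lit 21) (nat_lit 4) (nat_lit 354) (nat_lit 273) (nat_lit 261)))) (XT.nd (nat_lit 94) (nat_lit 168) (nat_lit 0) (XT.lf (nat_lit 0) (nat_lit 6246485973) (nat_lit 168) (nat_lit 1026880717) (nat_lit 252) (nat_lit 5851057509) (nat_lit 18) (nat_lit 5) (nat_lit 20) (nat_lit 5) (nat_lit 21) (nat_lit 4) (nat_lit 355) (nat_lit 273) (nat_lit 260)) (XT.nd (nat_lit 94) (nat_lit 168)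 (nat_lit 0) (XT.lf (nat_lit 0) (nat_lit 9504916526) (nat_lit 252) (nat_lit 3199181183) (nat_lit 0) (nat_lit 725170981) (nat_lit 18) (nat_lit 5) (nat_lit 21) (nat_lit 4) (nat_lit 18) (nat_lit 4) (nat_lit 356) (nat_lit 273) (nat_lit 259)) (XT.lf (nat_lit 0) (nat_lit 527234935) (nat_lit 168) (nat_lit 11246184021) (nat_lit 168) (nat_lit 1971410080) (nat_lit 16) (nat_lit 4) (nat_lit 18) (nat_lit 5) (nat_lit 18) (nat_lit 4) (nat_lit 357) (nat_lit 273) (nat_lit 258))))) (XT.nd (nat_lit 282) (nat_lit 168) (nat_lit 0) (XT.nd (nat_lit 94) (nat_lit 0) (nat_lit 0) (XT.lf (nat_lit 0) (nat_lit 27054772) (nat_lit 252) (nat_lit 9699969631) (nat_lit 84) (nat_lit 4343824593) (nat_lit 15) (nat_lit 5) (nat_lit 18) (nat_lit 5) (nat_lit 16) (nat_lit 4) (nat_lit 358) (nat_lit 273) (nat_lit 257)) (XT.nd (nat_lit 94) (nat_lit 0) (nat_lit 0) (XT.lf (nat_lit 0) (nat_lit 2000056443) (nat_lit 252) (nat_lit 6158510255)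 (nat_lit 84) (nat_lit 6249467583) (nat_lit 15) (nat_lit 5) (nat_lit 18) (nat_lit 5) (nat_lit 16) (nat_lit 4) (nat_lit 359) (nat_lit 273) (nat_lit 256)) (XT.lf (nat_lit 0) (nat_lit 3989153496) (nat_lit 252) (nat_lit 2570358328) (nat_lit 84) (nat_lit 8197793613) (nat_lit 15) (nat_lit 5) (nat_lit 18) (nat_lit 5) (nat_lit 16) (nat_lit 4) (nat_lit 360) (nat_lit 273) (nat_lit 255)))) (XT.nd (nat_lit 188) (nat_lit 0) (nat_lit 0) (XT.nd (nat_lit 94) (nat_lit 0) (nat_lit 0) (XT.lf (nat_lit 0) (nat_lit 1089787471) (nat_lit 168) (nat_lit 4917223333) (nat_lit 252) (nat_lit 9111642082) (nat_lit 13) (nat_lit 5) (nat_lit 15) (nat_lit 5) (nat_lit 16) (nat_lit 4) (nat_lit 361) (nat_lit 273) (nat_lit 254)) (XT.lf (nat_lit 0) (nat_lit 4857311960) (nat_lit 168) (nat_lit 3213939840) (nat_lit 252) (nat_lit 7420673620) (nat_lit 13) (nat_lit 5) (nat_lit 15) (nat_lit 5) (nat_lit 16) (nat_lit 4) (nat_lit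 362) (nat_lit 273) (nat_lit 253))) (XT.nd (nat_lit 94) (nat_lit 0) (nat_lit 0) (XT.lf (nat_lit 0) (nat_lit 8682875029) (nat_lit 168) (nat_lit 1474902977) (nat_lit 252) (nat_lit 5720499666) (nat_lit 13) (nat_lit 5) (nat_lit 15) (nat_lit 5) (nat_lit 16) (nat_lit 4) (nat_lit 363) (nat_lit 273) (nat_lit 252)) (XT.lf (nat_lit 0) (nat_lit 12271525279) (nat_lit 252) (nat_lit 3711018255) (nat_lit 0) (nat_lit 295433502) (nat_lit 13) (nat_lit 5) (nat_lit 16) (nat_lit 4) (nat_lit 13) (nat_lit 4) (nat_lit 364) (nat_lit 273) (nat_lit 251)))))) (XT.nd (nat_lit 564) (nat_lit 252) (nat_lit 0) (XT.nd (nat_lit 282) (nat_lit 0) (nat_lit 0) (XT.nd (nat_lit 94) (nat_lit 252) (nat_lit 0) (XT.lf (nat_lit 0) (nat_lit 14426488471) (nat_lit 252) (nat_lit 190237104) (nat_lit 0) (nat_lit 2074297741) (nat_lit 13) (nat_lit 5) (nat_lit 16) (nat_lit 4) (nat_lit 13) (nat_lit 4) (nat_lit 365) (nat_lit 273) (nat_lit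 250)) (XT.nd (nat_lit 94) (nat_lit 84) (nat_lit 0) (XT.lf (nat_lit 0) (nat_lit 3454453302) (nat_lit 168) (nat_lit 13189860315) (nat_lit 168) (nat_lit 472879135) (nat_lit 11) (nat_lit 4) (nat_lit 13) (nat_lit 5) (nat_lit 13) (nat_lit 4) (nat_lit 366) (nat_lit 273) (nat_lit 249)) (XT.lf (nat_lit 0) (nat_lit 1310463061) (nat_lit 252) (nat_lit 10409252670) (nat_lit 84) (nat_lit 5837741085) (nat_lit 10) (nat_lit 5) (nat_lit 13) (nat_lit 5) (nat_lit 11) (nat_lit 4) (nat_lit 367) (nat_lit 273) (nat_lit 248)))) (XT.nd (nat_lit 94) (nat_lit 0) (nat_lit 0) (XT.lf (nat_lit 0) (nat_lit 3102242397) (nat_lit 252) (nat_lit 7113332125) (nat_lit 84) (nat_lit 7796971671) (nat_lit 10) (nat_lit 5) (nat_lit 13) (nat_lit 5) (nat_lit 11) (nat_lit 4) (nat_lit 368) (nat_lit 273) (nat_lit 247)) (XT.nd (nat_lit 94) (nat_lit 0) (nat_lit 0) (XT.lf (nat_lit 0) (nat_lit 4913656458) (nat_lit 252) (nat_lit 3767214655)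 (nat_lit 84) (nat_lit 9802159384) (nat_lit 10) (nat_lit 5) (nat_lit 13) (nat_lit 5) (nat_lit 11) (nat_lit 4) (nat_lit 369) (nat_lit 273) (nat_lit 246)) (XT.lf (nat_lit 0) (nat_lit 6746393672) (nat_lit 252) (nat_lit 367781326) (nat_lit 84) (nat_lit 11855173269) (nat_lit 10) (nat_lit 5) (nat_lit 13) (nat_lit 5) (nat_lit 11) (nat_lit 4) (nat_lit 370) (nat_lit 273) (nat_lit 245))))) (XT.nd (nat_lit 282) (nat_lit 168) (nat_lit 0) (XT.nd (nat_lit 94) (nat_lit 0) (nat_lit 0) (XT.lf (nat_lit 0) (nat_lit 3151634907) (nat_lit 84) (nat_lit 5481792042) (nat_lit 168) (nat_lit 10837556651) (nat_lit 9) (nat_lit 5) (nat_lit 10) (nat_lit 5) (nat_lit 11) (nat_lit 4) (nat_lit 371) (nat_lit 273) (nat_lit 244)) (XT.nd (nat_lit 94) (nat_lit 0) (nat_lit 0) (XT.lf (nat_lit 0) (nat_lit 6739546917) (nat_lit 84) (nat_lit 3810002461) (nat_lit 168) (nat_lit 9439690637) (nat_lit 9) (nat_lit 5) (nat_lit 10) (nat_lit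 5) (nat_lit 11) (nat_lit 4) (nat_lit 372) (nat_lit 273) (nat_lit 243)) (XT.lf (nat_lit 0) (nat_lit 10391736672) (nat_lit 84) (nat_lit 2101086854) (nat_lit 168) (nat_lit 8031892478) (nat_lit 9) (nat_lit 5) (nat_lit 10) (nat_lit 5) (nat_lit 11) (nat_lit 4) (nat_lit 373) (nat_lit 273) (nat_lit 242)))) (XT.nd (nat_lit 188) (nat_lit 168) (nat_lit 0) (XT.nd (nat_lit 94) (nat_lit 0) (nat_lit 0) (XT.lf (nat_lit 0) (nat_lit 14111608397) (nat_lit 84) (nat_lit 353452334) (nat_lit 168) (nat_lit 6612849961) (nat_lit 9) (nat_lit 5) (nat_lit 10) (nat_lit 5) (nat_lit 11) (nat_lit 4) (nat_lit 374) (nat_lit 273) (nat_lit 241)) (XT.lf (nat_lit 0) (nat_lit 16482330040) (nat_lit 168) (nat_lit 3760941026) (nat_lit 0) (nat_lit 1405627493) (nat_lit 9) (nat_lit 5) (nat_lit 11) (nat_lit 4) (nat_lit 9) (nat_lit 4) (nat_lit 375) (nat_lit 273) (nat_lit 240))) (XT.nd (nat_lit 94) (nat_lit 168) (nat_lit 0) (XT.lf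 (nat_lit 0) (nat_lit 18536190857) (nat_lit 168) (nat_lit 503586891) (nat_lit 0) (nat_lit 3198754026) (nat_lit 9) (nat_lit 5) (nat_lit 11) (nat_lit 4) (nat_lit 9) (nat_lit 4) (nat_lit 376) (nat_lit 273) (nat_lit 239)) (XT.lf (nat_lit 0) (nat_lit 2870129303) (nat_lit 168) (nat_lit 17783394041) (nat_lit 168) (nat_lit 2193062656) (nat_lit 7) (nat_lit 4) (nat_lit 9) (nat_lit 5) (nat_lit 9) (nat_lit 4) (nat_lit 377) (nat_lit 273) (nat_lit 238))))))))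
noncomputable def xc36 : XT := (XT.nd (nat_lit 2350) (nat_lit 168) (nat_lit 0) (XT.nd (nat_lit 1128) (nat_lit 84) (nat_lit 0) (XT.nd (nat_lit 564) (nat_lit 84) (nat_lit 0) (XT.nd (nat_lit 282) (nat_lit 0) (nat_lit 0) (XT.nd (nat_lit 94) (nat_lit 84) (nat_lit 0) (XT.lf (nat_lit 0) (nat_lit 6317093544) (nat_lit 168) (nat_lit 16496431229) (nat_lit 168) (nat_lit 660809298) (nat_lit 7) (nat_lit 4) (nat_lit 9) (nat_lit 5) (nat_lit 9) (nat_lit 4) (nat_lit 378) (nat_lit 273) (nat_lit 237)) (XT.nd (nat_lit 94) (nat_lit 0) (nat_lit 0) (XT.lf (nat_lit 0) (nat_lit 872647540) (nat_lit 252) (nat_lit 14301189953) (nat_lit 84) (nat_lit 8948407793) (nat_lit 6) (nat_lit 5) (nat_lit 9) (nat_lit 5) (nat_lit 7) (nat_lit 4) (nat_lit 379) (nat_lit 273) (nat_lit 236)) (XT.lf (nat_lit 0) (nat_lit 2412968612) (nat_lit 252) (nat_lit 11403559423) (nat_lit 84) (nat_lit 10974460116) (nat_lit 6) (nat_lit 5) (nat_lit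 9) (nat_lit 5) (nat_lit 7) (nat_lit 4) (nat_lit 380) (nat_lit 273) (nat_lit 235)))) (XT.nd (nat_lit 94) (nat_lit 0) (nat_lit 0) (XT.lf (nat_lit 0) (nat_lit 3974903492) (nat_lit 252) (nat_lit 8455092734) (nat_lit 84) (nat_lit 13051392995) (nat_lit 6) (nat_lit 5) (nat_lit 9) (nat_lit 5) (nat_lit 7) (nat_lit 4) (nat_lit 381) (nat_lit 273) (nat_lit 234)) (XT.nd (nat_lit 94) (nat_lit 0) (nat_lit 0) (XT.lf (nat_lit 0) (nat_lit 5559908069) (nat_lit 252) (nat_lit 5453041604) (nat_lit 84) (nat_lit 15181142347) (nat_lit 6) (nat_lit 5) (nat_lit 9) (nat_lit 5) (nat_lit 7) (nat_lit 4) (nat_lit 382) (nat_lit 273) (nat_lit 233)) (XT.lf (nat_lit 0) (nat_lit 7169459731) (nat_lit 252) (nat_lit 2394607808) (nat_lit 84) (nat_lit 17365693324) (nat_lit 6) (nat_lit 5) (nat_lit 9) (nat_lit 5) (nat_lit 7) (nat_lit 4) (nat_lit 383) (nat_lit 273) (nat_lit 232))))) (XT.nd (nat_lit 282) (nat_lit 0) (nat_lit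 0) (XT.nd (nat_lit 94) (nat_lit 0) (nat_lit 0) (XT.lf (nat_lit 0) (nat_lit 737927019) (nat_lit 84) (nat_lit 8074452058) (nat_lit 168) (nat_lit 18876475462) (nat_lit 5) (nat_lit 5) (nat_lit 6) (nat_lit 5) (nat_lit 7) (nat_lit 4) (nat_lit 384) (nat_lit 273) (nat_lit 231)) (XT.nd (nat_lit 94) (nat_lit 0) (nat_lit 0) (XT.lf (nat_lit 0) (nat_lit 3983117049) (nat_lit 84) (nat_lit 6524625641) (nat_lit 168) (nat_lit 17963794014) (nat_lit 5) (nat_lit 5) (nat_lit 6) (nat_lit 5) (nat_lit 7) (nat_lit 4) (nat_lit 385) (nat_lit 273) (nat_lit 230)) (XT.lf (nat_lit 0) (nat_lit 7294749089) (nat_lit 84) (nat_lit 4938138482) (nat_lit 168) (nat_lit 17046400867) (nat_lit 5) (nat_lit 5) (nat_lit 6) (nat_lit 5) (nat_lit 7) (nat_lit 4) (nat_lit 386) (nat_lit 273) (nat_lit 229)))) (XT.nd (nat_lit 94) (nat_lit 0) (nat_lit 0) (XT.lf (nat_lit 0) (nat_lit 10675909927) (nat_lit 84) (nat_lit 3313511809) (nat_lit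 168) (nat_lit 16123440914) (nat_lit 5) (nat_lit 5) (nat_lit 6) (nat_lit 5) (nat_lit 7) (nat_lit 4) (nat_lit 387) (nat_lit 273) (nat_lit 228)) (XT.nd (nat_lit 94) (nat_lit 0) (nat_lit 0) (XT.lf (nat_lit 0) (nat_lit 14129751161) (nat_lit 84) (nat_lit 1649231300) (nat_lit 168) (nat_lit 15194053860) (nat_lit 5) (nat_lit 5) (nat_lit 6) (nat_lit 5) (nat_lit 7) (nat_lit 4) (nat_lit 388) (nat_lit 273) (nat_lit 227)) (XT.lf (nat_lit 0) (nat_lit 17603795852) (nat_lit 168) (nat_lit 14201677141) (nat_lit 0) (nat_lit 55120929) (nat_lit 5) (nat_lit 5) (nat_lit 7) (nat_lit 4) (nat_lit 5) (nat_lit 4) (nat_lit 389) (nat_lit 273) (nat_lit 226)))))) (XT.nd (nat_lit 564) (nat_lit 0) (nat_lit 0) (XT.nd (nat_lit 282) (nat_lit 84) (nat_lit 0) (XT.nd (nat_lit 94) (nat_lit 0) (nat_lit 0) (XT.lf (nat_lit 0) (nat_lit 19481789365) (nat_lit 168) (nat_lit 11525892947) (nat_lit 0) (nat_lit 1768177415) (nat_lit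 5) (nat_lit 5) (nat_lit 7) (nat_lit 4) (nat_lit 5) (nat_lit 4) (nat_lit 390) (nat_lit 273) (nat_lit 225)) (XT.nd (nat_lit 94) (nat_lit 0) (nat_lit 0) (XT.lf (nat_lit 0) (nat_lit 21398352908) (nat_lit 168) (nat_lit 8797077889) (nat_lit 0) (nat_lit 3524763240) (nat_lit 5) (nat_lit 5) (nat_lit 7) (nat_lit 4) (nat_lit 5) (nat_lit 4) (nat_lit 391) (nat_lit 273) (nat_lit 224)) (XT.lf (nat_lit 0) (nat_lit 23355272919) (nat_lit 168) (nat_lit 6012688425) (nat_lit 0) (nat_lit 5326515726) (nat_lit 5) (nat_lit 5) (nat_lit 7) (nat_lit 4) (nat_lit 5) (nat_lit 4) (nat_lit 392) (nat_lit 273) (nat_lit 223)))) (XT.nd (nat_lit 94) (nat_lit 84) (nat_lit 0) (XT.lf (nat_lit 0) (nat_lit 25354373453) (nat_lit 168) (nat_lit 3170129214) (nat_lit 0) (nat_lit 7175114296) (nat_lit 5) (nat_lit 5) (nat_lit 7) (nat_lit 4) (nat_lit 5) (nat_lit 4) (nat_lit 393) (nat_lit 273) (nat_lit 222)) (XT.nd (nat_lit 94) (nat_lit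 84) (nat_lit 0) (XT.lf (nat_lit 0) (nat_lit 27397517880) (nat_lit 168) (nat_lit 266750691) (nat_lit 0) (nat_lit 9072282037) (nat_lit 5) (nat_lit 5) (nat_lit 7) (nat_lit 4) (nat_lit 5) (nat_lit 4) (nat_lit 394) (nat_lit 273) (nat_lit 221)) (XT.lf (nat_lit 0) (nat_lit 2755674086) (nat_lit 84) (nat_lit 26758273167) (nat_lit 84) (nat_lit 8291449849) (nat_lit 4) (nat_lit 4) (nat_lit 5) (nat_lit 5) (nat_lit 5) (nat_lit 4) (nat_lit 395) (nat_lit 273) (nat_lit 220))))) (XT.nd (nat_lit 282) (nat_lit 0) (nat_lit 0) (XT.nd (nat_lit 94) (nat_lit 0) (nat_lit 0) (XT.lf (nat_lit 0) (nat_lit 5851237914) (nat_lit 84) (nat_lit 25830406032) (nat_lit 84) (nat_lit 7226252477) (nat_lit 4) (nat_lit 4) (nat_lit 5) (nat_lit 5) (nat_lit 5) (nat_lit 4) (nat_lit 396) (nat_lit 273) (nat_lit 219)) (XT.nd (nat_lit 94) (nat_lit 0) (nat_lit 0) (XT.lf (nat_lit 0) (nat_lit 9017341241) (nat_lit 84) (nat_lit 24882586628)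 (nat_lit 84) (nat_lit 6145232067) (nat_lit 4) (nat_lit 4) (nat_lit 5) (nat_lit 5) (nat_lit 5) (nat_lit 4) (nat_lit 397) (nat_lit 273) (nat_lit 218)) (XT.lf (nat_lit 0) (nat_lit 12256935207) (nat_lit 84) (nat_lit 23913931487) (nat_lit 84) (nat_lit 5047380993) (nat_lit 4) (nat_lit 4) (nat_lit 5) (nat_lit 5) (nat_lit 5) (nat_lit 4) (nat_lit 398) (nat_lit 273) (nat_lit 217)))) (XT.nd (nat_lit 188) (nat_lit 0) (nat_lit 0) (XT.nd (nat_lit 94) (nat_lit 0) (nat_lit 0) (XT.lf (nat_lit 0) (nat_lit 15573039452) (nat_lit 84) (nat_lit 22923537721) (nat_lit 84) (nat_lit 3931675945) (nat_lit 4) (nat_lit 4) (nat_lit 5) (nat_lit 5) (nat_lit 5) (nat_lit 4) (nat_lit 399) (nat_lit 273) (nat_lit 216)) (XT.lf (nat_lit 0) (nat_lit 18968744933) (nat_lit 84) (nat_lit 21910482180) (nat_lit 84) (nat_lit 2797076969) (nat_lit 4) (nat_lit 4) (nat_lit 5) (nat_lit 5) (nat_lit 5) (nat_lit 4) (nat_lit 400) (nat_lit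 273) (nat_lit 215))) (XT.nd (nat_lit 94) (nat_lit 0) (nat_lit 0) (XT.lf (nat_lit 0) (nat_lit 22447216803) (nat_lit 84) (nat_lit 20873820590) (nat_lit 84) (nat_lit 1642526498) (nat_lit 4) (nat_lit 4) (nat_lit 5) (nat_lit 5) (nat_lit 5) (nat_lit 4) (nat_lit 401) (nat_lit 273) (nat_lit 214)) (XT.lf (nat_lit 0) (nat_lit 26011697363) (nat_lit 84) (nat_lit 19812586674) (nat_lit 84) (nat_lit 466948371) (nat_lit 4) (nat_lit 4) (nat_lit 5) (nat_lit 5) (nat_lit 5) (nat_lit 4) (nat_lit 402) (nat_lit 273) (nat_lit 213))))))) (XT.nd (nat_lit 1222) (nat_lit 0) (nat_lit 0) (XT.nd (nat_lit 564) (nat_lit 84) (nat_lit 0) (XT.nd (nat_lit 282) (nat_lit 0) (nat_lit 0) (XT.nd (nat_lit 94) (nat_lit 0) (nat_lit 0) (XT.lf (nat_lit 0) (nat_lit 716030124) (nat_lit 168) (nat_lit 18002287239) (nat_lit 84) (nat_lit 28942005071) (nat_lit 3) (nat_lit 5) (nat_lit 5) (nat_lit 5) (nat_lit 4) (nat_lit 4) (nat_lit 403)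 (nat_lit 273) (nat_lit 212)) (XT.nd (nat_lit 94) (nat_lit 0) (nat_lit 0) (XT.lf (nat_lit 0) (nat_lit 1912372223) (nat_lit 168) (nat_lit 15680087844) (nat_lit 84) (nat_lit 31479724227) (nat_lit 3) (nat_lit 5) (nat_lit 5) (nat_lit 5) (nat_lit 4) (nat_lit 4) (nat_lit 404) (nat_lit 273) (nat_lit 211)) (XT.lf (nat_lit 0) (nat_lit 3132601008) (nat_lit 168) (nat_lit 13306140142) (nat_lit 84) (nat_lit 34089536438) (nat_lit 3) (nat_lit 5) (nat_lit 5) (nat_lit 5) (nat_lit 4) (nat_lit 4) (nat_lit 405) (nat_lit 273) (nat_lit 210)))) (XT.nd (nat_lit 94) (nat_lit 0) (nat_lit 0) (XT.lf (nat_lit 0) (nat_lit 4377853862) (nat_lit 168) (nat_lit 10878231364) (nat_lit 84) (nat_lit 36773874321) (nat_lit 3) (nat_lit 5) (nat_lit 5) (nat_lit 5) (nat_lit 4) (nat_lit 4) (nat_lit 406) (nat_lit 273) (nat_lit 209)) (XT.nd (nat_lit 94) (nat_lit 0) (nat_lit 0) (XT.lf (nat_lit 0) (nat_lit 5649291490) (nat_lit 168)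 (nat_lit 8394098446) (nat_lit 84) (nat_lit 39535239962) (nat_lit 3) (nat_lit 5) (nat_lit 5) (nat_lit 5) (nat_lit 4) (nat_lit 4) (nat_lit 407) (nat_lit 273) (nat_lit 208)) (XT.lf (nat_lit 0) (nat_lit 6948099005) (nat_lit 168) (nat_lit 5851425915) (nat_lit 84) (nat_lit 42376207242) (nat_lit 3) (nat_lit 5) (nat_lit 5) (nat_lit 5) (nat_lit 4) (nat_lit 4) (nat_lit 408) (nat_lit 273) (nat_lit 207))))) (XT.nd (nat_lit 282) (nat_lit 0) (nat_lit 0) (XT.nd (nat_lit 94) (nat_lit 84) (nat_lit 0) (XT.lf (nat_lit 0) (nat_lit 8275487032) (nat_lit 168) (nat_lit 3247843735) (nat_lit 84) (nat_lit 45299424240) (nat_lit 3) (nat_lit 5) (nat_lit 5) (nat_lit 5) (nat_lit 4) (nat_lit 4) (nat_lit 409) (nat_lit 273) (nat_lit 206)) (XT.nd (nat_lit 94) (nat_lit 84) (nat_lit 0) (XT.lf (nat_lit 0) (nat_lit 9632692836) (nat_lit 168) (nat_lit 580925093) (nat_lit 84) (nat_lit 48307615701) (nat_lit 3) (nat_lit 5)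 (nat_lit 5) (nat_lit 5) (nat_lit 4) (nat_lit 4) (nat_lit 410) (nat_lit 273) (nat_lit 205)) (XT.lf (nat_lit 0) (nat_lit 2196061603) (nat_lit 84) (nat_lit 8846705074) (nat_lit 168) (nat_lit 49229309173) (nat_lit 2) (nat_lit 5) (nat_lit 3) (nat_lit 5) (nat_lit 4) (nat_lit 4) (nat_lit 411) (nat_lit 273) (nat_lit 204)))) (XT.nd (nat_lit 188) (nat_lit 0) (nat_lit 0) (XT.nd (nat_lit 94) (nat_lit 0) (nat_lit 0) (XT.lf (nat_lit 0) (nat_lit 5054768639) (nat_lit 84) (nat_lit 7437022269) (nat_lit 168) (nat_lit 49585594918) (nat_lit 2) (nat_lit 5) (nat_lit 3) (nat_lit 5) (nat_lit 4) (nat_lit 4) (nat_lit 412) (nat_lit 273) (nat_lit 203)) (XT.lf (nat_lit 0) (nat_lit 7985915616) (nat_lit 84) (nat_lit 5989319211) (nat_lit 168) (nat_lit 49963793793) (nat_lit 2) (nat_lit 5) (nat_lit 3) (nat_lit 5) (nat_lit 4) (nat_lit 4) (nat_lit 413) (nat_lit 273) (nat_lit 202))) (XT.nd (nat_lit 94) (nat_lit 0) (nat_lit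 0) (XT.lf (nat_lit 0) (nat_lit 10992234670) (nat_lit 84) (nat_lit 4502246487) (nat_lit 168) (nat_lit 50364258317) (nat_lit 2) (nat_lit 5) (nat_lit 3) (nat_lit 5) (nat_lit 4) (nat_lit 4) (nat_lit 414) (nat_lit 273) (nat_lit 201)) (XT.lf (nat_lit 0) (nat_lit 14076528006) (nat_lit 84) (nat_lit 2974417992) (nat_lit 168) (nat_lit 50787361767) (nat_lit 2) (nat_lit 5) (nat_lit 3) (nat_lit 5) (nat_lit 4) (nat_lit 4) (nat_lit 415) (nat_lit 273) (nat_lit 200)))))) (XT.nd (nat_lit 564) (nat_lit 0) (nat_lit 0) (XT.nd (nat_lit 282) (nat_lit 0) (nat_lit 0) (XT.nd (nat_lit 94) (nat_lit 0) (nat_lit 0) (XT.lf (nat_lit 0) (nat_lit 17241670508) (nat_lit 84) (nat_lit 1404409628) (nat_lit 168) (nat_lit 51233498518) (nat_lit 2) (nat_lit 5) (nat_lit 3) (nat_lit 5) (nat_lit 4) (nat_lit 4) (nat_lit 416) (nat_lit 273) (nat_lit 199)) (XT.nd (nat_lit 94) (nat_lit 0) (nat_lit 0) (XT.lf (nat_lit 0) (nat_lit 20283446110)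 (nat_lit 168) (nat_lit 51495918108) (nat_lit 0) (nat_lit 205026256) (nat_lit 2) (nat_lit 5) (nat_lit 4) (nat_lit 4) (nat_lit 2) (nat_lit 4) (nat_lit 417) (nat_lit 273) (nat_lit 198)) (XT.lf (nat_lit 0) (nat_lit 21976872260) (nat_lit 168) (nat_lit 50347047332) (nat_lit 0) (nat_lit 1830404170) (nat_lit 2) (nat_lit 5) (nat_lit 4) (nat_lit 4) (nat_lit 2) (nat_lit 4) (nat_lit 418) (nat_lit 273) (nat_lit 197)))) (XT.nd (nat_lit 94) (nat_lit 0) (nat_lit 0) (XT.lf (nat_lit 0) (nat_lit 23714005120) (nat_lit 168) (nat_lit 49176293034) (nat_lit 0) (nat_lit 3501534862) (nat_lit 2) (nat_lit 5) (nat_lit 4) (nat_lit 4) (nat_lit 2) (nat_lit 4) (nat_lit 419) (nat_lit 273) (nat_lit 196)) (XT.nd (nat_lit 94) (nat_lit 0) (nat_lit 0) (XT.lf (nat_lit 0) (nat_lit 25496463879) (nat_lit 168) (nat_lit 47982563948) (nat_lit 0) (nat_lit 5219975999) (nat_lit 2) (nat_lit 5) (nat_lit 4) (nat_lit 4) (nat_lit 2)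 (nat_lit 4) (nat_lit 420) (nat_lit 273) (nat_lit 195)) (XT.lf (nat_lit 0) (nat_lit 27325909975) (nat_lit 168) (nat_lit 46764747393) (nat_lit 0) (nat_lit 6987329348) (nat_lit 2) (nat_lit 5) (nat_lit 4) (nat_lit 4) (nat_lit 2) (nat_lit 4) (nat_lit 421) (nat_lit 273) (nat_lit 194))))) (XT.nd (nat_lit 282) (nat_lit 0) (nat_lit 0) (XT.nd (nat_lit 94) (nat_lit 0) (nat_lit 0) (XT.lf (nat_lit 0) (nat_lit 29204048645) (nat_lit 168) (nat_lit 45521708237) (nat_lit 0) (nat_lit 8805242269) (nat_lit 2) (nat_lit 5) (nat_lit 4) (nat_lit 4) (nat_lit 2) (nat_lit 4) (nat_lit 422) (nat_lit 273) (nat_lit 193)) (XT.nd (nat_lit 94) (nat_lit 0) (nat_lit 0) (XT.lf (nat_lit 0) (nat_lit 31132630509) (nat_lit 168) (nat_lit 44252287837) (nat_lit 0) (nat_lit 10675409246) (nat_lit 2) (nat_lit 5) (nat_lit 4) (nat_lit 4) (nat_lit 2) (nat_lit 4) (nat_lit 423) (nat_lit 273) (nat_lit 192)) (XT.lf (nat_lit 0) (nat_lit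 33113453209) (nat_lit 168) (nat_lit 42955302960) (nat_lit 0) (nat_lit 12599573471) (nat_lit 2) (nat_lit 5) (nat_lit 4) (nat_lit 4) (nat_lit 2) (nat_lit 4) (nat_lit 424) (nat_lit 273) (nat_lit 191)))) (XT.nd (nat_lit 188) (nat_lit 0) (nat_lit 0) (XT.nd (nat_lit 94) (nat_lit 0) (nat_lit 0) (XT.lf (nat_lit 0) (nat_lit 35148363078) (nat_lit 168) (nat_lit 41629544681) (nat_lit 0) (nat_lit 14579528467) (nat_lit 2) (nat_lit 5) (nat_lit 4) (nat_lit 4) (nat_lit 2) (nat_lit 4) (nat_lit 425) (nat_lit 273) (nat_lit 190)) (XT.lf (nat_lit 0) (nat_lit 37239256866) (nat_lit 168) (nat_lit 40273777254) (nat_lit 0) (nat_lit 16617119759) (nat_lit 2) (nat_lit 5) (nat_lit 4) (nat_lit 4) (nat_lit 2) (nat_lit 4) (nat_lit 426) (nat_lit 273) (nat_lit 189))) (XT.nd (nat_lit 94) (nat_lit 0) (nat_lit 0) (XT.lf (nat_lit 0) (nat_lit 39388083505) (nat_lit 168) (nat_lit 38886736962) (nat_lit 0) (nat_lit 18714246595)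 (nat_lit 2) (nat_lit 5) (nat_lit 4) (nat_lit 4) (nat_lit 2) (nat_lit 4) (nat_lit 427) (nat_lit 273) (nat_lit 188)) (XT.lf (nat_lit 0) (nat_lit 41596845925) (nat_lit 168) (nat_lit 37467130938) (nat_lit 0) (nat_lit 20872863718) (nat_lit 2) (nat_lit 5) (nat_lit 4) (nat_lit 4) (nat_lit 2) (nat_lit 4) (nat_lit 428) (nat_lit 273) (nat_lit 187))))))))
noncomputable def xc37 : XT := (XT.nd (nat_lit 49538) (nat_lit 0) (nat_lit 252) (XT.nd (nat_lit 48316) (nat_lit 0) (nat_lit 924) (XT.nd (nat_lit 47752) (nat_lit 0) (nat_lit 1848) (XT.nd (nat_lit 47470) (nat_lit 0) (nat_lit 2436) (XT.nd (nat_lit 94) (nat_lit 0) (nat_lit 0) (XT.lf (nat_lit 0) (nat_lit 43867602927) (nat_lit 168) (nat_lit 36013635959) (nat_lit 0) (nat_lit 23094983185) (nat_lit 2) (nat_lit 5) (nat_lit 4) (nat_lit 4) (nat_lit 2) (nat_lit 4) (nat_lit 429) (nat_lit 273) (nat_lit 186)) (XT.nd (nat_lit 47282) (nat_lit 0) (nat_lit 2772)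 (XT.lf (nat_lit 0) (nat_lit 46202471091) (nat_lit 168) (nat_lit 34524897218) (nat_lit 0) (nat_lit 25382676243) (nat_lit 2) (nat_lit 5) (nat_lit 4) (nat_lit 4) (nat_lit 2) (nat_lit 4) (nat_lit 430) (nat_lit 273) (nat_lit 185)) (XT.lf (nat_lit 0) (nat_lit 839157801) (nat_lit 336) (nat_lit 1995065998) (nat_lit 336) (nat_lit 1995065998) (nat_lit 35) (nat_lit 4) (nat_lit 39) (nat_lit 5) (nat_lit 39) (nat_lit 4) (nat_lit 340) (nat_lit 274) (nat_lit 274)))) (XT.nd (nat_lit 94) (nat_lit 336) (nat_lit 0) (XT.lf (nat_lit 0) (nat_lit 5745140026) (nat_lit 336) (nat_lit 2473485406) (nat_lit 336) (nat_lit 1615882809) (nat_lit 35) (nat_lit 4) (nat_lit 39) (nat_lit 5) (nat_lit 39) (nat_lit 4) (nat_lit 341) (nat_lit 274) (nat_lit 273)) (XT.nd (nat_lit 94) (nat_lit 252) (nat_lit 0) (XT.lf (nat_lit 0) (nat_lit 749112285) (nat_lit 420) (nat_lit 167971837) (nat_lit 84) (nat_lit 9101034251) (nat_lit 34)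 (nat_lit 5) (nat_lit 39) (nat_lit 5) (nat_lit 35) (nat_lit 4) (nat_lit 342) (nat_lit 274) (nat_lit 272)) (XT.lf (nat_lit 0) (nat_lit 3135239224) (nat_lit 336) (nat_lit 6358596369) (nat_lit 0) (nat_lit 714071216) (nat_lit 31) (nat_lit 5) (nat_lit 35) (nat_lit 4) (nat_lit 31) (nat_lit 4) (nat_lit 343) (nat_lit 274) (nat_lit 271))))) (XT.nd (nat_lit 282) (nat_lit 336) (nat_lit 0) (XT.nd (nat_lit 94) (nat_lit 252) (nat_lit 0) (XT.lf (nat_lit 0) (nat_lit 5543373382) (nat_lit 336) (nat_lit 2499036547) (nat_lit 0) (nat_lit 2363188508) (nat_lit 31) (nat_lit 5) (nat_lit 35) (nat_lit 4) (nat_lit 31) (nat_lit 4) (nat_lit 344) (nat_lit 274) (nat_lit 270)) (XT.nd (nat_lit 94) (nat_lit 0) (nat_lit 0) (XT.lf (nat_lit 0) (nat_lit 1430618970) (nat_lit 252) (nat_lit 6548516794) (nat_lit 252) (nat_lit 2632137093) (nat_lit 28) (nat_lit 4) (nat_lit 31) (nat_lit 5) (nat_lit 31) (nat_lit 4) (nat_lit 345)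 (nat_lit 274) (nat_lit 269)) (XT.lf (nat_lit 0) (nat_lit 5457491100) (nat_lit 252) (nat_lit 4998855664) (nat_lit 252) (nat_lit 368416966) (nat_lit 28) (nat_lit 4) (nat_lit 31) (nat_lit 5) (nat_lit 31) (nat_lit 4) (nat_lit 346) (nat_lit 274) (nat_lit 268)))) (XT.nd (nat_lit 94) (nat_lit 252) (nat_lit 0) (XT.lf (nat_lit 0) (nat_lit 1866579825) (nat_lit 336) (nat_lit 1532003819) (nat_lit 84) (nat_lit 7647884901) (nat_lit 27) (nat_lit 5) (nat_lit 31) (nat_lit 5) (nat_lit 28) (nat_lit 4) (nat_lit 347) (nat_lit 274) (nat_lit 267)) (XT.nd (nat_lit 94) (nat_lit 0) (nat_lit 0) (XT.lf (nat_lit 0) (nat_lit 2392065703) (nat_lit 252) (nat_lit 1737356851) (nat_lit 336) (nat_lit 7146905232) (nat_lit 24) (nat_lit 5) (nat_lit 27) (nat_lit 5) (nat_lit 28) (nat_lit 4) (nat_lit 348) (nat_lit 274) (nat_lit 266)) (XT.lf (nat_lit 0) (nat_lit 6396494123) (nat_lit 252) (nat_lit 25392216) (nat_lit 336) (nat_lit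 5093023126) (nat_lit 24) (nat_lit 5) (nat_lit 27) (nat_lit 5) (nat_lit 28) (nat_lit 4) (nat_lit 349) (nat_lit 274) (nat_lit 265)))))) (XT.nd (nat_lit 564) (nat_lit 420) (nat_lit 0) (XT.nd (nat_lit 282) (nat_lit 168) (nat_lit 0) (XT.nd (nat_lit 94) (nat_lit 336) (nat_lit 0) (XT.lf (nat_lit 0) (nat_lit 8747689367) (nat_lit 336) (nat_lit 1326495465) (nat_lit 0) (nat_lit 1688202113) (nat_lit 24) (nat_lit 5) (nat_lit 28) (nat_lit 4) (nat_lit 24) (nat_lit 4) (nat_lit 350) (nat_lit 274) (nat_lit 264)) (XT.nd (nat_lit 94) (nat_lit 84) (nat_lit 0) (XT.lf (nat_lit 0) (nat_lit 2563152707) (nat_lit 252) (nat_lit 8554794732) (nat_lit 252) (nat_lit 900766074) (nat_lit 21) (nat_lit 4) (nat_lit 24) (nat_lit 5) (nat_lit 24) (nat_lit 4) (nat_lit 351) (nat_lit 274) (nat_lit 263)) (XT.lf (nat_lit 0) (nat_lit 1213654320) (nat_lit 336) (nat_lit 5765761528) (nat_lit 84) (nat_lit 5304696137) (nat_lit 20)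 (nat_lit 5) (nat_lit 24) (nat_lit 5) (nat_lit 21) (nat_lit 4) (nat_lit 352) (nat_lit 274) (nat_lit 262)))) (XT.nd (nat_lit 94) (nat_lit 168) (nat_lit 0) (XT.lf (nat_lit 0) (nat_lit 3323244774) (nat_lit 336) (nat_lit 2040509015) (nat_lit 84) (nat_lit 7195592334) (nat_lit 20) (nat_lit 5) (nat_lit 24) (nat_lit 5) (nat_lit 21) (nat_lit 4) (nat_lit 353) (nat_lit 274) (nat_lit 261)) (XT.nd (nat_lit 94) (nat_lit 0) (nat_lit 0) (XT.lf (nat_lit 0) (nat_lit 1768230675) (nat_lit 168) (nat_lit 3697430465) (nat_lit 252) (nat_lit 7378744568) (nat_lit 18) (nat_lit 5) (nat_lit 20) (nat_lit 5) (nat_lit 21) (nat_lit 4) (nat_lit 354) (nat_lit 274) (nat_lit 260)) (XT.lf (nat_lit 0) (nat_lit 5671362066) (nat_lit 168) (nat_lit 1975159375) (nat_lit 252) (nat_lit 5492922756) (nat_lit 18) (nat_lit 5) (nat_lit 20) (nat_lit 5) (nat_lit 21) (nat_lit 4) (nat_lit 355) (nat_lit 274) (nat_lit 259))))) (XT.nd (nat_lit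 282) (nat_lit 168) (nat_lit 0) (XT.nd (nat_lit 94) (nat_lit 252) (nat_lit 0) (XT.lf (nat_lit 0) (nat_lit 9630566233) (nat_lit 168) (nat_lit 216633911) (nat_lit 252) (nat_lit 3598176858) (nat_lit 18) (nat_lit 5) (nat_lit 20) (nat_lit 5) (nat_lit 21) (nat_lit 4) (nat_lit 356) (nat_lit 274) (nat_lit 258)) (XT.nd (nat_lit 94) (nat_lit 252) (nat_lit 0) (XT.lf (nat_lit 0) (nat_lit 12085420174) (nat_lit 252) (nat_lit 128627377) (nat_lit 0) (nat_lit 1547955909) (nat_lit 18) (nat_lit 5) (nat_lit 21) (nat_lit 4) (nat_lit 18) (nat_lit 4) (nat_lit 357) (nat_lit 274) (nat_lit 257)) (XT.lf (nat_lit 0) (nat_lit 291748128) (nat_lit 252) (nat_lit 10410630831) (nat_lit 84) (nat_lit 3386423605) (nat_lit 15) (nat_lit 5) (nat_lit 18) (nat_lit 5) (nat_lit 16) (nat_lit 4) (nat_lit 358) (nat_lit 274) (nat_lit 256)))) (XT.nd (nat_lit 188) (nat_lit 168) (nat_lit 0) (XT.nd (nat_lit 94) (nat_lit 0) (nat_lit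 0) (XT.lf (nat_lit 0) (nat_lit 2242559908) (nat_lit 252) (nat_lit 6900236295) (nat_lit 84) (nat_lit 5283995747) (nat_lit 15) (nat_lit 5) (nat_lit 18) (nat_lit 5) (nat_lit 16) (nat_lit 4) (nat_lit 359) (nat_lit 274) (nat_lit 255)) (XT.lf (nat_lit 0) (nat_lit 4210134272) (nat_lit 252) (nat_lit 3342215154) (nat_lit 84) (nat_lit 7224493602) (nat_lit 15) (nat_lit 5) (nat_lit 18) (nat_lit 5) (nat_lit 16) (nat_lit 4) (nat_lit 360) (nat_lit 274) (nat_lit 254))) (XT.nd (nat_lit 94) (nat_lit 0) (nat_lit 0) (XT.lf (nat_lit 0) (nat_lit 272233946) (nat_lit 168) (nat_lit 5926771855) (nat_lit 252) (nat_lit 8940192565) (nat_lit 13) (nat_lit 5) (nat_lit 15) (nat_lit 5) (nat_lit 16) (nat_lit 4) (nat_lit 361) (nat_lit 274) (nat_lit 253)) (XT.lf (nat_lit 0) (nat_lit 4010829495) (nat_lit 168) (nat_lit 4231882462) (nat_lit 252) (nat_lit 7270501567) (nat_lit 13) (nat_lit 5) (nat_lit 15) (nat_lit 5) (nat_lit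 16) (nat_lit 4) (nat_lit 362) (nat_lit 274) (nat_lit 252))))))) (XT.nd (nat_lit 1222) (nat_lit 336) (nat_lit 0) (XT.nd (nat_lit 564) (nat_lit 84) (nat_lit 0) (XT.nd (nat_lit 282) (nat_lit 252) (nat_lit 0) (XT.nd (nat_lit 94) (nat_lit 0) (nat_lit 0) (XT.lf (nat_lit 0) (nat_lit 7808333454) (nat_lit 168) (nat_lit 2500987306) (nat_lit 252) (nat_lit 5590965308) (nat_lit 13) (nat_lit 5) (nat_lit 15) (nat_lit 5) (nat_lit 16) (nat_lit 4) (nat_lit 363) (nat_lit 274) (nat_lit 251)) (XT.nd (nat_lit 94) (nat_lit 0) (nat_lit 0) (XT.lf (nat_lit 0) (nat_lit 11668285496) (nat_lit 168) (nat_lit 732473010) (nat_lit 252) (nat_lit 3900018284) (nat_lit 13) (nat_lit 5) (nat_lit 15) (nat_lit 5) (nat_lit 16) (nat_lit 4) (nat_lit 364) (nat_lit 274) (nat_lit 250)) (XT.lf (nat_lit 0) (nat_lit 14529641833) (nat_lit 252) (nat_lit 1131442687) (nat_lit 0) (nat_lit 1053643787) (nat_lit 13) (nat_lit 5) (nat_lit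 16) (nat_lit 4) (nat_lit 13) (nat_lit 4) (nat_lit 365) (nat_lit 274) (nat_lit 249)))) (XT.nd (nat_lit 94) (nat_lit 84) (nat_lit 0) (XT.lf (nat_lit 0) (nat_lit 2467169173) (nat_lit 168) (nat_lit 14252255868) (nat_lit 168) (nat_lit 422435854) (nat_lit 11) (nat_lit 4) (nat_lit 13) (nat_lit 5) (nat_lit 13) (nat_lit 4) (nat_lit 366) (nat_lit 274) (nat_lit 248)) (XT.nd (nat_lit 94) (nat_lit 0) (nat_lit 0) (XT.lf (nat_lit 0) (nat_lit 1341660747) (nat_lit 252) (nat_lit 11448090321) (nat_lit 84) (nat_lit 4793011779) (nat_lit 10) (nat_lit 5) (nat_lit 13) (nat_lit 5) (nat_lit 11) (nat_lit 4) (nat_lit 367) (nat_lit 274) (nat_lit 247)) (XT.lf (nat_lit 0) (nat_lit 3115758924) (nat_lit 252) (nat_lit 8177761412) (nat_lit 84) (nat_lit 6744965644) (nat_lit 10) (nat_lit 5) (nat_lit 13) (nat_lit 5) (nat_lit 11) (nat_lit 4) (nat_lit 368) (nat_lit 274) (nat_lit 246))))) (XT.nd (nat_lit 282) (nat_lit 0)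 (nat_lit 0) (XT.nd (nat_lit 94) (nat_lit 84) (nat_lit 0) (XT.lf (nat_lit 0) (nat_lit 4910023461) (nat_lit 252) (nat_lit 4856466090) (nat_lit 84) (nat_lit 8743095431) (nat_lit 10) (nat_lit 5) (nat_lit 13) (nat_lit 5) (nat_lit 11) (nat_lit 4) (nat_lit 369) (nat_lit 274) (nat_lit 245)) (XT.nd (nat_lit 94) (nat_lit 84) (nat_lit 0) (XT.lf (nat_lit 0) (nat_lit 6726126802) (nat_lit 252) (nat_lit 1481108560) (nat_lit 84) (nat_lit 10789263607) (nat_lit 10) (nat_lit 5) (nat_lit 13) (nat_lit 5) (nat_lit 11) (nat_lit 4) (nat_lit 370) (nat_lit 274) (nat_lit 244)) (XT.lf (nat_lit 0) (nat_lit 1991583329) (nat_lit 84) (nat_lit 6593935166) (nat_lit 168) (nat_lit 10913550839) (nat_lit 9) (nat_lit 5) (nat_lit 10) (nat_lit 5) (nat_lit 11) (nat_lit 4) (nat_lit 371) (nat_lit 274) (nat_lit 243)))) (XT.nd (nat_lit 188) (nat_lit 0) (nat_lit 0) (XT.nd (nat_lit 94) (nat_lit 0) (nat_lit 0) (XT.lf (nat_lit 0)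 (nat_lit 5556379866) (nat_lit 84) (nat_lit 4929383129) (nat_lit 168) (nat_lit 9532130764) (nat_lit 9) (nat_lit 5) (nat_lit 10) (nat_lit 5) (nat_lit 11) (nat_lit 4) (nat_lit 372) (nat_lit 274) (nat_lit 242)) (XT.lf (nat_lit 0) (nat_lit 9186149181) (nat_lit 84) (nat_lit 3227487449) (nat_lit 168) (nat_lit 8140284050) (nat_lit 9) (nat_lit 5) (nat_lit 10) (nat_lit 5) (nat_lit 11) (nat_lit 4) (nat_lit 373) (nat_lit 274) (nat_lit 241))) (XT.nd (nat_lit 94) (nat_lit 0) (nat_lit 0) (XT.lf (nat_lit 0) (nat_lit 12884274602) (nat_lit 84) (nat_lit 1486661780) (nat_lit 168) (nat_lit 6736713351) (nat_lit 9) (nat_lit 5) (nat_lit 10) (nat_lit 5) (nat_lit 11) (nat_lit 4) (nat_lit 374) (nat_lit 274) (nat_lit 240)) (XT.lf (nat_lit 0) (nat_lit 16362410285) (nat_lit 168) (nat_lit 5028317507) (nat_lit 0) (nat_lit 288778627) (nat_lit 9) (nat_lit 5) (nat_lit 11) (nat_lit 4) (nat_lit 9) (nat_lit 4) (nat_lit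 375) (nat_lit 274) (nat_lit 239)))))) (XT.nd (nat_lit 564) (nat_lit 84) (nat_lit 0) (XT.nd (nat_lit 282) (nat_lit 84) (nat_lit 0) (XT.nd (nat_lit 94) (nat_lit 168) (nat_lit 0) (XT.lf (nat_lit 0) (nat_lit 18402154877) (nat_lit 168) (nat_lit 1791860776) (nat_lit 0) (nat_lit 2075628665) (nat_lit 9) (nat_lit 5) (nat_lit 11) (nat_lit 4) (nat_lit 9) (nat_lit 4) (nat_lit 376) (nat_lit 274) (nat_lit 238)) (XT.nd (nat_lit 94) (nat_lit 0) (nat_lit 0) (XT.lf (nat_lit 0) (nat_lit 1534680029) (nat_lit 168) (nat_lit 18957867732) (nat_lit 168) (nat_lit 2386050974) (nat_lit 7) (nat_lit 4) (nat_lit 9) (nat_lit 5) (nat_lit 9) (nat_lit 4) (nat_lit 377) (nat_lit 274) (nat_lit 237)) (XT.lf (nat_lit 0) (nat_lit 4961580413) (nat_lit 168) (nat_lit 17677489644) (nat_lit 168) (nat_lit 867757710) (nat_lit 7) (nat_lit 4) (nat_lit 9) (nat_lit 5) (nat_lit 9) (nat_lit 4) (nat_lit 378) (nat_lit 274) (nat_lit 236))))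 (XT.nd (nat_lit 94) (nat_lit 0) (nat_lit 0) (XT.lf (nat_lit 0) (nat_lit 656601141) (nat_lit 252) (nat_lit 15706936582) (nat_lit 84) (nat_lit 7791735563) (nat_lit 6) (nat_lit 5) (nat_lit 9) (nat_lit 5) (nat_lit 7) (nat_lit 4) (nat_lit 379) (nat_lit 274) (nat_lit 235)) (XT.nd (nat_lit 94) (nat_lit 0) (nat_lit 0) (XT.lf (nat_lit 0) (nat_lit 2184053604) (nat_lit 252) (nat_lit 12828503683) (nat_lit 84) (nat_lit 9811915377) (nat_lit 6) (nat_lit 5) (nat_lit 9) (nat_lit 5) (nat_lit 7) (nat_lit 4) (nat_lit 380) (nat_lit 274) (nat_lit 234)) (XT.lf (nat_lit 0) (nat_lit 3733506808) (nat_lit 252) (nat_lit 9898657390) (nat_lit 84) (nat_lit 11883152320) (nat_lit 6) (nat_lit 5) (nat_lit 9) (nat_lit 5) (nat_lit 7) (nat_lit 4) (nat_lit 381) (nat_lit 274) (nat_lit 233))))) (XT.nd (nat_lit 282) (nat_lit 84) (nat_lit 0) (XT.nd (nat_lit 94) (nat_lit 0) (nat_lit 0) (XT.lf (nat_lit 0) (nat_lit 5306405005)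 (nat_lit 252) (nat_lit 6914666782) (nat_lit 84) (nat_lit 14007377002) (nat_lit 6) (nat_lit 5) (nat_lit 9) (nat_lit 5) (nat_lit 7) (nat_lit 4) (nat_lit 382) (nat_lit 274) (nat_lit 232)) (XT.nd (nat_lit 94) (nat_lit 0) (nat_lit 0) (XT.lf (nat_lit 0) (nat_lit 6904214302) (nat_lit 252) (nat_lit 3873750465) (nat_lit 84) (nat_lit 16186569423) (nat_lit 6) (nat_lit 5) (nat_lit 9) (nat_lit 5) (nat_lit 7) (nat_lit 4) (nat_lit 383) (nat_lit 274) (nat_lit 231)) (XT.lf (nat_lit 0) (nat_lit 8528424024) (nat_lit 252) (nat_lit 773073988) (nat_lit 84) (nat_lit 18422760819) (nat_lit 6) (nat_lit 5) (nat_lit 9) (nat_lit 5) (nat_lit 7) (nat_lit 4) (nat_lit 384) (nat_lit 274) (nat_lit 230)))) (XT.nd (nat_lit 188) (nat_lit 0) (nat_lit 0) (XT.nd (nat_lit 94) (nat_lit 0) (nat_lit 0) (XT.lf (nat_lit 0) (nat_lit 2439401304) (nat_lit 84) (nat_lit 7765345962) (nat_lit 168) (nat_lit 18302833412) (nat_lit 5) (nat_lit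 5) (nat_lit 6) (nat_lit 5) (nat_lit 7) (nat_lit 4) (nat_lit 385) (nat_lit 274) (nat_lit 229)) (XT.lf (nat_lit 0) (nat_lit 5734720299) (nat_lit 84) (nat_lit 6184295331) (nat_lit 168) (nat_lit 17396701901) (nat_lit 5) (nat_lit 5) (nat_lit 6) (nat_lit 5) (nat_lit 7) (nat_lit 4) (nat_lit 386) (nat_lit 274) (nat_lit 228))) (XT.nd (nat_lit 94) (nat_lit 0) (nat_lit 0) (XT.lf (nat_lit 0) (nat_lit 9100058592) (nat_lit 84) (nat_lit 4564941721) (nat_lit 168) (nat_lit 16484664970) (nat_lit 5) (nat_lit 5) (nat_lit 6) (nat_lit 5) (nat_lit 7) (nat_lit 4) (nat_lit 387) (nat_lit 274) (nat_lit 227)) (XT.lf (nat_lit 0) (nat_lit 12538553030) (nat_lit 84) (nat_lit 2905775725) (nat_lit 168) (nat_lit 15565872506) (nat_lit 5) (nat_lit 5) (nat_lit 6) (nat_lit 5) (nat_lit 7) (nat_lit 4) (nat_lit 388) (nat_lit 274) (nat_lit 226))))))))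
noncomputable def xc38 : XT := (XT.nd (nat_lit 2350) (nat_lit 0) (nat_lit 0) (XT.nd (nat_lit 1128) (nat_lit 168) (nat_lit 0) (XT.nd (nat_lit 564) (nat_lit 84) (nat_lit 0) (XT.nd (nat_lit 282) (nat_lit 0) (nat_lit 0) (XT.nd (nat_lit 94) (nat_lit 0) (nat_lit 0) (XT.lf (nat_lit 0) (nat_lit 16053408650) (nat_lit 84) (nat_lit 1205250826) (nat_lit 168) (nat_lit 14639468098) (nat_lit 5) (nat_lit 5) (nat_lit 6) (nat_lit 5) (nat_lit 7) (nat_lit 4) (nat_lit 389) (nat_lit 274) (nat_lit 225)) (XT.nd (nat_lit 94) (nat_lit 0) (nat_lit 0) (XT.lf (nat_lit 0) (nat_lit 19115022814) (nat_lit 168) (nat_lit 13171709387) (nat_lit 0) (nat_lit 527374148) (nat_lit 5) (nat_lit 5) (nat_lit 7) (nat_lit 4) (nat_lit 5) (nat_lit 4) (nat_lit 390) (nat_lit 274) (nat_lit 224)) (XT.lf (nat_lit 0) (nat_lit 21022203293) (nat_lit 168) (nat_lit 10457182296) (nat_lit 0) (nat_lit 2279387103) (nat_lit 5) (nat_lit 5) (nat_lit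 7) (nat_lit 4) (nat_lit 5) (nat_lit 4) (nat_lit 391) (nat_lit 274) (nat_lit 223)))) (XT.nd (nat_lit 94) (nat_lit 0) (nat_lit 0) (XT.lf (nat_lit 0) (nat_lit 22970022370) (nat_lit 168) (nat_lit 7686651191) (nat_lit 0) (nat_lit 4076704216) (nat_lit 5) (nat_lit 5) (nat_lit 7) (nat_lit 4) (nat_lit 5) (nat_lit 4) (nat_lit 392) (nat_lit 274) (nat_lit 222)) (XT.nd (nat_lit 94) (nat_lit 0) (nat_lit 0) (XT.lf (nat_lit 0) (nat_lit 24960295615) (nat_lit 168) (nat_lit 4857533646) (nat_lit 0) (nat_lit 5921000775) (nat_lit 5) (nat_lit 5) (nat_lit 7) (nat_lit 4) (nat_lit 5) (nat_lit 4) (nat_lit 393) (nat_lit 274) (nat_lit 221)) (XT.lf (nat_lit 0) (nat_lit 26994878172) (nat_lit 168) (nat_lit 1967192627) (nat_lit 0) (nat_lit 7813995857) (nat_lit 5) (nat_lit 5) (nat_lit 7) (nat_lit 4) (nat_lit 5) (nat_lit 4) (nat_lit 394) (nat_lit 274) (nat_lit 220))))) (XT.nd (nat_lit 282) (nat_lit 0) (nat_lit 0)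 (XT.nd (nat_lit 94) (nat_lit 0) (nat_lit 0) (XT.lf (nat_lit 0) (nat_lit 1007362066) (nat_lit 84) (nat_lit 28078297575) (nat_lit 84) (nat_lit 8760085022) (nat_lit 4) (nat_lit 4) (nat_lit 5) (nat_lit 5) (nat_lit 5) (nat_lit 4) (nat_lit 395) (nat_lit 274) (nat_lit 219)) (XT.nd (nat_lit 94) (nat_lit 0) (nat_lit 0) (XT.lf (nat_lit 0) (nat_lit 4090408425) (nat_lit 84) (nat_lit 27154768998) (nat_lit 84) (nat_lit 7703355439) (nat_lit 4) (nat_lit 4) (nat_lit 5) (nat_lit 5) (nat_lit 5) (nat_lit 4) (nat_lit 396) (nat_lit 274) (nat_lit 218)) (XT.lf (nat_lit 0) (nat_lit 7244370656) (nat_lit 84) (nat_lit 26211157700) (nat_lit 84) (nat_lit 6630548209) (nat_lit 4) (nat_lit 4) (nat_lit 5) (nat_lit 5) (nat_lit 5) (nat_lit 4) (nat_lit 397) (nat_lit 274) (nat_lit 217)))) (XT.nd (nat_lit 94) (nat_lit 0) (nat_lit 0) (XT.lf (nat_lit 0) (nat_lit 10472188584) (nat_lit 84) (nat_lit 25246584137) (nat_lit 84)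 (nat_lit 5540663364) (nat_lit 4) (nat_lit 4) (nat_lit 5) (nat_lit 5) (nat_lit 5) (nat_lit 4) (nat_lit 398) (nat_lit 274) (nat_lit 216)) (XT.nd (nat_lit 94) (nat_lit 0) (nat_lit 0) (XT.lf (nat_lit 0) (nat_lit 13776870871) (nat_lit 84) (nat_lit 24260149225) (nat_lit 84) (nat_lit 4432685016) (nat_lit 4) (nat_lit 4) (nat_lit 5) (nat_lit 5) (nat_lit 5) (nat_lit 4) (nat_lit 399) (nat_lit 274) (nat_lit 215)) (XT.lf (nat_lit 0) (nat_lit 17161497829) (nat_lit 84) (nat_lit 23250933503) (nat_lit 84) (nat_lit 3305580413) (nat_lit 4) (nat_lit 4) (nat_lit 5) (nat_lit 5) (nat_lit 5) (nat_lit 4) (nat_lit 400) (nat_lit 274) (nat_lit 214)))))) (XT.nd (nat_lit 564) (nat_lit 84) (nat_lit 0) (XT.nd (nat_lit 282) (nat_lit 0) (nat_lit 0) (XT.nd (nat_lit 94) (nat_lit 84) (nat_lit 0) (XT.lf (nat_lit 0) (nat_lit 20629224284) (nat_lit 84) (nat_lit 22217996277) (nat_lit 84) (nat_lit 2158298977) (nat_lit 4)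 (nat_lit 4) (nat_lit 5) (nat_lit 5) (nat_lit 5) (nat_lit 4) (nat_lit 401) (nat_lit 274) (nat_lit 213)) (XT.nd (nat_lit 94) (nat_lit 84) (nat_lit 0) (XT.lf (nat_lit 0) (nat_lit 24183282520) (nat_lit 84) (nat_lit 21160374741) (nat_lit 84) (nat_lit 989771320) (nat_lit 4) (nat_lit 4) (nat_lit 5) (nat_lit 5) (nat_lit 5) (nat_lit 4) (nat_lit 402) (nat_lit 274) (nat_lit 212)) (XT.lf (nat_lit 0) (nat_lit 197040196) (nat_lit 168) (nat_lit 19877986188) (nat_lit 84) (nat_lit 27627888401) (nat_lit 3) (nat_lit 5) (nat_lit 5) (nat_lit 5) (nat_lit 4) (nat_lit 4) (nat_lit 403) (nat_lit 274) (nat_lit 211)))) (XT.nd (nat_lit 94) (nat_lit 0) (nat_lit 0) (XT.lf (nat_lit 0) (nat_lit 1386883073) (nat_lit 168) (nat_lit 17565752266) (nat_lit 84) (nat_lit 30162369626) (nat_lit 3) (nat_lit 5) (nat_lit 5) (nat_lit 5) (nat_lit 4) (nat_lit 4) (nat_lit 404) (nat_lit 274) (nat_lit 210)) (XT.nd (nat_lit 94) (nat_lit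 0) (nat_lit 0) (XT.lf (nat_lit 0) (nat_lit 2600808055) (nat_lit 168) (nat_lit 15201470395) (nat_lit 84) (nat_lit 32769041262) (nat_lit 3) (nat_lit 5) (nat_lit 5) (nat_lit 5) (nat_lit 4) (nat_lit 4) (nat_lit 405) (nat_lit 274) (nat_lit 209)) (XT.lf (nat_lit 0) (nat_lit 3839946648) (nat_lit 168) (nat_lit 12782936817) (nat_lit 84) (nat_lit 35450333003) (nat_lit 3) (nat_lit 5) (nat_lit 5) (nat_lit 5) (nat_lit 4) (nat_lit 4) (nat_lit 406) (nat_lit 274) (nat_lit 208))))) (XT.nd (nat_lit 282) (nat_lit 84) (nat_lit 0) (XT.nd (nat_lit 94) (nat_lit 0) (nat_lit 0) (XT.lf (nat_lit 0) (nat_lit 5105453858) (nat_lit 168) (nat_lit 10307897207) (nat_lit 84) (nat_lit 38208744091) (nat_lit 3) (nat_lit 5) (nat_lit 5) (nat_lit 5) (nat_lit 4) (nat_lit 4) (nat_lit 407) (nat_lit 274) (nat_lit 207)) (XT.nd (nat_lit 94) (nat_lit 0) (nat_lit 0) (XT.lf (nat_lit 0) (nat_lit 6398509270) (nat_lit 168) (nat_lit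 7774044567) (nat_lit 84) (nat_lit 41046845656) (nat_lit 3) (nat_lit 5) (nat_lit 5) (nat_lit 5) (nat_lit 4) (nat_lit 4) (nat_lit 408) (nat_lit 274) (nat_lit 206)) (XT.lf (nat_lit 0) (nat_lit 7720318148) (nat_lit 168) (nat_lit 5179017082) (nat_lit 84) (nat_lit 43967283105) (nat_lit 3) (nat_lit 5) (nat_lit 5) (nat_lit 5) (nat_lit 4) (nat_lit 4) (nat_lit 409) (nat_lit 274) (nat_lit 205)))) (XT.nd (nat_lit 188) (nat_lit 0) (nat_lit 0) (XT.nd (nat_lit 94) (nat_lit 84) (nat_lit 0) (XT.lf (nat_lit 0) (nat_lit 9072112556) (nat_lit 168) (nat_lit 2520395914) (nat_lit 84) (nat_lit 46972778592) (nat_lit 3) (nat_lit 5) (nat_lit 5) (nat_lit 5) (nat_lit 4) (nat_lit 4) (nat_lit 410) (nat_lit 274) (nat_lit 204)) (XT.lf (nat_lit 0) (nat_lit 208497815) (nat_lit 84) (nat_lit 10248723016) (nat_lit 168) (nat_lit 49859704061) (nat_lit 2) (nat_lit 5) (nat_lit 3) (nat_lit 5) (nat_lit 4) (nat_lit 4) (nat_lit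 411) (nat_lit 274) (nat_lit 203))) (XT.nd (nat_lit 94) (nat_lit 0) (nat_lit 0) (XT.lf (nat_lit 0) (nat_lit 3059238343) (nat_lit 84) (nat_lit 8841836821) (nat_lit 168) (nat_lit 50221340999) (nat_lit 2) (nat_lit 5) (nat_lit 3) (nat_lit 5) (nat_lit 4) (nat_lit 4) (nat_lit 412) (nat_lit 274) (nat_lit 202)) (XT.lf (nat_lit 0) (nat_lit 5982658349) (nat_lit 84) (nat_lit 7396846283) (nat_lit 168) (nat_lit 50604730166) (nat_lit 2) (nat_lit 5) (nat_lit 3) (nat_lit 5) (nat_lit 4) (nat_lit 4) (nat_lit 413) (nat_lit 274) (nat_lit 201))))))) (XT.nd (nat_lit 1222) (nat_lit 0) (nat_lit 0) (XT.nd (nat_lit 564) (nat_lit 0) (nat_lit 0) (XT.nd (nat_lit 282) (nat_lit 0) (nat_lit 0) (XT.nd (nat_lit 94) (nat_lit 0) (nat_lit 0) (XT.lf (nat_lit 0) (nat_lit 8981482765) (nat_lit 84) (nat_lit 5912404521) (nat_lit 168) (nat_lit 51010228923) (nat_lit 2) (nat_lit 5) (nat_lit 3) (nat_lit 5) (nat_lit 4) (nat_lit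 4) (nat_lit 414) (nat_lit 274) (nat_lit 200)) (XT.nd (nat_lit 94) (nat_lit 0) (nat_lit 0) (XT.lf (nat_lit 0) (nat_lit 12058506811) (nat_lit 84) (nat_lit 4387127879) (nat_lit 168) (nat_lit 51438215235) (nat_lit 2) (nat_lit 5) (nat_lit 3) (nat_lit 5) (nat_lit 4) (nat_lit 4) (nat_lit 415) (nat_lit 274) (nat_lit 199)) (XT.lf (nat_lit 0) (nat_lit 15216598596) (nat_lit 84) (nat_lit 2819594640) (nat_lit 168) (nat_lit 51889088033) (nat_lit 2) (nat_lit 5) (nat_lit 3) (nat_lit 5) (nat_lit 4) (nat_lit 4) (nat_lit 416) (nat_lit 274) (nat_lit 198)))) (XT.nd (nat_lit 94) (nat_lit 0) (nat_lit 0) (XT.lf (nat_lit 0) (nat_lit 18458701790) (nat_lit 84) (nat_lit 1208343698) (nat_lit 168) (nat_lit 52363267575) (nat_lit 2) (nat_lit 5) (nat_lit 3) (nat_lit 5) (nat_lit 4) (nat_lit 4) (nat_lit 417) (nat_lit 274) (nat_lit 197)) (XT.nd (nat_lit 94) (nat_lit 0) (nat_lit 0) (XT.lf (nat_lit 0) (nat_lit 21344157048)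 (nat_lit 168) (nat_lit 52417514519) (nat_lit 0) (nat_lit 439098044) (nat_lit 2) (nat_lit 5) (nat_lit 4) (nat_lit 4) (nat_lit 2) (nat_lit 4) (nat_lit 418) (nat_lit 274) (nat_lit 196)) (XT.lf (nat_lit 0) (nat_lit 23077092360) (nat_lit 168) (nat_lit 51253317875) (nat_lit 0) (nat_lit 2108015734) (nat_lit 2) (nat_lit 5) (nat_lit 4) (nat_lit 4) (nat_lit 2) (nat_lit 4) (nat_lit 419) (nat_lit 274) (nat_lit 195))))) (XT.nd (nat_lit 282) (nat_lit 0) (nat_lit 0) (XT.nd (nat_lit 94) (nat_lit 0) (nat_lit 0) (XT.lf (nat_lit 0) (nat_lit 24855479783) (nat_lit 168) (nat_lit 50065949268) (nat_lit 0) (nat_lit 3824310410) (nat_lit 2) (nat_lit 5) (nat_lit 4) (nat_lit 4) (nat_lit 2) (nat_lit 4) (nat_lit 420) (nat_lit 274) (nat_lit 194)) (XT.nd (nat_lit 94) (nat_lit 0) (nat_lit 0) (XT.lf (nat_lit 0) (nat_lit 26680976960) (nat_lit 168) (nat_lit 48854301946) (nat_lit 0) (nat_lit 5589581838) (nat_lit 2) (nat_lit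 5) (nat_lit 4) (nat_lit 4) (nat_lit 2) (nat_lit 4) (nat_lit 421) (nat_lit 274) (nat_lit 193)) (XT.lf (nat_lit 0) (nat_lit 28555285445) (nat_lit 168) (nat_lit 47617246527) (nat_lit 0) (nat_lit 7405475436) (nat_lit 2) (nat_lit 5) (nat_lit 4) (nat_lit 4) (nat_lit 2) (nat_lit 4) (nat_lit 422) (nat_lit 274) (nat_lit 192)))) (XT.nd (nat_lit 188) (nat_lit 0) (nat_lit 0) (XT.nd (nat_lit 94) (nat_lit 0) (nat_lit 0) (XT.lf (nat_lit 0) (nat_lit 30480152291) (nat_lit 168) (nat_lit 46353629946) (nat_lit 0) (nat_lit 9273683807) (nat_lit 2) (nat_lit 5) (nat_lit 4) (nat_lit 4) (nat_lit 2) (nat_lit 4) (nat_lit 423) (nat_lit 274) (nat_lit 191)) (XT.lf (nat_lit 0) (nat_lit 32457371675) (nat_lit 168) (nat_lit 45062274379) (nat_lit 0) (nat_lit 11195948318) (nat_lit 2) (nat_lit 5) (nat_lit 4) (nat_lit 4) (nat_lit 2) (nat_lit 4) (nat_lit 424) (nat_lit 274) (nat_lit 190))) (XT.nd (nat_lit 94) (nat_lit 0)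 (nat_lit 0) (XT.lf (nat_lit 0) (nat_lit 34488786573) (nat_lit 168) (nat_lit 43741976149) (nat_lit 0) (nat_lit 13174060719) (nat_lit 2) (nat_lit 5) (nat_lit 4) (nat_lit 4) (nat_lit 2) (nat_lit 4) (nat_lit 425) (nat_lit 274) (nat_lit 189)) (XT.lf (nat_lit 0) (nat_lit 36576290476) (nat_lit 168) (nat_lit 42391504598) (nat_lit 0) (nat_lit 15209864820) (nat_lit 2) (nat_lit 5) (nat_lit 4) (nat_lit 4) (nat_lit 2) (nat_lit 4) (nat_lit 426) (nat_lit 274) (nat_lit 188)))))) (XT.nd (nat_lit 47470) (nat_lit 0) (nat_lit 2184) (XT.nd (nat_lit 282) (nat_lit 0) (nat_lit 0) (XT.nd (nat_lit 94) (nat_lit 0) (nat_lit 0) (XT.lf (nat_lit 0) (nat_lit 38721829156) (nat_lit 168) (nat_lit 41009600947) (nat_lit 0) (nat_lit 17305258202) (nat_lit 2) (nat_lit 5) (nat_lit 4) (nat_lit 4) (nat_lit 2) (nat_lit 4) (nat_lit 427) (nat_lit 274) (nat_lit 187)) (XT.nd (nat_lit 94) (nat_lit 0) (nat_lit 0) (XT.lf (nat_lit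 0) (nat_lit 40927402480) (nat_lit 168) (nat_lit 39594977115) (nat_lit 0) (nat_lit 19462193992) (nat_lit 2) (nat_lit 5) (nat_lit 4) (nat_lit 4) (nat_lit 2) (nat_lit 4) (nat_lit 428) (nat_lit 274) (nat_lit 186)) (XT.lf (nat_lit 0) (nat_lit 43195066274) (nat_lit 168) (nat_lit 38146314525) (nat_lit 0) (nat_lit 21682682680) (nat_lit 2) (nat_lit 5) (nat_lit 4) (nat_lit 4) (nat_lit 2) (nat_lit 4) (nat_lit 429) (nat_lit 274) (nat_lit 185)))) (XT.nd (nat_lit 188) (nat_lit 0) (nat_lit 0) (XT.lf (nat_lit 0) (nat_lit 45526934238) (nat_lit 168) (nat_lit 36662262872) (nat_lit 0) (nat_lit 23968793994) (nat_lit 2) (nat_lit 5) (nat_lit 4) (nat_lit 4) (nat_lit 2) (nat_lit 4) (nat_lit 430) (nat_lit 274) (nat_lit 184)) (XT.nd (nat_lit 46906) (nat_lit 0) (nat_lit 3108) (XT.lf (nat_lit 0) (nat_lit 50392038727) (nat_lit 168) (nat_lit 33582424936) (nat_lit 0) (nat_lit 28746471234) (nat_lit 2) (nat_lit 5)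 (nat_lit 4) (nat_lit 4) (nat_lit 2) (nat_lit 4) (nat_lit 432) (nat_lit 274) (nat_lit 182)) (XT.lf (nat_lit 0) (nat_lit 790698447) (nat_lit 420) (nat_lit 3081903070) (nat_lit 0) (nat_lit 790698447) (nat_lit 39) (nat_lit 5) (nat_lit 44) (nat_lit 4) (nat_lit 39) (nat_lit 4) (nat_lit 338) (nat_lit 275) (nat_lit 275))))) (XT.nd (nat_lit 282) (nat_lit 588) (nat_lit 0) (XT.nd (nat_lit 94) (nat_lit 336) (nat_lit 0) (XT.lf (nat_lit 0) (nat_lit 4037422365) (nat_lit 420) (nat_lit 2299025564) (nat_lit 0) (nat_lit 3153234088) (nat_lit 39) (nat_lit 5) (nat_lit 44) (nat_lit 4) (nat_lit 39) (nat_lit 4) (nat_lit 339) (nat_lit 275) (nat_lit 274)) (XT.nd (nat_lit 94) (nat_lit 0) (nat_lit 0) (XT.lf (nat_lit 0) (nat_lit 1637669392) (nat_lit 336) (nat_lit 4881975639) (nat_lit 336) (nat_lit 3140184764) (nat_lit 35) (nat_lit 4) (nat_lit 39) (nat_lit 5) (nat_lit 39) (nat_lit 4) (nat_lit 340) (nat_lit 275)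 (nat_lit 273)) (XT.lf (nat_lit 0) (nat_lit 5665069751) (nat_lit 336) (nat_lit 3372754231) (nat_lit 336) (nat_lit 799147064) (nat_lit 35) (nat_lit 4) (nat_lit 39) (nat_lit 5) (nat_lit 39) (nat_lit 4) (nat_lit 341) (nat_lit 275) (nat_lit 272)))) (XT.nd (nat_lit 188) (nat_lit 252) (nat_lit 0) (XT.nd (nat_lit 94) (nat_lit 252) (nat_lit 0) (XT.lf (nat_lit 0) (nat_lit 1517828754) (nat_lit 420) (nat_lit 297702293) (nat_lit 84) (nat_lit 8205985019) (nat_lit 34) (nat_lit 5) (nat_lit 39) (nat_lit 5) (nat_lit 35) (nat_lit 4) (nat_lit 342) (nat_lit 275) (nat_lit 271)) (XT.lf (nat_lit 0) (nat_lit 3685666447) (nat_lit 252) (nat_lit 178747796) (nat_lit 336) (nat_lit 6348317376) (nat_lit 31) (nat_lit 5) (nat_lit 34) (nat_lit 5) (nat_lit 35) (nat_lit 4) (nat_lit 343) (nat_lit 275) (nat_lit 270))) (XT.nd (nat_lit 94) (nat_lit 252) (nat_lit 0) (XT.lf (nat_lit 0) (nat_lit 6240634457) (nat_lit 336) (nat_lit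 2704321241) (nat_lit 0) (nat_lit 1466652159) (nat_lit 31) (nat_lit 5) (nat_lit 35) (nat_lit 4) (nat_lit 31) (nat_lit 4) (nat_lit 344) (nat_lit 275) (nat_lit 269)) (XT.lf (nat_lit 0) (nat_lit 1182914792) (nat_lit 252) (nat_lit 7461790316) (nat_lit 252) (nat_lit 1973749020) (nat_lit 28) (nat_lit 4) (nat_lit 31) (nat_lit 5) (nat_lit 31) (nat_lit 4) (nat_lit 345) (nat_lit 275) (nat_lit 268))))))))
noncomputable def xc39 : XT := (XT.nd (nat_lit 2444) (nat_lit 420) (nat_lit 0) (XT.nd (nat_lit 1222) (nat_lit 504) (nat_lit 0) (XT.nd (nat_lit 564) (nat_lit 504) (nat_lit 0) (XT.nd (nat_lit 282) (nat_lit 252) (nat_lit 0) (XT.nd (nat_lit 94) (nat_lit 252) (nat_lit 0) (XT.lf (nat_lit 0) (nat_lit 254932060) (nat_lit 336) (nat_lit 5662863026) (nat_lit 84) (nat_lit 4915144028) (nat_lit 27) (nat_lit 5) (nat_lit 31) (nat_lit 5) (nat_lit 28) (nat_lit 4) (nat_lit 346) (nat_lit 275) (nat_lit 267)) (XT.nd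 (nat_lit 94) (nat_lit 252) (nat_lit 0) (XT.lf (nat_lit 0) (nat_lit 2454187182) (nat_lit 336) (nat_lit 1867939934) (nat_lit 84) (nat_lit 6733454232) (nat_lit 27) (nat_lit 5) (nat_lit 31) (nat_lit 5) (nat_lit 28) (nat_lit 4) (nat_lit 347) (nat_lit 275) (nat_lit 266)) (XT.lf (nat_lit 0) (nat_lit 2012902538) (nat_lit 252) (nat_lit 2672898628) (nat_lit 336) (nat_lit 6600775148) (nat_lit 24) (nat_lit 5) (nat_lit 27) (nat_lit 5) (nat_lit 28) (nat_lit 4) (nat_lit 348) (nat_lit 275) (nat_lit 265)))) (XT.nd (nat_lit 94) (nat_lit 252) (nat_lit 0) (XT.lf (nat_lit 0) (nat_lit 5982103495) (nat_lit 252) (nat_lit 969170483) (nat_lit 336) (nat_lit 4574883328) (nat_lit 24) (nat_lit 5) (nat_lit 27) (nat_lit 5) (nat_lit 28) (nat_lit 4) (nat_lit 349) (nat_lit 275) (nat_lit 264)) (XT.nd (nat_lit 94) (nat_lit 252) (nat_lit 0) (XT.lf (nat_lit 0) (nat_lit 9241455946) (nat_lit 336) (nat_lit 1777829800) (nat_lit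 0) (nat_lit 755610996) (nat_lit 24) (nat_lit 5) (nat_lit 28) (nat_lit 4) (nat_lit 24) (nat_lit 4) (nat_lit 350) (nat_lit 275) (nat_lit 263)) (XT.lf (nat_lit 0) (nat_lit 2067834683) (nat_lit 252) (nat_lit 9513496600) (nat_lit 252) (nat_lit 450986855) (nat_lit 21) (nat_lit 4) (nat_lit 24) (nat_lit 5) (nat_lit 24) (nat_lit 4) (nat_lit 351) (nat_lit 275) (nat_lit 262))))) (XT.nd (nat_lit 282) (nat_lit 252) (nat_lit 0) (XT.nd (nat_lit 94) (nat_lit 168) (nat_lit 0) (XT.lf (nat_lit 0) (nat_lit 1628932818) (nat_lit 336) (nat_lit 6313472889) (nat_lit 84) (nat_lit 4356105086) (nat_lit 20) (nat_lit 5) (nat_lit 24) (nat_lit 5) (nat_lit 21) (nat_lit 4) (nat_lit 352) (nat_lit 275) (nat_lit 261)) (XT.nd (nat_lit 94) (nat_lit 168) (nat_lit 0) (XT.lf (nat_lit 0) (nat_lit 3713849486) (nat_lit 336) (nat_lit 2621515087) (nat_lit 84) (nat_lit 6239284820) (nat_lit 20) (nat_lit 5) (nat_lit 24) (nat_lit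 5) (nat_lit 21) (nat_lit 4) (nat_lit 353) (nat_lit 275) (nat_lit 260)) (XT.lf (nat_lit 0) (nat_lit 1142320295) (nat_lit 168) (nat_lit 4683804554) (nat_lit 252) (nat_lit 7034653881) (nat_lit 18) (nat_lit 5) (nat_lit 20) (nat_lit 5) (nat_lit 21) (nat_lit 4) (nat_lit 354) (nat_lit 275) (nat_lit 259)))) (XT.nd (nat_lit 188) (nat_lit 252) (nat_lit 0) (XT.nd (nat_lit 94) (nat_lit 0) (nat_lit 0) (XT.lf (nat_lit 0) (nat_lit 5013485020) (nat_lit 168) (nat_lit 2969970701) (nat_lit 252) (nat_lit 5173222216) (nat_lit 18) (nat_lit 5) (nat_lit 20) (nat_lit 5) (nat_lit 21) (nat_lit 4) (nat_lit 355) (nat_lit 275) (nat_lit 258)) (XT.lf (nat_lit 0) (nat_lit 8941683693) (nat_lit 168) (nat_lit 1219628784) (nat_lit 252) (nat_lit 3302133106) (nat_lit 18) (nat_lit 5) (nat_lit 20) (nat_lit 5) (nat_lit 21) (nat_lit 4) (nat_lit 356) (nat_lit 275) (nat_lit 257))) (XT.nd (nat_lit 94) (nat_lit 252) (nat_lit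 0) (XT.lf (nat_lit 0) (nat_lit 12367368194) (nat_lit 252) (nat_lit 856432887) (nat_lit 0) (nat_lit 557391585) (nat_lit 18) (nat_lit 5) (nat_lit 21) (nat_lit 4) (nat_lit 18) (nat_lit 4) (nat_lit 357) (nat_lit 275) (nat_lit 256)) (XT.lf (nat_lit 0) (nat_lit 519579308) (nat_lit 252) (nat_lit 11206415219) (nat_lit 84) (nat_lit 2382951294) (nat_lit 15) (nat_lit 5) (nat_lit 18) (nat_lit 5) (nat_lit 16) (nat_lit 4) (nat_lit 358) (nat_lit 275) (nat_lit 255)))))) (XT.nd (nat_lit 564) (nat_lit 336) (nat_lit 0) (XT.nd (nat_lit 282) (nat_lit 168) (nat_lit 0) (XT.nd (nat_lit 94) (nat_lit 0) (nat_lit 0) (XT.lf (nat_lit 0) (nat_lit 2448868399) (nat_lit 252) (nat_lit 7726151469) (nat_lit 84) (nat_lit 4272695261) (nat_lit 15) (nat_lit 5) (nat_lit 18) (nat_lit 5) (nat_lit 16) (nat_lit 4) (nat_lit 359) (nat_lit 275) (nat_lit 254)) (XT.nd (nat_lit 94) (nat_lit 0) (nat_lit 0) (XT.lf (nat_lit 0) (nat_lit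 4395567217) (nat_lit 252) (nat_lit 4197355144) (nat_lit 84) (nat_lit 6205600317) (nat_lit 15) (nat_lit 5) (nat_lit 18) (nat_lit 5) (nat_lit 16) (nat_lit 4) (nat_lit 360) (nat_lit 275) (nat_lit 253)) (XT.lf (nat_lit 0) (nat_lit 6361490290) (nat_lit 252) (nat_lit 616737038) (nat_lit 84) (nat_lit 8183468134) (nat_lit 15) (nat_lit 5) (nat_lit 18) (nat_lit 5) (nat_lit 16) (nat_lit 4) (nat_lit 361) (nat_lit 275) (nat_lit 252)))) (XT.nd (nat_lit 94) (nat_lit 0) (nat_lit 0) (XT.lf (nat_lit 0) (nat_lit 3081118021) (nat_lit 168) (nat_lit 5297917113) (nat_lit 252) (nat_lit 7157589340) (nat_lit 13) (nat_lit 5) (nat_lit 15) (nat_lit 5) (nat_lit 16) (nat_lit 4) (nat_lit 362) (nat_lit 275) (nat_lit 251)) (XT.nd (nat_lit 94) (nat_lit 0) (nat_lit 0) (XT.lf (nat_lit 0) (nat_lit 6851406550) (nat_lit 168) (nat_lit 3574918860) (nat_lit 252) (nat_lit 5498070244) (nat_lit 13) (nat_lit 5) (nat_lit 15) (nat_lit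 5) (nat_lit 16) (nat_lit 4) (nat_lit 363) (nat_lit 275) (nat_lit 250)) (XT.lf (nat_lit 0) (nat_lit 10684961472) (nat_lit 168) (nat_lit 1814064024) (nat_lit 252) (nat_lit 3826538510) (nat_lit 13) (nat_lit 5) (nat_lit 15) (nat_lit 5) (nat_lit 16) (nat_lit 4) (nat_lit 364) (nat_lit 275) (nat_lit 249))))) (XT.nd (nat_lit 282) (nat_lit 84) (nat_lit 0) (XT.nd (nat_lit 94) (nat_lit 252) (nat_lit 0) (XT.lf (nat_lit 0) (nat_lit 14585356062) (nat_lit 168) (nat_lit 13711305) (nat_lit 252) (nat_lit 2141436093) (nat_lit 13) (nat_lit 5) (nat_lit 15) (nat_lit 5) (nat_lit 16) (nat_lit 4) (nat_lit 365) (nat_lit 275) (nat_lit 248)) (XT.nd (nat_lit 94) (nat_lit 84) (nat_lit 0) (XT.lf (nat_lit 0) (nat_lit 1396631957) (nat_lit 168) (nat_lit 15363763461) (nat_lit 168) (nat_lit 408213771) (nat_lit 11) (nat_lit 4) (nat_lit 13) (nat_lit 5) (nat_lit 13) (nat_lit 4) (nat_lit 366) (nat_lit 275) (nat_lit 247))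 (XT.lf (nat_lit 0) (nat_lit 1337915128) (nat_lit 252) (nat_lit 12571108551) (nat_lit 84) (nat_lit 3701116844) (nat_lit 10) (nat_lit 5) (nat_lit 13) (nat_lit 5) (nat_lit 11) (nat_lit 4) (nat_lit 367) (nat_lit 275) (nat_lit 246)))) (XT.nd (nat_lit 188) (nat_lit 84) (nat_lit 0) (XT.nd (nat_lit 94) (nat_lit 0) (nat_lit 0) (XT.lf (nat_lit 0) (nat_lit 3094863781) (nat_lit 252) (nat_lit 9325601790) (nat_lit 84) (nat_lit 5646012783) (nat_lit 10) (nat_lit 5) (nat_lit 13) (nat_lit 5) (nat_lit 11) (nat_lit 4) (nat_lit 368) (nat_lit 275) (nat_lit 245)) (XT.lf (nat_lit 0) (nat_lit 4872494444) (nat_lit 252) (nat_lit 6028382267) (nat_lit 84) (nat_lit 7637296861) (nat_lit 10) (nat_lit 5) (nat_lit 13) (nat_lit 5) (nat_lit 11) (nat_lit 4) (nat_lit 369) (nat_lit 275) (nat_lit 244))) (XT.nd (nat_lit 94) (nat_lit 84) (nat_lit 0) (XT.lf (nat_lit 0) (nat_lit 6672464056) (nat_lit 252) (nat_lit 2676376627)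 (nat_lit 84) (nat_lit 9676825165) (nat_lit 10) (nat_lit 5) (nat_lit 13) (nat_lit 5) (nat_lit 11) (nat_lit 4) (nat_lit 370) (nat_lit 275) (nat_lit 243)) (XT.lf (nat_lit 0) (nat_lit 748622627) (nat_lit 84) (nat_lit 7755254179) (nat_lit 168) (nat_lit 11025302550) (nat_lit 9) (nat_lit 5) (nat_lit 10) (nat_lit 5) (nat_lit 11) (nat_lit 4) (nat_lit 371) (nat_lit 275) (nat_lit 242))))))) (XT.nd (nat_lit 1222) (nat_lit 168) (nat_lit 0) (XT.nd (nat_lit 564) (nat_lit 84) (nat_lit 0) (XT.nd (nat_lit 282) (nat_lit 168) (nat_lit 0) (XT.nd (nat_lit 94) (nat_lit 0) (nat_lit 0) (XT.lf (nat_lit 0) (nat_lit 4290998723) (nat_lit 84) (nat_lit 6097722068) (nat_lit 168) (nat_lit 9659833919) (nat_lit 9) (nat_lit 5) (nat_lit 10) (nat_lit 5) (nat_lit 11) (nat_lit 4) (nat_lit 372) (nat_lit 275) (nat_lit 241)) (XT.nd (nat_lit 94) (nat_lit 0) (nat_lit 0) (XT.lf (nat_lit 0) (nat_lit 7899021735) (nat_lit 84) (nat_lit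 4402635239) (nat_lit 168) (nat_lit 8283459023) (nat_lit 9) (nat_lit 5) (nat_lit 10) (nat_lit 5) (nat_lit 11) (nat_lit 4) (nat_lit 373) (nat_lit 275) (nat_lit 240)) (XT.lf (nat_lit 0) (nat_lit 11576054717) (nat_lit 84) (nat_lit 2668413694) (nat_lit 168) (nat_lit 6894894937) (nat_lit 9) (nat_lit 5) (nat_lit 10) (nat_lit 5) (nat_lit 11) (nat_lit 4) (nat_lit 374) (nat_lit 275) (nat_lit 239)))) (XT.nd (nat_lit 94) (nat_lit 168) (nat_lit 0) (XT.lf (nat_lit 0) (nat_lit 15325525050) (nat_lit 84) (nat_lit 893440957) (nat_lit 168) (nat_lit 5492847373) (nat_lit 9) (nat_lit 5) (nat_lit 10) (nat_lit 5) (nat_lit 11) (nat_lit 4) (nat_lit 375) (nat_lit 275) (nat_lit 238)) (XT.nd (nat_lit 94) (nat_lit 168) (nat_lit 0) (XT.lf (nat_lit 0) (nat_lit 18236155775) (nat_lit 168) (nat_lit 3161237618) (nat_lit 0) (nat_lit 905322151) (nat_lit 9) (nat_lit 5) (nat_lit 11) (nat_lit 4) (nat_lit 9) (nat_lit 4)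 (nat_lit 376) (nat_lit 275) (nat_lit 237)) (XT.lf (nat_lit 0) (nat_lit 117082134) (nat_lit 168) (nat_lit 20182123682) (nat_lit 168) (nat_lit 2613374881) (nat_lit 7) (nat_lit 4) (nat_lit 9) (nat_lit 5) (nat_lit 9) (nat_lit 4) (nat_lit 377) (nat_lit 275) (nat_lit 236))))) (XT.nd (nat_lit 282) (nat_lit 0) (nat_lit 0) (XT.nd (nat_lit 94) (nat_lit 84) (nat_lit 0) (XT.lf (nat_lit 0) (nat_lit 3524521940) (nat_lit 168) (nat_lit 18908132328) (nat_lit 168) (nat_lit 1108621960) (nat_lit 7) (nat_lit 4) (nat_lit 9) (nat_lit 5) (nat_lit 9) (nat_lit 4) (nat_lit 378) (nat_lit 275) (nat_lit 235)) (XT.nd (nat_lit 94) (nat_lit 0) (nat_lit 0) (XT.lf (nat_lit 0) (nat_lit 407721160) (nat_lit 252) (nat_lit 17195251744) (nat_lit 84) (nat_lit 6587279428) (nat_lit 6) (nat_lit 5) (nat_lit 9) (nat_lit 5) (nat_lit 7) (nat_lit 4) (nat_lit 379) (nat_lit 275) (nat_lit 234)) (XT.lf (nat_lit 0) (nat_lit 1922691946)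 (nat_lit 252) (nat_lit 14335439241) (nat_lit 84) (nat_lit 8601763306) (nat_lit 6) (nat_lit 5) (nat_lit 9) (nat_lit 5) (nat_lit 7) (nat_lit 4) (nat_lit 380) (nat_lit 275) (nat_lit 233)))) (XT.nd (nat_lit 188) (nat_lit 0) (nat_lit 0) (XT.nd (nat_lit 94) (nat_lit 0) (nat_lit 0) (XT.lf (nat_lit 0) (nat_lit 3460038771) (nat_lit 252) (nat_lit 11423653470) (nat_lit 84) (nat_lit 10667475578) (nat_lit 6) (nat_lit 5) (nat_lit 9) (nat_lit 5) (nat_lit 7) (nat_lit 4) (nat_lit 381) (nat_lit 275) (nat_lit 232)) (XT.lf (nat_lit 0) (nat_lit 5021194602) (nat_lit 252) (nat_lit 8457180341) (nat_lit 84) (nat_lit 12786341705) (nat_lit 6) (nat_lit 5) (nat_lit 9) (nat_lit 5) (nat_lit 7) (nat_lit 4) (nat_lit 382) (nat_lit 275) (nat_lit 231))) (XT.nd (nat_lit 94) (nat_lit 0) (nat_lit 0) (XT.lf (nat_lit 0) (nat_lit 6607614602) (nat_lit 252) (nat_lit 5433254790) (nat_lit 84) (nat_lit 14960336691) (nat_lit 6)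 (nat_lit 5) (nat_lit 9) (nat_lit 5) (nat_lit 7) (nat_lit 4) (nat_lit 383) (nat_lit 275) (nat_lit 230)) (XT.lf (nat_lit 0) (nat_lit 8220777478) (nat_lit 252) (nat_lit 2349058202) (nat_lit 84) (nat_lit 17191486928) (nat_lit 6) (nat_lit 5) (nat_lit 9) (nat_lit 5) (nat_lit 7) (nat_lit 4) (nat_lit 384) (nat_lit 275) (nat_lit 229)))))) (XT.nd (nat_lit 564) (nat_lit 84) (nat_lit 0) (XT.nd (nat_lit 282) (nat_lit 0) (nat_lit 0) (XT.nd (nat_lit 94) (nat_lit 0) (nat_lit 0) (XT.lf (nat_lit 0) (nat_lit 814698577) (nat_lit 84) (nat_lit 9055570202) (nat_lit 168) (nat_lit 18675255414) (nat_lit 5) (nat_lit 5) (nat_lit 6) (nat_lit 5) (nat_lit 7) (nat_lit 4) (nat_lit 385) (nat_lit 275) (nat_lit 228)) (XT.nd (nat_lit 94) (nat_lit 0) (nat_lit 0) (XT.lf (nat_lit 0) (nat_lit 4094195026) (nat_lit 84) (nat_lit 7479792633) (nat_lit 168) (nat_lit 17780046925) (nat_lit 5) (nat_lit 5) (nat_lit 6) (nat_lit 5)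 (nat_lit 7) (nat_lit 4) (nat_lit 386) (nat_lit 275) (nat_lit 227)) (XT.lf (nat_lit 0) (nat_lit 7444186523) (nat_lit 84) (nat_lit 5865553536) (nat_lit 168) (nat_lit 16878604583) (nat_lit 5) (nat_lit 5) (nat_lit 6) (nat_lit 5) (nat_lit 7) (nat_lit 4) (nat_lit 387) (nat_lit 275) (nat_lit 226)))) (XT.nd (nat_lit 94) (nat_lit 0) (nat_lit 0) (XT.lf (nat_lit 0) (nat_lit 10867795611) (nat_lit 84) (nat_lit 4211348270) (nat_lit 168) (nat_lit 15970088152) (nat_lit 5) (nat_lit 5) (nat_lit 6) (nat_lit 5) (nat_lit 7) (nat_lit 4) (nat_lit 388) (nat_lit 275) (nat_lit 225)) (XT.nd (nat_lit 94) (nat_lit 0) (nat_lit 0) (XT.lf (nat_lit 0) (nat_lit 14368213453) (nat_lit 84) (nat_lit 2515634943) (nat_lit 168) (nat_lit 15053650798) (nat_lit 5) (nat_lit 5) (nat_lit 6) (nat_lit 5) (nat_lit 7) (nat_lit 4) (nat_lit 389) (nat_lit 275) (nat_lit 224)) (XT.lf (nat_lit 0) (nat_lit 17948702805) (nat_lit 84) (nat_lit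 776832972) (nat_lit 168) (nat_lit 14128438306) (nat_lit 5) (nat_lit 5) (nat_lit 6) (nat_lit 5) (nat_lit 7) (nat_lit 4) (nat_lit 390) (nat_lit 275) (nat_lit 223))))) (XT.nd (nat_lit 282) (nat_lit 84) (nat_lit 0) (XT.nd (nat_lit 94) (nat_lit 0) (nat_lit 0) (XT.lf (nat_lit 0) (nat_lit 20615909043) (nat_lit 168) (nat_lit 12196896266) (nat_lit 0) (nat_lit 986396062) (nat_lit 5) (nat_lit 5) (nat_lit 7) (nat_lit 4) (nat_lit 5) (nat_lit 4) (nat_lit 391) (nat_lit 275) (nat_lit 222)) (XT.nd (nat_lit 94) (nat_lit 0) (nat_lit 0) (XT.lf (nat_lit 0) (nat_lit 22554900831) (nat_lit 168) (nat_lit 9439806827) (nat_lit 0) (nat_lit 2779411164) (nat_lit 5) (nat_lit 5) (nat_lit 7) (nat_lit 4) (nat_lit 5) (nat_lit 4) (nat_lit 392) (nat_lit 275) (nat_lit 221)) (XT.lf (nat_lit 0) (nat_lit 24536612205) (nat_lit 168) (nat_lit 6623726786) (nat_lit 0) (nat_lit 4619535064) (nat_lit 5) (nat_lit 5) (nat_lit 7)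 (nat_lit 4) (nat_lit 5) (nat_lit 4) (nat_lit 393) (nat_lit 275) (nat_lit 220)))) (XT.nd (nat_lit 188) (nat_lit 84) (nat_lit 0) (XT.nd (nat_lit 94) (nat_lit 0) (nat_lit 0) (XT.lf (nat_lit 0) (nat_lit 26562890329) (nat_lit 168) (nat_lit 3746031260) (nat_lit 0) (nat_lit 6508482950) (nat_lit 5) (nat_lit 5) (nat_lit 7) (nat_lit 4) (nat_lit 5) (nat_lit 4) (nat_lit 394) (nat_lit 275) (nat_lit 219)) (XT.lf (nat_lit 0) (nat_lit 28635623905) (nat_lit 168) (nat_lit 804037938) (nat_lit 0) (nat_lit 8448015520) (nat_lit 5) (nat_lit 5) (nat_lit 7) (nat_lit 4) (nat_lit 5) (nat_lit 4) (nat_lit 395) (nat_lit 275) (nat_lit 218))) (XT.nd (nat_lit 94) (nat_lit 0) (nat_lit 0) (XT.lf (nat_lit 0) (nat_lit 2250334656) (nat_lit 84) (nat_lit 28528733881) (nat_lit 84) (nat_lit 8211929563) (nat_lit 4) (nat_lit 4) (nat_lit 5) (nat_lit 5) (nat_lit 5) (nat_lit 4) (nat_lit 396) (nat_lit 275) (nat_lit 217)) (XT.lf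 (nat_lit 0) (nat_lit 5392520850) (nat_lit 84) (nat_lit 27589204161) (nat_lit 84) (nat_lit 7147088561) (nat_lit 4) (nat_lit 4) (nat_lit 5) (nat_lit 5) (nat_lit 5) (nat_lit 4) (nat_lit 397) (nat_lit 275) (nat_lit 216))))))))
noncomputable def xc40 : XT := (XT.nd (nat_lit 2350) (nat_lit 0) (nat_lit 0) (XT.nd (nat_lit 1128) (nat_lit 84) (nat_lit 0) (XT.nd (nat_lit 564) (nat_lit 84) (nat_lit 0) (XT.nd (nat_lit 282) (nat_lit 0) (nat_lit 0) (XT.nd (nat_lit 94) (nat_lit 0) (nat_lit 0) (XT.lf (nat_lit 0) (nat_lit 8608916820) (nat_lit 84) (nat_lit 26628589451) (nat_lit 84) (nat_lit 6064930416) (nat_lit 4) (nat_lit 4) (nat_lit 5) (nat_lit 5) (nat_lit 5) (nat_lit 4) (nat_lit 398) (nat_lit 275) (nat_lit 215)) (XT.nd (nat_lit 94) (nat_lit 0) (nat_lit 0) (XT.lf (nat_lit 0) (nat_lit 11902520584) (nat_lit 84) (nat_lit 25645994358) (nat_lit 84) (nat_lit 4964446442) (nat_lit 4) (nat_lit 4) (nat_lit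 5) (nat_lit 5) (nat_lit 5) (nat_lit 4) (nat_lit 399) (nat_lit 275) (nat_lit 214)) (XT.lf (nat_lit 0) (nat_lit 15276402126) (nat_lit 84) (nat_lit 24640503000) (nat_lit 84) (nat_lit 3844610874) (nat_lit 4) (nat_lit 4) (nat_lit 5) (nat_lit 5) (nat_lit 5) (nat_lit 4) (nat_lit 400) (nat_lit 275) (nat_lit 213)))) (XT.nd (nat_lit 94) (nat_lit 0) (nat_lit 0) (XT.lf (nat_lit 0) (nat_lit 18733706258) (nat_lit 84) (nat_lit 23611178154) (nat_lit 84) (nat_lit 2704379907) (nat_lit 4) (nat_lit 4) (nat_lit 5) (nat_lit 5) (nat_lit 5) (nat_lit 4) (nat_lit 401) (nat_lit 275) (nat_lit 212)) (XT.nd (nat_lit 94) (nat_lit 0) (nat_lit 0) (XT.lf (nat_lit 0) (nat_lit 22277655549) (nat_lit 84) (nat_lit 22557060381) (nat_lit 84) (nat_lit 1542690727) (nat_lit 4) (nat_lit 4) (nat_lit 5) (nat_lit 5) (nat_lit 5) (nat_lit 4) (nat_lit 402) (nat_lit 275) (nat_lit 211)) (XT.lf (nat_lit 0) (nat_lit 25911553330) (nat_lit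 84) (nat_lit 21477167133) (nat_lit 84) (nat_lit 358460518) (nat_lit 4) (nat_lit 4) (nat_lit 5) (nat_lit 5) (nat_lit 5) (nat_lit 4) (nat_lit 403) (nat_lit 275) (nat_lit 210))))) (XT.nd (nat_lit 282) (nat_lit 0) (nat_lit 0) (XT.nd (nat_lit 94) (nat_lit 0) (nat_lit 0) (XT.lf (nat_lit 0) (nat_lit 832300735) (nat_lit 168) (nat_lit 19529503588) (nat_lit 84) (nat_lit 28797798526) (nat_lit 3) (nat_lit 5) (nat_lit 5) (nat_lit 5) (nat_lit 4) (nat_lit 4) (nat_lit 404) (nat_lit 275) (nat_lit 209)) (XT.nd (nat_lit 94) (nat_lit 0) (nat_lit 0) (XT.lf (nat_lit 0) (nat_lit 2040111457) (nat_lit 168) (nat_lit 17174596917) (nat_lit 84) (nat_lit 31401424020) (nat_lit 3) (nat_lit 5) (nat_lit 5) (nat_lit 5) (nat_lit 4) (nat_lit 4) (nat_lit 405) (nat_lit 275) (nat_lit 208)) (XT.lf (nat_lit 0) (nat_lit 3273319631) (nat_lit 168) (nat_lit 14765156647) (nat_lit 84) (nat_lit 34079761208) (nat_lit 3) (nat_lit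 5) (nat_lit 5) (nat_lit 5) (nat_lit 4) (nat_lit 4) (nat_lit 406) (nat_lit 275) (nat_lit 207)))) (XT.nd (nat_lit 94) (nat_lit 0) (nat_lit 0) (XT.lf (nat_lit 0) (nat_lit 4533074738) (nat_lit 168) (nat_lit 12298936928) (nat_lit 84) (nat_lit 36835306581) (nat_lit 3) (nat_lit 5) (nat_lit 5) (nat_lit 5) (nat_lit 4) (nat_lit 4) (nat_lit 407) (nat_lit 275) (nat_lit 206)) (XT.nd (nat_lit 94) (nat_lit 0) (nat_lit 0) (XT.lf (nat_lit 0) (nat_lit 5820551001) (nat_lit 168) (nat_lit 9773638984) (nat_lit 84) (nat_lit 39670628596) (nat_lit 3) (nat_lit 5) (nat_lit 5) (nat_lit 5) (nat_lit 4) (nat_lit 4) (nat_lit 408) (nat_lit 275) (nat_lit 205)) (XT.lf (nat_lit 0) (nat_lit 7136948483) (nat_lit 168) (nat_lit 7186908972) (nat_lit 84) (nat_lit 42588370071) (nat_lit 3) (nat_lit 5) (nat_lit 5) (nat_lit 5) (nat_lit 4) (nat_lit 4) (nat_lit 409) (nat_lit 275) (nat_lit 204)))))) (XT.nd (nat_lit 564) (nat_lit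 0) (nat_lit 0) (XT.nd (nat_lit 282) (nat_lit 0) (nat_lit 0) (XT.nd (nat_lit 94) (nat_lit 84) (nat_lit 0) (XT.lf (nat_lit 0) (nat_lit 8483494204) (nat_lit 168) (nat_lit 4536335791) (nat_lit 84) (nat_lit 45591250647) (nat_lit 3) (nat_lit 5) (nat_lit 5) (nat_lit 5) (nat_lit 4) (nat_lit 4) (nat_lit 410) (nat_lit 275) (nat_lit 203)) (XT.nd (nat_lit 94) (nat_lit 84) (nat_lit 0) (XT.lf (nat_lit 0) (nat_lit 9861443286) (nat_lit 168) (nat_lit 1819448827) (nat_lit 84) (nat_lit 48682069321) (nat_lit 3) (nat_lit 5) (nat_lit 5) (nat_lit 5) (nat_lit 4) (nat_lit 4) (nat_lit 411) (nat_lit 275) (nat_lit 202)) (XT.lf (nat_lit 0) (nat_lit 986153129) (nat_lit 84) (nat_lit 10295709753) (nat_lit 168) (nat_lit 50887336693) (nat_lit 2) (nat_lit 5) (nat_lit 3) (nat_lit 5) (nat_lit 4) (nat_lit 4) (nat_lit 412) (nat_lit 275) (nat_lit 201)))) (XT.nd (nat_lit 94) (nat_lit 0) (nat_lit 0) (XT.lf (nat_lit 0) (nat_lit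 3902078497) (nat_lit 84) (nat_lit 8853350177) (nat_lit 168) (nat_lit 51275760092) (nat_lit 2) (nat_lit 5) (nat_lit 3) (nat_lit 5) (nat_lit 4) (nat_lit 4) (nat_lit 413) (nat_lit 275) (nat_lit 200)) (XT.nd (nat_lit 94) (nat_lit 0) (nat_lit 0) (XT.lf (nat_lit 0) (nat_lit 6893633624) (nat_lit 84) (nat_lit 7371460268) (nat_lit 168) (nat_lit 51686141712) (nat_lit 2) (nat_lit 5) (nat_lit 3) (nat_lit 5) (nat_lit 4) (nat_lit 4) (nat_lit 414) (nat_lit 275) (nat_lit 199)) (XT.lf (nat_lit 0) (nat_lit 9963606953) (nat_lit 84) (nat_lit 5848658751) (nat_lit 168) (nat_lit 52118864070) (nat_lit 2) (nat_lit 5) (nat_lit 3) (nat_lit 5) (nat_lit 4) (nat_lit 4) (nat_lit 415) (nat_lit 275) (nat_lit 198))))) (XT.nd (nat_lit 282) (nat_lit 0) (nat_lit 0) (XT.nd (nat_lit 94) (nat_lit 0) (nat_lit 0) (XT.lf (nat_lit 0) (nat_lit 13114860020) (nat_lit 84) (nat_lit 4283526215) (nat_lit 168) (nat_lit 52574330510)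 (nat_lit 2) (nat_lit 5) (nat_lit 3) (nat_lit 5) (nat_lit 4) (nat_lit 4) (nat_lit 416) (nat_lit 275) (nat_lit 197)) (XT.nd (nat_lit 94) (nat_lit 0) (nat_lit 0) (XT.lf (nat_lit 0) (nat_lit 16350330123) (nat_lit 84) (nat_lit 2674603792) (nat_lit 168) (nat_lit 53052965573) (nat_lit 2) (nat_lit 5) (nat_lit 3) (nat_lit 5) (nat_lit 4) (nat_lit 4) (nat_lit 417) (nat_lit 275) (nat_lit 196)) (XT.lf (nat_lit 0) (nat_lit 19673033060) (nat_lit 84) (nat_lit 1020391798) (nat_lit 168) (nat_lit 53555215399) (nat_lit 2) (nat_lit 5) (nat_lit 3) (nat_lit 5) (nat_lit 4) (nat_lit 4) (nat_lit 418) (nat_lit 275) (nat_lit 195)))) (XT.nd (nat_lit 188) (nat_lit 0) (nat_lit 0) (XT.nd (nat_lit 94) (nat_lit 0) (nat_lit 0) (XT.lf (nat_lit 0) (nat_lit 22412166421) (nat_lit 168) (nat_lit 53407648620) (nat_lit 0) (nat_lit 666938050) (nat_lit 2) (nat_lit 5) (nat_lit 4) (nat_lit 4) (nat_lit 2) (nat_lit 4) (nat_lit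 419) (nat_lit 275) (nat_lit 194)) (XT.lf (nat_lit 0) (nat_lit 24186604924) (nat_lit 168) (nat_lit 52226449245) (nat_lit 0) (nat_lit 2381150805) (nat_lit 2) (nat_lit 5) (nat_lit 4) (nat_lit 4) (nat_lit 2) (nat_lit 4) (nat_lit 420) (nat_lit 275) (nat_lit 193))) (XT.nd (nat_lit 94) (nat_lit 0) (nat_lit 0) (XT.lf (nat_lit 0) (nat_lit 26008271917) (nat_lit 168) (nat_lit 51020785660) (nat_lit 0) (nat_lit 4144402910) (nat_lit 2) (nat_lit 5) (nat_lit 4) (nat_lit 4) (nat_lit 2) (nat_lit 4) (nat_lit 421) (nat_lit 275) (nat_lit 192)) (XT.lf (nat_lit 0) (nat_lit 27878865384) (nat_lit 168) (nat_lit 49789534060) (nat_lit 0) (nat_lit 5958337903) (nat_lit 2) (nat_lit 5) (nat_lit 4) (nat_lit 4) (nat_lit 2) (nat_lit 4) (nat_lit 422) (nat_lit 275) (nat_lit 191))))))) (XT.nd (nat_lit 47846) (nat_lit 0) (nat_lit 1596) (XT.nd (nat_lit 564) (nat_lit 0) (nat_lit 0) (XT.nd (nat_lit 282) (nat_lit 0) (nat_lit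 0) (XT.nd (nat_lit 94) (nat_lit 0) (nat_lit 0) (XT.lf (nat_lit 0) (nat_lit 29800128914) (nat_lit 168) (nat_lit 48531546789) (nat_lit 0) (nat_lit 7824646559) (nat_lit 2) (nat_lit 5) (nat_lit 4) (nat_lit 4) (nat_lit 2) (nat_lit 4) (nat_lit 423) (nat_lit 275) (nat_lit 190)) (XT.nd (nat_lit 94) (nat_lit 0) (nat_lit 0) (XT.lf (nat_lit 0) (nat_lit 31773853327) (nat_lit 168) (nat_lit 47245651271) (nat_lit 0) (nat_lit 9745068476) (nat_lit 2) (nat_lit 5) (nat_lit 4) (nat_lit 4) (nat_lit 2) (nat_lit 4) (nat_lit 424) (nat_lit 275) (nat_lit 189)) (XT.lf (nat_lit 0) (nat_lit 33801878339) (nat_lit 168) (nat_lit 45930648917) (nat_lit 0) (nat_lit 11721393686) (nat_lit 2) (nat_lit 5) (nat_lit 4) (nat_lit 4) (nat_lit 2) (nat_lit 4) (nat_lit 425) (nat_lit 275) (nat_lit 188)))) (XT.nd (nat_lit 94) (nat_lit 0) (nat_lit 0) (XT.lf (nat_lit 0) (nat_lit 35886094284) (nat_lit 168) (nat_lit 44585314007) (nat_lit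 0) (nat_lit 13755464332) (nat_lit 2) (nat_lit 5) (nat_lit 4) (nat_lit 4) (nat_lit 2) (nat_lit 4) (nat_lit 426) (nat_lit 275) (nat_lit 187)) (XT.nd (nat_lit 94) (nat_lit 0) (nat_lit 0) (XT.lf (nat_lit 0) (nat_lit 38028443867) (nat_lit 168) (nat_lit 43208392548) (nat_lit 0) (nat_lit 15849176382) (nat_lit 2) (nat_lit 5) (nat_lit 4) (nat_lit 4) (nat_lit 2) (nat_lit 4) (nat_lit 427) (nat_lit 275) (nat_lit 186)) (XT.lf (nat_lit 0) (nat_lit 40230923985) (nat_lit 168) (nat_lit 41798601104) (nat_lit 0) (nat_lit 18004481393) (nat_lit 2) (nat_lit 5) (nat_lit 4) (nat_lit 4) (nat_lit 2) (nat_lit 4) (nat_lit 428) (nat_lit 275) (nat_lit 185))))) (XT.nd (nat_lit 282) (nat_lit 0) (nat_lit 0) (XT.nd (nat_lit 94) (nat_lit 0) (nat_lit 0) (XT.lf (nat_lit 0) (nat_lit 42495587578) (nat_lit 168) (nat_lit 40354625603) (nat_lit 0) (nat_lit 20223388336) (nat_lit 2) (nat_lit 5) (nat_lit 4) (nat_lit 4) (nat_lit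 2) (nat_lit 4) (nat_lit 429) (nat_lit 275) (nat_lit 184)) (XT.nd (nat_lit 94) (nat_lit 0) (nat_lit 0) (XT.lf (nat_lit 0) (nat_lit 44824545551) (nat_lit 168) (nat_lit 38875120109) (nat_lit 0) (nat_lit 22507965465) (nat_lit 2) (nat_lit 5) (nat_lit 4) (nat_lit 4) (nat_lit 2) (nat_lit 4) (nat_lit 430) (nat_lit 275) (nat_lit 183)) (XT.lf (nat_lit 0) (nat_lit 47219968736) (nat_lit 168) (nat_lit 37358705566) (nat_lit 0) (nat_lit 24860342245) (nat_lit 2) (nat_lit 5) (nat_lit 4) (nat_lit 4) (nat_lit 2) (nat_lit 4) (nat_lit 431) (nat_lit 275) (nat_lit 182)))) (XT.nd (nat_lit 46812) (nat_lit 0) (nat_lit 3108) (XT.nd (nat_lit 46718) (nat_lit 0) (nat_lit 3528) (XT.lf (nat_lit 0) (nat_lit 49684089919) (nat_lit 168) (nat_lit 35803968518) (nat_lit 0) (nat_lit 27282711337) (nat_lit 2) (nat_lit 5) (nat_lit 4) (nat_lit 4) (nat_lit 2) (nat_lit 4) (nat_lit 432) (nat_lit 275) (nat_lit 181)) (XT.lf (nat_lit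 0) (nat_lit 2169369984) (nat_lit 420) (nat_lit 1169891050) (nat_lit 420) (nat_lit 1169891050) (nat_lit 44) (nat_lit 4) (nat_lit 49) (nat_lit 5) (nat_lit 49) (nat_lit 4) (nat_lit 336) (nat_lit 276) (nat_lit 276))) (XT.nd (nat_lit 94) (nat_lit 336) (nat_lit 0) (XT.lf (nat_lit 0) (nat_lit 61656270) (nat_lit 504) (nat_lit 814633771) (nat_lit 84) (nat_lit 8294117336) (nat_lit 43) (nat_lit 5) (nat_lit 49) (nat_lit 5) (nat_lit 44) (nat_lit 4) (nat_lit 337) (nat_lit 276) (nat_lit 275)) (XT.lf (nat_lit 0) (nat_lit 2459397162) (nat_lit 420) (nat_lit 6204868065) (nat_lit 0) (nat_lit 663610770) (nat_lit 39) (nat_lit 5) (nat_lit 44) (nat_lit 4) (nat_lit 39) (nat_lit 4) (nat_lit 338) (nat_lit 276) (nat_lit 274)))))) (XT.nd (nat_lit 564) (nat_lit 840) (nat_lit 0) (XT.nd (nat_lit 282) (nat_lit 336) (nat_lit 0) (XT.nd (nat_lit 94) (nat_lit 336) (nat_lit 0) (XT.lf (nat_lit 0) (nat_lit 4882835002)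 (nat_lit 420) (nat_lit 2379914769) (nat_lit 0) (nat_lit 2229446012) (nat_lit 39) (nat_lit 5) (nat_lit 44) (nat_lit 4) (nat_lit 39) (nat_lit 4) (nat_lit 339) (nat_lit 276) (nat_lit 273)) (XT.nd (nat_lit 94) (nat_lit 0) (nat_lit 0) (XT.lf (nat_lit 0) (nat_lit 1515692874) (nat_lit 336) (nat_lit 5816546980) (nat_lit 336) (nat_lit 2331341699) (nat_lit 35) (nat_lit 4) (nat_lit 39) (nat_lit 5) (nat_lit 39) (nat_lit 4) (nat_lit 340) (nat_lit 276) (nat_lit 272)) (XT.lf (nat_lit 0) (nat_lit 5504854569) (nat_lit 336) (nat_lit 4314527497) (nat_lit 336) (nat_lit 22516888) (nat_lit 35) (nat_lit 4) (nat_lit 39) (nat_lit 5) (nat_lit 39) (nat_lit 4) (nat_lit 341) (nat_lit 276) (nat_lit 271)))) (XT.nd (nat_lit 94) (nat_lit 252) (nat_lit 0) (XT.lf (nat_lit 0) (nat_lit 2248196751) (nat_lit 420) (nat_lit 508469395) (nat_lit 84) (nat_lit 7270689386) (nat_lit 34) (nat_lit 5) (nat_lit 39) (nat_lit 5) (nat_lit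 35) (nat_lit 4) (nat_lit 342) (nat_lit 276) (nat_lit 270)) (XT.nd (nat_lit 94) (nat_lit 0) (nat_lit 0) (XT.lf (nat_lit 0) (nat_lit 3433029700) (nat_lit 252) (nat_lit 1129552064) (nat_lit 336) (nat_lit 5657182815) (nat_lit 31) (nat_lit 5) (nat_lit 34) (nat_lit 5) (nat_lit 35) (nat_lit 4) (nat_lit 343) (nat_lit 276) (nat_lit 269)) (XT.lf (nat_lit 0) (nat_lit 6900135406) (nat_lit 336) (nat_lit 2991987648) (nat_lit 0) (nat_lit 527905833) (nat_lit 31) (nat_lit 5) (nat_lit 35) (nat_lit 4) (nat_lit 31) (nat_lit 4) (nat_lit 344) (nat_lit 276) (nat_lit 268))))) (XT.nd (nat_lit 282) (nat_lit 504) (nat_lit 0) (XT.nd (nat_lit 94) (nat_lit 84) (nat_lit 0) (XT.lf (nat_lit 0) (nat_lit 852283509) (nat_lit 252) (nat_lit 8420287187) (nat_lit 252) (nat_lit 1355468868) (nat_lit 28) (nat_lit 4) (nat_lit 31) (nat_lit 5) (nat_lit 31) (nat_lit 4) (nat_lit 345) (nat_lit 276) (nat_lit 267)) (XT.nd (nat_lit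 94) (nat_lit 0) (nat_lit 0) (XT.lf (nat_lit 0) (nat_lit 832436357) (nat_lit 336) (nat_lit 6045904138) (nat_lit 84) (nat_lit 3965044636) (nat_lit 27) (nat_lit 5) (nat_lit 31) (nat_lit 5) (nat_lit 28) (nat_lit 4) (nat_lit 346) (nat_lit 276) (nat_lit 266)) (XT.lf (nat_lit 0) (nat_lit 3004224079) (nat_lit 336) (nat_lit 2286568804) (nat_lit 84) (nat_lit 5776253604) (nat_lit 27) (nat_lit 5) (nat_lit 31) (nat_lit 5) (nat_lit 28) (nat_lit 4) (nat_lit 347) (nat_lit 276) (nat_lit 265)))) (XT.nd (nat_lit 188) (nat_lit 252) (nat_lit 0) (XT.nd (nat_lit 94) (nat_lit 0) (nat_lit 0) (XT.lf (nat_lit 0) (nat_lit 1550438337) (nat_lit 252) (nat_lit 3654170510) (nat_lit 336) (nat_lit 6094563303) (nat_lit 24) (nat_lit 5) (nat_lit 27) (nat_lit 5) (nat_lit 28) (nat_lit 4) (nat_lit 348) (nat_lit 276) (nat_lit 264)) (XT.lf (nat_lit 0) (nat_lit 5485471048) (nat_lit 252) (nat_lit 1958431201) (nat_lit 336) (nat_lit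 4095820161) (nat_lit 24) (nat_lit 5) (nat_lit 27) (nat_lit 5) (nat_lit 28) (nat_lit 4) (nat_lit 349) (nat_lit 276) (nat_lit 263))) (XT.nd (nat_lit 94) (nat_lit 252) (nat_lit 0) (XT.lf (nat_lit 0) (nat_lit 9475180645) (nat_lit 252) (nat_lit 225861437) (nat_lit 336) (nat_lit 2088597033) (nat_lit 24) (nat_lit 5) (nat_lit 27) (nat_lit 5) (nat_lit 28) (nat_lit 4) (nat_lit 350) (nat_lit 276) (nat_lit 262)) (XT.lf (nat_lit 0) (nat_lit 1488798598) (nat_lit 252) (nat_lit 10519430822) (nat_lit 252) (nat_lit 39992782) (nat_lit 21) (nat_lit 4) (nat_lit 24) (nat_lit 5) (nat_lit 24) (nat_lit 4) (nat_lit 351) (nat_lit 276) (nat_lit 261))))))))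
noncomputable def xc41 : XT := (XT.nd (nat_lit 2350) (nat_lit 420) (nat_lit 0) (XT.nd (nat_lit 1128) (nat_lit 336) (nat_lit 0) (XT.nd (nat_lit 564) (nat_lit 420) (nat_lit 0) (XT.nd (nat_lit 282) (nat_lit 0) (nat_lit 0) (XT.nd (nat_lit 94) (nat_lit 168) (nat_lit 0) (XT.lf (nat_lit 0) (nat_lit 2006972492) (nat_lit 336) (nat_lit 6945784860) (nat_lit 84) (nat_lit 3362435575) (nat_lit 20) (nat_lit 5) (nat_lit 24) (nat_lit 5) (nat_lit 21) (nat_lit 4) (nat_lit 352) (nat_lit 276) (nat_lit 260)) (XT.nd (nat_lit 94) (nat_lit 168) (nat_lit 0) (XT.lf (nat_lit 0) (nat_lit 4067957264) (nat_lit 336) (nat_lit 3286120667) (nat_lit 84) (nat_lit 5238130864) (nat_lit 20) (nat_lit 5) (nat_lit 24) (nat_lit 5) (nat_lit 21) (nat_lit 4) (nat_lit 353) (nat_lit 276) (nat_lit 259)) (XT.lf (nat_lit 0) (nat_lit 432082396) (nat_lit 168) (nat_lit 5717892268) (nat_lit 252) (nat_lit 6729432772) (nat_lit 18) (nat_lit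 5) (nat_lit 20) (nat_lit 5) (nat_lit 21) (nat_lit 4) (nat_lit 354) (nat_lit 276) (nat_lit 258)))) (XT.nd (nat_lit 94) (nat_lit 0) (nat_lit 0) (XT.lf (nat_lit 0) (nat_lit 4272241627) (nat_lit 168) (nat_lit 4012241963) (nat_lit 252) (nat_lit 4891657895) (nat_lit 18) (nat_lit 5) (nat_lit 20) (nat_lit 5) (nat_lit 21) (nat_lit 4) (nat_lit 355) (nat_lit 276) (nat_lit 257)) (XT.nd (nat_lit 94) (nat_lit 0) (nat_lit 0) (XT.lf (nat_lit 0) (nat_lit 8170367074) (nat_lit 168) (nat_lit 2269837531) (nat_lit 252) (nat_lit 3043514262) (nat_lit 18) (nat_lit 5) (nat_lit 20) (nat_lit 5) (nat_lit 21) (nat_lit 4) (nat_lit 356) (nat_lit 276) (nat_lit 256)) (XT.lf (nat_lit 0) (nat_lit 12130092199) (nat_lit 168) (nat_lit 489054869) (nat_lit 252) (nat_lit 1183279210) (nat_lit 18) (nat_lit 5) (nat_lit 20) (nat_lit 5) (nat_lit 21) (nat_lit 4) (nat_lit 357) (nat_lit 276) (nat_lit 255))))) (XT.nd (nat_lit 282)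 (nat_lit 168) (nat_lit 0) (XT.nd (nat_lit 94) (nat_lit 0) (nat_lit 0) (XT.lf (nat_lit 0) (nat_lit 710760675) (nat_lit 252) (nat_lit 12088064549) (nat_lit 84) (nat_lit 1332472317) (nat_lit 15) (nat_lit 5) (nat_lit 18) (nat_lit 5) (nat_lit 16) (nat_lit 4) (nat_lit 358) (nat_lit 276) (nat_lit 254)) (XT.nd (nat_lit 94) (nat_lit 0) (nat_lit 0) (XT.lf (nat_lit 0) (nat_lit 2619174219) (nat_lit 252) (nat_lit 8637025615) (nat_lit 84) (nat_lit 3214623486) (nat_lit 15) (nat_lit 5) (nat_lit 18) (nat_lit 5) (nat_lit 16) (nat_lit 4) (nat_lit 359) (nat_lit 276) (nat_lit 253)) (XT.lf (nat_lit 0) (nat_lit 4545625175) (nat_lit 252) (nat_lit 5136575379) (nat_lit 84) (nat_lit 5140164044) (nat_lit 15) (nat_lit 5) (nat_lit 18) (nat_lit 5) (nat_lit 16) (nat_lit 4) (nat_lit 360) (nat_lit 276) (nat_lit 252)))) (XT.nd (nat_lit 94) (nat_lit 168) (nat_lit 0) (XT.lf (nat_lit 0) (nat_lit 6491909195) (nat_lit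 252) (nat_lit 1583451053) (nat_lit 84) (nat_lit 7110888796) (nat_lit 15) (nat_lit 5) (nat_lit 18) (nat_lit 5) (nat_lit 16) (nat_lit 4) (nat_lit 361) (nat_lit 276) (nat_lit 251)) (XT.nd (nat_lit 94) (nat_lit 0) (nat_lit 0) (XT.lf (nat_lit 0) (nat_lit 2067310953) (nat_lit 168) (nat_lit 6413037448) (nat_lit 252) (nat_lit 7081831693) (nat_lit 13) (nat_lit 5) (nat_lit 15) (nat_lit 5) (nat_lit 16) (nat_lit 4) (nat_lit 362) (nat_lit 276) (nat_lit 250)) (XT.lf (nat_lit 0) (nat_lit 5811202361) (nat_lit 168) (nat_lit 4697698655) (nat_lit 252) (nat_lit 5441727887) (nat_lit 13) (nat_lit 5) (nat_lit 15) (nat_lit 5) (nat_lit 16) (nat_lit 4) (nat_lit 363) (nat_lit 276) (nat_lit 249)))))) (XT.nd (nat_lit 564) (nat_lit 84) (nat_lit 0) (XT.nd (nat_lit 282) (nat_lit 84) (nat_lit 0) (XT.nd (nat_lit 94) (nat_lit 168) (nat_lit 0) (XT.lf (nat_lit 0) (nat_lit 9619153869) (nat_lit 168) (nat_lit 2944272976)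 (nat_lit 252) (nat_lit 3789027665) (nat_lit 13) (nat_lit 5) (nat_lit 15) (nat_lit 5) (nat_lit 16) (nat_lit 4) (nat_lit 364) (nat_lit 276) (nat_lit 248)) (XT.nd (nat_lit 94) (nat_lit 168) (nat_lit 0) (XT.lf (nat_lit 0) (nat_lit 13494714885) (nat_lit 168) (nat_lit 1151126033) (nat_lit 252) (nat_lit 2122190537) (nat_lit 13) (nat_lit 5) (nat_lit 15) (nat_lit 5) (nat_lit 16) (nat_lit 4) (nat_lit 365) (nat_lit 276) (nat_lit 247)) (XT.lf (nat_lit 0) (nat_lit 241843801) (nat_lit 168) (nat_lit 16525419134) (nat_lit 168) (nat_lit 430199630) (nat_lit 11) (nat_lit 4) (nat_lit 13) (nat_lit 5) (nat_lit 13) (nat_lit 4) (nat_lit 366) (nat_lit 276) (nat_lit 246)))) (XT.nd (nat_lit 94) (nat_lit 0) (nat_lit 0) (XT.lf (nat_lit 0) (nat_lit 1299222711) (nat_lit 252) (nat_lit 13779354129) (nat_lit 84) (nat_lit 2561038518) (nat_lit 10) (nat_lit 5) (nat_lit 13) (nat_lit 5) (nat_lit 11) (nat_lit 4) (nat_lit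 367) (nat_lit 276) (nat_lit 245)) (XT.nd (nat_lit 94) (nat_lit 0) (nat_lit 0) (XT.lf (nat_lit 0) (nat_lit 3039537490) (nat_lit 252) (nat_lit 10557923167) (nat_lit 84) (nat_lit 4499088748) (nat_lit 10) (nat_lit 5) (nat_lit 13) (nat_lit 5) (nat_lit 11) (nat_lit 4) (nat_lit 368) (nat_lit 276) (nat_lit 244)) (XT.lf (nat_lit 0) (nat_lit 4801034425) (nat_lit 252) (nat_lit 7284055534) (nat_lit 84) (nat_lit 6483732954) (nat_lit 10) (nat_lit 5) (nat_lit 13) (nat_lit 5) (nat_lit 11) (nat_lit 4) (nat_lit 369) (nat_lit 276) (nat_lit 243))))) (XT.nd (nat_lit 282) (nat_lit 0) (nat_lit 0) (XT.nd (nat_lit 94) (nat_lit 84) (nat_lit 0) (XT.lf (nat_lit 0) (nat_lit 6585355416) (nat_lit 252) (nat_lit 3954699642) (nat_lit 84) (nat_lit 8516821032) (nat_lit 10) (nat_lit 5) (nat_lit 13) (nat_lit 5) (nat_lit 11) (nat_lit 4) (nat_lit 370) (nat_lit 276) (nat_lit 242)) (XT.nd (nat_lit 94) (nat_lit 84) (nat_lit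 0) (XT.lf (nat_lit 0) (nat_lit 8394163637) (nat_lit 252) (nat_lit 566752183) (nat_lit 84) (nat_lit 10600248033) (nat_lit 10) (nat_lit 5) (nat_lit 13) (nat_lit 5) (nat_lit 11) (nat_lit 4) (nat_lit 371) (nat_lit 276) (nat_lit 241)) (XT.lf (nat_lit 0) (nat_lit 2942224021) (nat_lit 84) (nat_lit 7316108291) (nat_lit 168) (nat_lit 9822919134) (nat_lit 9) (nat_lit 5) (nat_lit 10) (nat_lit 5) (nat_lit 11) (nat_lit 4) (nat_lit 372) (nat_lit 276) (nat_lit 240)))) (XT.nd (nat_lit 188) (nat_lit 0) (nat_lit 0) (XT.nd (nat_lit 94) (nat_lit 0) (nat_lit 0) (XT.lf (nat_lit 0) (nat_lit 6529154595) (nat_lit 84) (nat_lit 5627625587) (nat_lit 168) (nat_lit 8461550852) (nat_lit 9) (nat_lit 5) (nat_lit 10) (nat_lit 5) (nat_lit 11) (nat_lit 4) (nat_lit 373) (nat_lit 276) (nat_lit 239)) (XT.lf (nat_lit 0) (nat_lit 10185729344) (nat_lit 84) (nat_lit 3899809594) (nat_lit 168) (nat_lit 7087542161) (nat_lit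 9) (nat_lit 5) (nat_lit 10) (nat_lit 5) (nat_lit 11) (nat_lit 4) (nat_lit 374) (nat_lit 276) (nat_lit 238))) (XT.nd (nat_lit 94) (nat_lit 0) (nat_lit 0) (XT.lf (nat_lit 0) (nat_lit 13915356579) (nat_lit 84) (nat_lit 2131049807) (nat_lit 168) (nat_lit 5699612343) (nat_lit 9) (nat_lit 5) (nat_lit 10) (nat_lit 5) (nat_lit 11) (nat_lit 4) (nat_lit 375) (nat_lit 276) (nat_lit 237)) (XT.lf (nat_lit 0) (nat_lit 17721512705) (nat_lit 84) (nat_lit 319697558) (nat_lit 168) (nat_lit 4296467700) (nat_lit 9) (nat_lit 5) (nat_lit 10) (nat_lit 5) (nat_lit 11) (nat_lit 4) (nat_lit 376) (nat_lit 276) (nat_lit 236))))))) (XT.nd (nat_lit 1222) (nat_lit 84) (nat_lit 0) (XT.nd (nat_lit 564) (nat_lit 84) (nat_lit 0) (XT.nd (nat_lit 282) (nat_lit 0) (nat_lit 0) (XT.nd (nat_lit 94) (nat_lit 252) (nat_lit 0) (XT.lf (nat_lit 0) (nat_lit 20087046603) (nat_lit 168) (nat_lit 1356101502) (nat_lit 0) (nat_lit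 1504989846) (nat_lit 9) (nat_lit 5) (nat_lit 11) (nat_lit 4) (nat_lit 9) (nat_lit 4) (nat_lit 377) (nat_lit 276) (nat_lit 235)) (XT.nd (nat_lit 94) (nat_lit 84) (nat_lit 0) (XT.lf (nat_lit 0) (nat_lit 2004578634) (nat_lit 168) (nat_lit 20189506369) (nat_lit 168) (nat_lit 1383626560) (nat_lit 7) (nat_lit 4) (nat_lit 9) (nat_lit 5) (nat_lit 9) (nat_lit 4) (nat_lit 378) (nat_lit 276) (nat_lit 234)) (XT.lf (nat_lit 0) (nat_lit 125775613) (nat_lit 252) (nat_lit 18767522702) (nat_lit 84) (nat_lit 5333916707) (nat_lit 6) (nat_lit 5) (nat_lit 9) (nat_lit 5) (nat_lit 7) (nat_lit 4) (nat_lit 379) (nat_lit 276) (nat_lit 233)))) (XT.nd (nat_lit 94) (nat_lit 0) (nat_lit 0) (XT.lf (nat_lit 0) (nat_lit 1628640021) (nat_lit 252) (nat_lit 15925770721) (nat_lit 84) (nat_lit 7342875914) (nat_lit 6) (nat_lit 5) (nat_lit 9) (nat_lit 5) (nat_lit 7) (nat_lit 4) (nat_lit 380) (nat_lit 276) (nat_lit 232))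 (XT.nd (nat_lit 94) (nat_lit 0) (nat_lit 0) (XT.lf (nat_lit 0) (nat_lit 3154244480) (nat_lit 252) (nat_lit 13031502430) (nat_lit 84) (nat_lit 9403229631) (nat_lit 6) (nat_lit 5) (nat_lit 9) (nat_lit 5) (nat_lit 7) (nat_lit 4) (nat_lit 381) (nat_lit 276) (nat_lit 231)) (XT.lf (nat_lit 0) (nat_lit 4704011014) (nat_lit 252) (nat_lit 10082020066) (nat_lit 84) (nat_lit 11516898323) (nat_lit 6) (nat_lit 5) (nat_lit 9) (nat_lit 5) (nat_lit 7) (nat_lit 4) (nat_lit 382) (nat_lit 276) (nat_lit 230))))) (XT.nd (nat_lit 282) (nat_lit 84) (nat_lit 0) (XT.nd (nat_lit 94) (nat_lit 0) (nat_lit 0) (XT.lf (nat_lit 0) (nat_lit 6279384168) (nat_lit 252) (nat_lit 7074574405) (nat_lit 84) (nat_lit 13685852150) (nat_lit 6) (nat_lit 5) (nat_lit 9) (nat_lit 5) (nat_lit 7) (nat_lit 4) (nat_lit 383) (nat_lit 276) (nat_lit 229)) (XT.nd (nat_lit 94) (nat_lit 0) (nat_lit 0) (XT.lf (nat_lit 0) (nat_lit 7881832354)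 (nat_lit 252) (nat_lit 4006362190) (nat_lit 84) (nat_lit 15912112805) (nat_lit 6) (nat_lit 5) (nat_lit 9) (nat_lit 5) (nat_lit 7) (nat_lit 4) (nat_lit 384) (nat_lit 276) (nat_lit 228)) (XT.lf (nat_lit 0) (nat_lit 9512849223) (nat_lit 252) (nat_lit 874523528) (nat_lit 84) (nat_lit 18197755396) (nat_lit 6) (nat_lit 5) (nat_lit 9) (nat_lit 5) (nat_lit 7) (nat_lit 4) (nat_lit 385) (nat_lit 276) (nat_lit 227)))) (XT.nd (nat_lit 188) (nat_lit 0) (nat_lit 0) (XT.nd (nat_lit 94) (nat_lit 0) (nat_lit 0) (XT.lf (nat_lit 0) (nat_lit 2371644127) (nat_lit 84) (nat_lit 8825837927) (nat_lit 168) (nat_lit 18196793256) (nat_lit 5) (nat_lit 5) (nat_lit 6) (nat_lit 5) (nat_lit 7) (nat_lit 4) (nat_lit 386) (nat_lit 276) (nat_lit 226)) (XT.lf (nat_lit 0) (nat_lit 5706750275) (nat_lit 84) (nat_lit 7216559561) (nat_lit 168) (nat_lit 17305626947) (nat_lit 5) (nat_lit 5) (nat_lit 6) (nat_lit 5) (nat_lit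 7) (nat_lit 4) (nat_lit 387) (nat_lit 276) (nat_lit 225))) (XT.nd (nat_lit 94) (nat_lit 0) (nat_lit 0) (XT.lf (nat_lit 0) (nat_lit 9115921585) (nat_lit 84) (nat_lit 5567165866) (nat_lit 168) (nat_lit 16407077570) (nat_lit 5) (nat_lit 5) (nat_lit 6) (nat_lit 5) (nat_lit 7) (nat_lit 4) (nat_lit 388) (nat_lit 276) (nat_lit 224)) (XT.lf (nat_lit 0) (nat_lit 12602335762) (nat_lit 84) (nat_lit 3876119436) (nat_lit 168) (nat_lit 15500307582) (nat_lit 5) (nat_lit 5) (nat_lit 6) (nat_lit 5) (nat_lit 7) (nat_lit 4) (nat_lit 389) (nat_lit 276) (nat_lit 223)))))) (XT.nd (nat_lit 564) (nat_lit 84) (nat_lit 0) (XT.nd (nat_lit 282) (nat_lit 0) (nat_lit 0) (XT.nd (nat_lit 94) (nat_lit 0) (nat_lit 0) (XT.lf (nat_lit 0) (nat_lit 16169242509) (nat_lit 84) (nat_lit 2141844039) (nat_lit 168) (nat_lit 14584471778) (nat_lit 5) (nat_lit 5) (nat_lit 6) (nat_lit 5) (nat_lit 7) (nat_lit 4) (nat_lit 390) (nat_lit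 276) (nat_lit 222)) (XT.nd (nat_lit 94) (nat_lit 0) (nat_lit 0) (XT.lf (nat_lit 0) (nat_lit 19819966558) (nat_lit 84) (nat_lit 362723148) (nat_lit 168) (nat_lit 13658716503) (nat_lit 5) (nat_lit 5) (nat_lit 6) (nat_lit 5) (nat_lit 7) (nat_lit 4) (nat_lit 391) (nat_lit 276) (nat_lit 221)) (XT.lf (nat_lit 0) (nat_lit 22109521365) (nat_lit 168) (nat_lit 11273789458) (nat_lit 0) (nat_lit 1433427357) (nat_lit 5) (nat_lit 5) (nat_lit 7) (nat_lit 4) (nat_lit 5) (nat_lit 4) (nat_lit 392) (nat_lit 276) (nat_lit 220)))) (XT.nd (nat_lit 94) (nat_lit 0) (nat_lit 0) (XT.lf (nat_lit 0) (nat_lit 24082928307) (nat_lit 168) (nat_lit 8470354910) (nat_lit 0) (nat_lit 3269504062) (nat_lit 5) (nat_lit 5) (nat_lit 7) (nat_lit 4) (nat_lit 5) (nat_lit 4) (nat_lit 393) (nat_lit 276) (nat_lit 219)) (XT.nd (nat_lit 94) (nat_lit 0) (nat_lit 0) (XT.lf (nat_lit 0) (nat_lit 26101151694) (nat_lit 168) (nat_lit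 5604924655) (nat_lit 0) (nat_lit 5154526443) (nat_lit 5) (nat_lit 5) (nat_lit 7) (nat_lit 4) (nat_lit 5) (nat_lit 4) (nat_lit 394) (nat_lit 276) (nat_lit 218)) (XT.lf (nat_lit 0) (nat_lit 28166072723) (nat_lit 168) (nat_lit 2674827812) (nat_lit 0) (nat_lit 7090251539) (nat_lit 5) (nat_lit 5) (nat_lit 7) (nat_lit 4) (nat_lit 5) (nat_lit 4) (nat_lit 395) (nat_lit 276) (nat_lit 217))))) (XT.nd (nat_lit 282) (nat_lit 0) (nat_lit 0) (XT.nd (nat_lit 94) (nat_lit 0) (nat_lit 0) (XT.lf (nat_lit 0) (nat_lit 329301467) (nat_lit 84) (nat_lit 29953581359) (nat_lit 84) (nat_lit 8752448894) (nat_lit 4) (nat_lit 4) (nat_lit 5) (nat_lit 5) (nat_lit 5) (nat_lit 4) (nat_lit 396) (nat_lit 276) (nat_lit 216)) (XT.nd (nat_lit 94) (nat_lit 0) (nat_lit 0) (XT.lf (nat_lit 0) (nat_lit 3460065703) (nat_lit 84) (nat_lit 29018010493) (nat_lit 84) (nat_lit 7695334591) (nat_lit 4) (nat_lit 4) (nat_lit 5) (nat_lit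 5) (nat_lit 5) (nat_lit 4) (nat_lit 397) (nat_lit 276) (nat_lit 215)) (XT.lf (nat_lit 0) (nat_lit 6665383150) (nat_lit 84) (nat_lit 28061235603) (nat_lit 84) (nat_lit 6620670820) (nat_lit 4) (nat_lit 4) (nat_lit 5) (nat_lit 5) (nat_lit 5) (nat_lit 4) (nat_lit 398) (nat_lit 276) (nat_lit 214)))) (XT.nd (nat_lit 188) (nat_lit 0) (nat_lit 0) (XT.nd (nat_lit 94) (nat_lit 0) (nat_lit 0) (XT.lf (nat_lit 0) (nat_lit 9948241499) (nat_lit 84) (nat_lit 27082364874) (nat_lit 84) (nat_lit 5527455881) (nat_lit 4) (nat_lit 4) (nat_lit 5) (nat_lit 5) (nat_lit 5) (nat_lit 4) (nat_lit 399) (nat_lit 276) (nat_lit 213)) (XT.lf (nat_lit 0) (nat_lit 13311700718) (nat_lit 84) (nat_lit 26080485896) (nat_lit 84) (nat_lit 4414670783) (nat_lit 4) (nat_lit 4) (nat_lit 5) (nat_lit 5) (nat_lit 5) (nat_lit 4) (nat_lit 400) (nat_lit 276) (nat_lit 212))) (XT.nd (nat_lit 94) (nat_lit 0) (nat_lit 0) (XT.lf (nat_lit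 0) (nat_lit 16758895904) (nat_lit 84) (nat_lit 25054664813) (nat_lit 84) (nat_lit 3281278293) (nat_lit 4) (nat_lit 4) (nat_lit 5) (nat_lit 5) (nat_lit 5) (nat_lit 4) (nat_lit 401) (nat_lit 276) (nat_lit 211)) (XT.lf (nat_lit 0) (nat_lit 20293040203) (nat_lit 84) (nat_lit 24003945452) (nat_lit 84) (nat_lit 2126221972) (nat_lit 4) (nat_lit 4) (nat_lit 5) (nat_lit 5) (nat_lit 5) (nat_lit 4) (nat_lit 402) (nat_lit 276) (nat_lit 210))))))))
noncomputable def xc42 : XT := (XT.nd (nat_lit 2350) (nat_lit 0) (nat_lit 0) (XT.nd (nat_lit 1128) (nat_lit 0) (nat_lit 0) (XT.nd (nat_lit 564) (nat_lit 84) (nat_lit 0) (XT.nd (nat_lit 282) (nat_lit 0) (nat_lit 0) (XT.nd (nat_lit 94) (nat_lit 84) (nat_lit 0) (XT.lf (nat_lit 0) (nat_lit 23917427809) (nat_lit 84) (nat_lit 22927348434) (nat_lit 84) (nat_lit 948425185) (nat_lit 4) (nat_lit 4) (nat_lit 5) (nat_lit 5) (nat_lit 5) (nat_lit 4) (nat_lit 403)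 (nat_lit 276) (nat_lit 209)) (XT.nd (nat_lit 94) (nat_lit 0) (nat_lit 0) (XT.lf (nat_lit 0) (nat_lit 248108281) (nat_lit 168) (nat_lit 21573172232) (nat_lit 84) (nat_lit 27384739006) (nat_lit 3) (nat_lit 5) (nat_lit 5) (nat_lit 5) (nat_lit 4) (nat_lit 4) (nat_lit 404) (nat_lit 276) (nat_lit 208)) (XT.lf (nat_lit 0) (nat_lit 1449988584) (nat_lit 168) (nat_lit 19227358869) (nat_lit 84) (nat_lit 29985409947) (nat_lit 3) (nat_lit 5) (nat_lit 5) (nat_lit 5) (nat_lit 4) (nat_lit 4) (nat_lit 405) (nat_lit 276) (nat_lit 207)))) (XT.nd (nat_lit 94) (nat_lit 0) (nat_lit 0) (XT.lf (nat_lit 0) (nat_lit 2677444656) (nat_lit 168) (nat_lit 16826738491) (nat_lit 84) (nat_lit 32660881419) (nat_lit 3) (nat_lit 5) (nat_lit 5) (nat_lit 5) (nat_lit 4) (nat_lit 4) (nat_lit 406) (nat_lit 276) (nat_lit 206)) (XT.nd (nat_lit 94) (nat_lit 0) (nat_lit 0) (XT.lf (nat_lit 0) (nat_lit 3931620614) (nat_lit 168)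 (nat_lit 14369073467) (nat_lit 84) (nat_lit 35413647244) (nat_lit 3) (nat_lit 5) (nat_lit 5) (nat_lit 5) (nat_lit 4) (nat_lit 4) (nat_lit 407) (nat_lit 276) (nat_lit 205)) (XT.lf (nat_lit 0) (nat_lit 5213685481) (nat_lit 168) (nat_lit 11852072996) (nat_lit 84) (nat_lit 38246273285) (nat_lit 3) (nat_lit 5) (nat_lit 5) (nat_lit 5) (nat_lit 4) (nat_lit 4) (nat_lit 408) (nat_lit 276) (nat_lit 204))))) (XT.nd (nat_lit 282) (nat_lit 84) (nat_lit 0) (XT.nd (nat_lit 94) (nat_lit 0) (nat_lit 0) (XT.lf (nat_lit 0) (nat_lit 6524834276) (nat_lit 168) (nat_lit 9273390971) (nat_lit 84) (nat_lit 41161399848) (nat_lit 3) (nat_lit 5) (nat_lit 5) (nat_lit 5) (nat_lit 4) (nat_lit 4) (nat_lit 409) (nat_lit 276) (nat_lit 203)) (XT.nd (nat_lit 94) (nat_lit 0) (nat_lit 0) (XT.lf (nat_lit 0) (nat_lit 7866289127) (nat_lit 168) (nat_lit 6630623790) (nat_lit 84) (nat_lit 44161744137) (nat_lit 3) (nat_lit 5)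 (nat_lit 5) (nat_lit 5) (nat_lit 4) (nat_lit 4) (nat_lit 410) (nat_lit 276) (nat_lit 202)) (XT.lf (nat_lit 0) (nat_lit 9239300411) (nat_lit 168) (nat_lit 3921308116) (nat_lit 84) (nat_lit 47250102785) (nat_lit 3) (nat_lit 5) (nat_lit 5) (nat_lit 5) (nat_lit 4) (nat_lit 4) (nat_lit 411) (nat_lit 276) (nat_lit 201)))) (XT.nd (nat_lit 94) (nat_lit 84) (nat_lit 0) (XT.lf (nat_lit 0) (nat_lit 10645147918) (nat_lit 168) (nat_lit 1142918584) (nat_lit 84) (nat_lit 50429354468) (nat_lit 3) (nat_lit 5) (nat_lit 5) (nat_lit 5) (nat_lit 4) (nat_lit 4) (nat_lit 412) (nat_lit 276) (nat_lit 200)) (XT.nd (nat_lit 94) (nat_lit 0) (nat_lit 0) (XT.lf (nat_lit 0) (nat_lit 1742236743) (nat_lit 84) (nat_lit 10360188506) (nat_lit 168) (nat_lit 51977509041) (nat_lit 2) (nat_lit 5) (nat_lit 3) (nat_lit 5) (nat_lit 4) (nat_lit 4) (nat_lit 413) (nat_lit 276) (nat_lit 199)) (XT.lf (nat_lit 0) (nat_lit 4726741152)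 (nat_lit 84) (nat_lit 8880773722) (nat_lit 168) (nat_lit 52392626706) (nat_lit 2) (nat_lit 5) (nat_lit 3) (nat_lit 5) (nat_lit 4) (nat_lit 4) (nat_lit 414) (nat_lit 276) (nat_lit 198)))))) (XT.nd (nat_lit 564) (nat_lit 0) (nat_lit 0) (XT.nd (nat_lit 282) (nat_lit 0) (nat_lit 0) (XT.nd (nat_lit 94) (nat_lit 0) (nat_lit 0) (XT.lf (nat_lit 0) (nat_lit 7789875763) (nat_lit 84) (nat_lit 7360372908) (nat_lit 168) (nat_lit 52829942707) (nat_lit 2) (nat_lit 5) (nat_lit 3) (nat_lit 5) (nat_lit 4) (nat_lit 4) (nat_lit 415) (nat_lit 276) (nat_lit 197)) (XT.nd (nat_lit 94) (nat_lit 0) (nat_lit 0) (XT.lf (nat_lit 0) (nat_lit 10934495739) (nat_lit 84) (nat_lit 5797568891) (nat_lit 168) (nat_lit 53289864668) (nat_lit 2) (nat_lit 5) (nat_lit 3) (nat_lit 5) (nat_lit 4) (nat_lit 4) (nat_lit 416) (nat_lit 276) (nat_lit 196)) (XT.lf (nat_lit 0) (nat_lit 14163532194) (nat_lit 84) (nat_lit 4190904973)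 (nat_lit 168) (nat_lit 53772821285) (nat_lit 2) (nat_lit 5) (nat_lit 3) (nat_lit 5) (nat_lit 4) (nat_lit 4) (nat_lit 417) (nat_lit 276) (nat_lit 195)))) (XT.nd (nat_lit 94) (nat_lit 0) (nat_lit 0) (XT.lf (nat_lit 0) (nat_lit 17479994929) (nat_lit 84) (nat_lit 2538883576) (nat_lit 168) (nat_lit 54279262724) (nat_lit 2) (nat_lit 5) (nat_lit 3) (nat_lit 5) (nat_lit 4) (nat_lit 4) (nat_lit 418) (nat_lit 276) (nat_lit 194)) (XT.nd (nat_lit 94) (nat_lit 0) (nat_lit 0) (XT.lf (nat_lit 0) (nat_lit 20886975235) (nat_lit 84) (nat_lit 839964843) (nat_lit 168) (nat_lit 54809661041) (nat_lit 2) (nat_lit 5) (nat_lit 3) (nat_lit 5) (nat_lit 4) (nat_lit 4) (nat_lit 419) (nat_lit 276) (nat_lit 193)) (XT.lf (nat_lit 0) (nat_lit 23489215841) (nat_lit 168) (nat_lit 54466077692) (nat_lit 0) (nat_lit 889152008) (nat_lit 2) (nat_lit 5) (nat_lit 4) (nat_lit 4) (nat_lit 2) (nat_lit 4) (nat_lit 420) (nat_lit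 276) (nat_lit 192))))) (XT.nd (nat_lit 282) (nat_lit 0) (nat_lit 0) (XT.nd (nat_lit 94) (nat_lit 0) (nat_lit 0) (XT.lf (nat_lit 0) (nat_lit 25307167815) (nat_lit 168) (nat_lit 53266217926) (nat_lit 0) (nat_lit 2650445507) (nat_lit 2) (nat_lit 5) (nat_lit 4) (nat_lit 4) (nat_lit 2) (nat_lit 4) (nat_lit 421) (nat_lit 276) (nat_lit 191)) (XT.nd (nat_lit 94) (nat_lit 0) (nat_lit 0) (XT.lf (nat_lit 0) (nat_lit 27174157967) (nat_lit 168) (nat_lit 52040595635) (nat_lit 0) (nat_lit 4462480785) (nat_lit 2) (nat_lit 5) (nat_lit 4) (nat_lit 4) (nat_lit 2) (nat_lit 4) (nat_lit 422) (nat_lit 276) (nat_lit 190)) (XT.lf (nat_lit 0) (nat_lit 29091926525) (nat_lit 168) (nat_lit 50788068413) (nat_lit 0) (nat_lit 6326946848) (nat_lit 2) (nat_lit 5) (nat_lit 4) (nat_lit 4) (nat_lit 2) (nat_lit 4) (nat_lit 423) (nat_lit 276) (nat_lit 189)))) (XT.nd (nat_lit 188) (nat_lit 0) (nat_lit 0) (XT.nd (nat_lit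 94) (nat_lit 0) (nat_lit 0) (XT.lf (nat_lit 0) (nat_lit 31062261053) (nat_lit 168) (nat_lit 49507468771) (nat_lit 0) (nat_lit 8245581573) (nat_lit 2) (nat_lit 5) (nat_lit 4) (nat_lit 4) (nat_lit 2) (nat_lit 4) (nat_lit 424) (nat_lit 276) (nat_lit 188)) (XT.lf (nat_lit 0) (nat_lit 33086998107) (nat_lit 168) (nat_lit 48197603058) (nat_lit 0) (nat_lit 10220173329) (nat_lit 2) (nat_lit 5) (nat_lit 4) (nat_lit 4) (nat_lit 2) (nat_lit 4) (nat_lit 425) (nat_lit 276) (nat_lit 187))) (XT.nd (nat_lit 94) (nat_lit 0) (nat_lit 0) (XT.lf (nat_lit 0) (nat_lit 35168024955) (nat_lit 168) (nat_lit 46857250340) (nat_lit 0) (nat_lit 12252562643) (nat_lit 2) (nat_lit 5) (nat_lit 4) (nat_lit 4) (nat_lit 2) (nat_lit 4) (nat_lit 426) (nat_lit 276) (nat_lit 186)) (XT.lf (nat_lit 0) (nat_lit 37307281331) (nat_lit 168) (nat_lit 45485161270) (nat_lit 0) (nat_lit 14344643913) (nat_lit 2) (nat_lit 5) (nat_lit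 4) (nat_lit 4) (nat_lit 2) (nat_lit 4) (nat_lit 427) (nat_lit 276) (nat_lit 185))))))) (XT.nd (nat_lit 47658) (nat_lit 0) (nat_lit 1512) (XT.nd (nat_lit 47000) (nat_lit 0) (nat_lit 2688) (XT.nd (nat_lit 282) (nat_lit 0) (nat_lit 0) (XT.nd (nat_lit 94) (nat_lit 0) (nat_lit 0) (XT.lf (nat_lit 0) (nat_lit 39506761248) (nat_lit 168) (nat_lit 44080056915) (nat_lit 0) (nat_lit 16498367180) (nat_lit 2) (nat_lit 5) (nat_lit 4) (nat_lit 4) (nat_lit 2) (nat_lit 4) (nat_lit 428) (nat_lit 276) (nat_lit 184)) (XT.nd (nat_lit 94) (nat_lit 0) (nat_lit 0) (XT.lf (nat_lit 0) (nat_lit 41768514850) (nat_lit 168) (nat_lit 42640627572) (nat_lit 0) (nat_lit 18715739938) (nat_lit 2) (nat_lit 5) (nat_lit 4) (nat_lit 4) (nat_lit 2) (nat_lit 4) (nat_lit 429) (nat_lit 276) (nat_lit 183)) (XT.lf (nat_lit 0) (nat_lit 44094650329) (nat_lit 168) (nat_lit 41165531542) (nat_lit 0) (nat_lit 20998829012) (nat_lit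 2) (nat_lit 5) (nat_lit 4) (nat_lit 4) (nat_lit 2) (nat_lit 4) (nat_lit 430) (nat_lit 276) (nat_lit 182)))) (XT.nd (nat_lit 94) (nat_lit 0) (nat_lit 0) (XT.lf (nat_lit 0) (nat_lit 46487335887) (nat_lit 168) (nat_lit 39653393880) (nat_lit 0) (nat_lit 23349762479) (nat_lit 2) (nat_lit 5) (nat_lit 4) (nat_lit 4) (nat_lit 2) (nat_lit 4) (nat_lit 431) (nat_lit 276) (nat_lit 181)) (XT.nd (nat_lit 46530) (nat_lit 0) (nat_lit 3948) (XT.lf (nat_lit 0) (nat_lit 48948801757) (nat_lit 168) (nat_lit 38102805117) (nat_lit 0) (nat_lit 25770731657) (nat_lit 2) (nat_lit 5) (nat_lit 4) (nat_lit 4) (nat_lit 2) (nat_lit 4) (nat_lit 432) (nat_lit 276) (nat_lit 180)) (XT.lf (nat_lit 0) (nat_lit 1318564549) (nat_lit 420) (nat_lit 1729298587) (nat_lit 0) (nat_lit 1318564549) (nat_lit 49) (nat_lit 5) (nat_lit 54) (nat_lit 4) (nat_lit 49) (nat_lit 4) (nat_lit 334) (nat_lit 277) (nat_lit 277))))) (XT.nd (nat_lit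 282) (nat_lit 756) (nat_lit 0) (XT.nd (nat_lit 94) (nat_lit 84) (nat_lit 0) (XT.lf (nat_lit 0) (nat_lit 364420597) (nat_lit 420) (nat_lit 4738934997) (nat_lit 420) (nat_lit 3769941754) (nat_lit 44) (nat_lit 4) (nat_lit 49) (nat_lit 5) (nat_lit 49) (nat_lit 4) (nat_lit 335) (nat_lit 277) (nat_lit 276)) (XT.nd (nat_lit 94) (nat_lit 84) (nat_lit 0) (XT.lf (nat_lit 0) (nat_lit 4299426296) (nat_lit 420) (nat_lit 3314509518) (nat_lit 420) (nat_lit 1405658619) (nat_lit 44) (nat_lit 4) (nat_lit 49) (nat_lit 5) (nat_lit 49) (nat_lit 4) (nat_lit 336) (nat_lit 277) (nat_lit 275)) (XT.lf (nat_lit 0) (nat_lit 943819366) (nat_lit 504) (nat_lit 903551879) (nat_lit 84) (nat_lit 7325301001) (nat_lit 43) (nat_lit 5) (nat_lit 49) (nat_lit 5) (nat_lit 44) (nat_lit 4) (nat_lit 337) (nat_lit 277) (nat_lit 274)))) (XT.nd (nat_lit 188) (nat_lit 420) (nat_lit 0) (XT.nd (nat_lit 94) (nat_lit 0) (nat_lit 0)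 (XT.lf (nat_lit 0) (nat_lit 3000535991) (nat_lit 336) (nat_lit 300878721) (nat_lit 420) (nat_lit 6030198148) (nat_lit 39) (nat_lit 5) (nat_lit 43) (nat_lit 5) (nat_lit 44) (nat_lit 4) (nat_lit 338) (nat_lit 277) (nat_lit 273)) (XT.lf (nat_lit 0) (nat_lit 5690260009) (nat_lit 420) (nat_lit 2541768577) (nat_lit 0) (nat_lit 1265197072) (nat_lit 39) (nat_lit 5) (nat_lit 44) (nat_lit 4) (nat_lit 39) (nat_lit 4) (nat_lit 339) (nat_lit 277) (nat_lit 272))) (XT.nd (nat_lit 94) (nat_lit 84) (nat_lit 0) (XT.lf (nat_lit 0) (nat_lit 1312272355) (nat_lit 336) (nat_lit 6794717141) (nat_lit 336) (nat_lit 1562848877) (nat_lit 35) (nat_lit 4) (nat_lit 39) (nat_lit 5) (nat_lit 39) (nat_lit 4) (nat_lit 340) (nat_lit 277) (nat_lit 271)) (XT.lf (nat_lit 0) (nat_lit 700331369) (nat_lit 420) (nat_lit 4592041642) (nat_lit 84) (nat_lit 4556703747) (nat_lit 34) (nat_lit 5) (nat_lit 39) (nat_lit 5) (nat_lit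 35) (nat_lit 4) (nat_lit 341) (nat_lit 277) (nat_lit 270)))))) (XT.nd (nat_lit 564) (nat_lit 588) (nat_lit 0) (XT.nd (nat_lit 282) (nat_lit 336) (nat_lit 0) (XT.nd (nat_lit 94) (nat_lit 252) (nat_lit 0) (XT.lf (nat_lit 0) (nat_lit 2940897055) (nat_lit 420) (nat_lit 800469599) (nat_lit 84) (nat_lit 6294275559) (nat_lit 34) (nat_lit 5) (nat_lit 39) (nat_lit 5) (nat_lit 35) (nat_lit 4) (nat_lit 342) (nat_lit 277) (nat_lit 269)) (XT.nd (nat_lit 94) (nat_lit 0) (nat_lit 0) (XT.lf (nat_lit 0) (nat_lit 3098618155) (nat_lit 252) (nat_lit 2124545065) (nat_lit 336) (nat_lit 5006073130) (nat_lit 31) (nat_lit 5) (nat_lit 34) (nat_lit 5) (nat_lit 35) (nat_lit 4) (nat_lit 343) (nat_lit 277) (nat_lit 268)) (XT.lf (nat_lit 0) (nat_lit 7063827419) (nat_lit 252) (nat_lit 463259120) (nat_lit 336) (nat_lit 2903640371) (nat_lit 31) (nat_lit 5) (nat_lit 34) (nat_lit 5) (nat_lit 35) (nat_lit 4) (nat_lit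 344) (nat_lit 277) (nat_lit 267)))) (XT.nd (nat_lit 94) (nat_lit 84) (nat_lit 0) (XT.lf (nat_lit 0) (nat_lit 438416939) (nat_lit 252) (nat_lit 9424900828) (nat_lit 252) (nat_lit 776720334) (nat_lit 28) (nat_lit 4) (nat_lit 31) (nat_lit 5) (nat_lit 31) (nat_lit 4) (nat_lit 345) (nat_lit 277) (nat_lit 266)) (XT.nd (nat_lit 94) (nat_lit 0) (nat_lit 0) (XT.lf (nat_lit 0) (nat_lit 1372056998) (nat_lit 336) (nat_lit 6513098259) (nat_lit 84) (nat_lit 2971069554) (nat_lit 27) (nat_lit 5) (nat_lit 31) (nat_lit 5) (nat_lit 28) (nat_lit 4) (nat_lit 346) (nat_lit 277) (nat_lit 265)) (XT.lf (nat_lit 0) (nat_lit 3517203207) (nat_lit 336) (nat_lit 2788280633) (nat_lit 84) (nat_lit 4775390807) (nat_lit 27) (nat_lit 5) (nat_lit 31) (nat_lit 5) (nat_lit 28) (nat_lit 4) (nat_lit 347) (nat_lit 277) (nat_lit 264))))) (XT.nd (nat_lit 282) (nat_lit 336) (nat_lit 0) (XT.nd (nat_lit 94) (nat_lit 0) (nat_lit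 0) (XT.lf (nat_lit 0) (nat_lit 1004242036) (nat_lit 252) (nat_lit 4682087146) (nat_lit 336) (nat_lit 5627797855) (nat_lit 24) (nat_lit 5) (nat_lit 27) (nat_lit 5) (nat_lit 28) (nat_lit 4) (nat_lit 348) (nat_lit 277) (nat_lit 263)) (XT.nd (nat_lit 94) (nat_lit 0) (nat_lit 0) (XT.lf (nat_lit 0) (nat_lit 4906133867) (nat_lit 252) (nat_lit 2994096465) (nat_lit 336) (nat_lit 3655387087) (nat_lit 24) (nat_lit 5) (nat_lit 27) (nat_lit 5) (nat_lit 28) (nat_lit 4) (nat_lit 349) (nat_lit 277) (nat_lit 262)) (XT.lf (nat_lit 0) (nat_lit 8863699060) (nat_lit 252) (nat_lit 1269042344) (nat_lit 336) (nat_lit 1673704574) (nat_lit 24) (nat_lit 5) (nat_lit 27) (nat_lit 5) (nat_lit 28) (nat_lit 4) (nat_lit 350) (nat_lit 277) (nat_lit 261)))) (XT.nd (nat_lit 188) (nat_lit 0) (nat_lit 0) (XT.nd (nat_lit 94) (nat_lit 0) (nat_lit 0) (XT.lf (nat_lit 0) (nat_lit 325898102) (nat_lit 336) (nat_lit 11244235224)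 (nat_lit 84) (nat_lit 496204918) (nat_lit 20) (nat_lit 5) (nat_lit 24) (nat_lit 5) (nat_lit 21) (nat_lit 4) (nat_lit 351) (nat_lit 277) (nat_lit 260)) (XT.lf (nat_lit 0) (nat_lit 2348125714) (nat_lit 336) (nat_lit 7663286822) (nat_lit 84) (nat_lit 2322761402) (nat_lit 20) (nat_lit 5) (nat_lit 24) (nat_lit 5) (nat_lit 21) (nat_lit 4) (nat_lit 352) (nat_lit 277) (nat_lit 259))) (XT.nd (nat_lit 94) (nat_lit 0) (nat_lit 0) (XT.lf (nat_lit 0) (nat_lit 4385898173) (nat_lit 336) (nat_lit 4034945237) (nat_lit 84) (nat_lit 4191197287) (nat_lit 20) (nat_lit 5) (nat_lit 24) (nat_lit 5) (nat_lit 21) (nat_lit 4) (nat_lit 353) (nat_lit 277) (nat_lit 258)) (XT.lf (nat_lit 0) (nat_lit 6441114894) (nat_lit 336) (nat_lit 355828473) (nat_lit 84) (nat_lit 6103254151) (nat_lit 20) (nat_lit 5) (nat_lit 24) (nat_lit 5) (nat_lit 21) (nat_lit 4) (nat_lit 354) (nat_lit 277) (nat_lit 257))))))))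
noncomputable def xc43 : XT := (XT.nd (nat_lit 2444) (nat_lit 252) (nat_lit 0) (XT.nd (nat_lit 1222) (nat_lit 336) (nat_lit 0) (XT.nd (nat_lit 564) (nat_lit 420) (nat_lit 0) (XT.nd (nat_lit 282) (nat_lit 252) (nat_lit 0) (XT.nd (nat_lit 94) (nat_lit 0) (nat_lit 0) (XT.lf (nat_lit 0) (nat_lit 3446940968) (nat_lit 168) (nat_lit 5102944667) (nat_lit 252) (nat_lit 4647967345) (nat_lit 18) (nat_lit 5) (nat_lit 20) (nat_lit 5) (nat_lit 21) (nat_lit 4) (nat_lit 355) (nat_lit 277) (nat_lit 256)) (XT.nd (nat_lit 94) (nat_lit 0) (nat_lit 0) (XT.lf (nat_lit 0) (nat_lit 7315897430) (nat_lit 168) (nat_lit 3368239057) (nat_lit 252) (nat_lit 2822079268) (nat_lit 18) (nat_lit 5) (nat_lit 20) (nat_lit 5) (nat_lit 21) (nat_lit 4) (nat_lit 356) (nat_lit 277) (nat_lit 255)) (XT.lf (nat_lit 0) (nat_lit 11247330619) (nat_lit 168) (nat_lit 1594923729) (nat_lit 252) (nat_lit 983430593) (nat_lit 18) (nat_lit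 5) (nat_lit 20) (nat_lit 5) (nat_lit 21) (nat_lit 4) (nat_lit 357) (nat_lit 277) (nat_lit 254)))) (XT.nd (nat_lit 94) (nat_lit 0) (nat_lit 0) (XT.lf (nat_lit 0) (nat_lit 865470429) (nat_lit 252) (nat_lit 13056400611) (nat_lit 84) (nat_lit 234007519) (nat_lit 15) (nat_lit 5) (nat_lit 18) (nat_lit 5) (nat_lit 16) (nat_lit 4) (nat_lit 358) (nat_lit 277) (nat_lit 253)) (XT.nd (nat_lit 94) (nat_lit 0) (nat_lit 0) (XT.lf (nat_lit 0) (nat_lit 2753636111) (nat_lit 252) (nat_lit 9633707765) (nat_lit 84) (nat_lit 2108794189) (nat_lit 15) (nat_lit 5) (nat_lit 18) (nat_lit 5) (nat_lit 16) (nat_lit 4) (nat_lit 359) (nat_lit 277) (nat_lit 252)) (XT.lf (nat_lit 0) (nat_lit 4660448014) (nat_lit 252) (nat_lit 6160751309) (nat_lit 84) (nat_lit 4027191683) (nat_lit 15) (nat_lit 5) (nat_lit 18) (nat_lit 5) (nat_lit 16) (nat_lit 4) (nat_lit 360) (nat_lit 277) (nat_lit 251))))) (XT.nd (nat_lit 282) (nat_lit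 252) (nat_lit 0) (XT.nd (nat_lit 94) (nat_lit 168) (nat_lit 0) (XT.lf (nat_lit 0) (nat_lit 6587683487) (nat_lit 252) (nat_lit 2634294084) (nat_lit 84) (nat_lit 5990988149) (nat_lit 15) (nat_lit 5) (nat_lit 18) (nat_lit 5) (nat_lit 16) (nat_lit 4) (nat_lit 361) (nat_lit 277) (nat_lit 250)) (XT.nd (nat_lit 94) (nat_lit 0) (nat_lit 0) (XT.lf (nat_lit 0) (nat_lit 968463314) (nat_lit 168) (nat_lit 7578282877) (nat_lit 252) (nat_lit 7043158011) (nat_lit 13) (nat_lit 5) (nat_lit 15) (nat_lit 5) (nat_lit 16) (nat_lit 4) (nat_lit 362) (nat_lit 277) (nat_lit 249)) (XT.lf (nat_lit 0) (nat_lit 4686751308) (nat_lit 168) (nat_lit 5870373240) (nat_lit 252) (nat_lit 5421885718) (nat_lit 13) (nat_lit 5) (nat_lit 15) (nat_lit 5) (nat_lit 16) (nat_lit 4) (nat_lit 363) (nat_lit 277) (nat_lit 248)))) (XT.nd (nat_lit 188) (nat_lit 252) (nat_lit 0) (XT.nd (nat_lit 94) (nat_lit 0) (nat_lit 0) (XT.lf (nat_lit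 0) (nat_lit 8469869242) (nat_lit 168) (nat_lit 4124153338) (nat_lit 252) (nat_lit 3787450784) (nat_lit 13) (nat_lit 5) (nat_lit 15) (nat_lit 5) (nat_lit 16) (nat_lit 4) (nat_lit 364) (nat_lit 277) (nat_lit 247)) (XT.lf (nat_lit 0) (nat_lit 12321343379) (nat_lit 168) (nat_lit 2337995510) (nat_lit 252) (nat_lit 2138329746) (nat_lit 13) (nat_lit 5) (nat_lit 15) (nat_lit 5) (nat_lit 16) (nat_lit 4) (nat_lit 365) (nat_lit 277) (nat_lit 246))) (XT.nd (nat_lit 94) (nat_lit 252) (nat_lit 0) (XT.lf (nat_lit 0) (nat_lit 16244763695) (nat_lit 168) (nat_lit 510234871) (nat_lit 252) (nat_lit 472985451) (nat_lit 13) (nat_lit 5) (nat_lit 15) (nat_lit 5) (nat_lit 16) (nat_lit 4) (nat_lit 366) (nat_lit 277) (nat_lit 245)) (XT.lf (nat_lit 0) (nat_lit 1225547432) (nat_lit 252) (nat_lit 15073953267) (nat_lit 84) (nat_lit 1371714130) (nat_lit 10) (nat_lit 5) (nat_lit 13) (nat_lit 5) (nat_lit 11) (nat_lit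 4) (nat_lit 367) (nat_lit 277) (nat_lit 244)))))) (XT.nd (nat_lit 564) (nat_lit 252) (nat_lit 0) (XT.nd (nat_lit 282) (nat_lit 84) (nat_lit 0) (XT.nd (nat_lit 94) (nat_lit 0) (nat_lit 0) (XT.lf (nat_lit 0) (nat_lit 2949728483) (nat_lit 252) (nat_lit 11875874195) (nat_lit 84) (nat_lit 3303124488) (nat_lit 10) (nat_lit 5) (nat_lit 13) (nat_lit 5) (nat_lit 11) (nat_lit 4) (nat_lit 368) (nat_lit 277) (nat_lit 243)) (XT.nd (nat_lit 94) (nat_lit 0) (nat_lit 0) (XT.lf (nat_lit 0) (nat_lit 4695576797) (nat_lit 252) (nat_lit 8624656310) (nat_lit 84) (nat_lit 5281328468) (nat_lit 10) (nat_lit 5) (nat_lit 13) (nat_lit 5) (nat_lit 11) (nat_lit 4) (nat_lit 369) (nat_lit 277) (nat_lit 242)) (XT.lf (nat_lit 0) (nat_lit 6464719688) (nat_lit 252) (nat_lit 5317269136) (nat_lit 84) (nat_lit 7308169964) (nat_lit 10) (nat_lit 5) (nat_lit 13) (nat_lit 5) (nat_lit 11) (nat_lit 4) (nat_lit 370) (nat_lit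 277) (nat_lit 241)))) (XT.nd (nat_lit 94) (nat_lit 84) (nat_lit 0) (XT.lf (nat_lit 0) (nat_lit 8258806183) (nat_lit 252) (nat_lit 1950629841) (nat_lit 84) (nat_lit 9385538205) (nat_lit 10) (nat_lit 5) (nat_lit 13) (nat_lit 5) (nat_lit 11) (nat_lit 4) (nat_lit 371) (nat_lit 277) (nat_lit 240)) (XT.nd (nat_lit 94) (nat_lit 0) (nat_lit 0) (XT.lf (nat_lit 0) (nat_lit 1508798561) (nat_lit 84) (nat_lit 8585677464) (nat_lit 168) (nat_lit 10021538422) (nat_lit 9) (nat_lit 5) (nat_lit 10) (nat_lit 5) (nat_lit 11) (nat_lit 4) (nat_lit 372) (nat_lit 277) (nat_lit 239)) (XT.lf (nat_lit 0) (nat_lit 5075270901) (nat_lit 84) (nat_lit 6903600311) (nat_lit 168) (nat_lit 8674725536) (nat_lit 9) (nat_lit 5) (nat_lit 10) (nat_lit 5) (nat_lit 11) (nat_lit 4) (nat_lit 373) (nat_lit 277) (nat_lit 238))))) (XT.nd (nat_lit 282) (nat_lit 252) (nat_lit 0) (XT.nd (nat_lit 94) (nat_lit 0) (nat_lit 0) (XT.lf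 (nat_lit 0) (nat_lit 8712002553) (nat_lit 84) (nat_lit 5181997268) (nat_lit 168) (nat_lit 7314834591) (nat_lit 9) (nat_lit 5) (nat_lit 10) (nat_lit 5) (nat_lit 11) (nat_lit 4) (nat_lit 374) (nat_lit 277) (nat_lit 237)) (XT.nd (nat_lit 94) (nat_lit 0) (nat_lit 0) (XT.lf (nat_lit 0) (nat_lit 12422383332) (nat_lit 84) (nat_lit 3419263622) (nat_lit 168) (nat_lit 5940598027) (nat_lit 9) (nat_lit 5) (nat_lit 10) (nat_lit 5) (nat_lit 11) (nat_lit 4) (nat_lit 375) (nat_lit 277) (nat_lit 236)) (XT.lf (nat_lit 0) (nat_lit 16209871701) (nat_lit 84) (nat_lit 1613756319) (nat_lit 168) (nat_lit 4550734912) (nat_lit 9) (nat_lit 5) (nat_lit 10) (nat_lit 5) (nat_lit 11) (nat_lit 4) (nat_lit 376) (nat_lit 277) (nat_lit 235)))) (XT.nd (nat_lit 188) (nat_lit 84) (nat_lit 0) (XT.nd (nat_lit 94) (nat_lit 168) (nat_lit 0) (XT.lf (nat_lit 0) (nat_lit 19844133642) (nat_lit 168) (nat_lit 2910085394) (nat_lit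 0) (nat_lit 231448506) (nat_lit 9) (nat_lit 5) (nat_lit 11) (nat_lit 4) (nat_lit 9) (nat_lit 4) (nat_lit 377) (nat_lit 277) (nat_lit 234)) (XT.lf (nat_lit 0) (nat_lit 400333751) (nat_lit 168) (nat_lit 21522806142) (nat_lit 168) (nat_lit 1693027841) (nat_lit 7) (nat_lit 4) (nat_lit 9) (nat_lit 5) (nat_lit 9) (nat_lit 4) (nat_lit 378) (nat_lit 277) (nat_lit 233))) (XT.nd (nat_lit 94) (nat_lit 84) (nat_lit 0) (XT.lf (nat_lit 0) (nat_lit 3839002861) (nat_lit 168) (nat_lit 20233738705) (nat_lit 168) (nat_lit 193394774) (nat_lit 7) (nat_lit 4) (nat_lit 9) (nat_lit 5) (nat_lit 9) (nat_lit 4) (nat_lit 379) (nat_lit 277) (nat_lit 232)) (XT.lf (nat_lit 0) (nat_lit 1301623741) (nat_lit 252) (nat_lit 17600980478) (nat_lit 84) (nat_lit 6034079788) (nat_lit 6) (nat_lit 5) (nat_lit 9) (nat_lit 5) (nat_lit 7) (nat_lit 4) (nat_lit 380) (nat_lit 277) (nat_lit 231))))))) (XT.nd (nat_lit 1222) (nat_lit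 168) (nat_lit 0) (XT.nd (nat_lit 564) (nat_lit 0) (nat_lit 0) (XT.nd (nat_lit 282) (nat_lit 84) (nat_lit 0) (XT.nd (nat_lit 94) (nat_lit 0) (nat_lit 0) (XT.lf (nat_lit 0) (nat_lit 2815838902) (nat_lit 252) (nat_lit 14723702952) (nat_lit 84) (nat_lit 8089236070) (nat_lit 6) (nat_lit 5) (nat_lit 9) (nat_lit 5) (nat_lit 7) (nat_lit 4) (nat_lit 381) (nat_lit 277) (nat_lit 230)) (XT.nd (nat_lit 94) (nat_lit 0) (nat_lit 0) (XT.lf (nat_lit 0) (nat_lit 4354558591) (nat_lit 252) (nat_lit 11790700478) (nat_lit 84) (nat_lit 10197863602) (nat_lit 6) (nat_lit 5) (nat_lit 9) (nat_lit 5) (nat_lit 7) (nat_lit 4) (nat_lit 382) (nat_lit 277) (nat_lit 229)) (XT.lf (nat_lit 0) (nat_lit 5919217055) (nat_lit 252) (nat_lit 8799239189) (nat_lit 84) (nat_lit 12361927848) (nat_lit 6) (nat_lit 5) (nat_lit 9) (nat_lit 5) (nat_lit 7) (nat_lit 4) (nat_lit 383) (nat_lit 277) (nat_lit 228)))) (XT.nd (nat_lit 94)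 (nat_lit 84) (nat_lit 0) (XT.lf (nat_lit 0) (nat_lit 7511272720) (nat_lit 252) (nat_lit 5746530732) (nat_lit 84) (nat_lit 14583445940) (nat_lit 6) (nat_lit 5) (nat_lit 9) (nat_lit 5) (nat_lit 7) (nat_lit 4) (nat_lit 384) (nat_lit 277) (nat_lit 227)) (XT.nd (nat_lit 94) (nat_lit 84) (nat_lit 0) (XT.lf (nat_lit 0) (nat_lit 9132209548) (nat_lit 252) (nat_lit 2629729661) (nat_lit 84) (nat_lit 16864488567) (nat_lit 6) (nat_lit 5) (nat_lit 9) (nat_lit 5) (nat_lit 7) (nat_lit 4) (nat_lit 385) (nat_lit 277) (nat_lit 226)) (XT.lf (nat_lit 0) (nat_lit 565462006) (nat_lit 84) (nat_lit 10223685869) (nat_lit 168) (nat_lit 18647329346) (nat_lit 5) (nat_lit 5) (nat_lit 6) (nat_lit 5) (nat_lit 7) (nat_lit 4) (nat_lit 386) (nat_lit 277) (nat_lit 225))))) (XT.nd (nat_lit 282) (nat_lit 0) (nat_lit 0) (XT.nd (nat_lit 94) (nat_lit 0) (nat_lit 0) (XT.lf (nat_lit 0) (nat_lit 3886130375) (nat_lit 84) (nat_lit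 8619219074) (nat_lit 168) (nat_lit 17766130091) (nat_lit 5) (nat_lit 5) (nat_lit 6) (nat_lit 5) (nat_lit 7) (nat_lit 4) (nat_lit 387) (nat_lit 277) (nat_lit 224)) (XT.nd (nat_lit 94) (nat_lit 0) (nat_lit 0) (XT.lf (nat_lit 0) (nat_lit 7281298020) (nat_lit 84) (nat_lit 6974492277) (nat_lit 168) (nat_lit 16877248079) (nat_lit 5) (nat_lit 5) (nat_lit 6) (nat_lit 5) (nat_lit 7) (nat_lit 4) (nat_lit 388) (nat_lit 277) (nat_lit 223)) (XT.lf (nat_lit 0) (nat_lit 10754129593) (nat_lit 84) (nat_lit 5287972421) (nat_lit 168) (nat_lit 15979854780) (nat_lit 5) (nat_lit 5) (nat_lit 6) (nat_lit 5) (nat_lit 7) (nat_lit 4) (nat_lit 389) (nat_lit 277) (nat_lit 222)))) (XT.nd (nat_lit 188) (nat_lit 0) (nat_lit 0) (XT.nd (nat_lit 94) (nat_lit 0) (nat_lit 0) (XT.lf (nat_lit 0) (nat_lit 14307862136) (nat_lit 84) (nat_lit 3558087493) (nat_lit 168) (nat_lit 15073113727) (nat_lit 5) (nat_lit 5) (nat_lit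 6) (nat_lit 5) (nat_lit 7) (nat_lit 4) (nat_lit 390) (nat_lit 277) (nat_lit 221)) (XT.lf (nat_lit 0) (nat_lit 17945808102) (nat_lit 84) (nat_lit 1783225059) (nat_lit 168) (nat_lit 14156179743) (nat_lit 5) (nat_lit 5) (nat_lit 6) (nat_lit 5) (nat_lit 7) (nat_lit 4) (nat_lit 391) (nat_lit 277) (nat_lit 220))) (XT.nd (nat_lit 94) (nat_lit 0) (nat_lit 0) (XT.lf (nat_lit 0) (nat_lit 21633468832) (nat_lit 168) (nat_lit 13190308548) (nat_lit 0) (nat_lit 37498198) (nat_lit 5) (nat_lit 5) (nat_lit 7) (nat_lit 4) (nat_lit 5) (nat_lit 4) (nat_lit 392) (nat_lit 277) (nat_lit 219)) (XT.lf (nat_lit 0) (nat_lit 23598821037) (nat_lit 168) (nat_lit 10399139270) (nat_lit 0) (nat_lit 1869649397) (nat_lit 5) (nat_lit 5) (nat_lit 7) (nat_lit 4) (nat_lit 5) (nat_lit 4) (nat_lit 393) (nat_lit 277) (nat_lit 218)))))) (XT.nd (nat_lit 564) (nat_lit 84) (nat_lit 0) (XT.nd (nat_lit 282) (nat_lit 84) (nat_lit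 0) (XT.nd (nat_lit 94) (nat_lit 0) (nat_lit 0) (XT.lf (nat_lit 0) (nat_lit 25609231878) (nat_lit 168) (nat_lit 7545605494) (nat_lit 0) (nat_lit 3750864305) (nat_lit 5) (nat_lit 5) (nat_lit 7) (nat_lit 4) (nat_lit 5) (nat_lit 4) (nat_lit 394) (nat_lit 277) (nat_lit 217)) (XT.nd (nat_lit 94) (nat_lit 0) (nat_lit 0) (XT.lf (nat_lit 0) (nat_lit 27666575266) (nat_lit 168) (nat_lit 4627047428) (nat_lit 0) (nat_lit 5682896411) (nat_lit 5) (nat_lit 5) (nat_lit 7) (nat_lit 4) (nat_lit 5) (nat_lit 4) (nat_lit 395) (nat_lit 277) (nat_lit 216)) (XT.lf (nat_lit 0) (nat_lit 29772768862) (nat_lit 168) (nat_lit 1640744669) (nat_lit 0) (nat_lit 7667546572) (nat_lit 5) (nat_lit 5) (nat_lit 7) (nat_lit 4) (nat_lit 5) (nat_lit 4) (nat_lit 396) (nat_lit 277) (nat_lit 215)))) (XT.nd (nat_lit 94) (nat_lit 0) (nat_lit 0) (XT.lf (nat_lit 0) (nat_lit 1445203967) (nat_lit 84) (nat_lit 30498908494) (nat_lit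 84) (nat_lit 8275797323) (nat_lit 4) (nat_lit 4) (nat_lit 5) (nat_lit 5) (nat_lit 5) (nat_lit 4) (nat_lit 397) (nat_lit 277) (nat_lit 214)) (XT.nd (nat_lit 94) (nat_lit 0) (nat_lit 0) (XT.lf (nat_lit 0) (nat_lit 4639775998) (nat_lit 84) (nat_lit 29545857968) (nat_lit 84) (nat_lit 7208402586) (nat_lit 4) (nat_lit 4) (nat_lit 5) (nat_lit 5) (nat_lit 5) (nat_lit 4) (nat_lit 398) (nat_lit 277) (nat_lit 213)) (XT.lf (nat_lit 0) (nat_lit 7912212024) (nat_lit 84) (nat_lit 28570599619) (nat_lit 84) (nat_lit 6122238117) (nat_lit 4) (nat_lit 4) (nat_lit 5) (nat_lit 5) (nat_lit 5) (nat_lit 4) (nat_lit 399) (nat_lit 277) (nat_lit 212))))) (XT.nd (nat_lit 282) (nat_lit 84) (nat_lit 0) (XT.nd (nat_lit 94) (nat_lit 0) (nat_lit 0) (XT.lf (nat_lit 0) (nat_lit 11265562297) (nat_lit 84) (nat_lit 27572224404) (nat_lit 84) (nat_lit 5016291495) (nat_lit 4) (nat_lit 4) (nat_lit 5) (nat_lit 5) (nat_lit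 5) (nat_lit 4) (nat_lit 400) (nat_lit 277) (nat_lit 211)) (XT.nd (nat_lit 94) (nat_lit 0) (nat_lit 0) (XT.lf (nat_lit 0) (nat_lit 14702952492) (nat_lit 84) (nat_lit 26549801734) (nat_lit 84) (nat_lit 3889531864) (nat_lit 4) (nat_lit 4) (nat_lit 5) (nat_lit 5) (nat_lit 5) (nat_lit 4) (nat_lit 401) (nat_lit 277) (nat_lit 210)) (XT.lf (nat_lit 0) (nat_lit 18227586615) (nat_lit 84) (nat_lit 25502378603) (nat_lit 84) (nat_lit 2740908965) (nat_lit 4) (nat_lit 4) (nat_lit 5) (nat_lit 5) (nat_lit 5) (nat_lit 4) (nat_lit 402) (nat_lit 277) (nat_lit 209)))) (XT.nd (nat_lit 188) (nat_lit 84) (nat_lit 0) (XT.nd (nat_lit 94) (nat_lit 0) (nat_lit 0) (XT.lf (nat_lit 0) (nat_lit 21842749996) (nat_lit 84) (nat_lit 24428978703) (nat_lit 84) (nat_lit 1569352161) (nat_lit 4) (nat_lit 4) (nat_lit 5) (nat_lit 5) (nat_lit 5) (nat_lit 4) (nat_lit 403) (nat_lit 277) (nat_lit 208)) (XT.lf (nat_lit 0) (nat_lit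 25551812344) (nat_lit 84) (nat_lit 23328601513) (nat_lit 84) (nat_lit 373769438) (nat_lit 4) (nat_lit 4) (nat_lit 5) (nat_lit 5) (nat_lit 5) (nat_lit 4) (nat_lit 404) (nat_lit 277) (nat_lit 207))) (XT.nd (nat_lit 94) (nat_lit 0) (nat_lit 0) (XT.lf (nat_lit 0) (nat_lit 829889382) (nat_lit 168) (nat_lit 21361669641) (nat_lit 84) (nat_lit 28519679170) (nat_lit 3) (nat_lit 5) (nat_lit 5) (nat_lit 5) (nat_lit 4) (nat_lit 4) (nat_lit 405) (nat_lit 277) (nat_lit 206)) (XT.lf (nat_lit 0) (nat_lit 2051766304) (nat_lit 168) (nat_lit 18969603958) (nat_lit 84) (nat_lit 31192371093) (nat_lit 3) (nat_lit 5) (nat_lit 5) (nat_lit 5) (nat_lit 4) (nat_lit 4) (nat_lit 406) (nat_lit 277) (nat_lit 205))))))))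
noncomputable def xc44 : XT := (XT.nd (nat_lit 2350) (nat_lit 0) (nat_lit 0) (XT.nd (nat_lit 1128) (nat_lit 0) (nat_lit 0) (XT.nd (nat_lit 564) (nat_lit 84) (nat_lit 0) (XT.nd (nat_lit 282) (nat_lit 0) (nat_lit 0) (XT.nd (nat_lit 94) (nat_lit 0) (nat_lit 0) (XT.lf (nat_lit 0) (nat_lit 3300530866) (nat_lit 168) (nat_lit 16520236407) (nat_lit 84) (nat_lit 33942440944) (nat_lit 3) (nat_lit 5) (nat_lit 5) (nat_lit 5) (nat_lit 4) (nat_lit 4) (nat_lit 407) (nat_lit 277) (nat_lit 204)) (XT.nd (nat_lit 94) (nat_lit 0) (nat_lit 0) (XT.lf (nat_lit 0) (nat_lit 4577347046) (nat_lit 168) (nat_lit 14011283923) (nat_lit 84) (nat_lit 36772452074) (nat_lit 3) (nat_lit 5) (nat_lit 5) (nat_lit 5) (nat_lit 4) (nat_lit 4) (nat_lit 408) (nat_lit 277) (nat_lit 203)) (XT.lf (nat_lit 0) (nat_lit 5883404972) (nat_lit 168) (nat_lit 11440407898) (nat_lit 84) (nat_lit 39685042350) (nat_lit 3) (nat_lit 5) (nat_lit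 5) (nat_lit 5) (nat_lit 4) (nat_lit 4) (nat_lit 409) (nat_lit 277) (nat_lit 202)))) (XT.nd (nat_lit 94) (nat_lit 0) (nat_lit 0) (XT.lf (nat_lit 0) (nat_lit 7219922025) (nat_lit 168) (nat_lit 8805212007) (nat_lit 84) (nat_lit 42682926613) (nat_lit 3) (nat_lit 5) (nat_lit 5) (nat_lit 5) (nat_lit 4) (nat_lit 4) (nat_lit 410) (nat_lit 277) (nat_lit 201)) (XT.nd (nat_lit 94) (nat_lit 0) (nat_lit 0) (XT.lf (nat_lit 0) (nat_lit 8588143980) (nat_lit 168) (nat_lit 6103239971) (nat_lit 84) (nat_lit 45768899203) (nat_lit 3) (nat_lit 5) (nat_lit 5) (nat_lit 5) (nat_lit 4) (nat_lit 4) (nat_lit 411) (nat_lit 277) (nat_lit 200)) (XT.lf (nat_lit 0) (nat_lit 9989346163) (nat_lit 168) (nat_lit 3331973269) (nat_lit 84) (nat_lit 48945836571) (nat_lit 3) (nat_lit 5) (nat_lit 5) (nat_lit 5) (nat_lit 4) (nat_lit 4) (nat_lit 412) (nat_lit 277) (nat_lit 199))))) (XT.nd (nat_lit 282) (nat_lit 0) (nat_lit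 0) (XT.nd (nat_lit 94) (nat_lit 84) (nat_lit 0) (XT.lf (nat_lit 0) (nat_lit 11424834642) (nat_lit 168) (nat_lit 488828790) (nat_lit 84) (nat_lit 52216699955) (nat_lit 3) (nat_lit 5) (nat_lit 5) (nat_lit 5) (nat_lit 4) (nat_lit 4) (nat_lit 413) (nat_lit 277) (nat_lit 198)) (XT.nd (nat_lit 94) (nat_lit 0) (nat_lit 0) (XT.lf (nat_lit 0) (nat_lit 2478785579) (nat_lit 84) (nat_lit 10441751721) (nat_lit 168) (nat_lit 53130342423) (nat_lit 2) (nat_lit 5) (nat_lit 3) (nat_lit 5) (nat_lit 4) (nat_lit 4) (nat_lit 414) (nat_lit 277) (nat_lit 197)) (XT.lf (nat_lit 0) (nat_lit 5535287099) (nat_lit 84) (nat_lit 8923679426) (nat_lit 168) (nat_lit 53572113946) (nat_lit 2) (nat_lit 5) (nat_lit 3) (nat_lit 5) (nat_lit 4) (nat_lit 4) (nat_lit 415) (nat_lit 277) (nat_lit 196)))) (XT.nd (nat_lit 94) (nat_lit 0) (nat_lit 0) (XT.lf (nat_lit 0) (nat_lit 8673473426) (nat_lit 84) (nat_lit 7363133914) (nat_lit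 168) (nat_lit 54036357460) (nat_lit 2) (nat_lit 5) (nat_lit 3) (nat_lit 5) (nat_lit 4) (nat_lit 4) (nat_lit 416) (nat_lit 277) (nat_lit 195)) (XT.nd (nat_lit 94) (nat_lit 0) (nat_lit 0) (XT.lf (nat_lit 0) (nat_lit 11896269679) (nat_lit 84) (nat_lit 5758660593) (nat_lit 168) (nat_lit 54523505691) (nat_lit 2) (nat_lit 5) (nat_lit 3) (nat_lit 5) (nat_lit 4) (nat_lit 4) (nat_lit 417) (nat_lit 277) (nat_lit 194)) (XT.lf (nat_lit 0) (nat_lit 15206679842) (nat_lit 84) (nat_lit 4108763926) (nat_lit 168) (nat_lit 55034012710) (nat_lit 2) (nat_lit 5) (nat_lit 3) (nat_lit 5) (nat_lit 4) (nat_lit 4) (nat_lit 418) (nat_lit 277) (nat_lit 193)))))) (XT.nd (nat_lit 564) (nat_lit 0) (nat_lit 0) (XT.nd (nat_lit 282) (nat_lit 0) (nat_lit 0) (XT.nd (nat_lit 94) (nat_lit 0) (nat_lit 0) (XT.lf (nat_lit 0) (nat_lit 18607789563) (nat_lit 84) (nat_lit 2411906037) (nat_lit 168) (nat_lit 55568354364) (nat_lit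 2) (nat_lit 5) (nat_lit 3) (nat_lit 5) (nat_lit 4) (nat_lit 4) (nat_lit 419) (nat_lit 277) (nat_lit 192)) (XT.nd (nat_lit 94) (nat_lit 0) (nat_lit 0) (XT.lf (nat_lit 0) (nat_lit 22102769033) (nat_lit 84) (nat_lit 666505275) (nat_lit 168) (nat_lit 56127028715) (nat_lit 2) (nat_lit 5) (nat_lit 3) (nat_lit 5) (nat_lit 4) (nat_lit 4) (nat_lit 420) (nat_lit 277) (nat_lit 191)) (XT.lf (nat_lit 0) (nat_lit 24577011153) (nat_lit 168) (nat_lit 55592691720) (nat_lit 0) (nat_lit 1106317105) (nat_lit 2) (nat_lit 5) (nat_lit 4) (nat_lit 4) (nat_lit 2) (nat_lit 4) (nat_lit 421) (nat_lit 277) (nat_lit 190)))) (XT.nd (nat_lit 94) (nat_lit 0) (nat_lit 0) (XT.lf (nat_lit 0) (nat_lit 26440506332) (nat_lit 168) (nat_lit 54372529478) (nat_lit 0) (nat_lit 2916509789) (nat_lit 2) (nat_lit 5) (nat_lit 4) (nat_lit 4) (nat_lit 2) (nat_lit 4) (nat_lit 422) (nat_lit 277) (nat_lit 189)) (XT.nd (nat_lit 94) (nat_lit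 0) (nat_lit 0) (XT.lf (nat_lit 0) (nat_lit 28354885006) (nat_lit 168) (nat_lit 53125298132) (nat_lit 0) (nat_lit 4779188660) (nat_lit 2) (nat_lit 5) (nat_lit 4) (nat_lit 4) (nat_lit 2) (nat_lit 4) (nat_lit 423) (nat_lit 277) (nat_lit 188)) (XT.lf (nat_lit 0) (nat_lit 30321931575) (nat_lit 168) (nat_lit 51849835131) (nat_lit 0) (nat_lit 6696089931) (nat_lit 2) (nat_lit 5) (nat_lit 4) (nat_lit 4) (nat_lit 2) (nat_lit 4) (nat_lit 424) (nat_lit 277) (nat_lit 187))))) (XT.nd (nat_lit 282) (nat_lit 0) (nat_lit 0) (XT.nd (nat_lit 94) (nat_lit 0) (nat_lit 0) (XT.lf (nat_lit 0) (nat_lit 32343479532) (nat_lit 168) (nat_lit 50544951610) (nat_lit 0) (nat_lit 8669000354) (nat_lit 2) (nat_lit 5) (nat_lit 4) (nat_lit 4) (nat_lit 2) (nat_lit 4) (nat_lit 425) (nat_lit 277) (nat_lit 186)) (XT.nd (nat_lit 94) (nat_lit 0) (nat_lit 0) (XT.lf (nat_lit 0) (nat_lit 34421413173) (nat_lit 168) (nat_lit 49209431281)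 (nat_lit 0) (nat_lit 10699758889) (nat_lit 2) (nat_lit 5) (nat_lit 4) (nat_lit 4) (nat_lit 2) (nat_lit 4) (nat_lit 426) (nat_lit 277) (nat_lit 185)) (XT.lf (nat_lit 0) (nat_lit 36557669349) (nat_lit 168) (nat_lit 47842029299) (nat_lit 0) (nat_lit 12790258415) (nat_lit 2) (nat_lit 5) (nat_lit 4) (nat_lit 4) (nat_lit 2) (nat_lit 4) (nat_lit 427) (nat_lit 277) (nat_lit 184)))) (XT.nd (nat_lit 188) (nat_lit 0) (nat_lit 0) (XT.nd (nat_lit 94) (nat_lit 0) (nat_lit 0) (XT.lf (nat_lit 0) (nat_lit 38754239275) (nat_lit 168) (nat_lit 46441471102) (nat_lit 0) (nat_lit 14942447497) (nat_lit 2) (nat_lit 5) (nat_lit 4) (nat_lit 4) (nat_lit 2) (nat_lit 4) (nat_lit 428) (nat_lit 277) (nat_lit 183)) (XT.lf (nat_lit 0) (nat_lit 41013170383) (nat_lit 168) (nat_lit 45006451224) (nat_lit 0) (nat_lit 17158332200) (nat_lit 2) (nat_lit 5) (nat_lit 4) (nat_lit 4) (nat_lit 2) (nat_lit 4) (nat_lit 429) (nat_lit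 277) (nat_lit 182))) (XT.nd (nat_lit 94) (nat_lit 0) (nat_lit 0) (XT.lf (nat_lit 0) (nat_lit 43336568235) (nat_lit 168) (nat_lit 43535632075) (nat_lit 0) (nat_lit 19439977961) (nat_lit 2) (nat_lit 5) (nat_lit 4) (nat_lit 4) (nat_lit 2) (nat_lit 4) (nat_lit 430) (nat_lit 277) (nat_lit 181)) (XT.lf (nat_lit 0) (nat_lit 45726598480) (nat_lit 168) (nat_lit 42027642698) (nat_lit 0) (nat_lit 21789511513) (nat_lit 2) (nat_lit 5) (nat_lit 4) (nat_lit 4) (nat_lit 2) (nat_lit 4) (nat_lit 431) (nat_lit 277) (nat_lit 180))))))) (XT.nd (nat_lit 47470) (nat_lit 0) (nat_lit 1344) (XT.nd (nat_lit 46812) (nat_lit 0) (nat_lit 2436) (XT.nd (nat_lit 46530) (nat_lit 0) (nat_lit 3528) (XT.nd (nat_lit 46342) (nat_lit 0) (nat_lit 3948) (XT.lf (nat_lit 0) (nat_lit 48185488877) (nat_lit 168) (nat_lit 40481077488) (nat_lit 0) (nat_lit 24209122868) (nat_lit 2) (nat_lit 5) (nat_lit 4) (nat_lit 4) (nat_lit 2)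 (nat_lit 4) (nat_lit 432) (nat_lit 277) (nat_lit 179)) (XT.nd (nat_lit 94) (nat_lit 420) (nat_lit 0) (XT.lf (nat_lit 0) (nat_lit 3010957181) (nat_lit 420) (nat_lit 611821875) (nat_lit 420) (nat_lit 611821875) (nat_lit 54) (nat_lit 4) (nat_lit 59) (nat_lit 5) (nat_lit 59) (nat_lit 4) (nat_lit 332) (nat_lit 278) (nat_lit 278)) (XT.lf (nat_lit 0) (nat_lit 1180187399) (nat_lit 420) (nat_lit 7237780702) (nat_lit 0) (nat_lit 181155365) (nat_lit 49) (nat_lit 5) (nat_lit 54) (nat_lit 4) (nat_lit 49) (nat_lit 4) (nat_lit 333) (nat_lit 278) (nat_lit 277)))) (XT.nd (nat_lit 94) (nat_lit 420) (nat_lit 0) (XT.lf (nat_lit 0) (nat_lit 3601942757) (nat_lit 420) (nat_lit 3498312934) (nat_lit 0) (nat_lit 1633917480) (nat_lit 49) (nat_lit 5) (nat_lit 54) (nat_lit 4) (nat_lit 49) (nat_lit 4) (nat_lit 334) (nat_lit 278) (nat_lit 276)) (XT.nd (nat_lit 94) (nat_lit 0) (nat_lit 0) (XT.lf (nat_lit 0) (nat_lit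 284574529) (nat_lit 420) (nat_lit 5749613140) (nat_lit 420) (nat_lit 2841730207) (nat_lit 44) (nat_lit 4) (nat_lit 49) (nat_lit 5) (nat_lit 49) (nat_lit 4) (nat_lit 335) (nat_lit 278) (nat_lit 275)) (XT.lf (nat_lit 0) (nat_lit 4181448635) (nat_lit 420) (nat_lit 4330749421) (nat_lit 420) (nat_lit 511268374) (nat_lit 44) (nat_lit 4) (nat_lit 49) (nat_lit 5) (nat_lit 49) (nat_lit 4) (nat_lit 336) (nat_lit 278) (nat_lit 274))))) (XT.nd (nat_lit 282) (nat_lit 672) (nat_lit 0) (XT.nd (nat_lit 94) (nat_lit 336) (nat_lit 0) (XT.lf (nat_lit 0) (nat_lit 1788046209) (nat_lit 504) (nat_lit 1072147472) (nat_lit 84) (nat_lit 6317299444) (nat_lit 43) (nat_lit 5) (nat_lit 49) (nat_lit 5) (nat_lit 44) (nat_lit 4) (nat_lit 337) (nat_lit 278) (nat_lit 273)) (XT.nd (nat_lit 94) (nat_lit 0) (nat_lit 0) (XT.lf (nat_lit 0) (nat_lit 2790983689) (nat_lit 336) (nat_lit 1321402135) (nat_lit 420) (nat_lit 5225299485)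 (nat_lit 39) (nat_lit 5) (nat_lit 43) (nat_lit 5) (nat_lit 44) (nat_lit 4) (nat_lit 338) (nat_lit 278) (nat_lit 272)) (XT.lf (nat_lit 0) (nat_lit 6460449993) (nat_lit 420) (nat_lit 2784737851) (nat_lit 0) (nat_lit 259588486) (nat_lit 39) (nat_lit 5) (nat_lit 44) (nat_lit 4) (nat_lit 39) (nat_lit 4) (nat_lit 339) (nat_lit 278) (nat_lit 271)))) (XT.nd (nat_lit 188) (nat_lit 252) (nat_lit 0) (XT.nd (nat_lit 94) (nat_lit 84) (nat_lit 0) (XT.lf (nat_lit 0) (nat_lit 1027218224) (nat_lit 336) (nat_lit 7817397877) (nat_lit 336) (nat_lit 833989981) (nat_lit 35) (nat_lit 4) (nat_lit 39) (nat_lit 5) (nat_lit 39) (nat_lit 4) (nat_lit 340) (nat_lit 278) (nat_lit 270)) (XT.lf (nat_lit 0) (nat_lit 1384811093) (nat_lit 420) (nat_lit 4929873430) (nat_lit 84) (nat_lit 3544051604) (nat_lit 34) (nat_lit 5) (nat_lit 39) (nat_lit 5) (nat_lit 35) (nat_lit 4) (nat_lit 341) (nat_lit 278) (nat_lit 269)))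 (XT.nd (nat_lit 94) (nat_lit 252) (nat_lit 0) (XT.lf (nat_lit 0) (nat_lit 3596575335) (nat_lit 420) (nat_lit 1173975081) (nat_lit 84) (nat_lit 5275833417) (nat_lit 34) (nat_lit 5) (nat_lit 39) (nat_lit 5) (nat_lit 35) (nat_lit 4) (nat_lit 342) (nat_lit 278) (nat_lit 268)) (XT.lf (nat_lit 0) (nat_lit 2682120106) (nat_lit 252) (nat_lit 3164654237) (nat_lit 336) (nat_lit 4394381421) (nat_lit 31) (nat_lit 5) (nat_lit 34) (nat_lit 5) (nat_lit 35) (nat_lit 4) (nat_lit 343) (nat_lit 278) (nat_lit 267)))))) (XT.nd (nat_lit 564) (nat_lit 504) (nat_lit 0) (XT.nd (nat_lit 282) (nat_lit 252) (nat_lit 0) (XT.nd (nat_lit 94) (nat_lit 336) (nat_lit 0) (XT.lf (nat_lit 0) (nat_lit 6613078614) (nat_lit 252) (nat_lit 1510183791) (nat_lit 336) (nat_lit 2320412599) (nat_lit 31) (nat_lit 5) (nat_lit 34) (nat_lit 5) (nat_lit 35) (nat_lit 4) (nat_lit 344) (nat_lit 278) (nat_lit 266)) (XT.nd (nat_lit 94)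 (nat_lit 336) (nat_lit 0) (XT.lf (nat_lit 0) (nat_lit 10418082947) (nat_lit 336) (nat_lit 57880542) (nat_lit 0) (nat_lit 178479268) (nat_lit 31) (nat_lit 5) (nat_lit 35) (nat_lit 4) (nat_lit 31) (nat_lit 4) (nat_lit 345) (nat_lit 278) (nat_lit 265)) (XT.lf (nat_lit 0) (nat_lit 1874296966) (nat_lit 336) (nat_lit 7064880864) (nat_lit 84) (nat_lit 1932292295) (nat_lit 27) (nat_lit 5) (nat_lit 31) (nat_lit 5) (nat_lit 28) (nat_lit 4) (nat_lit 346) (nat_lit 278) (nat_lit 264)))) (XT.nd (nat_lit 94) (nat_lit 252) (nat_lit 0) (XT.lf (nat_lit 0) (nat_lit 3993602718) (nat_lit 336) (nat_lit 3373543070) (nat_lit 84) (nat_lit 3729932931) (nat_lit 27) (nat_lit 5) (nat_lit 31) (nat_lit 5) (nat_lit 28) (nat_lit 4) (nat_lit 347) (nat_lit 278) (nat_lit 263)) (XT.nd (nat_lit 94) (nat_lit 0) (nat_lit 0) (XT.lf (nat_lit 0) (nat_lit 373804523) (nat_lit 252) (nat_lit 5757606662) (nat_lit 336) (nat_lit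 5200043730) (nat_lit 24) (nat_lit 5) (nat_lit 27) (nat_lit 5) (nat_lit 28) (nat_lit 4) (nat_lit 348) (nat_lit 278) (nat_lit 262)) (XT.lf (nat_lit 0) (nat_lit 4243551950) (nat_lit 252) (nat_lit 4077131624) (nat_lit 336) (nat_lit 3253173577) (nat_lit 24) (nat_lit 5) (nat_lit 27) (nat_lit 5) (nat_lit 28) (nat_lit 4) (nat_lit 349) (nat_lit 278) (nat_lit 261))))) (XT.nd (nat_lit 282) (nat_lit 168) (nat_lit 0) (XT.nd (nat_lit 94) (nat_lit 336) (nat_lit 0) (XT.lf (nat_lit 0) (nat_lit 8169939255) (nat_lit 252) (nat_lit 2359367167) (nat_lit 336) (nat_lit 1296263726) (nat_lit 24) (nat_lit 5) (nat_lit 27) (nat_lit 5) (nat_lit 28) (nat_lit 4) (nat_lit 350) (nat_lit 278) (nat_lit 260)) (XT.nd (nat_lit 94) (nat_lit 0) (nat_lit 0) (XT.lf (nat_lit 0) (nat_lit 64424338) (nat_lit 252) (nat_lit 595175050) (nat_lit 336) (nat_lit 11427002515) (nat_lit 20) (nat_lit 5) (nat_lit 23) (nat_lit 5) (nat_lit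 24) (nat_lit 5) (nat_lit 351) (nat_lit 278) (nat_lit 259)) (XT.lf (nat_lit 0) (nat_lit 2652710476) (nat_lit 336) (nat_lit 8466647562) (nat_lit 84) (nat_lit 1236113479) (nat_lit 20) (nat_lit 5) (nat_lit 24) (nat_lit 5) (nat_lit 21) (nat_lit 4) (nat_lit 352) (nat_lit 278) (nat_lit 258)))) (XT.nd (nat_lit 188) (nat_lit 168) (nat_lit 0) (XT.nd (nat_lit 94) (nat_lit 0) (nat_lit 0) (XT.lf (nat_lit 0) (nat_lit 4667968566) (nat_lit 336) (nat_lit 4868686779) (nat_lit 84) (nat_lit 3097508235) (nat_lit 20) (nat_lit 5) (nat_lit 24) (nat_lit 5) (nat_lit 21) (nat_lit 4) (nat_lit 353) (nat_lit 278) (nat_lit 257)) (XT.lf (nat_lit 0) (nat_lit 6701347877) (nat_lit 336) (nat_lit 1219037332) (nat_lit 84) (nat_lit 5002735683) (nat_lit 20) (nat_lit 5) (nat_lit 24) (nat_lit 5) (nat_lit 21) (nat_lit 4) (nat_lit 354) (nat_lit 278) (nat_lit 256))) (XT.nd (nat_lit 94) (nat_lit 0) (nat_lit 0) (XT.lf (nat_lit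 0) (nat_lit 2536813779) (nat_lit 168) (nat_lit 6243095462) (nat_lit 252) (nat_lit 4441923422) (nat_lit 18) (nat_lit 5) (nat_lit 20) (nat_lit 5) (nat_lit 21) (nat_lit 4) (nat_lit 355) (nat_lit 278) (nat_lit 255)) (XT.lf (nat_lit 0) (nat_lit 6377478304) (nat_lit 168) (nat_lit 4515857186) (nat_lit 252) (nat_lit 2637621722) (nat_lit 18) (nat_lit 5) (nat_lit 20) (nat_lit 5) (nat_lit 21) (nat_lit 4) (nat_lit 356) (nat_lit 278) (nat_lit 254))))))))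
noncomputable def xc45 : XT := (XT.nd (nat_lit 2350) (nat_lit 252) (nat_lit 0) (XT.nd (nat_lit 1128) (nat_lit 336) (nat_lit 0) (XT.nd (nat_lit 564) (nat_lit 420) (nat_lit 0) (XT.nd (nat_lit 282) (nat_lit 0) (nat_lit 0) (XT.nd (nat_lit 94) (nat_lit 252) (nat_lit 0) (XT.lf (nat_lit 0) (nat_lit 10281470236) (nat_lit 168) (nat_lit 2749784666) (nat_lit 252) (nat_lit 819910368) (nat_lit 18) (nat_lit 5) (nat_lit 20) (nat_lit 5) (nat_lit 21) (nat_lit 4) (nat_lit 357) (nat_lit 278) (nat_lit 253)) (XT.nd (nat_lit 94) (nat_lit 0) (nat_lit 0) (XT.lf (nat_lit 0) (nat_lit 60851070) (nat_lit 168) (nat_lit 932249738) (nat_lit 252) (nat_lit 13189324289) (nat_lit 15) (nat_lit 5) (nat_lit 17) (nat_lit 5) (nat_lit 18) (nat_lit 5) (nat_lit 358) (nat_lit 278) (nat_lit 252)) (XT.lf (nat_lit 0) (nat_lit 2852379406) (nat_lit 252) (nat_lit 10717126930) (nat_lit 84) (nat_lit 954176621) (nat_lit 15) (nat_lit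 5) (nat_lit 18) (nat_lit 5) (nat_lit 16) (nat_lit 4) (nat_lit 359) (nat_lit 278) (nat_lit 251)))) (XT.nd (nat_lit 94) (nat_lit 0) (nat_lit 0) (XT.lf (nat_lit 0) (nat_lit 4740142762) (nat_lit 252) (nat_lit 7270837574) (nat_lit 84) (nat_lit 2865645828) (nat_lit 15) (nat_lit 5) (nat_lit 18) (nat_lit 5) (nat_lit 16) (nat_lit 4) (nat_lit 360) (nat_lit 278) (nat_lit 250)) (XT.nd (nat_lit 94) (nat_lit 0) (nat_lit 0) (XT.lf (nat_lit 0) (nat_lit 6648902438) (nat_lit 252) (nat_lit 3770245626) (nat_lit 84) (nat_lit 4822722326) (nat_lit 15) (nat_lit 5) (nat_lit 18) (nat_lit 5) (nat_lit 16) (nat_lit 4) (nat_lit 361) (nat_lit 278) (nat_lit 249)) (XT.lf (nat_lit 0) (nat_lit 8580437597) (nat_lit 252) (nat_lit 212088168) (nat_lit 84) (nat_lit 6827230314) (nat_lit 15) (nat_lit 5) (nat_lit 18) (nat_lit 5) (nat_lit 16) (nat_lit 4) (nat_lit 362) (nat_lit 278) (nat_lit 248))))) (XT.nd (nat_lit 282) (nat_lit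 252) (nat_lit 0) (XT.nd (nat_lit 94) (nat_lit 0) (nat_lit 0) (XT.lf (nat_lit 0) (nat_lit 3477005284) (nat_lit 168) (nat_lit 7094035671) (nat_lit 252) (nat_lit 5438525243) (nat_lit 13) (nat_lit 5) (nat_lit 15) (nat_lit 5) (nat_lit 16) (nat_lit 4) (nat_lit 363) (nat_lit 278) (nat_lit 247)) (XT.nd (nat_lit 94) (nat_lit 0) (nat_lit 0) (XT.lf (nat_lit 0) (nat_lit 7236036338) (nat_lit 168) (nat_lit 5354804883) (nat_lit 252) (nat_lit 3821806399) (nat_lit 13) (nat_lit 5) (nat_lit 15) (nat_lit 5) (nat_lit 16) (nat_lit 4) (nat_lit 364) (nat_lit 278) (nat_lit 246)) (XT.lf (nat_lit 0) (nat_lit 11064147837) (nat_lit 168) (nat_lit 3575426022) (nat_lit 252) (nat_lit 2189868766) (nat_lit 13) (nat_lit 5) (nat_lit 15) (nat_lit 5) (nat_lit 16) (nat_lit 4) (nat_lit 365) (nat_lit 278) (nat_lit 245)))) (XT.nd (nat_lit 94) (nat_lit 252) (nat_lit 0) (XT.lf (nat_lit 0) (nat_lit 14964907980) (nat_lit 168)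 (nat_lit 1754240520) (nat_lit 252) (nat_lit 541191205) (nat_lit 13) (nat_lit 5) (nat_lit 15) (nat_lit 5) (nat_lit 16) (nat_lit 4) (nat_lit 366) (nat_lit 278) (nat_lit 244)) (XT.nd (nat_lit 94) (nat_lit 0) (nat_lit 0) (XT.lf (nat_lit 0) (nat_lit 1116820617) (nat_lit 252) (nat_lit 16456112668) (nat_lit 84) (nat_lit 132035105) (nat_lit 10) (nat_lit 5) (nat_lit 13) (nat_lit 5) (nat_lit 11) (nat_lit 4) (nat_lit 367) (nat_lit 278) (nat_lit 243)) (XT.lf (nat_lit 0) (nat_lit 2825353047) (nat_lit 252) (nat_lit 13280683344) (nat_lit 84) (nat_lit 2057005236) (nat_lit 10) (nat_lit 5) (nat_lit 13) (nat_lit 5) (nat_lit 11) (nat_lit 4) (nat_lit 368) (nat_lit 278) (nat_lit 242)))))) (XT.nd (nat_lit 564) (nat_lit 252) (nat_lit 0) (XT.nd (nat_lit 282) (nat_lit 84) (nat_lit 0) (XT.nd (nat_lit 94) (nat_lit 0) (nat_lit 0) (XT.lf (nat_lit 0) (nat_lit 4556023261) (nat_lit 252) (nat_lit 10051434176) (nat_lit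 84) (nat_lit 4028962635) (nat_lit 10) (nat_lit 5) (nat_lit 13) (nat_lit 5) (nat_lit 11) (nat_lit 4) (nat_lit 369) (nat_lit 278) (nat_lit 241)) (XT.nd (nat_lit 94) (nat_lit 0) (nat_lit 0) (XT.lf (nat_lit 0) (nat_lit 6310444426) (nat_lit 252) (nat_lit 6765355166) (nat_lit 84) (nat_lit 6049745371) (nat_lit 10) (nat_lit 5) (nat_lit 13) (nat_lit 5) (nat_lit 11) (nat_lit 4) (nat_lit 370) (nat_lit 278) (nat_lit 240)) (XT.lf (nat_lit 0) (nat_lit 8090251845) (nat_lit 252) (nat_lit 3419383345) (nat_lit 84) (nat_lit 8121237026) (nat_lit 10) (nat_lit 5) (nat_lit 13) (nat_lit 5) (nat_lit 11) (nat_lit 4) (nat_lit 371) (nat_lit 278) (nat_lit 239)))) (XT.nd (nat_lit 94) (nat_lit 84) (nat_lit 0) (XT.lf (nat_lit 0) (nat_lit 9897104487) (nat_lit 252) (nat_lit 10399915) (nat_lit 84) (nat_lit 10245368448) (nat_lit 10) (nat_lit 5) (nat_lit 13) (nat_lit 5) (nat_lit 11) (nat_lit 4) (nat_lit 372) (nat_lit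 278) (nat_lit 238)) (XT.nd (nat_lit 94) (nat_lit 0) (nat_lit 0) (XT.lf (nat_lit 0) (nat_lit 3536015483) (nat_lit 84) (nat_lit 8231748753) (nat_lit 168) (nat_lit 8923181776) (nat_lit 9) (nat_lit 5) (nat_lit 10) (nat_lit 5) (nat_lit 11) (nat_lit 4) (nat_lit 373) (nat_lit 278) (nat_lit 237)) (XT.lf (nat_lit 0) (nat_lit 7153500677) (nat_lit 84) (nat_lit 6516171851) (nat_lit 168) (nat_lit 7576984086) (nat_lit 9) (nat_lit 5) (nat_lit 10) (nat_lit 5) (nat_lit 11) (nat_lit 4) (nat_lit 374) (nat_lit 278) (nat_lit 236))))) (XT.nd (nat_lit 282) (nat_lit 252) (nat_lit 0) (XT.nd (nat_lit 94) (nat_lit 0) (nat_lit 0) (XT.lf (nat_lit 0) (nat_lit 10845213699) (nat_lit 84) (nat_lit 4759283151) (nat_lit 168) (nat_lit 6216029050) (nat_lit 9) (nat_lit 5) (nat_lit 10) (nat_lit 5) (nat_lit 11) (nat_lit 4) (nat_lit 375) (nat_lit 278) (nat_lit 235)) (XT.nd (nat_lit 94) (nat_lit 0) (nat_lit 0) (XT.lf (nat_lit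 0) (nat_lit 14614595612) (nat_lit 84) (nat_lit 2959445049) (nat_lit 168) (nat_lit 4839048114) (nat_lit 9) (nat_lit 5) (nat_lit 10) (nat_lit 5) (nat_lit 11) (nat_lit 4) (nat_lit 376) (nat_lit 278) (nat_lit 234)) (XT.lf (nat_lit 0) (nat_lit 18465159874) (nat_lit 84) (nat_lit 1114979909) (nat_lit 168) (nat_lit 3444757790) (nat_lit 9) (nat_lit 5) (nat_lit 10) (nat_lit 5) (nat_lit 11) (nat_lit 4) (nat_lit 377) (nat_lit 278) (nat_lit 233)))) (XT.nd (nat_lit 188) (nat_lit 84) (nat_lit 0) (XT.nd (nat_lit 94) (nat_lit 168) (nat_lit 0) (XT.lf (nat_lit 0) (nat_lit 21632360453) (nat_lit 168) (nat_lit 1263723290) (nat_lit 0) (nat_lit 760200229) (nat_lit 9) (nat_lit 5) (nat_lit 11) (nat_lit 4) (nat_lit 9) (nat_lit 4) (nat_lit 378) (nat_lit 278) (nat_lit 232)) (XT.lf (nat_lit 0) (nat_lit 2131737589) (nat_lit 168) (nat_lit 21625859533) (nat_lit 168) (nat_lit 549464944) (nat_lit 7) (nat_lit 4) (nat_lit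 9) (nat_lit 5) (nat_lit 9) (nat_lit 4) (nat_lit 379) (nat_lit 278) (nat_lit 231))) (XT.nd (nat_lit 94) (nat_lit 0) (nat_lit 0) (XT.lf (nat_lit 0) (nat_lit 941338293) (nat_lit 252) (nat_lit 19362629982) (nat_lit 84) (nat_lit 4674154991) (nat_lit 6) (nat_lit 5) (nat_lit 9) (nat_lit 5) (nat_lit 7) (nat_lit 4) (nat_lit 380) (nat_lit 278) (nat_lit 230)) (XT.lf (nat_lit 0) (nat_lit 2444506609) (nat_lit 252) (nat_lit 16501832345) (nat_lit 84) (nat_lit 6724270114) (nat_lit 6) (nat_lit 5) (nat_lit 9) (nat_lit 5) (nat_lit 7) (nat_lit 4) (nat_lit 381) (nat_lit 278) (nat_lit 229))))))) (XT.nd (nat_lit 1222) (nat_lit 168) (nat_lit 0) (XT.nd (nat_lit 564) (nat_lit 0) (nat_lit 0) (XT.nd (nat_lit 282) (nat_lit 84) (nat_lit 0) (XT.nd (nat_lit 94) (nat_lit 0) (nat_lit 0) (XT.lf (nat_lit 0) (nat_lit 3972511608) (nat_lit 252) (nat_lit 13584814244) (nat_lit 84) (nat_lit 8828008064) (nat_lit 6) (nat_lit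 5) (nat_lit 9) (nat_lit 5) (nat_lit 7) (nat_lit 4) (nat_lit 382) (nat_lit 278) (nat_lit 228)) (XT.nd (nat_lit 94) (nat_lit 0) (nat_lit 0) (XT.lf (nat_lit 0) (nat_lit 5526777550) (nat_lit 252) (nat_lit 10608856713) (nat_lit 84) (nat_lit 10987329747) (nat_lit 6) (nat_lit 5) (nat_lit 9) (nat_lit 5) (nat_lit 7) (nat_lit 4) (nat_lit 383) (nat_lit 278) (nat_lit 227)) (XT.lf (nat_lit 0) (nat_lit 7108753174) (nat_lit 252) (nat_lit 7571185848) (nat_lit 84) (nat_lit 13204247876) (nat_lit 6) (nat_lit 5) (nat_lit 9) (nat_lit 5) (nat_lit 7) (nat_lit 4) (nat_lit 384) (nat_lit 278) (nat_lit 226)))) (XT.nd (nat_lit 94) (nat_lit 84) (nat_lit 0) (XT.lf (nat_lit 0) (nat_lit 8719913048) (nat_lit 252) (nat_lit 4468970220) (nat_lit 84) (nat_lit 15480828850) (nat_lit 6) (nat_lit 5) (nat_lit 9) (nat_lit 5) (nat_lit 7) (nat_lit 4) (nat_lit 385) (nat_lit 278) (nat_lit 225)) (XT.nd (nat_lit 94) (nat_lit 84)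 (nat_lit 0) (XT.lf (nat_lit 0) (nat_lit 10361758940) (nat_lit 252) (nat_lit 1299318240) (nat_lit 84) (nat_lit 17819194682) (nat_lit 6) (nat_lit 5) (nat_lit 9) (nat_lit 5) (nat_lit 7) (nat_lit 4) (nat_lit 386) (nat_lit 278) (nat_lit 224)) (XT.lf (nat_lit 0) (nat_lit 1980629815) (nat_lit 84) (nat_lit 10074839501) (nat_lit 168) (nat_lit 18260543252) (nat_lit 5) (nat_lit 5) (nat_lit 6) (nat_lit 5) (nat_lit 7) (nat_lit 4) (nat_lit 387) (nat_lit 278) (nat_lit 223))))) (XT.nd (nat_lit 282) (nat_lit 0) (nat_lit 0) (XT.nd (nat_lit 94) (nat_lit 0) (nat_lit 0) (XT.lf (nat_lit 0) (nat_lit 5362214855) (nat_lit 84) (nat_lit 8434639278) (nat_lit 168) (nat_lit 17381037929) (nat_lit 5) (nat_lit 5) (nat_lit 6) (nat_lit 5) (nat_lit 7) (nat_lit 4) (nat_lit 388) (nat_lit 278) (nat_lit 222)) (XT.nd (nat_lit 94) (nat_lit 0) (nat_lit 0) (XT.lf (nat_lit 0) (nat_lit 8821872224) (nat_lit 84) (nat_lit 6752509892)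 (nat_lit 168) (nat_lit 16492739380) (nat_lit 5) (nat_lit 5) (nat_lit 6) (nat_lit 5) (nat_lit 7) (nat_lit 4) (nat_lit 389) (nat_lit 278) (nat_lit 221)) (XT.lf (nat_lit 0) (nat_lit 12362826685) (nat_lit 84) (nat_lit 5026883421) (nat_lit 168) (nat_lit 15594819618) (nat_lit 5) (nat_lit 5) (nat_lit 6) (nat_lit 5) (nat_lit 7) (nat_lit 4) (nat_lit 390) (nat_lit 278) (nat_lit 220)))) (XT.nd (nat_lit 188) (nat_lit 0) (nat_lit 0) (XT.nd (nat_lit 94) (nat_lit 0) (nat_lit 0) (XT.lf (nat_lit 0) (nat_lit 15988378777) (nat_lit 84) (nat_lit 3256151401) (nat_lit 168) (nat_lit 14686441688) (nat_lit 5) (nat_lit 5) (nat_lit 6) (nat_lit 5) (nat_lit 7) (nat_lit 4) (nat_lit 391) (nat_lit 278) (nat_lit 219)) (XT.lf (nat_lit 0) (nat_lit 19701907895) (nat_lit 84) (nat_lit 1438663324) (nat_lit 168) (nat_lit 13766758887) (nat_lit 5) (nat_lit 5) (nat_lit 6) (nat_lit 5) (nat_lit 7) (nat_lit 4) (nat_lit 392) (nat_lit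 278) (nat_lit 218))) (XT.nd (nat_lit 94) (nat_lit 0) (nat_lit 0) (XT.lf (nat_lit 0) (nat_lit 23083839160) (nat_lit 168) (nat_lit 12411877695) (nat_lit 0) (nat_lit 418666260) (nat_lit 5) (nat_lit 5) (nat_lit 7) (nat_lit 4) (nat_lit 5) (nat_lit 4) (nat_lit 393) (nat_lit 278) (nat_lit 217)) (XT.lf (nat_lit 0) (nat_lit 25086672359) (nat_lit 168) (nat_lit 9569882696) (nat_lit 0) (nat_lit 2296188177) (nat_lit 5) (nat_lit 5) (nat_lit 7) (nat_lit 4) (nat_lit 5) (nat_lit 4) (nat_lit 394) (nat_lit 278) (nat_lit 216)))))) (XT.nd (nat_lit 564) (nat_lit 84) (nat_lit 0) (XT.nd (nat_lit 282) (nat_lit 84) (nat_lit 0) (XT.nd (nat_lit 94) (nat_lit 0) (nat_lit 0) (XT.lf (nat_lit 0) (nat_lit 27136665951) (nat_lit 168) (nat_lit 6662516460) (nat_lit 0) (nat_lit 4224638333) (nat_lit 5) (nat_lit 5) (nat_lit 7) (nat_lit 4) (nat_lit 5) (nat_lit 4) (nat_lit 395) (nat_lit 278) (nat_lit 215)) (XT.nd (nat_lit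 94) (nat_lit 0) (nat_lit 0) (XT.lf (nat_lit 0) (nat_lit 29235730743) (nat_lit 168) (nat_lit 3687069017) (nat_lit 0) (nat_lit 6205814245) (nat_lit 5) (nat_lit 5) (nat_lit 7) (nat_lit 4) (nat_lit 5) (nat_lit 4) (nat_lit 396) (nat_lit 278) (nat_lit 214)) (XT.lf (nat_lit 0) (nat_lit 31385823285) (nat_lit 168) (nat_lit 640766938) (nat_lit 0) (nat_lit 8241562577) (nat_lit 5) (nat_lit 5) (nat_lit 7) (nat_lit 4) (nat_lit 5) (nat_lit 4) (nat_lit 397) (nat_lit 278) (nat_lit 213)))) (XT.nd (nat_lit 94) (nat_lit 0) (nat_lit 0) (XT.lf (nat_lit 0) (nat_lit 2530207286) (nat_lit 84) (nat_lit 31083840370) (nat_lit 84) (nat_lit 7828673541) (nat_lit 4) (nat_lit 4) (nat_lit 5) (nat_lit 5) (nat_lit 5) (nat_lit 4) (nat_lit 398) (nat_lit 278) (nat_lit 212)) (XT.nd (nat_lit 94) (nat_lit 0) (nat_lit 0) (XT.lf (nat_lit 0) (nat_lit 5792534366) (nat_lit 84) (nat_lit 30112085784) (nat_lit 84) (nat_lit 6749347548)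 (nat_lit 4) (nat_lit 4) (nat_lit 5) (nat_lit 5) (nat_lit 5) (nat_lit 4) (nat_lit 399) (nat_lit 278) (nat_lit 211)) (XT.lf (nat_lit 0) (nat_lit 9136079648) (nat_lit 84) (nat_lit 29117108982) (nat_lit 84) (nat_lit 5650033785) (nat_lit 4) (nat_lit 4) (nat_lit 5) (nat_lit 5) (nat_lit 5) (nat_lit 4) (nat_lit 400) (nat_lit 278) (nat_lit 210))))) (XT.nd (nat_lit 282) (nat_lit 84) (nat_lit 0) (XT.nd (nat_lit 94) (nat_lit 0) (nat_lit 0) (XT.lf (nat_lit 0) (nat_lit 12563959666) (nat_lit 84) (nat_lit 28097982541) (nat_lit 84) (nat_lit 4529707576) (nat_lit 4) (nat_lit 4) (nat_lit 5) (nat_lit 5) (nat_lit 5) (nat_lit 4) (nat_lit 401) (nat_lit 278) (nat_lit 209)) (XT.nd (nat_lit 94) (nat_lit 0) (nat_lit 0) (XT.lf (nat_lit 0) (nat_lit 16079369565) (nat_lit 84) (nat_lit 27053756529) (nat_lit 84) (nat_lit 3387324660) (nat_lit 4) (nat_lit 4) (nat_lit 5) (nat_lit 5) (nat_lit 5) (nat_lit 4) (nat_lit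 402) (nat_lit 278) (nat_lit 208)) (XT.lf (nat_lit 0) (nat_lit 19685586074) (nat_lit 84) (nat_lit 25983457617) (nat_lit 84) (nat_lit 2221820216) (nat_lit 4) (nat_lit 4) (nat_lit 5) (nat_lit 5) (nat_lit 5) (nat_lit 4) (nat_lit 403) (nat_lit 278) (nat_lit 207)))) (XT.nd (nat_lit 188) (nat_lit 0) (nat_lit 0) (XT.nd (nat_lit 94) (nat_lit 84) (nat_lit 0) (XT.lf (nat_lit 0) (nat_lit 23385970564) (nat_lit 84) (nat_lit 24886088176) (nat_lit 84) (nat_lit 1032107871) (nat_lit 4) (nat_lit 4) (nat_lit 5) (nat_lit 5) (nat_lit 5) (nat_lit 4) (nat_lit 404) (nat_lit 278) (nat_lit 206)) (XT.lf (nat_lit 0) (nat_lit 179235852) (nat_lit 168) (nat_lit 23579518633) (nat_lit 84) (nat_lit 27002865475) (nat_lit 3) (nat_lit 5) (nat_lit 5) (nat_lit 5) (nat_lit 4) (nat_lit 4) (nat_lit 405) (nat_lit 278) (nat_lit 205))) (XT.nd (nat_lit 94) (nat_lit 0) (nat_lit 0) (XT.lf (nat_lit 0) (nat_lit 1395701379) (nat_lit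 168) (nat_lit 21195750423) (nat_lit 84) (nat_lit 29672861424) (nat_lit 3) (nat_lit 5) (nat_lit 5) (nat_lit 5) (nat_lit 4) (nat_lit 4) (nat_lit 406) (nat_lit 278) (nat_lit 204)) (XT.lf (nat_lit 0) (nat_lit 2639217254) (nat_lit 168) (nat_lit 18754430859) (nat_lit 84) (nat_lit 32420316363) (nat_lit 3) (nat_lit 5) (nat_lit 5) (nat_lit 5) (nat_lit 4) (nat_lit 4) (nat_lit 407) (nat_lit 278) (nat_lit 203))))))))
noncomputable def xc46 : XT := (XT.nd (nat_lit 48410) (nat_lit 0) (nat_lit 1344) (XT.nd (nat_lit 1128) (nat_lit 0) (nat_lit 0) (XT.nd (nat_lit 564) (nat_lit 84) (nat_lit 0) (XT.nd (nat_lit 282) (nat_lit 0) (nat_lit 0) (XT.nd (nat_lit 94) (nat_lit 0) (nat_lit 0) (XT.lf (nat_lit 0) (nat_lit 3910942564) (nat_lit 168) (nat_lit 16253284375) (nat_lit 84) (nat_lit 35247791206) (nat_lit 3) (nat_lit 5) (nat_lit 5) (nat_lit 5) (nat_lit 4) (nat_lit 4) (nat_lit 408) (nat_lit 278) (nat_lit 202))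 (XT.nd (nat_lit 94) (nat_lit 0) (nat_lit 0) (XT.lf (nat_lit 0) (nat_lit 5212062691) (nat_lit 168) (nat_lit 13689979641) (nat_lit 84) (nat_lit 38157921457) (nat_lit 3) (nat_lit 5) (nat_lit 5) (nat_lit 5) (nat_lit 4) (nat_lit 4) (nat_lit 409) (nat_lit 278) (nat_lit 201)) (XT.lf (nat_lit 0) (nat_lit 6543790416) (nat_lit 168) (nat_lit 11062127387) (nat_lit 84) (nat_lit 41153419661) (nat_lit 3) (nat_lit 5) (nat_lit 5) (nat_lit 5) (nat_lit 4) (nat_lit 4) (nat_lit 410) (nat_lit 278) (nat_lit 200)))) (XT.nd (nat_lit 94) (nat_lit 0) (nat_lit 0) (XT.lf (nat_lit 0) (nat_lit 7907367047) (nat_lit 168) (nat_lit 8367278180) (nat_lit 84) (nat_lit 44237077937) (nat_lit 3) (nat_lit 5) (nat_lit 5) (nat_lit 5) (nat_lit 4) (nat_lit 4) (nat_lit 411) (nat_lit 278) (nat_lit 199)) (XT.nd (nat_lit 94) (nat_lit 0) (nat_lit 0) (XT.lf (nat_lit 0) (nat_lit 9304063582) (nat_lit 168) (nat_lit 5602920139) (nat_lit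 84) (nat_lit 47411770577) (nat_lit 3) (nat_lit 5) (nat_lit 5) (nat_lit 5) (nat_lit 4) (nat_lit 4) (nat_lit 412) (nat_lit 278) (nat_lit 198)) (XT.lf (nat_lit 0) (nat_lit 10735181887) (nat_lit 168) (nat_lit 2766476593) (nat_lit 84) (nat_lit 50680456727) (nat_lit 3) (nat_lit 5) (nat_lit 5) (nat_lit 5) (nat_lit 4) (nat_lit 4) (nat_lit 413) (nat_lit 278) (nat_lit 197))))) (XT.nd (nat_lit 282) (nat_lit 0) (nat_lit 0) (XT.nd (nat_lit 94) (nat_lit 0) (nat_lit 0) (XT.lf (nat_lit 0) (nat_lit 147671574) (nat_lit 84) (nat_lit 12055849260) (nat_lit 168) (nat_lit 53899976492) (nat_lit 2) (nat_lit 5) (nat_lit 3) (nat_lit 5) (nat_lit 4) (nat_lit 4) (nat_lit 414) (nat_lit 278) (nat_lit 196)) (XT.nd (nat_lit 94) (nat_lit 0) (nat_lit 0) (XT.lf (nat_lit 0) (nat_lit 3197739446) (nat_lit 84) (nat_lit 10540035470) (nat_lit 168) (nat_lit 54346069568) (nat_lit 2) (nat_lit 5) (nat_lit 3) (nat_lit 5) (nat_lit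 4) (nat_lit 4) (nat_lit 415) (nat_lit 278) (nat_lit 195)) (XT.lf (nat_lit 0) (nat_lit 6329685571) (nat_lit 84) (nat_lit 8981680555) (nat_lit 168) (nat_lit 54814504696) (nat_lit 2) (nat_lit 5) (nat_lit 3) (nat_lit 5) (nat_lit 4) (nat_lit 4) (nat_lit 416) (nat_lit 278) (nat_lit 194)))) (XT.nd (nat_lit 94) (nat_lit 0) (nat_lit 0) (XT.lf (nat_lit 0) (nat_lit 9546429252) (nat_lit 84) (nat_lit 7379331964) (nat_lit 168) (nat_lit 55305718506) (nat_lit 2) (nat_lit 5) (nat_lit 3) (nat_lit 5) (nat_lit 4) (nat_lit 4) (nat_lit 417) (nat_lit 278) (nat_lit 193)) (XT.nd (nat_lit 94) (nat_lit 0) (nat_lit 0) (XT.lf (nat_lit 0) (nat_lit 12850968830) (nat_lit 84) (nat_lit 5731496141) (nat_lit 168) (nat_lit 55820168863) (nat_lit 2) (nat_lit 5) (nat_lit 3) (nat_lit 5) (nat_lit 4) (nat_lit 4) (nat_lit 418) (nat_lit 278) (nat_lit 192)) (XT.lf (nat_lit 0) (nat_lit 16246384484) (nat_lit 84) (nat_lit 4036637130)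 (nat_lit 168) (nat_lit 56358335286) (nat_lit 2) (nat_lit 5) (nat_lit 3) (nat_lit 5) (nat_lit 4) (nat_lit 4) (nat_lit 419) (nat_lit 278) (nat_lit 191)))))) (XT.nd (nat_lit 564) (nat_lit 0) (nat_lit 0) (XT.nd (nat_lit 282) (nat_lit 0) (nat_lit 0) (XT.nd (nat_lit 94) (nat_lit 0) (nat_lit 0) (XT.lf (nat_lit 0) (nat_lit 19735841094) (nat_lit 84) (nat_lit 2293175145) (nat_lit 168) (nat_lit 56920719403) (nat_lit 2) (nat_lit 5) (nat_lit 3) (nat_lit 5) (nat_lit 4) (nat_lit 4) (nat_lit 420) (nat_lit 278) (nat_lit 190)) (XT.nd (nat_lit 94) (nat_lit 0) (nat_lit 0) (XT.lf (nat_lit 0) (nat_lit 23322591202) (nat_lit 84) (nat_lit 499485097) (nat_lit 168) (nat_lit 57507845417) (nat_lit 2) (nat_lit 5) (nat_lit 3) (nat_lit 5) (nat_lit 4) (nat_lit 4) (nat_lit 421) (nat_lit 278) (nat_lit 189)) (XT.lf (nat_lit 0) (nat_lit 25677226640) (nat_lit 168) (nat_lit 56787509195) (nat_lit 0) (nat_lit 1318983906)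 (nat_lit 2) (nat_lit 5) (nat_lit 4) (nat_lit 4) (nat_lit 2) (nat_lit 4) (nat_lit 422) (nat_lit 278) (nat_lit 188)))) (XT.nd (nat_lit 94) (nat_lit 0) (nat_lit 0) (XT.lf (nat_lit 0) (nat_lit 27588317356) (nat_lit 168) (nat_lit 55545414489) (nat_lit 0) (nat_lit 3179929323) (nat_lit 2) (nat_lit 5) (nat_lit 4) (nat_lit 4) (nat_lit 2) (nat_lit 4) (nat_lit 423) (nat_lit 278) (nat_lit 187)) (XT.nd (nat_lit 94) (nat_lit 0) (nat_lit 0) (XT.lf (nat_lit 0) (nat_lit 29552174828) (nat_lit 168) (nat_lit 54274933681) (nat_lit 0) (nat_lit 5095149261) (nat_lit 2) (nat_lit 5) (nat_lit 4) (nat_lit 4) (nat_lit 2) (nat_lit 4) (nat_lit 424) (nat_lit 278) (nat_lit 186)) (XT.lf (nat_lit 0) (nat_lit 31570629579) (nat_lit 168) (nat_lit 52974882548) (nat_lit 0) (nat_lit 7066428905) (nat_lit 2) (nat_lit 5) (nat_lit 4) (nat_lit 4) (nat_lit 2) (nat_lit 4) (nat_lit 425) (nat_lit 278) (nat_lit 185))))) (XT.nd (nat_lit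 282) (nat_lit 0) (nat_lit 0) (XT.nd (nat_lit 94) (nat_lit 0) (nat_lit 0) (XT.lf (nat_lit 0) (nat_lit 33645563019) (nat_lit 168) (nat_lit 51644049308) (nat_lit 0) (nat_lit 9095605696) (nat_lit 2) (nat_lit 5) (nat_lit 4) (nat_lit 4) (nat_lit 2) (nat_lit 4) (nat_lit 426) (nat_lit 278) (nat_lit 184)) (XT.nd (nat_lit 94) (nat_lit 0) (nat_lit 0) (XT.lf (nat_lit 0) (nat_lit 35778909204) (nat_lit 168) (nat_lit 50281193484) (nat_lit 0) (nat_lit 11184571037) (nat_lit 2) (nat_lit 5) (nat_lit 4) (nat_lit 4) (nat_lit 2) (nat_lit 4) (nat_lit 427) (nat_lit 278) (nat_lit 183)) (XT.lf (nat_lit 0) (nat_lit 37972656635) (nat_lit 168) (nat_lit 48885044752) (nat_lit 0) (nat_lit 13335272063) (nat_lit 2) (nat_lit 5) (nat_lit 4) (nat_lit 4) (nat_lit 2) (nat_lit 4) (nat_lit 428) (nat_lit 278) (nat_lit 182)))) (XT.nd (nat_lit 188) (nat_lit 0) (nat_lit 0) (XT.nd (nat_lit 94) (nat_lit 0) (nat_lit 0) (XT.lf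 (nat_lit 0) (nat_lit 40228850116) (nat_lit 168) (nat_lit 47454301755) (nat_lit 0) (nat_lit 15549713454) (nat_lit 2) (nat_lit 5) (nat_lit 4) (nat_lit 4) (nat_lit 2) (nat_lit 4) (nat_lit 429) (nat_lit 278) (nat_lit 181)) (XT.lf (nat_lit 0) (nat_lit 42549592655) (nat_lit 168) (nat_lit 45987630890) (nat_lit 0) (nat_lit 17829959300) (nat_lit 2) (nat_lit 5) (nat_lit 4) (nat_lit 4) (nat_lit 2) (nat_lit 4) (nat_lit 430) (nat_lit 278) (nat_lit 180))) (XT.nd (nat_lit 94) (nat_lit 0) (nat_lit 0) (XT.lf (nat_lit 0) (nat_lit 44937047428) (nat_lit 168) (nat_lit 44483665067) (nat_lit 0) (nat_lit 20178135030) (nat_lit 2) (nat_lit 5) (nat_lit 4) (nat_lit 4) (nat_lit 2) (nat_lit 4) (nat_lit 431) (nat_lit 278) (nat_lit 179)) (XT.lf (nat_lit 0) (nat_lit 47393439791) (nat_lit 168) (nat_lit 42941002432) (nat_lit 0) (nat_lit 22596429388) (nat_lit 2) (nat_lit 5) (nat_lit 4) (nat_lit 4) (nat_lit 2) (nat_lit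 4) (nat_lit 432) (nat_lit 278) (nat_lit 178))))))) (XT.nd (nat_lit 1222) (nat_lit 1344) (nat_lit 0) (XT.nd (nat_lit 564) (nat_lit 840) (nat_lit 0) (XT.nd (nat_lit 282) (nat_lit 840) (nat_lit 0) (XT.nd (nat_lit 94) (nat_lit 420) (nat_lit 0) (XT.lf (nat_lit 0) (nat_lit 1648841935) (nat_lit 504) (nat_lit 814992379) (nat_lit 0) (nat_lit 1648841935) (nat_lit 59) (nat_lit 5) (nat_lit 65) (nat_lit 4) (nat_lit 59) (nat_lit 4) (nat_lit 330) (nat_lit 279) (nat_lit 279)) (XT.nd (nat_lit 94) (nat_lit 0) (nat_lit 0) (XT.lf (nat_lit 0) (nat_lit 2139769589) (nat_lit 420) (nat_lit 3633580557) (nat_lit 420) (nat_lit 2571648467) (nat_lit 54) (nat_lit 4) (nat_lit 59) (nat_lit 5) (nat_lit 59) (nat_lit 4) (nat_lit 331) (nat_lit 279) (nat_lit 278)) (XT.lf (nat_lit 0) (nat_lit 5984061037) (nat_lit 420) (nat_lit 2289204560) (nat_lit 420) (nat_lit 197270443) (nat_lit 54) (nat_lit 4) (nat_lit 59) (nat_lit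 5) (nat_lit 59) (nat_lit 4) (nat_lit 332) (nat_lit 279) (nat_lit 277)))) (XT.nd (nat_lit 94) (nat_lit 420) (nat_lit 0) (XT.lf (nat_lit 0) (nat_lit 1274407684) (nat_lit 336) (nat_lit 874963972) (nat_lit 420) (nat_lit 6452159186) (nat_lit 49) (nat_lit 5) (nat_lit 53) (nat_lit 5) (nat_lit 54) (nat_lit 4) (nat_lit 333) (nat_lit 279) (nat_lit 276)) (XT.nd (nat_lit 94) (nat_lit 420) (nat_lit 0) (XT.lf (nat_lit 0) (nat_lit 4529257762) (nat_lit 420) (nat_lit 3617497229) (nat_lit 0) (nat_lit 591372803) (nat_lit 49) (nat_lit 5) (nat_lit 54) (nat_lit 4) (nat_lit 49) (nat_lit 4) (nat_lit 334) (nat_lit 279) (nat_lit 275)) (XT.lf (nat_lit 0) (nat_lit 124807968) (nat_lit 420) (nat_lit 6802918240) (nat_lit 420) (nat_lit 1953435167) (nat_lit 44) (nat_lit 4) (nat_lit 49) (nat_lit 5) (nat_lit 49) (nat_lit 4) (nat_lit 335) (nat_lit 279) (nat_lit 274))))) (XT.nd (nat_lit 282) (nat_lit 420) (nat_lit 0)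 (XT.nd (nat_lit 94) (nat_lit 336) (nat_lit 0) (XT.lf (nat_lit 0) (nat_lit 337286987) (nat_lit 504) (nat_lit 5048641480) (nat_lit 84) (nat_lit 3643889446) (nat_lit 43) (nat_lit 5) (nat_lit 49) (nat_lit 5) (nat_lit 44) (nat_lit 4) (nat_lit 336) (nat_lit 279) (nat_lit 273)) (XT.nd (nat_lit 94) (nat_lit 336) (nat_lit 0) (XT.lf (nat_lit 0) (nat_lit 2595123707) (nat_lit 504) (nat_lit 1320577699) (nat_lit 84) (nat_lit 5269173102) (nat_lit 43) (nat_lit 5) (nat_lit 49) (nat_lit 5) (nat_lit 44) (nat_lit 4) (nat_lit 337) (nat_lit 279) (nat_lit 272)) (XT.lf (nat_lit 0) (nat_lit 2501082436) (nat_lit 336) (nat_lit 2385265509) (nat_lit 420) (nat_lit 4459959332) (nat_lit 39) (nat_lit 5) (nat_lit 43) (nat_lit 5) (nat_lit 44) (nat_lit 4) (nat_lit 338) (nat_lit 279) (nat_lit 271)))) (XT.nd (nat_lit 188) (nat_lit 84) (nat_lit 0) (XT.nd (nat_lit 94) (nat_lit 336) (nat_lit 0) (XT.lf (nat_lit 0) (nat_lit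 6397577358) (nat_lit 336) (nat_lit 804526494) (nat_lit 420) (nat_lit 2312503573) (nat_lit 39) (nat_lit 5) (nat_lit 43) (nat_lit 5) (nat_lit 44) (nat_lit 4) (nat_lit 339) (nat_lit 279) (nat_lit 270)) (XT.lf (nat_lit 0) (nat_lit 660264782) (nat_lit 336) (nat_lit 8885542434) (nat_lit 336) (nat_lit 144085639) (nat_lit 35) (nat_lit 4) (nat_lit 39) (nat_lit 5) (nat_lit 39) (nat_lit 4) (nat_lit 340) (nat_lit 279) (nat_lit 269))) (XT.nd (nat_lit 94) (nat_lit 0) (nat_lit 0) (XT.lf (nat_lit 0) (nat_lit 2032013957) (nat_lit 420) (nat_lit 5350631275) (nat_lit 84) (nat_lit 2488247758) (nat_lit 34) (nat_lit 5) (nat_lit 39) (nat_lit 5) (nat_lit 35) (nat_lit 4) (nat_lit 341) (nat_lit 279) (nat_lit 268)) (XT.lf (nat_lit 0) (nat_lit 4215842754) (nat_lit 420) (nat_lit 1629333986) (nat_lit 84) (nat_lit 4214413666) (nat_lit 34) (nat_lit 5) (nat_lit 39) (nat_lit 5) (nat_lit 35) (nat_lit 4) (nat_lit 342)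 (nat_lit 279) (nat_lit 267)))))) (XT.nd (nat_lit 564) (nat_lit 756) (nat_lit 0) (XT.nd (nat_lit 282) (nat_lit 252) (nat_lit 0) (XT.nd (nat_lit 94) (nat_lit 84) (nat_lit 0) (XT.lf (nat_lit 0) (nat_lit 2183147332) (nat_lit 252) (nat_lit 4250849072) (nat_lit 336) (nat_lit 3821537526) (nat_lit 31) (nat_lit 5) (nat_lit 34) (nat_lit 5) (nat_lit 35) (nat_lit 4) (nat_lit 343) (nat_lit 279) (nat_lit 266)) (XT.nd (nat_lit 94) (nat_lit 84) (nat_lit 0) (XT.lf (nat_lit 0) (nat_lit 6080884933) (nat_lit 252) (nat_lit 2602989197) (nat_lit 336) (nat_lit 1775176791) (nat_lit 31) (nat_lit 5) (nat_lit 34) (nat_lit 5) (nat_lit 35) (nat_lit 4) (nat_lit 344) (nat_lit 279) (nat_lit 265)) (XT.lf (nat_lit 0) (nat_lit 274588957) (nat_lit 336) (nat_lit 639612939) (nat_lit 84) (nat_lit 9756554364) (nat_lit 30) (nat_lit 5) (nat_lit 34) (nat_lit 5) (nat_lit 31) (nat_lit 5) (nat_lit 345) (nat_lit 279) (nat_lit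 264)))) (XT.nd (nat_lit 94) (nat_lit 0) (nat_lit 0) (XT.lf (nat_lit 0) (nat_lit 2339624403) (nat_lit 336) (nat_lit 7701766270) (nat_lit 84) (nat_lit 847744608) (nat_lit 27) (nat_lit 5) (nat_lit 31) (nat_lit 5) (nat_lit 28) (nat_lit 4) (nat_lit 346) (nat_lit 279) (nat_lit 263)) (XT.nd (nat_lit 94) (nat_lit 0) (nat_lit 0) (XT.lf (nat_lit 0) (nat_lit 4433866664) (nat_lit 336) (nat_lit 4042901642) (nat_lit 84) (nat_lit 2638905500) (nat_lit 27) (nat_lit 5) (nat_lit 31) (nat_lit 5) (nat_lit 28) (nat_lit 4) (nat_lit 347) (nat_lit 279) (nat_lit 262)) (XT.lf (nat_lit 0) (nat_lit 6543657061) (nat_lit 336) (nat_lit 334582141) (nat_lit 84) (nat_lit 4472827724) (nat_lit 27) (nat_lit 5) (nat_lit 31) (nat_lit 5) (nat_lit 28) (nat_lit 4) (nat_lit 348) (nat_lit 279) (nat_lit 261))))) (XT.nd (nat_lit 282) (nat_lit 420) (nat_lit 0) (XT.nd (nat_lit 94) (nat_lit 84) (nat_lit 0) (XT.lf (nat_lit 0) (nat_lit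 3497107701) (nat_lit 252) (nat_lit 5208546179) (nat_lit 336) (nat_lit 2888804725) (nat_lit 24) (nat_lit 5) (nat_lit 27) (nat_lit 5) (nat_lit 28) (nat_lit 4) (nat_lit 349) (nat_lit 279) (nat_lit 260)) (XT.nd (nat_lit 94) (nat_lit 84) (nat_lit 0) (XT.lf (nat_lit 0) (nat_lit 7393254571) (nat_lit 252) (nat_lit 3497852201) (nat_lit 336) (nat_lit 955922675) (nat_lit 24) (nat_lit 5) (nat_lit 27) (nat_lit 5) (nat_lit 28) (nat_lit 4) (nat_lit 350) (nat_lit 279) (nat_lit 259)) (XT.lf (nat_lit 0) (nat_lit 969608444) (nat_lit 336) (nat_lit 768325904) (nat_lit 84) (nat_lit 10370881220) (nat_lit 23) (nat_lit 5) (nat_lit 27) (nat_lit 5) (nat_lit 24) (nat_lit 5) (nat_lit 351) (nat_lit 279) (nat_lit 258)))) (XT.nd (nat_lit 188) (nat_lit 168) (nat_lit 0) (XT.nd (nat_lit 94) (nat_lit 0) (nat_lit 0) (XT.lf (nat_lit 0) (nat_lit 2921010683) (nat_lit 336) (nat_lit 9356615896) (nat_lit 84) (nat_lit 101478939)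 (nat_lit 20) (nat_lit 5) (nat_lit 24) (nat_lit 5) (nat_lit 21) (nat_lit 4) (nat_lit 352) (nat_lit 279) (nat_lit 257)) (XT.lf (nat_lit 0) (nat_lit 4914431363) (nat_lit 336) (nat_lit 5788122429) (nat_lit 84) (nat_lit 1956044278) (nat_lit 20) (nat_lit 5) (nat_lit 24) (nat_lit 5) (nat_lit 21) (nat_lit 4) (nat_lit 353) (nat_lit 279) (nat_lit 256))) (XT.nd (nat_lit 94) (nat_lit 168) (nat_lit 0) (XT.lf (nat_lit 0) (nat_lit 6926629870) (nat_lit 336) (nat_lit 2167054278) (nat_lit 84) (nat_lit 3854647655) (nat_lit 20) (nat_lit 5) (nat_lit 24) (nat_lit 5) (nat_lit 21) (nat_lit 4) (nat_lit 354) (nat_lit 279) (nat_lit 255)) (XT.lf (nat_lit 0) (nat_lit 1541011724) (nat_lit 168) (nat_lit 7433757087) (nat_lit 252) (nat_lit 4273334070) (nat_lit 18) (nat_lit 5) (nat_lit 20) (nat_lit 5) (nat_lit 21) (nat_lit 4) (nat_lit 355) (nat_lit 279) (nat_lit 254))))))))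
noncomputable def xc47 : XT := (XT.nd (nat_lit 2444) (nat_lit 252) (nat_lit 0) (XT.nd (nat_lit 1222) (nat_lit 336) (nat_lit 0) (XT.nd (nat_lit 564) (nat_lit 420) (nat_lit 0) (XT.nd (nat_lit 282) (nat_lit 168) (nat_lit 0) (XT.nd (nat_lit 94) (nat_lit 84) (nat_lit 0) (XT.lf (nat_lit 0) (nat_lit 5354234992) (nat_lit 168) (nat_lit 5713761619) (nat_lit 252) (nat_lit 2489969691) (nat_lit 18) (nat_lit 5) (nat_lit 20) (nat_lit 5) (nat_lit 21) (nat_lit 4) (nat_lit 356) (nat_lit 279) (nat_lit 253)) (XT.nd (nat_lit 94) (nat_lit 84) (nat_lit 0) (XT.lf (nat_lit 0) (nat_lit 9231610767) (nat_lit 168) (nat_lit 3954714131) (nat_lit 252) (nat_lit 692566117) (nat_lit 18) (nat_lit 5) (nat_lit 20) (nat_lit 5) (nat_lit 21) (nat_lit 4) (nat_lit 357) (nat_lit 279) (nat_lit 252)) (XT.lf (nat_lit 0) (nat_lit 1097975394) (nat_lit 252) (nat_lit 1045538999) (nat_lit 84) (nat_lit 12067317165) (nat_lit 17) (nat_lit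 5) (nat_lit 20) (nat_lit 5) (nat_lit 18) (nat_lit 5) (nat_lit 358) (nat_lit 279) (nat_lit 251)))) (XT.nd (nat_lit 94) (nat_lit 0) (nat_lit 0) (XT.lf (nat_lit 0) (nat_lit 2662578027) (nat_lit 168) (nat_lit 255452234) (nat_lit 252) (nat_lit 11635374853) (nat_lit 15) (nat_lit 5) (nat_lit 17) (nat_lit 5) (nat_lit 18) (nat_lit 5) (nat_lit 359) (nat_lit 279) (nat_lit 250)) (XT.nd (nat_lit 94) (nat_lit 0) (nat_lit 0) (XT.lf (nat_lit 0) (nat_lit 4784783703) (nat_lit 252) (nat_lit 8467868891) (nat_lit 84) (nat_lit 1654443797) (nat_lit 15) (nat_lit 5) (nat_lit 18) (nat_lit 5) (nat_lit 16) (nat_lit 4) (nat_lit 360) (nat_lit 279) (nat_lit 249)) (XT.lf (nat_lit 0) (nat_lit 6675623110) (nat_lit 252) (nat_lit 4992364506) (nat_lit 84) (nat_lit 3605002382) (nat_lit 15) (nat_lit 5) (nat_lit 18) (nat_lit 5) (nat_lit 16) (nat_lit 4) (nat_lit 361) (nat_lit 279) (nat_lit 248))))) (XT.nd (nat_lit 282)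 (nat_lit 252) (nat_lit 0) (XT.nd (nat_lit 94) (nat_lit 168) (nat_lit 0) (XT.lf (nat_lit 0) (nat_lit 8589776824) (nat_lit 252) (nat_lit 1458540279) (nat_lit 84) (nat_lit 5603188438) (nat_lit 15) (nat_lit 5) (nat_lit 18) (nat_lit 5) (nat_lit 16) (nat_lit 4) (nat_lit 362) (nat_lit 279) (nat_lit 247)) (XT.nd (nat_lit 94) (nat_lit 0) (nat_lit 0) (XT.lf (nat_lit 0) (nat_lit 2180836681) (nat_lit 168) (nat_lit 8369826528) (nat_lit 252) (nat_lit 5491661972) (nat_lit 13) (nat_lit 5) (nat_lit 15) (nat_lit 5) (nat_lit 16) (nat_lit 4) (nat_lit 363) (nat_lit 279) (nat_lit 246)) (XT.lf (nat_lit 0) (nat_lit 5916505096) (nat_lit 168) (nat_lit 6637374707) (nat_lit 252) (nat_lit 3892126533) (nat_lit 13) (nat_lit 5) (nat_lit 15) (nat_lit 5) (nat_lit 16) (nat_lit 4) (nat_lit 364) (nat_lit 279) (nat_lit 245)))) (XT.nd (nat_lit 188) (nat_lit 252) (nat_lit 0) (XT.nd (nat_lit 94) (nat_lit 0) (nat_lit 0)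 (XT.lf (nat_lit 0) (nat_lit 9721956421) (nat_lit 168) (nat_lit 4864570983) (nat_lit 252) (nat_lit 2276855634) (nat_lit 13) (nat_lit 5) (nat_lit 15) (nat_lit 5) (nat_lit 16) (nat_lit 4) (nat_lit 365) (nat_lit 279) (nat_lit 244)) (XT.lf (nat_lit 0) (nat_lit 13600737735) (nat_lit 168) (nat_lit 3049762918) (nat_lit 252) (nat_lit 644343676) (nat_lit 13) (nat_lit 5) (nat_lit 15) (nat_lit 5) (nat_lit 16) (nat_lit 4) (nat_lit 366) (nat_lit 279) (nat_lit 243))) (XT.nd (nat_lit 94) (nat_lit 168) (nat_lit 0) (XT.lf (nat_lit 0) (nat_lit 986643598) (nat_lit 252) (nat_lit 194316785) (nat_lit 84) (nat_lit 16559522334) (nat_lit 12) (nat_lit 5) (nat_lit 15) (nat_lit 5) (nat_lit 13) (nat_lit 5) (nat_lit 367) (nat_lit 279) (nat_lit 242)) (XT.lf (nat_lit 0) (nat_lit 2666295252) (nat_lit 252) (nat_lit 14773660041) (nat_lit 84) (nat_lit 759569481) (nat_lit 10) (nat_lit 5) (nat_lit 13) (nat_lit 5) (nat_lit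 11) (nat_lit 4) (nat_lit 368) (nat_lit 279) (nat_lit 241)))))) (XT.nd (nat_lit 564) (nat_lit 252) (nat_lit 0) (XT.nd (nat_lit 282) (nat_lit 84) (nat_lit 0) (XT.nd (nat_lit 94) (nat_lit 0) (nat_lit 0) (XT.lf (nat_lit 0) (nat_lit 4382243739) (nat_lit 252) (nat_lit 11565719038) (nat_lit 84) (nat_lit 2725468120) (nat_lit 10) (nat_lit 5) (nat_lit 13) (nat_lit 5) (nat_lit 11) (nat_lit 4) (nat_lit 369) (nat_lit 279) (nat_lit 240)) (XT.nd (nat_lit 94) (nat_lit 0) (nat_lit 0) (XT.lf (nat_lit 0) (nat_lit 6122385829) (nat_lit 252) (nat_lit 8300307501) (nat_lit 84) (nat_lit 4740374270) (nat_lit 10) (nat_lit 5) (nat_lit 13) (nat_lit 5) (nat_lit 11) (nat_lit 4) (nat_lit 370) (nat_lit 279) (nat_lit 239)) (XT.lf (nat_lit 0) (nat_lit 7888343515) (nat_lit 252) (nat_lit 4974381725) (nat_lit 84) (nat_lit 6806166036) (nat_lit 10) (nat_lit 5) (nat_lit 13) (nat_lit 5) (nat_lit 11) (nat_lit 4) (nat_lit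 371) (nat_lit 279) (nat_lit 238)))) (XT.nd (nat_lit 94) (nat_lit 84) (nat_lit 0) (XT.lf (nat_lit 0) (nat_lit 9681762856) (nat_lit 252) (nat_lit 1584841599) (nat_lit 84) (nat_lit 8924768952) (nat_lit 10) (nat_lit 5) (nat_lit 13) (nat_lit 5) (nat_lit 11) (nat_lit 4) (nat_lit 372) (nat_lit 279) (nat_lit 237)) (XT.nd (nat_lit 94) (nat_lit 0) (nat_lit 0) (XT.lf (nat_lit 0) (nat_lit 1909953592) (nat_lit 84) (nat_lit 9613308888) (nat_lit 168) (nat_lit 9207151160) (nat_lit 9) (nat_lit 5) (nat_lit 10) (nat_lit 5) (nat_lit 11) (nat_lit 4) (nat_lit 373) (nat_lit 279) (nat_lit 236)) (XT.lf (nat_lit 0) (nat_lit 5508771030) (nat_lit 84) (nat_lit 7903576932) (nat_lit 168) (nat_lit 7874234998) (nat_lit 9) (nat_lit 5) (nat_lit 10) (nat_lit 5) (nat_lit 11) (nat_lit 4) (nat_lit 374) (nat_lit 279) (nat_lit 235))))) (XT.nd (nat_lit 282) (nat_lit 252) (nat_lit 0) (XT.nd (nat_lit 94) (nat_lit 0) (nat_lit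 0) (XT.lf (nat_lit 0) (nat_lit 9182377595) (nat_lit 84) (nat_lit 6152357434) (nat_lit 168) (nat_lit 6526162141) (nat_lit 9) (nat_lit 5) (nat_lit 10) (nat_lit 5) (nat_lit 11) (nat_lit 4) (nat_lit 375) (nat_lit 279) (nat_lit 234)) (XT.nd (nat_lit 94) (nat_lit 0) (nat_lit 0) (XT.lf (nat_lit 0) (nat_lit 12934197474) (nat_lit 84) (nat_lit 4358018073) (nat_lit 168) (nat_lit 5161676046) (nat_lit 9) (nat_lit 5) (nat_lit 10) (nat_lit 5) (nat_lit 11) (nat_lit 4) (nat_lit 376) (nat_lit 279) (nat_lit 233)) (XT.lf (nat_lit 0) (nat_lit 16767727756) (nat_lit 84) (nat_lit 2518886337) (nat_lit 168) (nat_lit 3779504867) (nat_lit 9) (nat_lit 5) (nat_lit 10) (nat_lit 5) (nat_lit 11) (nat_lit 4) (nat_lit 377) (nat_lit 279) (nat_lit 232)))) (XT.nd (nat_lit 188) (nat_lit 84) (nat_lit 0) (XT.nd (nat_lit 94) (nat_lit 168) (nat_lit 0) (XT.lf (nat_lit 0) (nat_lit 20686541692) (nat_lit 84) (nat_lit 633247963)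 (nat_lit 168) (nat_lit 2378360278) (nat_lit 9) (nat_lit 5) (nat_lit 10) (nat_lit 5) (nat_lit 11) (nat_lit 4) (nat_lit 378) (nat_lit 279) (nat_lit 231)) (XT.lf (nat_lit 0) (nat_lit 337617992) (nat_lit 168) (nat_lit 23072271241) (nat_lit 168) (nat_lit 940180588) (nat_lit 7) (nat_lit 4) (nat_lit 9) (nat_lit 5) (nat_lit 9) (nat_lit 4) (nat_lit 379) (nat_lit 279) (nat_lit 230))) (XT.nd (nat_lit 94) (nat_lit 0) (nat_lit 0) (XT.lf (nat_lit 0) (nat_lit 547447853) (nat_lit 252) (nat_lit 21212361275) (nat_lit 84) (nat_lit 3261833931) (nat_lit 6) (nat_lit 5) (nat_lit 9) (nat_lit 5) (nat_lit 7) (nat_lit 4) (nat_lit 380) (nat_lit 279) (nat_lit 229)) (XT.lf (nat_lit 0) (nat_lit 2039901480) (nat_lit 252) (nat_lit 18367548012) (nat_lit 84) (nat_lit 5307059472) (nat_lit 6) (nat_lit 5) (nat_lit 9) (nat_lit 5) (nat_lit 7) (nat_lit 4) (nat_lit 381) (nat_lit 279) (nat_lit 228))))))) (XT.nd (nat_lit 1222)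 (nat_lit 168) (nat_lit 0) (XT.nd (nat_lit 564) (nat_lit 84) (nat_lit 0) (XT.nd (nat_lit 282) (nat_lit 0) (nat_lit 0) (XT.nd (nat_lit 94) (nat_lit 0) (nat_lit 0) (XT.lf (nat_lit 0) (nat_lit 3557513957) (nat_lit 252) (nat_lit 15466033669) (nat_lit 84) (nat_lit 7406054860) (nat_lit 6) (nat_lit 5) (nat_lit 9) (nat_lit 5) (nat_lit 7) (nat_lit 4) (nat_lit 382) (nat_lit 279) (nat_lit 227)) (XT.nd (nat_lit 94) (nat_lit 0) (nat_lit 0) (XT.lf (nat_lit 0) (nat_lit 5101699859) (nat_lit 252) (nat_lit 12505113729) (nat_lit 84) (nat_lit 9560776579) (nat_lit 6) (nat_lit 5) (nat_lit 9) (nat_lit 5) (nat_lit 7) (nat_lit 4) (nat_lit 383) (nat_lit 279) (nat_lit 226)) (XT.lf (nat_lit 0) (nat_lit 6673898528) (nat_lit 252) (nat_lit 9482028307) (nat_lit 84) (nat_lit 11773233055) (nat_lit 6) (nat_lit 5) (nat_lit 9) (nat_lit 5) (nat_lit 7) (nat_lit 4) (nat_lit 384) (nat_lit 279) (nat_lit 225)))) (XT.nd (nat_lit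 94) (nat_lit 0) (nat_lit 0) (XT.lf (nat_lit 0) (nat_lit 8275575419) (nat_lit 252) (nat_lit 6393959569) (nat_lit 84) (nat_lit 14045486530) (nat_lit 6) (nat_lit 5) (nat_lit 9) (nat_lit 5) (nat_lit 7) (nat_lit 4) (nat_lit 385) (nat_lit 279) (nat_lit 224)) (XT.nd (nat_lit 94) (nat_lit 0) (nat_lit 0) (XT.lf (nat_lit 0) (nat_lit 9908223462) (nat_lit 252) (nat_lit 3238029111) (nat_lit 84) (nat_lit 16379654981) (nat_lit 6) (nat_lit 5) (nat_lit 9) (nat_lit 5) (nat_lit 7) (nat_lit 4) (nat_lit 386) (nat_lit 279) (nat_lit 223)) (XT.lf (nat_lit 0) (nat_lit 11573364456) (nat_lit 252) (nat_lit 11295277) (nat_lit 84) (nat_lit 18777914098) (nat_lit 6) (nat_lit 5) (nat_lit 9) (nat_lit 5) (nat_lit 7) (nat_lit 4) (nat_lit 387) (nat_lit 279) (nat_lit 222))))) (XT.nd (nat_lit 282) (nat_lit 0) (nat_lit 0) (XT.nd (nat_lit 94) (nat_lit 0) (nat_lit 0) (XT.lf (nat_lit 0) (nat_lit 3356883305) (nat_lit 84) (nat_lit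 9948967879) (nat_lit 168) (nat_lit 17918916703) (nat_lit 5) (nat_lit 5) (nat_lit 6) (nat_lit 5) (nat_lit 7) (nat_lit 4) (nat_lit 388) (nat_lit 279) (nat_lit 221)) (XT.nd (nat_lit 94) (nat_lit 0) (nat_lit 0) (XT.lf (nat_lit 0) (nat_lit 6803762591) (nat_lit 84) (nat_lit 8271096950) (nat_lit 168) (nat_lit 17039439445) (nat_lit 5) (nat_lit 5) (nat_lit 6) (nat_lit 5) (nat_lit 7) (nat_lit 4) (nat_lit 389) (nat_lit 279) (nat_lit 220)) (XT.lf (nat_lit 0) (nat_lit 10332323178) (nat_lit 84) (nat_lit 6549600894) (nat_lit 168) (nat_lit 16150075737) (nat_lit 5) (nat_lit 5) (nat_lit 6) (nat_lit 5) (nat_lit 7) (nat_lit 4) (nat_lit 390) (nat_lit 279) (nat_lit 219)))) (XT.nd (nat_lit 188) (nat_lit 0) (nat_lit 0) (XT.nd (nat_lit 94) (nat_lit 0) (nat_lit 0) (XT.lf (nat_lit 0) (nat_lit 13945854054) (nat_lit 84) (nat_lit 4782875095) (nat_lit 168) (nat_lit 15249996598) (nat_lit 5) (nat_lit 5) (nat_lit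 6) (nat_lit 5) (nat_lit 7) (nat_lit 4) (nat_lit 391) (nat_lit 279) (nat_lit 218)) (XT.lf (nat_lit 0) (nat_lit 17647723409) (nat_lit 84) (nat_lit 2969272782) (nat_lit 168) (nat_lit 14338363060) (nat_lit 5) (nat_lit 5) (nat_lit 6) (nat_lit 5) (nat_lit 7) (nat_lit 4) (nat_lit 392) (nat_lit 279) (nat_lit 217))) (XT.nd (nat_lit 94) (nat_lit 0) (nat_lit 0) (XT.lf (nat_lit 0) (nat_lit 21441381774) (nat_lit 84) (nat_lit 1107103485) (nat_lit 168) (nat_lit 13414325385) (nat_lit 5) (nat_lit 5) (nat_lit 6) (nat_lit 5) (nat_lit 7) (nat_lit 4) (nat_lit 393) (nat_lit 279) (nat_lit 216)) (XT.lf (nat_lit 0) (nat_lit 24532986059) (nat_lit 168) (nat_lit 11679643099) (nat_lit 0) (nat_lit 789142149) (nat_lit 5) (nat_lit 5) (nat_lit 7) (nat_lit 4) (nat_lit 5) (nat_lit 4) (nat_lit 394) (nat_lit 279) (nat_lit 215)))))) (XT.nd (nat_lit 564) (nat_lit 84) (nat_lit 0) (XT.nd (nat_lit 282) (nat_lit 84) (nat_lit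 0) (XT.nd (nat_lit 94) (nat_lit 0) (nat_lit 0) (XT.lf (nat_lit 0) (nat_lit 26575850846) (nat_lit 168) (nat_lit 8783132179) (nat_lit 0) (nat_lit 2714118056) (nat_lit 5) (nat_lit 5) (nat_lit 7) (nat_lit 4) (nat_lit 5) (nat_lit 4) (nat_lit 395) (nat_lit 279) (nat_lit 214)) (XT.nd (nat_lit 94) (nat_lit 0) (nat_lit 0) (XT.lf (nat_lit 0) (nat_lit 28668001183) (nat_lit 168) (nat_lit 5818213655) (nat_lit 0) (nat_lit 4691924183) (nat_lit 5) (nat_lit 5) (nat_lit 7) (nat_lit 4) (nat_lit 5) (nat_lit 4) (nat_lit 396) (nat_lit 279) (nat_lit 213)) (XT.lf (nat_lit 0) (nat_lit 30811387172) (nat_lit 168) (nat_lit 2782123913) (nat_lit 0) (nat_lit 6724404051) (nat_lit 5) (nat_lit 5) (nat_lit 7) (nat_lit 4) (nat_lit 5) (nat_lit 4) (nat_lit 397) (nat_lit 279) (nat_lit 212)))) (XT.nd (nat_lit 94) (nat_lit 0) (nat_lit 0) (XT.lf (nat_lit 0) (nat_lit 334710675) (nat_lit 84) (nat_lit 32676616370) (nat_lit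 84) (nat_lit 8482061842) (nat_lit 4) (nat_lit 4) (nat_lit 5) (nat_lit 5) (nat_lit 5) (nat_lit 4) (nat_lit 398) (nat_lit 279) (nat_lit 211)) (XT.nd (nat_lit 94) (nat_lit 0) (nat_lit 0) (XT.lf (nat_lit 0) (nat_lit 3587232763) (nat_lit 84) (nat_lit 31708260197) (nat_lit 84) (nat_lit 7409368708) (nat_lit 4) (nat_lit 4) (nat_lit 5) (nat_lit 5) (nat_lit 5) (nat_lit 4) (nat_lit 399) (nat_lit 279) (nat_lit 210)) (XT.lf (nat_lit 0) (nat_lit 6921267869) (nat_lit 84) (nat_lit 30716579624) (nat_lit 84) (nat_lit 6316488367) (nat_lit 4) (nat_lit 4) (nat_lit 5) (nat_lit 5) (nat_lit 5) (nat_lit 4) (nat_lit 400) (nat_lit 279) (nat_lit 209))))) (XT.nd (nat_lit 282) (nat_lit 84) (nat_lit 0) (XT.nd (nat_lit 94) (nat_lit 0) (nat_lit 0) (XT.lf (nat_lit 0) (nat_lit 10339923663) (nat_lit 84) (nat_lit 29700650302) (nat_lit 84) (nat_lit 5202402141) (nat_lit 4) (nat_lit 4) (nat_lit 5) (nat_lit 5) (nat_lit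 5) (nat_lit 4) (nat_lit 401) (nat_lit 279) (nat_lit 208)) (XT.nd (nat_lit 94) (nat_lit 0) (nat_lit 0) (XT.lf (nat_lit 0) (nat_lit 13846386690) (nat_lit 84) (nat_lit 28659525278) (nat_lit 84) (nat_lit 4066071584) (nat_lit 4) (nat_lit 4) (nat_lit 5) (nat_lit 5) (nat_lit 5) (nat_lit 4) (nat_lit 402) (nat_lit 279) (nat_lit 207)) (XT.lf (nat_lit 0) (nat_lit 17443925340) (nat_lit 84) (nat_lit 27592234114) (nat_lit 84) (nat_lit 2906437518) (nat_lit 4) (nat_lit 4) (nat_lit 5) (nat_lit 5) (nat_lit 5) (nat_lit 4) (nat_lit 403) (nat_lit 279) (nat_lit 206)))) (XT.nd (nat_lit 188) (nat_lit 84) (nat_lit 0) (XT.nd (nat_lit 94) (nat_lit 0) (nat_lit 0) (XT.lf (nat_lit 0) (nat_lit 21135892897) (nat_lit 84) (nat_lit 26497781984) (nat_lit 84) (nat_lit 1722419041) (nat_lit 4) (nat_lit 4) (nat_lit 5) (nat_lit 5) (nat_lit 5) (nat_lit 4) (nat_lit 404) (nat_lit 279) (nat_lit 205)) (XT.lf (nat_lit 0) (nat_lit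 24925730662) (nat_lit 84) (nat_lit 25375148742) (nat_lit 84) (nat_lit 512912526) (nat_lit 4) (nat_lit 4) (nat_lit 5) (nat_lit 5) (nat_lit 5) (nat_lit 4) (nat_lit 405) (nat_lit 279) (nat_lit 204))) (XT.nd (nat_lit 94) (nat_lit 0) (nat_lit 0) (XT.lf (nat_lit 0) (nat_lit 708638357) (nat_lit 168) (nat_lit 23507252889) (nat_lit 84) (nat_lit 28100936070) (nat_lit 3) (nat_lit 5) (nat_lit 5) (nat_lit 5) (nat_lit 4) (nat_lit 4) (nat_lit 406) (nat_lit 279) (nat_lit 203)) (XT.lf (nat_lit 0) (nat_lit 1947063363) (nat_lit 168) (nat_lit 21073739326) (nat_lit 84) (nat_lit 30845854722) (nat_lit 3) (nat_lit 5) (nat_lit 5) (nat_lit 5) (nat_lit 4) (nat_lit 4) (nat_lit 407) (nat_lit 279) (nat_lit 202))))))))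
noncomputable def xc48 : XT := (XT.nd (nat_lit 48222) (nat_lit 0) (nat_lit 1512) (XT.nd (nat_lit 1128) (nat_lit 0) (nat_lit 0) (XT.nd (nat_lit 564) (nat_lit 84) (nat_lit 0) (XT.nd (nat_lit 282) (nat_lit 0) (nat_lit 0) (XT.nd (nat_lit 94) (nat_lit 0) (nat_lit 0) (XT.lf (nat_lit 0) (nat_lit 3213850875) (nat_lit 168) (nat_lit 18580164132) (nat_lit 84) (nat_lit 33670869539) (nat_lit 3) (nat_lit 5) (nat_lit 5) (nat_lit 5) (nat_lit 4) (nat_lit 4) (nat_lit 408) (nat_lit 279) (nat_lit 201)) (XT.nd (nat_lit 94) (nat_lit 0) (nat_lit 0) (XT.lf (nat_lit 0) (nat_lit 4510181674) (nat_lit 168) (nat_lit 16024203035) (nat_lit 84) (nat_lit 36578613731) (nat_lit 3) (nat_lit 5) (nat_lit 5) (nat_lit 5) (nat_lit 4) (nat_lit 4) (nat_lit 409) (nat_lit 279) (nat_lit 200)) (XT.lf (nat_lit 0) (nat_lit 5837264074) (nat_lit 168) (nat_lit 13403473611) (nat_lit 84) (nat_lit 39571797621) (nat_lit 3) (nat_lit 5)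 (nat_lit 5) (nat_lit 5) (nat_lit 4) (nat_lit 4) (nat_lit 410) (nat_lit 279) (nat_lit 199)))) (XT.nd (nat_lit 94) (nat_lit 0) (nat_lit 0) (XT.lf (nat_lit 0) (nat_lit 7196335057) (nat_lit 168) (nat_lit 10715533065) (nat_lit 84) (nat_lit 42653211169) (nat_lit 3) (nat_lit 5) (nat_lit 5) (nat_lit 5) (nat_lit 4) (nat_lit 4) (nat_lit 411) (nat_lit 279) (nat_lit 198)) (XT.nd (nat_lit 94) (nat_lit 0) (nat_lit 0) (XT.lf (nat_lit 0) (nat_lit 8588661418) (nat_lit 168) (nat_lit 7957875957) (nat_lit 84) (nat_lit 45825726576) (nat_lit 3) (nat_lit 5) (nat_lit 5) (nat_lit 5) (nat_lit 4) (nat_lit 4) (nat_lit 412) (nat_lit 279) (nat_lit 197)) (XT.lf (nat_lit 0) (nat_lit 10015540952) (nat_lit 168) (nat_lit 5127931859) (nat_lit 84) (nat_lit 49092300957) (nat_lit 3) (nat_lit 5) (nat_lit 5) (nat_lit 5) (nat_lit 4) (nat_lit 4) (nat_lit 413) (nat_lit 279) (nat_lit 196))))) (XT.nd (nat_lit 282) (nat_lit 0)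 (nat_lit 0) (XT.nd (nat_lit 94) (nat_lit 84) (nat_lit 0) (XT.lf (nat_lit 0) (nat_lit 11478303659) (nat_lit 168) (nat_lit 2223062969) (nat_lit 84) (nat_lit 52455979104) (nat_lit 3) (nat_lit 5) (nat_lit 5) (nat_lit 5) (nat_lit 4) (nat_lit 4) (nat_lit 414) (nat_lit 279) (nat_lit 195)) (XT.nd (nat_lit 94) (nat_lit 0) (nat_lit 0) (XT.lf (nat_lit 0) (nat_lit 775053965) (nat_lit 84) (nat_lit 12210947654) (nat_lit 168) (nat_lit 55152530981) (nat_lit 2) (nat_lit 5) (nat_lit 3) (nat_lit 5) (nat_lit 4) (nat_lit 4) (nat_lit 415) (nat_lit 279) (nat_lit 194)) (XT.lf (nat_lit 0) (nat_lit 3900947518) (nat_lit 84) (nat_lit 10654717469) (nat_lit 168) (nat_lit 55625031689) (nat_lit 2) (nat_lit 5) (nat_lit 3) (nat_lit 5) (nat_lit 4) (nat_lit 4) (nat_lit 416) (nat_lit 279) (nat_lit 193)))) (XT.nd (nat_lit 94) (nat_lit 0) (nat_lit 0) (XT.lf (nat_lit 0) (nat_lit 7111820615) (nat_lit 84) (nat_lit 9054429722)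 (nat_lit 168) (nat_lit 56120188837) (nat_lit 2) (nat_lit 5) (nat_lit 3) (nat_lit 5) (nat_lit 4) (nat_lit 4) (nat_lit 417) (nat_lit 279) (nat_lit 192)) (XT.nd (nat_lit 94) (nat_lit 0) (nat_lit 0) (XT.lf (nat_lit 0) (nat_lit 10410666125) (nat_lit 84) (nat_lit 7408592777) (nat_lit 168) (nat_lit 56638463962) (nat_lit 2) (nat_lit 5) (nat_lit 3) (nat_lit 5) (nat_lit 4) (nat_lit 4) (nat_lit 418) (nat_lit 279) (nat_lit 191)) (XT.lf (nat_lit 0) (nat_lit 13800558919) (nat_lit 84) (nat_lit 5715672543) (nat_lit 168) (nat_lit 57180340151) (nat_lit 2) (nat_lit 5) (nat_lit 3) (nat_lit 5) (nat_lit 4) (nat_lit 4) (nat_lit 419) (nat_lit 279) (nat_lit 190)))))) (XT.nd (nat_lit 564) (nat_lit 0) (nat_lit 0) (XT.nd (nat_lit 282) (nat_lit 0) (nat_lit 0) (XT.nd (nat_lit 94) (nat_lit 0) (nat_lit 0) (XT.lf (nat_lit 0) (nat_lit 17284658731) (nat_lit 84) (nat_lit 3974091040) (nat_lit 168) (nat_lit 57746322491)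 (nat_lit 2) (nat_lit 5) (nat_lit 3) (nat_lit 5) (nat_lit 4) (nat_lit 4) (nat_lit 420) (nat_lit 279) (nat_lit 189)) (XT.nd (nat_lit 94) (nat_lit 0) (nat_lit 0) (XT.lf (nat_lit 0) (nat_lit 20866213108) (nat_lit 84) (nat_lit 2182224931) (nat_lit 168) (nat_lit 58336938534) (nat_lit 2) (nat_lit 5) (nat_lit 3) (nat_lit 5) (nat_lit 4) (nat_lit 4) (nat_lit 421) (nat_lit 279) (nat_lit 188)) (XT.lf (nat_lit 0) (nat_lit 24548560433) (nat_lit 84) (nat_lit 338404011) (nat_lit 168) (nat_lit 58952738798) (nat_lit 2) (nat_lit 5) (nat_lit 3) (nat_lit 5) (nat_lit 4) (nat_lit 4) (nat_lit 422) (nat_lit 279) (nat_lit 187)))) (XT.nd (nat_lit 94) (nat_lit 0) (nat_lit 0) (XT.lf (nat_lit 0) (nat_lit 26791509053) (nat_lit 168) (nat_lit 58050673287) (nat_lit 0) (nat_lit 1527678159) (nat_lit 2) (nat_lit 5) (nat_lit 4) (nat_lit 4) (nat_lit 2) (nat_lit 4) (nat_lit 423) (nat_lit 279) (nat_lit 186)) (XT.nd (nat_lit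 94) (nat_lit 0) (nat_lit 0) (XT.lf (nat_lit 0) (nat_lit 28752273319) (nat_lit 168) (nat_lit 56785024867) (nat_lit 0) (nat_lit 3441267319) (nat_lit 2) (nat_lit 5) (nat_lit 4) (nat_lit 4) (nat_lit 2) (nat_lit 4) (nat_lit 424) (nat_lit 279) (nat_lit 185)) (XT.lf (nat_lit 0) (nat_lit 30767727868) (nat_lit 168) (nat_lit 55489660823) (nat_lit 0) (nat_lit 5410965218) (nat_lit 2) (nat_lit 5) (nat_lit 4) (nat_lit 4) (nat_lit 2) (nat_lit 4) (nat_lit 425) (nat_lit 279) (nat_lit 184))))) (XT.nd (nat_lit 282) (nat_lit 0) (nat_lit 0) (XT.nd (nat_lit 94) (nat_lit 0) (nat_lit 0) (XT.lf (nat_lit 0) (nat_lit 32839751317) (nat_lit 168) (nat_lit 54163373741) (nat_lit 0) (nat_lit 7438607824) (nat_lit 2) (nat_lit 5) (nat_lit 4) (nat_lit 4) (nat_lit 2) (nat_lit 4) (nat_lit 426) (nat_lit 279) (nat_lit 183)) (XT.nd (nat_lit 94) (nat_lit 0) (nat_lit 0) (XT.lf (nat_lit 0) (nat_lit 34970275009) (nat_lit 168)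 (nat_lit 52804927381) (nat_lit 0) (nat_lit 9526085110) (nat_lit 2) (nat_lit 5) (nat_lit 4) (nat_lit 4) (nat_lit 2) (nat_lit 4) (nat_lit 427) (nat_lit 279) (nat_lit 182)) (XT.lf (nat_lit 0) (nat_lit 37161284813) (nat_lit 168) (nat_lit 51413055530) (nat_lit 0) (nat_lit 11675342824) (nat_lit 2) (nat_lit 5) (nat_lit 4) (nat_lit 4) (nat_lit 2) (nat_lit 4) (nat_lit 428) (nat_lit 279) (nat_lit 181)))) (XT.nd (nat_lit 188) (nat_lit 0) (nat_lit 0) (XT.nd (nat_lit 94) (nat_lit 0) (nat_lit 0) (XT.lf (nat_lit 0) (nat_lit 39414822981) (nat_lit 168) (nat_lit 49986460817) (nat_lit 0) (nat_lit 13888384299) (nat_lit 2) (nat_lit 5) (nat_lit 4) (nat_lit 4) (nat_lit 2) (nat_lit 4) (nat_lit 429) (nat_lit 279) (nat_lit 180)) (XT.lf (nat_lit 0) (nat_lit 41732990048) (nat_lit 168) (nat_lit 48523813507) (nat_lit 0) (nat_lit 16167272322) (nat_lit 2) (nat_lit 5) (nat_lit 4) (nat_lit 4) (nat_lit 2) (nat_lit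 4) (nat_lit 430) (nat_lit 279) (nat_lit 179))) (XT.nd (nat_lit 94) (nat_lit 0) (nat_lit 0) (XT.lf (nat_lit 0) (nat_lit 44117946786) (nat_lit 168) (nat_lit 47023750258) (nat_lit 0) (nat_lit 18514131056) (nat_lit 2) (nat_lit 5) (nat_lit 4) (nat_lit 4) (nat_lit 2) (nat_lit 4) (nat_lit 431) (nat_lit 279) (nat_lit 178)) (XT.lf (nat_lit 0) (nat_lit 46571916226) (nat_lit 168) (nat_lit 45484872855) (nat_lit 0) (nat_lit 20931148019) (nat_lit 2) (nat_lit 5) (nat_lit 4) (nat_lit 4) (nat_lit 2) (nat_lit 4) (nat_lit 432) (nat_lit 279) (nat_lit 177))))))) (XT.nd (nat_lit 1222) (nat_lit 1176) (nat_lit 0) (XT.nd (nat_lit 564) (nat_lit 1260) (nat_lit 0) (XT.nd (nat_lit 282) (nat_lit 840) (nat_lit 0) (XT.nd (nat_lit 94) (nat_lit 504) (nat_lit 0) (XT.lf (nat_lit 0) (nat_lit 3538025975) (nat_lit 504) (nat_lit 231378054) (nat_lit 504) (nat_lit 231378054) (nat_lit 65) (nat_lit 4) (nat_lit 71) (nat_lit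 5) (nat_lit 71) (nat_lit 4) (nat_lit 328) (nat_lit 280) (nat_lit 280)) (XT.nd (nat_lit 94) (nat_lit 0) (nat_lit 0) (XT.lf (nat_lit 0) (nat_lit 1943148671) (nat_lit 504) (nat_lit 5319906357) (nat_lit 0) (nat_lit 848296687) (nat_lit 59) (nat_lit 5) (nat_lit 65) (nat_lit 4) (nat_lit 59) (nat_lit 4) (nat_lit 329) (nat_lit 280) (nat_lit 279)) (XT.lf (nat_lit 0) (nat_lit 4357637436) (nat_lit 504) (nat_lit 1668225235) (nat_lit 0) (nat_lit 2200853362) (nat_lit 59) (nat_lit 5) (nat_lit 65) (nat_lit 4) (nat_lit 59) (nat_lit 4) (nat_lit 330) (nat_lit 280) (nat_lit 278)))) (XT.nd (nat_lit 94) (nat_lit 420) (nat_lit 0) (XT.lf (nat_lit 0) (nat_lit 2062889483) (nat_lit 420) (nat_lit 4735802470) (nat_lit 420) (nat_lit 1549016369) (nat_lit 54) (nat_lit 4) (nat_lit 59) (nat_lit 5) (nat_lit 59) (nat_lit 4) (nat_lit 331) (nat_lit 280) (nat_lit 277)) (XT.nd (nat_lit 94) (nat_lit 336) (nat_lit 0) (XT.lf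 (nat_lit 0) (nat_lit 774937740) (nat_lit 504) (nat_lit 2611919582) (nat_lit 84) (nat_lit 5087439272) (nat_lit 53) (nat_lit 5) (nat_lit 59) (nat_lit 5) (nat_lit 54) (nat_lit 4) (nat_lit 332) (nat_lit 280) (nat_lit 276)) (XT.lf (nat_lit 0) (nat_lit 1107100793) (nat_lit 336) (nat_lit 1976066203) (nat_lit 420) (nat_lit 5523380622) (nat_lit 49) (nat_lit 5) (nat_lit 53) (nat_lit 5) (nat_lit 54) (nat_lit 4) (nat_lit 333) (nat_lit 280) (nat_lit 275))))) (XT.nd (nat_lit 282) (nat_lit 756) (nat_lit 0) (XT.nd (nat_lit 94) (nat_lit 504) (nat_lit 0) (XT.lf (nat_lit 0) (nat_lit 4923331768) (nat_lit 336) (nat_lit 501582461) (nat_lit 420) (nat_lit 3319654451) (nat_lit 49) (nat_lit 5) (nat_lit 53) (nat_lit 5) (nat_lit 54) (nat_lit 4) (nat_lit 334) (nat_lit 280) (nat_lit 274)) (XT.nd (nat_lit 94) (nat_lit 504) (nat_lit 0) (XT.lf (nat_lit 0) (nat_lit 7785945176) (nat_lit 420) (nat_lit 112710447) (nat_lit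 0) (nat_lit 990341735) (nat_lit 49) (nat_lit 5) (nat_lit 54) (nat_lit 4) (nat_lit 49) (nat_lit 4) (nat_lit 335) (nat_lit 280) (nat_lit 273)) (XT.lf (nat_lit 0) (nat_lit 1138206940) (nat_lit 504) (nat_lit 5341507741) (nat_lit 84) (nat_lit 2558900564) (nat_lit 43) (nat_lit 5) (nat_lit 49) (nat_lit 5) (nat_lit 44) (nat_lit 4) (nat_lit 336) (nat_lit 280) (nat_lit 272)))) (XT.nd (nat_lit 188) (nat_lit 420) (nat_lit 0) (XT.nd (nat_lit 94) (nat_lit 336) (nat_lit 0) (XT.lf (nat_lit 0) (nat_lit 3365804139) (nat_lit 504) (nat_lit 1649074122) (nat_lit 84) (nat_lit 4179945012) (nat_lit 43) (nat_lit 5) (nat_lit 49) (nat_lit 5) (nat_lit 44) (nat_lit 4) (nat_lit 337) (nat_lit 280) (nat_lit 271)) (XT.lf (nat_lit 0) (nat_lit 2130562013) (nat_lit 336) (nat_lit 3493460473) (nat_lit 420) (nat_lit 3733464312) (nat_lit 39) (nat_lit 5) (nat_lit 43) (nat_lit 5) (nat_lit 44) (nat_lit 4) (nat_lit 338) (nat_lit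 280) (nat_lit 270))) (XT.nd (nat_lit 94) (nat_lit 420) (nat_lit 0) (XT.lf (nat_lit 0) (nat_lit 5992847975) (nat_lit 336) (nat_lit 1918142680) (nat_lit 420) (nat_lit 1615890044) (nat_lit 39) (nat_lit 5) (nat_lit 43) (nat_lit 5) (nat_lit 44) (nat_lit 4) (nat_lit 339) (nat_lit 280) (nat_lit 269)) (XT.lf (nat_lit 0) (nat_lit 202837739) (nat_lit 336) (nat_lit 297394525) (nat_lit 420) (nat_lit 9203229422) (nat_lit 34) (nat_lit 5) (nat_lit 38) (nat_lit 5) (nat_lit 39) (nat_lit 5) (nat_lit 340) (nat_lit 280) (nat_lit 268)))))) (XT.nd (nat_lit 564) (nat_lit 588) (nat_lit 0) (XT.nd (nat_lit 282) (nat_lit 336) (nat_lit 0) (XT.nd (nat_lit 94) (nat_lit 252) (nat_lit 0) (XT.lf (nat_lit 0) (nat_lit 2642543220) (nat_lit 420) (nat_lit 5854707366) (nat_lit 84) (nat_lit 1388308090) (nat_lit 34) (nat_lit 5) (nat_lit 39) (nat_lit 5) (nat_lit 35) (nat_lit 4) (nat_lit 341) (nat_lit 280) (nat_lit 267))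 (XT.nd (nat_lit 94) (nat_lit 252) (nat_lit 0) (XT.lf (nat_lit 0) (nat_lit 4799276531) (nat_lit 420) (nat_lit 2166970756) (nat_lit 84) (nat_lit 3109026953) (nat_lit 34) (nat_lit 5) (nat_lit 39) (nat_lit 5) (nat_lit 35) (nat_lit 4) (nat_lit 342) (nat_lit 280) (nat_lit 266)) (XT.lf (nat_lit 0) (nat_lit 1601234739) (nat_lit 252) (nat_lit 5384142017) (nat_lit 336) (nat_lit 3287007495) (nat_lit 31) (nat_lit 5) (nat_lit 34) (nat_lit 5) (nat_lit 35) (nat_lit 4) (nat_lit 343) (nat_lit 280) (nat_lit 265)))) (XT.nd (nat_lit 94) (nat_lit 336) (nat_lit 0) (XT.lf (nat_lit 0) (nat_lit 5466750316) (nat_lit 252) (nat_lit 3742693947) (nat_lit 336) (nat_lit 1267424729) (nat_lit 31) (nat_lit 5) (nat_lit 34) (nat_lit 5) (nat_lit 35) (nat_lit 4) (nat_lit 344) (nat_lit 280) (nat_lit 264)) (XT.nd (nat_lit 94) (nat_lit 252) (nat_lit 0) (XT.lf (nat_lit 0) (nat_lit 746661428) (nat_lit 336) (nat_lit 1308536765)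 (nat_lit 84) (nat_lit 8634166631) (nat_lit 30) (nat_lit 5) (nat_lit 34) (nat_lit 5) (nat_lit 31) (nat_lit 5) (nat_lit 345) (nat_lit 280) (nat_lit 263)) (XT.lf (nat_lit 0) (nat_lit 2481928585) (nat_lit 252) (nat_lit 289415494) (nat_lit 336) (nat_lit 8137803665) (nat_lit 27) (nat_lit 5) (nat_lit 30) (nat_lit 5) (nat_lit 31) (nat_lit 5) (nat_lit 346) (nat_lit 280) (nat_lit 262))))) (XT.nd (nat_lit 282) (nat_lit 336) (nat_lit 0) (XT.nd (nat_lit 94) (nat_lit 252) (nat_lit 0) (XT.lf (nat_lit 0) (nat_lit 4838405419) (nat_lit 336) (nat_lit 4796980259) (nat_lit 84) (nat_lit 1501291562) (nat_lit 27) (nat_lit 5) (nat_lit 31) (nat_lit 5) (nat_lit 28) (nat_lit 4) (nat_lit 347) (nat_lit 280) (nat_lit 261)) (XT.nd (nat_lit 94) (nat_lit 252) (nat_lit 0) (XT.lf (nat_lit 0) (nat_lit 6924616879) (nat_lit 336) (nat_lit 1119210482) (nat_lit 84) (nat_lit 3329117848) (nat_lit 27) (nat_lit 5) (nat_lit 31)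 (nat_lit 5) (nat_lit 28) (nat_lit 4) (nat_lit 348) (nat_lit 280) (nat_lit 260)) (XT.lf (nat_lit 0) (nat_lit 2666105357) (nat_lit 252) (nat_lit 6389394728) (nat_lit 336) (nat_lit 2561940902) (nat_lit 24) (nat_lit 5) (nat_lit 27) (nat_lit 5) (nat_lit 28) (nat_lit 4) (nat_lit 349) (nat_lit 280) (nat_lit 259)))) (XT.nd (nat_lit 188) (nat_lit 252) (nat_lit 0) (XT.nd (nat_lit 94) (nat_lit 84) (nat_lit 0) (XT.lf (nat_lit 0) (nat_lit 6532921057) (nat_lit 252) (nat_lit 4685558634) (nat_lit 336) (nat_lit 652364187) (nat_lit 24) (nat_lit 5) (nat_lit 27) (nat_lit 5) (nat_lit 28) (nat_lit 4) (nat_lit 350) (nat_lit 280) (nat_lit 258)) (XT.lf (nat_lit 0) (nat_lit 1244901745) (nat_lit 336) (nat_lit 1684517222) (nat_lit 84) (nat_lit 9203931666) (nat_lit 23) (nat_lit 5) (nat_lit 27) (nat_lit 5) (nat_lit 24) (nat_lit 5) (nat_lit 351) (nat_lit 280) (nat_lit 257))) (XT.nd (nat_lit 94) (nat_lit 0) (nat_lit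 0) (XT.lf (nat_lit 0) (nat_lit 2059780652) (nat_lit 252) (nat_lit 1104452066) (nat_lit 336) (nat_lit 9240525602) (nat_lit 20) (nat_lit 5) (nat_lit 23) (nat_lit 5) (nat_lit 24) (nat_lit 5) (nat_lit 352) (nat_lit 280) (nat_lit 256)) (XT.lf (nat_lit 0) (nat_lit 5125516293) (nat_lit 336) (nat_lit 6794109197) (nat_lit 84) (nat_lit 765741450) (nat_lit 20) (nat_lit 5) (nat_lit 24) (nat_lit 5) (nat_lit 21) (nat_lit 4) (nat_lit 353) (nat_lit 280) (nat_lit 255))))))))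
noncomputable def xc49 : XT := (XT.nd (nat_lit 2350) (nat_lit 420) (nat_lit 0) (XT.nd (nat_lit 1128) (nat_lit 336) (nat_lit 0) (XT.nd (nat_lit 564) (nat_lit 168) (nat_lit 0) (XT.nd (nat_lit 282) (nat_lit 252) (nat_lit 0) (XT.nd (nat_lit 94) (nat_lit 168) (nat_lit 0) (XT.lf (nat_lit 0) (nat_lit 7117170858) (nat_lit 336) (nat_lit 3200762962) (nat_lit 84) (nat_lit 2657919928) (nat_lit 20) (nat_lit 5) (nat_lit 24) (nat_lit 5) (nat_lit 21) (nat_lit 4) (nat_lit 354) (nat_lit 280) (nat_lit 254)) (XT.nd (nat_lit 94) (nat_lit 0) (nat_lit 0) (XT.lf (nat_lit 0) (nat_lit 458606612) (nat_lit 168) (nat_lit 8676039365) (nat_lit 252) (nat_lit 4142042146) (nat_lit 18) (nat_lit 5) (nat_lit 20) (nat_lit 5) (nat_lit 21) (nat_lit 4) (nat_lit 355) (nat_lit 280) (nat_lit 253)) (XT.lf (nat_lit 0) (nat_lit 4245213723) (nat_lit 168) (nat_lit 6963068929) (nat_lit 252) (nat_lit 2378985547) (nat_lit 18) (nat_lit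 5) (nat_lit 20) (nat_lit 5) (nat_lit 21) (nat_lit 4) (nat_lit 356) (nat_lit 280) (nat_lit 252)))) (XT.nd (nat_lit 94) (nat_lit 252) (nat_lit 0) (XT.lf (nat_lit 0) (nat_lit 8096773634) (nat_lit 168) (nat_lit 5210835244) (nat_lit 252) (nat_lit 601279141) (nat_lit 18) (nat_lit 5) (nat_lit 20) (nat_lit 5) (nat_lit 21) (nat_lit 4) (nat_lit 357) (nat_lit 280) (nat_lit 251)) (XT.nd (nat_lit 94) (nat_lit 168) (nat_lit 0) (XT.lf (nat_lit 0) (nat_lit 1168703148) (nat_lit 252) (nat_lit 2236803033) (nat_lit 84) (nat_lit 10835974390) (nat_lit 17) (nat_lit 5) (nat_lit 20) (nat_lit 5) (nat_lit 18) (nat_lit 5) (nat_lit 358) (nat_lit 280) (nat_lit 250)) (XT.lf (nat_lit 0) (nat_lit 1421553254) (nat_lit 168) (nat_lit 1536736519) (nat_lit 252) (nat_lit 11626805632) (nat_lit 15) (nat_lit 5) (nat_lit 17) (nat_lit 5) (nat_lit 18) (nat_lit 5) (nat_lit 359) (nat_lit 280) (nat_lit 249))))) (XT.nd (nat_lit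 282) (nat_lit 168) (nat_lit 0) (XT.nd (nat_lit 94) (nat_lit 0) (nat_lit 0) (XT.lf (nat_lit 0) (nat_lit 4794412446) (nat_lit 252) (nat_lit 9752961019) (nat_lit 84) (nat_lit 392456623) (nat_lit 15) (nat_lit 5) (nat_lit 18) (nat_lit 5) (nat_lit 16) (nat_lit 4) (nat_lit 360) (nat_lit 280) (nat_lit 248)) (XT.nd (nat_lit 94) (nat_lit 0) (nat_lit 0) (XT.lf (nat_lit 0) (nat_lit 6667870409) (nat_lit 252) (nat_lit 6301789866) (nat_lit 84) (nat_lit 2336693275) (nat_lit 15) (nat_lit 5) (nat_lit 18) (nat_lit 5) (nat_lit 16) (nat_lit 4) (nat_lit 361) (nat_lit 280) (nat_lit 247)) (XT.lf (nat_lit 0) (nat_lit 8565165303) (nat_lit 252) (nat_lit 2791567222) (nat_lit 84) (nat_lit 4328747485) (nat_lit 15) (nat_lit 5) (nat_lit 18) (nat_lit 5) (nat_lit 16) (nat_lit 4) (nat_lit 362) (nat_lit 280) (nat_lit 246)))) (XT.nd (nat_lit 94) (nat_lit 0) (nat_lit 0) (XT.lf (nat_lit 0) (nat_lit 797037331) (nat_lit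 168) (nat_lit 9698934983) (nat_lit 252) (nat_lit 5581345433) (nat_lit 13) (nat_lit 5) (nat_lit 15) (nat_lit 5) (nat_lit 16) (nat_lit 4) (nat_lit 363) (nat_lit 280) (nat_lit 245)) (XT.nd (nat_lit 94) (nat_lit 0) (nat_lit 0) (XT.lf (nat_lit 0) (nat_lit 4510045574) (nat_lit 168) (nat_lit 7973058299) (nat_lit 252) (nat_lit 3998476730) (nat_lit 13) (nat_lit 5) (nat_lit 15) (nat_lit 5) (nat_lit 16) (nat_lit 4) (nat_lit 364) (nat_lit 280) (nat_lit 244)) (XT.lf (nat_lit 0) (nat_lit 8293518070) (nat_lit 168) (nat_lit 6206632012) (nat_lit 252) (nat_lit 2399371433) (nat_lit 13) (nat_lit 5) (nat_lit 15) (nat_lit 5) (nat_lit 16) (nat_lit 4) (nat_lit 365) (nat_lit 280) (nat_lit 243)))))) (XT.nd (nat_lit 564) (nat_lit 84) (nat_lit 0) (XT.nd (nat_lit 282) (nat_lit 0) (nat_lit 0) (XT.nd (nat_lit 94) (nat_lit 252) (nat_lit 0) (XT.lf (nat_lit 0) (nat_lit 12150981411) (nat_lit 168) (nat_lit 4398009628)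 (nat_lit 252) (nat_lit 782539011) (nat_lit 13) (nat_lit 5) (nat_lit 15) (nat_lit 5) (nat_lit 16) (nat_lit 4) (nat_lit 366) (nat_lit 280) (nat_lit 242)) (XT.nd (nat_lit 94) (nat_lit 168) (nat_lit 0) (XT.lf (nat_lit 0) (nat_lit 836330915) (nat_lit 252) (nat_lit 1700444825) (nat_lit 84) (nat_lit 15240970664) (nat_lit 12) (nat_lit 5) (nat_lit 15) (nat_lit 5) (nat_lit 13) (nat_lit 5) (nat_lit 367) (nat_lit 280) (nat_lit 241)) (XT.lf (nat_lit 0) (nat_lit 1875852232) (nat_lit 168) (nat_lit 602531796) (nat_lit 252) (nat_lit 15759641292) (nat_lit 10) (nat_lit 5) (nat_lit 12) (nat_lit 5) (nat_lit 13) (nat_lit 5) (nat_lit 368) (nat_lit 280) (nat_lit 240)))) (XT.nd (nat_lit 94) (nat_lit 0) (nat_lit 0) (XT.lf (nat_lit 0) (nat_lit 4174076251) (nat_lit 252) (nat_lit 13168922368) (nat_lit 84) (nat_lit 1369629929) (nat_lit 10) (nat_lit 5) (nat_lit 13) (nat_lit 5) (nat_lit 11) (nat_lit 4) (nat_lit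 369) (nat_lit 280) (nat_lit 239)) (XT.nd (nat_lit 94) (nat_lit 0) (nat_lit 0) (XT.lf (nat_lit 0) (nat_lit 5900368608) (nat_lit 252) (nat_lit 9923556877) (nat_lit 84) (nat_lit 3378836190) (nat_lit 10) (nat_lit 5) (nat_lit 13) (nat_lit 5) (nat_lit 11) (nat_lit 4) (nat_lit 370) (nat_lit 280) (nat_lit 238)) (XT.lf (nat_lit 0) (nat_lit 7652892993) (nat_lit 252) (nat_lit 6617074404) (nat_lit 84) (nat_lit 5439099450) (nat_lit 10) (nat_lit 5) (nat_lit 13) (nat_lit 5) (nat_lit 11) (nat_lit 4) (nat_lit 371) (nat_lit 280) (nat_lit 237))))) (XT.nd (nat_lit 282) (nat_lit 0) (nat_lit 0) (XT.nd (nat_lit 94) (nat_lit 84) (nat_lit 0) (XT.lf (nat_lit 0) (nat_lit 9433282943) (nat_lit 252) (nat_lit 3246392962) (nat_lit 84) (nat_lit 7552340090) (nat_lit 10) (nat_lit 5) (nat_lit 13) (nat_lit 5) (nat_lit 11) (nat_lit 4) (nat_lit 372) (nat_lit 280) (nat_lit 236)) (XT.nd (nat_lit 94) (nat_lit 0) (nat_lit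 0) (XT.lf (nat_lit 0) (nat_lit 195569569) (nat_lit 84) (nat_lit 11049568474) (nat_lit 168) (nat_lit 9526898378) (nat_lit 9) (nat_lit 5) (nat_lit 10) (nat_lit 5) (nat_lit 11) (nat_lit 4) (nat_lit 373) (nat_lit 280) (nat_lit 235)) (XT.lf (nat_lit 0) (nat_lit 3776280550) (nat_lit 84) (nat_lit 9345505719) (nat_lit 168) (nat_lit 8206864395) (nat_lit 9) (nat_lit 5) (nat_lit 10) (nat_lit 5) (nat_lit 11) (nat_lit 4) (nat_lit 374) (nat_lit 280) (nat_lit 234)))) (XT.nd (nat_lit 188) (nat_lit 0) (nat_lit 0) (XT.nd (nat_lit 94) (nat_lit 0) (nat_lit 0) (XT.lf (nat_lit 0) (nat_lit 7432325082) (nat_lit 84) (nat_lit 7599784961) (nat_lit 168) (nat_lit 6871286378) (nat_lit 9) (nat_lit 5) (nat_lit 10) (nat_lit 5) (nat_lit 11) (nat_lit 4) (nat_lit 375) (nat_lit 280) (nat_lit 233)) (XT.lf (nat_lit 0) (nat_lit 11167110981) (nat_lit 84) (nat_lit 5810779005) (nat_lit 168) (nat_lit 5518919429) (nat_lit 9)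 (nat_lit 5) (nat_lit 10) (nat_lit 5) (nat_lit 11) (nat_lit 4) (nat_lit 376) (nat_lit 280) (nat_lit 232))) (XT.nd (nat_lit 94) (nat_lit 0) (nat_lit 0) (XT.lf (nat_lit 0) (nat_lit 14984119458) (nat_lit 84) (nat_lit 3976820310) (nat_lit 168) (nat_lit 4148503000) (nat_lit 9) (nat_lit 5) (nat_lit 10) (nat_lit 5) (nat_lit 11) (nat_lit 4) (nat_lit 377) (nat_lit 280) (nat_lit 231)) (XT.lf (nat_lit 0) (nat_lit 18886908366) (nat_lit 84) (nat_lit 2096199434) (nat_lit 168) (nat_lit 2758759719) (nat_lit 9) (nat_lit 5) (nat_lit 10) (nat_lit 5) (nat_lit 11) (nat_lit 4) (nat_lit 378) (nat_lit 280) (nat_lit 230))))))) (XT.nd (nat_lit 1222) (nat_lit 84) (nat_lit 0) (XT.nd (nat_lit 564) (nat_lit 84) (nat_lit 0) (XT.nd (nat_lit 282) (nat_lit 0) (nat_lit 0) (XT.nd (nat_lit 94) (nat_lit 252) (nat_lit 0) (XT.lf (nat_lit 0) (nat_lit 22879115513) (nat_lit 84) (nat_lit 167163442) (nat_lit 168) (nat_lit 1348394200)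 (nat_lit 9) (nat_lit 5) (nat_lit 10) (nat_lit 5) (nat_lit 11) (nat_lit 4) (nat_lit 379) (nat_lit 280) (nat_lit 229)) (XT.nd (nat_lit 94) (nat_lit 0) (nat_lit 0) (XT.lf (nat_lit 0) (nat_lit 119585275) (nat_lit 252) (nat_lit 23151898502) (nat_lit 84) (nat_lit 1795800177) (nat_lit 6) (nat_lit 5) (nat_lit 9) (nat_lit 5) (nat_lit 7) (nat_lit 4) (nat_lit 380) (nat_lit 280) (nat_lit 228)) (XT.lf (nat_lit 0) (nat_lit 1601646380) (nat_lit 252) (nat_lit 20322588996) (nat_lit 84) (nat_lit 3836283156) (nat_lit 6) (nat_lit 5) (nat_lit 9) (nat_lit 5) (nat_lit 7) (nat_lit 4) (nat_lit 381) (nat_lit 280) (nat_lit 227)))) (XT.nd (nat_lit 94) (nat_lit 0) (nat_lit 0) (XT.lf (nat_lit 0) (nat_lit 3109178816) (nat_lit 252) (nat_lit 17436112244) (nat_lit 84) (nat_lit 5930678580) (nat_lit 6) (nat_lit 5) (nat_lit 9) (nat_lit 5) (nat_lit 7) (nat_lit 4) (nat_lit 382) (nat_lit 280) (nat_lit 226)) (XT.nd (nat_lit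 94) (nat_lit 0) (nat_lit 0) (XT.lf (nat_lit 0) (nat_lit 4643587763) (nat_lit 252) (nat_lit 14489777748) (nat_lit 84) (nat_lit 8080938647) (nat_lit 6) (nat_lit 5) (nat_lit 9) (nat_lit 5) (nat_lit 7) (nat_lit 4) (nat_lit 383) (nat_lit 280) (nat_lit 225)) (XT.lf (nat_lit 0) (nat_lit 6206303450) (nat_lit 252) (nat_lit 11480839215) (nat_lit 84) (nat_lit 10289067623) (nat_lit 6) (nat_lit 5) (nat_lit 9) (nat_lit 5) (nat_lit 7) (nat_lit 4) (nat_lit 384) (nat_lit 280) (nat_lit 224))))) (XT.nd (nat_lit 282) (nat_lit 84) (nat_lit 0) (XT.nd (nat_lit 94) (nat_lit 0) (nat_lit 0) (XT.lf (nat_lit 0) (nat_lit 7798782492) (nat_lit 252) (nat_lit 8406491999) (nat_lit 84) (nat_lit 12557123716) (nat_lit 6) (nat_lit 5) (nat_lit 9) (nat_lit 5) (nat_lit 7) (nat_lit 4) (nat_lit 385) (nat_lit 280) (nat_lit 223)) (XT.nd (nat_lit 94) (nat_lit 0) (nat_lit 0) (XT.lf (nat_lit 0) (nat_lit 9422509246) (nat_lit 252)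 (nat_lit 5263870486) (nat_lit 84) (nat_lit 14887220993) (nat_lit 6) (nat_lit 5) (nat_lit 9) (nat_lit 5) (nat_lit 7) (nat_lit 4) (nat_lit 386) (nat_lit 280) (nat_lit 222)) (XT.lf (nat_lit 0) (nat_lit 11078997195) (nat_lit 252) (nat_lit 2050045425) (nat_lit 84) (nat_lit 17281531347) (nat_lit 6) (nat_lit 5) (nat_lit 9) (nat_lit 5) (nat_lit 7) (nat_lit 4) (nat_lit 387) (nat_lit 280) (nat_lit 221)))) (XT.nd (nat_lit 188) (nat_lit 0) (nat_lit 0) (XT.nd (nat_lit 94) (nat_lit 0) (nat_lit 0) (XT.lf (nat_lit 0) (nat_lit 1263434189) (nat_lit 84) (nat_lit 11518889594) (nat_lit 168) (nat_lit 18491385761) (nat_lit 5) (nat_lit 5) (nat_lit 6) (nat_lit 5) (nat_lit 7) (nat_lit 4) (nat_lit 388) (nat_lit 280) (nat_lit 220)) (XT.lf (nat_lit 0) (nat_lit 4697919602) (nat_lit 84) (nat_lit 9845149079) (nat_lit 168) (nat_lit 17620464557) (nat_lit 5) (nat_lit 5) (nat_lit 6) (nat_lit 5) (nat_lit 7) (nat_lit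 4) (nat_lit 389) (nat_lit 280) (nat_lit 219))) (XT.nd (nat_lit 94) (nat_lit 0) (nat_lit 0) (XT.lf (nat_lit 0) (nat_lit 8214458973) (nat_lit 84) (nat_lit 8127659244) (nat_lit 168) (nat_lit 16739399639) (nat_lit 5) (nat_lit 5) (nat_lit 6) (nat_lit 5) (nat_lit 7) (nat_lit 4) (nat_lit 390) (nat_lit 280) (nat_lit 218)) (XT.lf (nat_lit 0) (nat_lit 11816330087) (nat_lit 84) (nat_lit 6364819209) (nat_lit 168) (nat_lit 15847369764) (nat_lit 5) (nat_lit 5) (nat_lit 6) (nat_lit 5) (nat_lit 7) (nat_lit 4) (nat_lit 391) (nat_lit 280) (nat_lit 217)))))) (XT.nd (nat_lit 564) (nat_lit 84) (nat_lit 0) (XT.nd (nat_lit 282) (nat_lit 0) (nat_lit 0) (XT.nd (nat_lit 94) (nat_lit 0) (nat_lit 0) (XT.lf (nat_lit 0) (nat_lit 15506890264) (nat_lit 84) (nat_lit 4554985821) (nat_lit 168) (nat_lit 14943543465) (nat_lit 5) (nat_lit 5) (nat_lit 6) (nat_lit 5) (nat_lit 7) (nat_lit 4) (nat_lit 392) (nat_lit 280)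 (nat_lit 216)) (XT.nd (nat_lit 94) (nat_lit 0) (nat_lit 0) (XT.lf (nat_lit 0) (nat_lit 19289579493) (nat_lit 84) (nat_lit 2696472127) (nat_lit 168) (nat_lit 14027078283) (nat_lit 5) (nat_lit 5) (nat_lit 6) (nat_lit 5) (nat_lit 7) (nat_lit 4) (nat_lit 393) (nat_lit 280) (nat_lit 215)) (XT.lf (nat_lit 0) (nat_lit 23167923636) (nat_lit 84) (nat_lit 787545797) (nat_lit 168) (nat_lit 13097119974) (nat_lit 5) (nat_lit 5) (nat_lit 6) (nat_lit 5) (nat_lit 7) (nat_lit 4) (nat_lit 394) (nat_lit 280) (nat_lit 214)))) (XT.nd (nat_lit 94) (nat_lit 0) (nat_lit 0) (XT.lf (nat_lit 0) (nat_lit 25983607214) (nat_lit 168) (nat_lit 10990871219) (nat_lit 0) (nat_lit 1149927617) (nat_lit 5) (nat_lit 5) (nat_lit 7) (nat_lit 4) (nat_lit 5) (nat_lit 4) (nat_lit 395) (nat_lit 280) (nat_lit 213)) (XT.nd (nat_lit 94) (nat_lit 0) (nat_lit 0) (XT.lf (nat_lit 0) (nat_lit 28069050999) (nat_lit 168) (nat_lit 8036165032)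 (nat_lit 0) (nat_lit 3124465280) (nat_lit 5) (nat_lit 5) (nat_lit 7) (nat_lit 4) (nat_lit 5) (nat_lit 4) (nat_lit 396) (nat_lit 280) (nat_lit 212)) (XT.lf (nat_lit 0) (nat_lit 30205932087) (nat_lit 168) (nat_lit 5009980563) (nat_lit 0) (nat_lit 5153774962) (nat_lit 5) (nat_lit 5) (nat_lit 7) (nat_lit 4) (nat_lit 5) (nat_lit 4) (nat_lit 397) (nat_lit 280) (nat_lit 211))))) (XT.nd (nat_lit 282) (nat_lit 0) (nat_lit 0) (XT.nd (nat_lit 94) (nat_lit 84) (nat_lit 0) (XT.lf (nat_lit 0) (nat_lit 32396242277) (nat_lit 168) (nat_lit 1909497091) (nat_lit 0) (nat_lit 7239748191) (nat_lit 5) (nat_lit 5) (nat_lit 7) (nat_lit 4) (nat_lit 5) (nat_lit 4) (nat_lit 398) (nat_lit 280) (nat_lit 210)) (XT.nd (nat_lit 94) (nat_lit 0) (nat_lit 0) (XT.lf (nat_lit 0) (nat_lit 1294251644) (nat_lit 84) (nat_lit 33360610658) (nat_lit 84) (nat_lit 8102916804) (nat_lit 4) (nat_lit 4) (nat_lit 5) (nat_lit 5) (nat_lit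 5) (nat_lit 4) (nat_lit 399) (nat_lit 280) (nat_lit 209)) (XT.lf (nat_lit 0) (nat_lit 4619062525) (nat_lit 84) (nat_lit 32372127204) (nat_lit 84) (nat_lit 7016276446) (nat_lit 4) (nat_lit 4) (nat_lit 5) (nat_lit 5) (nat_lit 5) (nat_lit 4) (nat_lit 400) (nat_lit 280) (nat_lit 208)))) (XT.nd (nat_lit 188) (nat_lit 0) (nat_lit 0) (XT.nd (nat_lit 94) (nat_lit 0) (nat_lit 0) (XT.lf (nat_lit 0) (nat_lit 8028771447) (nat_lit 84) (nat_lit 31359298871) (nat_lit 84) (nat_lit 5908242580) (nat_lit 4) (nat_lit 4) (nat_lit 5) (nat_lit 5) (nat_lit 5) (nat_lit 4) (nat_lit 401) (nat_lit 280) (nat_lit 207)) (XT.lf (nat_lit 0) (nat_lit 11526556615) (nat_lit 84) (nat_lit 30321181594) (nat_lit 84) (nat_lit 4777782401) (nat_lit 4) (nat_lit 4) (nat_lit 5) (nat_lit 5) (nat_lit 5) (nat_lit 4) (nat_lit 402) (nat_lit 280) (nat_lit 206))) (XT.nd (nat_lit 94) (nat_lit 0) (nat_lit 0) (XT.lf (nat_lit 0) (nat_lit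 15115678332) (nat_lit 84) (nat_lit 29256807742) (nat_lit 84) (nat_lit 3623842202) (nat_lit 4) (nat_lit 4) (nat_lit 5) (nat_lit 5) (nat_lit 5) (nat_lit 4) (nat_lit 403) (nat_lit 280) (nat_lit 205)) (XT.lf (nat_lit 0) (nat_lit 18799482036) (nat_lit 84) (nat_lit 28165185205) (nat_lit 84) (nat_lit 2445346391) (nat_lit 4) (nat_lit 4) (nat_lit 5) (nat_lit 5) (nat_lit 5) (nat_lit 4) (nat_lit 404) (nat_lit 280) (nat_lit 204))))))))
noncomputable def xc50 : XT := (XT.nd (nat_lit 2350) (nat_lit 0) (nat_lit 0) (XT.nd (nat_lit 1128) (nat_lit 0) (nat_lit 0) (XT.nd (nat_lit 564) (nat_lit 84) (nat_lit 0) (XT.nd (nat_lit 282) (nat_lit 0) (nat_lit 0) (XT.nd (nat_lit 94) (nat_lit 84) (nat_lit 0) (XT.lf (nat_lit 0) (nat_lit 22581401416) (nat_lit 84) (nat_lit 27045296478) (nat_lit 84) (nat_lit 1241196486) (nat_lit 4) (nat_lit 4) (nat_lit 5) (nat_lit 5) (nat_lit 5) (nat_lit 4) (nat_lit 405) (nat_lit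 280) (nat_lit 203)) (XT.nd (nat_lit 94) (nat_lit 84) (nat_lit 0) (XT.lf (nat_lit 0) (nat_lit 26464961619) (nat_lit 84) (nat_lit 25896097706) (nat_lit 84) (nat_lit 10270092) (nat_lit 4) (nat_lit 4) (nat_lit 5) (nat_lit 5) (nat_lit 5) (nat_lit 4) (nat_lit 406) (nat_lit 280) (nat_lit 202)) (XT.lf (nat_lit 0) (nat_lit 1223424033) (nat_lit 168) (nat_lit 23480323645) (nat_lit 84) (nat_lit 29217588457) (nat_lit 3) (nat_lit 5) (nat_lit 5) (nat_lit 5) (nat_lit 4) (nat_lit 4) (nat_lit 407) (nat_lit 280) (nat_lit 201)))) (XT.nd (nat_lit 94) (nat_lit 0) (nat_lit 0) (XT.lf (nat_lit 0) (nat_lit 2485422217) (nat_lit 168) (nat_lit 20994092088) (nat_lit 84) (nat_lit 32040217216) (nat_lit 3) (nat_lit 5) (nat_lit 5) (nat_lit 5) (nat_lit 4) (nat_lit 4) (nat_lit 408) (nat_lit 280) (nat_lit 200)) (XT.nd (nat_lit 94) (nat_lit 0) (nat_lit 0) (XT.lf (nat_lit 0) (nat_lit 3777107692) (nat_lit 168) (nat_lit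 18445253821) (nat_lit 84) (nat_lit 34945647094) (nat_lit 3) (nat_lit 5) (nat_lit 5) (nat_lit 5) (nat_lit 4) (nat_lit 4) (nat_lit 409) (nat_lit 280) (nat_lit 199)) (XT.lf (nat_lit 0) (nat_lit 5099684444) (nat_lit 168) (nat_lit 15831433058) (nat_lit 84) (nat_lit 37936586256) (nat_lit 3) (nat_lit 5) (nat_lit 5) (nat_lit 5) (nat_lit 4) (nat_lit 4) (nat_lit 410) (nat_lit 280) (nat_lit 198))))) (XT.nd (nat_lit 282) (nat_lit 84) (nat_lit 0) (XT.nd (nat_lit 94) (nat_lit 0) (nat_lit 0) (XT.lf (nat_lit 0) (nat_lit 6454385253) (nat_lit 168) (nat_lit 13150193445) (nat_lit 84) (nat_lit 41015822570) (nat_lit 3) (nat_lit 5) (nat_lit 5) (nat_lit 5) (nat_lit 4) (nat_lit 4) (nat_lit 411) (nat_lit 280) (nat_lit 197)) (XT.nd (nat_lit 94) (nat_lit 0) (nat_lit 0) (XT.lf (nat_lit 0) (nat_lit 7842472843) (nat_lit 168) (nat_lit 10399035786) (nat_lit 84) (nat_lit 44186226208) (nat_lit 3) (nat_lit 5) (nat_lit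 5) (nat_lit 5) (nat_lit 4) (nat_lit 4) (nat_lit 412) (nat_lit 280) (nat_lit 196)) (XT.lf (nat_lit 0) (nat_lit 9265241056) (nat_lit 168) (nat_lit 7575395713) (nat_lit 84) (nat_lit 47450752317) (nat_lit 3) (nat_lit 5) (nat_lit 5) (nat_lit 5) (nat_lit 4) (nat_lit 4) (nat_lit 413) (nat_lit 280) (nat_lit 195)))) (XT.nd (nat_lit 94) (nat_lit 84) (nat_lit 0) (XT.lf (nat_lit 0) (nat_lit 10724016062) (nat_lit 168) (nat_lit 4676641299) (nat_lit 84) (nat_lit 50812443779) (nat_lit 3) (nat_lit 5) (nat_lit 5) (nat_lit 5) (nat_lit 4) (nat_lit 4) (nat_lit 414) (nat_lit 280) (nat_lit 194)) (XT.nd (nat_lit 94) (nat_lit 84) (nat_lit 0) (XT.lf (nat_lit 0) (nat_lit 12220157591) (nat_lit 168) (nat_lit 1700070600) (nat_lit 84) (nat_lit 54274434041) (nat_lit 3) (nat_lit 5) (nat_lit 5) (nat_lit 5) (nat_lit 4) (nat_lit 4) (nat_lit 415) (nat_lit 280) (nat_lit 193)) (XT.lf (nat_lit 0) (nat_lit 1384995429) (nat_lit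 84) (nat_lit 12383804101) (nat_lit 168) (nat_lit 56468693937) (nat_lit 2) (nat_lit 5) (nat_lit 3) (nat_lit 5) (nat_lit 4) (nat_lit 4) (nat_lit 416) (nat_lit 280) (nat_lit 192)))))) (XT.nd (nat_lit 564) (nat_lit 0) (nat_lit 0) (XT.nd (nat_lit 282) (nat_lit 0) (nat_lit 0) (XT.nd (nat_lit 94) (nat_lit 0) (nat_lit 0) (XT.lf (nat_lit 0) (nat_lit 4590174458) (nat_lit 84) (nat_lit 10785515232) (nat_lit 168) (nat_lit 56967675853) (nat_lit 2) (nat_lit 5) (nat_lit 3) (nat_lit 5) (nat_lit 4) (nat_lit 4) (nat_lit 417) (nat_lit 280) (nat_lit 191)) (XT.nd (nat_lit 94) (nat_lit 0) (nat_lit 0) (XT.lf (nat_lit 0) (nat_lit 7883497109) (nat_lit 84) (nat_lit 9141617065) (nat_lit 168) (nat_lit 57489660745) (nat_lit 2) (nat_lit 5) (nat_lit 3) (nat_lit 5) (nat_lit 4) (nat_lit 4) (nat_lit 418) (nat_lit 280) (nat_lit 190)) (XT.lf (nat_lit 0) (nat_lit 11268033104) (nat_lit 84) (nat_lit 7450577312) (nat_lit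 168) (nat_lit 58035135156) (nat_lit 2) (nat_lit 5) (nat_lit 3) (nat_lit 5) (nat_lit 4) (nat_lit 4) (nat_lit 419) (nat_lit 280) (nat_lit 189)))) (XT.nd (nat_lit 94) (nat_lit 0) (nat_lit 0) (XT.lf (nat_lit 0) (nat_lit 14746937185) (nat_lit 84) (nat_lit 5710819749) (nat_lit 168) (nat_lit 58604607526) (nat_lit 2) (nat_lit 5) (nat_lit 3) (nat_lit 5) (nat_lit 4) (nat_lit 4) (nat_lit 420) (nat_lit 280) (nat_lit 188)) (XT.nd (nat_lit 94) (nat_lit 0) (nat_lit 0) (XT.lf (nat_lit 0) (nat_lit 18323452055) (nat_lit 84) (nat_lit 3920722738) (nat_lit 168) (nat_lit 59198608662) (nat_lit 2) (nat_lit 5) (nat_lit 3) (nat_lit 5) (nat_lit 4) (nat_lit 4) (nat_lit 421) (nat_lit 280) (nat_lit 187)) (XT.lf (nat_lit 0) (nat_lit 22000911402) (nat_lit 84) (nat_lit 2078617722) (nat_lit 168) (nat_lit 59817692236) (nat_lit 2) (nat_lit 5) (nat_lit 3) (nat_lit 5) (nat_lit 4) (nat_lit 4) (nat_lit 422) (nat_lit 280)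 (nat_lit 186))))) (XT.nd (nat_lit 282) (nat_lit 0) (nat_lit 0) (XT.nd (nat_lit 94) (nat_lit 0) (nat_lit 0) (XT.lf (nat_lit 0) (nat_lit 25782743001) (nat_lit 84) (nat_lit 182787665) (nat_lit 168) (nat_lit 60462435299) (nat_lit 2) (nat_lit 5) (nat_lit 3) (nat_lit 5) (nat_lit 4) (nat_lit 4) (nat_lit 423) (nat_lit 280) (nat_lit 185)) (XT.nd (nat_lit 94) (nat_lit 0) (nat_lit 0) (XT.lf (nat_lit 0) (nat_lit 27921481455) (nat_lit 168) (nat_lit 59382448357) (nat_lit 0) (nat_lit 1732902513) (nat_lit 2) (nat_lit 5) (nat_lit 4) (nat_lit 4) (nat_lit 2) (nat_lit 4) (nat_lit 424) (nat_lit 280) (nat_lit 184)) (XT.lf (nat_lit 0) (nat_lit 29934026013) (nat_lit 168) (nat_lit 58091630471) (nat_lit 0) (nat_lit 3701066228) (nat_lit 2) (nat_lit 5) (nat_lit 4) (nat_lit 4) (nat_lit 2) (nat_lit 4) (nat_lit 425) (nat_lit 280) (nat_lit 183)))) (XT.nd (nat_lit 188) (nat_lit 0) (nat_lit 0) (XT.nd (nat_lit 94)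 (nat_lit 0) (nat_lit 0) (XT.lf (nat_lit 0) (nat_lit 32003226969) (nat_lit 168) (nat_lit 56769752853) (nat_lit 0) (nat_lit 5727220778) (nat_lit 2) (nat_lit 5) (nat_lit 4) (nat_lit 4) (nat_lit 2) (nat_lit 4) (nat_lit 426) (nat_lit 280) (nat_lit 182)) (XT.lf (nat_lit 0) (nat_lit 34131013033) (nat_lit 168) (nat_lit 55415583375) (nat_lit 0) (nat_lit 7813254751) (nat_lit 2) (nat_lit 5) (nat_lit 4) (nat_lit 4) (nat_lit 2) (nat_lit 4) (nat_lit 427) (nat_lit 280) (nat_lit 181))) (XT.nd (nat_lit 94) (nat_lit 0) (nat_lit 0) (XT.lf (nat_lit 0) (nat_lit 36319367524) (nat_lit 168) (nat_lit 54027859808) (nat_lit 0) (nat_lit 9961112550) (nat_lit 2) (nat_lit 5) (nat_lit 4) (nat_lit 4) (nat_lit 2) (nat_lit 4) (nat_lit 428) (nat_lit 280) (nat_lit 180)) (XT.lf (nat_lit 0) (nat_lit 38570330220) (nat_lit 168) (nat_lit 52605288649) (nat_lit 0) (nat_lit 12172796203) (nat_lit 2) (nat_lit 5) (nat_lit 4) (nat_lit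 4) (nat_lit 2) (nat_lit 4) (nat_lit 429) (nat_lit 280) (nat_lit 179))))))) (XT.nd (nat_lit 46906) (nat_lit 0) (nat_lit 2100) (XT.nd (nat_lit 46248) (nat_lit 0) (nat_lit 3948) (XT.nd (nat_lit 45966) (nat_lit 0) (nat_lit 5208) (XT.nd (nat_lit 94) (nat_lit 0) (nat_lit 0) (XT.lf (nat_lit 0) (nat_lit 40885999252) (nat_lit 168) (nat_lit 51146543913) (nat_lit 0) (nat_lit 14450367230) (nat_lit 2) (nat_lit 5) (nat_lit 4) (nat_lit 4) (nat_lit 2) (nat_lit 4) (nat_lit 430) (nat_lit 280) (nat_lit 178)) (XT.nd (nat_lit 94) (nat_lit 0) (nat_lit 0) (XT.lf (nat_lit 0) (nat_lit 43268533067) (nat_lit 168) (nat_lit 49650265897) (nat_lit 0) (nat_lit 16795948568) (nat_lit 2) (nat_lit 5) (nat_lit 4) (nat_lit 4) (nat_lit 2) (nat_lit 4) (nat_lit 431) (nat_lit 280) (nat_lit 177)) (XT.lf (nat_lit 0) (nat_lit 45720152436) (nat_lit 168) (nat_lit 48115059912) (nat_lit 0) (nat_lit 19211726542) (nat_lit 2) (nat_lit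 5) (nat_lit 4) (nat_lit 4) (nat_lit 2) (nat_lit 4) (nat_lit 432) (nat_lit 280) (nat_lit 176)))) (XT.nd (nat_lit 94) (nat_lit 588) (nat_lit 0) (XT.lf (nat_lit 0) (nat_lit 1860118758) (nat_lit 756) (nat_lit 177327823) (nat_lit 0) (nat_lit 1860118758) (nat_lit 71) (nat_lit 5) (nat_lit 80) (nat_lit 4) (nat_lit 71) (nat_lit 4) (nat_lit 326) (nat_lit 281) (nat_lit 281)) (XT.nd (nat_lit 94) (nat_lit 84) (nat_lit 0) (XT.lf (nat_lit 0) (nat_lit 3318690409) (nat_lit 504) (nat_lit 2870610670) (nat_lit 504) (nat_lit 1706825710) (nat_lit 65) (nat_lit 4) (nat_lit 71) (nat_lit 5) (nat_lit 71) (nat_lit 4) (nat_lit 327) (nat_lit 281) (nat_lit 280)) (XT.lf (nat_lit 0) (nat_lit 651322438) (nat_lit 588) (nat_lit 969741483) (nat_lit 84) (nat_lit 6381678127) (nat_lit 64) (nat_lit 5) (nat_lit 71) (nat_lit 5) (nat_lit 65) (nat_lit 4) (nat_lit 328) (nat_lit 281) (nat_lit 279))))) (XT.nd (nat_lit 282) (nat_lit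 420) (nat_lit 0) (XT.nd (nat_lit 94) (nat_lit 420) (nat_lit 0) (XT.lf (nat_lit 0) (nat_lit 2713578539) (nat_lit 420) (nat_lit 290364286) (nat_lit 504) (nat_lit 5110088930) (nat_lit 59) (nat_lit 5) (nat_lit 64) (nat_lit 5) (nat_lit 65) (nat_lit 4) (nat_lit 329) (nat_lit 281) (nat_lit 278)) (XT.nd (nat_lit 94) (nat_lit 420) (nat_lit 0) (XT.lf (nat_lit 0) (nat_lit 5381702043) (nat_lit 504) (nat_lit 1782982311) (nat_lit 0) (nat_lit 1066123546) (nat_lit 59) (nat_lit 5) (nat_lit 65) (nat_lit 4) (nat_lit 59) (nat_lit 4) (nat_lit 330) (nat_lit 281) (nat_lit 277)) (XT.lf (nat_lit 0) (nat_lit 1909057610) (nat_lit 420) (nat_lit 5879341592) (nat_lit 420) (nat_lit 564731062) (nat_lit 54) (nat_lit 4) (nat_lit 59) (nat_lit 5) (nat_lit 59) (nat_lit 4) (nat_lit 331) (nat_lit 281) (nat_lit 276)))) (XT.nd (nat_lit 188) (nat_lit 0) (nat_lit 0) (XT.nd (nat_lit 94) (nat_lit 336) (nat_lit 0) (XT.lf (nat_lit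 0) (nat_lit 1706613313) (nat_lit 504) (nat_lit 2817472134) (nat_lit 84) (nat_lit 3956595835) (nat_lit 53) (nat_lit 5) (nat_lit 59) (nat_lit 5) (nat_lit 54) (nat_lit 4) (nat_lit 332) (nat_lit 281) (nat_lit 275)) (XT.lf (nat_lit 0) (nat_lit 861157033) (nat_lit 336) (nat_lit 3119452746) (nat_lit 420) (nat_lit 4633625548) (nat_lit 49) (nat_lit 5) (nat_lit 53) (nat_lit 5) (nat_lit 54) (nat_lit 4) (nat_lit 333) (nat_lit 281) (nat_lit 274))) (XT.nd (nat_lit 94) (nat_lit 0) (nat_lit 0) (XT.lf (nat_lit 0) (nat_lit 4642310778) (nat_lit 336) (nat_lit 1648861216) (nat_lit 420) (nat_lit 2462285664) (nat_lit 49) (nat_lit 5) (nat_lit 53) (nat_lit 5) (nat_lit 54) (nat_lit 4) (nat_lit 334) (nat_lit 281) (nat_lit 273)) (XT.lf (nat_lit 0) (nat_lit 8471580524) (nat_lit 336) (nat_lit 140348744) (nat_lit 420) (nat_lit 287433032) (nat_lit 49) (nat_lit 5) (nat_lit 53) (nat_lit 5) (nat_lit 54) (nat_lit 4)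 (nat_lit 335) (nat_lit 281) (nat_lit 272)))))) (XT.nd (nat_lit 564) (nat_lit 588) (nat_lit 0) (XT.nd (nat_lit 282) (nat_lit 420) (nat_lit 0) (XT.nd (nat_lit 94) (nat_lit 336) (nat_lit 0) (XT.lf (nat_lit 0) (nat_lit 1902538945) (nat_lit 504) (nat_lit 5715817715) (nat_lit 84) (nat_lit 1431667195) (nat_lit 43) (nat_lit 5) (nat_lit 49) (nat_lit 5) (nat_lit 44) (nat_lit 4) (nat_lit 336) (nat_lit 281) (nat_lit 271)) (XT.nd (nat_lit 94) (nat_lit 336) (nat_lit 0) (XT.lf (nat_lit 0) (nat_lit 4100805862) (nat_lit 504) (nat_lit 2057942935) (nat_lit 84) (nat_lit 3048599899) (nat_lit 43) (nat_lit 5) (nat_lit 49) (nat_lit 5) (nat_lit 44) (nat_lit 4) (nat_lit 337) (nat_lit 281) (nat_lit 270)) (XT.lf (nat_lit 0) (nat_lit 1679077058) (nat_lit 336) (nat_lit 4647019981) (nat_lit 420) (nat_lit 3045137255) (nat_lit 39) (nat_lit 5) (nat_lit 43) (nat_lit 5) (nat_lit 44) (nat_lit 4) (nat_lit 338) (nat_lit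 281) (nat_lit 269)))) (XT.nd (nat_lit 94) (nat_lit 420) (nat_lit 0) (XT.lf (nat_lit 0) (nat_lit 5508182650) (nat_lit 336) (nat_lit 3076960405) (nat_lit 420) (nat_lit 956546005) (nat_lit 39) (nat_lit 5) (nat_lit 43) (nat_lit 5) (nat_lit 44) (nat_lit 4) (nat_lit 339) (nat_lit 281) (nat_lit 268)) (XT.nd (nat_lit 94) (nat_lit 336) (nat_lit 0) (XT.lf (nat_lit 0) (nat_lit 1116734640) (nat_lit 420) (nat_lit 340196252) (nat_lit 84) (nat_lit 8262236380) (nat_lit 38) (nat_lit 5) (nat_lit 43) (nat_lit 5) (nat_lit 39) (nat_lit 5) (nat_lit 340) (nat_lit 281) (nat_lit 267)) (XT.lf (nat_lit 0) (nat_lit 3216967959) (nat_lit 420) (nat_lit 6442571556) (nat_lit 84) (nat_lit 243207342) (nat_lit 34) (nat_lit 5) (nat_lit 39) (nat_lit 5) (nat_lit 35) (nat_lit 4) (nat_lit 341) (nat_lit 281) (nat_lit 266))))) (XT.nd (nat_lit 282) (nat_lit 336) (nat_lit 0) (XT.nd (nat_lit 94) (nat_lit 252) (nat_lit 0) (XT.lf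 (nat_lit 0) (nat_lit 5347420490) (nat_lit 420) (nat_lit 2787386526) (nat_lit 84) (nat_lit 1958642939) (nat_lit 34) (nat_lit 5) (nat_lit 39) (nat_lit 5) (nat_lit 35) (nat_lit 4) (nat_lit 342) (nat_lit 281) (nat_lit 265)) (XT.nd (nat_lit 94) (nat_lit 0) (nat_lit 0) (XT.lf (nat_lit 0) (nat_lit 935839924) (nat_lit 252) (nat_lit 6565589418) (nat_lit 336) (nat_lit 2790293089) (nat_lit 31) (nat_lit 5) (nat_lit 34) (nat_lit 5) (nat_lit 35) (nat_lit 4) (nat_lit 343) (nat_lit 281) (nat_lit 264)) (XT.lf (nat_lit 0) (nat_lit 4770102324) (nat_lit 252) (nat_lit 4930360364) (nat_lit 336) (nat_lit 796683137) (nat_lit 31) (nat_lit 5) (nat_lit 34) (nat_lit 5) (nat_lit 35) (nat_lit 4) (nat_lit 344) (nat_lit 281) (nat_lit 263)))) (XT.nd (nat_lit 188) (nat_lit 0) (nat_lit 0) (XT.nd (nat_lit 94) (nat_lit 252) (nat_lit 0) (XT.lf (nat_lit 0) (nat_lit 1183234322) (nat_lit 336) (nat_lit 2061105386) (nat_lit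 84) (nat_lit 7466075361) (nat_lit 30) (nat_lit 5) (nat_lit 34) (nat_lit 5) (nat_lit 31) (nat_lit 5) (nat_lit 345) (nat_lit 281) (nat_lit 262)) (XT.lf (nat_lit 0) (nat_lit 1683225213) (nat_lit 252) (nat_lit 1492826424) (nat_lit 336) (nat_lit 7755282540) (nat_lit 27) (nat_lit 5) (nat_lit 30) (nat_lit 5) (nat_lit 31) (nat_lit 5) (nat_lit 346) (nat_lit 281) (nat_lit 261))) (XT.nd (nat_lit 94) (nat_lit 0) (nat_lit 0) (XT.lf (nat_lit 0) (nat_lit 5207596055) (nat_lit 336) (nat_lit 5636481803) (nat_lit 84) (nat_lit 316030742) (nat_lit 27) (nat_lit 5) (nat_lit 31) (nat_lit 5) (nat_lit 28) (nat_lit 4) (nat_lit 347) (nat_lit 281) (nat_lit 260)) (XT.lf (nat_lit 0) (nat_lit 7270937547) (nat_lit 336) (nat_lit 1988343184) (nat_lit 84) (nat_lit 2137944381) (nat_lit 27) (nat_lit 5) (nat_lit 31) (nat_lit 5) (nat_lit 28) (nat_lit 4) (nat_lit 348) (nat_lit 281) (nat_lit 259))))))))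
noncomputable def xc51 : XT := (XT.nd (nat_lit 2444) (nat_lit 420) (nat_lit 0) (XT.nd (nat_lit 1222) (nat_lit 504) (nat_lit 0) (XT.nd (nat_lit 564) (nat_lit 420) (nat_lit 0) (XT.nd (nat_lit 282) (nat_lit 252) (nat_lit 0) (XT.nd (nat_lit 94) (nat_lit 84) (nat_lit 0) (XT.lf (nat_lit 0) (nat_lit 1749770334) (nat_lit 252) (nat_lit 7620777945) (nat_lit 336) (nat_lit 2272277436) (nat_lit 24) (nat_lit 5) (nat_lit 27) (nat_lit 5) (nat_lit 28) (nat_lit 4) (nat_lit 349) (nat_lit 281) (nat_lit 258)) (XT.nd (nat_lit 94) (nat_lit 84) (nat_lit 0) (XT.lf (nat_lit 0) (nat_lit 5588136792) (nat_lit 252) (nat_lit 5923593534) (nat_lit 336) (nat_lit 385305313) (nat_lit 24) (nat_lit 5) (nat_lit 27) (nat_lit 5) (nat_lit 28) (nat_lit 4) (nat_lit 350) (nat_lit 281) (nat_lit 257)) (XT.lf (nat_lit 0) (nat_lit 1485096795) (nat_lit 336) (nat_lit 2686301607) (nat_lit 84) (nat_lit 7988851373) (nat_lit 23) (nat_lit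 5) (nat_lit 27) (nat_lit 5) (nat_lit 24) (nat_lit 5) (nat_lit 351) (nat_lit 281) (nat_lit 256)))) (XT.nd (nat_lit 94) (nat_lit 0) (nat_lit 0) (XT.lf (nat_lit 0) (nat_lit 1009523508) (nat_lit 252) (nat_lit 2363648351) (nat_lit 336) (nat_lit 9059574353) (nat_lit 20) (nat_lit 5) (nat_lit 23) (nat_lit 5) (nat_lit 24) (nat_lit 5) (nat_lit 352) (nat_lit 281) (nat_lit 255)) (XT.nd (nat_lit 94) (nat_lit 0) (nat_lit 0) (XT.lf (nat_lit 0) (nat_lit 4821957465) (nat_lit 252) (nat_lit 484266628) (nat_lit 336) (nat_lit 7408122123) (nat_lit 20) (nat_lit 5) (nat_lit 23) (nat_lit 5) (nat_lit 24) (nat_lit 5) (nat_lit 353) (nat_lit 281) (nat_lit 254)) (XT.lf (nat_lit 0) (nat_lit 7273148445) (nat_lit 336) (nat_lit 4321126910) (nat_lit 84) (nat_lit 1411437027) (nat_lit 20) (nat_lit 5) (nat_lit 24) (nat_lit 5) (nat_lit 21) (nat_lit 4) (nat_lit 354) (nat_lit 281) (nat_lit 253))))) (XT.nd (nat_lit 282)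 (nat_lit 252) (nat_lit 0) (XT.nd (nat_lit 94) (nat_lit 168) (nat_lit 0) (XT.lf (nat_lit 0) (nat_lit 9266747041) (nat_lit 336) (nat_lit 697077136) (nat_lit 84) (nat_lit 3343572082) (nat_lit 20) (nat_lit 5) (nat_lit 24) (nat_lit 5) (nat_lit 21) (nat_lit 4) (nat_lit 355) (nat_lit 281) (nat_lit 252)) (XT.nd (nat_lit 94) (nat_lit 0) (nat_lit 0) (XT.lf (nat_lit 0) (nat_lit 3049380775) (nat_lit 168) (nat_lit 8264943600) (nat_lit 252) (nat_lit 2304565842) (nat_lit 18) (nat_lit 5) (nat_lit 20) (nat_lit 5) (nat_lit 21) (nat_lit 4) (nat_lit 356) (nat_lit 281) (nat_lit 251)) (XT.lf (nat_lit 0) (nat_lit 6875901050) (nat_lit 168) (nat_lit 6519318842) (nat_lit 252) (nat_lit 545964351) (nat_lit 18) (nat_lit 5) (nat_lit 20) (nat_lit 5) (nat_lit 21) (nat_lit 4) (nat_lit 357) (nat_lit 281) (nat_lit 250)))) (XT.nd (nat_lit 188) (nat_lit 0) (nat_lit 0) (XT.nd (nat_lit 94) (nat_lit 168) (nat_lit 0) (XT.lf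 (nat_lit 0) (nat_lit 1204746345) (nat_lit 252) (nat_lit 3515277427) (nat_lit 84) (nat_lit 9554395644) (nat_lit 17) (nat_lit 5) (nat_lit 20) (nat_lit 5) (nat_lit 18) (nat_lit 5) (nat_lit 358) (nat_lit 281) (nat_lit 249)) (XT.lf (nat_lit 0) (nat_lit 92284589) (nat_lit 168) (nat_lit 2871250695) (nat_lit 252) (nat_lit 11655547547) (nat_lit 15) (nat_lit 5) (nat_lit 17) (nat_lit 5) (nat_lit 18) (nat_lit 5) (nat_lit 359) (nat_lit 281) (nat_lit 248))) (XT.nd (nat_lit 94) (nat_lit 0) (nat_lit 0) (XT.lf (nat_lit 0) (nat_lit 3837927482) (nat_lit 168) (nat_lit 940439764) (nat_lit 252) (nat_lit 10196201311) (nat_lit 15) (nat_lit 5) (nat_lit 17) (nat_lit 5) (nat_lit 18) (nat_lit 5) (nat_lit 360) (nat_lit 281) (nat_lit 247)) (XT.lf (nat_lit 0) (nat_lit 6625637109) (nat_lit 252) (nat_lit 7699742227) (nat_lit 84) (nat_lit 1016612807) (nat_lit 15) (nat_lit 5) (nat_lit 18) (nat_lit 5) (nat_lit 16)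 (nat_lit 4) (nat_lit 361) (nat_lit 281) (nat_lit 246)))))) (XT.nd (nat_lit 564) (nat_lit 252) (nat_lit 0) (XT.nd (nat_lit 282) (nat_lit 84) (nat_lit 0) (XT.nd (nat_lit 94) (nat_lit 168) (nat_lit 0) (XT.lf (nat_lit 0) (nat_lit 8506580092) (nat_lit 252) (nat_lit 4212411517) (nat_lit 84) (nat_lit 3002719543) (nat_lit 15) (nat_lit 5) (nat_lit 18) (nat_lit 5) (nat_lit 16) (nat_lit 4) (nat_lit 362) (nat_lit 281) (nat_lit 245)) (XT.nd (nat_lit 94) (nat_lit 168) (nat_lit 0) (XT.lf (nat_lit 0) (nat_lit 10413620151) (nat_lit 252) (nat_lit 662069109) (nat_lit 84) (nat_lit 5038679469) (nat_lit 15) (nat_lit 5) (nat_lit 18) (nat_lit 5) (nat_lit 16) (nat_lit 4) (nat_lit 363) (nat_lit 281) (nat_lit 244)) (XT.lf (nat_lit 0) (nat_lit 3015346804) (nat_lit 168) (nat_lit 9363100657) (nat_lit 252) (nat_lit 4140956120) (nat_lit 13) (nat_lit 5) (nat_lit 15) (nat_lit 5) (nat_lit 16) (nat_lit 4) (nat_lit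 364) (nat_lit 281) (nat_lit 243)))) (XT.nd (nat_lit 94) (nat_lit 84) (nat_lit 0) (XT.lf (nat_lit 0) (nat_lit 6777501328) (nat_lit 168) (nat_lit 7602860051) (nat_lit 252) (nat_lit 2557530360) (nat_lit 13) (nat_lit 5) (nat_lit 15) (nat_lit 5) (nat_lit 16) (nat_lit 4) (nat_lit 365) (nat_lit 281) (nat_lit 242)) (XT.nd (nat_lit 94) (nat_lit 84) (nat_lit 0) (XT.lf (nat_lit 0) (nat_lit 10614287684) (nat_lit 168) (nat_lit 5800237356) (nat_lit 252) (nat_lit 955906024) (nat_lit 13) (nat_lit 5) (nat_lit 15) (nat_lit 5) (nat_lit 16) (nat_lit 4) (nat_lit 366) (nat_lit 281) (nat_lit 241)) (XT.lf (nat_lit 0) (nat_lit 652003247) (nat_lit 252) (nat_lit 3294743517) (nat_lit 84) (nat_lit 13870473335) (nat_lit 12) (nat_lit 5) (nat_lit 15) (nat_lit 5) (nat_lit 13) (nat_lit 5) (nat_lit 367) (nat_lit 281) (nat_lit 240))))) (XT.nd (nat_lit 282) (nat_lit 84) (nat_lit 0) (XT.nd (nat_lit 94) (nat_lit 0) (nat_lit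 0) (XT.lf (nat_lit 0) (nat_lit 228554489) (nat_lit 168) (nat_lit 2035141449) (nat_lit 252) (nat_lit 16014813411) (nat_lit 10) (nat_lit 5) (nat_lit 12) (nat_lit 5) (nat_lit 13) (nat_lit 5) (nat_lit 368) (nat_lit 281) (nat_lit 239)) (XT.nd (nat_lit 94) (nat_lit 0) (nat_lit 0) (XT.lf (nat_lit 0) (nat_lit 3891095447) (nat_lit 168) (nat_lit 40634414) (nat_lit 252) (nat_lit 14822307205) (nat_lit 10) (nat_lit 5) (nat_lit 12) (nat_lit 5) (nat_lit 13) (nat_lit 5) (nat_lit 369) (nat_lit 281) (nat_lit 238)) (XT.lf (nat_lit 0) (nat_lit 5644185818) (nat_lit 252) (nat_lit 11636616332) (nat_lit 84) (nat_lit 1963862034) (nat_lit 10) (nat_lit 5) (nat_lit 13) (nat_lit 5) (nat_lit 11) (nat_lit 4) (nat_lit 370) (nat_lit 281) (nat_lit 237)))) (XT.nd (nat_lit 188) (nat_lit 84) (nat_lit 0) (XT.nd (nat_lit 94) (nat_lit 0) (nat_lit 0) (XT.lf (nat_lit 0) (nat_lit 7383680813) (nat_lit 252) (nat_lit 8348992543)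 (nat_lit 84) (nat_lit 4018763019) (nat_lit 10) (nat_lit 5) (nat_lit 13) (nat_lit 5) (nat_lit 11) (nat_lit 4) (nat_lit 371) (nat_lit 281) (nat_lit 236)) (XT.lf (nat_lit 0) (nat_lit 9151433140) (nat_lit 252) (nat_lit 4996602744) (nat_lit 84) (nat_lit 6126802616) (nat_lit 10) (nat_lit 5) (nat_lit 13) (nat_lit 5) (nat_lit 11) (nat_lit 4) (nat_lit 372) (nat_lit 281) (nat_lit 235))) (XT.nd (nat_lit 94) (nat_lit 84) (nat_lit 0) (XT.lf (nat_lit 0) (nat_lit 10949090529) (nat_lit 252) (nat_lit 1576322155) (nat_lit 84) (nat_lit 8289945740) (nat_lit 10) (nat_lit 5) (nat_lit 13) (nat_lit 5) (nat_lit 11) (nat_lit 4) (nat_lit 373) (nat_lit 281) (nat_lit 234)) (XT.lf (nat_lit 0) (nat_lit 1954414375) (nat_lit 84) (nat_lit 10843302241) (nat_lit 168) (nat_lit 8575182323) (nat_lit 9) (nat_lit 5) (nat_lit 10) (nat_lit 5) (nat_lit 11) (nat_lit 4) (nat_lit 374) (nat_lit 281) (nat_lit 233))))))) (XT.nd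 (nat_lit 1222) (nat_lit 168) (nat_lit 0) (XT.nd (nat_lit 564) (nat_lit 252) (nat_lit 0) (XT.nd (nat_lit 282) (nat_lit 0) (nat_lit 0) (XT.nd (nat_lit 94) (nat_lit 0) (nat_lit 0) (XT.lf (nat_lit 0) (nat_lit 5593424927) (nat_lit 84) (nat_lit 9102914888) (nat_lit 168) (nat_lit 7251723453) (nat_lit 9) (nat_lit 5) (nat_lit 10) (nat_lit 5) (nat_lit 11) (nat_lit 4) (nat_lit 375) (nat_lit 281) (nat_lit 232)) (XT.nd (nat_lit 94) (nat_lit 0) (nat_lit 0) (XT.lf (nat_lit 0) (nat_lit 9311689022) (nat_lit 84) (nat_lit 7319081972) (nat_lit 168) (nat_lit 5911111253) (nat_lit 9) (nat_lit 5) (nat_lit 10) (nat_lit 5) (nat_lit 11) (nat_lit 4) (nat_lit 376) (nat_lit 281) (nat_lit 231)) (XT.lf (nat_lit 0) (nat_lit 13112672471) (nat_lit 84) (nat_lit 5490140775) (nat_lit 168) (nat_lit 4552096132) (nat_lit 9) (nat_lit 5) (nat_lit 10) (nat_lit 5) (nat_lit 11) (nat_lit 4) (nat_lit 377) (nat_lit 281) (nat_lit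 230)))) (XT.nd (nat_lit 94) (nat_lit 0) (nat_lit 0) (XT.lf (nat_lit 0) (nat_lit 16999918190) (nat_lit 84) (nat_lit 3614386532) (nat_lit 168) (nat_lit 3173411346) (nat_lit 9) (nat_lit 5) (nat_lit 10) (nat_lit 5) (nat_lit 11) (nat_lit 4) (nat_lit 378) (nat_lit 281) (nat_lit 229)) (XT.nd (nat_lit 94) (nat_lit 0) (nat_lit 0) (XT.lf (nat_lit 0) (nat_lit 20977049498) (nat_lit 84) (nat_lit 1690070842) (nat_lit 168) (nat_lit 1773771816) (nat_lit 9) (nat_lit 5) (nat_lit 10) (nat_lit 5) (nat_lit 11) (nat_lit 4) (nat_lit 379) (nat_lit 281) (nat_lit 228)) (XT.lf (nat_lit 0) (nat_lit 24765996809) (nat_lit 168) (nat_lit 70096243) (nat_lit 0) (nat_lit 278865900) (nat_lit 9) (nat_lit 5) (nat_lit 11) (nat_lit 4) (nat_lit 9) (nat_lit 4) (nat_lit 380) (nat_lit 281) (nat_lit 227))))) (XT.nd (nat_lit 282) (nat_lit 0) (nat_lit 0) (XT.nd (nat_lit 94) (nat_lit 0) (nat_lit 0) (XT.lf (nat_lit 0) (nat_lit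 1129332809) (nat_lit 252) (nat_lit 22368777599) (nat_lit 84) (nat_lit 2310570248) (nat_lit 6) (nat_lit 5) (nat_lit 9) (nat_lit 5) (nat_lit 7) (nat_lit 4) (nat_lit 381) (nat_lit 281) (nat_lit 226)) (XT.nd (nat_lit 94) (nat_lit 0) (nat_lit 0) (XT.lf (nat_lit 0) (nat_lit 2627088291) (nat_lit 252) (nat_lit 19496886290) (nat_lit 84) (nat_lit 4400504020) (nat_lit 6) (nat_lit 5) (nat_lit 9) (nat_lit 5) (nat_lit 7) (nat_lit 4) (nat_lit 382) (nat_lit 281) (nat_lit 225)) (XT.lf (nat_lit 0) (nat_lit 4152014256) (nat_lit 252) (nat_lit 16564698683) (nat_lit 84) (nat_lit 6546436586) (nat_lit 6) (nat_lit 5) (nat_lit 9) (nat_lit 5) (nat_lit 7) (nat_lit 4) (nat_lit 383) (nat_lit 281) (nat_lit 224)))) (XT.nd (nat_lit 188) (nat_lit 0) (nat_lit 0) (XT.nd (nat_lit 94) (nat_lit 0) (nat_lit 0) (XT.lf (nat_lit 0) (nat_lit 5705532093) (nat_lit 252) (nat_lit 13569481672) (nat_lit 84) (nat_lit 8750368181)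 (nat_lit 6) (nat_lit 5) (nat_lit 9) (nat_lit 5) (nat_lit 7) (nat_lit 4) (nat_lit 384) (nat_lit 281) (nat_lit 223)) (XT.lf (nat_lit 0) (nat_lit 7289089846) (nat_lit 252) (nat_lit 10508443401) (nat_lit 84) (nat_lit 11014353100) (nat_lit 6) (nat_lit 5) (nat_lit 9) (nat_lit 5) (nat_lit 7) (nat_lit 4) (nat_lit 385) (nat_lit 281) (nat_lit 222))) (XT.nd (nat_lit 94) (nat_lit 0) (nat_lit 0) (XT.lf (nat_lit 0) (nat_lit 8904163555) (nat_lit 252) (nat_lit 7378730662) (nat_lit 84) (nat_lit 13340501613) (nat_lit 6) (nat_lit 5) (nat_lit 9) (nat_lit 5) (nat_lit 7) (nat_lit 4) (nat_lit 386) (nat_lit 281) (nat_lit 221)) (XT.lf (nat_lit 0) (nat_lit 10552258638) (nat_lit 252) (nat_lit 4177426234) (nat_lit 84) (nat_lit 15730981936) (nat_lit 6) (nat_lit 5) (nat_lit 9) (nat_lit 5) (nat_lit 7) (nat_lit 4) (nat_lit 387) (nat_lit 281) (nat_lit 220)))))) (XT.nd (nat_lit 564) (nat_lit 84) (nat_lit 0) (XT.nd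 (nat_lit 282) (nat_lit 0) (nat_lit 0) (XT.nd (nat_lit 94) (nat_lit 84) (nat_lit 0) (XT.lf (nat_lit 0) (nat_lit 12234911293) (nat_lit 252) (nat_lit 901546167) (nat_lit 84) (nat_lit 18188022245) (nat_lit 6) (nat_lit 5) (nat_lit 9) (nat_lit 5) (nat_lit 7) (nat_lit 4) (nat_lit 388) (nat_lit 281) (nat_lit 219)) (XT.nd (nat_lit 94) (nat_lit 0) (nat_lit 0) (XT.lf (nat_lit 0) (nat_lit 2502380391) (nat_lit 84) (nat_lit 11476133460) (nat_lit 168) (nat_lit 18236356291) (nat_lit 5) (nat_lit 5) (nat_lit 6) (nat_lit 5) (nat_lit 7) (nat_lit 4) (nat_lit 389) (nat_lit 281) (nat_lit 218)) (XT.lf (nat_lit 0) (nat_lit 6007260000) (nat_lit 84) (nat_lit 9762529388) (nat_lit 168) (nat_lit 17363340637) (nat_lit 5) (nat_lit 5) (nat_lit 6) (nat_lit 5) (nat_lit 7) (nat_lit 4) (nat_lit 390) (nat_lit 281) (nat_lit 217)))) (XT.nd (nat_lit 94) (nat_lit 0) (nat_lit 0) (XT.lf (nat_lit 0) (nat_lit 9597821935) (nat_lit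 84) (nat_lit 8003458279) (nat_lit 168) (nat_lit 16479118001) (nat_lit 5) (nat_lit 5) (nat_lit 6) (nat_lit 5) (nat_lit 7) (nat_lit 4) (nat_lit 391) (nat_lit 281) (nat_lit 216)) (XT.nd (nat_lit 94) (nat_lit 0) (nat_lit 0) (XT.lf (nat_lit 0) (nat_lit 13277412977) (nat_lit 84) (nat_lit 6197280493) (nat_lit 168) (nat_lit 15582864194) (nat_lit 5) (nat_lit 5) (nat_lit 6) (nat_lit 5) (nat_lit 7) (nat_lit 4) (nat_lit 392) (nat_lit 281) (nat_lit 215)) (XT.lf (nat_lit 0) (nat_lit 17049462890) (nat_lit 84) (nat_lit 4342312486) (nat_lit 168) (nat_lit 14673743815) (nat_lit 5) (nat_lit 5) (nat_lit 6) (nat_lit 5) (nat_lit 7) (nat_lit 4) (nat_lit 393) (nat_lit 281) (nat_lit 214))))) (XT.nd (nat_lit 282) (nat_lit 84) (nat_lit 0) (XT.nd (nat_lit 94) (nat_lit 0) (nat_lit 0) (XT.lf (nat_lit 0) (nat_lit 20917487619) (nat_lit 84) (nat_lit 2436825231) (nat_lit 168) (nat_lit 13750909467) (nat_lit 5) (nat_lit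 5) (nat_lit 6) (nat_lit 5) (nat_lit 7) (nat_lit 4) (nat_lit 394) (nat_lit 281) (nat_lit 213)) (XT.nd (nat_lit 94) (nat_lit 0) (nat_lit 0) (XT.lf (nat_lit 0) (nat_lit 24885092568) (nat_lit 84) (nat_lit 479042615) (nat_lit 168) (nat_lit 12813500973) (nat_lit 5) (nat_lit 5) (nat_lit 6) (nat_lit 5) (nat_lit 7) (nat_lit 4) (nat_lit 395) (nat_lit 281) (nat_lit 212)) (XT.lf (nat_lit 0) (nat_lit 27438321905) (nat_lit 168) (nat_lit 10342990512) (nat_lit 0) (nat_lit 1501976502) (nat_lit 5) (nat_lit 5) (nat_lit 7) (nat_lit 4) (nat_lit 5) (nat_lit 4) (nat_lit 396) (nat_lit 281) (nat_lit 211)))) (XT.nd (nat_lit 188) (nat_lit 84) (nat_lit 0) (XT.nd (nat_lit 94) (nat_lit 0) (nat_lit 0) (XT.lf (nat_lit 0) (nat_lit 29568893681) (nat_lit 168) (nat_lit 7326413486) (nat_lit 0) (nat_lit 3528211318) (nat_lit 5) (nat_lit 5) (nat_lit 7) (nat_lit 4) (nat_lit 5) (nat_lit 4) (nat_lit 397) (nat_lit 281) (nat_lit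 210)) (XT.lf (nat_lit 0) (nat_lit 31753084267) (nat_lit 168) (nat_lit 4235248581) (nat_lit 0) (nat_lit 5611202135) (nat_lit 5) (nat_lit 5) (nat_lit 7) (nat_lit 4) (nat_lit 5) (nat_lit 4) (nat_lit 398) (nat_lit 281) (nat_lit 209))) (XT.nd (nat_lit 94) (nat_lit 84) (nat_lit 0) (XT.lf (nat_lit 0) (nat_lit 33992929555) (nat_lit 168) (nat_lit 1066614508) (nat_lit 0) (nat_lit 7752890519) (nat_lit 5) (nat_lit 5) (nat_lit 7) (nat_lit 4) (nat_lit 5) (nat_lit 4) (nat_lit 399) (nat_lit 281) (nat_lit 208)) (XT.lf (nat_lit 0) (nat_lit 2227317718) (nat_lit 84) (nat_lit 34085294867) (nat_lit 84) (nat_lit 7750050298) (nat_lit 4) (nat_lit 4) (nat_lit 5) (nat_lit 5) (nat_lit 5) (nat_lit 4) (nat_lit 400) (nat_lit 281) (nat_lit 207))))))))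
noncomputable def xc52 : XT := (XT.nd (nat_lit 2350) (nat_lit 0) (nat_lit 0) (XT.nd (nat_lit 1128) (nat_lit 84) (nat_lit 0) (XT.nd (nat_lit 564) (nat_lit 84) (nat_lit 0) (XT.nd (nat_lit 282) (nat_lit 0) (nat_lit 0) (XT.nd (nat_lit 94) (nat_lit 0) (nat_lit 0) (XT.lf (nat_lit 0) (nat_lit 5628348782) (nat_lit 84) (nat_lit 33075474281) (nat_lit 84) (nat_lit 6647886809) (nat_lit 4) (nat_lit 4) (nat_lit 5) (nat_lit 5) (nat_lit 5) (nat_lit 4) (nat_lit 401) (nat_lit 281) (nat_lit 206)) (XT.nd (nat_lit 94) (nat_lit 0) (nat_lit 0) (XT.lf (nat_lit 0) (nat_lit 9117717017) (nat_lit 84) (nat_lit 32040274316) (nat_lit 84) (nat_lit 5523120498) (nat_lit 4) (nat_lit 4) (nat_lit 5) (nat_lit 5) (nat_lit 5) (nat_lit 4) (nat_lit 402) (nat_lit 281) (nat_lit 205)) (XT.lf (nat_lit 0) (nat_lit 12698674880) (nat_lit 84) (nat_lit 30978730057) (nat_lit 84) (nat_lit 4374702965) (nat_lit 4) (nat_lit 4) (nat_lit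 5) (nat_lit 5) (nat_lit 5) (nat_lit 4) (nat_lit 403) (nat_lit 281) (nat_lit 204)))) (XT.nd (nat_lit 94) (nat_lit 0) (nat_lit 0) (XT.lf (nat_lit 0) (nat_lit 16374560200) (nat_lit 84) (nat_lit 29889852035) (nat_lit 84) (nat_lit 3201563765) (nat_lit 4) (nat_lit 4) (nat_lit 5) (nat_lit 5) (nat_lit 5) (nat_lit 4) (nat_lit 404) (nat_lit 281) (nat_lit 203)) (XT.nd (nat_lit 94) (nat_lit 0) (nat_lit 0) (XT.lf (nat_lit 0) (nat_lit 20148799285) (nat_lit 84) (nat_lit 28772625299) (nat_lit 84) (nat_lit 2002609408) (nat_lit 4) (nat_lit 4) (nat_lit 5) (nat_lit 5) (nat_lit 5) (nat_lit 4) (nat_lit 405) (nat_lit 281) (nat_lit 202)) (XT.lf (nat_lit 0) (nat_lit 24024910123) (nat_lit 84) (nat_lit 27626008479) (nat_lit 84) (nat_lit 776722344) (nat_lit 4) (nat_lit 4) (nat_lit 5) (nat_lit 5) (nat_lit 5) (nat_lit 4) (nat_lit 406) (nat_lit 281) (nat_lit 201))))) (XT.nd (nat_lit 282) (nat_lit 0) (nat_lit 0)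 (XT.nd (nat_lit 94) (nat_lit 0) (nat_lit 0) (XT.lf (nat_lit 0) (nat_lit 467624758) (nat_lit 168) (nat_lit 25976427006) (nat_lit 84) (nat_lit 27533999854) (nat_lit 3) (nat_lit 5) (nat_lit 5) (nat_lit 5) (nat_lit 4) (nat_lit 4) (nat_lit 407) (nat_lit 281) (nat_lit 200)) (XT.nd (nat_lit 94) (nat_lit 0) (nat_lit 0) (XT.lf (nat_lit 0) (nat_lit 1724977618) (nat_lit 168) (nat_lit 23497318279) (nat_lit 84) (nat_lit 30354314298) (nat_lit 3) (nat_lit 5) (nat_lit 5) (nat_lit 5) (nat_lit 4) (nat_lit 4) (nat_lit 408) (nat_lit 281) (nat_lit 199)) (XT.lf (nat_lit 0) (nat_lit 3012157444) (nat_lit 168) (nat_lit 20955388673) (nat_lit 84) (nat_lit 33257499448) (nat_lit 3) (nat_lit 5) (nat_lit 5) (nat_lit 5) (nat_lit 4) (nat_lit 4) (nat_lit 409) (nat_lit 281) (nat_lit 198)))) (XT.nd (nat_lit 94) (nat_lit 0) (nat_lit 0) (XT.lf (nat_lit 0) (nat_lit 4330364023) (nat_lit 168) (nat_lit 18348268842) (nat_lit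 84) (nat_lit 36246261377) (nat_lit 3) (nat_lit 5) (nat_lit 5) (nat_lit 5) (nat_lit 4) (nat_lit 4) (nat_lit 410) (nat_lit 281) (nat_lit 197)) (XT.nd (nat_lit 94) (nat_lit 0) (nat_lit 0) (XT.lf (nat_lit 0) (nat_lit 5680826060) (nat_lit 168) (nat_lit 15673528679) (nat_lit 84) (nat_lit 39323385922) (nat_lit 3) (nat_lit 5) (nat_lit 5) (nat_lit 5) (nat_lit 4) (nat_lit 4) (nat_lit 411) (nat_lit 281) (nat_lit 196)) (XT.lf (nat_lit 0) (nat_lit 7064802330) (nat_lit 168) (nat_lit 12928675044) (nat_lit 84) (nat_lit 42491741288) (nat_lit 3) (nat_lit 5) (nat_lit 5) (nat_lit 5) (nat_lit 4) (nat_lit 4) (nat_lit 412) (nat_lit 281) (nat_lit 195)))))) (XT.nd (nat_lit 564) (nat_lit 0) (nat_lit 0) (XT.nd (nat_lit 282) (nat_lit 84) (nat_lit 0) (XT.nd (nat_lit 94) (nat_lit 0) (nat_lit 0) (XT.lf (nat_lit 0) (nat_lit 8483582841) (nat_lit 168) (nat_lit 10111149447) (nat_lit 84) (nat_lit 45754280712) (nat_lit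 3) (nat_lit 5) (nat_lit 5) (nat_lit 5) (nat_lit 4) (nat_lit 4) (nat_lit 413) (nat_lit 281) (nat_lit 194)) (XT.nd (nat_lit 94) (nat_lit 0) (nat_lit 0) (XT.lf (nat_lit 0) (nat_lit 9938490047) (nat_lit 168) (nat_lit 7218325659) (nat_lit 84) (nat_lit 49114045224) (nat_lit 3) (nat_lit 5) (nat_lit 5) (nat_lit 5) (nat_lit 4) (nat_lit 4) (nat_lit 414) (nat_lit 281) (nat_lit 193)) (XT.lf (nat_lit 0) (nat_lit 11430880073) (nat_lit 168) (nat_lit 4247507265) (nat_lit 84) (nat_lit 52574166475) (nat_lit 3) (nat_lit 5) (nat_lit 5) (nat_lit 5) (nat_lit 4) (nat_lit 4) (nat_lit 415) (nat_lit 281) (nat_lit 192)))) (XT.nd (nat_lit 94) (nat_lit 84) (nat_lit 0) (XT.lf (nat_lit 0) (nat_lit 12962143983) (nat_lit 168) (nat_lit 1195925152) (nat_lit 84) (nat_lit 56137869662) (nat_lit 3) (nat_lit 5) (nat_lit 5) (nat_lit 5) (nat_lit 4) (nat_lit 4) (nat_lit 416) (nat_lit 281) (nat_lit 191)) (XT.nd (nat_lit 94)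 (nat_lit 0) (nat_lit 0) (XT.lf (nat_lit 0) (nat_lit 1979140343) (nat_lit 84) (nat_lit 12574202049) (nat_lit 168) (nat_lit 57848969503) (nat_lit 2) (nat_lit 5) (nat_lit 3) (nat_lit 5) (nat_lit 4) (nat_lit 4) (nat_lit 417) (nat_lit 281) (nat_lit 190)) (XT.lf (nat_lit 0) (nat_lit 5267106195) (nat_lit 84) (nat_lit 10932184363) (nat_lit 168) (nat_lit 58374552616) (nat_lit 2) (nat_lit 5) (nat_lit 3) (nat_lit 5) (nat_lit 4) (nat_lit 4) (nat_lit 418) (nat_lit 281) (nat_lit 189))))) (XT.nd (nat_lit 282) (nat_lit 0) (nat_lit 0) (XT.nd (nat_lit 94) (nat_lit 0) (nat_lit 0) (XT.lf (nat_lit 0) (nat_lit 8646446459) (nat_lit 84) (nat_lit 9242968550) (nat_lit 168) (nat_lit 58923517057) (nat_lit 2) (nat_lit 5) (nat_lit 3) (nat_lit 5) (nat_lit 4) (nat_lit 4) (nat_lit 419) (nat_lit 281) (nat_lit 188)) (XT.nd (nat_lit 94) (nat_lit 0) (nat_lit 0) (XT.lf (nat_lit 0) (nat_lit 12120311034) (nat_lit 84) (nat_lit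 7504980084) (nat_lit 168) (nat_lit 59496374520) (nat_lit 2) (nat_lit 5) (nat_lit 3) (nat_lit 5) (nat_lit 4) (nat_lit 4) (nat_lit 420) (nat_lit 281) (nat_lit 187)) (XT.lf (nat_lit 0) (nat_lit 15691937925) (nat_lit 84) (nat_lit 5716598978) (nat_lit 168) (nat_lit 60093658966) (nat_lit 2) (nat_lit 5) (nat_lit 3) (nat_lit 5) (nat_lit 4) (nat_lit 4) (nat_lit 421) (nat_lit 281) (nat_lit 186)))) (XT.nd (nat_lit 188) (nat_lit 0) (nat_lit 0) (XT.nd (nat_lit 94) (nat_lit 0) (nat_lit 0) (XT.lf (nat_lit 0) (nat_lit 19364656263) (nat_lit 84) (nat_lit 3876158273) (nat_lit 168) (nat_lit 60715927128) (nat_lit 2) (nat_lit 5) (nat_lit 3) (nat_lit 5) (nat_lit 4) (nat_lit 4) (nat_lit 422) (nat_lit 281) (nat_lit 185)) (XT.lf (nat_lit 0) (nat_lit 23141889407) (nat_lit 84) (nat_lit 1981942485) (nat_lit 168) (nat_lit 61363759025) (nat_lit 2) (nat_lit 5) (nat_lit 3) (nat_lit 5) (nat_lit 4) (nat_lit 4) (nat_lit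 423) (nat_lit 281) (nat_lit 184))) (XT.nd (nat_lit 94) (nat_lit 0) (nat_lit 0) (XT.lf (nat_lit 0) (nat_lit 27027158132) (nat_lit 84) (nat_lit 32186007) (nat_lit 168) (nat_lit 62037758503) (nat_lit 2) (nat_lit 5) (nat_lit 3) (nat_lit 5) (nat_lit 4) (nat_lit 4) (nat_lit 424) (nat_lit 281) (nat_lit 183)) (XT.lf (nat_lit 0) (nat_lit 29068746916) (nat_lit 168) (nat_lit 60783216801) (nat_lit 0) (nat_lit 1935138128) (nat_lit 2) (nat_lit 5) (nat_lit 4) (nat_lit 4) (nat_lit 2) (nat_lit 4) (nat_lit 425) (nat_lit 281) (nat_lit 182))))))) (XT.nd (nat_lit 46718) (nat_lit 0) (nat_lit 2688) (XT.nd (nat_lit 564) (nat_lit 0) (nat_lit 0) (XT.nd (nat_lit 282) (nat_lit 0) (nat_lit 0) (XT.nd (nat_lit 94) (nat_lit 0) (nat_lit 0) (XT.lf (nat_lit 0) (nat_lit 31135210244) (nat_lit 168) (nat_lit 59465616064) (nat_lit 0) (nat_lit 3959849365) (nat_lit 2) (nat_lit 5) (nat_lit 4) (nat_lit 4) (nat_lit 2) (nat_lit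 4) (nat_lit 426) (nat_lit 281) (nat_lit 181)) (XT.nd (nat_lit 94) (nat_lit 0) (nat_lit 0) (XT.lf (nat_lit 0) (nat_lit 33260340995) (nat_lit 168) (nat_lit 58115594870) (nat_lit 0) (nat_lit 6044483423) (nat_lit 2) (nat_lit 5) (nat_lit 4) (nat_lit 4) (nat_lit 2) (nat_lit 4) (nat_lit 427) (nat_lit 281) (nat_lit 180)) (XT.lf (nat_lit 0) (nat_lit 35446120014) (nat_lit 168) (nat_lit 56731894857) (nat_lit 0) (nat_lit 8190983400) (nat_lit 2) (nat_lit 5) (nat_lit 4) (nat_lit 4) (nat_lit 2) (nat_lit 4) (nat_lit 428) (nat_lit 281) (nat_lit 179)))) (XT.nd (nat_lit 94) (nat_lit 0) (nat_lit 0) (XT.lf (nat_lit 0) (nat_lit 37694584676) (nat_lit 168) (nat_lit 55313226273) (nat_lit 0) (nat_lit 10401350057) (nat_lit 2) (nat_lit 5) (nat_lit 4) (nat_lit 4) (nat_lit 2) (nat_lit 4) (nat_lit 429) (nat_lit 281) (nat_lit 178)) (XT.nd (nat_lit 94) (nat_lit 0) (nat_lit 0) (XT.lf (nat_lit 0) (nat_lit 40007830785)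 (nat_lit 168) (nat_lit 53858266769) (nat_lit 0) (nat_lit 12677643688) (nat_lit 2) (nat_lit 5) (nat_lit 4) (nat_lit 4) (nat_lit 2) (nat_lit 4) (nat_lit 430) (nat_lit 281) (nat_lit 177)) (XT.lf (nat_lit 0) (nat_lit 42388014528) (nat_lit 168) (nat_lit 52365660171) (nat_lit 0) (nat_lit 15021986037) (nat_lit 2) (nat_lit 5) (nat_lit 4) (nat_lit 4) (nat_lit 2) (nat_lit 4) (nat_lit 431) (nat_lit 281) (nat_lit 176))))) (XT.nd (nat_lit 45778) (nat_lit 0) (nat_lit 4788) (XT.nd (nat_lit 45590) (nat_lit 0) (nat_lit 5796) (XT.lf (nat_lit 0) (nat_lit 44837354488) (nat_lit 168) (nat_lit 50834015212) (nat_lit 0) (nat_lit 17436562278) (nat_lit 2) (nat_lit 5) (nat_lit 4) (nat_lit 4) (nat_lit 2) (nat_lit 4) (nat_lit 432) (nat_lit 281) (nat_lit 175)) (XT.nd (nat_lit 94) (nat_lit 0) (nat_lit 0) (XT.lf (nat_lit 0) (nat_lit 45699537) (nat_lit 756) (nat_lit 3712154361) (nat_lit 0) (nat_lit 45699537) (nat_lit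 71) (nat_lit 5) (nat_lit 80) (nat_lit 4) (nat_lit 71) (nat_lit 4) (nat_lit 324) (nat_lit 282) (nat_lit 282)) (XT.lf (nat_lit 0) (nat_lit 2486992073) (nat_lit 756) (nat_lit 3924844365) (nat_lit 0) (nat_lit 1287129780) (nat_lit 71) (nat_lit 5) (nat_lit 80) (nat_lit 4) (nat_lit 71) (nat_lit 4) (nat_lit 325) (nat_lit 282) (nat_lit 281)))) (XT.nd (nat_lit 188) (nat_lit 504) (nat_lit 0) (XT.nd (nat_lit 94) (nat_lit 504) (nat_lit 0) (XT.lf (nat_lit 0) (nat_lit 4884456121) (nat_lit 756) (nat_lit 391279343) (nat_lit 0) (nat_lit 2520808867) (nat_lit 71) (nat_lit 5) (nat_lit 80) (nat_lit 4) (nat_lit 71) (nat_lit 4) (nat_lit 326) (nat_lit 282) (nat_lit 280)) (XT.lf (nat_lit 0) (nat_lit 3245060738) (nat_lit 504) (nat_lit 4073156572) (nat_lit 504) (nat_lit 580716922) (nat_lit 65) (nat_lit 4) (nat_lit 71) (nat_lit 5) (nat_lit 71) (nat_lit 4) (nat_lit 327) (nat_lit 282) (nat_lit 279))) (XT.nd (nat_lit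 94) (nat_lit 420) (nat_lit 0) (XT.lf (nat_lit 0) (nat_lit 1720230283) (nat_lit 588) (nat_lit 1093503927) (nat_lit 84) (nat_lit 5192820538) (nat_lit 64) (nat_lit 5) (nat_lit 71) (nat_lit 5) (nat_lit 65) (nat_lit 4) (nat_lit 328) (nat_lit 282) (nat_lit 278)) (XT.lf (nat_lit 0) (nat_lit 2551483122) (nat_lit 420) (nat_lit 1486284896) (nat_lit 504) (nat_lit 4081437212) (nat_lit 59) (nat_lit 5) (nat_lit 64) (nat_lit 5) (nat_lit 65) (nat_lit 4) (nat_lit 329) (nat_lit 282) (nat_lit 277)))))) (XT.nd (nat_lit 564) (nat_lit 1176) (nat_lit 0) (XT.nd (nat_lit 282) (nat_lit 420) (nat_lit 0) (XT.nd (nat_lit 94) (nat_lit 504) (nat_lit 0) (XT.lf (nat_lit 0) (nat_lit 6262146227) (nat_lit 420) (nat_lit 109774982) (nat_lit 504) (nat_lit 1865676949) (nat_lit 59) (nat_lit 5) (nat_lit 64) (nat_lit 5) (nat_lit 65) (nat_lit 4) (nat_lit 330) (nat_lit 282) (nat_lit 276)) (XT.nd (nat_lit 94) (nat_lit 0) (nat_lit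 0) (XT.lf (nat_lit 0) (nat_lit 374425945) (nat_lit 504) (nat_lit 6686929638) (nat_lit 84) (nat_lit 1299796398) (nat_lit 53) (nat_lit 5) (nat_lit 59) (nat_lit 5) (nat_lit 54) (nat_lit 4) (nat_lit 331) (nat_lit 282) (nat_lit 275)) (XT.lf (nat_lit 0) (nat_lit 2602599252) (nat_lit 504) (nat_lit 3101367308) (nat_lit 84) (nat_lit 2785790158) (nat_lit 53) (nat_lit 5) (nat_lit 59) (nat_lit 5) (nat_lit 54) (nat_lit 4) (nat_lit 332) (nat_lit 282) (nat_lit 274)))) (XT.nd (nat_lit 94) (nat_lit 84) (nat_lit 0) (XT.lf (nat_lit 0) (nat_lit 536347161) (nat_lit 336) (nat_lit 4306189355) (nat_lit 420) (nat_lit 3782064617) (nat_lit 49) (nat_lit 5) (nat_lit 53) (nat_lit 5) (nat_lit 54) (nat_lit 4) (nat_lit 333) (nat_lit 282) (nat_lit 273)) (XT.nd (nat_lit 94) (nat_lit 84) (nat_lit 0) (XT.lf (nat_lit 0) (nat_lit 4283478372) (nat_lit 336) (nat_lit 2839373007) (nat_lit 420) (nat_lit 1642137233) (nat_lit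 49) (nat_lit 5) (nat_lit 53) (nat_lit 5) (nat_lit 54) (nat_lit 4) (nat_lit 334) (nat_lit 282) (nat_lit 272)) (XT.lf (nat_lit 0) (nat_lit 492128238) (nat_lit 420) (nat_lit 837257157) (nat_lit 84) (nat_lit 7582483523) (nat_lit 48) (nat_lit 5) (nat_lit 53) (nat_lit 5) (nat_lit 49) (nat_lit 5) (nat_lit 335) (nat_lit 282) (nat_lit 271))))) (XT.nd (nat_lit 282) (nat_lit 420) (nat_lit 0) (XT.nd (nat_lit 94) (nat_lit 336) (nat_lit 0) (XT.lf (nat_lit 0) (nat_lit 2630995439) (nat_lit 504) (nat_lit 6171920300) (nat_lit 84) (nat_lit 261138639) (nat_lit 43) (nat_lit 5) (nat_lit 49) (nat_lit 5) (nat_lit 44) (nat_lit 4) (nat_lit 336) (nat_lit 282) (nat_lit 270)) (XT.nd (nat_lit 94) (nat_lit 336) (nat_lit 0) (XT.lf (nat_lit 0) (nat_lit 4800813973) (nat_lit 504) (nat_lit 2547565247) (nat_lit 84) (nat_lit 1874083230) (nat_lit 43) (nat_lit 5) (nat_lit 49) (nat_lit 5) (nat_lit 44) (nat_lit 4) (nat_lit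 337) (nat_lit 282) (nat_lit 269)) (XT.lf (nat_lit 0) (nat_lit 1146206738) (nat_lit 336) (nat_lit 5847019273) (nat_lit 420) (nat_lit 2394336568) (nat_lit 39) (nat_lit 5) (nat_lit 43) (nat_lit 5) (nat_lit 44) (nat_lit 4) (nat_lit 338) (nat_lit 282) (nat_lit 268)))) (XT.nd (nat_lit 188) (nat_lit 336) (nat_lit 0) (XT.nd (nat_lit 94) (nat_lit 84) (nat_lit 0) (XT.lf (nat_lit 0) (nat_lit 4943129624) (nat_lit 336) (nat_lit 4282059810) (nat_lit 420) (nat_lit 333856878) (nat_lit 39) (nat_lit 5) (nat_lit 43) (nat_lit 5) (nat_lit 44) (nat_lit 4) (nat_lit 339) (nat_lit 282) (nat_lit 267)) (XT.lf (nat_lit 0) (nat_lit 1700161020) (nat_lit 420) (nat_lit 960726266) (nat_lit 84) (nat_lit 7076452159) (nat_lit 38) (nat_lit 5) (nat_lit 43) (nat_lit 5) (nat_lit 39) (nat_lit 5) (nat_lit 340) (nat_lit 282) (nat_lit 266))) (XT.nd (nat_lit 94) (nat_lit 0) (nat_lit 0) (XT.lf (nat_lit 0) (nat_lit 2797805312)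 (nat_lit 336) (nat_lit 967617170) (nat_lit 420) (nat_lit 6156753507) (nat_lit 34) (nat_lit 5) (nat_lit 38) (nat_lit 5) (nat_lit 39) (nat_lit 5) (nat_lit 341) (nat_lit 282) (nat_lit 265)) (XT.lf (nat_lit 0) (nat_lit 5860785557) (nat_lit 420) (nat_lit 3491159588) (nat_lit 84) (nat_lit 762189348) (nat_lit 34) (nat_lit 5) (nat_lit 39) (nat_lit 5) (nat_lit 35) (nat_lit 4) (nat_lit 342) (nat_lit 282) (nat_lit 264))))))))
noncomputable def xc53 : XT := (XT.nd (nat_lit 2350) (nat_lit 588) (nat_lit 0) (XT.nd (nat_lit 1128) (nat_lit 672) (nat_lit 0) (XT.nd (nat_lit 564) (nat_lit 588) (nat_lit 0) (XT.nd (nat_lit 282) (nat_lit 252) (nat_lit 0) (XT.nd (nat_lit 94) (nat_lit 84) (nat_lit 0) (XT.lf (nat_lit 0) (nat_lit 186342669) (nat_lit 252) (nat_lit 7796292510) (nat_lit 336) (nat_lit 2330931319) (nat_lit 31) (nat_lit 5) (nat_lit 34) (nat_lit 5) (nat_lit 35) (nat_lit 4) (nat_lit 343) (nat_lit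 282) (nat_lit 263)) (XT.nd (nat_lit 94) (nat_lit 84) (nat_lit 0) (XT.lf (nat_lit 0) (nat_lit 3990291609) (nat_lit 252) (nat_lit 6167095479) (nat_lit 336) (nat_lit 362513232) (nat_lit 31) (nat_lit 5) (nat_lit 34) (nat_lit 5) (nat_lit 35) (nat_lit 4) (nat_lit 344) (nat_lit 282) (nat_lit 262)) (XT.lf (nat_lit 0) (nat_lit 1584714571) (nat_lit 336) (nat_lit 2898020274) (nat_lit 84) (nat_lit 6251191770) (nat_lit 30) (nat_lit 5) (nat_lit 34) (nat_lit 5) (nat_lit 31) (nat_lit 5) (nat_lit 345) (nat_lit 282) (nat_lit 261)))) (XT.nd (nat_lit 94) (nat_lit 0) (nat_lit 0) (XT.lf (nat_lit 0) (nat_lit 799363134) (nat_lit 252) (nat_lit 2746178519) (nat_lit 336) (nat_lit 7410439668) (nat_lit 27) (nat_lit 5) (nat_lit 30) (nat_lit 5) (nat_lit 31) (nat_lit 5) (nat_lit 346) (nat_lit 282) (nat_lit 260)) (XT.nd (nat_lit 94) (nat_lit 0) (nat_lit 0) (XT.lf (nat_lit 0) (nat_lit 4614219102) (nat_lit 252) (nat_lit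 936857334) (nat_lit 336) (nat_lit 5634625183) (nat_lit 27) (nat_lit 5) (nat_lit 30) (nat_lit 5) (nat_lit 31) (nat_lit 5) (nat_lit 347) (nat_lit 282) (nat_lit 259)) (XT.lf (nat_lit 0) (nat_lit 7582941872) (nat_lit 336) (nat_lit 2942790369) (nat_lit 84) (nat_lit 898197027) (nat_lit 27) (nat_lit 5) (nat_lit 31) (nat_lit 5) (nat_lit 28) (nat_lit 4) (nat_lit 348) (nat_lit 282) (nat_lit 258))))) (XT.nd (nat_lit 282) (nat_lit 252) (nat_lit 0) (XT.nd (nat_lit 94) (nat_lit 84) (nat_lit 0) (XT.lf (nat_lit 0) (nat_lit 747248515) (nat_lit 252) (nat_lit 8903843609) (nat_lit 336) (nat_lit 2019544330) (nat_lit 24) (nat_lit 5) (nat_lit 27) (nat_lit 5) (nat_lit 28) (nat_lit 4) (nat_lit 349) (nat_lit 282) (nat_lit 257)) (XT.nd (nat_lit 94) (nat_lit 84) (nat_lit 0) (XT.lf (nat_lit 0) (nat_lit 4558021139) (nat_lit 252) (nat_lit 7213110877) (nat_lit 336) (nat_lit 154497128) (nat_lit 24) (nat_lit 5) (nat_lit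 27) (nat_lit 5) (nat_lit 28) (nat_lit 4) (nat_lit 350) (nat_lit 282) (nat_lit 256)) (XT.lf (nat_lit 0) (nat_lit 1690417482) (nat_lit 336) (nat_lit 3774612829) (nat_lit 84) (nat_lit 6724507761) (nat_lit 23) (nat_lit 5) (nat_lit 27) (nat_lit 5) (nat_lit 24) (nat_lit 5) (nat_lit 351) (nat_lit 282) (nat_lit 255)))) (XT.nd (nat_lit 94) (nat_lit 252) (nat_lit 0) (XT.lf (nat_lit 0) (nat_lit 3548267252) (nat_lit 336) (nat_lit 125618552) (nat_lit 84) (nat_lit 8789201902) (nat_lit 23) (nat_lit 5) (nat_lit 27) (nat_lit 5) (nat_lit 24) (nat_lit 5) (nat_lit 352) (nat_lit 282) (nat_lit 254)) (XT.nd (nat_lit 94) (nat_lit 0) (nat_lit 0) (XT.lf (nat_lit 0) (nat_lit 3658009438) (nat_lit 252) (nat_lit 1802175134) (nat_lit 336) (nat_lit 7285271039) (nat_lit 20) (nat_lit 5) (nat_lit 23) (nat_lit 5) (nat_lit 24) (nat_lit 5) (nat_lit 353) (nat_lit 282) (nat_lit 253)) (XT.lf (nat_lit 0) (nat_lit 7394708019)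 (nat_lit 336) (nat_lit 5529190416) (nat_lit 84) (nat_lit 114037099) (nat_lit 20) (nat_lit 5) (nat_lit 24) (nat_lit 5) (nat_lit 21) (nat_lit 4) (nat_lit 354) (nat_lit 282) (nat_lit 252)))))) (XT.nd (nat_lit 564) (nat_lit 252) (nat_lit 0) (XT.nd (nat_lit 282) (nat_lit 252) (nat_lit 0) (XT.nd (nat_lit 94) (nat_lit 168) (nat_lit 0) (XT.lf (nat_lit 0) (nat_lit 9369560651) (nat_lit 336) (nat_lit 1930436375) (nat_lit 84) (nat_lit 2040309554) (nat_lit 20) (nat_lit 5) (nat_lit 24) (nat_lit 5) (nat_lit 21) (nat_lit 4) (nat_lit 355) (nat_lit 282) (nat_lit 251)) (XT.nd (nat_lit 94) (nat_lit 0) (nat_lit 0) (XT.lf (nat_lit 0) (nat_lit 1765621504) (nat_lit 168) (nat_lit 9620599117) (nat_lit 252) (nat_lit 2266641209) (nat_lit 18) (nat_lit 5) (nat_lit 20) (nat_lit 5) (nat_lit 21) (nat_lit 4) (nat_lit 356) (nat_lit 282) (nat_lit 250)) (XT.lf (nat_lit 0) (nat_lit 5567855033) (nat_lit 168) (nat_lit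 7881384569) (nat_lit 252) (nat_lit 526570188) (nat_lit 18) (nat_lit 5) (nat_lit 20) (nat_lit 5) (nat_lit 21) (nat_lit 4) (nat_lit 357) (nat_lit 282) (nat_lit 249)))) (XT.nd (nat_lit 94) (nat_lit 168) (nat_lit 0) (XT.lf (nat_lit 0) (nat_lit 1206138582) (nat_lit 252) (nat_lit 4882153853) (nat_lit 84) (nat_lit 8221386363) (nat_lit 17) (nat_lit 5) (nat_lit 20) (nat_lit 5) (nat_lit 18) (nat_lit 5) (nat_lit 358) (nat_lit 282) (nat_lit 248)) (XT.nd (nat_lit 94) (nat_lit 168) (nat_lit 0) (XT.lf (nat_lit 0) (nat_lit 2946930402) (nat_lit 252) (nat_lit 1299741631) (nat_lit 84) (nat_lit 10408319121) (nat_lit 17) (nat_lit 5) (nat_lit 20) (nat_lit 5) (nat_lit 18) (nat_lit 5) (nat_lit 359) (nat_lit 282) (nat_lit 247)) (XT.lf (nat_lit 0) (nat_lit 2396121237) (nat_lit 168) (nat_lit 2335685668) (nat_lit 252) (nat_lit 10279686887) (nat_lit 15) (nat_lit 5) (nat_lit 17) (nat_lit 5) (nat_lit 18) (nat_lit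 5) (nat_lit 360) (nat_lit 282) (nat_lit 246))))) (XT.nd (nat_lit 282) (nat_lit 252) (nat_lit 0) (XT.nd (nat_lit 94) (nat_lit 0) (nat_lit 0) (XT.lf (nat_lit 0) (nat_lit 6188693560) (nat_lit 168) (nat_lit 363799218) (nat_lit 252) (nat_lit 8827334343) (nat_lit 15) (nat_lit 5) (nat_lit 17) (nat_lit 5) (nat_lit 18) (nat_lit 5) (nat_lit 361) (nat_lit 282) (nat_lit 245)) (XT.nd (nat_lit 94) (nat_lit 0) (nat_lit 0) (XT.lf (nat_lit 0) (nat_lit 8413966583) (nat_lit 252) (nat_lit 5722397539) (nat_lit 84) (nat_lit 1623868615) (nat_lit 15) (nat_lit 5) (nat_lit 18) (nat_lit 5) (nat_lit 16) (nat_lit 4) (nat_lit 362) (nat_lit 282) (nat_lit 244)) (XT.lf (nat_lit 0) (nat_lit 10305623283) (nat_lit 252) (nat_lit 2193591137) (nat_lit 84) (nat_lit 3654233346) (nat_lit 15) (nat_lit 5) (nat_lit 18) (nat_lit 5) (nat_lit 16) (nat_lit 4) (nat_lit 363) (nat_lit 282) (nat_lit 243)))) (XT.nd (nat_lit 188) (nat_lit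 84) (nat_lit 0) (XT.nd (nat_lit 94) (nat_lit 0) (nat_lit 0) (XT.lf (nat_lit 0) (nat_lit 1431015571) (nat_lit 168) (nat_lit 10808797446) (nat_lit 252) (nat_lit 4319697510) (nat_lit 13) (nat_lit 5) (nat_lit 15) (nat_lit 5) (nat_lit 16) (nat_lit 4) (nat_lit 364) (nat_lit 282) (nat_lit 242)) (XT.lf (nat_lit 0) (nat_lit 5172493109) (nat_lit 168) (nat_lit 9054556529) (nat_lit 252) (nat_lit 2751479836) (nat_lit 13) (nat_lit 5) (nat_lit 15) (nat_lit 5) (nat_lit 16) (nat_lit 4) (nat_lit 365) (nat_lit 282) (nat_lit 241))) (XT.nd (nat_lit 94) (nat_lit 84) (nat_lit 0) (XT.lf (nat_lit 0) (nat_lit 8989224192) (nat_lit 168) (nat_lit 7257753127) (nat_lit 252) (nat_lit 1164606309) (nat_lit 13) (nat_lit 5) (nat_lit 15) (nat_lit 5) (nat_lit 16) (nat_lit 4) (nat_lit 366) (nat_lit 282) (nat_lit 240)) (XT.lf (nat_lit 0) (nat_lit 433488782) (nat_lit 252) (nat_lit 4978698914) (nat_lit 84) (nat_lit 12446752899)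 (nat_lit 12) (nat_lit 5) (nat_lit 15) (nat_lit 5) (nat_lit 13) (nat_lit 5) (nat_lit 367) (nat_lit 282) (nat_lit 239))))))) (XT.nd (nat_lit 1222) (nat_lit 336) (nat_lit 0) (XT.nd (nat_lit 564) (nat_lit 84) (nat_lit 0) (XT.nd (nat_lit 282) (nat_lit 0) (nat_lit 0) (XT.nd (nat_lit 94) (nat_lit 168) (nat_lit 0) (XT.lf (nat_lit 0) (nat_lit 2029316682) (nat_lit 252) (nat_lit 1479219809) (nat_lit 84) (nat_lit 14812252244) (nat_lit 12) (nat_lit 5) (nat_lit 15) (nat_lit 5) (nat_lit 13) (nat_lit 5) (nat_lit 368) (nat_lit 282) (nat_lit 238)) (XT.nd (nat_lit 94) (nat_lit 0) (nat_lit 0) (XT.lf (nat_lit 0) (nat_lit 2133885843) (nat_lit 168) (nat_lit 1535111660) (nat_lit 252) (nat_lit 15128262959) (nat_lit 10) (nat_lit 5) (nat_lit 12) (nat_lit 5) (nat_lit 13) (nat_lit 5) (nat_lit 369) (nat_lit 282) (nat_lit 237)) (XT.lf (nat_lit 0) (nat_lit 5353598671) (nat_lit 252) (nat_lit 13441082617) (nat_lit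 84) (nat_lit 494132898) (nat_lit 10) (nat_lit 5) (nat_lit 13) (nat_lit 5) (nat_lit 11) (nat_lit 4) (nat_lit 370) (nat_lit 282) (nat_lit 236)))) (XT.nd (nat_lit 94) (nat_lit 0) (nat_lit 0) (XT.lf (nat_lit 0) (nat_lit 7080456043) (nat_lit 252) (nat_lit 10171750471) (nat_lit 84) (nat_lit 2543832840) (nat_lit 10) (nat_lit 5) (nat_lit 13) (nat_lit 5) (nat_lit 11) (nat_lit 4) (nat_lit 371) (nat_lit 282) (nat_lit 235)) (XT.nd (nat_lit 94) (nat_lit 0) (nat_lit 0) (XT.lf (nat_lit 0) (nat_lit 8835950733) (nat_lit 252) (nat_lit 6837102324) (nat_lit 84) (nat_lit 4646827779) (nat_lit 10) (nat_lit 5) (nat_lit 13) (nat_lit 5) (nat_lit 11) (nat_lit 4) (nat_lit 372) (nat_lit 282) (nat_lit 234)) (XT.lf (nat_lit 0) (nat_lit 10621719046) (nat_lit 252) (nat_lit 3434029933) (nat_lit 84) (nat_lit 6805077927) (nat_lit 10) (nat_lit 5) (nat_lit 13) (nat_lit 5) (nat_lit 11) (nat_lit 4) (nat_lit 373) (nat_lit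 282) (nat_lit 233))))) (XT.nd (nat_lit 282) (nat_lit 0) (nat_lit 0) (XT.nd (nat_lit 94) (nat_lit 0) (nat_lit 0) (XT.lf (nat_lit 0) (nat_lit 41474336) (nat_lit 84) (nat_lit 12398362599) (nat_lit 168) (nat_lit 8979532093) (nat_lit 9) (nat_lit 5) (nat_lit 10) (nat_lit 5) (nat_lit 11) (nat_lit 4) (nat_lit 374) (nat_lit 282) (nat_lit 232)) (XT.nd (nat_lit 94) (nat_lit 0) (nat_lit 0) (XT.lf (nat_lit 0) (nat_lit 3663963084) (nat_lit 84) (nat_lit 10663148287) (nat_lit 168) (nat_lit 7667827972) (nat_lit 9) (nat_lit 5) (nat_lit 10) (nat_lit 5) (nat_lit 11) (nat_lit 4) (nat_lit 375) (nat_lit 282) (nat_lit 231)) (XT.lf (nat_lit 0) (nat_lit 7366202150) (nat_lit 84) (nat_lit 8884332870) (nat_lit 168) (nat_lit 6338617080) (nat_lit 9) (nat_lit 5) (nat_lit 10) (nat_lit 5) (nat_lit 11) (nat_lit 4) (nat_lit 376) (nat_lit 282) (nat_lit 230)))) (XT.nd (nat_lit 188) (nat_lit 0) (nat_lit 0) (XT.nd (nat_lit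 94) (nat_lit 0) (nat_lit 0) (XT.lf (nat_lit 0) (nat_lit 11151642410) (nat_lit 84) (nat_lit 7060258305) (nat_lit 168) (nat_lit 4990660454) (nat_lit 9) (nat_lit 5) (nat_lit 10) (nat_lit 5) (nat_lit 11) (nat_lit 4) (nat_lit 377) (nat_lit 282) (nat_lit 229)) (XT.lf (nat_lit 0) (nat_lit 15023812290) (nat_lit 84) (nat_lit 5189224365) (nat_lit 168) (nat_lit 3622701658) (nat_lit 9) (nat_lit 5) (nat_lit 10) (nat_lit 5) (nat_lit 11) (nat_lit 4) (nat_lit 378) (nat_lit 282) (nat_lit 228))) (XT.nd (nat_lit 94) (nat_lit 0) (nat_lit 0) (XT.lf (nat_lit 0) (nat_lit 18986321058) (nat_lit 84) (nat_lit 3269487050) (nat_lit 168) (nat_lit 2233465610) (nat_lit 9) (nat_lit 5) (nat_lit 10) (nat_lit 5) (nat_lit 11) (nat_lit 4) (nat_lit 379) (nat_lit 282) (nat_lit 227)) (XT.lf (nat_lit 0) (nat_lit 23042862188) (nat_lit 84) (nat_lit 1299256962) (nat_lit 168) (nat_lit 821657396) (nat_lit 9) (nat_lit 5) (nat_lit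 10) (nat_lit 5) (nat_lit 11) (nat_lit 4) (nat_lit 380) (nat_lit 282) (nat_lit 226)))))) (XT.nd (nat_lit 564) (nat_lit 84) (nat_lit 0) (XT.nd (nat_lit 282) (nat_lit 0) (nat_lit 0) (XT.nd (nat_lit 94) (nat_lit 0) (nat_lit 0) (XT.lf (nat_lit 0) (nat_lit 622520523) (nat_lit 252) (nat_lit 24508021083) (nat_lit 84) (nat_lit 728498623) (nat_lit 6) (nat_lit 5) (nat_lit 9) (nat_lit 5) (nat_lit 7) (nat_lit 4) (nat_lit 381) (nat_lit 282) (nat_lit 225)) (XT.nd (nat_lit 94) (nat_lit 0) (nat_lit 0) (XT.lf (nat_lit 0) (nat_lit 2110793022) (nat_lit 252) (nat_lit 21650276664) (nat_lit 84) (nat_lit 2814104895) (nat_lit 6) (nat_lit 5) (nat_lit 9) (nat_lit 5) (nat_lit 7) (nat_lit 4) (nat_lit 382) (nat_lit 282) (nat_lit 224)) (XT.lf (nat_lit 0) (nat_lit 3626521138) (nat_lit 252) (nat_lit 18731810579) (nat_lit 84) (nat_lit 4955840081) (nat_lit 6) (nat_lit 5) (nat_lit 9) (nat_lit 5) (nat_lit 7) (nat_lit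 4) (nat_lit 383) (nat_lit 282) (nat_lit 223)))) (XT.nd (nat_lit 94) (nat_lit 0) (nat_lit 0) (XT.lf (nat_lit 0) (nat_lit 5171117686) (nat_lit 252) (nat_lit 15749902514) (nat_lit 84) (nat_lit 7155700501) (nat_lit 6) (nat_lit 5) (nat_lit 9) (nat_lit 5) (nat_lit 7) (nat_lit 4) (nat_lit 384) (nat_lit 282) (nat_lit 222)) (XT.nd (nat_lit 94) (nat_lit 0) (nat_lit 0) (XT.lf (nat_lit 0) (nat_lit 6746022394) (nat_lit 252) (nat_lit 12701773016) (nat_lit 84) (nat_lit 9415736657) (nat_lit 6) (nat_lit 5) (nat_lit 9) (nat_lit 5) (nat_lit 7) (nat_lit 4) (nat_lit 385) (nat_lit 282) (nat_lit 221)) (XT.lf (nat_lit 0) (nat_lit 8352703237) (nat_lit 252) (nat_lit 9584580910) (nat_lit 84) (nat_lit 11738055138) (nat_lit 6) (nat_lit 5) (nat_lit 9) (nat_lit 5) (nat_lit 7) (nat_lit 4) (nat_lit 386) (nat_lit 282) (nat_lit 220))))) (XT.nd (nat_lit 282) (nat_lit 0) (nat_lit 0) (XT.nd (nat_lit 94) (nat_lit 84)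 (nat_lit 0) (XT.lf (nat_lit 0) (nat_lit 9992657811) (nat_lit 252) (nat_lit 6395420646) (nat_lit 84) (nat_lit 14124820589) (nat_lit 6) (nat_lit 5) (nat_lit 9) (nat_lit 5) (nat_lit 7) (nat_lit 4) (nat_lit 387) (nat_lit 282) (nat_lit 219)) (XT.nd (nat_lit 94) (nat_lit 84) (nat_lit 0) (XT.lf (nat_lit 0) (nat_lit 11667414723) (nat_lit 252) (nat_lit 3131319593) (nat_lit 84) (nat_lit 16578257726) (nat_lit 6) (nat_lit 5) (nat_lit 9) (nat_lit 5) (nat_lit 7) (nat_lit 4) (nat_lit 388) (nat_lit 282) (nat_lit 218)) (XT.lf (nat_lit 0) (nat_lit 215098487) (nat_lit 84) (nat_lit 13165570341) (nat_lit 168) (nat_lit 18887688724) (nat_lit 5) (nat_lit 5) (nat_lit 6) (nat_lit 5) (nat_lit 7) (nat_lit 4) (nat_lit 389) (nat_lit 282) (nat_lit 217)))) (XT.nd (nat_lit 188) (nat_lit 0) (nat_lit 0) (XT.nd (nat_lit 94) (nat_lit 0) (nat_lit 0) (XT.lf (nat_lit 0) (nat_lit 3708668917) (nat_lit 84) (nat_lit 11455735195)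 (nat_lit 168) (nat_lit 18022480309) (nat_lit 5) (nat_lit 5) (nat_lit 6) (nat_lit 5) (nat_lit 7) (nat_lit 4) (nat_lit 390) (nat_lit 282) (nat_lit 216)) (XT.lf (nat_lit 0) (nat_lit 7288261717) (nat_lit 84) (nat_lit 9700319688) (nat_lit 168) (nat_lit 17145830165) (nat_lit 5) (nat_lit 5) (nat_lit 6) (nat_lit 5) (nat_lit 7) (nat_lit 4) (nat_lit 391) (nat_lit 282) (nat_lit 215))) (XT.nd (nat_lit 94) (nat_lit 0) (nat_lit 0) (XT.lf (nat_lit 0) (nat_lit 10957213443) (nat_lit 84) (nat_lit 7897687589) (nat_lit 168) (nat_lit 16256921161) (nat_lit 5) (nat_lit 5) (nat_lit 6) (nat_lit 5) (nat_lit 7) (nat_lit 4) (nat_lit 392) (nat_lit 282) (nat_lit 214)) (XT.lf (nat_lit 0) (nat_lit 14718943941) (nat_lit 84) (nat_lit 6046158656) (nat_lit 168) (nat_lit 15354924742) (nat_lit 5) (nat_lit 5) (nat_lit 6) (nat_lit 5) (nat_lit 7) (nat_lit 4) (nat_lit 393) (nat_lit 282) (nat_lit 213))))))))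
noncomputable def xc54 : XT := (XT.nd (nat_lit 2350) (nat_lit 0) (nat_lit 0) (XT.nd (nat_lit 1128) (nat_lit 168) (nat_lit 0) (XT.nd (nat_lit 564) (nat_lit 84) (nat_lit 0) (XT.nd (nat_lit 282) (nat_lit 0) (nat_lit 0) (XT.nd (nat_lit 94) (nat_lit 0) (nat_lit 0) (XT.lf (nat_lit 0) (nat_lit 18576959538) (nat_lit 84) (nat_lit 4144007070) (nat_lit 168) (nat_lit 14439000152) (nat_lit 5) (nat_lit 5) (nat_lit 6) (nat_lit 5) (nat_lit 7) (nat_lit 4) (nat_lit 394) (nat_lit 282) (nat_lit 212)) (XT.nd (nat_lit 94) (nat_lit 0) (nat_lit 0) (XT.lf (nat_lit 0) (nat_lit 22534856310) (nat_lit 84) (nat_lit 2189459827) (nat_lit 168) (nat_lit 13508293654) (nat_lit 5) (nat_lit 5) (nat_lit 6) (nat_lit 5) (nat_lit 7) (nat_lit 4) (nat_lit 395) (nat_lit 282) (nat_lit 211)) (XT.lf (nat_lit 0) (nat_lit 26596323431) (nat_lit 84) (nat_lit 180695083) (nat_lit 168) (nat_lit 12561937731) (nat_lit 5) (nat_lit 5) (nat_lit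 6) (nat_lit 5) (nat_lit 7) (nat_lit 4) (nat_lit 396) (nat_lit 282) (nat_lit 210)))) (XT.nd (nat_lit 94) (nat_lit 0) (nat_lit 0) (XT.lf (nat_lit 0) (nat_lit 28899678169) (nat_lit 168) (nat_lit 9733581838) (nat_lit 0) (nat_lit 1846197923) (nat_lit 5) (nat_lit 5) (nat_lit 7) (nat_lit 4) (nat_lit 5) (nat_lit 4) (nat_lit 397) (nat_lit 282) (nat_lit 209)) (XT.nd (nat_lit 94) (nat_lit 0) (nat_lit 0) (XT.lf (nat_lit 0) (nat_lit 31077933154) (nat_lit 168) (nat_lit 6651455311) (nat_lit 0) (nat_lit 3926296003) (nat_lit 5) (nat_lit 5) (nat_lit 7) (nat_lit 4) (nat_lit 5) (nat_lit 4) (nat_lit 398) (nat_lit 282) (nat_lit 208)) (XT.lf (nat_lit 0) (nat_lit 33312021313) (nat_lit 168) (nat_lit 3491587851) (nat_lit 0) (nat_lit 6065178630) (nat_lit 5) (nat_lit 5) (nat_lit 7) (nat_lit 4) (nat_lit 5) (nat_lit 4) (nat_lit 399) (nat_lit 282) (nat_lit 207))))) (XT.nd (nat_lit 282) (nat_lit 0) (nat_lit 0)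 (XT.nd (nat_lit 94) (nat_lit 84) (nat_lit 0) (XT.lf (nat_lit 0) (nat_lit 35604025050) (nat_lit 168) (nat_lit 251034130) (nat_lit 0) (nat_lit 8264839465) (nat_lit 5) (nat_lit 5) (nat_lit 7) (nat_lit 4) (nat_lit 5) (nat_lit 4) (nat_lit 400) (nat_lit 282) (nat_lit 206)) (XT.nd (nat_lit 94) (nat_lit 0) (nat_lit 0) (XT.lf (nat_lit 0) (nat_lit 3136418223) (nat_lit 84) (nat_lit 34850776188) (nat_lit 84) (nat_lit 7422024256) (nat_lit 4) (nat_lit 4) (nat_lit 5) (nat_lit 5) (nat_lit 5) (nat_lit 4) (nat_lit 401) (nat_lit 282) (nat_lit 205)) (XT.lf (nat_lit 0) (nat_lit 6617622604) (nat_lit 84) (nat_lit 33818405817) (nat_lit 84) (nat_lit 6302780611) (nat_lit 4) (nat_lit 4) (nat_lit 5) (nat_lit 5) (nat_lit 5) (nat_lit 4) (nat_lit 402) (nat_lit 282) (nat_lit 204)))) (XT.nd (nat_lit 94) (nat_lit 0) (nat_lit 0) (XT.lf (nat_lit 0) (nat_lit 10190662084) (nat_lit 84) (nat_lit 32759606072) (nat_lit 84)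 (nat_lit 5159719688) (nat_lit 4) (nat_lit 4) (nat_lit 5) (nat_lit 5) (nat_lit 5) (nat_lit 4) (nat_lit 403) (nat_lit 282) (nat_lit 203)) (XT.nd (nat_lit 94) (nat_lit 0) (nat_lit 0) (XT.lf (nat_lit 0) (nat_lit 13858867108) (nat_lit 84) (nat_lit 31673390042) (nat_lit 84) (nat_lit 3991776036) (nat_lit 4) (nat_lit 4) (nat_lit 5) (nat_lit 5) (nat_lit 5) (nat_lit 4) (nat_lit 404) (nat_lit 282) (nat_lit 202)) (XT.lf (nat_lit 0) (nat_lit 17625656829) (nat_lit 84) (nat_lit 30558745258) (nat_lit 84) (nat_lit 2797861008) (nat_lit 4) (nat_lit 4) (nat_lit 5) (nat_lit 5) (nat_lit 5) (nat_lit 4) (nat_lit 405) (nat_lit 282) (nat_lit 201)))))) (XT.nd (nat_lit 564) (nat_lit 84) (nat_lit 0) (XT.nd (nat_lit 282) (nat_lit 0) (nat_lit 0) (XT.nd (nat_lit 94) (nat_lit 84) (nat_lit 0) (XT.lf (nat_lit 0) (nat_lit 21494542290) (nat_lit 84) (nat_lit 29414632756) (nat_lit 84) (nat_lit 1576861752) (nat_lit 4)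 (nat_lit 4) (nat_lit 5) (nat_lit 5) (nat_lit 5) (nat_lit 4) (nat_lit 406) (nat_lit 282) (nat_lit 200)) (XT.nd (nat_lit 94) (nat_lit 84) (nat_lit 0) (XT.lf (nat_lit 0) (nat_lit 25469129696) (nat_lit 84) (nat_lit 28239986102) (nat_lit 84) (nat_lit 327640166) (nat_lit 4) (nat_lit 4) (nat_lit 5) (nat_lit 5) (nat_lit 5) (nat_lit 4) (nat_lit 407) (nat_lit 282) (nat_lit 199)) (XT.lf (nat_lit 0) (nat_lit 931808263) (nat_lit 168) (nat_lit 26092175972) (nat_lit 84) (nat_lit 28611589348) (nat_lit 3) (nat_lit 5) (nat_lit 5) (nat_lit 5) (nat_lit 4) (nat_lit 4) (nat_lit 408) (nat_lit 282) (nat_lit 198)))) (XT.nd (nat_lit 94) (nat_lit 0) (nat_lit 0) (XT.lf (nat_lit 0) (nat_lit 2214617916) (nat_lit 168) (nat_lit 23556947298) (nat_lit 84) (nat_lit 31512597264) (nat_lit 3) (nat_lit 5) (nat_lit 5) (nat_lit 5) (nat_lit 4) (nat_lit 4) (nat_lit 409) (nat_lit 282) (nat_lit 197)) (XT.nd (nat_lit 94) (nat_lit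 0) (nat_lit 0) (XT.lf (nat_lit 0) (nat_lit 3528585724) (nat_lit 168) (nat_lit 20956326917) (nat_lit 84) (nat_lit 34499247424) (nat_lit 3) (nat_lit 5) (nat_lit 5) (nat_lit 5) (nat_lit 4) (nat_lit 4) (nat_lit 410) (nat_lit 282) (nat_lit 196)) (XT.lf (nat_lit 0) (nat_lit 4874936441) (nat_lit 168) (nat_lit 18287890778) (nat_lit 84) (nat_lit 37574323697) (nat_lit 3) (nat_lit 5) (nat_lit 5) (nat_lit 5) (nat_lit 4) (nat_lit 4) (nat_lit 411) (nat_lit 282) (nat_lit 195))))) (XT.nd (nat_lit 282) (nat_lit 84) (nat_lit 0) (XT.nd (nat_lit 94) (nat_lit 0) (nat_lit 0) (XT.lf (nat_lit 0) (nat_lit 6254925009) (nat_lit 168) (nat_lit 15549151620) (nat_lit 84) (nat_lit 40740692377) (nat_lit 3) (nat_lit 5) (nat_lit 5) (nat_lit 5) (nat_lit 4) (nat_lit 4) (nat_lit 412) (nat_lit 282) (nat_lit 194)) (XT.nd (nat_lit 94) (nat_lit 0) (nat_lit 0) (XT.lf (nat_lit 0) (nat_lit 7669837720) (nat_lit 168) (nat_lit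 12737556649) (nat_lit 84) (nat_lit 44001304852) (nat_lit 3) (nat_lit 5) (nat_lit 5) (nat_lit 5) (nat_lit 4) (nat_lit 4) (nat_lit 413) (nat_lit 282) (nat_lit 193)) (XT.lf (nat_lit 0) (nat_lit 9120993423) (nat_lit 168) (nat_lit 9850485166) (nat_lit 84) (nat_lit 47359200353) (nat_lit 3) (nat_lit 5) (nat_lit 5) (nat_lit 5) (nat_lit 4) (nat_lit 4) (nat_lit 414) (nat_lit 282) (nat_lit 192)))) (XT.nd (nat_lit 188) (nat_lit 84) (nat_lit 0) (XT.nd (nat_lit 94) (nat_lit 0) (nat_lit 0) (XT.lf (nat_lit 0) (nat_lit 10609744745) (nat_lit 168) (nat_lit 6885246118) (nat_lit 84) (nat_lit 50817508792) (nat_lit 3) (nat_lit 5) (nat_lit 5) (nat_lit 5) (nat_lit 4) (nat_lit 4) (nat_lit 415) (nat_lit 282) (nat_lit 191)) (XT.lf (nat_lit 0) (nat_lit 12137479360) (nat_lit 168) (nat_lit 3839075590) (nat_lit 84) (nat_lit 54379453673) (nat_lit 3) (nat_lit 5) (nat_lit 5) (nat_lit 5) (nat_lit 4) (nat_lit 4) (nat_lit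 416) (nat_lit 282) (nat_lit 190))) (XT.nd (nat_lit 94) (nat_lit 84) (nat_lit 0) (XT.lf (nat_lit 0) (nat_lit 13705621275) (nat_lit 168) (nat_lit 709134233) (nat_lit 84) (nat_lit 58048355103) (nat_lit 3) (nat_lit 5) (nat_lit 5) (nat_lit 5) (nat_lit 4) (nat_lit 4) (nat_lit 417) (nat_lit 282) (nat_lit 189)) (XT.lf (nat_lit 0) (nat_lit 2559054633) (nat_lit 84) (nat_lit 12781963669) (nat_lit 168) (nat_lit 59293964387) (nat_lit 2) (nat_lit 5) (nat_lit 3) (nat_lit 5) (nat_lit 4) (nat_lit 4) (nat_lit 418) (nat_lit 282) (nat_lit 188))))))) (XT.nd (nat_lit 1222) (nat_lit 0) (nat_lit 0) (XT.nd (nat_lit 564) (nat_lit 0) (nat_lit 0) (XT.nd (nat_lit 282) (nat_lit 0) (nat_lit 0) (XT.nd (nat_lit 94) (nat_lit 0) (nat_lit 0) (XT.lf (nat_lit 0) (nat_lit 5933355391) (nat_lit 84) (nat_lit 11094516954) (nat_lit 168) (nat_lit 59846313921) (nat_lit 2) (nat_lit 5) (nat_lit 3) (nat_lit 5) (nat_lit 4) (nat_lit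 4) (nat_lit 419) (nat_lit 282) (nat_lit 187)) (XT.nd (nat_lit 94) (nat_lit 0) (nat_lit 0) (XT.lf (nat_lit 0) (nat_lit 9402331986) (nat_lit 84) (nat_lit 9358244393) (nat_lit 168) (nat_lit 60422454693) (nat_lit 2) (nat_lit 5) (nat_lit 3) (nat_lit 5) (nat_lit 4) (nat_lit 4) (nat_lit 420) (nat_lit 282) (nat_lit 186)) (XT.lf (nat_lit 0) (nat_lit 12969217870) (nat_lit 84) (nat_lit 7571527597) (nat_lit 168) (nat_lit 61022923727) (nat_lit 2) (nat_lit 5) (nat_lit 3) (nat_lit 5) (nat_lit 4) (nat_lit 4) (nat_lit 421) (nat_lit 282) (nat_lit 185)))) (XT.nd (nat_lit 94) (nat_lit 0) (nat_lit 0) (XT.lf (nat_lit 0) (nat_lit 16637337753) (nat_lit 84) (nat_lit 5732701160) (nat_lit 168) (nat_lit 61648280723) (nat_lit 2) (nat_lit 5) (nat_lit 3) (nat_lit 5) (nat_lit 4) (nat_lit 4) (nat_lit 422) (nat_lit 282) (nat_lit 184)) (XT.nd (nat_lit 94) (nat_lit 0) (nat_lit 0) (XT.lf (nat_lit 0) (nat_lit 20410110706)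 (nat_lit 84) (nat_lit 3840051104) (nat_lit 168) (nat_lit 62299108579) (nat_lit 2) (nat_lit 5) (nat_lit 3) (nat_lit 5) (nat_lit 4) (nat_lit 4) (nat_lit 423) (nat_lit 282) (nat_lit 183)) (XT.lf (nat_lit 0) (nat_lit 24291053351) (nat_lit 84) (nat_lit 1891813279) (nat_lit 168) (nat_lit 62976013935) (nat_lit 2) (nat_lit 5) (nat_lit 3) (nat_lit 5) (nat_lit 4) (nat_lit 4) (nat_lit 424) (nat_lit 282) (nat_lit 182))))) (XT.nd (nat_lit 282) (nat_lit 0) (nat_lit 0) (XT.nd (nat_lit 94) (nat_lit 0) (nat_lit 0) (XT.lf (nat_lit 0) (nat_lit 28171084046) (nat_lit 168) (nat_lit 63566928652) (nat_lit 0) (nat_lit 111534889) (nat_lit 2) (nat_lit 5) (nat_lit 4) (nat_lit 4) (nat_lit 2) (nat_lit 4) (nat_lit 425) (nat_lit 282) (nat_lit 181)) (XT.nd (nat_lit 94) (nat_lit 0) (nat_lit 0) (XT.lf (nat_lit 0) (nat_lit 30234892061) (nat_lit 168) (nat_lit 62253476200) (nat_lit 0) (nat_lit 2134846212) (nat_lit 2)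 (nat_lit 5) (nat_lit 4) (nat_lit 4) (nat_lit 2) (nat_lit 4) (nat_lit 426) (nat_lit 282) (nat_lit 180)) (XT.lf (nat_lit 0) (nat_lit 32357447339) (nat_lit 168) (nat_lit 60907478560) (nat_lit 0) (nat_lit 4218122447) (nat_lit 2) (nat_lit 5) (nat_lit 4) (nat_lit 4) (nat_lit 2) (nat_lit 4) (nat_lit 427) (nat_lit 282) (nat_lit 179)))) (XT.nd (nat_lit 188) (nat_lit 0) (nat_lit 0) (XT.nd (nat_lit 94) (nat_lit 0) (nat_lit 0) (XT.lf (nat_lit 0) (nat_lit 34540728324) (nat_lit 168) (nat_lit 59527681121) (nat_lit 0) (nat_lit 6363305428) (nat_lit 2) (nat_lit 5) (nat_lit 4) (nat_lit 4) (nat_lit 2) (nat_lit 4) (nat_lit 428) (nat_lit 282) (nat_lit 178)) (XT.lf (nat_lit 0) (nat_lit 36786770062) (nat_lit 168) (nat_lit 58112797769) (nat_lit 0) (nat_lit 8572394688) (nat_lit 2) (nat_lit 5) (nat_lit 4) (nat_lit 4) (nat_lit 2) (nat_lit 4) (nat_lit 429) (nat_lit 282) (nat_lit 177))) (XT.nd (nat_lit 94) (nat_lit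 0) (nat_lit 0) (XT.lf (nat_lit 0) (nat_lit 39097666100) (nat_lit 168) (nat_lit 56661509683) (nat_lit 0) (nat_lit 10847449332) (nat_lit 2) (nat_lit 5) (nat_lit 4) (nat_lit 4) (nat_lit 2) (nat_lit 4) (nat_lit 430) (nat_lit 282) (nat_lit 176)) (XT.lf (nat_lit 0) (nat_lit 41475570435) (nat_lit 168) (nat_lit 55172464111) (nat_lit 0) (nat_lit 13190589947) (nat_lit 2) (nat_lit 5) (nat_lit 4) (nat_lit 4) (nat_lit 2) (nat_lit 4) (nat_lit 431) (nat_lit 282) (nat_lit 175)))))) (XT.nd (nat_lit 45872) (nat_lit 0) (nat_lit 3948) (XT.nd (nat_lit 45590) (nat_lit 0) (nat_lit 5796) (XT.nd (nat_lit 45402) (nat_lit 0) (nat_lit 6552) (XT.lf (nat_lit 0) (nat_lit 43922699522) (nat_lit 168) (nat_lit 53644273107) (nat_lit 0) (nat_lit 15604000587) (nat_lit 2) (nat_lit 5) (nat_lit 4) (nat_lit 4) (nat_lit 2) (nat_lit 4) (nat_lit 432) (nat_lit 282) (nat_lit 174)) (XT.nd (nat_lit 94) (nat_lit 0) (nat_lit 0) (XT.lf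 (nat_lit 0) (nat_lit 323779843) (nat_lit 924) (nat_lit 1696726482) (nat_lit 924) (nat_lit 1696726482) (nat_lit 80) (nat_lit 4) (nat_lit 91) (nat_lit 5) (nat_lit 91) (nat_lit 4) (nat_lit 322) (nat_lit 283) (nat_lit 283)) (XT.lf (nat_lit 0) (nat_lit 4180881283) (nat_lit 924) (nat_lit 2306660708) (nat_lit 924) (nat_lit 1031253884) (nat_lit 80) (nat_lit 4) (nat_lit 91) (nat_lit 5) (nat_lit 91) (nat_lit 4) (nat_lit 323) (nat_lit 283) (nat_lit 282)))) (XT.nd (nat_lit 94) (nat_lit 0) (nat_lit 0) (XT.lf (nat_lit 0) (nat_lit 134542932) (nat_lit 672) (nat_lit 1168759766) (nat_lit 756) (nat_lit 6304902229) (nat_lit 71) (nat_lit 5) (nat_lit 79) (nat_lit 5) (nat_lit 80) (nat_lit 4) (nat_lit 324) (nat_lit 283) (nat_lit 281)) (XT.nd (nat_lit 94) (nat_lit 0) (nat_lit 0) (XT.lf (nat_lit 0) (nat_lit 3651657765) (nat_lit 756) (nat_lit 3999227095) (nat_lit 0) (nat_lit 50952486) (nat_lit 71) (nat_lit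 5) (nat_lit 80) (nat_lit 4) (nat_lit 71) (nat_lit 4) (nat_lit 325) (nat_lit 283) (nat_lit 280)) (XT.lf (nat_lit 0) (nat_lit 6014549854) (nat_lit 756) (nat_lit 501184572) (nat_lit 0) (nat_lit 1285052179) (nat_lit 71) (nat_lit 5) (nat_lit 80) (nat_lit 4) (nat_lit 71) (nat_lit 4) (nat_lit 326) (nat_lit 283) (nat_lit 279))))) (XT.nd (nat_lit 282) (nat_lit 840) (nat_lit 0) (XT.nd (nat_lit 94) (nat_lit 420) (nat_lit 0) (XT.lf (nat_lit 0) (nat_lit 498514858) (nat_lit 588) (nat_lit 4811865982) (nat_lit 84) (nat_lit 2594014435) (nat_lit 64) (nat_lit 5) (nat_lit 71) (nat_lit 5) (nat_lit 65) (nat_lit 4) (nat_lit 327) (nat_lit 283) (nat_lit 278)) (XT.nd (nat_lit 94) (nat_lit 420) (nat_lit 0) (XT.lf (nat_lit 0) (nat_lit 2754287266) (nat_lit 588) (nat_lit 1292324311) (nat_lit 84) (nat_lit 3966536557) (nat_lit 64) (nat_lit 5) (nat_lit 71) (nat_lit 5) (nat_lit 65) (nat_lit 4) (nat_lit 328) (nat_lit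 283) (nat_lit 277)) (XT.lf (nat_lit 0) (nat_lit 2313862494) (nat_lit 420) (nat_lit 2723137145) (nat_lit 504) (nat_lit 3090143557) (nat_lit 59) (nat_lit 5) (nat_lit 64) (nat_lit 5) (nat_lit 65) (nat_lit 4) (nat_lit 329) (nat_lit 283) (nat_lit 276)))) (XT.nd (nat_lit 188) (nat_lit 336) (nat_lit 0) (XT.nd (nat_lit 94) (nat_lit 504) (nat_lit 0) (XT.lf (nat_lit 0) (nat_lit 5990857230) (nat_lit 420) (nat_lit 1348469721) (nat_lit 504) (nat_lit 907452805) (nat_lit 59) (nat_lit 5) (nat_lit 64) (nat_lit 5) (nat_lit 65) (nat_lit 4) (nat_lit 330) (nat_lit 283) (nat_lit 275)) (XT.lf (nat_lit 0) (nat_lit 1266394451) (nat_lit 504) (nat_lit 7015061551) (nat_lit 84) (nat_lit 90280141) (nat_lit 53) (nat_lit 5) (nat_lit 59) (nat_lit 5) (nat_lit 54) (nat_lit 4) (nat_lit 331) (nat_lit 283) (nat_lit 274))) (XT.nd (nat_lit 94) (nat_lit 336) (nat_lit 0) (XT.lf (nat_lit 0) (nat_lit 3463730710) (nat_lit 504)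 (nat_lit 3463869725) (nat_lit 84) (nat_lit 1573930928) (nat_lit 53) (nat_lit 5) (nat_lit 59) (nat_lit 5) (nat_lit 54) (nat_lit 4) (nat_lit 332) (nat_lit 283) (nat_lit 273)) (XT.lf (nat_lit 0) (nat_lit 132368418) (nat_lit 336) (nat_lit 5537382193) (nat_lit 420) (nat_lit 2967904085) (nat_lit 49) (nat_lit 5) (nat_lit 53) (nat_lit 5) (nat_lit 54) (nat_lit 4) (nat_lit 333) (nat_lit 283) (nat_lit 272))))))))
noncomputable def xc55 : XT := (XT.nd (nat_lit 2444) (nat_lit 924) (nat_lit 0) (XT.nd (nat_lit 1222) (nat_lit 1092) (nat_lit 0) (XT.nd (nat_lit 564) (nat_lit 672) (nat_lit 0) (XT.nd (nat_lit 282) (nat_lit 420) (nat_lit 0) (XT.nd (nat_lit 94) (nat_lit 504) (nat_lit 0) (XT.lf (nat_lit 0) (nat_lit 3846500083) (nat_lit 336) (nat_lit 4074227516) (nat_lit 420) (nat_lit 858444695) (nat_lit 49) (nat_lit 5) (nat_lit 53) (nat_lit 5) (nat_lit 54) (nat_lit 4) (nat_lit 334) (nat_lit 283) (nat_lit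 271)) (XT.nd (nat_lit 94) (nat_lit 420) (nat_lit 0) (XT.lf (nat_lit 0) (nat_lit 1231074638) (nat_lit 420) (nat_lit 1329003753) (nat_lit 84) (nat_lit 6366838429) (nat_lit 48) (nat_lit 5) (nat_lit 53) (nat_lit 5) (nat_lit 49) (nat_lit 5) (nat_lit 335) (nat_lit 283) (nat_lit 270)) (XT.lf (nat_lit 0) (nat_lit 2360523793) (nat_lit 420) (nat_lit 973387752) (nat_lit 504) (nat_lit 5746509004) (nat_lit 43) (nat_lit 5) (nat_lit 48) (nat_lit 5) (nat_lit 49) (nat_lit 5) (nat_lit 336) (nat_lit 283) (nat_lit 269)))) (XT.nd (nat_lit 94) (nat_lit 420) (nat_lit 0) (XT.lf (nat_lit 0) (nat_lit 5466480953) (nat_lit 504) (nat_lit 3118397436) (nat_lit 84) (nat_lit 655300234) (nat_lit 43) (nat_lit 5) (nat_lit 49) (nat_lit 5) (nat_lit 44) (nat_lit 4) (nat_lit 337) (nat_lit 283) (nat_lit 268)) (XT.nd (nat_lit 94) (nat_lit 84) (nat_lit 0) (XT.lf (nat_lit 0) (nat_lit 531454363) (nat_lit 336) (nat_lit 7094576873)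 (nat_lit 420) (nat_lit 1780455637) (nat_lit 39) (nat_lit 5) (nat_lit 43) (nat_lit 5) (nat_lit 44) (nat_lit 4) (nat_lit 338) (nat_lit 283) (nat_lit 267)) (XT.lf (nat_lit 0) (nat_lit 247665242) (nat_lit 420) (nat_lit 5284313814) (nat_lit 84) (nat_lit 4046911849) (nat_lit 38) (nat_lit 5) (nat_lit 43) (nat_lit 5) (nat_lit 39) (nat_lit 5) (nat_lit 339) (nat_lit 283) (nat_lit 266))))) (XT.nd (nat_lit 282) (nat_lit 336) (nat_lit 0) (XT.nd (nat_lit 94) (nat_lit 336) (nat_lit 0) (XT.lf (nat_lit 0) (nat_lit 2249043043) (nat_lit 420) (nat_lit 1663417429) (nat_lit 84) (nat_lit 5845597050) (nat_lit 38) (nat_lit 5) (nat_lit 43) (nat_lit 5) (nat_lit 39) (nat_lit 5) (nat_lit 340) (nat_lit 283) (nat_lit 265)) (XT.nd (nat_lit 94) (nat_lit 0) (nat_lit 0) (XT.lf (nat_lit 0) (nat_lit 2049996908) (nat_lit 336) (nat_lit 2231754787) (nat_lit 420) (nat_lit 5662319141) (nat_lit 34) (nat_lit 5) (nat_lit 38)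 (nat_lit 5) (nat_lit 39) (nat_lit 5) (nat_lit 341) (nat_lit 283) (nat_lit 264)) (XT.lf (nat_lit 0) (nat_lit 5853375861) (nat_lit 336) (nat_lit 491348621) (nat_lit 420) (nat_lit 3792471550) (nat_lit 34) (nat_lit 5) (nat_lit 38) (nat_lit 5) (nat_lit 39) (nat_lit 5) (nat_lit 342) (nat_lit 283) (nat_lit 263)))) (XT.nd (nat_lit 188) (nat_lit 0) (nat_lit 0) (XT.nd (nat_lit 94) (nat_lit 336) (nat_lit 0) (XT.lf (nat_lit 0) (nat_lit 8435870600) (nat_lit 420) (nat_lit 634900774) (nat_lit 84) (nat_lit 1266966176) (nat_lit 34) (nat_lit 5) (nat_lit 39) (nat_lit 5) (nat_lit 35) (nat_lit 4) (nat_lit 343) (nat_lit 283) (nat_lit 262)) (XT.lf (nat_lit 0) (nat_lit 34774638) (nat_lit 336) (nat_lit 7418914443) (nat_lit 84) (nat_lit 3091453692) (nat_lit 30) (nat_lit 5) (nat_lit 34) (nat_lit 5) (nat_lit 31) (nat_lit 5) (nat_lit 344) (nat_lit 283) (nat_lit 261))) (XT.nd (nat_lit 94) (nat_lit 0) (nat_lit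 0) (XT.lf (nat_lit 0) (nat_lit 1951476397) (nat_lit 336) (nat_lit 3820061521) (nat_lit 84) (nat_lit 4988383459) (nat_lit 30) (nat_lit 5) (nat_lit 34) (nat_lit 5) (nat_lit 31) (nat_lit 5) (nat_lit 345) (nat_lit 283) (nat_lit 260)) (XT.lf (nat_lit 0) (nat_lit 3881849731) (nat_lit 336) (nat_lit 167046679) (nat_lit 84) (nat_lit 6934163317) (nat_lit 30) (nat_lit 5) (nat_lit 34) (nat_lit 5) (nat_lit 31) (nat_lit 5) (nat_lit 346) (nat_lit 283) (nat_lit 259)))))) (XT.nd (nat_lit 564) (nat_lit 504) (nat_lit 0) (XT.nd (nat_lit 282) (nat_lit 336) (nat_lit 0) (XT.nd (nat_lit 94) (nat_lit 0) (nat_lit 0) (XT.lf (nat_lit 0) (nat_lit 3616397424) (nat_lit 252) (nat_lit 2247171635) (nat_lit 336) (nat_lit 5350084622) (nat_lit 27) (nat_lit 5) (nat_lit 30) (nat_lit 5) (nat_lit 31) (nat_lit 5) (nat_lit 347) (nat_lit 283) (nat_lit 258)) (XT.nd (nat_lit 94) (nat_lit 0) (nat_lit 0) (XT.lf (nat_lit 0) (nat_lit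 7465556725) (nat_lit 252) (nat_lit 399325305) (nat_lit 336) (nat_lit 3588077733) (nat_lit 27) (nat_lit 5) (nat_lit 30) (nat_lit 5) (nat_lit 31) (nat_lit 5) (nat_lit 348) (nat_lit 283) (nat_lit 257)) (XT.lf (nat_lit 0) (nat_lit 9900789710) (nat_lit 336) (nat_lit 335496069) (nat_lit 84) (nat_lit 1464508050) (nat_lit 27) (nat_lit 5) (nat_lit 31) (nat_lit 5) (nat_lit 28) (nat_lit 4) (nat_lit 349) (nat_lit 283) (nat_lit 256)))) (XT.nd (nat_lit 94) (nat_lit 0) (nat_lit 0) (XT.lf (nat_lit 0) (nat_lit 39464044) (nat_lit 336) (nat_lit 8515436662) (nat_lit 84) (nat_lit 3401737952) (nat_lit 23) (nat_lit 5) (nat_lit 27) (nat_lit 5) (nat_lit 24) (nat_lit 5) (nat_lit 350) (nat_lit 283) (nat_lit 255)) (XT.nd (nat_lit 94) (nat_lit 0) (nat_lit 0) (XT.lf (nat_lit 0) (nat_lit 1861055186) (nat_lit 336) (nat_lit 4950465306) (nat_lit 84) (nat_lit 5409722327) (nat_lit 23) (nat_lit 5) (nat_lit 27) (nat_lit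 5) (nat_lit 24) (nat_lit 5) (nat_lit 351) (nat_lit 283) (nat_lit 254)) (XT.lf (nat_lit 0) (nat_lit 3699301953) (nat_lit 336) (nat_lit 1327165685) (nat_lit 84) (nat_lit 7469045228) (nat_lit 23) (nat_lit 5) (nat_lit 27) (nat_lit 5) (nat_lit 24) (nat_lit 5) (nat_lit 352) (nat_lit 283) (nat_lit 253))))) (XT.nd (nat_lit 282) (nat_lit 252) (nat_lit 0) (XT.nd (nat_lit 94) (nat_lit 0) (nat_lit 0) (XT.lf (nat_lit 0) (nat_lit 2406321510) (nat_lit 252) (nat_lit 3173467282) (nat_lit 336) (nat_lit 7199175655) (nat_lit 20) (nat_lit 5) (nat_lit 23) (nat_lit 5) (nat_lit 24) (nat_lit 5) (nat_lit 353) (nat_lit 283) (nat_lit 252)) (XT.nd (nat_lit 94) (nat_lit 0) (nat_lit 0) (XT.lf (nat_lit 0) (nat_lit 6233577746) (nat_lit 252) (nat_lit 1260893359) (nat_lit 336) (nat_lit 5577694383) (nat_lit 20) (nat_lit 5) (nat_lit 23) (nat_lit 5) (nat_lit 24) (nat_lit 5) (nat_lit 354) (nat_lit 283) (nat_lit 251))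 (XT.lf (nat_lit 0) (nat_lit 9438633206) (nat_lit 336) (nat_lit 3251860626) (nat_lit 84) (nat_lit 685096962) (nat_lit 20) (nat_lit 5) (nat_lit 24) (nat_lit 5) (nat_lit 21) (nat_lit 4) (nat_lit 355) (nat_lit 283) (nat_lit 250)))) (XT.nd (nat_lit 188) (nat_lit 84) (nat_lit 0) (XT.nd (nat_lit 94) (nat_lit 0) (nat_lit 0) (XT.lf (nat_lit 0) (nat_lit 392739314) (nat_lit 168) (nat_lit 11031299091) (nat_lit 252) (nat_lit 2265176297) (nat_lit 18) (nat_lit 5) (nat_lit 20) (nat_lit 5) (nat_lit 21) (nat_lit 4) (nat_lit 356) (nat_lit 283) (nat_lit 249)) (XT.lf (nat_lit 0) (nat_lit 4171416347) (nat_lit 168) (nat_lit 9298302012) (nat_lit 252) (nat_lit 543078575) (nat_lit 18) (nat_lit 5) (nat_lit 20) (nat_lit 5) (nat_lit 21) (nat_lit 4) (nat_lit 357) (nat_lit 283) (nat_lit 248))) (XT.nd (nat_lit 94) (nat_lit 0) (nat_lit 0) (XT.lf (nat_lit 0) (nat_lit 1172881157) (nat_lit 252) (nat_lit 6338706384)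 (nat_lit 84) (nat_lit 6835704040) (nat_lit 17) (nat_lit 5) (nat_lit 20) (nat_lit 5) (nat_lit 18) (nat_lit 5) (nat_lit 358) (nat_lit 283) (nat_lit 247)) (XT.lf (nat_lit 0) (nat_lit 2897104941) (nat_lit 252) (nat_lit 2778884331) (nat_lit 84) (nat_lit 9017216568) (nat_lit 17) (nat_lit 5) (nat_lit 20) (nat_lit 5) (nat_lit 18) (nat_lit 5) (nat_lit 359) (nat_lit 283) (nat_lit 246))))))) (XT.nd (nat_lit 1222) (nat_lit 336) (nat_lit 0) (XT.nd (nat_lit 564) (nat_lit 252) (nat_lit 0) (XT.nd (nat_lit 282) (nat_lit 168) (nat_lit 0) (XT.nd (nat_lit 94) (nat_lit 0) (nat_lit 0) (XT.lf (nat_lit 0) (nat_lit 864202864) (nat_lit 168) (nat_lit 3786511889) (nat_lit 252) (nat_lit 10400048630) (nat_lit 15) (nat_lit 5) (nat_lit 17) (nat_lit 5) (nat_lit 18) (nat_lit 5) (nat_lit 360) (nat_lit 283) (nat_lit 245)) (XT.nd (nat_lit 94) (nat_lit 0) (nat_lit 0) (XT.lf (nat_lit 0) (nat_lit 4635086084) (nat_lit 168)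 (nat_lit 1820512700) (nat_lit 252) (nat_lit 8964070849) (nat_lit 15) (nat_lit 5) (nat_lit 17) (nat_lit 5) (nat_lit 18) (nat_lit 5) (nat_lit 361) (nat_lit 283) (nat_lit 244)) (XT.lf (nat_lit 0) (nat_lit 8287238452) (nat_lit 252) (nat_lit 7322932754) (nat_lit 84) (nat_lit 190909468) (nat_lit 15) (nat_lit 5) (nat_lit 18) (nat_lit 5) (nat_lit 16) (nat_lit 4) (nat_lit 362) (nat_lit 283) (nat_lit 243)))) (XT.nd (nat_lit 94) (nat_lit 168) (nat_lit 0) (XT.lf (nat_lit 0) (nat_lit 10163974337) (nat_lit 252) (nat_lit 3815014814) (nat_lit 84) (nat_lit 2215847240) (nat_lit 15) (nat_lit 5) (nat_lit 18) (nat_lit 5) (nat_lit 16) (nat_lit 4) (nat_lit 363) (nat_lit 283) (nat_lit 242)) (XT.nd (nat_lit 94) (nat_lit 168) (nat_lit 0) (XT.lf (nat_lit 0) (nat_lit 12069496043) (nat_lit 252) (nat_lit 239500271) (nat_lit 84) (nat_lit 4292867342) (nat_lit 15) (nat_lit 5) (nat_lit 18) (nat_lit 5) (nat_lit 16)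 (nat_lit 4) (nat_lit 364) (nat_lit 283) (nat_lit 241)) (XT.lf (nat_lit 0) (nat_lit 3476997377) (nat_lit 168) (nat_lit 10563074581) (nat_lit 252) (nat_lit 2981400641) (nat_lit 13) (nat_lit 5) (nat_lit 15) (nat_lit 5) (nat_lit 16) (nat_lit 4) (nat_lit 365) (nat_lit 283) (nat_lit 240))))) (XT.nd (nat_lit 282) (nat_lit 168) (nat_lit 0) (XT.nd (nat_lit 94) (nat_lit 84) (nat_lit 0) (XT.lf (nat_lit 0) (nat_lit 7274276209) (nat_lit 168) (nat_lit 8771915498) (nat_lit 252) (nat_lit 1408834399) (nat_lit 13) (nat_lit 5) (nat_lit 15) (nat_lit 5) (nat_lit 16) (nat_lit 4) (nat_lit 366) (nat_lit 283) (nat_lit 239)) (XT.nd (nat_lit 94) (nat_lit 0) (nat_lit 0) (XT.lf (nat_lit 0) (nat_lit 180583842) (nat_lit 252) (nat_lit 6753880639) (nat_lit 84) (nat_lit 10968482300) (nat_lit 12) (nat_lit 5) (nat_lit 15) (nat_lit 5) (nat_lit 13) (nat_lit 5) (nat_lit 367) (nat_lit 283) (nat_lit 238)) (XT.lf (nat_lit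 0) (nat_lit 1763223088) (nat_lit 252) (nat_lit 3273037846) (nat_lit 84) (nat_lit 13329007899) (nat_lit 12) (nat_lit 5) (nat_lit 15) (nat_lit 5) (nat_lit 13) (nat_lit 5) (nat_lit 368) (nat_lit 283) (nat_lit 237)))) (XT.nd (nat_lit 188) (nat_lit 0) (nat_lit 0) (XT.nd (nat_lit 94) (nat_lit 0) (nat_lit 0) (XT.lf (nat_lit 0) (nat_lit 284735591) (nat_lit 168) (nat_lit 3087032419) (nat_lit 252) (nat_lit 15471000870) (nat_lit 10) (nat_lit 5) (nat_lit 12) (nat_lit 5) (nat_lit 13) (nat_lit 5) (nat_lit 369) (nat_lit 283) (nat_lit 236)) (XT.lf (nat_lit 0) (nat_lit 3985846098) (nat_lit 168) (nat_lit 1052935461) (nat_lit 252) (nat_lit 14296147473) (nat_lit 10) (nat_lit 5) (nat_lit 12) (nat_lit 5) (nat_lit 13) (nat_lit 5) (nat_lit 370) (nat_lit 283) (nat_lit 235))) (XT.nd (nat_lit 94) (nat_lit 0) (nat_lit 0) (XT.lf (nat_lit 0) (nat_lit 6742936044) (nat_lit 252) (nat_lit 12087047190) (nat_lit 84)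 (nat_lit 1012934125) (nat_lit 10) (nat_lit 5) (nat_lit 13) (nat_lit 5) (nat_lit 11) (nat_lit 4) (nat_lit 371) (nat_lit 283) (nat_lit 234)) (XT.lf (nat_lit 0) (nat_lit 8486541659) (nat_lit 252) (nat_lit 8769607240) (nat_lit 84) (nat_lit 3111036088) (nat_lit 10) (nat_lit 5) (nat_lit 13) (nat_lit 5) (nat_lit 11) (nat_lit 4) (nat_lit 372) (nat_lit 283) (nat_lit 233)))))) (XT.nd (nat_lit 564) (nat_lit 252) (nat_lit 0) (XT.nd (nat_lit 282) (nat_lit 0) (nat_lit 0) (XT.nd (nat_lit 94) (nat_lit 84) (nat_lit 0) (XT.lf (nat_lit 0) (nat_lit 10260778376) (nat_lit 252) (nat_lit 5383225632) (nat_lit 84) (nat_lit 5264540381) (nat_lit 10) (nat_lit 5) (nat_lit 13) (nat_lit 5) (nat_lit 11) (nat_lit 4) (nat_lit 373) (nat_lit 283) (nat_lit 232)) (XT.nd (nat_lit 94) (nat_lit 84) (nat_lit 0) (XT.lf (nat_lit 0) (nat_lit 12067299970) (nat_lit 252) (nat_lit 1924745905) (nat_lit 84) (nat_lit 7475454296) (nat_lit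 10) (nat_lit 5) (nat_lit 13) (nat_lit 5) (nat_lit 11) (nat_lit 4) (nat_lit 374) (nat_lit 283) (nat_lit 231)) (XT.lf (nat_lit 0) (nat_lit 1642141090) (nat_lit 84) (nat_lit 12281939461) (nat_lit 168) (nat_lit 8119987788) (nat_lit 9) (nat_lit 5) (nat_lit 10) (nat_lit 5) (nat_lit 11) (nat_lit 4) (nat_lit 375) (nat_lit 283) (nat_lit 230)))) (XT.nd (nat_lit 94) (nat_lit 0) (nat_lit 0) (XT.lf (nat_lit 0) (nat_lit 5328836967) (nat_lit 84) (nat_lit 10507990676) (nat_lit 168) (nat_lit 6801835392) (nat_lit 9) (nat_lit 5) (nat_lit 10) (nat_lit 5) (nat_lit 11) (nat_lit 4) (nat_lit 376) (nat_lit 283) (nat_lit 229)) (XT.nd (nat_lit 94) (nat_lit 0) (nat_lit 0) (XT.lf (nat_lit 0) (nat_lit 9099201389) (nat_lit 84) (nat_lit 8688636415) (nat_lit 168) (nat_lit 5464604756) (nat_lit 9) (nat_lit 5) (nat_lit 10) (nat_lit 5) (nat_lit 11) (nat_lit 4) (nat_lit 377) (nat_lit 283) (nat_lit 228)) (XT.lf (nat_lit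 0) (nat_lit 12956748729) (nat_lit 84) (nat_lit 6822180848) (nat_lit 168) (nat_lit 4107049441) (nat_lit 9) (nat_lit 5) (nat_lit 10) (nat_lit 5) (nat_lit 11) (nat_lit 4) (nat_lit 378) (nat_lit 283) (nat_lit 227))))) (XT.nd (nat_lit 282) (nat_lit 168) (nat_lit 0) (XT.nd (nat_lit 94) (nat_lit 84) (nat_lit 0) (XT.lf (nat_lit 0) (nat_lit 16905074626) (nat_lit 84) (nat_lit 4906884244) (nat_lit 168) (nat_lit 2727904063) (nat_lit 9) (nat_lit 5) (nat_lit 10) (nat_lit 5) (nat_lit 11) (nat_lit 4) (nat_lit 379) (nat_lit 283) (nat_lit 226)) (XT.nd (nat_lit 94) (nat_lit 84) (nat_lit 0) (XT.lf (nat_lit 0) (nat_lit 20947859334) (nat_lit 84) (nat_lit 2940961346) (nat_lit 168) (nat_lit 1325883115) (nat_lit 9) (nat_lit 5) (nat_lit 10) (nat_lit 5) (nat_lit 11) (nat_lit 4) (nat_lit 380) (nat_lit 283) (nat_lit 225)) (XT.lf (nat_lit 0) (nat_lit 98299003) (nat_lit 168) (nat_lit 823254663) (nat_lit 84) (nat_lit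 24989546108) (nat_lit 8) (nat_lit 5) (nat_lit 10) (nat_lit 5) (nat_lit 9) (nat_lit 5) (nat_lit 381) (nat_lit 283) (nat_lit 224)))) (XT.nd (nat_lit 188) (nat_lit 0) (nat_lit 0) (XT.nd (nat_lit 94) (nat_lit 0) (nat_lit 0) (XT.lf (nat_lit 0) (nat_lit 1559811769) (nat_lit 252) (nat_lit 23898290551) (nat_lit 84) (nat_lit 1170002517) (nat_lit 6) (nat_lit 5) (nat_lit 9) (nat_lit 5) (nat_lit 7) (nat_lit 4) (nat_lit 382) (nat_lit 283) (nat_lit 223)) (XT.lf (nat_lit 0) (nat_lit 3066618595) (nat_lit 252) (nat_lit 20993133412) (nat_lit 84) (nat_lit 3307666528) (nat_lit 6) (nat_lit 5) (nat_lit 9) (nat_lit 5) (nat_lit 7) (nat_lit 4) (nat_lit 383) (nat_lit 283) (nat_lit 222))) (XT.nd (nat_lit 94) (nat_lit 0) (nat_lit 0) (XT.lf (nat_lit 0) (nat_lit 4602562099) (nat_lit 252) (nat_lit 18024134119) (nat_lit 84) (nat_lit 5503578185) (nat_lit 6) (nat_lit 5) (nat_lit 9) (nat_lit 5) (nat_lit 7) (nat_lit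 4) (nat_lit 384) (nat_lit 283) (nat_lit 221)) (XT.lf (nat_lit 0) (nat_lit 6169073941) (nat_lit 252) (nat_lit 14988525254) (nat_lit 84) (nat_lit 7759784309) (nat_lit 6) (nat_lit 5) (nat_lit 9) (nat_lit 5) (nat_lit 7) (nat_lit 4) (nat_lit 385) (nat_lit 283) (nat_lit 220))))))))
noncomputable def xc56 : XT := (XT.nd (nat_lit 2350) (nat_lit 84) (nat_lit 0) (XT.nd (nat_lit 1128) (nat_lit 168) (nat_lit 0) (XT.nd (nat_lit 564) (nat_lit 0) (nat_lit 0) (XT.nd (nat_lit 282) (nat_lit 84) (nat_lit 0) (XT.nd (nat_lit 94) (nat_lit 0) (nat_lit 0) (XT.lf (nat_lit 0) (nat_lit 7767614274) (nat_lit 252) (nat_lit 11883477312) (nat_lit 84) (nat_lit 10078387919) (nat_lit 6) (nat_lit 5) (nat_lit 9) (nat_lit 5) (nat_lit 7) (nat_lit 4) (nat_lit 386) (nat_lit 283) (nat_lit 219)) (XT.nd (nat_lit 94) (nat_lit 0) (nat_lit 0) (XT.lf (nat_lit 0) (nat_lit 9399673105) (nat_lit 252) (nat_lit 8706096064) (nat_lit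 84) (nat_lit 12461550197) (nat_lit 6) (nat_lit 5) (nat_lit 9) (nat_lit 5) (nat_lit 7) (nat_lit 4) (nat_lit 387) (nat_lit 283) (nat_lit 218)) (XT.lf (nat_lit 0) (nat_lit 11066771684) (nat_lit 252) (nat_lit 5453419855) (nat_lit 84) (nat_lit 14911492501) (nat_lit 6) (nat_lit 5) (nat_lit 9) (nat_lit 5) (nat_lit 7) (nat_lit 4) (nat_lit 388) (nat_lit 283) (nat_lit 217)))) (XT.nd (nat_lit 94) (nat_lit 84) (nat_lit 0) (XT.lf (nat_lit 0) (nat_lit 12770463922) (nat_lit 252) (nat_lit 2122416853) (nat_lit 84) (nat_lit 17430498432) (nat_lit 6) (nat_lit 5) (nat_lit 9) (nat_lit 5) (nat_lit 7) (nat_lit 4) (nat_lit 389) (nat_lit 283) (nat_lit 216)) (XT.nd (nat_lit 94) (nat_lit 0) (nat_lit 0) (XT.lf (nat_lit 0) (nat_lit 1316543198) (nat_lit 84) (nat_lit 13208854911) (nat_lit 168) (nat_lit 18717433042) (nat_lit 5) (nat_lit 5) (nat_lit 6) (nat_lit 5) (nat_lit 7) (nat_lit 4) (nat_lit 390) (nat_lit 283)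 (nat_lit 215)) (XT.lf (nat_lit 0) (nat_lit 4885496681) (nat_lit 84) (nat_lit 11456985090) (nat_lit 168) (nat_lit 17848127701) (nat_lit 5) (nat_lit 5) (nat_lit 6) (nat_lit 5) (nat_lit 7) (nat_lit 4) (nat_lit 391) (nat_lit 283) (nat_lit 214))))) (XT.nd (nat_lit 282) (nat_lit 0) (nat_lit 0) (XT.nd (nat_lit 94) (nat_lit 0) (nat_lit 0) (XT.lf (nat_lit 0) (nat_lit 8544128992) (nat_lit 84) (nat_lit 9657792066) (nat_lit 168) (nat_lit 16966342658) (nat_lit 5) (nat_lit 5) (nat_lit 6) (nat_lit 5) (nat_lit 7) (nat_lit 4) (nat_lit 392) (nat_lit 283) (nat_lit 213)) (XT.nd (nat_lit 94) (nat_lit 0) (nat_lit 0) (XT.lf (nat_lit 0) (nat_lit 12295850359) (nat_lit 84) (nat_lit 7809598802) (nat_lit 168) (nat_lit 16071255997) (nat_lit 5) (nat_lit 5) (nat_lit 6) (nat_lit 5) (nat_lit 7) (nat_lit 4) (nat_lit 393) (nat_lit 283) (nat_lit 212)) (XT.lf (nat_lit 0) (nat_lit 16144157779) (nat_lit 84) (nat_lit 5910682589)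 (nat_lit 168) (nat_lit 15162033403) (nat_lit 5) (nat_lit 5) (nat_lit 6) (nat_lit 5) (nat_lit 7) (nat_lit 4) (nat_lit 394) (nat_lit 283) (nat_lit 211)))) (XT.nd (nat_lit 94) (nat_lit 0) (nat_lit 0) (XT.lf (nat_lit 0) (nat_lit 20092638277) (nat_lit 84) (nat_lit 3959273437) (nat_lit 168) (nat_lit 14237827386) (nat_lit 5) (nat_lit 5) (nat_lit 6) (nat_lit 5) (nat_lit 7) (nat_lit 4) (nat_lit 395) (nat_lit 283) (nat_lit 210)) (XT.nd (nat_lit 94) (nat_lit 0) (nat_lit 0) (XT.lf (nat_lit 0) (nat_lit 24144972251) (nat_lit 84) (nat_lit 1953552429) (nat_lit 168) (nat_lit 13297776488) (nat_lit 5) (nat_lit 5) (nat_lit 6) (nat_lit 5) (nat_lit 7) (nat_lit 4) (nat_lit 396) (nat_lit 283) (nat_lit 209)) (XT.lf (nat_lit 0) (nat_lit 28197661771) (nat_lit 168) (nat_lit 12233729354) (nat_lit 0) (nat_lit 106166965) (nat_lit 5) (nat_lit 5) (nat_lit 7) (nat_lit 4) (nat_lit 5) (nat_lit 4) (nat_lit 397) (nat_lit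 283) (nat_lit 208)))))) (XT.nd (nat_lit 564) (nat_lit 84) (nat_lit 0) (XT.nd (nat_lit 282) (nat_lit 84) (nat_lit 0) (XT.nd (nat_lit 94) (nat_lit 0) (nat_lit 0) (XT.lf (nat_lit 0) (nat_lit 30370159626) (nat_lit 168) (nat_lit 9160369439) (nat_lit 0) (nat_lit 2183459287) (nat_lit 5) (nat_lit 5) (nat_lit 7) (nat_lit 4) (nat_lit 5) (nat_lit 4) (nat_lit 398) (nat_lit 283) (nat_lit 207)) (XT.nd (nat_lit 94) (nat_lit 0) (nat_lit 0) (XT.lf (nat_lit 0) (nat_lit 32598663760) (nat_lit 168) (nat_lit 6009004997) (nat_lit 0) (nat_lit 4319620519) (nat_lit 5) (nat_lit 5) (nat_lit 7) (nat_lit 4) (nat_lit 5) (nat_lit 4) (nat_lit 399) (nat_lit 283) (nat_lit 206)) (XT.lf (nat_lit 0) (nat_lit 34885251373) (nat_lit 168) (nat_lit 2776698628) (nat_lit 0) (nat_lit 6516641785) (nat_lit 5) (nat_lit 5) (nat_lit 7) (nat_lit 4) (nat_lit 5) (nat_lit 4) (nat_lit 400) (nat_lit 283) (nat_lit 205)))) (XT.nd (nat_lit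 94) (nat_lit 0) (nat_lit 0) (XT.lf (nat_lit 0) (nat_lit 550657029) (nat_lit 84) (nat_lit 36686859359) (nat_lit 84) (nat_lit 8231376497) (nat_lit 4) (nat_lit 4) (nat_lit 5) (nat_lit 5) (nat_lit 5) (nat_lit 4) (nat_lit 401) (nat_lit 283) (nat_lit 204)) (XT.nd (nat_lit 94) (nat_lit 0) (nat_lit 0) (XT.lf (nat_lit 0) (nat_lit 4023943027) (nat_lit 84) (nat_lit 35657233502) (nat_lit 84) (nat_lit 7117489462) (nat_lit 4) (nat_lit 4) (nat_lit 5) (nat_lit 5) (nat_lit 5) (nat_lit 4) (nat_lit 402) (nat_lit 283) (nat_lit 203)) (XT.lf (nat_lit 0) (nat_lit 7589302211) (nat_lit 84) (nat_lit 34601095750) (nat_lit 84) (nat_lit 5979624088) (nat_lit 4) (nat_lit 4) (nat_lit 5) (nat_lit 5) (nat_lit 5) (nat_lit 4) (nat_lit 403) (nat_lit 283) (nat_lit 202))))) (XT.nd (nat_lit 282) (nat_lit 84) (nat_lit 0) (XT.nd (nat_lit 94) (nat_lit 0) (nat_lit 0) (XT.lf (nat_lit 0) (nat_lit 11250057872) (nat_lit 84) (nat_lit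 33517461671) (nat_lit 84) (nat_lit 4816719765) (nat_lit 4) (nat_lit 4) (nat_lit 5) (nat_lit 5) (nat_lit 5) (nat_lit 4) (nat_lit 404) (nat_lit 283) (nat_lit 201)) (XT.nd (nat_lit 94) (nat_lit 0) (nat_lit 0) (XT.lf (nat_lit 0) (nat_lit 15009622215) (nat_lit 84) (nat_lit 32405321205) (nat_lit 84) (nat_lit 3627692545) (nat_lit 4) (nat_lit 4) (nat_lit 5) (nat_lit 5) (nat_lit 5) (nat_lit 4) (nat_lit 405) (nat_lit 283) (nat_lit 200)) (XT.lf (nat_lit 0) (nat_lit 18871499549) (nat_lit 84) (nat_lit 31263637721) (nat_lit 84) (nat_lit 2411434129) (nat_lit 4) (nat_lit 4) (nat_lit 5) (nat_lit 5) (nat_lit 5) (nat_lit 4) (nat_lit 406) (nat_lit 283) (nat_lit 199)))) (XT.nd (nat_lit 188) (nat_lit 0) (nat_lit 0) (XT.nd (nat_lit 94) (nat_lit 84) (nat_lit 0) (XT.lf (nat_lit 0) (nat_lit 22839289549) (nat_lit 84) (nat_lit 30091347050) (nat_lit 84) (nat_lit 1166810838) (nat_lit 4) (nat_lit 4) (nat_lit 5)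 (nat_lit 5) (nat_lit 5) (nat_lit 4) (nat_lit 407) (nat_lit 283) (nat_lit 198)) (XT.lf (nat_lit 0) (nat_lit 105174837) (nat_lit 168) (nat_lit 28781083848) (nat_lit 84) (nat_lit 26810417962) (nat_lit 3) (nat_lit 5) (nat_lit 5) (nat_lit 5) (nat_lit 4) (nat_lit 4) (nat_lit 408) (nat_lit 283) (nat_lit 197))) (XT.nd (nat_lit 94) (nat_lit 0) (nat_lit 0) (XT.lf (nat_lit 0) (nat_lit 1383745719) (nat_lit 168) (nat_lit 26252354623) (nat_lit 84) (nat_lit 29709314110) (nat_lit 3) (nat_lit 5) (nat_lit 5) (nat_lit 5) (nat_lit 4) (nat_lit 4) (nat_lit 409) (nat_lit 283) (nat_lit 196)) (XT.lf (nat_lit 0) (nat_lit 2693602206) (nat_lit 168) (nat_lit 23658038267) (nat_lit 84) (nat_lit 32693915997) (nat_lit 3) (nat_lit 5) (nat_lit 5) (nat_lit 5) (nat_lit 4) (nat_lit 4) (nat_lit 410) (nat_lit 283) (nat_lit 195))))))) (XT.nd (nat_lit 1222) (nat_lit 0) (nat_lit 0) (XT.nd (nat_lit 564) (nat_lit 84) (nat_lit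 0) (XT.nd (nat_lit 282) (nat_lit 0) (nat_lit 0) (XT.nd (nat_lit 94) (nat_lit 0) (nat_lit 0) (XT.lf (nat_lit 0) (nat_lit 4035965221) (nat_lit 168) (nat_lit 20995716603) (nat_lit 84) (nat_lit 35767005585) (nat_lit 3) (nat_lit 5) (nat_lit 5) (nat_lit 5) (nat_lit 4) (nat_lit 4) (nat_lit 411) (nat_lit 283) (nat_lit 194)) (XT.nd (nat_lit 94) (nat_lit 0) (nat_lit 0) (XT.lf (nat_lit 0) (nat_lit 5412085989) (nat_lit 168) (nat_lit 18262908071) (nat_lit 84) (nat_lit 38931447316) (nat_lit 3) (nat_lit 5) (nat_lit 5) (nat_lit 5) (nat_lit 4) (nat_lit 4) (nat_lit 412) (nat_lit 283) (nat_lit 193)) (XT.lf (nat_lit 0) (nat_lit 6823247197) (nat_lit 168) (nat_lit 15457065406) (nat_lit 84) (nat_lit 42190190780) (nat_lit 3) (nat_lit 5) (nat_lit 5) (nat_lit 5) (nat_lit 4) (nat_lit 4) (nat_lit 413) (nat_lit 283) (nat_lit 192)))) (XT.nd (nat_lit 94) (nat_lit 0) (nat_lit 0) (XT.lf (nat_lit 0) (nat_lit 8270764196)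 (nat_lit 168) (nat_lit 12575573268) (nat_lit 84) (nat_lit 45546273469) (nat_lit 3) (nat_lit 5) (nat_lit 5) (nat_lit 5) (nat_lit 4) (nat_lit 4) (nat_lit 414) (nat_lit 283) (nat_lit 191)) (XT.nd (nat_lit 94) (nat_lit 0) (nat_lit 0) (XT.lf (nat_lit 0) (nat_lit 9755986223) (nat_lit 168) (nat_lit 9615745806) (nat_lit 84) (nat_lit 49002823601) (nat_lit 3) (nat_lit 5) (nat_lit 5) (nat_lit 5) (nat_lit 4) (nat_lit 4) (nat_lit 415) (nat_lit 283) (nat_lit 190)) (XT.lf (nat_lit 0) (nat_lit 11280297661) (nat_lit 168) (nat_lit 6574824149) (nat_lit 84) (nat_lit 52563063045) (nat_lit 3) (nat_lit 5) (nat_lit 5) (nat_lit 5) (nat_lit 4) (nat_lit 4) (nat_lit 416) (nat_lit 283) (nat_lit 189))))) (XT.nd (nat_lit 282) (nat_lit 0) (nat_lit 0) (XT.nd (nat_lit 94) (nat_lit 84) (nat_lit 0) (XT.lf (nat_lit 0) (nat_lit 12845119327) (nat_lit 168) (nat_lit 3449973841) (nat_lit 84) (nat_lit 56230310317) (nat_lit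 3) (nat_lit 5) (nat_lit 5) (nat_lit 5) (nat_lit 4) (nat_lit 4) (nat_lit 417) (nat_lit 283) (nat_lit 188)) (XT.nd (nat_lit 94) (nat_lit 84) (nat_lit 0) (XT.lf (nat_lit 0) (nat_lit 14451909800) (nat_lit 168) (nat_lit 238282193) (nat_lit 84) (nat_lit 60007983675) (nat_lit 3) (nat_lit 5) (nat_lit 5) (nat_lit 5) (nat_lit 4) (nat_lit 4) (nat_lit 418) (nat_lit 283) (nat_lit 187)) (XT.lf (nat_lit 0) (nat_lit 3126231014) (nat_lit 84) (nat_lit 13006948360) (nat_lit 168) (nat_lit 60804385890) (nat_lit 2) (nat_lit 5) (nat_lit 3) (nat_lit 5) (nat_lit 4) (nat_lit 4) (nat_lit 419) (nat_lit 283) (nat_lit 186)))) (XT.nd (nat_lit 188) (nat_lit 0) (nat_lit 0) (XT.nd (nat_lit 94) (nat_lit 0) (nat_lit 0) (XT.lf (nat_lit 0) (nat_lit 6590466602) (nat_lit 84) (nat_lit 11272340110) (nat_lit 168) (nat_lit 61383711250) (nat_lit 2) (nat_lit 5) (nat_lit 3) (nat_lit 5) (nat_lit 4) (nat_lit 4) (nat_lit 420) (nat_lit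 283) (nat_lit 185)) (XT.lf (nat_lit 0) (nat_lit 10152754030) (nat_lit 84) (nat_lit 9487237583) (nat_lit 168) (nat_lit 61987269118) (nat_lit 2) (nat_lit 5) (nat_lit 3) (nat_lit 5) (nat_lit 4) (nat_lit 4) (nat_lit 421) (nat_lit 283) (nat_lit 184))) (XT.nd (nat_lit 94) (nat_lit 0) (nat_lit 0) (XT.lf (nat_lit 0) (nat_lit 13816413723) (nat_lit 84) (nat_lit 7649976877) (nat_lit 168) (nat_lit 62615622073) (nat_lit 2) (nat_lit 5) (nat_lit 3) (nat_lit 5) (nat_lit 4) (nat_lit 4) (nat_lit 422) (nat_lit 283) (nat_lit 183)) (XT.lf (nat_lit 0) (nat_lit 17584860595) (nat_lit 84) (nat_lit 5758845473) (nat_lit 168) (nat_lit 63269355806) (nat_lit 2) (nat_lit 5) (nat_lit 3) (nat_lit 5) (nat_lit 4) (nat_lit 4) (nat_lit 423) (nat_lit 283) (nat_lit 182)))))) (XT.nd (nat_lit 564) (nat_lit 0) (nat_lit 0) (XT.nd (nat_lit 282) (nat_lit 0) (nat_lit 0) (XT.nd (nat_lit 94) (nat_lit 0) (nat_lit 0) (XT.lf (nat_lit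 0) (nat_lit 21461607235) (nat_lit 84) (nat_lit 3812080638) (nat_lit 168) (nat_lit 63949079665) (nat_lit 2) (nat_lit 5) (nat_lit 3) (nat_lit 5) (nat_lit 4) (nat_lit 4) (nat_lit 424) (nat_lit 283) (nat_lit 181)) (XT.nd (nat_lit 94) (nat_lit 0) (nat_lit 0) (XT.lf (nat_lit 0) (nat_lit 25450267175) (nat_lit 84) (nat_lit 1807867783) (nat_lit 168) (nat_lit 64655427225) (nat_lit 2) (nat_lit 5) (nat_lit 3) (nat_lit 5) (nat_lit 4) (nat_lit 4) (nat_lit 425) (nat_lit 283) (nat_lit 180)) (XT.lf (nat_lit 0) (nat_lit 29301433229) (nat_lit 168) (nat_lit 65135931838) (nat_lit 0) (nat_lit 250510222) (nat_lit 2) (nat_lit 5) (nat_lit 4) (nat_lit 4) (nat_lit 2) (nat_lit 4) (nat_lit 426) (nat_lit 283) (nat_lit 179)))) (XT.nd (nat_lit 94) (nat_lit 0) (nat_lit 0) (XT.lf (nat_lit 0) (nat_lit 31421490473) (nat_lit 168) (nat_lit 63793836772) (nat_lit 0) (nat_lit 2332469462) (nat_lit 2) (nat_lit 5) (nat_lit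 4) (nat_lit 4) (nat_lit 2) (nat_lit 4) (nat_lit 427) (nat_lit 283) (nat_lit 178)) (XT.nd (nat_lit 94) (nat_lit 0) (nat_lit 0) (XT.lf (nat_lit 0) (nat_lit 33602348535) (nat_lit 168) (nat_lit 62417824566) (nat_lit 0) (nat_lit 4476375046) (nat_lit 2) (nat_lit 5) (nat_lit 4) (nat_lit 4) (nat_lit 2) (nat_lit 4) (nat_lit 428) (nat_lit 283) (nat_lit 177)) (XT.lf (nat_lit 0) (nat_lit 35846040202) (nat_lit 168) (nat_lit 61006612632) (nat_lit 0) (nat_lit 6684225319) (nat_lit 2) (nat_lit 5) (nat_lit 4) (nat_lit 4) (nat_lit 2) (nat_lit 4) (nat_lit 429) (nat_lit 283) (nat_lit 176))))) (XT.nd (nat_lit 45590) (nat_lit 0) (nat_lit 5796) (XT.nd (nat_lit 45402) (nat_lit 0) (nat_lit 7476) (XT.lf (nat_lit 0) (nat_lit 38154656830) (nat_lit 168) (nat_lit 59558885573) (nat_lit 0) (nat_lit 8958078228) (nat_lit 2) (nat_lit 5) (nat_lit 4) (nat_lit 4) (nat_lit 2) (nat_lit 4) (nat_lit 430) (nat_lit 283) (nat_lit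 175)) (XT.nd (nat_lit 94) (nat_lit 0) (nat_lit 0) (XT.lf (nat_lit 0) (nat_lit 281985287) (nat_lit 924) (nat_lit 3075342607) (nat_lit 0) (nat_lit 281985287) (nat_lit 91) (nat_lit 5) (nat_lit 102) (nat_lit 4) (nat_lit 91) (nat_lit 4) (nat_lit 320) (nat_lit 284) (nat_lit 284)) (XT.lf (nat_lit 0) (nat_lit 2938738351) (nat_lit 924) (nat_lit 2792176956) (nat_lit 0) (nat_lit 1623793915) (nat_lit 91) (nat_lit 5) (nat_lit 102) (nat_lit 4) (nat_lit 91) (nat_lit 4) (nat_lit 321) (nat_lit 284) (nat_lit 283)))) (XT.nd (nat_lit 188) (nat_lit 672) (nat_lit 0) (XT.nd (nat_lit 94) (nat_lit 84) (nat_lit 0) (XT.lf (nat_lit 0) (nat_lit 611991214) (nat_lit 924) (nat_lit 4707152589) (nat_lit 924) (nat_lit 2116801330) (nat_lit 80) (nat_lit 4) (nat_lit 91) (nat_lit 5) (nat_lit 91) (nat_lit 4) (nat_lit 322) (nat_lit 284) (nat_lit 282)) (XT.lf (nat_lit 0) (nat_lit 204060431) (nat_lit 1008) (nat_lit 3412962547)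 (nat_lit 84) (nat_lit 3904623402) (nat_lit 79) (nat_lit 5) (nat_lit 91) (nat_lit 5) (nat_lit 80) (nat_lit 4) (nat_lit 323) (nat_lit 284) (nat_lit 281))) (XT.nd (nat_lit 94) (nat_lit 0) (nat_lit 0) (XT.lf (nat_lit 0) (nat_lit 12305799) (nat_lit 672) (nat_lit 2469022303) (nat_lit 756) (nat_lit 5130850748) (nat_lit 71) (nat_lit 5) (nat_lit 79) (nat_lit 5) (nat_lit 80) (nat_lit 4) (nat_lit 324) (nat_lit 284) (nat_lit 280)) (XT.lf (nat_lit 0) (nat_lit 3546757995) (nat_lit 672) (nat_lit 1247833108) (nat_lit 756) (nat_lit 2912607436) (nat_lit 71) (nat_lit 5) (nat_lit 79) (nat_lit 5) (nat_lit 80) (nat_lit 4) (nat_lit 325) (nat_lit 284) (nat_lit 279))))))))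
noncomputable def xc57 : XT := (XT.nd (nat_lit 2350) (nat_lit 1176) (nat_lit 0) (XT.nd (nat_lit 1128) (nat_lit 1680) (nat_lit 0) (XT.nd (nat_lit 564) (nat_lit 840) (nat_lit 0) (XT.nd (nat_lit 282) (nat_lit 924) (nat_lit 0) (XT.nd (nat_lit 94) (nat_lit 588) (nat_lit 0) (XT.lf (nat_lit 0) (nat_lit 7111572082) (nat_lit 756) (nat_lit 684473776) (nat_lit 0) (nat_lit 11815599) (nat_lit 71) (nat_lit 5) (nat_lit 80) (nat_lit 4) (nat_lit 71) (nat_lit 4) (nat_lit 326) (nat_lit 284) (nat_lit 278)) (XT.nd (nat_lit 94) (nat_lit 0) (nat_lit 0) (XT.lf (nat_lit 0) (nat_lit 1531152960) (nat_lit 588) (nat_lit 5051916910) (nat_lit 84) (nat_lit 1329434110) (nat_lit 64) (nat_lit 5) (nat_lit 71) (nat_lit 5) (nat_lit 65) (nat_lit 4) (nat_lit 327) (nat_lit 284) (nat_lit 277)) (XT.lf (nat_lit 0) (nat_lit 3754457234) (nat_lit 588) (nat_lit 1566387956) (nat_lit 84) (nat_lit 2701683157) (nat_lit 64) (nat_lit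 5) (nat_lit 71) (nat_lit 5) (nat_lit 65) (nat_lit 4) (nat_lit 328) (nat_lit 284) (nat_lit 276)))) (XT.nd (nat_lit 94) (nat_lit 504) (nat_lit 0) (XT.lf (nat_lit 0) (nat_lit 2000495169) (nat_lit 420) (nat_lit 4002073911) (nat_lit 504) (nat_lit 2135283976) (nat_lit 59) (nat_lit 5) (nat_lit 64) (nat_lit 5) (nat_lit 65) (nat_lit 4) (nat_lit 329) (nat_lit 284) (nat_lit 275)) (XT.nd (nat_lit 94) (nat_lit 420) (nat_lit 0) (XT.lf (nat_lit 0) (nat_lit 15022697) (nat_lit 504) (nat_lit 2614014073) (nat_lit 84) (nat_lit 5629654368) (nat_lit 58) (nat_lit 5) (nat_lit 64) (nat_lit 5) (nat_lit 59) (nat_lit 5) (nat_lit 330) (nat_lit 284) (nat_lit 274)) (XT.lf (nat_lit 0) (nat_lit 949770668) (nat_lit 420) (nat_lit 1185372308) (nat_lit 504) (nat_lit 6249558778) (nat_lit 53) (nat_lit 5) (nat_lit 58) (nat_lit 5) (nat_lit 59) (nat_lit 5) (nat_lit 331) (nat_lit 284) (nat_lit 273))))) (XT.nd (nat_lit 282)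 (nat_lit 504) (nat_lit 0) (XT.nd (nat_lit 94) (nat_lit 336) (nat_lit 0) (XT.lf (nat_lit 0) (nat_lit 4290810352) (nat_lit 504) (nat_lit 3905317274) (nat_lit 84) (nat_lit 319888565) (nat_lit 53) (nat_lit 5) (nat_lit 59) (nat_lit 5) (nat_lit 54) (nat_lit 4) (nat_lit 332) (nat_lit 284) (nat_lit 272)) (XT.nd (nat_lit 94) (nat_lit 336) (nat_lit 0) (XT.lf (nat_lit 0) (nat_lit 6466506626) (nat_lit 504) (nat_lit 344080739) (nat_lit 84) (nat_lit 1842712835) (nat_lit 53) (nat_lit 5) (nat_lit 59) (nat_lit 5) (nat_lit 54) (nat_lit 4) (nat_lit 333) (nat_lit 284) (nat_lit 271)) (XT.lf (nat_lit 0) (nat_lit 3330968599) (nat_lit 336) (nat_lit 5354575757) (nat_lit 420) (nat_lit 110477566) (nat_lit 49) (nat_lit 5) (nat_lit 53) (nat_lit 5) (nat_lit 54) (nat_lit 4) (nat_lit 334) (nat_lit 284) (nat_lit 270)))) (XT.nd (nat_lit 94) (nat_lit 420) (nat_lit 0) (XT.lf (nat_lit 0) (nat_lit 1935886078) (nat_lit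 420) (nat_lit 1900628551) (nat_lit 84) (nat_lit 5108093793) (nat_lit 48) (nat_lit 5) (nat_lit 53) (nat_lit 5) (nat_lit 49) (nat_lit 5) (nat_lit 335) (nat_lit 284) (nat_lit 269)) (XT.nd (nat_lit 94) (nat_lit 0) (nat_lit 0) (XT.lf (nat_lit 0) (nat_lit 1745643642) (nat_lit 420) (nat_lit 2259738317) (nat_lit 504) (nat_lit 5093959042) (nat_lit 43) (nat_lit 5) (nat_lit 48) (nat_lit 5) (nat_lit 49) (nat_lit 5) (nat_lit 336) (nat_lit 284) (nat_lit 268)) (XT.lf (nat_lit 0) (nat_lit 5483186639) (nat_lit 420) (nat_lit 621405050) (nat_lit 504) (nat_lit 3155730942) (nat_lit 43) (nat_lit 5) (nat_lit 48) (nat_lit 5) (nat_lit 49) (nat_lit 5) (nat_lit 337) (nat_lit 284) (nat_lit 267)))))) (XT.nd (nat_lit 564) (nat_lit 924) (nat_lit 0) (XT.nd (nat_lit 282) (nat_lit 336) (nat_lit 0) (XT.nd (nat_lit 94) (nat_lit 420) (nat_lit 0) (XT.lf (nat_lit 0) (nat_lit 8226746846) (nat_lit 504) (nat_lit 162413525)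 (nat_lit 84) (nat_lit 1038813471) (nat_lit 43) (nat_lit 5) (nat_lit 49) (nat_lit 5) (nat_lit 44) (nat_lit 4) (nat_lit 338) (nat_lit 284) (nat_lit 266)) (XT.nd (nat_lit 94) (nat_lit 0) (nat_lit 0) (XT.lf (nat_lit 0) (nat_lit 787648982) (nat_lit 420) (nat_lit 6039770539) (nat_lit 84) (nat_lit 2773807874) (nat_lit 38) (nat_lit 5) (nat_lit 43) (nat_lit 5) (nat_lit 39) (nat_lit 5) (nat_lit 339) (nat_lit 284) (nat_lit 265)) (XT.lf (nat_lit 0) (nat_lit 2763892325) (nat_lit 420) (nat_lit 2448924722) (nat_lit 84) (nat_lit 4568523766) (nat_lit 38) (nat_lit 5) (nat_lit 43) (nat_lit 5) (nat_lit 39) (nat_lit 5) (nat_lit 340) (nat_lit 284) (nat_lit 264)))) (XT.nd (nat_lit 94) (nat_lit 0) (nat_lit 0) (XT.lf (nat_lit 0) (nat_lit 1218591639) (nat_lit 336) (nat_lit 3545382975) (nat_lit 420) (nat_lit 5204553521) (nat_lit 34) (nat_lit 5) (nat_lit 38) (nat_lit 5) (nat_lit 39) (nat_lit 5) (nat_lit 341)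 (nat_lit 284) (nat_lit 263)) (XT.nd (nat_lit 94) (nat_lit 0) (nat_lit 0) (XT.lf (nat_lit 0) (nat_lit 4993118669) (nat_lit 336) (nat_lit 1809896817) (nat_lit 420) (nat_lit 3359537440) (nat_lit 34) (nat_lit 5) (nat_lit 38) (nat_lit 5) (nat_lit 39) (nat_lit 5) (nat_lit 342) (nat_lit 284) (nat_lit 262)) (XT.lf (nat_lit 0) (nat_lit 8827819705) (nat_lit 336) (nat_lit 30302671) (nat_lit 420) (nat_lit 1506242247) (nat_lit 34) (nat_lit 5) (nat_lit 38) (nat_lit 5) (nat_lit 39) (nat_lit 5) (nat_lit 343) (nat_lit 284) (nat_lit 261))))) (XT.nd (nat_lit 282) (nat_lit 588) (nat_lit 0) (XT.nd (nat_lit 94) (nat_lit 0) (nat_lit 0) (XT.lf (nat_lit 0) (nat_lit 389683869) (nat_lit 336) (nat_lit 8398678309) (nat_lit 84) (nat_lit 1784444986) (nat_lit 30) (nat_lit 5) (nat_lit 34) (nat_lit 5) (nat_lit 31) (nat_lit 5) (nat_lit 344) (nat_lit 284) (nat_lit 260)) (XT.nd (nat_lit 94) (nat_lit 0) (nat_lit 0) (XT.lf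 (nat_lit 0) (nat_lit 2283861660) (nat_lit 336) (nat_lit 4828088568) (nat_lit 84) (nat_lit 3676473358) (nat_lit 30) (nat_lit 5) (nat_lit 34) (nat_lit 5) (nat_lit 31) (nat_lit 5) (nat_lit 345) (nat_lit 284) (nat_lit 259)) (XT.lf (nat_lit 0) (nat_lit 4192388274) (nat_lit 336) (nat_lit 1202487092) (nat_lit 84) (nat_lit 5617499197) (nat_lit 30) (nat_lit 5) (nat_lit 34) (nat_lit 5) (nat_lit 31) (nat_lit 5) (nat_lit 346) (nat_lit 284) (nat_lit 258)))) (XT.nd (nat_lit 188) (nat_lit 336) (nat_lit 0) (XT.nd (nat_lit 94) (nat_lit 0) (nat_lit 0) (XT.lf (nat_lit 0) (nat_lit 2532530402) (nat_lit 252) (nat_lit 3609635270) (nat_lit 336) (nat_lit 5101924352) (nat_lit 27) (nat_lit 5) (nat_lit 30) (nat_lit 5) (nat_lit 31) (nat_lit 5) (nat_lit 347) (nat_lit 284) (nat_lit 257)) (XT.lf (nat_lit 0) (nat_lit 6355369790) (nat_lit 252) (nat_lit 1767295056) (nat_lit 336) (nat_lit 3361503849) (nat_lit 27) (nat_lit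 5) (nat_lit 30) (nat_lit 5) (nat_lit 31) (nat_lit 5) (nat_lit 348) (nat_lit 284) (nat_lit 256))) (XT.nd (nat_lit 94) (nat_lit 336) (nat_lit 0) (XT.lf (nat_lit 0) (nat_lit 10124761145) (nat_lit 336) (nat_lit 1489546414) (nat_lit 84) (nat_lit 118866884) (nat_lit 27) (nat_lit 5) (nat_lit 31) (nat_lit 5) (nat_lit 28) (nat_lit 4) (nat_lit 349) (nat_lit 284) (nat_lit 255)) (XT.lf (nat_lit 0) (nat_lit 195180821) (nat_lit 336) (nat_lit 9754231756) (nat_lit 84) (nat_lit 2040656421) (nat_lit 23) (nat_lit 5) (nat_lit 27) (nat_lit 5) (nat_lit 24) (nat_lit 5) (nat_lit 350) (nat_lit 284) (nat_lit 254))))))) (XT.nd (nat_lit 1222) (nat_lit 504) (nat_lit 0) (XT.nd (nat_lit 564) (nat_lit 420) (nat_lit 0) (XT.nd (nat_lit 282) (nat_lit 0) (nat_lit 0) (XT.nd (nat_lit 94) (nat_lit 252) (nat_lit 0) (XT.lf (nat_lit 0) (nat_lit 1997168959) (nat_lit 336) (nat_lit 6214955057) (nat_lit 84) (nat_lit 4043269556)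 (nat_lit 23) (nat_lit 5) (nat_lit 27) (nat_lit 5) (nat_lit 24) (nat_lit 5) (nat_lit 351) (nat_lit 284) (nat_lit 253)) (XT.nd (nat_lit 94) (nat_lit 252) (nat_lit 0) (XT.lf (nat_lit 0) (nat_lit 3816402145) (nat_lit 336) (nat_lit 2616577508) (nat_lit 84) (nat_lit 6097382717) (nat_lit 23) (nat_lit 5) (nat_lit 27) (nat_lit 5) (nat_lit 24) (nat_lit 5) (nat_lit 352) (nat_lit 284) (nat_lit 252)) (XT.lf (nat_lit 0) (nat_lit 1065726977) (nat_lit 252) (nat_lit 4599421258) (nat_lit 336) (nat_lit 7149755721) (nat_lit 20) (nat_lit 5) (nat_lit 23) (nat_lit 5) (nat_lit 24) (nat_lit 5) (nat_lit 353) (nat_lit 284) (nat_lit 251)))) (XT.nd (nat_lit 94) (nat_lit 0) (nat_lit 0) (XT.lf (nat_lit 0) (nat_lit 4869055222) (nat_lit 252) (nat_lit 2692650582) (nat_lit 336) (nat_lit 5547063914) (nat_lit 20) (nat_lit 5) (nat_lit 23) (nat_lit 5) (nat_lit 24) (nat_lit 5) (nat_lit 354) (nat_lit 284) (nat_lit 250))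 (XT.nd (nat_lit 94) (nat_lit 0) (nat_lit 0) (XT.lf (nat_lit 0) (nat_lit 8743150125) (nat_lit 252) (nat_lit 738202018) (nat_lit 336) (nat_lit 3931702631) (nat_lit 20) (nat_lit 5) (nat_lit 23) (nat_lit 5) (nat_lit 24) (nat_lit 5) (nat_lit 355) (nat_lit 284) (nat_lit 249)) (XT.lf (nat_lit 0) (nat_lit 11438432922) (nat_lit 336) (nat_lit 1048976360) (nat_lit 84) (nat_lit 1240244220) (nat_lit 20) (nat_lit 5) (nat_lit 24) (nat_lit 5) (nat_lit 21) (nat_lit 4) (nat_lit 356) (nat_lit 284) (nat_lit 248))))) (XT.nd (nat_lit 282) (nat_lit 168) (nat_lit 0) (XT.nd (nat_lit 94) (nat_lit 84) (nat_lit 0) (XT.lf (nat_lit 0) (nat_lit 2685283366) (nat_lit 168) (nat_lit 10771391888) (nat_lit 252) (nat_lit 595504899) (nat_lit 18) (nat_lit 5) (nat_lit 20) (nat_lit 5) (nat_lit 21) (nat_lit 4) (nat_lit 357) (nat_lit 284) (nat_lit 247)) (XT.nd (nat_lit 94) (nat_lit 0) (nat_lit 0) (XT.lf (nat_lit 0) (nat_lit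 1104943070) (nat_lit 252) (nat_lit 7886292678) (nat_lit 84) (nat_lit 5396057076) (nat_lit 17) (nat_lit 5) (nat_lit 20) (nat_lit 5) (nat_lit 18) (nat_lit 5) (nat_lit 358) (nat_lit 284) (nat_lit 246)) (XT.lf (nat_lit 0) (nat_lit 2813096984) (nat_lit 252) (nat_lit 4348381557) (nat_lit 84) (nat_lit 7572312347) (nat_lit 17) (nat_lit 5) (nat_lit 20) (nat_lit 5) (nat_lit 18) (nat_lit 5) (nat_lit 359) (nat_lit 284) (nat_lit 245)))) (XT.nd (nat_lit 188) (nat_lit 0) (nat_lit 0) (XT.nd (nat_lit 94) (nat_lit 168) (nat_lit 0) (XT.lf (nat_lit 0) (nat_lit 4542547115) (nat_lit 252) (nat_lit 743958237) (nat_lit 84) (nat_lit 9805675094) (nat_lit 17) (nat_lit 5) (nat_lit 20) (nat_lit 5) (nat_lit 18) (nat_lit 5) (nat_lit 360) (nat_lit 284) (nat_lit 244)) (XT.lf (nat_lit 0) (nat_lit 2990590717) (nat_lit 168) (nat_lit 3333981805) (nat_lit 252) (nat_lit 9137303356) (nat_lit 15) (nat_lit 5) (nat_lit 17)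 (nat_lit 5) (nat_lit 18) (nat_lit 5) (nat_lit 361) (nat_lit 284) (nat_lit 243))) (XT.nd (nat_lit 94) (nat_lit 0) (nat_lit 0) (XT.lf (nat_lit 0) (nat_lit 6815240837) (nat_lit 168) (nat_lit 1324172694) (nat_lit 252) (nat_lit 7704472291) (nat_lit 15) (nat_lit 5) (nat_lit 17) (nat_lit 5) (nat_lit 18) (nat_lit 5) (nat_lit 362) (nat_lit 284) (nat_lit 242)) (XT.lf (nat_lit 0) (nat_lit 9988541282) (nat_lit 252) (nat_lit 5527851478) (nat_lit 84) (nat_lit 722180424) (nat_lit 15) (nat_lit 5) (nat_lit 18) (nat_lit 5) (nat_lit 16) (nat_lit 4) (nat_lit 363) (nat_lit 284) (nat_lit 241)))))) (XT.nd (nat_lit 564) (nat_lit 252) (nat_lit 0) (XT.nd (nat_lit 282) (nat_lit 84) (nat_lit 0) (XT.nd (nat_lit 94) (nat_lit 168) (nat_lit 0) (XT.lf (nat_lit 0) (nat_lit 11880025959) (nat_lit 252) (nat_lit 1971988138) (nat_lit 84) (nat_lit 2794095015) (nat_lit 15) (nat_lit 5) (nat_lit 18) (nat_lit 5) (nat_lit 16)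 (nat_lit 4) (nat_lit 364) (nat_lit 284) (nat_lit 240)) (XT.nd (nat_lit 94) (nat_lit 0) (nat_lit 0) (XT.lf (nat_lit 0) (nat_lit 1689433753) (nat_lit 168) (nat_lit 12129820303) (nat_lit 252) (nat_lit 3247507086) (nat_lit 13) (nat_lit 5) (nat_lit 15) (nat_lit 5) (nat_lit 16) (nat_lit 4) (nat_lit 365) (nat_lit 284) (nat_lit 239)) (XT.lf (nat_lit 0) (nat_lit 5467845221) (nat_lit 168) (nat_lit 10344135825) (nat_lit 252) (nat_lit 1688817939) (nat_lit 13) (nat_lit 5) (nat_lit 15) (nat_lit 5) (nat_lit 16) (nat_lit 4) (nat_lit 366) (nat_lit 284) (nat_lit 238)))) (XT.nd (nat_lit 94) (nat_lit 84) (nat_lit 0) (XT.lf (nat_lit 0) (nat_lit 9326220017) (nat_lit 168) (nat_lit 8513879729) (nat_lit 252) (nat_lit 109146363) (nat_lit 13) (nat_lit 5) (nat_lit 15) (nat_lit 5) (nat_lit 16) (nat_lit 4) (nat_lit 367) (nat_lit 284) (nat_lit 237)) (XT.nd (nat_lit 94) (nat_lit 0) (nat_lit 0) (XT.lf (nat_lit 0)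 (nat_lit 1462899840) (nat_lit 252) (nat_lit 5159176511) (nat_lit 84) (nat_lit 11789985038) (nat_lit 12) (nat_lit 5) (nat_lit 15) (nat_lit 5) (nat_lit 13) (nat_lit 5) (nat_lit 368) (nat_lit 284) (nat_lit 236)) (XT.lf (nat_lit 0) (nat_lit 3056212683) (nat_lit 252) (nat_lit 1624672312) (nat_lit 84) (nat_lit 14209209847) (nat_lit 12) (nat_lit 5) (nat_lit 15) (nat_lit 5) (nat_lit 13) (nat_lit 5) (nat_lit 369) (nat_lit 284) (nat_lit 235))))) (XT.nd (nat_lit 282) (nat_lit 84) (nat_lit 0) (XT.nd (nat_lit 94) (nat_lit 0) (nat_lit 0) (XT.lf (nat_lit 0) (nat_lit 2025676647) (nat_lit 168) (nat_lit 2668894671) (nat_lit 252) (nat_lit 14688631347) (nat_lit 10) (nat_lit 5) (nat_lit 12) (nat_lit 5) (nat_lit 13) (nat_lit 5) (nat_lit 370) (nat_lit 284) (nat_lit 234)) (XT.nd (nat_lit 94) (nat_lit 0) (nat_lit 0) (XT.lf (nat_lit 0) (nat_lit 5789440550) (nat_lit 168) (nat_lit 587190667) (nat_lit 252) (nat_lit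 13515302293) (nat_lit 10) (nat_lit 5) (nat_lit 12) (nat_lit 5) (nat_lit 13) (nat_lit 5) (nat_lit 371) (nat_lit 284) (nat_lit 233)) (XT.lf (nat_lit 0) (nat_lit 8102880232) (nat_lit 252) (nat_lit 10795918790) (nat_lit 84) (nat_lit 1517996024) (nat_lit 10) (nat_lit 5) (nat_lit 13) (nat_lit 5) (nat_lit 11) (nat_lit 4) (nat_lit 372) (nat_lit 284) (nat_lit 232)))) (XT.nd (nat_lit 188) (nat_lit 84) (nat_lit 0) (XT.nd (nat_lit 94) (nat_lit 0) (nat_lit 0) (XT.lf (nat_lit 0) (nat_lit 9865932084) (nat_lit 252) (nat_lit 7425726109) (nat_lit 84) (nat_lit 3666897160) (nat_lit 10) (nat_lit 5) (nat_lit 13) (nat_lit 5) (nat_lit 11) (nat_lit 4) (nat_lit 373) (nat_lit 284) (nat_lit 231)) (XT.lf (nat_lit 0) (nat_lit 11661605118) (nat_lit 252) (nat_lit 3982948541) (nat_lit 84) (nat_lit 5873346325) (nat_lit 10) (nat_lit 5) (nat_lit 13) (nat_lit 5) (nat_lit 11) (nat_lit 4) (nat_lit 374) (nat_lit 284) (nat_lit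 230))) (XT.nd (nat_lit 94) (nat_lit 84) (nat_lit 0) (XT.lf (nat_lit 0) (nat_lit 13491573090) (nat_lit 252) (nat_lit 464377057) (nat_lit 84) (nat_lit 8139400161) (nat_lit 10) (nat_lit 5) (nat_lit 13) (nat_lit 5) (nat_lit 11) (nat_lit 4) (nat_lit 375) (nat_lit 284) (nat_lit 229)) (XT.lf (nat_lit 0) (nat_lit 3197694436) (nat_lit 84) (nat_lit 12191568810) (nat_lit 168) (nat_lit 7301197956) (nat_lit 9) (nat_lit 5) (nat_lit 10) (nat_lit 5) (nat_lit 11) (nat_lit 4) (nat_lit 376) (nat_lit 284) (nat_lit 228))))))))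
noncomputable def xc58 : XT := (XT.nd (nat_lit 2350) (nat_lit 252) (nat_lit 0) (XT.nd (nat_lit 1128) (nat_lit 84) (nat_lit 0) (XT.nd (nat_lit 564) (nat_lit 0) (nat_lit 0) (XT.nd (nat_lit 282) (nat_lit 252) (nat_lit 0) (XT.nd (nat_lit 94) (nat_lit 0) (nat_lit 0) (XT.lf (nat_lit 0) (nat_lit 6953436317) (nat_lit 84) (nat_lit 10376792922) (nat_lit 168) (nat_lit 5974370801) (nat_lit 9) (nat_lit 5) (nat_lit 10) (nat_lit 5) (nat_lit 11) (nat_lit 4) (nat_lit 377) (nat_lit 284) (nat_lit 227)) (XT.nd (nat_lit 94) (nat_lit 0) (nat_lit 0) (XT.lf (nat_lit 0) (nat_lit 10796800787) (nat_lit 84) (nat_lit 8514778067) (nat_lit 168) (nat_lit 4626906157) (nat_lit 9) (nat_lit 5) (nat_lit 10) (nat_lit 5) (nat_lit 11) (nat_lit 4) (nat_lit 378) (nat_lit 284) (nat_lit 226)) (XT.lf (nat_lit 0) (nat_lit 14731370263) (nat_lit 84) (nat_lit 6603788652) (nat_lit 168) (nat_lit 3257548045) (nat_lit 9) (nat_lit 5)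 (nat_lit 10) (nat_lit 5) (nat_lit 11) (nat_lit 4) (nat_lit 379) (nat_lit 284) (nat_lit 225)))) (XT.nd (nat_lit 94) (nat_lit 252) (nat_lit 0) (XT.lf (nat_lit 0) (nat_lit 18760812176) (nat_lit 84) (nat_lit 4642043434) (nat_lit 168) (nat_lit 1865020080) (nat_lit 9) (nat_lit 5) (nat_lit 10) (nat_lit 5) (nat_lit 11) (nat_lit 4) (nat_lit 380) (nat_lit 284) (nat_lit 224)) (XT.nd (nat_lit 94) (nat_lit 252) (nat_lit 0) (XT.lf (nat_lit 0) (nat_lit 22888882388) (nat_lit 84) (nat_lit 2627713862) (nat_lit 168) (nat_lit 448024280) (nat_lit 9) (nat_lit 5) (nat_lit 10) (nat_lit 5) (nat_lit 11) (nat_lit 4) (nat_lit 381) (nat_lit 284) (nat_lit 223)) (XT.lf (nat_lit 0) (nat_lit 434728438) (nat_lit 168) (nat_lit 544302063) (nat_lit 252) (nat_lit 25704120816) (nat_lit 6) (nat_lit 5) (nat_lit 8) (nat_lit 5) (nat_lit 9) (nat_lit 5) (nat_lit 382) (nat_lit 284) (nat_lit 222))))) (XT.nd (nat_lit 282) (nat_lit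 0) (nat_lit 0) (XT.nd (nat_lit 94) (nat_lit 0) (nat_lit 0) (XT.lf (nat_lit 0) (nat_lit 2471784739) (nat_lit 252) (nat_lit 23350774970) (nat_lit 84) (nat_lit 1600379657) (nat_lit 6) (nat_lit 5) (nat_lit 9) (nat_lit 5) (nat_lit 7) (nat_lit 4) (nat_lit 383) (nat_lit 284) (nat_lit 221)) (XT.nd (nat_lit 94) (nat_lit 0) (nat_lit 0) (XT.lf (nat_lit 0) (nat_lit 3999335377) (nat_lit 252) (nat_lit 20394296310) (nat_lit 84) (nat_lit 3792461282) (nat_lit 6) (nat_lit 5) (nat_lit 9) (nat_lit 5) (nat_lit 7) (nat_lit 4) (nat_lit 384) (nat_lit 284) (nat_lit 220)) (XT.lf (nat_lit 0) (nat_lit 5557706709) (nat_lit 252) (nat_lit 17370831610) (nat_lit 84) (nat_lit 6044952535) (nat_lit 6) (nat_lit 5) (nat_lit 9) (nat_lit 5) (nat_lit 7) (nat_lit 4) (nat_lit 385) (nat_lit 284) (nat_lit 219)))) (XT.nd (nat_lit 94) (nat_lit 0) (nat_lit 0) (XT.lf (nat_lit 0) (nat_lit 7148351300) (nat_lit 252) (nat_lit 14277562683)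 (nat_lit 84) (nat_lit 8359952972) (nat_lit 6) (nat_lit 5) (nat_lit 9) (nat_lit 5) (nat_lit 7) (nat_lit 4) (nat_lit 386) (nat_lit 284) (nat_lit 218)) (XT.nd (nat_lit 94) (nat_lit 0) (nat_lit 0) (XT.lf (nat_lit 0) (nat_lit 8772751798) (nat_lit 252) (nat_lit 11111606279) (nat_lit 84) (nat_lit 10739620418) (nat_lit 6) (nat_lit 5) (nat_lit 9) (nat_lit 5) (nat_lit 7) (nat_lit 4) (nat_lit 387) (nat_lit 284) (nat_lit 217)) (XT.lf (nat_lit 0) (nat_lit 10432422313) (nat_lit 252) (nat_lit 7870011394) (nat_lit 84) (nat_lit 13186172970) (nat_lit 6) (nat_lit 5) (nat_lit 9) (nat_lit 5) (nat_lit 7) (nat_lit 4) (nat_lit 388) (nat_lit 284) (nat_lit 216)))))) (XT.nd (nat_lit 564) (nat_lit 0) (nat_lit 0) (XT.nd (nat_lit 282) (nat_lit 0) (nat_lit 0) (XT.nd (nat_lit 94) (nat_lit 84) (nat_lit 0) (XT.lf (nat_lit 0) (nat_lit 12128909833) (nat_lit 252) (nat_lit 4549756523) (nat_lit 84) (nat_lit 15701891074)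 (nat_lit 6) (nat_lit 5) (nat_lit 9) (nat_lit 5) (nat_lit 7) (nat_lit 4) (nat_lit 389) (nat_lit 284) (nat_lit 215)) (XT.nd (nat_lit 94) (nat_lit 84) (nat_lit 0) (XT.lf (nat_lit 0) (nat_lit 13863795662) (nat_lit 252) (nat_lit 1147746841) (nat_lit 84) (nat_lit 18289119640) (nat_lit 6) (nat_lit 5) (nat_lit 9) (nat_lit 5) (nat_lit 7) (nat_lit 4) (nat_lit 390) (nat_lit 284) (nat_lit 214)) (XT.lf (nat_lit 0) (nat_lit 2387287198) (nat_lit 84) (nat_lit 13275091880) (nat_lit 168) (nat_lit 18586665224) (nat_lit 5) (nat_lit 5) (nat_lit 6) (nat_lit 5) (nat_lit 7) (nat_lit 4) (nat_lit 391) (nat_lit 284) (nat_lit 213)))) (XT.nd (nat_lit 94) (nat_lit 0) (nat_lit 0) (XT.lf (nat_lit 0) (nat_lit 6035910378) (nat_lit 84) (nat_lit 11479234526) (nat_lit 168) (nat_lit 17711789939) (nat_lit 5) (nat_lit 5) (nat_lit 6) (nat_lit 5) (nat_lit 7) (nat_lit 4) (nat_lit 392) (nat_lit 284) (nat_lit 212)) (XT.nd (nat_lit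 94) (nat_lit 0) (nat_lit 0) (XT.lf (nat_lit 0) (nat_lit 9777923567) (nat_lit 84) (nat_lit 9634276634) (nat_lit 168) (nat_lit 16823405274) (nat_lit 5) (nat_lit 5) (nat_lit 6) (nat_lit 5) (nat_lit 7) (nat_lit 4) (nat_lit 393) (nat_lit 284) (nat_lit 211)) (XT.lf (nat_lit 0) (nat_lit 13616814713) (nat_lit 84) (nat_lit 7738498513) (nat_lit 168) (nat_lit 15920683161) (nat_lit 5) (nat_lit 5) (nat_lit 6) (nat_lit 5) (nat_lit 7) (nat_lit 4) (nat_lit 394) (nat_lit 284) (nat_lit 210))))) (XT.nd (nat_lit 282) (nat_lit 0) (nat_lit 0) (XT.nd (nat_lit 94) (nat_lit 0) (nat_lit 0) (XT.lf (nat_lit 0) (nat_lit 17556162065) (nat_lit 84) (nat_lit 5790133097) (nat_lit 168) (nat_lit 15002782169) (nat_lit 5) (nat_lit 5) (nat_lit 6) (nat_lit 5) (nat_lit 7) (nat_lit 4) (nat_lit 395) (nat_lit 284) (nat_lit 209)) (XT.nd (nat_lit 94) (nat_lit 0) (nat_lit 0) (XT.lf (nat_lit 0) (nat_lit 21599637508) (nat_lit 84)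 (nat_lit 3787364306) (nat_lit 168) (nat_lit 14068846718) (nat_lit 5) (nat_lit 5) (nat_lit 6) (nat_lit 5) (nat_lit 7) (nat_lit 4) (nat_lit 396) (nat_lit 284) (nat_lit 208)) (XT.lf (nat_lit 0) (nat_lit 25751009984) (nat_lit 84) (nat_lit 1728325351) (nat_lit 168) (nat_lit 13118006283) (nat_lit 5) (nat_lit 5) (nat_lit 6) (nat_lit 5) (nat_lit 7) (nat_lit 4) (nat_lit 397) (nat_lit 284) (nat_lit 207)))) (XT.nd (nat_lit 188) (nat_lit 0) (nat_lit 0) (XT.nd (nat_lit 94) (nat_lit 0) (nat_lit 0) (XT.lf (nat_lit 0) (nat_lit 29629103965) (nat_lit 168) (nat_lit 11764329536) (nat_lit 0) (nat_lit 381067480) (nat_lit 5) (nat_lit 5) (nat_lit 7) (nat_lit 4) (nat_lit 5) (nat_lit 4) (nat_lit 398) (nat_lit 284) (nat_lit 206)) (XT.lf (nat_lit 0) (nat_lit 31852191974) (nat_lit 168) (nat_lit 8621212445) (nat_lit 0) (nat_lit 2514589143) (nat_lit 5) (nat_lit 5) (nat_lit 7) (nat_lit 4) (nat_lit 5) (nat_lit 4)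 (nat_lit 399) (nat_lit 284) (nat_lit 205))) (XT.nd (nat_lit 94) (nat_lit 0) (nat_lit 0) (XT.lf (nat_lit 0) (nat_lit 34133526313) (nat_lit 168) (nat_lit 5396905446) (nat_lit 0) (nat_lit 4709050208) (nat_lit 5) (nat_lit 5) (nat_lit 7) (nat_lit 4) (nat_lit 5) (nat_lit 4) (nat_lit 400) (nat_lit 284) (nat_lit 204)) (XT.lf (nat_lit 0) (nat_lit 36475233424) (nat_lit 168) (nat_lit 2088403146) (nat_lit 0) (nat_lit 6966496141) (nat_lit 5) (nat_lit 5) (nat_lit 7) (nat_lit 4) (nat_lit 5) (nat_lit 4) (nat_lit 401) (nat_lit 284) (nat_lit 203))))))) (XT.nd (nat_lit 1222) (nat_lit 84) (nat_lit 0) (XT.nd (nat_lit 564) (nat_lit 84) (nat_lit 0) (XT.nd (nat_lit 282) (nat_lit 0) (nat_lit 0) (XT.nd (nat_lit 94) (nat_lit 0) (nat_lit 0) (XT.lf (nat_lit 0) (nat_lit 1334260704) (nat_lit 84) (nat_lit 37558471352) (nat_lit 84) (nat_lit 7968006447) (nat_lit 4) (nat_lit 4) (nat_lit 5) (nat_lit 5) (nat_lit 5)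 (nat_lit 4) (nat_lit 402) (nat_lit 284) (nat_lit 202)) (XT.nd (nat_lit 94) (nat_lit 0) (nat_lit 0) (XT.lf (nat_lit 0) (nat_lit 4892170524) (nat_lit 84) (nat_lit 36504915551) (nat_lit 84) (nat_lit 6835180402) (nat_lit 4) (nat_lit 4) (nat_lit 5) (nat_lit 5) (nat_lit 5) (nat_lit 4) (nat_lit 403) (nat_lit 284) (nat_lit 201)) (XT.lf (nat_lit 0) (nat_lit 8545700806) (nat_lit 84) (nat_lit 35423785790) (nat_lit 84) (nat_lit 5677163887) (nat_lit 4) (nat_lit 4) (nat_lit 5) (nat_lit 5) (nat_lit 5) (nat_lit 4) (nat_lit 404) (nat_lit 284) (nat_lit 200)))) (XT.nd (nat_lit 94) (nat_lit 0) (nat_lit 0) (XT.lf (nat_lit 0) (nat_lit 12298257024) (nat_lit 84) (nat_lit 34314074343) (nat_lit 84) (nat_lit 4492877508) (nat_lit 4) (nat_lit 4) (nat_lit 5) (nat_lit 5) (nat_lit 5) (nat_lit 4) (nat_lit 405) (nat_lit 284) (nat_lit 199)) (XT.nd (nat_lit 94) (nat_lit 0) (nat_lit 0) (XT.lf (nat_lit 0) (nat_lit 16153336952)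 (nat_lit 84) (nat_lit 33174746842) (nat_lit 84) (nat_lit 3281217386) (nat_lit 4) (nat_lit 4) (nat_lit 5) (nat_lit 5) (nat_lit 5) (nat_lit 4) (nat_lit 406) (nat_lit 284) (nat_lit 198)) (XT.lf (nat_lit 0) (nat_lit 20114533929) (nat_lit 84) (nat_lit 32004741314) (nat_lit 84) (nat_lit 2041054128) (nat_lit 4) (nat_lit 4) (nat_lit 5) (nat_lit 5) (nat_lit 5) (nat_lit 4) (nat_lit 407) (nat_lit 284) (nat_lit 197))))) (XT.nd (nat_lit 282) (nat_lit 0) (nat_lit 0) (XT.nd (nat_lit 94) (nat_lit 84) (nat_lit 0) (XT.lf (nat_lit 0) (nat_lit 24185540206) (nat_lit 84) (nat_lit 30802967193) (nat_lit 84) (nat_lit 771231770) (nat_lit 4) (nat_lit 4) (nat_lit 5) (nat_lit 5) (nat_lit 5) (nat_lit 4) (nat_lit 408) (nat_lit 284) (nat_lit 196)) (XT.nd (nat_lit 94) (nat_lit 0) (nat_lit 0) (XT.lf (nat_lit 0) (nat_lit 518766391) (nat_lit 168) (nat_lit 29044123049) (nat_lit 84) (nat_lit 27845969137) (nat_lit 3)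 (nat_lit 5) (nat_lit 5) (nat_lit 5) (nat_lit 4) (nat_lit 4) (nat_lit 409) (nat_lit 284) (nat_lit 195)) (XT.lf (nat_lit 0) (nat_lit 1824635176) (nat_lit 168) (nat_lit 26455921168) (nat_lit 84) (nat_lit 30828584339) (nat_lit 3) (nat_lit 5) (nat_lit 5) (nat_lit 5) (nat_lit 4) (nat_lit 4) (nat_lit 410) (nat_lit 284) (nat_lit 194)))) (XT.nd (nat_lit 188) (nat_lit 0) (nat_lit 0) (XT.nd (nat_lit 94) (nat_lit 0) (nat_lit 0) (XT.lf (nat_lit 0) (nat_lit 3163130392) (nat_lit 168) (nat_lit 23799530132) (nat_lit 84) (nat_lit 33899746978) (nat_lit 3) (nat_lit 5) (nat_lit 5) (nat_lit 5) (nat_lit 4) (nat_lit 4) (nat_lit 411) (nat_lit 284) (nat_lit 193)) (XT.lf (nat_lit 0) (nat_lit 4535499657) (nat_lit 168) (nat_lit 21072473904) (nat_lit 84) (nat_lit 37062319698) (nat_lit 3) (nat_lit 5) (nat_lit 5) (nat_lit 5) (nat_lit 4) (nat_lit 4) (nat_lit 412) (nat_lit 284) (nat_lit 192))) (XT.nd (nat_lit 94)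 (nat_lit 0) (nat_lit 0) (XT.lf (nat_lit 0) (nat_lit 5943022161) (nat_lit 168) (nat_lit 18272210584) (nat_lit 84) (nat_lit 40319250349) (nat_lit 3) (nat_lit 5) (nat_lit 5) (nat_lit 5) (nat_lit 4) (nat_lit 4) (nat_lit 413) (nat_lit 284) (nat_lit 191)) (XT.lf (nat_lit 0) (nat_lit 7387009865) (nat_lit 168) (nat_lit 15396130033) (nat_lit 84) (nat_lit 43673574732) (nat_lit 3) (nat_lit 5) (nat_lit 5) (nat_lit 5) (nat_lit 4) (nat_lit 4) (nat_lit 414) (nat_lit 284) (nat_lit 190)))))) (XT.nd (nat_lit 564) (nat_lit 0) (nat_lit 0) (XT.nd (nat_lit 282) (nat_lit 84) (nat_lit 0) (XT.nd (nat_lit 94) (nat_lit 0) (nat_lit 0) (XT.lf (nat_lit 0) (nat_lit 8868808715) (nat_lit 168) (nat_lit 12441551441) (nat_lit 84) (nat_lit 47128419427) (nat_lit 3) (nat_lit 5) (nat_lit 5) (nat_lit 5) (nat_lit 4) (nat_lit 4) (nat_lit 415) (nat_lit 284) (nat_lit 189)) (XT.nd (nat_lit 94) (nat_lit 0) (nat_lit 0) (XT.lf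 (nat_lit 0) (nat_lit 10389799904) (nat_lit 168) (nat_lit 9405720834) (nat_lit 84) (nat_lit 50687004713) (nat_lit 3) (nat_lit 5) (nat_lit 5) (nat_lit 5) (nat_lit 4) (nat_lit 4) (nat_lit 416) (nat_lit 284) (nat_lit 188)) (XT.lf (nat_lit 0) (nat_lit 11951401154) (nat_lit 168) (nat_lit 6285808497) (nat_lit 84) (nat_lit 54352647564) (nat_lit 3) (nat_lit 5) (nat_lit 5) (nat_lit 5) (nat_lit 4) (nat_lit 4) (nat_lit 417) (nat_lit 284) (nat_lit 187)))) (XT.nd (nat_lit 94) (nat_lit 84) (nat_lit 0) (XT.lf (nat_lit 0) (nat_lit 13555068041) (nat_lit 168) (nat_lit 3078906346) (nat_lit 84) (nat_lit 58128764742) (nat_lit 3) (nat_lit 5) (nat_lit 5) (nat_lit 5) (nat_lit 4) (nat_lit 4) (nat_lit 418) (nat_lit 284) (nat_lit 186)) (XT.nd (nat_lit 94) (nat_lit 0) (nat_lit 0) (XT.lf (nat_lit 0) (nat_lit 222456795) (nat_lit 84) (nat_lit 14982045356) (nat_lit 168) (nat_lit 61798625988) (nat_lit 2) (nat_lit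 5) (nat_lit 3) (nat_lit 5) (nat_lit 4) (nat_lit 4) (nat_lit 419) (nat_lit 284) (nat_lit 185)) (XT.lf (nat_lit 0) (nat_lit 3682093927) (nat_lit 84) (nat_lit 13249051374) (nat_lit 168) (nat_lit 62381040182) (nat_lit 2) (nat_lit 5) (nat_lit 3) (nat_lit 5) (nat_lit 4) (nat_lit 4) (nat_lit 420) (nat_lit 284) (nat_lit 184))))) (XT.nd (nat_lit 282) (nat_lit 0) (nat_lit 0) (XT.nd (nat_lit 94) (nat_lit 0) (nat_lit 0) (XT.lf (nat_lit 0) (nat_lit 7239921165) (nat_lit 84) (nat_lit 11465514578) (nat_lit 168) (nat_lit 62987594009) (nat_lit 2) (nat_lit 5) (nat_lit 3) (nat_lit 5) (nat_lit 4) (nat_lit 4) (nat_lit 421) (nat_lit 284) (nat_lit 183)) (XT.nd (nat_lit 94) (nat_lit 0) (nat_lit 0) (XT.lf (nat_lit 0) (nat_lit 10899254777) (nat_lit 84) (nat_lit 9629772525) (nat_lit 168) (nat_lit 63618852841) (nat_lit 2) (nat_lit 5) (nat_lit 3) (nat_lit 5) (nat_lit 4) (nat_lit 4) (nat_lit 422) (nat_lit 284)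 (nat_lit 182)) (XT.lf (nat_lit 0) (nat_lit 14663505645) (nat_lit 84) (nat_lit 7740114110) (nat_lit 168) (nat_lit 64275405078) (nat_lit 2) (nat_lit 5) (nat_lit 3) (nat_lit 5) (nat_lit 4) (nat_lit 4) (nat_lit 423) (nat_lit 284) (nat_lit 181)))) (XT.nd (nat_lit 188) (nat_lit 0) (nat_lit 0) (XT.nd (nat_lit 94) (nat_lit 0) (nat_lit 0) (XT.lf (nat_lit 0) (nat_lit 18536182444) (nat_lit 84) (nat_lit 5794777976) (nat_lit 168) (nat_lit 64957862694) (nat_lit 2) (nat_lit 5) (nat_lit 3) (nat_lit 5) (nat_lit 4) (nat_lit 4) (nat_lit 424) (nat_lit 284) (nat_lit 180)) (XT.lf (nat_lit 0) (nat_lit 22520894915) (nat_lit 84) (nat_lit 3791950863) (nat_lit 168) (nat_lit 65666861812) (nat_lit 2) (nat_lit 5) (nat_lit 3) (nat_lit 5) (nat_lit 4) (nat_lit 4) (nat_lit 425) (nat_lit 284) (nat_lit 179))) (XT.nd (nat_lit 94) (nat_lit 0) (nat_lit 0) (XT.lf (nat_lit 0) (nat_lit 26621357229) (nat_lit 84) (nat_lit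 1729765929) (nat_lit 168) (nat_lit 66403063293) (nat_lit 2) (nat_lit 5) (nat_lit 3) (nat_lit 5) (nat_lit 4) (nat_lit 4) (nat_lit 426) (nat_lit 284) (nat_lit 178)) (XT.lf (nat_lit 0) (nat_lit 30451597987) (nat_lit 168) (nat_lit 66777359896) (nat_lit 0) (nat_lit 385766842) (nat_lit 2) (nat_lit 5) (nat_lit 4) (nat_lit 4) (nat_lit 2) (nat_lit 4) (nat_lit 427) (nat_lit 284) (nat_lit 177))))))))
noncomputable def xc59 : XT := (XT.nd (nat_lit 47658) (nat_lit 0) (nat_lit 924) (XT.nd (nat_lit 46436) (nat_lit 0) (nat_lit 2688) (XT.nd (nat_lit 45778) (nat_lit 0) (nat_lit 5208) (XT.nd (nat_lit 45496) (nat_lit 0) (nat_lit 7476) (XT.nd (nat_lit 94) (nat_lit 0) (nat_lit 0) (XT.lf (nat_lit 0) (nat_lit 32630105977) (nat_lit 168) (nat_lit 65405019108) (nat_lit 0) (nat_lit 2528433438) (nat_lit 2) (nat_lit 5) (nat_lit 4) (nat_lit 4) (nat_lit 2) (nat_lit 4) (nat_lit 428) (nat_lit 284) (nat_lit 176))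 (XT.nd (nat_lit 45308) (nat_lit 0) (nat_lit 8400) (XT.lf (nat_lit 0) (nat_lit 34871518235) (nat_lit 168) (nat_lit 63997368201) (nat_lit 0) (nat_lit 4735081977) (nat_lit 2) (nat_lit 5) (nat_lit 4) (nat_lit 4) (nat_lit 2) (nat_lit 4) (nat_lit 429) (nat_lit 284) (nat_lit 175)) (XT.lf (nat_lit 0) (nat_lit 795692733) (nat_lit 756) (nat_lit 1386448836) (nat_lit 756) (nat_lit 1386448836) (nat_lit 102) (nat_lit 4) (nat_lit 111) (nat_lit 5) (nat_lit 111) (nat_lit 4) (nat_lit 318) (nat_lit 285) (nat_lit 285)))) (XT.nd (nat_lit 94) (nat_lit 924) (nat_lit 0) (XT.lf (nat_lit 0) (nat_lit 4958222871) (nat_lit 756) (nat_lit 1822960724) (nat_lit 756) (nat_lit 425226072) (nat_lit 102) (nat_lit 4) (nat_lit 111) (nat_lit 5) (nat_lit 111) (nat_lit 4) (nat_lit 319) (nat_lit 285) (nat_lit 284)) (XT.nd (nat_lit 94) (nat_lit 0) (nat_lit 0) (XT.lf (nat_lit 0) (nat_lit 1085292003) (nat_lit 840) (nat_lit 804779078)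 (nat_lit 924) (nat_lit 5389821899) (nat_lit 91) (nat_lit 5) (nat_lit 101) (nat_lit 5) (nat_lit 102) (nat_lit 4) (nat_lit 320) (nat_lit 285) (nat_lit 283)) (XT.lf (nat_lit 0) (nat_lit 4220394910) (nat_lit 924) (nat_lit 2862961059) (nat_lit 0) (nat_lit 274335938) (nat_lit 91) (nat_lit 5) (nat_lit 102) (nat_lit 4) (nat_lit 91) (nat_lit 4) (nat_lit 321) (nat_lit 285) (nat_lit 282))))) (XT.nd (nat_lit 282) (nat_lit 1260) (nat_lit 0) (XT.nd (nat_lit 94) (nat_lit 84) (nat_lit 0) (XT.lf (nat_lit 0) (nat_lit 505252641) (nat_lit 924) (nat_lit 6059124710) (nat_lit 924) (nat_lit 876007714) (nat_lit 80) (nat_lit 4) (nat_lit 91) (nat_lit 5) (nat_lit 91) (nat_lit 4) (nat_lit 322) (nat_lit 285) (nat_lit 281)) (XT.nd (nat_lit 94) (nat_lit 0) (nat_lit 0) (XT.lf (nat_lit 0) (nat_lit 1384555985) (nat_lit 1008) (nat_lit 3570946084) (nat_lit 84) (nat_lit 2571605631) (nat_lit 79) (nat_lit 5) (nat_lit 91)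 (nat_lit 5) (nat_lit 80) (nat_lit 4) (nat_lit 323) (nat_lit 285) (nat_lit 280)) (XT.lf (nat_lit 0) (nat_lit 3627464106) (nat_lit 1008) (nat_lit 179384650) (nat_lit 84) (nat_lit 3812155977) (nat_lit 79) (nat_lit 5) (nat_lit 91) (nat_lit 5) (nat_lit 80) (nat_lit 4) (nat_lit 324) (nat_lit 285) (nat_lit 279)))) (XT.nd (nat_lit 188) (nat_lit 504) (nat_lit 0) (XT.nd (nat_lit 94) (nat_lit 84) (nat_lit 0) (XT.lf (nat_lit 0) (nat_lit 3318258794) (nat_lit 672) (nat_lit 2587115622) (nat_lit 756) (nat_lit 1810036352) (nat_lit 71) (nat_lit 5) (nat_lit 79) (nat_lit 5) (nat_lit 80) (nat_lit 4) (nat_lit 325) (nat_lit 285) (nat_lit 278)) (XT.lf (nat_lit 0) (nat_lit 364838288) (nat_lit 756) (nat_lit 958173680) (nat_lit 84) (nat_lit 6494240979) (nat_lit 70) (nat_lit 5) (nat_lit 79) (nat_lit 5) (nat_lit 71) (nat_lit 5) (nat_lit 326) (nat_lit 285) (nat_lit 277))) (XT.nd (nat_lit 94) (nat_lit 0) (nat_lit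 0) (XT.lf (nat_lit 0) (nat_lit 2529860063) (nat_lit 588) (nat_lit 5368489246) (nat_lit 84) (nat_lit 25097181) (nat_lit 64) (nat_lit 5) (nat_lit 71) (nat_lit 5) (nat_lit 65) (nat_lit 4) (nat_lit 327) (nat_lit 285) (nat_lit 276)) (XT.lf (nat_lit 0) (nat_lit 4721672451) (nat_lit 588) (nat_lit 1915950319) (nat_lit 84) (nat_lit 1397081363) (nat_lit 64) (nat_lit 5) (nat_lit 71) (nat_lit 5) (nat_lit 65) (nat_lit 4) (nat_lit 328) (nat_lit 285) (nat_lit 275)))))) (XT.nd (nat_lit 564) (nat_lit 1176) (nat_lit 0) (XT.nd (nat_lit 282) (nat_lit 420) (nat_lit 0) (XT.nd (nat_lit 94) (nat_lit 504) (nat_lit 0) (XT.lf (nat_lit 0) (nat_lit 1611089054) (nat_lit 420) (nat_lit 5324287294) (nat_lit 504) (nat_lit 1215968440) (nat_lit 59) (nat_lit 5) (nat_lit 64) (nat_lit 5) (nat_lit 65) (nat_lit 4) (nat_lit 329) (nat_lit 285) (nat_lit 274)) (XT.nd (nat_lit 94) (nat_lit 420) (nat_lit 0) (XT.lf (nat_lit 0)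 (nat_lit 885332138) (nat_lit 504) (nat_lit 3058567125) (nat_lit 84) (nat_lit 4329180432) (nat_lit 58) (nat_lit 5) (nat_lit 64) (nat_lit 5) (nat_lit 59) (nat_lit 5) (nat_lit 330) (nat_lit 285) (nat_lit 273)) (XT.lf (nat_lit 0) (nat_lit 463870606) (nat_lit 420) (nat_lit 2507194276) (nat_lit 504) (nat_lit 5429318926) (nat_lit 53) (nat_lit 5) (nat_lit 58) (nat_lit 5) (nat_lit 59) (nat_lit 5) (nat_lit 331) (nat_lit 285) (nat_lit 272)))) (XT.nd (nat_lit 94) (nat_lit 420) (nat_lit 0) (XT.lf (nat_lit 0) (nat_lit 4096900116) (nat_lit 420) (nat_lit 997605354) (nat_lit 504) (nat_lit 3438412446) (nat_lit 53) (nat_lit 5) (nat_lit 58) (nat_lit 5) (nat_lit 59) (nat_lit 5) (nat_lit 332) (nat_lit 285) (nat_lit 271)) (XT.nd (nat_lit 94) (nat_lit 420) (nat_lit 0) (XT.lf (nat_lit 0) (nat_lit 7232167145) (nat_lit 504) (nat_lit 896247340) (nat_lit 84) (nat_lit 543180521) (nat_lit 53) (nat_lit 5) (nat_lit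 59) (nat_lit 5) (nat_lit 54) (nat_lit 4) (nat_lit 333) (nat_lit 285) (nat_lit 270)) (XT.lf (nat_lit 0) (nat_lit 590323085) (nat_lit 420) (nat_lit 6085126300) (nat_lit 84) (nat_lit 2139918546) (nat_lit 48) (nat_lit 5) (nat_lit 53) (nat_lit 5) (nat_lit 49) (nat_lit 5) (nat_lit 334) (nat_lit 285) (nat_lit 269))))) (XT.nd (nat_lit 282) (nat_lit 756) (nat_lit 0) (XT.nd (nat_lit 94) (nat_lit 420) (nat_lit 0) (XT.lf (nat_lit 0) (nat_lit 2607219514) (nat_lit 420) (nat_lit 2552664367) (nat_lit 84) (nat_lit 3805076334) (nat_lit 48) (nat_lit 5) (nat_lit 53) (nat_lit 5) (nat_lit 49) (nat_lit 5) (nat_lit 335) (nat_lit 285) (nat_lit 268)) (XT.nd (nat_lit 94) (nat_lit 0) (nat_lit 0) (XT.lf (nat_lit 0) (nat_lit 1049646245) (nat_lit 420) (nat_lit 3593742523) (nat_lit 504) (nat_lit 4477526559) (nat_lit 43) (nat_lit 5) (nat_lit 48) (nat_lit 5) (nat_lit 49) (nat_lit 5) (nat_lit 336) (nat_lit 285) (nat_lit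 267)) (XT.lf (nat_lit 0) (nat_lit 4757553560) (nat_lit 420) (nat_lit 1959123160) (nat_lit 504) (nat_lit 2566207523) (nat_lit 43) (nat_lit 5) (nat_lit 48) (nat_lit 5) (nat_lit 49) (nat_lit 5) (nat_lit 337) (nat_lit 285) (nat_lit 266)))) (XT.nd (nat_lit 188) (nat_lit 336) (nat_lit 0) (XT.nd (nat_lit 94) (nat_lit 420) (nat_lit 0) (XT.lf (nat_lit 0) (nat_lit 8522025721) (nat_lit 420) (nat_lit 281146739) (nat_lit 504) (nat_lit 648646624) (nat_lit 43) (nat_lit 5) (nat_lit 48) (nat_lit 5) (nat_lit 49) (nat_lit 5) (nat_lit 338) (nat_lit 285) (nat_lit 265)) (XT.lf (nat_lit 0) (nat_lit 1293324133) (nat_lit 420) (nat_lit 6879679127) (nat_lit 84) (nat_lit 1453176009) (nat_lit 38) (nat_lit 5) (nat_lit 43) (nat_lit 5) (nat_lit 39) (nat_lit 5) (nat_lit 339) (nat_lit 285) (nat_lit 264))) (XT.nd (nat_lit 94) (nat_lit 336) (nat_lit 0) (XT.lf (nat_lit 0) (nat_lit 3245188757) (nat_lit 420) (nat_lit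 3317980322) (nat_lit 84) (nat_lit 3244041941) (nat_lit 38) (nat_lit 5) (nat_lit 43) (nat_lit 5) (nat_lit 39) (nat_lit 5) (nat_lit 340) (nat_lit 285) (nat_lit 263)) (XT.lf (nat_lit 0) (nat_lit 302814550) (nat_lit 336) (nat_lit 4909726174) (nat_lit 420) (nat_lit 4783029963) (nat_lit 34) (nat_lit 5) (nat_lit 38) (nat_lit 5) (nat_lit 39) (nat_lit 5) (nat_lit 341) (nat_lit 285) (nat_lit 262))))))) (XT.nd (nat_lit 1222) (nat_lit 588) (nat_lit 0) (XT.nd (nat_lit 564) (nat_lit 588) (nat_lit 0) (XT.nd (nat_lit 282) (nat_lit 252) (nat_lit 0) (XT.nd (nat_lit 94) (nat_lit 336) (nat_lit 0) (XT.lf (nat_lit 0) (nat_lit 4049357172) (nat_lit 336) (nat_lit 3179012090) (nat_lit 420) (nat_lit 2962098760) (nat_lit 34) (nat_lit 5) (nat_lit 38) (nat_lit 5) (nat_lit 39) (nat_lit 5) (nat_lit 342) (nat_lit 285) (nat_lit 261)) (XT.nd (nat_lit 94) (nat_lit 336) (nat_lit 0) (XT.lf (nat_lit 0) (nat_lit 7856915233)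 (nat_lit 336) (nat_lit 1404046531) (nat_lit 420) (nat_lit 1132164264) (nat_lit 34) (nat_lit 5) (nat_lit 38) (nat_lit 5) (nat_lit 39) (nat_lit 5) (nat_lit 343) (nat_lit 285) (nat_lit 260)) (XT.lf (nat_lit 0) (nat_lit 709849107) (nat_lit 336) (nat_lit 9466217375) (nat_lit 84) (nat_lit 426964278) (nat_lit 30) (nat_lit 5) (nat_lit 34) (nat_lit 5) (nat_lit 31) (nat_lit 5) (nat_lit 344) (nat_lit 285) (nat_lit 259)))) (XT.nd (nat_lit 94) (nat_lit 252) (nat_lit 0) (XT.lf (nat_lit 0) (nat_lit 2582180178) (nat_lit 336) (nat_lit 5923041000) (nat_lit 84) (nat_lit 2314238631) (nat_lit 30) (nat_lit 5) (nat_lit 34) (nat_lit 5) (nat_lit 31) (nat_lit 5) (nat_lit 345) (nat_lit 285) (nat_lit 258)) (XT.nd (nat_lit 94) (nat_lit 252) (nat_lit 0) (XT.lf (nat_lit 0) (nat_lit 4469516957) (nat_lit 336) (nat_lit 2324028628) (nat_lit 84) (nat_lit 4250653393) (nat_lit 30) (nat_lit 5) (nat_lit 34) (nat_lit 5)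 (nat_lit 31) (nat_lit 5) (nat_lit 346) (nat_lit 285) (nat_lit 257)) (XT.lf (nat_lit 0) (nat_lit 1361607758) (nat_lit 252) (nat_lit 5025518198) (nat_lit 336) (nat_lit 4889913064) (nat_lit 27) (nat_lit 5) (nat_lit 30) (nat_lit 5) (nat_lit 31) (nat_lit 5) (nat_lit 347) (nat_lit 285) (nat_lit 256))))) (XT.nd (nat_lit 282) (nat_lit 252) (nat_lit 0) (XT.nd (nat_lit 94) (nat_lit 336) (nat_lit 0) (XT.lf (nat_lit 0) (nat_lit 5158918617) (nat_lit 252) (nat_lit 3188518541) (nat_lit 336) (nat_lit 3170429889) (nat_lit 27) (nat_lit 5) (nat_lit 30) (nat_lit 5) (nat_lit 31) (nat_lit 5) (nat_lit 348) (nat_lit 285) (nat_lit 255)) (XT.nd (nat_lit 94) (nat_lit 336) (nat_lit 0) (XT.lf (nat_lit 0) (nat_lit 9023656644) (nat_lit 252) (nat_lit 1305092432) (nat_lit 336) (nat_lit 1438887852) (nat_lit 27) (nat_lit 5) (nat_lit 30) (nat_lit 5) (nat_lit 31) (nat_lit 5) (nat_lit 349) (nat_lit 285) (nat_lit 254))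 (XT.lf (nat_lit 0) (nat_lit 315911118) (nat_lit 336) (nat_lit 11083615346) (nat_lit 84) (nat_lit 626472373) (nat_lit 23) (nat_lit 5) (nat_lit 27) (nat_lit 5) (nat_lit 24) (nat_lit 5) (nat_lit 350) (nat_lit 285) (nat_lit 253)))) (XT.nd (nat_lit 188) (nat_lit 252) (nat_lit 0) (XT.nd (nat_lit 94) (nat_lit 0) (nat_lit 0) (XT.lf (nat_lit 0) (nat_lit 2098885675) (nat_lit 336) (nat_lit 7569260719) (nat_lit 84) (nat_lit 2623875768) (nat_lit 23) (nat_lit 5) (nat_lit 27) (nat_lit 5) (nat_lit 24) (nat_lit 5) (nat_lit 351) (nat_lit 285) (nat_lit 252)) (XT.lf (nat_lit 0) (nat_lit 3899676976) (nat_lit 336) (nat_lit 3995055888) (nat_lit 84) (nat_lit 4672935837) (nat_lit 23) (nat_lit 5) (nat_lit 27) (nat_lit 5) (nat_lit 24) (nat_lit 5) (nat_lit 352) (nat_lit 285) (nat_lit 251))) (XT.nd (nat_lit 94) (nat_lit 252) (nat_lit 0) (XT.lf (nat_lit 0) (nat_lit 5719963549) (nat_lit 336) (nat_lit 357669320)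 (nat_lit 84) (nat_lit 6775562518) (nat_lit 23) (nat_lit 5) (nat_lit 27) (nat_lit 5) (nat_lit 24) (nat_lit 5) (nat_lit 353) (nat_lit 285) (nat_lit 250)) (XT.lf (nat_lit 0) (nat_lit 3415095983) (nat_lit 252) (nat_lit 4180224283) (nat_lit 336) (nat_lit 5552497870) (nat_lit 20) (nat_lit 5) (nat_lit 23) (nat_lit 5) (nat_lit 24) (nat_lit 5) (nat_lit 354) (nat_lit 285) (nat_lit 249)))))) (XT.nd (nat_lit 564) (nat_lit 336) (nat_lit 0) (XT.nd (nat_lit 282) (nat_lit 84) (nat_lit 0) (XT.nd (nat_lit 94) (nat_lit 168) (nat_lit 0) (XT.lf (nat_lit 0) (nat_lit 7266680191) (nat_lit 252) (nat_lit 2231235229) (nat_lit 336) (nat_lit 3954813120) (nat_lit 20) (nat_lit 5) (nat_lit 23) (nat_lit 5) (nat_lit 24) (nat_lit 5) (nat_lit 355) (nat_lit 285) (nat_lit 248)) (XT.nd (nat_lit 94) (nat_lit 168) (nat_lit 0) (XT.lf (nat_lit 0) (nat_lit 11193318969) (nat_lit 252) (nat_lit 232582379) (nat_lit 336) (nat_lit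 2342421713) (nat_lit 20) (nat_lit 5) (nat_lit 23) (nat_lit 5) (nat_lit 24) (nat_lit 5) (nat_lit 356) (nat_lit 285) (nat_lit 247)) (XT.lf (nat_lit 0) (nat_lit 1108070857) (nat_lit 168) (nat_lit 12302027270) (nat_lit 252) (nat_lit 683898027) (nat_lit 18) (nat_lit 5) (nat_lit 20) (nat_lit 5) (nat_lit 21) (nat_lit 4) (nat_lit 357) (nat_lit 285) (nat_lit 246)))) (XT.nd (nat_lit 94) (nat_lit 0) (nat_lit 0) (XT.lf (nat_lit 0) (nat_lit 1002260996) (nat_lit 252) (nat_lit 9526355249) (nat_lit 84) (nat_lit 3901103569) (nat_lit 17) (nat_lit 5) (nat_lit 20) (nat_lit 5) (nat_lit 18) (nat_lit 5) (nat_lit 358) (nat_lit 285) (nat_lit 245)) (XT.nd (nat_lit 94) (nat_lit 0) (nat_lit 0) (XT.lf (nat_lit 0) (nat_lit 2694828227) (nat_lit 252) (nat_lit 6009696243) (nat_lit 84) (nat_lit 6072259658) (nat_lit 17) (nat_lit 5) (nat_lit 20) (nat_lit 5) (nat_lit 18) (nat_lit 5) (nat_lit 359) (nat_lit 285) (nat_lit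 244)) (XT.lf (nat_lit 0) (nat_lit 4409160333) (nat_lit 252) (nat_lit 2425886033) (nat_lit 84) (nat_lit 8300676545) (nat_lit 17) (nat_lit 5) (nat_lit 20) (nat_lit 5) (nat_lit 18) (nat_lit 5) (nat_lit 360) (nat_lit 285) (nat_lit 243))))) (XT.nd (nat_lit 282) (nat_lit 168) (nat_lit 0) (XT.nd (nat_lit 94) (nat_lit 0) (nat_lit 0) (XT.lf (nat_lit 0) (nat_lit 1253674617) (nat_lit 168) (nat_lit 4905617244) (nat_lit 252) (nat_lit 9347193336) (nat_lit 15) (nat_lit 5) (nat_lit 17) (nat_lit 5) (nat_lit 18) (nat_lit 5) (nat_lit 361) (nat_lit 285) (nat_lit 242)) (XT.nd (nat_lit 94) (nat_lit 0) (nat_lit 0) (XT.lf (nat_lit 0) (nat_lit 5058533835) (nat_lit 168) (nat_lit 2901180149) (nat_lit 252) (nat_lit 7929303937) (nat_lit 15) (nat_lit 5) (nat_lit 17) (nat_lit 5) (nat_lit 18) (nat_lit 5) (nat_lit 362) (nat_lit 285) (nat_lit 241)) (XT.lf (nat_lit 0) (nat_lit 8942356956) (nat_lit 168) (nat_lit 845188010)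 (nat_lit 252) (nat_lit 6496894032) (nat_lit 15) (nat_lit 5) (nat_lit 17) (nat_lit 5) (nat_lit 18) (nat_lit 5) (nat_lit 363) (nat_lit 285) (nat_lit 240)))) (XT.nd (nat_lit 188) (nat_lit 168) (nat_lit 0) (XT.nd (nat_lit 94) (nat_lit 0) (nat_lit 0) (XT.lf (nat_lit 0) (nat_lit 11657030308) (nat_lit 252) (nat_lit 3796894666) (nat_lit 84) (nat_lit 1238803236) (nat_lit 15) (nat_lit 5) (nat_lit 18) (nat_lit 5) (nat_lit 16) (nat_lit 4) (nat_lit 364) (nat_lit 285) (nat_lit 239)) (XT.lf (nat_lit 0) (nat_lit 13566293423) (nat_lit 252) (nat_lit 187998327) (nat_lit 84) (nat_lit 3360086566) (nat_lit 15) (nat_lit 5) (nat_lit 18) (nat_lit 5) (nat_lit 16) (nat_lit 4) (nat_lit 365) (nat_lit 285) (nat_lit 238))) (XT.nd (nat_lit 94) (nat_lit 0) (nat_lit 0) (XT.lf (nat_lit 0) (nat_lit 3568247446) (nat_lit 168) (nat_lit 11975879584) (nat_lit 252) (nat_lit 2004817903) (nat_lit 13) (nat_lit 5) (nat_lit 15)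 (nat_lit 5) (nat_lit 16) (nat_lit 4) (nat_lit 366) (nat_lit 285) (nat_lit 237)) (XT.lf (nat_lit 0) (nat_lit 7408872425) (nat_lit 168) (nat_lit 10150773824) (nat_lit 252) (nat_lit 438201457) (nat_lit 13) (nat_lit 5) (nat_lit 15) (nat_lit 5) (nat_lit 16) (nat_lit 4) (nat_lit 367) (nat_lit 285) (nat_lit 236))))))))
noncomputable def xc60 : XT := (XT.nd (nat_lit 2350) (nat_lit 168) (nat_lit 0) (XT.nd (nat_lit 1128) (nat_lit 336) (nat_lit 0) (XT.nd (nat_lit 564) (nat_lit 84) (nat_lit 0) (XT.nd (nat_lit 282) (nat_lit 168) (nat_lit 0) (XT.nd (nat_lit 94) (nat_lit 0) (nat_lit 0) (XT.lf (nat_lit 0) (nat_lit 1128067005) (nat_lit 252) (nat_lit 7139393884) (nat_lit 84) (nat_lit 10193749131) (nat_lit 12) (nat_lit 5) (nat_lit 15) (nat_lit 5) (nat_lit 13) (nat_lit 5) (nat_lit 368) (nat_lit 285) (nat_lit 235)) (XT.nd (nat_lit 94) (nat_lit 0) (nat_lit 0) (XT.lf (nat_lit 0) (nat_lit 2709345447) (nat_lit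 252) (nat_lit 3621894973) (nat_lit 84) (nat_lit 12608435489) (nat_lit 12) (nat_lit 5) (nat_lit 15) (nat_lit 5) (nat_lit 13) (nat_lit 5) (nat_lit 369) (nat_lit 285) (nat_lit 234)) (XT.lf (nat_lit 0) (nat_lit 4315936568) (nat_lit 252) (nat_lit 28852857) (nat_lit 84) (nat_lit 15089036685) (nat_lit 12) (nat_lit 5) (nat_lit 15) (nat_lit 5) (nat_lit 13) (nat_lit 5) (nat_lit 370) (nat_lit 285) (nat_lit 233)))) (XT.nd (nat_lit 94) (nat_lit 0) (nat_lit 0) (XT.lf (nat_lit 0) (nat_lit 3717990783) (nat_lit 168) (nat_lit 2268230025) (nat_lit 252) (nat_lit 13956757045) (nat_lit 10) (nat_lit 5) (nat_lit 12) (nat_lit 5) (nat_lit 13) (nat_lit 5) (nat_lit 371) (nat_lit 285) (nat_lit 232)) (XT.nd (nat_lit 94) (nat_lit 0) (nat_lit 0) (XT.lf (nat_lit 0) (nat_lit 7549435185) (nat_lit 168) (nat_lit 136528029) (nat_lit 252) (nat_lit 12782752053) (nat_lit 10) (nat_lit 5) (nat_lit 12) (nat_lit 5) (nat_lit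 13) (nat_lit 5) (nat_lit 372) (nat_lit 285) (nat_lit 231)) (XT.lf (nat_lit 0) (nat_lit 9436812131) (nat_lit 252) (nat_lit 9563435186) (nat_lit 84) (nat_lit 2010659093) (nat_lit 10) (nat_lit 5) (nat_lit 13) (nat_lit 5) (nat_lit 11) (nat_lit 4) (nat_lit 373) (nat_lit 285) (nat_lit 230))))) (XT.nd (nat_lit 282) (nat_lit 0) (nat_lit 0) (XT.nd (nat_lit 94) (nat_lit 84) (nat_lit 0) (XT.lf (nat_lit 0) (nat_lit 11221962799) (nat_lit 252) (nat_lit 6135887647) (nat_lit 84) (nat_lit 4212777754) (nat_lit 10) (nat_lit 5) (nat_lit 13) (nat_lit 5) (nat_lit 11) (nat_lit 4) (nat_lit 374) (nat_lit 285) (nat_lit 229)) (XT.nd (nat_lit 94) (nat_lit 84) (nat_lit 0) (XT.lf (nat_lit 0) (nat_lit 13041724790) (nat_lit 252) (nat_lit 2632088257) (nat_lit 84) (nat_lit 6474631295) (nat_lit 10) (nat_lit 5) (nat_lit 13) (nat_lit 5) (nat_lit 11) (nat_lit 4) (nat_lit 375) (nat_lit 285) (nat_lit 228)) (XT.lf (nat_lit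 0) (nat_lit 970788108) (nat_lit 84) (nat_lit 13936636543) (nat_lit 168) (nat_lit 7837170230) (nat_lit 9) (nat_lit 5) (nat_lit 10) (nat_lit 5) (nat_lit 11) (nat_lit 4) (nat_lit 376) (nat_lit 285) (nat_lit 227)))) (XT.nd (nat_lit 94) (nat_lit 0) (nat_lit 0) (XT.lf (nat_lit 0) (nat_lit 4712347119) (nat_lit 84) (nat_lit 12126301367) (nat_lit 168) (nat_lit 6520433746) (nat_lit 9) (nat_lit 5) (nat_lit 10) (nat_lit 5) (nat_lit 11) (nat_lit 4) (nat_lit 377) (nat_lit 285) (nat_lit 226)) (XT.nd (nat_lit 94) (nat_lit 0) (nat_lit 0) (XT.lf (nat_lit 0) (nat_lit 8541955167) (nat_lit 84) (nat_lit 10268593701) (nat_lit 168) (nat_lit 5182756368) (nat_lit 9) (nat_lit 5) (nat_lit 10) (nat_lit 5) (nat_lit 11) (nat_lit 4) (nat_lit 378) (nat_lit 285) (nat_lit 225)) (XT.lf (nat_lit 0) (nat_lit 12463181848) (nat_lit 84) (nat_lit 8361781966) (nat_lit 168) (nat_lit 3822891239) (nat_lit 9) (nat_lit 5) (nat_lit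 10) (nat_lit 5) (nat_lit 11) (nat_lit 4) (nat_lit 379) (nat_lit 285) (nat_lit 224)))))) (XT.nd (nat_lit 564) (nat_lit 84) (nat_lit 0) (XT.nd (nat_lit 282) (nat_lit 168) (nat_lit 0) (XT.nd (nat_lit 94) (nat_lit 84) (nat_lit 0) (XT.lf (nat_lit 0) (nat_lit 16479682155) (nat_lit 84) (nat_lit 6404088815) (nat_lit 168) (nat_lit 2439570823) (nat_lit 9) (nat_lit 5) (nat_lit 10) (nat_lit 5) (nat_lit 11) (nat_lit 4) (nat_lit 380) (nat_lit 285) (nat_lit 223)) (XT.nd (nat_lit 94) (nat_lit 84) (nat_lit 0) (XT.lf (nat_lit 0) (nat_lit 20595199889) (nat_lit 84) (nat_lit 4393689472) (nat_lit 168) (nat_lit 1031505721) (nat_lit 9) (nat_lit 5) (nat_lit 10) (nat_lit 5) (nat_lit 11) (nat_lit 4) (nat_lit 381) (nat_lit 285) (nat_lit 222)) (XT.lf (nat_lit 0) (nat_lit 394504705) (nat_lit 168) (nat_lit 1930087508) (nat_lit 84) (nat_lit 24414948616) (nat_lit 8) (nat_lit 5) (nat_lit 10) (nat_lit 5) (nat_lit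 9) (nat_lit 5) (nat_lit 382) (nat_lit 285) (nat_lit 221)))) (XT.nd (nat_lit 94) (nat_lit 0) (nat_lit 0) (XT.lf (nat_lit 0) (nat_lit 1672103697) (nat_lit 168) (nat_lit 171058345) (nat_lit 252) (nat_lit 25637571396) (nat_lit 6) (nat_lit 5) (nat_lit 8) (nat_lit 5) (nat_lit 9) (nat_lit 5) (nat_lit 383) (nat_lit 285) (nat_lit 220)) (XT.nd (nat_lit 94) (nat_lit 0) (nat_lit 0) (XT.lf (nat_lit 0) (nat_lit 3360875251) (nat_lit 252) (nat_lit 22862598327) (nat_lit 84) (nat_lit 2020754852) (nat_lit 6) (nat_lit 5) (nat_lit 9) (nat_lit 5) (nat_lit 7) (nat_lit 4) (nat_lit 384) (nat_lit 285) (nat_lit 219)) (XT.lf (nat_lit 0) (nat_lit 4911350841) (nat_lit 252) (nat_lit 19850912641) (nat_lit 84) (nat_lit 4269642932) (nat_lit 6) (nat_lit 5) (nat_lit 9) (nat_lit 5) (nat_lit 7) (nat_lit 4) (nat_lit 385) (nat_lit 285) (nat_lit 218))))) (XT.nd (nat_lit 282) (nat_lit 84) (nat_lit 0) (XT.nd (nat_lit 94)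 (nat_lit 0) (nat_lit 0) (XT.lf (nat_lit 0) (nat_lit 6494337098) (nat_lit 252) (nat_lit 16769068559) (nat_lit 84) (nat_lit 6581148537) (nat_lit 6) (nat_lit 5) (nat_lit 9) (nat_lit 5) (nat_lit 7) (nat_lit 4) (nat_lit 386) (nat_lit 285) (nat_lit 217)) (XT.nd (nat_lit 94) (nat_lit 0) (nat_lit 0) (XT.lf (nat_lit 0) (nat_lit 8111309532) (nat_lit 252) (nat_lit 13614193479) (nat_lit 84) (nat_lit 8957426231) (nat_lit 6) (nat_lit 5) (nat_lit 9) (nat_lit 5) (nat_lit 7) (nat_lit 4) (nat_lit 387) (nat_lit 285) (nat_lit 216)) (XT.lf (nat_lit 0) (nat_lit 9763775330) (nat_lit 252) (nat_lit 10383346726) (nat_lit 84) (nat_lit 11400690956) (nat_lit 6) (nat_lit 5) (nat_lit 9) (nat_lit 5) (nat_lit 7) (nat_lit 4) (nat_lit 388) (nat_lit 285) (nat_lit 215)))) (XT.nd (nat_lit 188) (nat_lit 84) (nat_lit 0) (XT.nd (nat_lit 94) (nat_lit 0) (nat_lit 0) (XT.lf (nat_lit 0) (nat_lit 11453274763) (nat_lit 252) (nat_lit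 7073516813) (nat_lit 84) (nat_lit 13913220090) (nat_lit 6) (nat_lit 5) (nat_lit 9) (nat_lit 5) (nat_lit 7) (nat_lit 4) (nat_lit 389) (nat_lit 285) (nat_lit 214)) (XT.lf (nat_lit 0) (nat_lit 13181382622) (nat_lit 252) (nat_lit 3681618632) (nat_lit 84) (nat_lit 16497355572) (nat_lit 6) (nat_lit 5) (nat_lit 9) (nat_lit 5) (nat_lit 7) (nat_lit 4) (nat_lit 390) (nat_lit 285) (nat_lit 213))) (XT.nd (nat_lit 94) (nat_lit 84) (nat_lit 0) (XT.lf (nat_lit 0) (nat_lit 14949709685) (nat_lit 252) (nat_lit 204490578) (nat_lit 84) (nat_lit 19155506088) (nat_lit 6) (nat_lit 5) (nat_lit 9) (nat_lit 5) (nat_lit 7) (nat_lit 4) (nat_lit 391) (nat_lit 285) (nat_lit 212)) (XT.lf (nat_lit 0) (nat_lit 3430219677) (nat_lit 84) (nat_lit 13363712743) (nat_lit 168) (nat_lit 18493957840) (nat_lit 5) (nat_lit 5) (nat_lit 6) (nat_lit 5) (nat_lit 7) (nat_lit 4) (nat_lit 392) (nat_lit 285) (nat_lit 211))))))) (XT.nd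 (nat_lit 1222) (nat_lit 84) (nat_lit 0) (XT.nd (nat_lit 564) (nat_lit 84) (nat_lit 0) (XT.nd (nat_lit 282) (nat_lit 0) (nat_lit 0) (XT.nd (nat_lit 94) (nat_lit 0) (nat_lit 0) (XT.lf (nat_lit 0) (nat_lit 7162816592) (nat_lit 84) (nat_lit 11521892943) (nat_lit 168) (nat_lit 17612073656) (nat_lit 5) (nat_lit 5) (nat_lit 6) (nat_lit 5) (nat_lit 7) (nat_lit 4) (nat_lit 393) (nat_lit 285) (nat_lit 210)) (XT.nd (nat_lit 94) (nat_lit 0) (nat_lit 0) (XT.lf (nat_lit 0) (nat_lit 10992574593) (nat_lit 84) (nat_lit 9629158558) (nat_lit 168) (nat_lit 16715656568) (nat_lit 5) (nat_lit 5) (nat_lit 6) (nat_lit 5) (nat_lit 7) (nat_lit 4) (nat_lit 394) (nat_lit 285) (nat_lit 209)) (XT.lf (nat_lit 0) (nat_lit 14923063414) (nat_lit 84) (nat_lit 7683745359) (nat_lit 168) (nat_lit 15803871023) (nat_lit 5) (nat_lit 5) (nat_lit 6) (nat_lit 5) (nat_lit 7) (nat_lit 4) (nat_lit 395) (nat_lit 285) (nat_lit 208))))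 (XT.nd (nat_lit 94) (nat_lit 0) (nat_lit 0) (XT.lf (nat_lit 0) (nat_lit 18957946683) (nat_lit 84) (nat_lit 5683840019) (nat_lit 168) (nat_lit 14875867140) (nat_lit 5) (nat_lit 5) (nat_lit 6) (nat_lit 5) (nat_lit 7) (nat_lit 4) (nat_lit 396) (nat_lit 285) (nat_lit 207)) (XT.nd (nat_lit 94) (nat_lit 0) (nat_lit 0) (XT.lf (nat_lit 0) (nat_lit 23100985333) (nat_lit 84) (nat_lit 3627578416) (nat_lit 168) (nat_lit 13930779922) (nat_lit 5) (nat_lit 5) (nat_lit 6) (nat_lit 5) (nat_lit 7) (nat_lit 4) (nat_lit 397) (nat_lit 285) (nat_lit 206)) (XT.lf (nat_lit 0) (nat_lit 27356041112) (nat_lit 84) (nat_lit 1513043898) (nat_lit 168) (nat_lit 12967728450) (nat_lit 5) (nat_lit 5) (nat_lit 6) (nat_lit 5) (nat_lit 7) (nat_lit 4) (nat_lit 398) (nat_lit 285) (nat_lit 205))))) (XT.nd (nat_lit 282) (nat_lit 84) (nat_lit 0) (XT.nd (nat_lit 94) (nat_lit 0) (nat_lit 0) (XT.lf (nat_lit 0) (nat_lit 31071910164)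 (nat_lit 168) (nat_lit 11330645045) (nat_lit 0) (nat_lit 648402025) (nat_lit 5) (nat_lit 5) (nat_lit 7) (nat_lit 4) (nat_lit 5) (nat_lit 4) (nat_lit 399) (nat_lit 285) (nat_lit 204)) (XT.nd (nat_lit 94) (nat_lit 0) (nat_lit 0) (XT.lf (nat_lit 0) (nat_lit 33348149184) (nat_lit 168) (nat_lit 8114096892) (nat_lit 0) (nat_lit 2840379867) (nat_lit 5) (nat_lit 5) (nat_lit 7) (nat_lit 4) (nat_lit 5) (nat_lit 4) (nat_lit 400) (nat_lit 285) (nat_lit 203)) (XT.lf (nat_lit 0) (nat_lit 35684914182) (nat_lit 168) (nat_lit 4813120146) (nat_lit 0) (nat_lit 5095417244) (nat_lit 5) (nat_lit 5) (nat_lit 7) (nat_lit 4) (nat_lit 5) (nat_lit 4) (nat_lit 401) (nat_lit 285) (nat_lit 202)))) (XT.nd (nat_lit 188) (nat_lit 0) (nat_lit 0) (XT.nd (nat_lit 94) (nat_lit 84) (nat_lit 0) (XT.lf (nat_lit 0) (nat_lit 38084383269) (nat_lit 168) (nat_lit 1424637951) (nat_lit 0) (nat_lit 7415616086) (nat_lit 5) (nat_lit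 5) (nat_lit 7) (nat_lit 4) (nat_lit 5) (nat_lit 4) (nat_lit 402) (nat_lit 285) (nat_lit 201)) (XT.lf (nat_lit 0) (nat_lit 2096753012) (nat_lit 84) (nat_lit 38472840036) (nat_lit 84) (nat_lit 7727186099) (nat_lit 4) (nat_lit 4) (nat_lit 5) (nat_lit 5) (nat_lit 5) (nat_lit 4) (nat_lit 403) (nat_lit 285) (nat_lit 200))) (XT.nd (nat_lit 94) (nat_lit 0) (nat_lit 0) (XT.lf (nat_lit 0) (nat_lit 5743275168) (nat_lit 84) (nat_lit 37394139293) (nat_lit 84) (nat_lit 6573910424) (nat_lit 4) (nat_lit 4) (nat_lit 5) (nat_lit 5) (nat_lit 5) (nat_lit 4) (nat_lit 404) (nat_lit 285) (nat_lit 199)) (XT.lf (nat_lit 0) (nat_lit 9489033980) (nat_lit 84) (nat_lit 36286783829) (nat_lit 84) (nat_lit 5394222339) (nat_lit 4) (nat_lit 4) (nat_lit 5) (nat_lit 5) (nat_lit 5) (nat_lit 4) (nat_lit 405) (nat_lit 285) (nat_lit 198)))))) (XT.nd (nat_lit 564) (nat_lit 0) (nat_lit 0) (XT.nd (nat_lit 282) (nat_lit 84)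 (nat_lit 0) (XT.nd (nat_lit 94) (nat_lit 0) (nat_lit 0) (XT.lf (nat_lit 0) (nat_lit 13337520885) (nat_lit 84) (nat_lit 35149741471) (nat_lit 84) (nat_lit 4187022251) (nat_lit 4) (nat_lit 4) (nat_lit 5) (nat_lit 5) (nat_lit 5) (nat_lit 4) (nat_lit 406) (nat_lit 285) (nat_lit 197)) (XT.nd (nat_lit 94) (nat_lit 0) (nat_lit 0) (XT.lf (nat_lit 0) (nat_lit 17292323078) (nat_lit 84) (nat_lit 33981952377) (nat_lit 84) (nat_lit 2951184921) (nat_lit 4) (nat_lit 4) (nat_lit 5) (nat_lit 5) (nat_lit 5) (nat_lit 4) (nat_lit 407) (nat_lit 285) (nat_lit 196)) (XT.lf (nat_lit 0) (nat_lit 21357126848) (nat_lit 84) (nat_lit 32782328046) (nat_lit 84) (nat_lit 1685558422) (nat_lit 4) (nat_lit 4) (nat_lit 5) (nat_lit 5) (nat_lit 5) (nat_lit 4) (nat_lit 408) (nat_lit 285) (nat_lit 195)))) (XT.nd (nat_lit 94) (nat_lit 84) (nat_lit 0) (XT.lf (nat_lit 0) (nat_lit 25535721018) (nat_lit 84) (nat_lit 31549750302)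 (nat_lit 84) (nat_lit 388963056) (nat_lit 4) (nat_lit 4) (nat_lit 5) (nat_lit 5) (nat_lit 5) (nat_lit 4) (nat_lit 409) (nat_lit 285) (nat_lit 194)) (XT.nd (nat_lit 94) (nat_lit 0) (nat_lit 0) (XT.lf (nat_lit 0) (nat_lit 920874667) (nat_lit 168) (nat_lit 29352583542) (nat_lit 84) (nat_lit 28901513765) (nat_lit 3) (nat_lit 5) (nat_lit 5) (nat_lit 5) (nat_lit 4) (nat_lit 4) (nat_lit 410) (nat_lit 285) (nat_lit 193)) (XT.lf (nat_lit 0) (nat_lit 2255618380) (nat_lit 168) (nat_lit 26701944811) (nat_lit 84) (nat_lit 31970807393) (nat_lit 3) (nat_lit 5) (nat_lit 5) (nat_lit 5) (nat_lit 4) (nat_lit 4) (nat_lit 411) (nat_lit 285) (nat_lit 192))))) (XT.nd (nat_lit 282) (nat_lit 0) (nat_lit 0) (XT.nd (nat_lit 94) (nat_lit 0) (nat_lit 0) (XT.lf (nat_lit 0) (nat_lit 3624348941) (nat_lit 168) (nat_lit 23980467929) (nat_lit 84) (nat_lit 35131567300) (nat_lit 3) (nat_lit 5) (nat_lit 5) (nat_lit 5)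 (nat_lit 4) (nat_lit 4) (nat_lit 412) (nat_lit 285) (nat_lit 191)) (XT.nd (nat_lit 94) (nat_lit 0) (nat_lit 0) (XT.lf (nat_lit 0) (nat_lit 5028342150) (nat_lit 168) (nat_lit 21185616195) (nat_lit 84) (nat_lit 38386739646) (nat_lit 3) (nat_lit 5) (nat_lit 5) (nat_lit 5) (nat_lit 4) (nat_lit 4) (nat_lit 413) (nat_lit 285) (nat_lit 190)) (XT.lf (nat_lit 0) (nat_lit 6468906677) (nat_lit 168) (nat_lit 18314784514) (nat_lit 84) (nat_lit 41739358591) (nat_lit 3) (nat_lit 5) (nat_lit 5) (nat_lit 5) (nat_lit 4) (nat_lit 4) (nat_lit 414) (nat_lit 285) (nat_lit 189)))) (XT.nd (nat_lit 188) (nat_lit 0) (nat_lit 0) (XT.nd (nat_lit 94) (nat_lit 0) (nat_lit 0) (XT.lf (nat_lit 0) (nat_lit 7947385278) (nat_lit 168) (nat_lit 15365296972) (nat_lit 84) (nat_lit 45192549129) (nat_lit 3) (nat_lit 5) (nat_lit 5) (nat_lit 5) (nat_lit 4) (nat_lit 4) (nat_lit 415) (nat_lit 285) (nat_lit 188)) (XT.lf (nat_lit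 0) (nat_lit 9465156051) (nat_lit 168) (nat_lit 12334404335) (nat_lit 84) (nat_lit 48749529993) (nat_lit 3) (nat_lit 5) (nat_lit 5) (nat_lit 5) (nat_lit 4) (nat_lit 4) (nat_lit 416) (nat_lit 285) (nat_lit 187))) (XT.nd (nat_lit 94) (nat_lit 0) (nat_lit 0) (XT.lf (nat_lit 0) (nat_lit 11023633716) (nat_lit 168) (nat_lit 9219281496) (nat_lit 84) (nat_lit 52413616664) (nat_lit 3) (nat_lit 5) (nat_lit 5) (nat_lit 5) (nat_lit 4) (nat_lit 4) (nat_lit 417) (nat_lit 285) (nat_lit 186)) (XT.lf (nat_lit 0) (nat_lit 12624270938) (nat_lit 168) (nat_lit 6017024832) (nat_lit 84) (nat_lit 56188224453) (nat_lit 3) (nat_lit 5) (nat_lit 5) (nat_lit 5) (nat_lit 4) (nat_lit 4) (nat_lit 418) (nat_lit 285) (nat_lit 185))))))))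
noncomputable def xc61 : XT := (XT.nd (nat_lit 47376) (nat_lit 0) (nat_lit 1512) (XT.nd (nat_lit 46154) (nat_lit 0) (nat_lit 4788) (XT.nd (nat_lit 564) (nat_lit 0) (nat_lit 0) (XT.nd (nat_lit 282) (nat_lit 0) (nat_lit 0) (XT.nd (nat_lit 94) (nat_lit 84) (nat_lit 0) (XT.lf (nat_lit 0) (nat_lit 14268559678) (nat_lit 168) (nat_lit 2724649506) (nat_lit 84) (nat_lit 60076871691) (nat_lit 3) (nat_lit 5) (nat_lit 5) (nat_lit 5) (nat_lit 4) (nat_lit 4) (nat_lit 419) (nat_lit 285) (nat_lit 184)) (XT.nd (nat_lit 94) (nat_lit 0) (nat_lit 0) (XT.lf (nat_lit 0) (nat_lit 674503054) (nat_lit 84) (nat_lit 15290220686) (nat_lit 168) (nat_lit 63415371104) (nat_lit 2) (nat_lit 5) (nat_lit 3) (nat_lit 5) (nat_lit 4) (nat_lit 4) (nat_lit 420) (nat_lit 285) (nat_lit 183)) (XT.lf (nat_lit 0) (nat_lit 4228004211) (nat_lit 84) (nat_lit 13508202543) (nat_lit 168) (nat_lit 64024830808) (nat_lit 2) (nat_lit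 5) (nat_lit 3) (nat_lit 5) (nat_lit 4) (nat_lit 4) (nat_lit 421) (nat_lit 285) (nat_lit 182)))) (XT.nd (nat_lit 94) (nat_lit 0) (nat_lit 0) (XT.lf (nat_lit 0) (nat_lit 7883141818) (nat_lit 84) (nat_lit 11673933480) (nat_lit 168) (nat_lit 64658908144) (nat_lit 2) (nat_lit 5) (nat_lit 3) (nat_lit 5) (nat_lit 4) (nat_lit 4) (nat_lit 422) (nat_lit 285) (nat_lit 181)) (XT.nd (nat_lit 94) (nat_lit 0) (nat_lit 0) (XT.lf (nat_lit 0) (nat_lit 11643322845) (nat_lit 84) (nat_lit 9785703766) (nat_lit 168) (nat_lit 65318194137) (nat_lit 2) (nat_lit 5) (nat_lit 3) (nat_lit 5) (nat_lit 4) (nat_lit 4) (nat_lit 423) (nat_lit 285) (nat_lit 180)) (XT.lf (nat_lit 0) (nat_lit 15512052176) (nat_lit 84) (nat_lit 7841753373) (nat_lit 168) (nat_lit 66003303312) (nat_lit 2) (nat_lit 5) (nat_lit 3) (nat_lit 5) (nat_lit 4) (nat_lit 4) (nat_lit 424) (nat_lit 285) (nat_lit 179))))) (XT.nd (nat_lit 282) (nat_lit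 0) (nat_lit 0) (XT.nd (nat_lit 94) (nat_lit 0) (nat_lit 0) (XT.lf (nat_lit 0) (nat_lit 19492935871) (nat_lit 84) (nat_lit 5840270337) (nat_lit 168) (nat_lit 66714874261) (nat_lit 2) (nat_lit 5) (nat_lit 3) (nat_lit 5) (nat_lit 4) (nat_lit 4) (nat_lit 425) (nat_lit 285) (nat_lit 178)) (XT.nd (nat_lit 94) (nat_lit 0) (nat_lit 0) (XT.lf (nat_lit 0) (nat_lit 23589684531) (nat_lit 84) (nat_lit 3779389065) (nat_lit 168) (nat_lit 67453570245) (nat_lit 2) (nat_lit 5) (nat_lit 3) (nat_lit 5) (nat_lit 4) (nat_lit 4) (nat_lit 426) (nat_lit 285) (nat_lit 177)) (XT.lf (nat_lit 0) (nat_lit 27806116755) (nat_lit 84) (nat_lit 1657188599) (nat_lit 168) (nat_lit 68220079804) (nat_lit 2) (nat_lit 5) (nat_lit 3) (nat_lit 5) (nat_lit 4) (nat_lit 4) (nat_lit 427) (nat_lit 285) (nat_lit 176)))) (XT.nd (nat_lit 94) (nat_lit 0) (nat_lit 0) (XT.lf (nat_lit 0) (nat_lit 31623094420) (nat_lit 168) (nat_lit 68492049126)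 (nat_lit 0) (nat_lit 517664919) (nat_lit 2) (nat_lit 5) (nat_lit 4) (nat_lit 4) (nat_lit 2) (nat_lit 4) (nat_lit 428) (nat_lit 285) (nat_lit 175)) (XT.nd (nat_lit 45120) (nat_lit 0) (nat_lit 9156) (XT.lf (nat_lit 0) (nat_lit 33862295806) (nat_lit 168) (nat_lit 67087852172) (nat_lit 0) (nat_lit 2723147857) (nat_lit 2) (nat_lit 5) (nat_lit 4) (nat_lit 4) (nat_lit 2) (nat_lit 4) (nat_lit 429) (nat_lit 285) (nat_lit 174)) (XT.lf (nat_lit 0) (nat_lit 526542953) (nat_lit 756) (nat_lit 2452352934) (nat_lit 0) (nat_lit 526542953) (nat_lit 111) (nat_lit 5) (nat_lit 120) (nat_lit 4) (nat_lit 111) (nat_lit 4) (nat_lit 316) (nat_lit 286) (nat_lit 286)))))) (XT.nd (nat_lit 564) (nat_lit 1680) (nat_lit 0) (XT.nd (nat_lit 282) (nat_lit 1848) (nat_lit 0) (XT.nd (nat_lit 94) (nat_lit 840) (nat_lit 0) (XT.lf (nat_lit 0) (nat_lit 3404138819) (nat_lit 756) (nat_lit 1705317029) (nat_lit 0) (nat_lit 1963074393)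 (nat_lit 111) (nat_lit 5) (nat_lit 120) (nat_lit 4) (nat_lit 111) (nat_lit 4) (nat_lit 317) (nat_lit 286) (nat_lit 285)) (XT.nd (nat_lit 94) (nat_lit 84) (nat_lit 0) (XT.lf (nat_lit 0) (nat_lit 1557798714) (nat_lit 756) (nat_lit 4209860139) (nat_lit 756) (nat_lit 1371061061) (nat_lit 102) (nat_lit 4) (nat_lit 111) (nat_lit 5) (nat_lit 111) (nat_lit 4) (nat_lit 318) (nat_lit 286) (nat_lit 284)) (XT.lf (nat_lit 0) (nat_lit 919652283) (nat_lit 840) (nat_lit 2326693003) (nat_lit 84) (nat_lit 3962807681) (nat_lit 101) (nat_lit 5) (nat_lit 111) (nat_lit 5) (nat_lit 102) (nat_lit 4) (nat_lit 319) (nat_lit 286) (nat_lit 283)))) (XT.nd (nat_lit 94) (nat_lit 1008) (nat_lit 0) (XT.lf (nat_lit 0) (nat_lit 967515366) (nat_lit 840) (nat_lit 2221537608) (nat_lit 924) (nat_lit 4094948047) (nat_lit 91) (nat_lit 5) (nat_lit 101) (nat_lit 5) (nat_lit 102) (nat_lit 4) (nat_lit 320) (nat_lit 286) (nat_lit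 282)) (XT.nd (nat_lit 94) (nat_lit 1008) (nat_lit 0) (XT.lf (nat_lit 0) (nat_lit 4347469367) (nat_lit 840) (nat_lit 1133735663) (nat_lit 924) (nat_lit 1882106377) (nat_lit 91) (nat_lit 5) (nat_lit 101) (nat_lit 5) (nat_lit 102) (nat_lit 4) (nat_lit 321) (nat_lit 286) (nat_lit 281)) (XT.lf (nat_lit 0) (nat_lit 323433968) (nat_lit 1008) (nat_lit 7123819552) (nat_lit 84) (nat_lit 434521) (nat_lit 79) (nat_lit 5) (nat_lit 91) (nat_lit 5) (nat_lit 80) (nat_lit 4) (nat_lit 322) (nat_lit 286) (nat_lit 280))))) (XT.nd (nat_lit 282) (nat_lit 1008) (nat_lit 0) (XT.nd (nat_lit 94) (nat_lit 672) (nat_lit 0) (XT.lf (nat_lit 0) (nat_lit 2532110589) (nat_lit 1008) (nat_lit 3801782295) (nat_lit 84) (nat_lit 1201609177) (nat_lit 79) (nat_lit 5) (nat_lit 91) (nat_lit 5) (nat_lit 80) (nat_lit 4) (nat_lit 323) (nat_lit 286) (nat_lit 279)) (XT.nd (nat_lit 94) (nat_lit 672) (nat_lit 0) (XT.lf (nat_lit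 0) (nat_lit 4741810685) (nat_lit 1008) (nat_lit 442673797) (nat_lit 84) (nat_lit 2444234474) (nat_lit 79) (nat_lit 5) (nat_lit 91) (nat_lit 5) (nat_lit 80) (nat_lit 4) (nat_lit 324) (nat_lit 286) (nat_lit 278)) (XT.lf (nat_lit 0) (nat_lit 3017431502) (nat_lit 672) (nat_lit 3967095718) (nat_lit 756) (nat_lit 741970460) (nat_lit 71) (nat_lit 5) (nat_lit 79) (nat_lit 5) (nat_lit 80) (nat_lit 4) (nat_lit 325) (nat_lit 286) (nat_lit 277)))) (XT.nd (nat_lit 188) (nat_lit 420) (nat_lit 0) (XT.nd (nat_lit 94) (nat_lit 504) (nat_lit 0) (XT.lf (nat_lit 0) (nat_lit 1379244489) (nat_lit 756) (nat_lit 1312767568) (nat_lit 84) (nat_lit 5137260699) (nat_lit 70) (nat_lit 5) (nat_lit 79) (nat_lit 5) (nat_lit 71) (nat_lit 5) (nat_lit 326) (nat_lit 286) (nat_lit 276)) (XT.lf (nat_lit 0) (nat_lit 2161574627) (nat_lit 504) (nat_lit 1347358401) (nat_lit 588) (nat_lit 4427885630) (nat_lit 64) (nat_lit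 5) (nat_lit 70) (nat_lit 5) (nat_lit 71) (nat_lit 5) (nat_lit 327) (nat_lit 286) (nat_lit 275))) (XT.nd (nat_lit 94) (nat_lit 420) (nat_lit 0) (XT.lf (nat_lit 0) (nat_lit 5656834463) (nat_lit 588) (nat_lit 2341337228) (nat_lit 84) (nat_lit 51515150) (nat_lit 64) (nat_lit 5) (nat_lit 71) (nat_lit 5) (nat_lit 65) (nat_lit 4) (nat_lit 328) (nat_lit 286) (nat_lit 274)) (XT.lf (nat_lit 0) (nat_lit 1145281184) (nat_lit 420) (nat_lit 6691009738) (nat_lit 504) (nat_lit 331340050) (nat_lit 59) (nat_lit 5) (nat_lit 64) (nat_lit 5) (nat_lit 65) (nat_lit 4) (nat_lit 329) (nat_lit 286) (nat_lit 273))))))) (XT.nd (nat_lit 1222) (nat_lit 1176) (nat_lit 0) (XT.nd (nat_lit 564) (nat_lit 1176) (nat_lit 0) (XT.nd (nat_lit 282) (nat_lit 420) (nat_lit 0) (XT.nd (nat_lit 94) (nat_lit 420) (nat_lit 0) (XT.lf (nat_lit 0) (nat_lit 1722569890) (nat_lit 504) (nat_lit 3580994009) (nat_lit 84) (nat_lit 2986674005)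 (nat_lit 58) (nat_lit 5) (nat_lit 64) (nat_lit 5) (nat_lit 59) (nat_lit 5) (nat_lit 330) (nat_lit 286) (nat_lit 272)) (XT.nd (nat_lit 94) (nat_lit 420) (nat_lit 0) (XT.lf (nat_lit 0) (nat_lit 3775022661) (nat_lit 504) (nat_lit 98510584) (nat_lit 84) (nat_lit 4545261092) (nat_lit 58) (nat_lit 5) (nat_lit 64) (nat_lit 5) (nat_lit 59) (nat_lit 5) (nat_lit 331) (nat_lit 286) (nat_lit 271)) (XT.lf (nat_lit 0) (nat_lit 3502194879) (nat_lit 420) (nat_lit 2367154452) (nat_lit 504) (nat_lit 2683095655) (nat_lit 53) (nat_lit 5) (nat_lit 58) (nat_lit 5) (nat_lit 59) (nat_lit 5) (nat_lit 332) (nat_lit 286) (nat_lit 270)))) (XT.nd (nat_lit 94) (nat_lit 420) (nat_lit 0) (XT.lf (nat_lit 0) (nat_lit 7156924665) (nat_lit 420) (nat_lit 817315944) (nat_lit 504) (nat_lit 718104921) (nat_lit 53) (nat_lit 5) (nat_lit 58) (nat_lit 5) (nat_lit 59) (nat_lit 5) (nat_lit 333) (nat_lit 286) (nat_lit 269)) (XT.nd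 (nat_lit 94) (nat_lit 0) (nat_lit 0) (XT.lf (nat_lit 0) (nat_lit 1255226520) (nat_lit 420) (nat_lit 6788242114) (nat_lit 84) (nat_lit 793921756) (nat_lit 48) (nat_lit 5) (nat_lit 53) (nat_lit 5) (nat_lit 49) (nat_lit 5) (nat_lit 334) (nat_lit 286) (nat_lit 268)) (XT.lf (nat_lit 0) (nat_lit 3245700701) (nat_lit 420) (nat_lit 3285718966) (nat_lit 84) (nat_lit 2456571504) (nat_lit 48) (nat_lit 5) (nat_lit 53) (nat_lit 5) (nat_lit 49) (nat_lit 5) (nat_lit 335) (nat_lit 286) (nat_lit 267))))) (XT.nd (nat_lit 282) (nat_lit 756) (nat_lit 0) (XT.nd (nat_lit 94) (nat_lit 0) (nat_lit 0) (XT.lf (nat_lit 0) (nat_lit 271882858) (nat_lit 420) (nat_lit 4976643800) (nat_lit 504) (nat_lit 3896636977) (nat_lit 43) (nat_lit 5) (nat_lit 48) (nat_lit 5) (nat_lit 49) (nat_lit 5) (nat_lit 336) (nat_lit 286) (nat_lit 266)) (XT.nd (nat_lit 94) (nat_lit 0) (nat_lit 0) (XT.lf (nat_lit 0) (nat_lit 3951045574)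 (nat_lit 420) (nat_lit 3345626674) (nat_lit 504) (nat_lit 2011417905) (nat_lit 43) (nat_lit 5) (nat_lit 48) (nat_lit 5) (nat_lit 49) (nat_lit 5) (nat_lit 337) (nat_lit 286) (nat_lit 265)) (XT.lf (nat_lit 0) (nat_lit 7687637425) (nat_lit 420) (nat_lit 1671144177) (nat_lit 504) (nat_lit 119172199) (nat_lit 43) (nat_lit 5) (nat_lit 48) (nat_lit 5) (nat_lit 49) (nat_lit 5) (nat_lit 338) (nat_lit 286) (nat_lit 264)))) (XT.nd (nat_lit 188) (nat_lit 336) (nat_lit 0) (XT.nd (nat_lit 94) (nat_lit 0) (nat_lit 0) (XT.lf (nat_lit 0) (nat_lit 1765162037) (nat_lit 420) (nat_lit 7804822462) (nat_lit 84) (nat_lit 83785287) (nat_lit 38) (nat_lit 5) (nat_lit 43) (nat_lit 5) (nat_lit 39) (nat_lit 5) (nat_lit 339) (nat_lit 286) (nat_lit 263)) (XT.lf (nat_lit 0) (nat_lit 3693380961) (nat_lit 420) (nat_lit 4271394279) (nat_lit 84) (nat_lit 1870917019) (nat_lit 38) (nat_lit 5) (nat_lit 43) (nat_lit 5)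 (nat_lit 39) (nat_lit 5) (nat_lit 340) (nat_lit 286) (nat_lit 262))) (XT.nd (nat_lit 94) (nat_lit 336) (nat_lit 0) (XT.lf (nat_lit 0) (nat_lit 5634794245) (nat_lit 420) (nat_lit 684121028) (nat_lit 84) (nat_lit 3706093714) (nat_lit 38) (nat_lit 5) (nat_lit 43) (nat_lit 5) (nat_lit 39) (nat_lit 5) (nat_lit 341) (nat_lit 286) (nat_lit 261)) (XT.lf (nat_lit 0) (nat_lit 3021211687) (nat_lit 336) (nat_lit 4599970598) (nat_lit 420) (nat_lit 2599785056) (nat_lit 34) (nat_lit 5) (nat_lit 38) (nat_lit 5) (nat_lit 39) (nat_lit 5) (nat_lit 342) (nat_lit 286) (nat_lit 260)))))) (XT.nd (nat_lit 564) (nat_lit 588) (nat_lit 0) (XT.nd (nat_lit 282) (nat_lit 252) (nat_lit 0) (XT.nd (nat_lit 94) (nat_lit 336) (nat_lit 0) (XT.lf (nat_lit 0) (nat_lit 6802442905) (nat_lit 336) (nat_lit 2829494455) (nat_lit 420) (nat_lit 792508849) (nat_lit 34) (nat_lit 5) (nat_lit 38) (nat_lit 5) (nat_lit 39) (nat_lit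 5) (nat_lit 343) (nat_lit 286) (nat_lit 259)) (XT.nd (nat_lit 94) (nat_lit 0) (nat_lit 0) (XT.lf (nat_lit 0) (nat_lit 3062320) (nat_lit 252) (nat_lit 1002450896) (nat_lit 336) (nat_lit 9630020239) (nat_lit 30) (nat_lit 5) (nat_lit 33) (nat_lit 5) (nat_lit 34) (nat_lit 5) (nat_lit 344) (nat_lit 286) (nat_lit 258)) (XT.lf (nat_lit 0) (nat_lit 2846710015) (nat_lit 336) (nat_lit 7105939428) (nat_lit 84) (nat_lit 900409531) (nat_lit 30) (nat_lit 5) (nat_lit 34) (nat_lit 5) (nat_lit 31) (nat_lit 5) (nat_lit 345) (nat_lit 286) (nat_lit 257)))) (XT.nd (nat_lit 94) (nat_lit 252) (nat_lit 0) (XT.lf (nat_lit 0) (nat_lit 4713494093) (nat_lit 336) (nat_lit 3532716682) (nat_lit 84) (nat_lit 2832351862) (nat_lit 30) (nat_lit 5) (nat_lit 34) (nat_lit 5) (nat_lit 31) (nat_lit 5) (nat_lit 346) (nat_lit 286) (nat_lit 256)) (XT.nd (nat_lit 94) (nat_lit 0) (nat_lit 0) (XT.lf (nat_lit 0) (nat_lit 102538070)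 (nat_lit 252) (nat_lit 6496140170) (nat_lit 336) (nat_lit 4713853140) (nat_lit 27) (nat_lit 5) (nat_lit 30) (nat_lit 5) (nat_lit 31) (nat_lit 5) (nat_lit 347) (nat_lit 286) (nat_lit 255)) (XT.lf (nat_lit 0) (nat_lit 3875087990) (nat_lit 252) (nat_lit 4664320492) (nat_lit 336) (nat_lit 3014677752) (nat_lit 27) (nat_lit 5) (nat_lit 30) (nat_lit 5) (nat_lit 31) (nat_lit 5) (nat_lit 348) (nat_lit 286) (nat_lit 254))))) (XT.nd (nat_lit 282) (nat_lit 252) (nat_lit 0) (XT.nd (nat_lit 94) (nat_lit 336) (nat_lit 0) (XT.lf (nat_lit 0) (nat_lit 7715809586) (nat_lit 252) (nat_lit 2785918610) (nat_lit 336) (nat_lit 1302832889) (nat_lit 27) (nat_lit 5) (nat_lit 30) (nat_lit 5) (nat_lit 31) (nat_lit 5) (nat_lit 349) (nat_lit 286) (nat_lit 253)) (XT.nd (nat_lit 94) (nat_lit 252) (nat_lit 0) (XT.lf (nat_lit 0) (nat_lit 414748977) (nat_lit 336) (nat_lit 440105552) (nat_lit 84) (nat_lit 11209204708)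 (nat_lit 26) (nat_lit 5) (nat_lit 30) (nat_lit 5) (nat_lit 27) (nat_lit 5) (nat_lit 350) (nat_lit 286) (nat_lit 252)) (XT.lf (nat_lit 0) (nat_lit 2166300142) (nat_lit 336) (nat_lit 9014644646) (nat_lit 84) (nat_lit 1150217942) (nat_lit 23) (nat_lit 5) (nat_lit 27) (nat_lit 5) (nat_lit 24) (nat_lit 5) (nat_lit 351) (nat_lit 286) (nat_lit 251)))) (XT.nd (nat_lit 188) (nat_lit 252) (nat_lit 0) (XT.nd (nat_lit 94) (nat_lit 0) (nat_lit 0) (XT.lf (nat_lit 0) (nat_lit 3949204068) (nat_lit 336) (nat_lit 5463885710) (nat_lit 84) (nat_lit 3194376853) (nat_lit 23) (nat_lit 5) (nat_lit 27) (nat_lit 5) (nat_lit 24) (nat_lit 5) (nat_lit 352) (nat_lit 286) (nat_lit 250)) (XT.lf (nat_lit 0) (nat_lit 5752141102) (nat_lit 336) (nat_lit 1849240068) (nat_lit 84) (nat_lit 5292249744) (nat_lit 23) (nat_lit 5) (nat_lit 27) (nat_lit 5) (nat_lit 24) (nat_lit 5) (nat_lit 353) (nat_lit 286) (nat_lit 249)))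 (XT.nd (nat_lit 94) (nat_lit 0) (nat_lit 0) (XT.lf (nat_lit 0) (nat_lit 1870344786) (nat_lit 252) (nat_lit 5725001034) (nat_lit 336) (nat_lit 5594001317) (nat_lit 20) (nat_lit 5) (nat_lit 23) (nat_lit 5) (nat_lit 24) (nat_lit 5) (nat_lit 354) (nat_lit 286) (nat_lit 248)) (XT.lf (nat_lit 0) (nat_lit 5700095149) (nat_lit 252) (nat_lit 3781307335) (nat_lit 336) (nat_lit 4013461604) (nat_lit 20) (nat_lit 5) (nat_lit 23) (nat_lit 5) (nat_lit 24) (nat_lit 5) (nat_lit 355) (nat_lit 286) (nat_lit 247))))))))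
noncomputable def xc62 : XT := (XT.nd (nat_lit 2350) (nat_lit 420) (nat_lit 0) (XT.nd (nat_lit 1128) (nat_lit 336) (nat_lit 0) (XT.nd (nat_lit 564) (nat_lit 336) (nat_lit 0) (XT.nd (nat_lit 282) (nat_lit 0) (nat_lit 0) (XT.nd (nat_lit 94) (nat_lit 252) (nat_lit 0) (XT.lf (nat_lit 0) (nat_lit 9605556579) (nat_lit 252) (nat_lit 1787790620) (nat_lit 336) (nat_lit 2417699718) (nat_lit 20) (nat_lit 5) (nat_lit 23) (nat_lit 5) (nat_lit 24) (nat_lit 5) (nat_lit 356) (nat_lit 286) (nat_lit 246)) (XT.nd (nat_lit 94) (nat_lit 252) (nat_lit 0) (XT.lf (nat_lit 0) (nat_lit 13335515612) (nat_lit 336) (nat_lit 550374477) (nat_lit 84) (nat_lit 252221093) (nat_lit 20) (nat_lit 5) (nat_lit 24) (nat_lit 5) (nat_lit 21) (nat_lit 4) (nat_lit 357) (nat_lit 286) (nat_lit 245)) (XT.lf (nat_lit 0) (nat_lit 864739225) (nat_lit 252) (nat_lit 11260422806) (nat_lit 84) (nat_lit 2349450065) (nat_lit 17) (nat_lit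 5) (nat_lit 20) (nat_lit 5) (nat_lit 18) (nat_lit 5) (nat_lit 358) (nat_lit 286) (nat_lit 244)))) (XT.nd (nat_lit 94) (nat_lit 0) (nat_lit 0) (XT.lf (nat_lit 0) (nat_lit 2542188431) (nat_lit 252) (nat_lit 7764376909) (nat_lit 84) (nat_lit 4515660294) (nat_lit 17) (nat_lit 5) (nat_lit 20) (nat_lit 5) (nat_lit 18) (nat_lit 5) (nat_lit 359) (nat_lit 286) (nat_lit 243)) (XT.nd (nat_lit 94) (nat_lit 0) (nat_lit 0) (XT.lf (nat_lit 0) (nat_lit 4241857080) (nat_lit 252) (nat_lit 4200560015) (nat_lit 84) (nat_lit 6739280032) (nat_lit 17) (nat_lit 5) (nat_lit 20) (nat_lit 5) (nat_lit 18) (nat_lit 5) (nat_lit 360) (nat_lit 286) (nat_lit 242)) (XT.lf (nat_lit 0) (nat_lit 5965329443) (nat_lit 252) (nat_lit 565650274) (nat_lit 84) (nat_lit 9022381926) (nat_lit 17) (nat_lit 5) (nat_lit 20) (nat_lit 5) (nat_lit 18) (nat_lit 5) (nat_lit 361) (nat_lit 286) (nat_lit 241))))) (XT.nd (nat_lit 282) (nat_lit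 168) (nat_lit 0) (XT.nd (nat_lit 94) (nat_lit 0) (nat_lit 0) (XT.lf (nat_lit 0) (nat_lit 3208382182) (nat_lit 168) (nat_lit 4537657341) (nat_lit 252) (nat_lit 8190539430) (nat_lit 15) (nat_lit 5) (nat_lit 17) (nat_lit 5) (nat_lit 18) (nat_lit 5) (nat_lit 362) (nat_lit 286) (nat_lit 240)) (XT.nd (nat_lit 94) (nat_lit 0) (nat_lit 0) (XT.lf (nat_lit 0) (nat_lit 7073586650) (nat_lit 168) (nat_lit 2486719025) (nat_lit 252) (nat_lit 6772186171) (nat_lit 15) (nat_lit 5) (nat_lit 17) (nat_lit 5) (nat_lit 18) (nat_lit 5) (nat_lit 363) (nat_lit 286) (nat_lit 239)) (XT.lf (nat_lit 0) (nat_lit 11021934974) (nat_lit 168) (nat_lit 382157308) (nat_lit 252) (nat_lit 5337554597) (nat_lit 15) (nat_lit 5) (nat_lit 17) (nat_lit 5) (nat_lit 18) (nat_lit 5) (nat_lit 364) (nat_lit 286) (nat_lit 238)))) (XT.nd (nat_lit 94) (nat_lit 168) (nat_lit 0) (XT.lf (nat_lit 0) (nat_lit 13296755822) (nat_lit 252)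 (nat_lit 2124955875) (nat_lit 84) (nat_lit 1742166956) (nat_lit 15) (nat_lit 5) (nat_lit 18) (nat_lit 5) (nat_lit 16) (nat_lit 4) (nat_lit 365) (nat_lit 286) (nat_lit 237)) (XT.nd (nat_lit 94) (nat_lit 0) (nat_lit 0) (XT.lf (nat_lit 0) (nat_lit 1573712260) (nat_lit 168) (nat_lit 13668667731) (nat_lit 252) (nat_lit 2357128836) (nat_lit 13) (nat_lit 5) (nat_lit 15) (nat_lit 5) (nat_lit 16) (nat_lit 4) (nat_lit 366) (nat_lit 286) (nat_lit 236)) (XT.lf (nat_lit 0) (nat_lit 5397121121) (nat_lit 168) (nat_lit 11848557446) (nat_lit 252) (nat_lit 803174981) (nat_lit 13) (nat_lit 5) (nat_lit 15) (nat_lit 5) (nat_lit 16) (nat_lit 4) (nat_lit 367) (nat_lit 286) (nat_lit 235)))))) (XT.nd (nat_lit 564) (nat_lit 84) (nat_lit 0) (XT.nd (nat_lit 282) (nat_lit 168) (nat_lit 0) (XT.nd (nat_lit 94) (nat_lit 0) (nat_lit 0) (XT.lf (nat_lit 0) (nat_lit 758412484) (nat_lit 252) (nat_lit 9215535735) (nat_lit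 84) (nat_lit 8538812317) (nat_lit 12) (nat_lit 5) (nat_lit 15) (nat_lit 5) (nat_lit 13) (nat_lit 5) (nat_lit 368) (nat_lit 286) (nat_lit 234)) (XT.nd (nat_lit 94) (nat_lit 0) (nat_lit 0) (XT.lf (nat_lit 0) (nat_lit 2328018374) (nat_lit 252) (nat_lit 5714530798) (nat_lit 84) (nat_lit 10949096687) (nat_lit 12) (nat_lit 5) (nat_lit 15) (nat_lit 5) (nat_lit 13) (nat_lit 5) (nat_lit 369) (nat_lit 286) (nat_lit 233)) (XT.lf (nat_lit 0) (nat_lit 3923287913) (nat_lit 252) (nat_lit 2137486717) (nat_lit 84) (nat_lit 13425428253) (nat_lit 12) (nat_lit 5) (nat_lit 15) (nat_lit 5) (nat_lit 13) (nat_lit 5) (nat_lit 370) (nat_lit 286) (nat_lit 232)))) (XT.nd (nat_lit 94) (nat_lit 0) (nat_lit 0) (XT.lf (nat_lit 0) (nat_lit 1550163017) (nat_lit 168) (nat_lit 4010922849) (nat_lit 252) (nat_lit 14435330008) (nat_lit 10) (nat_lit 5) (nat_lit 12) (nat_lit 5) (nat_lit 13) (nat_lit 5) (nat_lit 371) (nat_lit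 286) (nat_lit 231)) (XT.nd (nat_lit 94) (nat_lit 0) (nat_lit 0) (XT.lf (nat_lit 0) (nat_lit 5366247506) (nat_lit 168) (nat_lit 1883777407) (nat_lit 252) (nat_lit 13272515823) (nat_lit 10) (nat_lit 5) (nat_lit 12) (nat_lit 5) (nat_lit 13) (nat_lit 5) (nat_lit 372) (nat_lit 286) (nat_lit 230)) (XT.lf (nat_lit 0) (nat_lit 8973018534) (nat_lit 252) (nat_lit 11798345433) (nat_lit 84) (nat_lit 294282392) (nat_lit 10) (nat_lit 5) (nat_lit 13) (nat_lit 5) (nat_lit 11) (nat_lit 4) (nat_lit 373) (nat_lit 286) (nat_lit 229))))) (XT.nd (nat_lit 282) (nat_lit 84) (nat_lit 0) (XT.nd (nat_lit 94) (nat_lit 0) (nat_lit 0) (XT.lf (nat_lit 0) (nat_lit 10747963221) (nat_lit 252) (nat_lit 8385569988) (nat_lit 84) (nat_lit 2492200758) (nat_lit 10) (nat_lit 5) (nat_lit 13) (nat_lit 5) (nat_lit 11) (nat_lit 4) (nat_lit 374) (nat_lit 286) (nat_lit 228)) (XT.nd (nat_lit 94) (nat_lit 0) (nat_lit 0) (XT.lf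 (nat_lit 0) (nat_lit 12557826104) (nat_lit 252) (nat_lit 4896098526) (nat_lit 84) (nat_lit 4749980299) (nat_lit 10) (nat_lit 5) (nat_lit 13) (nat_lit 5) (nat_lit 11) (nat_lit 4) (nat_lit 375) (nat_lit 286) (nat_lit 227)) (XT.lf (nat_lit 0) (nat_lit 14404294163) (nat_lit 252) (nat_lit 1326678495) (nat_lit 84) (nat_lit 7069725500) (nat_lit 10) (nat_lit 5) (nat_lit 13) (nat_lit 5) (nat_lit 11) (nat_lit 4) (nat_lit 376) (nat_lit 286) (nat_lit 226)))) (XT.nd (nat_lit 188) (nat_lit 0) (nat_lit 0) (XT.nd (nat_lit 94) (nat_lit 0) (nat_lit 0) (XT.lf (nat_lit 0) (nat_lit 2373844863) (nat_lit 84) (nat_lit 13938792474) (nat_lit 168) (nat_lit 7103302579) (nat_lit 9) (nat_lit 5) (nat_lit 10) (nat_lit 5) (nat_lit 11) (nat_lit 4) (nat_lit 377) (nat_lit 286) (nat_lit 225)) (XT.lf (nat_lit 0) (nat_lit 6190110116) (nat_lit 84) (nat_lit 12085262488) (nat_lit 168) (nat_lit 5775118184) (nat_lit 9) (nat_lit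 5) (nat_lit 10) (nat_lit 5) (nat_lit 11) (nat_lit 4) (nat_lit 378) (nat_lit 286) (nat_lit 224))) (XT.nd (nat_lit 94) (nat_lit 0) (nat_lit 0) (XT.lf (nat_lit 0) (nat_lit 10098395191) (nat_lit 84) (nat_lit 10182502820) (nat_lit 168) (nat_lit 4424460604) (nat_lit 9) (nat_lit 5) (nat_lit 10) (nat_lit 5) (nat_lit 11) (nat_lit 4) (nat_lit 379) (nat_lit 286) (nat_lit 223)) (XT.lf (nat_lit 0) (nat_lit 14102343021) (nat_lit 84) (nat_lit 8228739898) (nat_lit 168) (nat_lit 3050070885) (nat_lit 9) (nat_lit 5) (nat_lit 10) (nat_lit 5) (nat_lit 11) (nat_lit 4) (nat_lit 380) (nat_lit 286) (nat_lit 222))))))) (XT.nd (nat_lit 1222) (nat_lit 84) (nat_lit 0) (XT.nd (nat_lit 564) (nat_lit 84) (nat_lit 0) (XT.nd (nat_lit 282) (nat_lit 168) (nat_lit 0) (XT.nd (nat_lit 94) (nat_lit 84) (nat_lit 0) (XT.lf (nat_lit 0) (nat_lit 18205685703) (nat_lit 84) (nat_lit 6222152611) (nat_lit 168) (nat_lit 1650667953)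 (nat_lit 9) (nat_lit 5) (nat_lit 10) (nat_lit 5) (nat_lit 11) (nat_lit 4) (nat_lit 381) (nat_lit 286) (nat_lit 221)) (XT.nd (nat_lit 94) (nat_lit 84) (nat_lit 0) (XT.lf (nat_lit 0) (nat_lit 22412247982) (nat_lit 84) (nat_lit 4160870609) (nat_lit 168) (nat_lit 224947417) (nat_lit 9) (nat_lit 5) (nat_lit 10) (nat_lit 5) (nat_lit 11) (nat_lit 4) (nat_lit 382) (nat_lit 286) (nat_lit 220)) (XT.lf (nat_lit 0) (nat_lit 1203669725) (nat_lit 168) (nat_lit 826738992) (nat_lit 84) (nat_lit 25509717248) (nat_lit 8) (nat_lit 5) (nat_lit 10) (nat_lit 5) (nat_lit 9) (nat_lit 5) (nat_lit 383) (nat_lit 286) (nat_lit 219)))) (XT.nd (nat_lit 94) (nat_lit 0) (nat_lit 0) (XT.lf (nat_lit 0) (nat_lit 2686586610) (nat_lit 252) (nat_lit 25431340886) (nat_lit 84) (nat_lit 186807479) (nat_lit 6) (nat_lit 5) (nat_lit 9) (nat_lit 5) (nat_lit 7) (nat_lit 4) (nat_lit 384) (nat_lit 286) (nat_lit 218)) (XT.nd (nat_lit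 94) (nat_lit 0) (nat_lit 0) (XT.lf (nat_lit 0) (nat_lit 4229403866) (nat_lit 252) (nat_lit 22431080045) (nat_lit 84) (nat_lit 2432200726) (nat_lit 6) (nat_lit 5) (nat_lit 9) (nat_lit 5) (nat_lit 7) (nat_lit 4) (nat_lit 385) (nat_lit 286) (nat_lit 217)) (XT.lf (nat_lit 0) (nat_lit 5804962059) (nat_lit 252) (nat_lit 19360317286) (nat_lit 84) (nat_lit 4740316580) (nat_lit 6) (nat_lit 5) (nat_lit 9) (nat_lit 5) (nat_lit 7) (nat_lit 4) (nat_lit 386) (nat_lit 286) (nat_lit 216))))) (XT.nd (nat_lit 282) (nat_lit 84) (nat_lit 0) (XT.nd (nat_lit 94) (nat_lit 0) (nat_lit 0) (XT.lf (nat_lit 0) (nat_lit 7414729775) (nat_lit 252) (nat_lit 16216190337) (nat_lit 84) (nat_lit 7113306447) (nat_lit 6) (nat_lit 5) (nat_lit 9) (nat_lit 5) (nat_lit 7) (nat_lit 4) (nat_lit 387) (nat_lit 286) (nat_lit 215)) (XT.nd (nat_lit 94) (nat_lit 0) (nat_lit 0) (XT.lf (nat_lit 0) (nat_lit 9060207486) (nat_lit 252)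 (nat_lit 12995768542) (nat_lit 84) (nat_lit 9553382202) (nat_lit 6) (nat_lit 5) (nat_lit 9) (nat_lit 5) (nat_lit 7) (nat_lit 4) (nat_lit 388) (nat_lit 286) (nat_lit 214)) (XT.lf (nat_lit 0) (nat_lit 10742928950) (nat_lit 252) (nat_lit 9696050130) (nat_lit 84) (nat_lit 12062818251) (nat_lit 6) (nat_lit 5) (nat_lit 9) (nat_lit 5) (nat_lit 7) (nat_lit 4) (nat_lit 389) (nat_lit 286) (nat_lit 213)))) (XT.nd (nat_lit 188) (nat_lit 84) (nat_lit 0) (XT.nd (nat_lit 94) (nat_lit 0) (nat_lit 0) (XT.lf (nat_lit 0) (nat_lit 12464462638) (nat_lit 252) (nat_lit 6313959419) (nat_lit 84) (nat_lit 14643953651) (nat_lit 6) (nat_lit 5) (nat_lit 9) (nat_lit 5) (nat_lit 7) (nat_lit 4) (nat_lit 390) (nat_lit 286) (nat_lit 212)) (XT.lf (nat_lit 0) (nat_lit 14226413202) (nat_lit 252) (nat_lit 2846343945) (nat_lit 84) (nat_lit 17299194292) (nat_lit 6) (nat_lit 5) (nat_lit 9) (nat_lit 5) (nat_lit 7) (nat_lit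 4) (nat_lit 391) (nat_lit 286) (nat_lit 211))) (XT.nd (nat_lit 94) (nat_lit 0) (nat_lit 0) (XT.lf (nat_lit 0) (nat_lit 724628113) (nat_lit 84) (nat_lit 15312983250) (nat_lit 168) (nat_lit 19313575422) (nat_lit 5) (nat_lit 5) (nat_lit 6) (nat_lit 5) (nat_lit 7) (nat_lit 4) (nat_lit 392) (nat_lit 286) (nat_lit 210)) (XT.lf (nat_lit 0) (nat_lit 4448091882) (nat_lit 84) (nat_lit 13474207186) (nat_lit 168) (nat_lit 18437996264) (nat_lit 5) (nat_lit 5) (nat_lit 6) (nat_lit 5) (nat_lit 7) (nat_lit 4) (nat_lit 393) (nat_lit 286) (nat_lit 209)))))) (XT.nd (nat_lit 564) (nat_lit 84) (nat_lit 0) (XT.nd (nat_lit 282) (nat_lit 0) (nat_lit 0) (XT.nd (nat_lit 94) (nat_lit 0) (nat_lit 0) (XT.lf (nat_lit 0) (nat_lit 8268991351) (nat_lit 84) (nat_lit 11584425017) (nat_lit 168) (nat_lit 17547694623) (nat_lit 5) (nat_lit 5) (nat_lit 6) (nat_lit 5) (nat_lit 7) (nat_lit 4) (nat_lit 394) (nat_lit 286)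 (nat_lit 208)) (XT.nd (nat_lit 94) (nat_lit 0) (nat_lit 0) (XT.lf (nat_lit 0) (nat_lit 12190887998) (nat_lit 84) (nat_lit 9641875269) (nat_lit 168) (nat_lit 16641840645) (nat_lit 5) (nat_lit 5) (nat_lit 6) (nat_lit 5) (nat_lit 7) (nat_lit 4) (nat_lit 395) (nat_lit 286) (nat_lit 207)) (XT.lf (nat_lit 0) (nat_lit 16217437442) (nat_lit 84) (nat_lit 7644747281) (nat_lit 168) (nat_lit 15719589980) (nat_lit 5) (nat_lit 5) (nat_lit 6) (nat_lit 5) (nat_lit 7) (nat_lit 4) (nat_lit 396) (nat_lit 286) (nat_lit 206)))) (XT.nd (nat_lit 94) (nat_lit 0) (nat_lit 0) (XT.lf (nat_lit 0) (nat_lit 20352392848) (nat_lit 84) (nat_lit 5591179521) (nat_lit 168) (nat_lit 14780082993) (nat_lit 5) (nat_lit 5) (nat_lit 6) (nat_lit 5) (nat_lit 7) (nat_lit 4) (nat_lit 397) (nat_lit 286) (nat_lit 205)) (XT.nd (nat_lit 94) (nat_lit 0) (nat_lit 0) (XT.lf (nat_lit 0) (nat_lit 24599608428) (nat_lit 84) (nat_lit 3479257848)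 (nat_lit 168) (nat_lit 13822443966) (nat_lit 5) (nat_lit 5) (nat_lit 6) (nat_lit 5) (nat_lit 7) (nat_lit 4) (nat_lit 398) (nat_lit 286) (nat_lit 204)) (XT.lf (nat_lit 0) (nat_lit 28963043031) (nat_lit 84) (nat_lit 1307013731) (nat_lit 168) (nat_lit 12845780278) (nat_lit 5) (nat_lit 5) (nat_lit 6) (nat_lit 5) (nat_lit 7) (nat_lit 4) (nat_lit 399) (nat_lit 286) (nat_lit 203))))) (XT.nd (nat_lit 282) (nat_lit 84) (nat_lit 0) (XT.nd (nat_lit 94) (nat_lit 0) (nat_lit 0) (XT.lf (nat_lit 0) (nat_lit 32528387933) (nat_lit 168) (nat_lit 10930805673) (nat_lit 0) (nat_lit 908888968) (nat_lit 5) (nat_lit 5) (nat_lit 7) (nat_lit 4) (nat_lit 5) (nat_lit 4) (nat_lit 400) (nat_lit 286) (nat_lit 202)) (XT.nd (nat_lit 94) (nat_lit 0) (nat_lit 0) (XT.lf (nat_lit 0) (nat_lit 34860359417) (nat_lit 168) (nat_lit 7637128203) (nat_lit 0) (nat_lit 3161590208) (nat_lit 5) (nat_lit 5) (nat_lit 7) (nat_lit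 4) (nat_lit 5) (nat_lit 4) (nat_lit 401) (nat_lit 286) (nat_lit 201)) (XT.lf (nat_lit 0) (nat_lit 37255179120) (nat_lit 168) (nat_lit 4255725811) (nat_lit 0) (nat_lit 5479523156) (nat_lit 5) (nat_lit 5) (nat_lit 7) (nat_lit 4) (nat_lit 5) (nat_lit 4) (nat_lit 402) (nat_lit 286) (nat_lit 200)))) (XT.nd (nat_lit 188) (nat_lit 0) (nat_lit 0) (XT.nd (nat_lit 94) (nat_lit 84) (nat_lit 0) (XT.lf (nat_lit 0) (nat_lit 39715079264) (nat_lit 168) (nat_lit 783446675) (nat_lit 0) (nat_lit 7864848368) (nat_lit 5) (nat_lit 5) (nat_lit 7) (nat_lit 4) (nat_lit 5) (nat_lit 4) (nat_lit 403) (nat_lit 286) (nat_lit 199)) (XT.lf (nat_lit 0) (nat_lit 2840168804) (nat_lit 84) (nat_lit 39430358756) (nat_lit 84) (nat_lit 7507795240) (nat_lit 4) (nat_lit 4) (nat_lit 5) (nat_lit 5) (nat_lit 5) (nat_lit 4) (nat_lit 404) (nat_lit 286) (nat_lit 198))) (XT.nd (nat_lit 94) (nat_lit 0) (nat_lit 0) (XT.lf (nat_lit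 0) (nat_lit 6579334592) (nat_lit 84) (nat_lit 38325288435) (nat_lit 84) (nat_lit 6332567188) (nat_lit 4) (nat_lit 4) (nat_lit 5) (nat_lit 5) (nat_lit 5) (nat_lit 4) (nat_lit 405) (nat_lit 286) (nat_lit 197)) (XT.lf (nat_lit 0) (nat_lit 10421426714) (nat_lit 84) (nat_lit 37190462511) (nat_lit 84) (nat_lit 5129693028) (nat_lit 4) (nat_lit 4) (nat_lit 5) (nat_lit 5) (nat_lit 5) (nat_lit 4) (nat_lit 406) (nat_lit 286) (nat_lit 196))))))))
noncomputable def xc63 : XT := (XT.nd (nat_lit 47376) (nat_lit 0) (nat_lit 2688) (XT.nd (nat_lit 1222) (nat_lit 84) (nat_lit 0) (XT.nd (nat_lit 564) (nat_lit 0) (nat_lit 0) (XT.nd (nat_lit 282) (nat_lit 84) (nat_lit 0) (XT.nd (nat_lit 94) (nat_lit 0) (nat_lit 0) (XT.lf (nat_lit 0) (nat_lit 14370026400) (nat_lit 84) (nat_lit 36024823208) (nat_lit 84) (nat_lit 3898051557) (nat_lit 4) (nat_lit 4) (nat_lit 5) (nat_lit 5) (nat_lit 5) (nat_lit 4) (nat_lit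 407) (nat_lit 286) (nat_lit 195)) (XT.nd (nat_lit 94) (nat_lit 0) (nat_lit 0) (XT.lf (nat_lit 0) (nat_lit 18428814160) (nat_lit 84) (nat_lit 34827284028) (nat_lit 84) (nat_lit 2636494754) (nat_lit 4) (nat_lit 4) (nat_lit 5) (nat_lit 5) (nat_lit 5) (nat_lit 4) (nat_lit 408) (nat_lit 286) (nat_lit 194)) (XT.lf (nat_lit 0) (nat_lit 22601573208) (nat_lit 84) (nat_lit 33596728738) (nat_lit 84) (nat_lit 1343846718) (nat_lit 4) (nat_lit 4) (nat_lit 5) (nat_lit 5) (nat_lit 5) (nat_lit 4) (nat_lit 409) (nat_lit 286) (nat_lit 193)))) (XT.nd (nat_lit 94) (nat_lit 84) (nat_lit 0) (XT.lf (nat_lit 0) (nat_lit 26892192994) (nat_lit 84) (nat_lit 32332010333) (nat_lit 84) (nat_lit 18902564) (nat_lit 4) (nat_lit 4) (nat_lit 5) (nat_lit 5) (nat_lit 5) (nat_lit 4) (nat_lit 410) (nat_lit 286) (nat_lit 192)) (XT.nd (nat_lit 94) (nat_lit 0) (nat_lit 0) (XT.lf (nat_lit 0) (nat_lit 1312583289) (nat_lit 168)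 (nat_lit 29705665995) (nat_lit 84) (nat_lit 29978388858) (nat_lit 3) (nat_lit 5) (nat_lit 5) (nat_lit 5) (nat_lit 4) (nat_lit 4) (nat_lit 411) (nat_lit 286) (nat_lit 191)) (XT.lf (nat_lit 0) (nat_lit 2677784554) (nat_lit 168) (nat_lit 26989600699) (nat_lit 84) (nat_lit 33137390459) (nat_lit 3) (nat_lit 5) (nat_lit 5) (nat_lit 5) (nat_lit 4) (nat_lit 4) (nat_lit 412) (nat_lit 286) (nat_lit 190))))) (XT.nd (nat_lit 282) (nat_lit 0) (nat_lit 0) (XT.nd (nat_lit 94) (nat_lit 0) (nat_lit 0) (XT.lf (nat_lit 0) (nat_lit 4078354587) (nat_lit 168) (nat_lit 24199997836) (nat_lit 84) (nat_lit 36390857368) (nat_lit 3) (nat_lit 5) (nat_lit 5) (nat_lit 5) (nat_lit 4) (nat_lit 4) (nat_lit 413) (nat_lit 286) (nat_lit 189)) (XT.nd (nat_lit 94) (nat_lit 0) (nat_lit 0) (XT.lf (nat_lit 0) (nat_lit 5515598865) (nat_lit 168) (nat_lit 21334257205) (nat_lit 84) (nat_lit 39741822155) (nat_lit 3) (nat_lit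 5) (nat_lit 5) (nat_lit 5) (nat_lit 4) (nat_lit 4) (nat_lit 414) (nat_lit 286) (nat_lit 188)) (XT.lf (nat_lit 0) (nat_lit 6990857049) (nat_lit 168) (nat_lit 18389707633) (nat_lit 84) (nat_lit 43193408271) (nat_lit 3) (nat_lit 5) (nat_lit 5) (nat_lit 5) (nat_lit 4) (nat_lit 4) (nat_lit 415) (nat_lit 286) (nat_lit 187)))) (XT.nd (nat_lit 188) (nat_lit 0) (nat_lit 0) (XT.nd (nat_lit 94) (nat_lit 0) (nat_lit 0) (XT.lf (nat_lit 0) (nat_lit 8505504237) (nat_lit 168) (nat_lit 15363604494) (nat_lit 84) (nat_lit 46748832956) (nat_lit 3) (nat_lit 5) (nat_lit 5) (nat_lit 5) (nat_lit 4) (nat_lit 4) (nat_lit 416) (nat_lit 286) (nat_lit 186)) (XT.lf (nat_lit 0) (nat_lit 10060952236) (nat_lit 168) (nat_lit 12253127141) (nat_lit 84) (nat_lit 50411410238) (nat_lit 3) (nat_lit 5) (nat_lit 5) (nat_lit 5) (nat_lit 4) (nat_lit 4) (nat_lit 417) (nat_lit 286) (nat_lit 185))) (XT.nd (nat_lit 94) (nat_lit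 0) (nat_lit 0) (XT.lf (nat_lit 0) (nat_lit 11658650888) (nat_lit 168) (nat_lit 9055376285) (nat_lit 84) (nat_lit 54184554024) (nat_lit 3) (nat_lit 5) (nat_lit 5) (nat_lit 5) (nat_lit 4) (nat_lit 4) (nat_lit 418) (nat_lit 286) (nat_lit 184)) (XT.lf (nat_lit 0) (nat_lit 13300089416) (nat_lit 168) (nat_lit 5767371285) (nat_lit 84) (nat_lit 58071781277) (nat_lit 3) (nat_lit 5) (nat_lit 5) (nat_lit 5) (nat_lit 4) (nat_lit 4) (nat_lit 419) (nat_lit 286) (nat_lit 183)))))) (XT.nd (nat_lit 564) (nat_lit 0) (nat_lit 0) (XT.nd (nat_lit 282) (nat_lit 0) (nat_lit 0) (XT.nd (nat_lit 94) (nat_lit 84) (nat_lit 0) (XT.lf (nat_lit 0) (nat_lit 14986797811) (nat_lit 168) (nat_lit 2386047378) (nat_lit 84) (nat_lit 62076715301) (nat_lit 3) (nat_lit 5) (nat_lit 5) (nat_lit 5) (nat_lit 4) (nat_lit 4) (nat_lit 420) (nat_lit 286) (nat_lit 182)) (XT.nd (nat_lit 94) (nat_lit 0) (nat_lit 0) (XT.lf (nat_lit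 0) (nat_lit 1114195745) (nat_lit 84) (nat_lit 15617205478) (nat_lit 168) (nat_lit 65099946328) (nat_lit 2) (nat_lit 5) (nat_lit 3) (nat_lit 5) (nat_lit 4) (nat_lit 4) (nat_lit 421) (nat_lit 286) (nat_lit 181)) (XT.lf (nat_lit 0) (nat_lit 4765263512) (nat_lit 84) (nat_lit 13784365115) (nat_lit 168) (nat_lit 65736757421) (nat_lit 2) (nat_lit 5) (nat_lit 3) (nat_lit 5) (nat_lit 4) (nat_lit 4) (nat_lit 422) (nat_lit 286) (nat_lit 180)))) (XT.nd (nat_lit 94) (nat_lit 0) (nat_lit 0) (XT.lf (nat_lit 0) (nat_lit 8521497071) (nat_lit 84) (nat_lit 11897521143) (nat_lit 168) (nat_lit 66398694973) (nat_lit 2) (nat_lit 5) (nat_lit 3) (nat_lit 5) (nat_lit 4) (nat_lit 4) (nat_lit 423) (nat_lit 286) (nat_lit 179)) (XT.nd (nat_lit 94) (nat_lit 0) (nat_lit 0) (XT.lf (nat_lit 0) (nat_lit 12386397625) (nat_lit 84) (nat_lit 9954914827) (nat_lit 168) (nat_lit 67086375979) (nat_lit 2) (nat_lit 5) (nat_lit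 3) (nat_lit 5) (nat_lit 4) (nat_lit 4) (nat_lit 424) (nat_lit 286) (nat_lit 178)) (XT.lf (nat_lit 0) (nat_lit 16363567667) (nat_lit 84) (nat_lit 7954735452) (nat_lit 168) (nat_lit 67800441431) (nat_lit 2) (nat_lit 5) (nat_lit 3) (nat_lit 5) (nat_lit 4) (nat_lit 4) (nat_lit 425) (nat_lit 286) (nat_lit 177))))) (XT.nd (nat_lit 45214) (nat_lit 0) (nat_lit 9156) (XT.nd (nat_lit 94) (nat_lit 0) (nat_lit 0) (XT.lf (nat_lit 0) (nat_lit 20456714336) (nat_lit 84) (nat_lit 5895118644) (nat_lit 168) (nat_lit 68541556912) (nat_lit 2) (nat_lit 5) (nat_lit 3) (nat_lit 5) (nat_lit 4) (nat_lit 4) (nat_lit 426) (nat_lit 286) (nat_lit 176)) (XT.nd (nat_lit 94) (nat_lit 0) (nat_lit 0) (XT.lf (nat_lit 0) (nat_lit 24669652873) (nat_lit 84) (nat_lit 3774144623) (nat_lit 168) (nat_lit 69310413220) (nat_lit 2) (nat_lit 5) (nat_lit 3) (nat_lit 5) (nat_lit 4) (nat_lit 4) (nat_lit 427) (nat_lit 286) (nat_lit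 175)) (XT.lf (nat_lit 0) (nat_lit 29006310178) (nat_lit 84) (nat_lit 1589836419) (nat_lit 168) (nat_lit 70107727009) (nat_lit 2) (nat_lit 5) (nat_lit 3) (nat_lit 5) (nat_lit 4) (nat_lit 4) (nat_lit 428) (nat_lit 286) (nat_lit 174)))) (XT.nd (nat_lit 188) (nat_lit 672) (nat_lit 0) (XT.nd (nat_lit 94) (nat_lit 84) (nat_lit 0) (XT.lf (nat_lit 0) (nat_lit 1329435441) (nat_lit 588) (nat_lit 1059813040) (nat_lit 588) (nat_lit 1059813040) (nat_lit 120) (nat_lit 4) (nat_lit 127) (nat_lit 5) (nat_lit 127) (nat_lit 4) (nat_lit 314) (nat_lit 287) (nat_lit 287)) (XT.lf (nat_lit 0) (nat_lit 207036678) (nat_lit 672) (nat_lit 1111303789) (nat_lit 84) (nat_lit 5635085588) (nat_lit 119) (nat_lit 5) (nat_lit 127) (nat_lit 5) (nat_lit 120) (nat_lit 4) (nat_lit 315) (nat_lit 287) (nat_lit 286))) (XT.nd (nat_lit 94) (nat_lit 0) (nat_lit 0) (XT.lf (nat_lit 0) (nat_lit 2069366010) (nat_lit 672) (nat_lit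 435261619) (nat_lit 756) (nat_lit 4507692364) (nat_lit 111) (nat_lit 5) (nat_lit 119) (nat_lit 5) (nat_lit 120) (nat_lit 4) (nat_lit 316) (nat_lit 287) (nat_lit 285)) (XT.lf (nat_lit 0) (nat_lit 4814007167) (nat_lit 756) (nat_lit 1772157351) (nat_lit 0) (nat_lit 489470666) (nat_lit 111) (nat_lit 5) (nat_lit 120) (nat_lit 4) (nat_lit 111) (nat_lit 4) (nat_lit 317) (nat_lit 287) (nat_lit 284))))))) (XT.nd (nat_lit 1222) (nat_lit 2016) (nat_lit 0) (XT.nd (nat_lit 564) (nat_lit 1764) (nat_lit 0) (XT.nd (nat_lit 282) (nat_lit 1008) (nat_lit 0) (XT.nd (nat_lit 94) (nat_lit 924) (nat_lit 0) (XT.lf (nat_lit 0) (nat_lit 1457007148) (nat_lit 756) (nat_lit 5683287863) (nat_lit 756) (nat_lit 3043649) (nat_lit 102) (nat_lit 4) (nat_lit 111) (nat_lit 5) (nat_lit 111) (nat_lit 4) (nat_lit 318) (nat_lit 287) (nat_lit 283)) (XT.nd (nat_lit 94) (nat_lit 840) (nat_lit 0) (XT.lf (nat_lit 0) (nat_lit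 2223946447) (nat_lit 840) (nat_lit 2478353415) (nat_lit 84) (nat_lit 2512510443) (nat_lit 101) (nat_lit 5) (nat_lit 111) (nat_lit 5) (nat_lit 102) (nat_lit 4) (nat_lit 319) (nat_lit 287) (nat_lit 282)) (XT.lf (nat_lit 0) (nat_lit 780388156) (nat_lit 840) (nat_lit 3676029189) (nat_lit 924) (nat_lit 2834713971) (nat_lit 91) (nat_lit 5) (nat_lit 101) (nat_lit 5) (nat_lit 102) (nat_lit 4) (nat_lit 320) (nat_lit 287) (nat_lit 281)))) (XT.nd (nat_lit 94) (nat_lit 1008) (nat_lit 0) (XT.lf (nat_lit 0) (nat_lit 4128966454) (nat_lit 840) (nat_lit 2585272813) (nat_lit 924) (nat_lit 657584937) (nat_lit 91) (nat_lit 5) (nat_lit 101) (nat_lit 5) (nat_lit 102) (nat_lit 4) (nat_lit 321) (nat_lit 287) (nat_lit 280)) (XT.nd (nat_lit 94) (nat_lit 0) (nat_lit 0) (XT.lf (nat_lit 0) (nat_lit 47716357) (nat_lit 924) (nat_lit 1438882829) (nat_lit 1008) (nat_lit 5970661730) (nat_lit 79) (nat_lit 5) (nat_lit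 90) (nat_lit 5) (nat_lit 91) (nat_lit 5) (nat_lit 322) (nat_lit 287) (nat_lit 279)) (XT.lf (nat_lit 0) (nat_lit 3438994017) (nat_lit 924) (nat_lit 210891942) (nat_lit 1008) (nat_lit 3896886474) (nat_lit 79) (nat_lit 5) (nat_lit 90) (nat_lit 5) (nat_lit 91) (nat_lit 5) (nat_lit 323) (nat_lit 287) (nat_lit 278))))) (XT.nd (nat_lit 282) (nat_lit 1008) (nat_lit 0) (XT.nd (nat_lit 94) (nat_lit 756) (nat_lit 0) (XT.lf (nat_lit 0) (nat_lit 5825284450) (nat_lit 1008) (nat_lit 778054989) (nat_lit 84) (nat_lit 1037994919) (nat_lit 79) (nat_lit 5) (nat_lit 91) (nat_lit 5) (nat_lit 80) (nat_lit 4) (nat_lit 324) (nat_lit 287) (nat_lit 277)) (XT.nd (nat_lit 94) (nat_lit 0) (nat_lit 0) (XT.lf (nat_lit 0) (nat_lit 286690839) (nat_lit 756) (nat_lit 5099376377) (nat_lit 84) (nat_lit 2354312414) (nat_lit 70) (nat_lit 5) (nat_lit 79) (nat_lit 5) (nat_lit 71) (nat_lit 5) (nat_lit 325) (nat_lit 287) (nat_lit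 276)) (XT.lf (nat_lit 0) (nat_lit 2361782591) (nat_lit 756) (nat_lit 1741557837) (nat_lit 84) (nat_lit 3740809531) (nat_lit 70) (nat_lit 5) (nat_lit 79) (nat_lit 5) (nat_lit 71) (nat_lit 5) (nat_lit 326) (nat_lit 287) (nat_lit 275)))) (XT.nd (nat_lit 188) (nat_lit 504) (nat_lit 0) (XT.nd (nat_lit 94) (nat_lit 0) (nat_lit 0) (XT.lf (nat_lit 0) (nat_lit 1693162978) (nat_lit 504) (nat_lit 2763424646) (nat_lit 588) (nat_lit 3496438927) (nat_lit 64) (nat_lit 5) (nat_lit 70) (nat_lit 5) (nat_lit 71) (nat_lit 5) (nat_lit 327) (nat_lit 287) (nat_lit 274)) (XT.lf (nat_lit 0) (nat_lit 5210597333) (nat_lit 504) (nat_lit 1363746136) (nat_lit 588) (nat_lit 1492727583) (nat_lit 64) (nat_lit 5) (nat_lit 70) (nat_lit 5) (nat_lit 71) (nat_lit 5) (nat_lit 328) (nat_lit 287) (nat_lit 273))) (XT.nd (nat_lit 94) (nat_lit 0) (nat_lit 0) (XT.lf (nat_lit 0) (nat_lit 508960487) (nat_lit 504) (nat_lit 7589242179)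 (nat_lit 84) (nat_lit 88364383) (nat_lit 58) (nat_lit 5) (nat_lit 64) (nat_lit 5) (nat_lit 59) (nat_lit 5) (nat_lit 329) (nat_lit 287) (nat_lit 272)) (XT.lf (nat_lit 0) (nat_lit 2527516346) (nat_lit 504) (nat_lit 4181781682) (nat_lit 84) (nat_lit 1600883729) (nat_lit 58) (nat_lit 5) (nat_lit 64) (nat_lit 5) (nat_lit 59) (nat_lit 5) (nat_lit 330) (nat_lit 287) (nat_lit 271)))))) (XT.nd (nat_lit 564) (nat_lit 1176) (nat_lit 0) (XT.nd (nat_lit 282) (nat_lit 420) (nat_lit 0) (XT.nd (nat_lit 94) (nat_lit 420) (nat_lit 0) (XT.lf (nat_lit 0) (nat_lit 4552153093) (nat_lit 504) (nat_lit 728986277) (nat_lit 84) (nat_lit 3158675124) (nat_lit 58) (nat_lit 5) (nat_lit 64) (nat_lit 5) (nat_lit 59) (nat_lit 5) (nat_lit 331) (nat_lit 287) (nat_lit 270)) (XT.nd (nat_lit 94) (nat_lit 0) (nat_lit 0) (XT.lf (nat_lit 0) (nat_lit 2829367858) (nat_lit 420) (nat_lit 3783457724) (nat_lit 504) (nat_lit 1961890413)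 (nat_lit 53) (nat_lit 5) (nat_lit 58) (nat_lit 5) (nat_lit 59) (nat_lit 5) (nat_lit 332) (nat_lit 287) (nat_lit 269)) (XT.lf (nat_lit 0) (nat_lit 6455593808) (nat_lit 420) (nat_lit 2235671860) (nat_lit 504) (nat_lit 24372192) (nat_lit 53) (nat_lit 5) (nat_lit 58) (nat_lit 5) (nat_lit 59) (nat_lit 5) (nat_lit 333) (nat_lit 287) (nat_lit 268)))) (XT.nd (nat_lit 94) (nat_lit 0) (nat_lit 0) (XT.lf (nat_lit 0) (nat_lit 1281932377) (nat_lit 336) (nat_lit 611209269) (nat_lit 420) (nat_lit 6968814192) (nat_lit 48) (nat_lit 5) (nat_lit 52) (nat_lit 5) (nat_lit 53) (nat_lit 5) (nat_lit 334) (nat_lit 287) (nat_lit 267)) (XT.nd (nat_lit 94) (nat_lit 0) (nat_lit 0) (XT.lf (nat_lit 0) (nat_lit 3851924770) (nat_lit 420) (nat_lit 4100475631) (nat_lit 84) (nat_lit 1061322354) (nat_lit 48) (nat_lit 5) (nat_lit 53) (nat_lit 5) (nat_lit 49) (nat_lit 5) (nat_lit 335) (nat_lit 287) (nat_lit 266)) (XT.lf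 (nat_lit 0) (nat_lit 5827196403) (nat_lit 420) (nat_lit 576517100) (nat_lit 84) (nat_lit 2768214089) (nat_lit 48) (nat_lit 5) (nat_lit 53) (nat_lit 5) (nat_lit 49) (nat_lit 5) (nat_lit 336) (nat_lit 287) (nat_lit 265))))) (XT.nd (nat_lit 282) (nat_lit 336) (nat_lit 0) (XT.nd (nat_lit 94) (nat_lit 420) (nat_lit 0) (XT.lf (nat_lit 0) (nat_lit 3062910932) (nat_lit 420) (nat_lit 4782207957) (nat_lit 504) (nat_lit 1490844966) (nat_lit 43) (nat_lit 5) (nat_lit 48) (nat_lit 5) (nat_lit 49) (nat_lit 5) (nat_lit 337) (nat_lit 287) (nat_lit 264)) (XT.nd (nat_lit 94) (nat_lit 336) (nat_lit 0) (XT.lf (nat_lit 0) (nat_lit 369254099) (nat_lit 504) (nat_lit 2738005975) (nat_lit 84) (nat_lit 6399352421) (nat_lit 42) (nat_lit 5) (nat_lit 48) (nat_lit 5) (nat_lit 43) (nat_lit 5) (nat_lit 338) (nat_lit 287) (nat_lit 263)) (XT.lf (nat_lit 0) (nat_lit 854020441) (nat_lit 336) (nat_lit 1363104219) (nat_lit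 420) (nat_lit 7466480817) (nat_lit 38) (nat_lit 5) (nat_lit 42) (nat_lit 5) (nat_lit 43) (nat_lit 5) (nat_lit 339) (nat_lit 287) (nat_lit 262)))) (XT.nd (nat_lit 188) (nat_lit 336) (nat_lit 0) (XT.nd (nat_lit 94) (nat_lit 0) (nat_lit 0) (XT.lf (nat_lit 0) (nat_lit 4108886696) (nat_lit 420) (nat_lit 5310055274) (nat_lit 84) (nat_lit 447869104) (nat_lit 38) (nat_lit 5) (nat_lit 43) (nat_lit 5) (nat_lit 39) (nat_lit 5) (nat_lit 340) (nat_lit 287) (nat_lit 261)) (XT.lf (nat_lit 0) (nat_lit 6028054855) (nat_lit 420) (nat_lit 1749378128) (nat_lit 84) (nat_lit 2279532782) (nat_lit 38) (nat_lit 5) (nat_lit 43) (nat_lit 5) (nat_lit 39) (nat_lit 5) (nat_lit 341) (nat_lit 287) (nat_lit 260))) (XT.nd (nat_lit 94) (nat_lit 0) (nat_lit 0) (XT.lf (nat_lit 0) (nat_lit 1907723873) (nat_lit 336) (nat_lit 6074096823) (nat_lit 420) (nat_lit 2272258612) (nat_lit 34) (nat_lit 5) (nat_lit 38) (nat_lit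 5) (nat_lit 39) (nat_lit 5) (nat_lit 342) (nat_lit 287) (nat_lit 259)) (XT.lf (nat_lit 0) (nat_lit 5663419841) (nat_lit 336) (nat_lit 4307975108) (nat_lit 420) (nat_lit 486959408) (nat_lit 34) (nat_lit 5) (nat_lit 38) (nat_lit 5) (nat_lit 39) (nat_lit 5) (nat_lit 343) (nat_lit 287) (nat_lit 258))))))))
noncomputable def xc64 : XT := (XT.nd (nat_lit 2350) (nat_lit 588) (nat_lit 0) (XT.nd (nat_lit 1128) (nat_lit 672) (nat_lit 0) (XT.nd (nat_lit 564) (nat_lit 588) (nat_lit 0) (XT.nd (nat_lit 282) (nat_lit 252) (nat_lit 0) (XT.nd (nat_lit 94) (nat_lit 252) (nat_lit 0) (XT.lf (nat_lit 0) (nat_lit 1283989412) (nat_lit 420) (nat_lit 1198289920) (nat_lit 84) (nat_lit 8187848046) (nat_lit 33) (nat_lit 5) (nat_lit 38) (nat_lit 5) (nat_lit 34) (nat_lit 5) (nat_lit 344) (nat_lit 287) (nat_lit 257)) (XT.nd (nat_lit 94) (nat_lit 0) (nat_lit 0) (XT.lf (nat_lit 0) (nat_lit 2505454621) (nat_lit 252)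 (nat_lit 577976720) (nat_lit 336) (nat_lit 7805643317) (nat_lit 30) (nat_lit 5) (nat_lit 33) (nat_lit 5) (nat_lit 34) (nat_lit 5) (nat_lit 345) (nat_lit 287) (nat_lit 256)) (XT.lf (nat_lit 0) (nat_lit 4924547093) (nat_lit 336) (nat_lit 4829677877) (nat_lit 84) (nat_lit 1361272598) (nat_lit 30) (nat_lit 5) (nat_lit 34) (nat_lit 5) (nat_lit 31) (nat_lit 5) (nat_lit 346) (nat_lit 287) (nat_lit 255)))) (XT.nd (nat_lit 94) (nat_lit 252) (nat_lit 0) (XT.lf (nat_lit 0) (nat_lit 6789378722) (nat_lit 336) (nat_lit 1220751099) (nat_lit 84) (nat_lit 3340087235) (nat_lit 30) (nat_lit 5) (nat_lit 34) (nat_lit 5) (nat_lit 31) (nat_lit 5) (nat_lit 347) (nat_lit 287) (nat_lit 254)) (XT.nd (nat_lit 94) (nat_lit 0) (nat_lit 0) (XT.lf (nat_lit 0) (nat_lit 2502681242) (nat_lit 252) (nat_lit 6196076509) (nat_lit 336) (nat_lit 2894102260) (nat_lit 27) (nat_lit 5) (nat_lit 30) (nat_lit 5) (nat_lit 31)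 (nat_lit 5) (nat_lit 348) (nat_lit 287) (nat_lit 253)) (XT.lf (nat_lit 0) (nat_lit 6320108531) (nat_lit 252) (nat_lit 4322547787) (nat_lit 336) (nat_lit 1201362320) (nat_lit 27) (nat_lit 5) (nat_lit 30) (nat_lit 5) (nat_lit 31) (nat_lit 5) (nat_lit 349) (nat_lit 287) (nat_lit 252))))) (XT.nd (nat_lit 282) (nat_lit 252) (nat_lit 0) (XT.nd (nat_lit 94) (nat_lit 252) (nat_lit 0) (XT.lf (nat_lit 0) (nat_lit 496018011) (nat_lit 336) (nat_lit 1899344046) (nat_lit 84) (nat_lit 9708792441) (nat_lit 26) (nat_lit 5) (nat_lit 30) (nat_lit 5) (nat_lit 27) (nat_lit 5) (nat_lit 350) (nat_lit 287) (nat_lit 251)) (XT.nd (nat_lit 94) (nat_lit 0) (nat_lit 0) (XT.lf (nat_lit 0) (nat_lit 1816440879) (nat_lit 252) (nat_lit 386872138) (nat_lit 336) (nat_lit 10169419768) (nat_lit 23) (nat_lit 5) (nat_lit 26) (nat_lit 5) (nat_lit 27) (nat_lit 5) (nat_lit 351) (nat_lit 287) (nat_lit 250)) (XT.lf (nat_lit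 0) (nat_lit 3965029586) (nat_lit 336) (nat_lit 7024436077) (nat_lit 84) (nat_lit 1660327594) (nat_lit 23) (nat_lit 5) (nat_lit 27) (nat_lit 5) (nat_lit 24) (nat_lit 5) (nat_lit 352) (nat_lit 287) (nat_lit 249)))) (XT.nd (nat_lit 94) (nat_lit 252) (nat_lit 0) (XT.lf (nat_lit 0) (nat_lit 5751138744) (nat_lit 336) (nat_lit 3431847590) (nat_lit 84) (nat_lit 3753589632) (nat_lit 23) (nat_lit 5) (nat_lit 27) (nat_lit 5) (nat_lit 24) (nat_lit 5) (nat_lit 353) (nat_lit 287) (nat_lit 248)) (XT.nd (nat_lit 94) (nat_lit 0) (nat_lit 0) (XT.lf (nat_lit 0) (nat_lit 233361762) (nat_lit 252) (nat_lit 7328420730) (nat_lit 336) (nat_lit 5671612941) (nat_lit 20) (nat_lit 5) (nat_lit 23) (nat_lit 5) (nat_lit 24) (nat_lit 5) (nat_lit 354) (nat_lit 287) (nat_lit 247)) (XT.lf (nat_lit 0) (nat_lit 4041934776) (nat_lit 252) (nat_lit 5389863165) (nat_lit 336) (nat_lit 4107702749) (nat_lit 20) (nat_lit 5)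 (nat_lit 23) (nat_lit 5) (nat_lit 24) (nat_lit 5) (nat_lit 355) (nat_lit 287) (nat_lit 246)))))) (XT.nd (nat_lit 564) (nat_lit 420) (nat_lit 0) (XT.nd (nat_lit 282) (nat_lit 0) (nat_lit 0) (XT.nd (nat_lit 94) (nat_lit 252) (nat_lit 0) (XT.lf (nat_lit 0) (nat_lit 7926855617) (nat_lit 252) (nat_lit 3401328152) (nat_lit 336) (nat_lit 2528070369) (nat_lit 20) (nat_lit 5) (nat_lit 23) (nat_lit 5) (nat_lit 24) (nat_lit 5) (nat_lit 356) (nat_lit 287) (nat_lit 245)) (XT.nd (nat_lit 94) (nat_lit 252) (nat_lit 0) (XT.lf (nat_lit 0) (nat_lit 11891745437) (nat_lit 252) (nat_lit 1360962168) (nat_lit 336) (nat_lit 931243419) (nat_lit 20) (nat_lit 5) (nat_lit 23) (nat_lit 5) (nat_lit 24) (nat_lit 5) (nat_lit 357) (nat_lit 287) (nat_lit 244)) (XT.lf (nat_lit 0) (nat_lit 692249571) (nat_lit 252) (nat_lit 13090111682) (nat_lit 84) (nat_lit 739650260) (nat_lit 17) (nat_lit 5) (nat_lit 20) (nat_lit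 5) (nat_lit 18) (nat_lit 5) (nat_lit 358) (nat_lit 287) (nat_lit 243)))) (XT.nd (nat_lit 94) (nat_lit 0) (nat_lit 0) (XT.lf (nat_lit 0) (nat_lit 2355035320) (nat_lit 252) (nat_lit 9614059101) (nat_lit 84) (nat_lit 2901063341) (nat_lit 17) (nat_lit 5) (nat_lit 20) (nat_lit 5) (nat_lit 18) (nat_lit 5) (nat_lit 359) (nat_lit 287) (nat_lit 242)) (XT.nd (nat_lit 94) (nat_lit 0) (nat_lit 0) (XT.lf (nat_lit 0) (nat_lit 4040481412) (nat_lit 252) (nat_lit 6069634367) (nat_lit 84) (nat_lit 5120030171) (nat_lit 17) (nat_lit 5) (nat_lit 20) (nat_lit 5) (nat_lit 18) (nat_lit 5) (nat_lit 360) (nat_lit 287) (nat_lit 241)) (XT.lf (nat_lit 0) (nat_lit 5750158859) (nat_lit 252) (nat_lit 2453533703) (nat_lit 84) (nat_lit 7398619060) (nat_lit 17) (nat_lit 5) (nat_lit 20) (nat_lit 5) (nat_lit 18) (nat_lit 5) (nat_lit 361) (nat_lit 287) (nat_lit 240))))) (XT.nd (nat_lit 282) (nat_lit 252) (nat_lit 0)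 (XT.nd (nat_lit 94) (nat_lit 0) (nat_lit 0) (XT.lf (nat_lit 0) (nat_lit 1263061344) (nat_lit 168) (nat_lit 6235129640) (nat_lit 252) (nat_lit 8488422270) (nat_lit 15) (nat_lit 5) (nat_lit 17) (nat_lit 5) (nat_lit 18) (nat_lit 5) (nat_lit 362) (nat_lit 287) (nat_lit 239)) (XT.nd (nat_lit 94) (nat_lit 0) (nat_lit 0) (XT.lf (nat_lit 0) (nat_lit 5110206983) (nat_lit 168) (nat_lit 4189093188) (nat_lit 252) (nat_lit 7083703002) (nat_lit 15) (nat_lit 5) (nat_lit 17) (nat_lit 5) (nat_lit 18) (nat_lit 5) (nat_lit 363) (nat_lit 287) (nat_lit 238)) (XT.lf (nat_lit 0) (nat_lit 9041039468) (nat_lit 168) (nat_lit 2089285947) (nat_lit 252) (nat_lit 5662295474) (nat_lit 15) (nat_lit 5) (nat_lit 17) (nat_lit 5) (nat_lit 18) (nat_lit 5) (nat_lit 364) (nat_lit 287) (nat_lit 237)))) (XT.nd (nat_lit 188) (nat_lit 252) (nat_lit 0) (XT.nd (nat_lit 94) (nat_lit 0) (nat_lit 0) (XT.lf (nat_lit 0) (nat_lit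 12993630625) (nat_lit 252) (nat_lit 4157282662) (nat_lit 84) (nat_lit 64914548) (nat_lit 15) (nat_lit 5) (nat_lit 18) (nat_lit 5) (nat_lit 16) (nat_lit 4) (nat_lit 365) (nat_lit 287) (nat_lit 236)) (XT.lf (nat_lit 0) (nat_lit 14911593519) (nat_lit 252) (nat_lit 507190573) (nat_lit 84) (nat_lit 2233594527) (nat_lit 15) (nat_lit 5) (nat_lit 18) (nat_lit 5) (nat_lit 16) (nat_lit 4) (nat_lit 366) (nat_lit 287) (nat_lit 235))) (XT.nd (nat_lit 94) (nat_lit 84) (nat_lit 0) (XT.lf (nat_lit 0) (nat_lit 3289090943) (nat_lit 168) (nat_lit 13608813108) (nat_lit 252) (nat_lit 1204407127) (nat_lit 13) (nat_lit 5) (nat_lit 15) (nat_lit 5) (nat_lit 16) (nat_lit 4) (nat_lit 367) (nat_lit 287) (nat_lit 234)) (XT.lf (nat_lit 0) (nat_lit 353591720) (nat_lit 252) (nat_lit 11389537245) (nat_lit 84) (nat_lit 6823632024) (nat_lit 12) (nat_lit 5) (nat_lit 15) (nat_lit 5) (nat_lit 13) (nat_lit 5) (nat_lit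 368) (nat_lit 287) (nat_lit 233))))))) (XT.nd (nat_lit 1222) (nat_lit 336) (nat_lit 0) (XT.nd (nat_lit 564) (nat_lit 84) (nat_lit 0) (XT.nd (nat_lit 282) (nat_lit 168) (nat_lit 0) (XT.nd (nat_lit 94) (nat_lit 0) (nat_lit 0) (XT.lf (nat_lit 0) (nat_lit 1911876027) (nat_lit 252) (nat_lit 7904530343) (nat_lit 84) (nat_lit 9229646763) (nat_lit 12) (nat_lit 5) (nat_lit 15) (nat_lit 5) (nat_lit 13) (nat_lit 5) (nat_lit 369) (nat_lit 287) (nat_lit 232)) (XT.nd (nat_lit 94) (nat_lit 0) (nat_lit 0) (XT.lf (nat_lit 0) (nat_lit 3496164399) (nat_lit 252) (nat_lit 4343003270) (nat_lit 84) (nat_lit 11701837078) (nat_lit 12) (nat_lit 5) (nat_lit 15) (nat_lit 5) (nat_lit 13) (nat_lit 5) (nat_lit 370) (nat_lit 287) (nat_lit 231)) (XT.lf (nat_lit 0) (nat_lit 5107933558) (nat_lit 252) (nat_lit 701636310) (nat_lit 84) (nat_lit 14242507308) (nat_lit 12) (nat_lit 5) (nat_lit 15) (nat_lit 5) (nat_lit 13)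 (nat_lit 5) (nat_lit 371) (nat_lit 287) (nat_lit 230)))) (XT.nd (nat_lit 94) (nat_lit 0) (nat_lit 0) (XT.lf (nat_lit 0) (nat_lit 3085123025) (nat_lit 168) (nat_lit 3694167618) (nat_lit 252) (nat_lit 13799507401) (nat_lit 10) (nat_lit 5) (nat_lit 12) (nat_lit 5) (nat_lit 13) (nat_lit 5) (nat_lit 372) (nat_lit 287) (nat_lit 229)) (XT.nd (nat_lit 94) (nat_lit 0) (nat_lit 0) (XT.lf (nat_lit 0) (nat_lit 6974798032) (nat_lit 168) (nat_lit 1514343430) (nat_lit 252) (nat_lit 12633219065) (nat_lit 10) (nat_lit 5) (nat_lit 12) (nat_lit 5) (nat_lit 13) (nat_lit 5) (nat_lit 373) (nat_lit 287) (nat_lit 228)) (XT.lf (nat_lit 0) (nat_lit 10239164566) (nat_lit 252) (nat_lit 10734092504) (nat_lit 84) (nat_lit 710011580) (nat_lit 10) (nat_lit 5) (nat_lit 13) (nat_lit 5) (nat_lit 11) (nat_lit 4) (nat_lit 374) (nat_lit 287) (nat_lit 227))))) (XT.nd (nat_lit 282) (nat_lit 84) (nat_lit 0) (XT.nd (nat_lit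 94) (nat_lit 0) (nat_lit 0) (XT.lf (nat_lit 0) (nat_lit 12039425986) (nat_lit 252) (nat_lit 7258518160) (nat_lit 84) (nat_lit 2963839616) (nat_lit 10) (nat_lit 5) (nat_lit 13) (nat_lit 5) (nat_lit 11) (nat_lit 4) (nat_lit 375) (nat_lit 287) (nat_lit 226)) (XT.nd (nat_lit 94) (nat_lit 0) (nat_lit 0) (XT.lf (nat_lit 0) (nat_lit 13876581278) (nat_lit 252) (nat_lit 3702577388) (nat_lit 84) (nat_lit 5279752127) (nat_lit 10) (nat_lit 5) (nat_lit 13) (nat_lit 5) (nat_lit 11) (nat_lit 4) (nat_lit 376) (nat_lit 287) (nat_lit 225)) (XT.lf (nat_lit 0) (nat_lit 15752342864) (nat_lit 252) (nat_lit 62955681) (nat_lit 84) (nat_lit 7659907785) (nat_lit 10) (nat_lit 5) (nat_lit 13) (nat_lit 5) (nat_lit 11) (nat_lit 4) (nat_lit 377) (nat_lit 287) (nat_lit 224)))) (XT.nd (nat_lit 188) (nat_lit 0) (nat_lit 0) (XT.nd (nat_lit 94) (nat_lit 0) (nat_lit 0) (XT.lf (nat_lit 0) (nat_lit 3739073468) (nat_lit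 84) (nat_lit 13966477755) (nat_lit 168) (nat_lit 6404543748) (nat_lit 9) (nat_lit 5) (nat_lit 10) (nat_lit 5) (nat_lit 11) (nat_lit 4) (nat_lit 378) (nat_lit 287) (nat_lit 223)) (XT.lf (nat_lit 0) (nat_lit 7634806065) (nat_lit 84) (nat_lit 12067648316) (nat_lit 168) (nat_lit 5062816865) (nat_lit 9) (nat_lit 5) (nat_lit 10) (nat_lit 5) (nat_lit 11) (nat_lit 4) (nat_lit 379) (nat_lit 287) (nat_lit 222))) (XT.nd (nat_lit 94) (nat_lit 0) (nat_lit 0) (XT.lf (nat_lit 0) (nat_lit 11626578843) (nat_lit 84) (nat_lit 10117697450) (nat_lit 168) (nat_lit 3697089317) (nat_lit 9) (nat_lit 5) (nat_lit 10) (nat_lit 5) (nat_lit 11) (nat_lit 4) (nat_lit 380) (nat_lit 287) (nat_lit 221)) (XT.lf (nat_lit 0) (nat_lit 15718112551) (nat_lit 84) (nat_lit 8114807598) (nat_lit 168) (nat_lit 2306088102) (nat_lit 9) (nat_lit 5) (nat_lit 10) (nat_lit 5) (nat_lit 11) (nat_lit 4) (nat_lit 381) (nat_lit 287) (nat_lit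 220)))))) (XT.nd (nat_lit 564) (nat_lit 84) (nat_lit 0) (XT.nd (nat_lit 282) (nat_lit 0) (nat_lit 0) (XT.nd (nat_lit 94) (nat_lit 252) (nat_lit 0) (XT.lf (nat_lit 0) (nat_lit 19913220928) (nat_lit 84) (nat_lit 6057111857) (nat_lit 168) (nat_lit 888516661) (nat_lit 9) (nat_lit 5) (nat_lit 10) (nat_lit 5) (nat_lit 11) (nat_lit 4) (nat_lit 382) (nat_lit 287) (nat_lit 219)) (XT.nd (nat_lit 94) (nat_lit 168) (nat_lit 0) (XT.lf (nat_lit 0) (nat_lit 545725103) (nat_lit 168) (nat_lit 3391270884) (nat_lit 84) (nat_lit 23664392900) (nat_lit 8) (nat_lit 5) (nat_lit 10) (nat_lit 5) (nat_lit 9) (nat_lit 5) (nat_lit 383) (nat_lit 287) (nat_lit 218)) (XT.lf (nat_lit 0) (nat_lit 246890403) (nat_lit 168) (nat_lit 1746273793) (nat_lit 252) (nat_lit 26373967782) (nat_lit 6) (nat_lit 5) (nat_lit 8) (nat_lit 5) (nat_lit 9) (nat_lit 5) (nat_lit 384) (nat_lit 287) (nat_lit 217)))) (XT.nd (nat_lit 94) (nat_lit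 0) (nat_lit 0) (XT.lf (nat_lit 0) (nat_lit 3511230136) (nat_lit 252) (nat_lit 25113738806) (nat_lit 84) (nat_lit 530913228) (nat_lit 6) (nat_lit 5) (nat_lit 9) (nat_lit 5) (nat_lit 7) (nat_lit 4) (nat_lit 385) (nat_lit 287) (nat_lit 216)) (XT.nd (nat_lit 94) (nat_lit 0) (nat_lit 0) (XT.lf (nat_lit 0) (nat_lit 5079583612) (nat_lit 252) (nat_lit 22053724178) (nat_lit 84) (nat_lit 2835741254) (nat_lit 6) (nat_lit 5) (nat_lit 9) (nat_lit 5) (nat_lit 7) (nat_lit 4) (nat_lit 386) (nat_lit 287) (nat_lit 215)) (XT.lf (nat_lit 0) (nat_lit 6682363242) (nat_lit 252) (nat_lit 18920022187) (nat_lit 84) (nat_lit 5205542151) (nat_lit 6) (nat_lit 5) (nat_lit 9) (nat_lit 5) (nat_lit 7) (nat_lit 4) (nat_lit 387) (nat_lit 287) (nat_lit 214))))) (XT.nd (nat_lit 282) (nat_lit 84) (nat_lit 0) (XT.nd (nat_lit 94) (nat_lit 0) (nat_lit 0) (XT.lf (nat_lit 0) (nat_lit 8321062983) (nat_lit 252) (nat_lit 15709711893)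 (nat_lit 84) (nat_lit 7642524821) (nat_lit 6) (nat_lit 5) (nat_lit 9) (nat_lit 5) (nat_lit 7) (nat_lit 4) (nat_lit 388) (nat_lit 287) (nat_lit 213)) (XT.nd (nat_lit 94) (nat_lit 0) (nat_lit 0) (XT.lf (nat_lit 0) (nat_lit 9997210276) (nat_lit 252) (nat_lit 12419800952) (nat_lit 84) (nat_lit 10148960789) (nat_lit 6) (nat_lit 5) (nat_lit 9) (nat_lit 5) (nat_lit 7) (nat_lit 4) (nat_lit 389) (nat_lit 287) (nat_lit 212)) (XT.lf (nat_lit 0) (nat_lit 11712367465) (nat_lit 252) (nat_lit 9047222820) (nat_lit 84) (nat_lit 12727186314) (nat_lit 6) (nat_lit 5) (nat_lit 9) (nat_lit 5) (nat_lit 7) (nat_lit 4) (nat_lit 390) (nat_lit 287) (nat_lit 211)))) (XT.nd (nat_lit 188) (nat_lit 84) (nat_lit 0) (XT.nd (nat_lit 94) (nat_lit 0) (nat_lit 0) (XT.lf (nat_lit 0) (nat_lit 13468133258) (nat_lit 252) (nat_lit 5588833903) (nat_lit 84) (nat_lit 15379604573) (nat_lit 6) (nat_lit 5) (nat_lit 9) (nat_lit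 5) (nat_lit 7) (nat_lit 4) (nat_lit 391) (nat_lit 287) (nat_lit 210)) (XT.lf (nat_lit 0) (nat_lit 15266144210) (nat_lit 252) (nat_lit 2041410619) (nat_lit 84) (nat_lit 18108687897) (nat_lit 6) (nat_lit 5) (nat_lit 9) (nat_lit 5) (nat_lit 7) (nat_lit 4) (nat_lit 392) (nat_lit 287) (nat_lit 209))) (XT.nd (nat_lit 94) (nat_lit 0) (nat_lit 0) (XT.lf (nat_lit 0) (nat_lit 1631219029) (nat_lit 84) (nat_lit 15493039123) (nat_lit 168) (nat_lit 19301942944) (nat_lit 5) (nat_lit 5) (nat_lit 6) (nat_lit 5) (nat_lit 7) (nat_lit 4) (nat_lit 393) (nat_lit 287) (nat_lit 208)) (XT.lf (nat_lit 0) (nat_lit 5443526324) (nat_lit 84) (nat_lit 13606120405) (nat_lit 168) (nat_lit 18417572871) (nat_lit 5) (nat_lit 5) (nat_lit 6) (nat_lit 5) (nat_lit 7) (nat_lit 4) (nat_lit 394) (nat_lit 287) (nat_lit 207))))))))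
noncomputable def xc65 : XT := (XT.nd (nat_lit 2350) (nat_lit 84) (nat_lit 0) (XT.nd (nat_lit 1128) (nat_lit 84) (nat_lit 0) (XT.nd (nat_lit 564) (nat_lit 84) (nat_lit 0) (XT.nd (nat_lit 282) (nat_lit 0) (nat_lit 0) (XT.nd (nat_lit 94) (nat_lit 0) (nat_lit 0) (XT.lf (nat_lit 0) (nat_lit 9357089146) (nat_lit 84) (nat_lit 11666348009) (nat_lit 168) (nat_lit 17517472111) (nat_lit 5) (nat_lit 5) (nat_lit 6) (nat_lit 5) (nat_lit 7) (nat_lit 4) (nat_lit 395) (nat_lit 287) (nat_lit 206)) (XT.nd (nat_lit 94) (nat_lit 0) (nat_lit 0) (XT.lf (nat_lit 0) (nat_lit 13375555344) (nat_lit 84) (nat_lit 9671913864) (nat_lit 168) (nat_lit 16600801677) (nat_lit 5) (nat_lit 5) (nat_lit 6) (nat_lit 5) (nat_lit 7) (nat_lit 4) (nat_lit 396) (nat_lit 287) (nat_lit 205)) (XT.lf (nat_lit 0) (nat_lit 17502670551) (nat_lit 84) (nat_lit 7620958949) (nat_lit 168) (nat_lit 15666707136) (nat_lit 5) (nat_lit 5) (nat_lit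 6) (nat_lit 5) (nat_lit 7) (nat_lit 4) (nat_lit 397) (nat_lit 287) (nat_lit 204)))) (XT.nd (nat_lit 94) (nat_lit 0) (nat_lit 0) (XT.lf (nat_lit 0) (nat_lit 21742281671) (nat_lit 84) (nat_lit 5511571558) (nat_lit 168) (nat_lit 14714317813) (nat_lit 5) (nat_lit 5) (nat_lit 6) (nat_lit 5) (nat_lit 7) (nat_lit 4) (nat_lit 398) (nat_lit 287) (nat_lit 203)) (XT.nd (nat_lit 94) (nat_lit 0) (nat_lit 0) (XT.lf (nat_lit 0) (nat_lit 26098340464) (nat_lit 84) (nat_lit 3341785523) (nat_lit 168) (nat_lit 13742745982) (nat_lit 5) (nat_lit 5) (nat_lit 6) (nat_lit 5) (nat_lit 7) (nat_lit 4) (nat_lit 399) (nat_lit 287) (nat_lit 202)) (XT.lf (nat_lit 0) (nat_lit 30574907235) (nat_lit 84) (nat_lit 1109578374) (nat_lit 168) (nat_lit 12751086036) (nat_lit 5) (nat_lit 5) (nat_lit 6) (nat_lit 5) (nat_lit 7) (nat_lit 4) (nat_lit 400) (nat_lit 287) (nat_lit 201))))) (XT.nd (nat_lit 282) (nat_lit 84) (nat_lit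 0) (XT.nd (nat_lit 94) (nat_lit 0) (nat_lit 0) (XT.lf (nat_lit 0) (nat_lit 34000800556) (nat_lit 168) (nat_lit 10563059589) (nat_lit 0) (nat_lit 1163212503) (nat_lit 5) (nat_lit 5) (nat_lit 7) (nat_lit 4) (nat_lit 5) (nat_lit 4) (nat_lit 401) (nat_lit 287) (nat_lit 200)) (XT.nd (nat_lit 94) (nat_lit 0) (nat_lit 0) (XT.lf (nat_lit 0) (nat_lit 36391110673) (nat_lit 168) (nat_lit 7188524125) (nat_lit 0) (nat_lit 3478947688) (nat_lit 5) (nat_lit 5) (nat_lit 7) (nat_lit 4) (nat_lit 5) (nat_lit 4) (nat_lit 402) (nat_lit 287) (nat_lit 199)) (XT.lf (nat_lit 0) (nat_lit 38846636825) (nat_lit 168) (nat_lit 3722905443) (nat_lit 0) (nat_lit 5862141219) (nat_lit 5) (nat_lit 5) (nat_lit 7) (nat_lit 4) (nat_lit 5) (nat_lit 4) (nat_lit 403) (nat_lit 287) (nat_lit 198)))) (XT.nd (nat_lit 94) (nat_lit 84) (nat_lit 0) (XT.lf (nat_lit 0) (nat_lit 41369667819) (nat_lit 168) (nat_lit 162973223) (nat_lit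 0) (nat_lit 8315014483) (nat_lit 5) (nat_lit 5) (nat_lit 7) (nat_lit 4) (nat_lit 5) (nat_lit 4) (nat_lit 404) (nat_lit 287) (nat_lit 197)) (XT.nd (nat_lit 94) (nat_lit 0) (nat_lit 0) (XT.lf (nat_lit 0) (nat_lit 3566446717) (nat_lit 84) (nat_lit 40431488261) (nat_lit 84) (nat_lit 7308786689) (nat_lit 4) (nat_lit 4) (nat_lit 5) (nat_lit 5) (nat_lit 5) (nat_lit 4) (nat_lit 405) (nat_lit 287) (nat_lit 196)) (XT.lf (nat_lit 0) (nat_lit 7402336332) (nat_lit 84) (nat_lit 39298812128) (nat_lit 84) (nat_lit 6110108387) (nat_lit 4) (nat_lit 4) (nat_lit 5) (nat_lit 5) (nat_lit 5) (nat_lit 4) (nat_lit 406) (nat_lit 287) (nat_lit 195)))))) (XT.nd (nat_lit 564) (nat_lit 0) (nat_lit 0) (XT.nd (nat_lit 282) (nat_lit 84) (nat_lit 0) (XT.nd (nat_lit 94) (nat_lit 0) (nat_lit 0) (XT.lf (nat_lit 0) (nat_lit 11344920008) (nat_lit 84) (nat_lit 38135257975) (nat_lit 84) (nat_lit 4882536613) (nat_lit 4)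 (nat_lit 4) (nat_lit 5) (nat_lit 5) (nat_lit 5) (nat_lit 4) (nat_lit 407) (nat_lit 287) (nat_lit 194)) (XT.nd (nat_lit 94) (nat_lit 0) (nat_lit 0) (XT.lf (nat_lit 0) (nat_lit 15397872646) (nat_lit 84) (nat_lit 36939741250) (nat_lit 84) (nat_lit 3624927140) (nat_lit 4) (nat_lit 4) (nat_lit 5) (nat_lit 5) (nat_lit 5) (nat_lit 4) (nat_lit 408) (nat_lit 287) (nat_lit 193)) (XT.lf (nat_lit 0) (nat_lit 19564972023) (nat_lit 84) (nat_lit 35711147604) (nat_lit 84) (nat_lit 2336107745) (nat_lit 4) (nat_lit 4) (nat_lit 5) (nat_lit 5) (nat_lit 5) (nat_lit 4) (nat_lit 409) (nat_lit 287) (nat_lit 192)))) (XT.nd (nat_lit 94) (nat_lit 84) (nat_lit 0) (XT.lf (nat_lit 0) (nat_lit 23850102312) (nat_lit 84) (nat_lit 34448331860) (nat_lit 84) (nat_lit 1014877114) (nat_lit 4) (nat_lit 4) (nat_lit 5) (nat_lit 5) (nat_lit 5) (nat_lit 4) (nat_lit 410) (nat_lit 287) (nat_lit 191)) (XT.nd (nat_lit 94) (nat_lit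 0) (nat_lit 0) (XT.lf (nat_lit 0) (nat_lit 333146111) (nat_lit 168) (nat_lit 32813493467) (nat_lit 84) (nat_lit 27920634229) (nat_lit 3) (nat_lit 5) (nat_lit 5) (nat_lit 5) (nat_lit 4) (nat_lit 4) (nat_lit 411) (nat_lit 287) (nat_lit 190)) (XT.lf (nat_lit 0) (nat_lit 1694924200) (nat_lit 168) (nat_lit 30102677043) (nat_lit 84) (nat_lit 31077930394) (nat_lit 3) (nat_lit 5) (nat_lit 5) (nat_lit 5) (nat_lit 4) (nat_lit 4) (nat_lit 412) (nat_lit 287) (nat_lit 189))))) (XT.nd (nat_lit 282) (nat_lit 0) (nat_lit 0) (XT.nd (nat_lit 94) (nat_lit 0) (nat_lit 0) (XT.lf (nat_lit 0) (nat_lit 3092173983) (nat_lit 168) (nat_lit 27318165229) (nat_lit 84) (nat_lit 34329743144) (nat_lit 3) (nat_lit 5) (nat_lit 5) (nat_lit 5) (nat_lit 4) (nat_lit 4) (nat_lit 413) (nat_lit 287) (nat_lit 188)) (XT.nd (nat_lit 94) (nat_lit 0) (nat_lit 0) (XT.lf (nat_lit 0) (nat_lit 4526197844) (nat_lit 168) (nat_lit 24457362568)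 (nat_lit 84) (nat_lit 37679103510) (nat_lit 3) (nat_lit 5) (nat_lit 5) (nat_lit 5) (nat_lit 4) (nat_lit 4) (nat_lit 414) (nat_lit 287) (nat_lit 187)) (XT.lf (nat_lit 0) (nat_lit 5998332444) (nat_lit 168) (nat_lit 21517602494) (nat_lit 84) (nat_lit 41129133446) (nat_lit 3) (nat_lit 5) (nat_lit 5) (nat_lit 5) (nat_lit 4) (nat_lit 4) (nat_lit 415) (nat_lit 287) (nat_lit 186)))) (XT.nd (nat_lit 188) (nat_lit 0) (nat_lit 0) (XT.nd (nat_lit 94) (nat_lit 0) (nat_lit 0) (XT.lf (nat_lit 0) (nat_lit 7509949966) (nat_lit 168) (nat_lit 18496144842) (nat_lit 84) (nat_lit 44683048743) (nat_lit 3) (nat_lit 5) (nat_lit 5) (nat_lit 5) (nat_lit 4) (nat_lit 4) (nat_lit 416) (nat_lit 287) (nat_lit 185)) (XT.lf (nat_lit 0) (nat_lit 9062459396) (nat_lit 168) (nat_lit 15390173296) (nat_lit 84) (nat_lit 48344162021) (nat_lit 3) (nat_lit 5) (nat_lit 5) (nat_lit 5) (nat_lit 4) (nat_lit 4) (nat_lit 417) (nat_lit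 287) (nat_lit 184))) (XT.nd (nat_lit 94) (nat_lit 0) (nat_lit 0) (XT.lf (nat_lit 0) (nat_lit 10657307835) (nat_lit 168) (nat_lit 12196792766) (nat_lit 84) (nat_lit 52115885821) (nat_lit 3) (nat_lit 5) (nat_lit 5) (nat_lit 5) (nat_lit 4) (nat_lit 4) (nat_lit 418) (nat_lit 287) (nat_lit 183)) (XT.lf (nat_lit 0) (nat_lit 12295981849) (nat_lit 168) (nat_lit 8913026687) (nat_lit 84) (nat_lit 56001735785) (nat_lit 3) (nat_lit 5) (nat_lit 5) (nat_lit 5) (nat_lit 4) (nat_lit 4) (nat_lit 419) (nat_lit 287) (nat_lit 182))))))) (XT.nd (nat_lit 45966) (nat_lit 0) (nat_lit 5208) (XT.nd (nat_lit 564) (nat_lit 0) (nat_lit 0) (XT.nd (nat_lit 282) (nat_lit 0) (nat_lit 0) (XT.nd (nat_lit 94) (nat_lit 84) (nat_lit 0) (XT.lf (nat_lit 0) (nat_lit 13980008854) (nat_lit 168) (nat_lit 5535814245) (nat_lit 84) (nat_lit 60005333933) (nat_lit 3) (nat_lit 5) (nat_lit 5) (nat_lit 5) (nat_lit 4) (nat_lit 4) (nat_lit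 420) (nat_lit 287) (nat_lit 181)) (XT.nd (nat_lit 94) (nat_lit 84) (nat_lit 0) (XT.lf (nat_lit 0) (nat_lit 15710958540) (nat_lit 168) (nat_lit 2062007524) (nat_lit 84) (nat_lit 64130412036) (nat_lit 3) (nat_lit 5) (nat_lit 5) (nat_lit 5) (nat_lit 4) (nat_lit 4) (nat_lit 421) (nat_lit 287) (nat_lit 180)) (XT.lf (nat_lit 0) (nat_lit 1542713670) (nat_lit 84) (nat_lit 15963034573) (nat_lit 168) (nat_lit 66853405341) (nat_lit 2) (nat_lit 5) (nat_lit 3) (nat_lit 5) (nat_lit 4) (nat_lit 4) (nat_lit 422) (nat_lit 287) (nat_lit 179)))) (XT.nd (nat_lit 94) (nat_lit 0) (nat_lit 0) (XT.lf (nat_lit 0) (nat_lit 5295118452) (nat_lit 84) (nat_lit 14077534677) (nat_lit 168) (nat_lit 67517914725) (nat_lit 2) (nat_lit 5) (nat_lit 3) (nat_lit 5) (nat_lit 4) (nat_lit 4) (nat_lit 423) (nat_lit 287) (nat_lit 178)) (XT.nd (nat_lit 94) (nat_lit 0) (nat_lit 0) (XT.lf (nat_lit 0) (nat_lit 9156305353) (nat_lit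 84) (nat_lit 12136232023) (nat_lit 168) (nat_lit 68208090234) (nat_lit 2) (nat_lit 5) (nat_lit 3) (nat_lit 5) (nat_lit 4) (nat_lit 4) (nat_lit 424) (nat_lit 287) (nat_lit 177)) (XT.lf (nat_lit 0) (nat_lit 13129873404) (nat_lit 84) (nat_lit 10137317113) (nat_lit 168) (nat_lit 68924575184) (nat_lit 2) (nat_lit 5) (nat_lit 3) (nat_lit 5) (nat_lit 4) (nat_lit 4) (nat_lit 425) (nat_lit 287) (nat_lit 176))))) (XT.nd (nat_lit 45026) (nat_lit 0) (nat_lit 9828) (XT.nd (nat_lit 94) (nat_lit 0) (nat_lit 0) (XT.lf (nat_lit 0) (nat_lit 17219526385) (nat_lit 84) (nat_lit 8078926749) (nat_lit 168) (nat_lit 69668037413) (nat_lit 2) (nat_lit 5) (nat_lit 3) (nat_lit 5) (nat_lit 4) (nat_lit 4) (nat_lit 426) (nat_lit 287) (nat_lit 175)) (XT.nd (nat_lit 94) (nat_lit 0) (nat_lit 0) (XT.lf (nat_lit 0) (nat_lit 21429076283) (nat_lit 84) (nat_lit 5959142295) (nat_lit 168) (nat_lit 70439169908) (nat_lit 2)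 (nat_lit 5) (nat_lit 3) (nat_lit 5) (nat_lit 4) (nat_lit 4) (nat_lit 427) (nat_lit 287) (nat_lit 174)) (XT.lf (nat_lit 0) (nat_lit 25762446838) (nat_lit 84) (nat_lit 3775987891) (nat_lit 168) (nat_lit 71238691443) (nat_lit 2) (nat_lit 5) (nat_lit 3) (nat_lit 5) (nat_lit 4) (nat_lit 4) (nat_lit 428) (nat_lit 287) (nat_lit 173)))) (XT.nd (nat_lit 188) (nat_lit 672) (nat_lit 0) (XT.nd (nat_lit 94) (nat_lit 0) (nat_lit 0) (XT.lf (nat_lit 0) (nat_lit 822595890) (nat_lit 588) (nat_lit 1754338582) (nat_lit 0) (nat_lit 822595890) (nat_lit 127) (nat_lit 5) (nat_lit 134) (nat_lit 4) (nat_lit 127) (nat_lit 4) (nat_lit 312) (nat_lit 288) (nat_lit 288)) (XT.lf (nat_lit 0) (nat_lit 3971993694) (nat_lit 588) (nat_lit 482722469) (nat_lit 0) (nat_lit 2392712757) (nat_lit 127) (nat_lit 5) (nat_lit 134) (nat_lit 4) (nat_lit 127) (nat_lit 4) (nat_lit 313) (nat_lit 288) (nat_lit 287))) (XT.nd (nat_lit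 94) (nat_lit 84) (nat_lit 0) (XT.lf (nat_lit 0) (nat_lit 2627455921) (nat_lit 588) (nat_lit 3691673874) (nat_lit 588) (nat_lit 580597653) (nat_lit 120) (nat_lit 4) (nat_lit 127) (nat_lit 5) (nat_lit 127) (nat_lit 4) (nat_lit 314) (nat_lit 288) (nat_lit 286)) (XT.lf (nat_lit 0) (nat_lit 1676801524) (nat_lit 672) (nat_lit 1191229748) (nat_lit 84) (nat_lit 4088094072) (nat_lit 119) (nat_lit 5) (nat_lit 127) (nat_lit 5) (nat_lit 120) (nat_lit 4) (nat_lit 315) (nat_lit 288) (nat_lit 285)))))) (XT.nd (nat_lit 564) (nat_lit 2184) (nat_lit 0) (XT.nd (nat_lit 282) (nat_lit 924) (nat_lit 0) (XT.nd (nat_lit 94) (nat_lit 840) (nat_lit 0) (XT.lf (nat_lit 0) (nat_lit 1956477690) (nat_lit 672) (nat_lit 1979689596) (nat_lit 756) (nat_lit 3080407730) (nat_lit 111) (nat_lit 5) (nat_lit 119) (nat_lit 5) (nat_lit 120) (nat_lit 4) (nat_lit 316) (nat_lit 288) (nat_lit 284)) (XT.nd (nat_lit 94) (nat_lit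 840) (nat_lit 0) (XT.lf (nat_lit 0) (nat_lit 5165321356) (nat_lit 672) (nat_lit 1038979026) (nat_lit 756) (nat_lit 877228069) (nat_lit 111) (nat_lit 5) (nat_lit 119) (nat_lit 5) (nat_lit 120) (nat_lit 4) (nat_lit 317) (nat_lit 288) (nat_lit 283)) (XT.lf (nat_lit 0) (nat_lit 1274972982) (nat_lit 756) (nat_lit 30917937) (nat_lit 840) (nat_lit 5844731173) (nat_lit 101) (nat_lit 5) (nat_lit 110) (nat_lit 5) (nat_lit 111) (nat_lit 5) (nat_lit 318) (nat_lit 288) (nat_lit 282)))) (XT.nd (nat_lit 94) (nat_lit 924) (nat_lit 0) (XT.lf (nat_lit 0) (nat_lit 3497439516) (nat_lit 840) (nat_lit 2699091099) (nat_lit 84) (nat_lit 1026987105) (nat_lit 101) (nat_lit 5) (nat_lit 111) (nat_lit 5) (nat_lit 102) (nat_lit 4) (nat_lit 319) (nat_lit 288) (nat_lit 281)) (XT.nd (nat_lit 94) (nat_lit 84) (nat_lit 0) (XT.lf (nat_lit 0) (nat_lit 523735949) (nat_lit 840) (nat_lit 5169609560) (nat_lit 924) (nat_lit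 1607945002) (nat_lit 91) (nat_lit 5) (nat_lit 101) (nat_lit 5) (nat_lit 102) (nat_lit 4) (nat_lit 320) (nat_lit 288) (nat_lit 280)) (XT.lf (nat_lit 0) (nat_lit 523775305) (nat_lit 924) (nat_lit 3546745141) (nat_lit 84) (nat_lit 3312639500) (nat_lit 90) (nat_lit 5) (nat_lit 101) (nat_lit 5) (nat_lit 91) (nat_lit 5) (nat_lit 321) (nat_lit 288) (nat_lit 279))))) (XT.nd (nat_lit 282) (nat_lit 1260) (nat_lit 0) (XT.nd (nat_lit 94) (nat_lit 924) (nat_lit 0) (XT.lf (nat_lit 0) (nat_lit 2621316802) (nat_lit 924) (nat_lit 294140326) (nat_lit 84) (nat_lit 4554262926) (nat_lit 90) (nat_lit 5) (nat_lit 101) (nat_lit 5) (nat_lit 91) (nat_lit 5) (nat_lit 322) (nat_lit 288) (nat_lit 278)) (XT.nd (nat_lit 94) (nat_lit 0) (nat_lit 0) (XT.lf (nat_lit 0) (nat_lit 3060913244) (nat_lit 924) (nat_lit 1688482519) (nat_lit 1008) (nat_lit 2811208933) (nat_lit 79) (nat_lit 5) (nat_lit 90) (nat_lit 5) (nat_lit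 91) (nat_lit 5) (nat_lit 323) (nat_lit 288) (nat_lit 277)) (XT.lf (nat_lit 0) (nat_lit 6466764500) (nat_lit 924) (nat_lit 416260166) (nat_lit 1008) (nat_lit 773710023) (nat_lit 79) (nat_lit 5) (nat_lit 90) (nat_lit 5) (nat_lit 91) (nat_lit 5) (nat_lit 324) (nat_lit 288) (nat_lit 276)))) (XT.nd (nat_lit 188) (nat_lit 504) (nat_lit 0) (XT.nd (nat_lit 94) (nat_lit 0) (nat_lit 0) (XT.lf (nat_lit 0) (nat_lit 1268513477) (nat_lit 756) (nat_lit 5572578776) (nat_lit 84) (nat_lit 915849202) (nat_lit 70) (nat_lit 5) (nat_lit 79) (nat_lit 5) (nat_lit 71) (nat_lit 5) (nat_lit 325) (nat_lit 288) (nat_lit 275)) (XT.lf (nat_lit 0) (nat_lit 3313368424) (nat_lit 756) (nat_lit 2244944165) (nat_lit 84) (nat_lit 2303585837) (nat_lit 70) (nat_lit 5) (nat_lit 79) (nat_lit 5) (nat_lit 71) (nat_lit 5) (nat_lit 326) (nat_lit 288) (nat_lit 274))) (XT.nd (nat_lit 94) (nat_lit 0) (nat_lit 0) (XT.lf (nat_lit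 0) (nat_lit 1149547651) (nat_lit 504) (nat_lit 4223905426) (nat_lit 588) (nat_lit 2598640075) (nat_lit 64) (nat_lit 5) (nat_lit 70) (nat_lit 5) (nat_lit 71) (nat_lit 5) (nat_lit 327) (nat_lit 288) (nat_lit 273)) (XT.lf (nat_lit 0) (nat_lit 4638002042) (nat_lit 504) (nat_lit 2824473569) (nat_lit 588) (nat_lit 624787310) (nat_lit 64) (nat_lit 5) (nat_lit 70) (nat_lit 5) (nat_lit 71) (nat_lit 5) (nat_lit 328) (nat_lit 288) (nat_lit 272))))))))
noncomputable def xc66 : XT := (XT.nd (nat_lit 2350) (nat_lit 1176) (nat_lit 0) (XT.nd (nat_lit 1128) (nat_lit 1260) (nat_lit 0) (XT.nd (nat_lit 564) (nat_lit 840) (nat_lit 0) (XT.nd (nat_lit 282) (nat_lit 840) (nat_lit 0) (XT.nd (nat_lit 94) (nat_lit 420) (nat_lit 0) (XT.lf (nat_lit 0) (nat_lit 1324207103) (nat_lit 588) (nat_lit 44116104) (nat_lit 84) (nat_lit 6839480846) (nat_lit 63) (nat_lit 5) (nat_lit 70) (nat_lit 5) (nat_lit 64) (nat_lit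 5) (nat_lit 329) (nat_lit 288) (nat_lit 271)) (XT.nd (nat_lit 94) (nat_lit 0) (nat_lit 0) (XT.lf (nat_lit 0) (nat_lit 3300921799) (nat_lit 504) (nat_lit 4861490140) (nat_lit 84) (nat_lit 170517904) (nat_lit 58) (nat_lit 5) (nat_lit 64) (nat_lit 5) (nat_lit 59) (nat_lit 5) (nat_lit 330) (nat_lit 288) (nat_lit 270)) (XT.lf (nat_lit 0) (nat_lit 5298578893) (nat_lit 504) (nat_lit 1437490099) (nat_lit 84) (nat_lit 1727537532) (nat_lit 58) (nat_lit 5) (nat_lit 64) (nat_lit 5) (nat_lit 59) (nat_lit 5) (nat_lit 331) (nat_lit 288) (nat_lit 269)))) (XT.nd (nat_lit 94) (nat_lit 420) (nat_lit 0) (XT.lf (nat_lit 0) (nat_lit 2077791908) (nat_lit 420) (nat_lit 5247835315) (nat_lit 504) (nat_lit 1274124482) (nat_lit 53) (nat_lit 5) (nat_lit 58) (nat_lit 5) (nat_lit 59) (nat_lit 5) (nat_lit 332) (nat_lit 288) (nat_lit 268)) (XT.nd (nat_lit 94) (nat_lit 336) (nat_lit 0) (XT.lf (nat_lit 0) (nat_lit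 623918228) (nat_lit 504) (nat_lit 3071609719) (nat_lit 84) (nat_lit 5045940417) (nat_lit 52) (nat_lit 5) (nat_lit 58) (nat_lit 5) (nat_lit 53) (nat_lit 5) (nat_lit 333) (nat_lit 288) (nat_lit 267)) (XT.lf (nat_lit 0) (nat_lit 425346701) (nat_lit 336) (nat_lit 2081772341) (nat_lit 420) (nat_lit 6381891999) (nat_lit 48) (nat_lit 5) (nat_lit 52) (nat_lit 5) (nat_lit 53) (nat_lit 5) (nat_lit 334) (nat_lit 288) (nat_lit 266))))) (XT.nd (nat_lit 282) (nat_lit 420) (nat_lit 0) (XT.nd (nat_lit 94) (nat_lit 420) (nat_lit 0) (XT.lf (nat_lit 0) (nat_lit 4040498150) (nat_lit 336) (nat_lit 389825754) (nat_lit 420) (nat_lit 4611735167) (nat_lit 48) (nat_lit 5) (nat_lit 52) (nat_lit 5) (nat_lit 53) (nat_lit 5) (nat_lit 335) (nat_lit 288) (nat_lit 265)) (XT.nd (nat_lit 94) (nat_lit 420) (nat_lit 0) (XT.lf (nat_lit 0) (nat_lit 6377618608) (nat_lit 420) (nat_lit 1501053854) (nat_lit 84) (nat_lit 1322631561)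 (nat_lit 48) (nat_lit 5) (nat_lit 53) (nat_lit 5) (nat_lit 49) (nat_lit 5) (nat_lit 336) (nat_lit 288) (nat_lit 264)) (XT.lf (nat_lit 0) (nat_lit 2092321798) (nat_lit 420) (nat_lit 6270206054) (nat_lit 504) (nat_lit 1004003478) (nat_lit 43) (nat_lit 5) (nat_lit 48) (nat_lit 5) (nat_lit 49) (nat_lit 5) (nat_lit 337) (nat_lit 288) (nat_lit 263)))) (XT.nd (nat_lit 94) (nat_lit 336) (nat_lit 0) (XT.lf (nat_lit 0) (nat_lit 822950918) (nat_lit 504) (nat_lit 3770858561) (nat_lit 84) (nat_lit 4944101892) (nat_lit 42) (nat_lit 5) (nat_lit 48) (nat_lit 5) (nat_lit 43) (nat_lit 5) (nat_lit 338) (nat_lit 288) (nat_lit 262)) (XT.nd (nat_lit 94) (nat_lit 336) (nat_lit 0) (XT.lf (nat_lit 0) (nat_lit 2639715256) (nat_lit 504) (nat_lit 222097384) (nat_lit 84) (nat_lit 6854208968) (nat_lit 42) (nat_lit 5) (nat_lit 48) (nat_lit 5) (nat_lit 43) (nat_lit 5) (nat_lit 339) (nat_lit 288) (nat_lit 261))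 (XT.lf (nat_lit 0) (nat_lit 3454951220) (nat_lit 336) (nat_lit 1047533703) (nat_lit 420) (nat_lit 5397789410) (nat_lit 38) (nat_lit 5) (nat_lit 42) (nat_lit 5) (nat_lit 43) (nat_lit 5) (nat_lit 340) (nat_lit 288) (nat_lit 260)))))) (XT.nd (nat_lit 564) (nat_lit 588) (nat_lit 0) (XT.nd (nat_lit 282) (nat_lit 336) (nat_lit 0) (XT.nd (nat_lit 94) (nat_lit 336) (nat_lit 0) (XT.lf (nat_lit 0) (nat_lit 6389685157) (nat_lit 420) (nat_lit 2900050718) (nat_lit 84) (nat_lit 801828056) (nat_lit 38) (nat_lit 5) (nat_lit 43) (nat_lit 5) (nat_lit 39) (nat_lit 5) (nat_lit 341) (nat_lit 288) (nat_lit 259)) (XT.nd (nat_lit 94) (nat_lit 0) (nat_lit 0) (XT.lf (nat_lit 0) (nat_lit 707855844) (nat_lit 336) (nat_lit 7602764805) (nat_lit 420) (nat_lit 1979214142) (nat_lit 34) (nat_lit 5) (nat_lit 38) (nat_lit 5) (nat_lit 39) (nat_lit 5) (nat_lit 342) (nat_lit 288) (nat_lit 258)) (XT.lf (nat_lit 0) (nat_lit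 4438784353) (nat_lit 336) (nat_lit 5840866590) (nat_lit 420) (nat_lit 215231138) (nat_lit 34) (nat_lit 5) (nat_lit 38) (nat_lit 5) (nat_lit 39) (nat_lit 5) (nat_lit 343) (nat_lit 288) (nat_lit 257)))) (XT.nd (nat_lit 94) (nat_lit 252) (nat_lit 0) (XT.lf (nat_lit 0) (nat_lit 1529984257) (nat_lit 420) (nat_lit 2486715384) (nat_lit 84) (nat_lit 6690627277) (nat_lit 33) (nat_lit 5) (nat_lit 38) (nat_lit 5) (nat_lit 34) (nat_lit 5) (nat_lit 344) (nat_lit 288) (nat_lit 256)) (XT.nd (nat_lit 94) (nat_lit 0) (nat_lit 0) (XT.lf (nat_lit 0) (nat_lit 1166218529) (nat_lit 252) (nat_lit 2130272700) (nat_lit 336) (nat_lit 7630927484) (nat_lit 30) (nat_lit 5) (nat_lit 33) (nat_lit 5) (nat_lit 34) (nat_lit 5) (nat_lit 345) (nat_lit 288) (nat_lit 255)) (XT.lf (nat_lit 0) (nat_lit 4937205726) (nat_lit 252) (nat_lit 167326860) (nat_lit 336) (nat_lit 6050454160) (nat_lit 30) (nat_lit 5) (nat_lit 33)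 (nat_lit 5) (nat_lit 34) (nat_lit 5) (nat_lit 346) (nat_lit 288) (nat_lit 254))))) (XT.nd (nat_lit 282) (nat_lit 336) (nat_lit 0) (XT.nd (nat_lit 94) (nat_lit 252) (nat_lit 0) (XT.lf (nat_lit 0) (nat_lit 6948950354) (nat_lit 336) (nat_lit 2630726892) (nat_lit 84) (nat_lit 1810778029) (nat_lit 30) (nat_lit 5) (nat_lit 34) (nat_lit 5) (nat_lit 31) (nat_lit 5) (nat_lit 347) (nat_lit 288) (nat_lit 253)) (XT.nd (nat_lit 94) (nat_lit 0) (nat_lit 0) (XT.lf (nat_lit 0) (nat_lit 1040419148) (nat_lit 252) (nat_lit 7785214350) (nat_lit 336) (nat_lit 2808591025) (nat_lit 27) (nat_lit 5) (nat_lit 30) (nat_lit 5) (nat_lit 31) (nat_lit 5) (nat_lit 348) (nat_lit 288) (nat_lit 252)) (XT.lf (nat_lit 0) (nat_lit 4835252541) (nat_lit 252) (nat_lit 5916412262) (nat_lit 336) (nat_lit 1134381561) (nat_lit 27) (nat_lit 5) (nat_lit 30) (nat_lit 5) (nat_lit 31) (nat_lit 5) (nat_lit 349) (nat_lit 288) (nat_lit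 251)))) (XT.nd (nat_lit 188) (nat_lit 0) (nat_lit 0) (XT.nd (nat_lit 94) (nat_lit 252) (nat_lit 0) (XT.lf (nat_lit 0) (nat_lit 544038074) (nat_lit 336) (nat_lit 3449271742) (nat_lit 84) (nat_lit 8153500612) (nat_lit 26) (nat_lit 5) (nat_lit 30) (nat_lit 5) (nat_lit 27) (nat_lit 5) (nat_lit 350) (nat_lit 288) (nat_lit 250)) (XT.lf (nat_lit 0) (nat_lit 212490543) (nat_lit 252) (nat_lit 2005849500) (nat_lit 336) (nat_lit 10198171217) (nat_lit 23) (nat_lit 5) (nat_lit 26) (nat_lit 5) (nat_lit 27) (nat_lit 5) (nat_lit 351) (nat_lit 288) (nat_lit 249))) (XT.nd (nat_lit 94) (nat_lit 0) (nat_lit 0) (XT.lf (nat_lit 0) (nat_lit 3947168279) (nat_lit 336) (nat_lit 8678161587) (nat_lit 84) (nat_lit 69358165) (nat_lit 23) (nat_lit 5) (nat_lit 27) (nat_lit 5) (nat_lit 24) (nat_lit 5) (nat_lit 352) (nat_lit 288) (nat_lit 248)) (XT.lf (nat_lit 0) (nat_lit 5716955541) (nat_lit 336) (nat_lit 5106967043)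 (nat_lit 84) (nat_lit 2158147988) (nat_lit 23) (nat_lit 5) (nat_lit 27) (nat_lit 5) (nat_lit 24) (nat_lit 5) (nat_lit 353) (nat_lit 288) (nat_lit 247))))))) (XT.nd (nat_lit 1222) (nat_lit 504) (nat_lit 0) (XT.nd (nat_lit 564) (nat_lit 168) (nat_lit 0) (XT.nd (nat_lit 282) (nat_lit 252) (nat_lit 0) (XT.nd (nat_lit 94) (nat_lit 252) (nat_lit 0) (XT.lf (nat_lit 0) (nat_lit 7509453180) (nat_lit 336) (nat_lit 1467210081) (nat_lit 84) (nat_lit 4302880337) (nat_lit 23) (nat_lit 5) (nat_lit 27) (nat_lit 5) (nat_lit 24) (nat_lit 5) (nat_lit 354) (nat_lit 288) (nat_lit 246)) (XT.nd (nat_lit 94) (nat_lit 0) (nat_lit 0) (XT.lf (nat_lit 0) (nat_lit 2290653495) (nat_lit 252) (nat_lit 7058402062) (nat_lit 336) (nat_lit 4237624397) (nat_lit 20) (nat_lit 5) (nat_lit 23) (nat_lit 5) (nat_lit 24) (nat_lit 5) (nat_lit 355) (nat_lit 288) (nat_lit 245)) (XT.lf (nat_lit 0) (nat_lit 6155651359) (nat_lit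 252) (nat_lit 5074698962) (nat_lit 336) (nat_lit 2673636544) (nat_lit 20) (nat_lit 5) (nat_lit 23) (nat_lit 5) (nat_lit 24) (nat_lit 5) (nat_lit 356) (nat_lit 288) (nat_lit 244)))) (XT.nd (nat_lit 94) (nat_lit 252) (nat_lit 0) (XT.lf (nat_lit 0) (nat_lit 10101217243) (nat_lit 252) (nat_lit 3039019605) (nat_lit 336) (nat_lit 1091983723) (nat_lit 20) (nat_lit 5) (nat_lit 23) (nat_lit 5) (nat_lit 24) (nat_lit 5) (nat_lit 357) (nat_lit 288) (nat_lit 243)) (XT.nd (nat_lit 94) (nat_lit 168) (nat_lit 0) (XT.lf (nat_lit 0) (nat_lit 498556979) (nat_lit 336) (nat_lit 445705634) (nat_lit 84) (nat_lit 13627267939) (nat_lit 19) (nat_lit 5) (nat_lit 23) (nat_lit 5) (nat_lit 20) (nat_lit 5) (nat_lit 358) (nat_lit 288) (nat_lit 242)) (XT.lf (nat_lit 0) (nat_lit 2133194447) (nat_lit 252) (nat_lit 11560466918) (nat_lit 84) (nat_lit 1226963826) (nat_lit 17) (nat_lit 5) (nat_lit 20) (nat_lit 5) (nat_lit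 18) (nat_lit 5) (nat_lit 359) (nat_lit 288) (nat_lit 241))))) (XT.nd (nat_lit 282) (nat_lit 168) (nat_lit 0) (XT.nd (nat_lit 94) (nat_lit 0) (nat_lit 0) (XT.lf (nat_lit 0) (nat_lit 3804845624) (nat_lit 252) (nat_lit 8034851261) (nat_lit 84) (nat_lit 3441417651) (nat_lit 17) (nat_lit 5) (nat_lit 20) (nat_lit 5) (nat_lit 18) (nat_lit 5) (nat_lit 360) (nat_lit 288) (nat_lit 240)) (XT.nd (nat_lit 94) (nat_lit 0) (nat_lit 0) (XT.lf (nat_lit 0) (nat_lit 5501142940) (nat_lit 252) (nat_lit 4436994126) (nat_lit 84) (nat_lit 5715629231) (nat_lit 17) (nat_lit 5) (nat_lit 20) (nat_lit 5) (nat_lit 18) (nat_lit 5) (nat_lit 361) (nat_lit 288) (nat_lit 239)) (XT.lf (nat_lit 0) (nat_lit 7223667522) (nat_lit 252) (nat_lit 763541933) (nat_lit 84) (nat_lit 8051718369) (nat_lit 17) (nat_lit 5) (nat_lit 20) (nat_lit 5) (nat_lit 18) (nat_lit 5) (nat_lit 362) (nat_lit 288) (nat_lit 238)))) (XT.nd (nat_lit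 188) (nat_lit 0) (nat_lit 0) (XT.nd (nat_lit 94) (nat_lit 0) (nat_lit 0) (XT.lf (nat_lit 0) (nat_lit 3050387878) (nat_lit 168) (nat_lit 5953897291) (nat_lit 252) (nat_lit 7431734892) (nat_lit 15) (nat_lit 5) (nat_lit 17) (nat_lit 5) (nat_lit 18) (nat_lit 5) (nat_lit 363) (nat_lit 288) (nat_lit 237)) (XT.lf (nat_lit 0) (nat_lit 6964231190) (nat_lit 168) (nat_lit 3858701568) (nat_lit 252) (nat_lit 6023153791) (nat_lit 15) (nat_lit 5) (nat_lit 17) (nat_lit 5) (nat_lit 18) (nat_lit 5) (nat_lit 364) (nat_lit 288) (nat_lit 236))) (XT.nd (nat_lit 94) (nat_lit 0) (nat_lit 0) (XT.lf (nat_lit 0) (nat_lit 10965936125) (nat_lit 168) (nat_lit 1707639156) (nat_lit 252) (nat_lit 4596173866) (nat_lit 15) (nat_lit 5) (nat_lit 17) (nat_lit 5) (nat_lit 18) (nat_lit 5) (nat_lit 365) (nat_lit 288) (nat_lit 235)) (XT.lf (nat_lit 0) (nat_lit 14562910640) (nat_lit 252) (nat_lit 2653142970) (nat_lit 84)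 (nat_lit 491194983) (nat_lit 15) (nat_lit 5) (nat_lit 18) (nat_lit 5) (nat_lit 16) (nat_lit 4) (nat_lit 366) (nat_lit 288) (nat_lit 234)))))) (XT.nd (nat_lit 564) (nat_lit 84) (nat_lit 0) (XT.nd (nat_lit 282) (nat_lit 168) (nat_lit 0) (XT.nd (nat_lit 94) (nat_lit 84) (nat_lit 0) (XT.lf (nat_lit 0) (nat_lit 1082816985) (nat_lit 168) (nat_lit 15433181553) (nat_lit 252) (nat_lit 1642271885) (nat_lit 13) (nat_lit 5) (nat_lit 15) (nat_lit 5) (nat_lit 16) (nat_lit 4) (nat_lit 367) (nat_lit 288) (nat_lit 233)) (XT.nd (nat_lit 94) (nat_lit 84) (nat_lit 0) (XT.lf (nat_lit 0) (nat_lit 4958931172) (nat_lit 168) (nat_lit 13575746460) (nat_lit 252) (nat_lit 88556845) (nat_lit 13) (nat_lit 5) (nat_lit 15) (nat_lit 5) (nat_lit 16) (nat_lit 4) (nat_lit 368) (nat_lit 288) (nat_lit 232)) (XT.lf (nat_lit 0) (nat_lit 1460530518) (nat_lit 252) (nat_lit 10193934917) (nat_lit 84) (nat_lit 7448483010) (nat_lit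 12) (nat_lit 5) (nat_lit 15) (nat_lit 5) (nat_lit 13) (nat_lit 5) (nat_lit 369) (nat_lit 288) (nat_lit 231)))) (XT.nd (nat_lit 94) (nat_lit 168) (nat_lit 0) (XT.lf (nat_lit 0) (nat_lit 3034167904) (nat_lit 252) (nat_lit 6647458288) (nat_lit 84) (nat_lit 9916656592) (nat_lit 12) (nat_lit 5) (nat_lit 15) (nat_lit 5) (nat_lit 13) (nat_lit 5) (nat_lit 370) (nat_lit 288) (nat_lit 230)) (XT.nd (nat_lit 94) (nat_lit 168) (nat_lit 0) (XT.lf (nat_lit 0) (nat_lit 4635606330) (nat_lit 252) (nat_lit 3020689237) (nat_lit 84) (nat_lit 12453430865) (nat_lit 12) (nat_lit 5) (nat_lit 15) (nat_lit 5) (nat_lit 13) (nat_lit 5) (nat_lit 371) (nat_lit 288) (nat_lit 229)) (XT.lf (nat_lit 0) (nat_lit 703935495) (nat_lit 168) (nat_lit 5569386135) (nat_lit 252) (nat_lit 14364217998) (nat_lit 10) (nat_lit 5) (nat_lit 12) (nat_lit 5) (nat_lit 13) (nat_lit 5) (nat_lit 372) (nat_lit 288) (nat_lit 228))))) (XT.nd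 (nat_lit 282) (nat_lit 84) (nat_lit 0) (XT.nd (nat_lit 94) (nat_lit 0) (nat_lit 0) (XT.lf (nat_lit 0) (nat_lit 4579594868) (nat_lit 168) (nat_lit 3393719718) (nat_lit 252) (nat_lit 13208141065) (nat_lit 10) (nat_lit 5) (nat_lit 12) (nat_lit 5) (nat_lit 13) (nat_lit 5) (nat_lit 373) (nat_lit 288) (nat_lit 227)) (XT.nd (nat_lit 94) (nat_lit 0) (nat_lit 0) (XT.lf (nat_lit 0) (nat_lit 8547789835) (nat_lit 168) (nat_lit 1158798167) (nat_lit 252) (nat_lit 12036341517) (nat_lit 10) (nat_lit 5) (nat_lit 12) (nat_lit 5) (nat_lit 13) (nat_lit 5) (nat_lit 374) (nat_lit 288) (nat_lit 226)) (XT.lf (nat_lit 0) (nat_lit 11486041233) (nat_lit 252) (nat_lit 9721549179) (nat_lit 84) (nat_lit 1114544378) (nat_lit 10) (nat_lit 5) (nat_lit 13) (nat_lit 5) (nat_lit 11) (nat_lit 4) (nat_lit 375) (nat_lit 288) (nat_lit 225)))) (XT.nd (nat_lit 188) (nat_lit 84) (nat_lit 0) (XT.nd (nat_lit 94) (nat_lit 0)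 (nat_lit 0) (XT.lf (nat_lit 0) (nat_lit 13314163773) (nat_lit 252) (nat_lit 6178682375) (nat_lit 84) (nat_lit 3426739439) (nat_lit 10) (nat_lit 5) (nat_lit 13) (nat_lit 5) (nat_lit 11) (nat_lit 4) (nat_lit 376) (nat_lit 288) (nat_lit 224)) (XT.lf (nat_lit 0) (nat_lit 15181164203) (nat_lit 252) (nat_lit 2551741529) (nat_lit 84) (nat_lit 5803289423) (nat_lit 10) (nat_lit 5) (nat_lit 13) (nat_lit 5) (nat_lit 11) (nat_lit 4) (nat_lit 377) (nat_lit 288) (nat_lit 223))) (XT.nd (nat_lit 94) (nat_lit 0) (nat_lit 0) (XT.lf (nat_lit 0) (nat_lit 1186560600) (nat_lit 84) (nat_lit 15913992991) (nat_lit 168) (nat_lit 7071619751) (nat_lit 9) (nat_lit 5) (nat_lit 10) (nat_lit 5) (nat_lit 11) (nat_lit 4) (nat_lit 378) (nat_lit 288) (nat_lit 222)) (XT.lf (nat_lit 0) (nat_lit 5070118146) (nat_lit 84) (nat_lit 14018975608) (nat_lit 168) (nat_lit 5738555039) (nat_lit 9) (nat_lit 5) (nat_lit 10) (nat_lit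 5) (nat_lit 11) (nat_lit 4) (nat_lit 379) (nat_lit 288) (nat_lit 221))))))))
noncomputable def xc67 : XT := (XT.nd (nat_lit 2350) (nat_lit 252) (nat_lit 0) (XT.nd (nat_lit 1128) (nat_lit 84) (nat_lit 0) (XT.nd (nat_lit 564) (nat_lit 0) (nat_lit 0) (XT.nd (nat_lit 282) (nat_lit 252) (nat_lit 0) (XT.nd (nat_lit 94) (nat_lit 0) (nat_lit 0) (XT.lf (nat_lit 0) (nat_lit 9050081950) (nat_lit 84) (nat_lit 12072722177) (nat_lit 168) (nat_lit 4381229207) (nat_lit 9) (nat_lit 5) (nat_lit 10) (nat_lit 5) (nat_lit 11) (nat_lit 4) (nat_lit 380) (nat_lit 288) (nat_lit 220)) (XT.nd (nat_lit 94) (nat_lit 0) (nat_lit 0) (XT.lf (nat_lit 0) (nat_lit 13130161755) (nat_lit 84) (nat_lit 10073418586) (nat_lit 168) (nat_lit 2998377087) (nat_lit 9) (nat_lit 5) (nat_lit 10) (nat_lit 5) (nat_lit 11) (nat_lit 4) (nat_lit 381) (nat_lit 288) (nat_lit 219)) (XT.lf (nat_lit 0) (nat_lit 17314160624) (nat_lit 84)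 (nat_lit 8019201275) (nat_lit 168) (nat_lit 1588709714) (nat_lit 9) (nat_lit 5) (nat_lit 10) (nat_lit 5) (nat_lit 11) (nat_lit 4) (nat_lit 382) (nat_lit 288) (nat_lit 218)))) (XT.nd (nat_lit 94) (nat_lit 252) (nat_lit 0) (XT.lf (nat_lit 0) (nat_lit 21605978482) (nat_lit 84) (nat_lit 5908155497) (nat_lit 168) (nat_lit 150913132) (nat_lit 9) (nat_lit 5) (nat_lit 10) (nat_lit 5) (nat_lit 11) (nat_lit 4) (nat_lit 383) (nat_lit 288) (nat_lit 217)) (XT.nd (nat_lit 94) (nat_lit 168) (nat_lit 0) (XT.lf (nat_lit 0) (nat_lit 1289831259) (nat_lit 168) (nat_lit 2435019085) (nat_lit 84) (nat_lit 24706321300) (nat_lit 8) (nat_lit 5) (nat_lit 10) (nat_lit 5) (nat_lit 9) (nat_lit 5) (nat_lit 384) (nat_lit 288) (nat_lit 216)) (XT.lf (nat_lit 0) (nat_lit 1305179670) (nat_lit 168) (nat_lit 1465518696) (nat_lit 252) (nat_lit 26450408874) (nat_lit 6) (nat_lit 5) (nat_lit 8) (nat_lit 5) (nat_lit 9) (nat_lit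 5) (nat_lit 385) (nat_lit 288) (nat_lit 215))))) (XT.nd (nat_lit 282) (nat_lit 0) (nat_lit 0) (XT.nd (nat_lit 94) (nat_lit 0) (nat_lit 0) (XT.lf (nat_lit 0) (nat_lit 4317525629) (nat_lit 252) (nat_lit 24851799774) (nat_lit 84) (nat_lit 865647295) (nat_lit 6) (nat_lit 5) (nat_lit 9) (nat_lit 5) (nat_lit 7) (nat_lit 4) (nat_lit 386) (nat_lit 288) (nat_lit 214)) (XT.nd (nat_lit 94) (nat_lit 0) (nat_lit 0) (XT.lf (nat_lit 0) (nat_lit 5913527289) (nat_lit 252) (nat_lit 21728209284) (nat_lit 84) (nat_lit 3232355108) (nat_lit 6) (nat_lit 5) (nat_lit 9) (nat_lit 5) (nat_lit 7) (nat_lit 4) (nat_lit 387) (nat_lit 288) (nat_lit 213)) (XT.lf (nat_lit 0) (nat_lit 7545652859) (nat_lit 252) (nat_lit 18527706460) (nat_lit 84) (nat_lit 5666337697) (nat_lit 6) (nat_lit 5) (nat_lit 9) (nat_lit 5) (nat_lit 7) (nat_lit 4) (nat_lit 388) (nat_lit 288) (nat_lit 212)))) (XT.nd (nat_lit 94) (nat_lit 0) (nat_lit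 0) (XT.lf (nat_lit 0) (nat_lit 9215423653) (nat_lit 252) (nat_lit 15247308098) (nat_lit 84) (nat_lit 8169863788) (nat_lit 6) (nat_lit 5) (nat_lit 9) (nat_lit 5) (nat_lit 7) (nat_lit 4) (nat_lit 389) (nat_lit 288) (nat_lit 211)) (XT.nd (nat_lit 94) (nat_lit 0) (nat_lit 0) (XT.lf (nat_lit 0) (nat_lit 10924396072) (nat_lit 252) (nat_lit 11883956523) (nat_lit 84) (nat_lit 10745266932) (nat_lit 6) (nat_lit 5) (nat_lit 9) (nat_lit 5) (nat_lit 7) (nat_lit 4) (nat_lit 390) (nat_lit 288) (nat_lit 210)) (XT.lf (nat_lit 0) (nat_lit 12674163056) (nat_lit 252) (nat_lit 8434516739) (nat_lit 84) (nat_lit 13394947672) (nat_lit 6) (nat_lit 5) (nat_lit 9) (nat_lit 5) (nat_lit 7) (nat_lit 4) (nat_lit 391) (nat_lit 288) (nat_lit 209)))))) (XT.nd (nat_lit 564) (nat_lit 0) (nat_lit 0) (XT.nd (nat_lit 282) (nat_lit 0) (nat_lit 0) (XT.nd (nat_lit 94) (nat_lit 84) (nat_lit 0) (XT.lf (nat_lit 0) (nat_lit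 14466355572) (nat_lit 252) (nat_lit 4895773506) (nat_lit 84) (nat_lit 16121375789) (nat_lit 6) (nat_lit 5) (nat_lit 9) (nat_lit 5) (nat_lit 7) (nat_lit 4) (nat_lit 392) (nat_lit 288) (nat_lit 208)) (XT.nd (nat_lit 94) (nat_lit 84) (nat_lit 0) (XT.lf (nat_lit 0) (nat_lit 16302644132) (nat_lit 252) (nat_lit 1264428347) (nat_lit 84) (nat_lit 18927092600) (nat_lit 6) (nat_lit 5) (nat_lit 9) (nat_lit 5) (nat_lit 7) (nat_lit 4) (nat_lit 393) (nat_lit 288) (nat_lit 207)) (XT.lf (nat_lit 0) (nat_lit 2513545882) (nat_lit 84) (nat_lit 15696129152) (nat_lit 168) (nat_lit 19326102131) (nat_lit 5) (nat_lit 5) (nat_lit 6) (nat_lit 5) (nat_lit 7) (nat_lit 4) (nat_lit 394) (nat_lit 288) (nat_lit 206)))) (XT.nd (nat_lit 94) (nat_lit 0) (nat_lit 0) (XT.lf (nat_lit 0) (nat_lit 6419025458) (nat_lit 84) (nat_lit 13759050599) (nat_lit 168) (nat_lit 18431581602) (nat_lit 5) (nat_lit 5) (nat_lit 6) (nat_lit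 5) (nat_lit 7) (nat_lit 4) (nat_lit 395) (nat_lit 288) (nat_lit 205)) (XT.nd (nat_lit 94) (nat_lit 0) (nat_lit 0) (XT.lf (nat_lit 0) (nat_lit 10429651458) (nat_lit 84) (nat_lit 11767229299) (nat_lit 168) (nat_lit 17520323613) (nat_lit 5) (nat_lit 5) (nat_lit 6) (nat_lit 5) (nat_lit 7) (nat_lit 4) (nat_lit 396) (nat_lit 288) (nat_lit 204)) (XT.lf (nat_lit 0) (nat_lit 14549162205) (nat_lit 84) (nat_lit 9718808666) (nat_lit 168) (nat_lit 16591478776) (nat_lit 5) (nat_lit 5) (nat_lit 6) (nat_lit 5) (nat_lit 7) (nat_lit 4) (nat_lit 397) (nat_lit 288) (nat_lit 203))))) (XT.nd (nat_lit 282) (nat_lit 0) (nat_lit 0) (XT.nd (nat_lit 94) (nat_lit 0) (nat_lit 0) (XT.lf (nat_lit 0) (nat_lit 18781397514) (nat_lit 84) (nat_lit 7611879357) (nat_lit 168) (nat_lit 15644181310) (nat_lit 5) (nat_lit 5) (nat_lit 6) (nat_lit 5) (nat_lit 7) (nat_lit 4) (nat_lit 398) (nat_lit 288) (nat_lit 202)) (XT.nd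 (nat_lit 94) (nat_lit 0) (nat_lit 0) (XT.lf (nat_lit 0) (nat_lit 23130302272) (nat_lit 84) (nat_lit 5444477494) (nat_lit 168) (nat_lit 14677548234) (nat_lit 5) (nat_lit 5) (nat_lit 6) (nat_lit 5) (nat_lit 7) (nat_lit 4) (nat_lit 399) (nat_lit 288) (nat_lit 201)) (XT.lf (nat_lit 0) (nat_lit 27599930115) (nat_lit 84) (nat_lit 3214582831) (nat_lit 168) (nat_lit 13690678546) (nat_lit 5) (nat_lit 5) (nat_lit 6) (nat_lit 5) (nat_lit 7) (nat_lit 4) (nat_lit 400) (nat_lit 288) (nat_lit 200)))) (XT.nd (nat_lit 188) (nat_lit 0) (nat_lit 0) (XT.nd (nat_lit 94) (nat_lit 0) (nat_lit 0) (XT.lf (nat_lit 0) (nat_lit 32194447202) (nat_lit 84) (nat_lit 920116872) (nat_lit 168) (nat_lit 12682652379) (nat_lit 5) (nat_lit 5) (nat_lit 6) (nat_lit 5) (nat_lit 7) (nat_lit 4) (nat_lit 401) (nat_lit 288) (nat_lit 199)) (XT.lf (nat_lit 0) (nat_lit 35491372525) (nat_lit 168) (nat_lit 10225766568) (nat_lit 0)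 (nat_lit 1412024935) (nat_lit 5) (nat_lit 5) (nat_lit 7) (nat_lit 4) (nat_lit 5) (nat_lit 4) (nat_lit 402) (nat_lit 288) (nat_lit 198))) (XT.nd (nat_lit 94) (nat_lit 0) (nat_lit 0) (XT.lf (nat_lit 0) (nat_lit 37942656202) (nat_lit 168) (nat_lit 6766608073) (nat_lit 0) (nat_lit 3793150881) (nat_lit 5) (nat_lit 5) (nat_lit 7) (nat_lit 4) (nat_lit 5) (nat_lit 4) (nat_lit 403) (nat_lit 288) (nat_lit 197)) (XT.lf (nat_lit 0) (nat_lit 40461572283) (nat_lit 168) (nat_lit 3212941797) (nat_lit 0) (nat_lit 6244018727) (nat_lit 5) (nat_lit 5) (nat_lit 7) (nat_lit 4) (nat_lit 5) (nat_lit 4) (nat_lit 404) (nat_lit 288) (nat_lit 196))))))) (XT.nd (nat_lit 1222) (nat_lit 84) (nat_lit 0) (XT.nd (nat_lit 564) (nat_lit 84) (nat_lit 0) (XT.nd (nat_lit 282) (nat_lit 0) (nat_lit 0) (XT.nd (nat_lit 94) (nat_lit 0) (nat_lit 0) (XT.lf (nat_lit 0) (nat_lit 447562027) (nat_lit 84) (nat_lit 42607346506) (nat_lit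 84) (nat_lit 8323790782) (nat_lit 4) (nat_lit 4) (nat_lit 5) (nat_lit 5) (nat_lit 5) (nat_lit 4) (nat_lit 405) (nat_lit 288) (nat_lit 195)) (XT.nd (nat_lit 94) (nat_lit 0) (nat_lit 0) (XT.lf (nat_lit 0) (nat_lit 4277435632) (nat_lit 84) (nat_lit 41476755524) (nat_lit 84) (nat_lit 7129182177) (nat_lit 4) (nat_lit 4) (nat_lit 5) (nat_lit 5) (nat_lit 5) (nat_lit 4) (nat_lit 406) (nat_lit 288) (nat_lit 194)) (XT.lf (nat_lit 0) (nat_lit 8214184186) (nat_lit 84) (nat_lit 40315223826) (nat_lit 84) (nat_lit 5905557732) (nat_lit 4) (nat_lit 4) (nat_lit 5) (nat_lit 5) (nat_lit 5) (nat_lit 4) (nat_lit 407) (nat_lit 288) (nat_lit 193)))) (XT.nd (nat_lit 94) (nat_lit 0) (nat_lit 0) (XT.lf (nat_lit 0) (nat_lit 12261477153) (nat_lit 84) (nat_lit 39121668744) (nat_lit 84) (nat_lit 4651776901) (nat_lit 4) (nat_lit 4) (nat_lit 5) (nat_lit 5) (nat_lit 5) (nat_lit 4) (nat_lit 408) (nat_lit 288) (nat_lit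 192)) (XT.nd (nat_lit 94) (nat_lit 0) (nat_lit 0) (XT.lf (nat_lit 0) (nat_lit 16423087032) (nat_lit 84) (nat_lit 37894977759) (nat_lit 84) (nat_lit 3366671029) (nat_lit 4) (nat_lit 4) (nat_lit 5) (nat_lit 5) (nat_lit 5) (nat_lit 4) (nat_lit 409) (nat_lit 288) (nat_lit 191)) (XT.lf (nat_lit 0) (nat_lit 20702892881) (nat_lit 84) (nat_lit 36634007467) (nat_lit 84) (nat_lit 2049042263) (nat_lit 4) (nat_lit 4) (nat_lit 5) (nat_lit 5) (nat_lit 5) (nat_lit 4) (nat_lit 410) (nat_lit 288) (nat_lit 190))))) (XT.nd (nat_lit 282) (nat_lit 0) (nat_lit 0) (XT.nd (nat_lit 94) (nat_lit 84) (nat_lit 0) (XT.lf (nat_lit 0) (nat_lit 25104883927) (nat_lit 84) (nat_lit 35337582512) (nat_lit 84) (nat_lit 697662434) (nat_lit 4) (nat_lit 4) (nat_lit 5) (nat_lit 5) (nat_lit 5) (nat_lit 4) (nat_lit 411) (nat_lit 288) (nat_lit 189)) (XT.nd (nat_lit 94) (nat_lit 0) (nat_lit 0) (XT.lf (nat_lit 0) (nat_lit 674851748)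 (nat_lit 168) (nat_lit 33322598673) (nat_lit 84) (nat_lit 28951267470) (nat_lit 3) (nat_lit 5) (nat_lit 5) (nat_lit 5) (nat_lit 4) (nat_lit 4) (nat_lit 412) (nat_lit 288) (nat_lit 188)) (XT.lf (nat_lit 0) (nat_lit 2068881115) (nat_lit 168) (nat_lit 30543024830) (nat_lit 84) (nat_lit 32201475799) (nat_lit 3) (nat_lit 5) (nat_lit 5) (nat_lit 5) (nat_lit 4) (nat_lit 4) (nat_lit 413) (nat_lit 288) (nat_lit 187)))) (XT.nd (nat_lit 188) (nat_lit 0) (nat_lit 0) (XT.nd (nat_lit 94) (nat_lit 0) (nat_lit 0) (XT.lf (nat_lit 0) (nat_lit 3499781391) (nat_lit 168) (nat_lit 27687011667) (nat_lit 84) (nat_lit 35549279986) (nat_lit 3) (nat_lit 5) (nat_lit 5) (nat_lit 5) (nat_lit 4) (nat_lit 4) (nat_lit 414) (nat_lit 288) (nat_lit 186)) (XT.lf (nat_lit 0) (nat_lit 4968886326) (nat_lit 168) (nat_lit 24751897080) (nat_lit 84) (nat_lit 38997800534) (nat_lit 3) (nat_lit 5) (nat_lit 5) (nat_lit 5) (nat_lit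 4) (nat_lit 4) (nat_lit 415) (nat_lit 288) (nat_lit 185))) (XT.nd (nat_lit 94) (nat_lit 0) (nat_lit 0) (XT.lf (nat_lit 0) (nat_lit 6477565278) (nat_lit 168) (nat_lit 21734945234) (nat_lit 84) (nat_lit 42550251826) (nat_lit 3) (nat_lit 5) (nat_lit 5) (nat_lit 5) (nat_lit 4) (nat_lit 4) (nat_lit 416) (nat_lit 288) (nat_lit 184)) (XT.lf (nat_lit 0) (nat_lit 8027224494) (nat_lit 168) (nat_lit 18633344015) (nat_lit 84) (nat_lit 46209945119) (nat_lit 3) (nat_lit 5) (nat_lit 5) (nat_lit 5) (nat_lit 4) (nat_lit 4) (nat_lit 417) (nat_lit 288) (nat_lit 183)))))) (XT.nd (nat_lit 564) (nat_lit 0) (nat_lit 0) (XT.nd (nat_lit 282) (nat_lit 84) (nat_lit 0) (XT.nd (nat_lit 94) (nat_lit 0) (nat_lit 0) (XT.lf (nat_lit 0) (nat_lit 9619308420) (nat_lit 168) (nat_lit 15444202406) (nat_lit 84) (nat_lit 49980291630) (nat_lit 3) (nat_lit 5) (nat_lit 5) (nat_lit 5) (nat_lit 4) (nat_lit 4) (nat_lit 418) (nat_lit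 288) (nat_lit 182)) (XT.nd (nat_lit 94) (nat_lit 0) (nat_lit 0) (XT.lf (nat_lit 0) (nat_lit 11255301044) (nat_lit 168) (nat_lit 12164547792) (nat_lit 84) (nat_lit 53864805718) (nat_lit 3) (nat_lit 5) (nat_lit 5) (nat_lit 5) (nat_lit 4) (nat_lit 4) (nat_lit 419) (nat_lit 288) (nat_lit 181)) (XT.lf (nat_lit 0) (nat_lit 12936727283) (nat_lit 168) (nat_lit 8791323191) (nat_lit 84) (nat_lit 57867108156) (nat_lit 3) (nat_lit 5) (nat_lit 5) (nat_lit 5) (nat_lit 4) (nat_lit 4) (nat_lit 420) (nat_lit 288) (nat_lit 180)))) (XT.nd (nat_lit 94) (nat_lit 84) (nat_lit 0) (XT.lf (nat_lit 0) (nat_lit 14665154402) (nat_lit 168) (nat_lit 5321384406) (nat_lit 84) (nat_lit 61990929509) (nat_lit 3) (nat_lit 5) (nat_lit 5) (nat_lit 5) (nat_lit 4) (nat_lit 4) (nat_lit 421) (nat_lit 288) (nat_lit 179)) (XT.nd (nat_lit 94) (nat_lit 84) (nat_lit 0) (XT.lf (nat_lit 0) (nat_lit 16442193476) (nat_lit 168) (nat_lit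 1751497089) (nat_lit 84) (nat_lit 66240113610) (nat_lit 3) (nat_lit 5) (nat_lit 5) (nat_lit 5) (nat_lit 4) (nat_lit 4) (nat_lit 422) (nat_lit 288) (nat_lit 178)) (XT.lf (nat_lit 0) (nat_lit 1961179667) (nat_lit 84) (nat_lit 16327776369) (nat_lit 168) (nat_lit 68676896624) (nat_lit 2) (nat_lit 5) (nat_lit 3) (nat_lit 5) (nat_lit 4) (nat_lit 4) (nat_lit 423) (nat_lit 288) (nat_lit 177))))) (XT.nd (nat_lit 282) (nat_lit 0) (nat_lit 0) (XT.nd (nat_lit 94) (nat_lit 0) (nat_lit 0) (XT.lf (nat_lit 0) (nat_lit 5818764577) (nat_lit 84) (nat_lit 14387738179) (nat_lit 168) (nat_lit 69369491630) (nat_lit 2) (nat_lit 5) (nat_lit 3) (nat_lit 5) (nat_lit 4) (nat_lit 4) (nat_lit 424) (nat_lit 288) (nat_lit 176)) (XT.nd (nat_lit 94) (nat_lit 0) (nat_lit 0) (XT.lf (nat_lit 0) (nat_lit 9788838940) (nat_lit 84) (nat_lit 12390049713) (nat_lit 168) (nat_lit 70088323329) (nat_lit 2) (nat_lit 5) (nat_lit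 3) (nat_lit 5) (nat_lit 4) (nat_lit 4) (nat_lit 425) (nat_lit 288) (nat_lit 175)) (XT.lf (nat_lit 0) (nat_lit 13875103282) (nat_lit 84) (nat_lit 10332848917) (nat_lit 168) (nat_lit 70834061745) (nat_lit 2) (nat_lit 5) (nat_lit 3) (nat_lit 5) (nat_lit 4) (nat_lit 4) (nat_lit 426) (nat_lit 288) (nat_lit 174)))) (XT.nd (nat_lit 44744) (nat_lit 0) (nat_lit 10500) (XT.nd (nat_lit 94) (nat_lit 0) (nat_lit 0) (XT.lf (nat_lit 0) (nat_lit 18081366430) (nat_lit 84) (nat_lit 8214218263) (nat_lit 168) (nat_lit 71607401986) (nat_lit 2) (nat_lit 5) (nat_lit 3) (nat_lit 5) (nat_lit 4) (nat_lit 4) (nat_lit 427) (nat_lit 288) (nat_lit 173)) (XT.lf (nat_lit 0) (nat_lit 22411549060) (nat_lit 84) (nat_lit 6032182966) (nat_lit 168) (nat_lit 72409064886) (nat_lit 2) (nat_lit 5) (nat_lit 3) (nat_lit 5) (nat_lit 4) (nat_lit 4) (nat_lit 428) (nat_lit 288) (nat_lit 172))) (XT.nd (nat_lit 94) (nat_lit 588)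 (nat_lit 0) (XT.lf (nat_lit 0) (nat_lit 2005015039) (nat_lit 420) (nat_lit 675737488) (nat_lit 420) (nat_lit 675737488) (nat_lit 134) (nat_lit 4) (nat_lit 139) (nat_lit 5) (nat_lit 139) (nat_lit 4) (nat_lit 310) (nat_lit 289) (nat_lit 289)) (XT.lf (nat_lit 0) (nat_lit 242022671) (nat_lit 504) (nat_lit 703687183) (nat_lit 588) (nat_lit 5809459533) (nat_lit 127) (nat_lit 5) (nat_lit 133) (nat_lit 5) (nat_lit 134) (nat_lit 4) (nat_lit 311) (nat_lit 289) (nat_lit 288))))))))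
noncomputable def xc68 : XT := (XT.nd (nat_lit 2350) (nat_lit 2604) (nat_lit 0) (XT.nd (nat_lit 1128) (nat_lit 2604) (nat_lit 0) (XT.nd (nat_lit 564) (nat_lit 2604) (nat_lit 0) (XT.nd (nat_lit 282) (nat_lit 756) (nat_lit 0) (XT.nd (nat_lit 94) (nat_lit 672) (nat_lit 0) (XT.lf (nat_lit 0) (nat_lit 3233905532) (nat_lit 588) (nat_lit 3540413427) (nat_lit 0) (nat_lit 26385949) (nat_lit 127) (nat_lit 5) (nat_lit 134) (nat_lit 4) (nat_lit 127) (nat_lit 4) (nat_lit 312) (nat_lit 289) (nat_lit 287)) (XT.nd (nat_lit 94) (nat_lit 672) (nat_lit 0) (XT.lf (nat_lit 0) (nat_lit 5522370981) (nat_lit 588) (nat_lit 545240750) (nat_lit 0) (nat_lit 783056114) (nat_lit 127) (nat_lit 5) (nat_lit 134) (nat_lit 4) (nat_lit 127) (nat_lit 4) (nat_lit 313) (nat_lit 289) (nat_lit 286)) (XT.lf (nat_lit 0) (nat_lit 908172062) (nat_lit 672) (nat_lit 4380554830) (nat_lit 84) (nat_lit 1615530240) (nat_lit 119)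 (nat_lit 5) (nat_lit 127) (nat_lit 5) (nat_lit 120) (nat_lit 4) (nat_lit 314) (nat_lit 289) (nat_lit 285)))) (XT.nd (nat_lit 94) (nat_lit 756) (nat_lit 0) (XT.lf (nat_lit 0) (nat_lit 3116768168) (nat_lit 672) (nat_lit 1335960565) (nat_lit 84) (nat_lit 2509268765) (nat_lit 119) (nat_lit 5) (nat_lit 127) (nat_lit 5) (nat_lit 120) (nat_lit 4) (nat_lit 315) (nat_lit 289) (nat_lit 284)) (XT.nd (nat_lit 94) (nat_lit 84) (nat_lit 0) (XT.lf (nat_lit 0) (nat_lit 1778393683) (nat_lit 672) (nat_lit 3559983988) (nat_lit 756) (nat_lit 1685599550) (nat_lit 111) (nat_lit 5) (nat_lit 119) (nat_lit 5) (nat_lit 120) (nat_lit 4) (nat_lit 316) (nat_lit 289) (nat_lit 283)) (XT.lf (nat_lit 0) (nat_lit 471250450) (nat_lit 756) (nat_lit 2137368130) (nat_lit 84) (nat_lit 4481604163) (nat_lit 110) (nat_lit 5) (nat_lit 119) (nat_lit 5) (nat_lit 111) (nat_lit 5) (nat_lit 317) (nat_lit 289) (nat_lit 282)))))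 (XT.nd (nat_lit 282) (nat_lit 1008) (nat_lit 0) (XT.nd (nat_lit 94) (nat_lit 840) (nat_lit 0) (XT.lf (nat_lit 0) (nat_lit 1010152108) (nat_lit 756) (nat_lit 1589093996) (nat_lit 840) (nat_lit 4561289569) (nat_lit 101) (nat_lit 5) (nat_lit 110) (nat_lit 5) (nat_lit 111) (nat_lit 5) (nat_lit 318) (nat_lit 289) (nat_lit 281)) (XT.nd (nat_lit 94) (nat_lit 840) (nat_lit 0) (XT.lf (nat_lit 0) (nat_lit 4241003204) (nat_lit 756) (nat_lit 505328233) (nat_lit 840) (nat_lit 2488796492) (nat_lit 101) (nat_lit 5) (nat_lit 110) (nat_lit 5) (nat_lit 111) (nat_lit 5) (nat_lit 319) (nat_lit 289) (nat_lit 280)) (XT.lf (nat_lit 0) (nat_lit 197319519) (nat_lit 840) (nat_lit 6703670895) (nat_lit 924) (nat_lit 413497662) (nat_lit 91) (nat_lit 5) (nat_lit 101) (nat_lit 5) (nat_lit 102) (nat_lit 4) (nat_lit 320) (nat_lit 289) (nat_lit 279)))) (XT.nd (nat_lit 94) (nat_lit 924) (nat_lit 0) (XT.lf (nat_lit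 0) (nat_lit 1661236789) (nat_lit 924) (nat_lit 3928692792) (nat_lit 84) (nat_lit 1807371555) (nat_lit 90) (nat_lit 5) (nat_lit 101) (nat_lit 5) (nat_lit 91) (nat_lit 5) (nat_lit 321) (nat_lit 289) (nat_lit 278)) (XT.nd (nat_lit 94) (nat_lit 924) (nat_lit 0) (XT.lf (nat_lit 0) (nat_lit 3726847729) (nat_lit 924) (nat_lit 705655960) (nat_lit 84) (nat_lit 3052629083) (nat_lit 90) (nat_lit 5) (nat_lit 101) (nat_lit 5) (nat_lit 91) (nat_lit 5) (nat_lit 322) (nat_lit 289) (nat_lit 277)) (XT.lf (nat_lit 0) (nat_lit 2611667371) (nat_lit 924) (nat_lit 3207832272) (nat_lit 1008) (nat_lit 1757889220) (nat_lit 79) (nat_lit 5) (nat_lit 90) (nat_lit 5) (nat_lit 91) (nat_lit 5) (nat_lit 323) (nat_lit 289) (nat_lit 276)))))) (XT.nd (nat_lit 564) (nat_lit 1260) (nat_lit 0) (XT.nd (nat_lit 282) (nat_lit 588) (nat_lit 0) (XT.nd (nat_lit 94) (nat_lit 672) (nat_lit 0) (XT.lf (nat_lit 0) (nat_lit 243085535)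 (nat_lit 1008) (nat_lit 1688054784) (nat_lit 84) (nat_lit 5743507190) (nat_lit 78) (nat_lit 5) (nat_lit 90) (nat_lit 5) (nat_lit 79) (nat_lit 5) (nat_lit 324) (nat_lit 289) (nat_lit 275)) (XT.nd (nat_lit 94) (nat_lit 0) (nat_lit 0) (XT.lf (nat_lit 0) (nat_lit 1648778563) (nat_lit 672) (nat_lit 576300070) (nat_lit 756) (nat_lit 5551170906) (nat_lit 70) (nat_lit 5) (nat_lit 78) (nat_lit 5) (nat_lit 79) (nat_lit 5) (nat_lit 325) (nat_lit 289) (nat_lit 274)) (XT.lf (nat_lit 0) (nat_lit 4234888965) (nat_lit 756) (nat_lit 2823395759) (nat_lit 84) (nat_lit 824249973) (nat_lit 70) (nat_lit 5) (nat_lit 79) (nat_lit 5) (nat_lit 71) (nat_lit 5) (nat_lit 326) (nat_lit 289) (nat_lit 273)))) (XT.nd (nat_lit 94) (nat_lit 84) (nat_lit 0) (XT.lf (nat_lit 0) (nat_lit 530221941) (nat_lit 504) (nat_lit 5730162063) (nat_lit 588) (nat_lit 1733652232) (nat_lit 64) (nat_lit 5) (nat_lit 70) (nat_lit 5) (nat_lit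 71) (nat_lit 5) (nat_lit 327) (nat_lit 289) (nat_lit 272)) (XT.nd (nat_lit 94) (nat_lit 0) (nat_lit 0) (XT.lf (nat_lit 0) (nat_lit 206983728) (nat_lit 588) (nat_lit 4121825228) (nat_lit 84) (nat_lit 3781423519) (nat_lit 63) (nat_lit 5) (nat_lit 70) (nat_lit 5) (nat_lit 64) (nat_lit 5) (nat_lit 328) (nat_lit 289) (nat_lit 271)) (XT.lf (nat_lit 0) (nat_lit 2115866017) (nat_lit 588) (nat_lit 750921811) (nat_lit 84) (nat_lit 5364860895) (nat_lit 63) (nat_lit 5) (nat_lit 70) (nat_lit 5) (nat_lit 64) (nat_lit 5) (nat_lit 329) (nat_lit 289) (nat_lit 270))))) (XT.nd (nat_lit 282) (nat_lit 420) (nat_lit 0) (XT.nd (nat_lit 94) (nat_lit 420) (nat_lit 0) (XT.lf (nat_lit 0) (nat_lit 2724121002) (nat_lit 420) (nat_lit 1332605756) (nat_lit 504) (nat_lit 4301366802) (nat_lit 58) (nat_lit 5) (nat_lit 63) (nat_lit 5) (nat_lit 64) (nat_lit 5) (nat_lit 330) (nat_lit 289) (nat_lit 269)) (XT.nd (nat_lit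 94) (nat_lit 420) (nat_lit 0) (XT.lf (nat_lit 0) (nat_lit 6014995807) (nat_lit 504) (nat_lit 2224682450) (nat_lit 84) (nat_lit 250514344) (nat_lit 58) (nat_lit 5) (nat_lit 64) (nat_lit 5) (nat_lit 59) (nat_lit 5) (nat_lit 331) (nat_lit 289) (nat_lit 268)) (XT.lf (nat_lit 0) (nat_lit 1246766482) (nat_lit 420) (nat_lit 6761652178) (nat_lit 504) (nat_lit 619156791) (nat_lit 53) (nat_lit 5) (nat_lit 58) (nat_lit 5) (nat_lit 59) (nat_lit 5) (nat_lit 332) (nat_lit 289) (nat_lit 267)))) (XT.nd (nat_lit 188) (nat_lit 336) (nat_lit 0) (XT.nd (nat_lit 94) (nat_lit 0) (nat_lit 0) (XT.lf (nat_lit 0) (nat_lit 1240365235) (nat_lit 504) (nat_lit 3964476193) (nat_lit 84) (nat_lit 3565218036) (nat_lit 52) (nat_lit 5) (nat_lit 58) (nat_lit 5) (nat_lit 53) (nat_lit 5) (nat_lit 333) (nat_lit 289) (nat_lit 266)) (XT.lf (nat_lit 0) (nat_lit 3094783470) (nat_lit 504) (nat_lit 502782034) (nat_lit 84) (nat_lit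 5321107085) (nat_lit 52) (nat_lit 5) (nat_lit 58) (nat_lit 5) (nat_lit 53) (nat_lit 5) (nat_lit 334) (nat_lit 289) (nat_lit 265))) (XT.nd (nat_lit 94) (nat_lit 0) (nat_lit 0) (XT.lf (nat_lit 0) (nat_lit 3075608947) (nat_lit 336) (nat_lit 1913202528) (nat_lit 420) (nat_lit 4083986457) (nat_lit 48) (nat_lit 5) (nat_lit 52) (nat_lit 5) (nat_lit 53) (nat_lit 5) (nat_lit 335) (nat_lit 289) (nat_lit 264)) (XT.lf (nat_lit 0) (nat_lit 6723538750) (nat_lit 336) (nat_lit 175814566) (nat_lit 420) (nat_lit 2333996538) (nat_lit 48) (nat_lit 5) (nat_lit 52) (nat_lit 5) (nat_lit 53) (nat_lit 5) (nat_lit 336) (nat_lit 289) (nat_lit 263))))))) (XT.nd (nat_lit 1222) (nat_lit 840) (nat_lit 0) (XT.nd (nat_lit 564) (nat_lit 924) (nat_lit 0) (XT.nd (nat_lit 282) (nat_lit 336) (nat_lit 0) (XT.nd (nat_lit 94) (nat_lit 84) (nat_lit 0) (XT.lf (nat_lit 0) (nat_lit 1038373483) (nat_lit 420) (nat_lit 7811007934)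 (nat_lit 504) (nat_lit 550439654) (nat_lit 43) (nat_lit 5) (nat_lit 48) (nat_lit 5) (nat_lit 49) (nat_lit 5) (nat_lit 337) (nat_lit 289) (nat_lit 262)) (XT.nd (nat_lit 94) (nat_lit 0) (nat_lit 0) (XT.lf (nat_lit 0) (nat_lit 1244742207) (nat_lit 504) (nat_lit 4888654658) (nat_lit 84) (nat_lit 3438519389) (nat_lit 42) (nat_lit 5) (nat_lit 48) (nat_lit 5) (nat_lit 43) (nat_lit 5) (nat_lit 338) (nat_lit 289) (nat_lit 261)) (XT.lf (nat_lit 0) (nat_lit 3039552872) (nat_lit 504) (nat_lit 1365168585) (nat_lit 84) (nat_lit 5346133960) (nat_lit 42) (nat_lit 5) (nat_lit 48) (nat_lit 5) (nat_lit 43) (nat_lit 5) (nat_lit 339) (nat_lit 289) (nat_lit 260)))) (XT.nd (nat_lit 94) (nat_lit 0) (nat_lit 0) (XT.lf (nat_lit 0) (nat_lit 2263356916) (nat_lit 336) (nat_lit 2605851289) (nat_lit 420) (nat_lit 5067070383) (nat_lit 38) (nat_lit 5) (nat_lit 42) (nat_lit 5) (nat_lit 43) (nat_lit 5) (nat_lit 340)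 (nat_lit 289) (nat_lit 259)) (XT.nd (nat_lit 94) (nat_lit 0) (nat_lit 0) (XT.lf (nat_lit 0) (nat_lit 5984021409) (nat_lit 336) (nat_lit 743375191) (nat_lit 420) (nat_lit 3401210529) (nat_lit 38) (nat_lit 5) (nat_lit 42) (nat_lit 5) (nat_lit 43) (nat_lit 5) (nat_lit 341) (nat_lit 289) (nat_lit 258)) (XT.lf (nat_lit 0) (nat_lit 8613637439) (nat_lit 420) (nat_lit 567834951) (nat_lit 84) (nat_lit 1146616511) (nat_lit 38) (nat_lit 5) (nat_lit 43) (nat_lit 5) (nat_lit 39) (nat_lit 5) (nat_lit 342) (nat_lit 289) (nat_lit 257))))) (XT.nd (nat_lit 282) (nat_lit 504) (nat_lit 0) (XT.nd (nat_lit 94) (nat_lit 0) (nat_lit 0) (XT.lf (nat_lit 0) (nat_lit 22467268) (nat_lit 420) (nat_lit 7406895936) (nat_lit 84) (nat_lit 3104693171) (nat_lit 33) (nat_lit 5) (nat_lit 38) (nat_lit 5) (nat_lit 34) (nat_lit 5) (nat_lit 343) (nat_lit 289) (nat_lit 256)) (XT.nd (nat_lit 94) (nat_lit 0) (nat_lit 0) (XT.lf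 (nat_lit 0) (nat_lit 1743696666) (nat_lit 420) (nat_lit 3863476717) (nat_lit 84) (nat_lit 5139994308) (nat_lit 33) (nat_lit 5) (nat_lit 38) (nat_lit 5) (nat_lit 34) (nat_lit 5) (nat_lit 344) (nat_lit 289) (nat_lit 255)) (XT.lf (nat_lit 0) (nat_lit 3479575857) (nat_lit 420) (nat_lit 257151055) (nat_lit 84) (nat_lit 7231601849) (nat_lit 33) (nat_lit 5) (nat_lit 38) (nat_lit 5) (nat_lit 34) (nat_lit 5) (nat_lit 345) (nat_lit 289) (nat_lit 254)))) (XT.nd (nat_lit 188) (nat_lit 252) (nat_lit 0) (XT.nd (nat_lit 94) (nat_lit 0) (nat_lit 0) (XT.lf (nat_lit 0) (nat_lit 3485671023) (nat_lit 252) (nat_lit 1780630127) (nat_lit 336) (nat_lit 5930372657) (nat_lit 30) (nat_lit 5) (nat_lit 33) (nat_lit 5) (nat_lit 34) (nat_lit 5) (nat_lit 346) (nat_lit 289) (nat_lit 253)) (XT.lf (nat_lit 0) (nat_lit 7076524686) (nat_lit 336) (nat_lit 4130769467) (nat_lit 84) (nat_lit 226020925) (nat_lit 30) (nat_lit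 5) (nat_lit 34) (nat_lit 5) (nat_lit 31) (nat_lit 5) (nat_lit 347) (nat_lit 289) (nat_lit 252))) (XT.nd (nat_lit 94) (nat_lit 252) (nat_lit 0) (XT.lf (nat_lit 0) (nat_lit 8925243615) (nat_lit 336) (nat_lit 502724232) (nat_lit 84) (nat_lit 2250092698) (nat_lit 30) (nat_lit 5) (nat_lit 34) (nat_lit 5) (nat_lit 31) (nat_lit 5) (nat_lit 348) (nat_lit 289) (nat_lit 251)) (XT.lf (nat_lit 0) (nat_lit 3259857574) (nat_lit 252) (nat_lit 7568997684) (nat_lit 336) (nat_lit 1101828182) (nat_lit 27) (nat_lit 5) (nat_lit 30) (nat_lit 5) (nat_lit 31) (nat_lit 5) (nat_lit 349) (nat_lit 289) (nat_lit 250)))))) (XT.nd (nat_lit 564) (nat_lit 252) (nat_lit 0) (XT.nd (nat_lit 282) (nat_lit 252) (nat_lit 0) (XT.nd (nat_lit 94) (nat_lit 252) (nat_lit 0) (XT.lf (nat_lit 0) (nat_lit 558853924) (nat_lit 336) (nat_lit 5091333333) (nat_lit 84) (nat_lit 6541879527) (nat_lit 26) (nat_lit 5) (nat_lit 30) (nat_lit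 5) (nat_lit 27) (nat_lit 5) (nat_lit 350) (nat_lit 289) (nat_lit 249)) (XT.nd (nat_lit 94) (nat_lit 252) (nat_lit 0) (XT.lf (nat_lit 0) (nat_lit 2214479918) (nat_lit 336) (nat_lit 1454906203) (nat_lit 84) (nat_lit 8793057212) (nat_lit 26) (nat_lit 5) (nat_lit 30) (nat_lit 5) (nat_lit 27) (nat_lit 5) (nat_lit 351) (nat_lit 289) (nat_lit 248)) (XT.lf (nat_lit 0) (nat_lit 2299097008) (nat_lit 252) (nat_lit 1612502719) (nat_lit 336) (nat_lit 8830097192) (nat_lit 23) (nat_lit 5) (nat_lit 26) (nat_lit 5) (nat_lit 27) (nat_lit 5) (nat_lit 352) (nat_lit 289) (nat_lit 247)))) (XT.nd (nat_lit 94) (nat_lit 252) (nat_lit 0) (XT.lf (nat_lit 0) (nat_lit 5649559631) (nat_lit 336) (nat_lit 6876159812) (nat_lit 84) (nat_lit 504437695) (nat_lit 23) (nat_lit 5) (nat_lit 27) (nat_lit 5) (nat_lit 24) (nat_lit 5) (nat_lit 353) (nat_lit 289) (nat_lit 246)) (XT.nd (nat_lit 94) (nat_lit 252) (nat_lit 0)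 (XT.lf (nat_lit 0) (nat_lit 7426702147) (nat_lit 336) (nat_lit 3256529592) (nat_lit 84) (nat_lit 2644962726) (nat_lit 23) (nat_lit 5) (nat_lit 27) (nat_lit 5) (nat_lit 24) (nat_lit 5) (nat_lit 354) (nat_lit 289) (nat_lit 245)) (XT.lf (nat_lit 0) (nat_lit 444618927) (nat_lit 252) (nat_lit 8788479280) (nat_lit 336) (nat_lit 4403347650) (nat_lit 20) (nat_lit 5) (nat_lit 23) (nat_lit 5) (nat_lit 24) (nat_lit 5) (nat_lit 355) (nat_lit 289) (nat_lit 244))))) (XT.nd (nat_lit 282) (nat_lit 168) (nat_lit 0) (XT.nd (nat_lit 94) (nat_lit 84) (nat_lit 0) (XT.lf (nat_lit 0) (nat_lit 4290292855) (nat_lit 252) (nat_lit 6809462807) (nat_lit 336) (nat_lit 2854533926) (nat_lit 20) (nat_lit 5) (nat_lit 23) (nat_lit 5) (nat_lit 24) (nat_lit 5) (nat_lit 356) (nat_lit 289) (nat_lit 243)) (XT.nd (nat_lit 94) (nat_lit 84) (nat_lit 0) (XT.lf (nat_lit 0) (nat_lit 8217115835) (nat_lit 252) (nat_lit 4778329160)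 (nat_lit 336) (nat_lit 1287598978) (nat_lit 20) (nat_lit 5) (nat_lit 23) (nat_lit 5) (nat_lit 24) (nat_lit 5) (nat_lit 357) (nat_lit 289) (nat_lit 242)) (XT.lf (nat_lit 0) (nat_lit 292895212) (nat_lit 336) (nat_lit 2397232672) (nat_lit 84) (nat_lit 11932795639) (nat_lit 19) (nat_lit 5) (nat_lit 23) (nat_lit 5) (nat_lit 20) (nat_lit 5) (nat_lit 358) (nat_lit 289) (nat_lit 241)))) (XT.nd (nat_lit 188) (nat_lit 0) (nat_lit 0) (XT.nd (nat_lit 94) (nat_lit 0) (nat_lit 0) (XT.lf (nat_lit 0) (nat_lit 1362955796) (nat_lit 168) (nat_lit 518648293) (nat_lit 252) (nat_lit 13091911375) (nat_lit 17) (nat_lit 5) (nat_lit 19) (nat_lit 5) (nat_lit 20) (nat_lit 5) (nat_lit 359) (nat_lit 289) (nat_lit 240)) (XT.lf (nat_lit 0) (nat_lit 3534730079) (nat_lit 252) (nat_lit 10098042486) (nat_lit 84) (nat_lit 1701877829) (nat_lit 17) (nat_lit 5) (nat_lit 20) (nat_lit 5) (nat_lit 18) (nat_lit 5) (nat_lit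 360) (nat_lit 289) (nat_lit 239))) (XT.nd (nat_lit 94) (nat_lit 0) (nat_lit 0) (XT.lf (nat_lit 0) (nat_lit 5218049576) (nat_lit 252) (nat_lit 6517880335) (nat_lit 84) (nat_lit 3971843717) (nat_lit 17) (nat_lit 5) (nat_lit 20) (nat_lit 5) (nat_lit 18) (nat_lit 5) (nat_lit 361) (nat_lit 289) (nat_lit 238)) (XT.lf (nat_lit 0) (nat_lit 6927986555) (nat_lit 252) (nat_lit 2861591075) (nat_lit 84) (nat_lit 6303814822) (nat_lit 17) (nat_lit 5) (nat_lit 20) (nat_lit 5) (nat_lit 18) (nat_lit 5) (nat_lit 362) (nat_lit 289) (nat_lit 237))))))))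
noncomputable def xc69 : XT := (XT.nd (nat_lit 2350) (nat_lit 252) (nat_lit 0) (XT.nd (nat_lit 1128) (nat_lit 336) (nat_lit 0) (XT.nd (nat_lit 564) (nat_lit 252) (nat_lit 0) (XT.nd (nat_lit 282) (nat_lit 168) (nat_lit 0) (XT.nd (nat_lit 94) (nat_lit 0) (nat_lit 0) (XT.lf (nat_lit 0) (nat_lit 892209369) (nat_lit 168) (nat_lit 7782776315) (nat_lit 252) (nat_lit 7816606244) (nat_lit 15) (nat_lit 5) (nat_lit 17) (nat_lit 5) (nat_lit 18) (nat_lit 5) (nat_lit 363) (nat_lit 289) (nat_lit 236)) (XT.nd (nat_lit 94) (nat_lit 0) (nat_lit 0) (XT.lf (nat_lit 0) (nat_lit 4789574335) (nat_lit 168) (nat_lit 5692053452) (nat_lit 252) (nat_lit 6420465906) (nat_lit 15) (nat_lit 5) (nat_lit 17) (nat_lit 5) (nat_lit 18) (nat_lit 5) (nat_lit 364) (nat_lit 289) (nat_lit 235)) (XT.lf (nat_lit 0) (nat_lit 8775296394) (nat_lit 168) (nat_lit 3545329410) (nat_lit 252) (nat_lit 5005552676) (nat_lit 15) (nat_lit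 5) (nat_lit 17) (nat_lit 5) (nat_lit 18) (nat_lit 5) (nat_lit 365) (nat_lit 289) (nat_lit 234)))) (XT.nd (nat_lit 94) (nat_lit 168) (nat_lit 0) (XT.lf (nat_lit 0) (nat_lit 12853090657) (nat_lit 168) (nat_lit 1340603219) (nat_lit 252) (nat_lit 3570547707) (nat_lit 15) (nat_lit 5) (nat_lit 17) (nat_lit 5) (nat_lit 18) (nat_lit 5) (nat_lit 366) (nat_lit 289) (nat_lit 233)) (XT.nd (nat_lit 94) (nat_lit 168) (nat_lit 0) (XT.lf (nat_lit 0) (nat_lit 16111745877) (nat_lit 252) (nat_lit 1199101248) (nat_lit 84) (nat_lit 905559987) (nat_lit 15) (nat_lit 5) (nat_lit 18) (nat_lit 5) (nat_lit 16) (nat_lit 4) (nat_lit 367) (nat_lit 289) (nat_lit 232)) (XT.lf (nat_lit 0) (nat_lit 2637119918) (nat_lit 168) (nat_lit 15470349411) (nat_lit 252) (nat_lit 574669314) (nat_lit 13) (nat_lit 5) (nat_lit 15) (nat_lit 5) (nat_lit 16) (nat_lit 4) (nat_lit 368) (nat_lit 289) (nat_lit 231))))) (XT.nd (nat_lit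 282) (nat_lit 168) (nat_lit 0) (XT.nd (nat_lit 94) (nat_lit 0) (nat_lit 0) (XT.lf (nat_lit 0) (nat_lit 973561146) (nat_lit 252) (nat_lit 12584878485) (nat_lit 84) (nat_lit 5603945197) (nat_lit 12) (nat_lit 5) (nat_lit 15) (nat_lit 5) (nat_lit 13) (nat_lit 5) (nat_lit 369) (nat_lit 289) (nat_lit 230)) (XT.nd (nat_lit 94) (nat_lit 0) (nat_lit 0) (XT.lf (nat_lit 0) (nat_lit 2536867799) (nat_lit 252) (nat_lit 9052999765) (nat_lit 84) (nat_lit 8068222821) (nat_lit 12) (nat_lit 5) (nat_lit 15) (nat_lit 5) (nat_lit 13) (nat_lit 5) (nat_lit 370) (nat_lit 289) (nat_lit 229)) (XT.lf (nat_lit 0) (nat_lit 4128286114) (nat_lit 252) (nat_lit 5440389695) (nat_lit 84) (nat_lit 10601218279) (nat_lit 12) (nat_lit 5) (nat_lit 15) (nat_lit 5) (nat_lit 13) (nat_lit 5) (nat_lit 371) (nat_lit 289) (nat_lit 228)))) (XT.nd (nat_lit 94) (nat_lit 168) (nat_lit 0) (XT.lf (nat_lit 0) (nat_lit 5749299462) (nat_lit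 252) (nat_lit 1743680943) (nat_lit 84) (nat_lit 13205292587) (nat_lit 12) (nat_lit 5) (nat_lit 15) (nat_lit 5) (nat_lit 13) (nat_lit 5) (nat_lit 372) (nat_lit 289) (nat_lit 227)) (XT.nd (nat_lit 94) (nat_lit 0) (nat_lit 0) (XT.lf (nat_lit 0) (nat_lit 2082530560) (nat_lit 168) (nat_lit 5339547196) (nat_lit 252) (nat_lit 13821001417) (nat_lit 10) (nat_lit 5) (nat_lit 12) (nat_lit 5) (nat_lit 13) (nat_lit 5) (nat_lit 373) (nat_lit 289) (nat_lit 226)) (XT.lf (nat_lit 0) (nat_lit 6037540063) (nat_lit 168) (nat_lit 3108537144) (nat_lit 252) (nat_lit 12658808434) (nat_lit 10) (nat_lit 5) (nat_lit 12) (nat_lit 5) (nat_lit 13) (nat_lit 5) (nat_lit 374) (nat_lit 289) (nat_lit 225)))))) (XT.nd (nat_lit 564) (nat_lit 252) (nat_lit 0) (XT.nd (nat_lit 282) (nat_lit 84) (nat_lit 0) (XT.nd (nat_lit 94) (nat_lit 0) (nat_lit 0) (XT.lf (nat_lit 0) (nat_lit 10089180392) (nat_lit 168) (nat_lit 816071168)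 (nat_lit 252) (nat_lit 11479511747) (nat_lit 10) (nat_lit 5) (nat_lit 12) (nat_lit 5) (nat_lit 13) (nat_lit 5) (nat_lit 375) (nat_lit 289) (nat_lit 224)) (XT.nd (nat_lit 94) (nat_lit 0) (nat_lit 0) (XT.lf (nat_lit 0) (nat_lit 12716517417) (nat_lit 252) (nat_lit 8757301445) (nat_lit 84) (nat_lit 1508960234) (nat_lit 10) (nat_lit 5) (nat_lit 13) (nat_lit 5) (nat_lit 11) (nat_lit 4) (nat_lit 376) (nat_lit 289) (nat_lit 223)) (XT.lf (nat_lit 0) (nat_lit 14575020120) (nat_lit 252) (nat_lit 5142660173) (nat_lit 84) (nat_lit 3882012959) (nat_lit 10) (nat_lit 5) (nat_lit 13) (nat_lit 5) (nat_lit 11) (nat_lit 4) (nat_lit 377) (nat_lit 289) (nat_lit 222)))) (XT.nd (nat_lit 94) (nat_lit 84) (nat_lit 0) (XT.lf (nat_lit 0) (nat_lit 16474396463) (nat_lit 252) (nat_lit 1440194346) (nat_lit 84) (nat_lit 6321740956) (nat_lit 10) (nat_lit 5) (nat_lit 13) (nat_lit 5) (nat_lit 11) (nat_lit 4) (nat_lit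 378) (nat_lit 289) (nat_lit 221)) (XT.nd (nat_lit 94) (nat_lit 0) (nat_lit 0) (XT.lf (nat_lit 0) (nat_lit 2401940875) (nat_lit 84) (nat_lit 16038303537) (nat_lit 168) (nat_lit 6452304982) (nat_lit 9) (nat_lit 5) (nat_lit 10) (nat_lit 5) (nat_lit 11) (nat_lit 4) (nat_lit 379) (nat_lit 289) (nat_lit 220)) (XT.lf (nat_lit 0) (nat_lit 6370450777) (nat_lit 84) (nat_lit 14095636367) (nat_lit 168) (nat_lit 5103128246) (nat_lit 9) (nat_lit 5) (nat_lit 10) (nat_lit 5) (nat_lit 11) (nat_lit 4) (nat_lit 380) (nat_lit 289) (nat_lit 219))))) (XT.nd (nat_lit 282) (nat_lit 252) (nat_lit 0) (XT.nd (nat_lit 94) (nat_lit 0) (nat_lit 0) (XT.lf (nat_lit 0) (nat_lit 10439421074) (nat_lit 84) (nat_lit 12099811206) (nat_lit 168) (nat_lit 3728180194) (nat_lit 9) (nat_lit 5) (nat_lit 10) (nat_lit 5) (nat_lit 11) (nat_lit 4) (nat_lit 381) (nat_lit 289) (nat_lit 218)) (XT.nd (nat_lit 94) (nat_lit 0) (nat_lit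 0) (XT.lf (nat_lit 0) (nat_lit 14612644475) (nat_lit 84) (nat_lit 10048967735) (nat_lit 168) (nat_lit 2326179232) (nat_lit 9) (nat_lit 5) (nat_lit 10) (nat_lit 5) (nat_lit 11) (nat_lit 4) (nat_lit 382) (nat_lit 289) (nat_lit 217)) (XT.lf (nat_lit 0) (nat_lit 18894010860) (nat_lit 84) (nat_lit 7941194354) (nat_lit 168) (nat_lit 895818547) (nat_lit 9) (nat_lit 5) (nat_lit 10) (nat_lit 5) (nat_lit 11) (nat_lit 4) (nat_lit 383) (nat_lit 289) (nat_lit 216)))) (XT.nd (nat_lit 188) (nat_lit 168) (nat_lit 0) (XT.nd (nat_lit 94) (nat_lit 0) (nat_lit 0) (XT.lf (nat_lit 0) (nat_lit 552867025) (nat_lit 168) (nat_lit 5215888574) (nat_lit 84) (nat_lit 22728873088) (nat_lit 8) (nat_lit 5) (nat_lit 10) (nat_lit 5) (nat_lit 9) (nat_lit 5) (nat_lit 384) (nat_lit 289) (nat_lit 215)) (XT.lf (nat_lit 0) (nat_lit 2013932075) (nat_lit 168) (nat_lit 1511990906) (nat_lit 84) (nat_lit 25762286435) (nat_lit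 8) (nat_lit 5) (nat_lit 10) (nat_lit 5) (nat_lit 9) (nat_lit 5) (nat_lit 385) (nat_lit 289) (nat_lit 214))) (XT.nd (nat_lit 94) (nat_lit 0) (nat_lit 0) (XT.lf (nat_lit 0) (nat_lit 2334044956) (nat_lit 168) (nat_lit 1195896275) (nat_lit 252) (nat_lit 26573119336) (nat_lit 6) (nat_lit 5) (nat_lit 8) (nat_lit 5) (nat_lit 9) (nat_lit 5) (nat_lit 386) (nat_lit 289) (nat_lit 213)) (XT.lf (nat_lit 0) (nat_lit 5107505281) (nat_lit 252) (nat_lit 24643369152) (nat_lit 84) (nat_lit 1191906100) (nat_lit 6) (nat_lit 5) (nat_lit 9) (nat_lit 5) (nat_lit 7) (nat_lit 4) (nat_lit 387) (nat_lit 289) (nat_lit 212))))))) (XT.nd (nat_lit 1222) (nat_lit 168) (nat_lit 0) (XT.nd (nat_lit 564) (nat_lit 84) (nat_lit 0) (XT.nd (nat_lit 282) (nat_lit 0) (nat_lit 0) (XT.nd (nat_lit 94) (nat_lit 0) (nat_lit 0) (XT.lf (nat_lit 0) (nat_lit 6733254353) (nat_lit 252) (nat_lit 21452378908) (nat_lit 84) (nat_lit 3622978813)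 (nat_lit 6) (nat_lit 5) (nat_lit 9) (nat_lit 5) (nat_lit 7) (nat_lit 4) (nat_lit 388) (nat_lit 289) (nat_lit 211)) (XT.nd (nat_lit 94) (nat_lit 0) (nat_lit 0) (XT.lf (nat_lit 0) (nat_lit 8396840376) (nat_lit 252) (nat_lit 18181207102) (nat_lit 84) (nat_lit 6123682523) (nat_lit 6) (nat_lit 5) (nat_lit 9) (nat_lit 5) (nat_lit 7) (nat_lit 4) (nat_lit 389) (nat_lit 289) (nat_lit 210)) (XT.lf (nat_lit 0) (nat_lit 10099813986) (nat_lit 252) (nat_lit 14826804660) (nat_lit 84) (nat_lit 8696348148) (nat_lit 6) (nat_lit 5) (nat_lit 9) (nat_lit 5) (nat_lit 7) (nat_lit 4) (nat_lit 390) (nat_lit 289) (nat_lit 209)))) (XT.nd (nat_lit 94) (nat_lit 0) (nat_lit 0) (XT.lf (nat_lit 0) (nat_lit 11843762534) (nat_lit 252) (nat_lit 11386044928) (nat_lit 84) (nat_lit 11343373681) (nat_lit 6) (nat_lit 5) (nat_lit 9) (nat_lit 5) (nat_lit 7) (nat_lit 4) (nat_lit 391) (nat_lit 289) (nat_lit 208)) (XT.nd (nat_lit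 94) (nat_lit 0) (nat_lit 0) (XT.lf (nat_lit 0) (nat_lit 13630311562) (nat_lit 252) (nat_lit 7855720757) (nat_lit 84) (nat_lit 14067226428) (nat_lit 6) (nat_lit 5) (nat_lit 9) (nat_lit 5) (nat_lit 7) (nat_lit 4) (nat_lit 392) (nat_lit 289) (nat_lit 207)) (XT.lf (nat_lit 0) (nat_lit 15461126320) (nat_lit 252) (nat_lit 4232541514) (nat_lit 84) (nat_lit 16870445304) (nat_lit 6) (nat_lit 5) (nat_lit 9) (nat_lit 5) (nat_lit 7) (nat_lit 4) (nat_lit 393) (nat_lit 289) (nat_lit 206))))) (XT.nd (nat_lit 282) (nat_lit 0) (nat_lit 0) (XT.nd (nat_lit 94) (nat_lit 84) (nat_lit 0) (XT.lf (nat_lit 0) (nat_lit 17337913321) (nat_lit 252) (nat_lit 513130018) (nat_lit 84) (nat_lit 19755643203) (nat_lit 6) (nat_lit 5) (nat_lit 9) (nat_lit 5) (nat_lit 7) (nat_lit 4) (nat_lit 394) (nat_lit 289) (nat_lit 205)) (XT.nd (nat_lit 94) (nat_lit 0) (nat_lit 0) (XT.lf (nat_lit 0) (nat_lit 3373958353) (nat_lit 84)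 (nat_lit 15921933657) (nat_lit 168) (nat_lit 19385021164) (nat_lit 5) (nat_lit 5) (nat_lit 6) (nat_lit 5) (nat_lit 7) (nat_lit 4) (nat_lit 395) (nat_lit 289) (nat_lit 204)) (XT.lf (nat_lit 0) (nat_lit 7376979892) (nat_lit 84) (nat_lit 13932646639) (nat_lit 168) (nat_lit 18479012879) (nat_lit 5) (nat_lit 5) (nat_lit 6) (nat_lit 5) (nat_lit 7) (nat_lit 4) (nat_lit 396) (nat_lit 289) (nat_lit 203)))) (XT.nd (nat_lit 188) (nat_lit 0) (nat_lit 0) (XT.nd (nat_lit 94) (nat_lit 0) (nat_lit 0) (XT.lf (nat_lit 0) (nat_lit 11489114829) (nat_lit 84) (nat_lit 11886684088) (nat_lit 168) (nat_lit 17555259898) (nat_lit 5) (nat_lit 5) (nat_lit 6) (nat_lit 5) (nat_lit 7) (nat_lit 4) (nat_lit 397) (nat_lit 289) (nat_lit 202)) (XT.lf (nat_lit 0) (nat_lit 15714196103) (nat_lit 84) (nat_lit 9782138952) (nat_lit 168) (nat_lit 16612901188) (nat_lit 5) (nat_lit 5) (nat_lit 6) (nat_lit 5) (nat_lit 7) (nat_lit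 4) (nat_lit 398) (nat_lit 289) (nat_lit 201))) (XT.nd (nat_lit 94) (nat_lit 0) (nat_lit 0) (XT.lf (nat_lit 0) (nat_lit 20056161933) (nat_lit 84) (nat_lit 7617049574) (nat_lit 168) (nat_lit 15651058369) (nat_lit 5) (nat_lit 5) (nat_lit 6) (nat_lit 5) (nat_lit 7) (nat_lit 4) (nat_lit 399) (nat_lit 289) (nat_lit 200)) (XT.lf (nat_lit 0) (nat_lit 24519059485) (nat_lit 84) (nat_lit 5389397864) (nat_lit 168) (nat_lit 14668834906) (nat_lit 5) (nat_lit 5) (nat_lit 6) (nat_lit 5) (nat_lit 7) (nat_lit 4) (nat_lit 400) (nat_lit 289) (nat_lit 199)))))) (XT.nd (nat_lit 564) (nat_lit 84) (nat_lit 0) (XT.nd (nat_lit 282) (nat_lit 84) (nat_lit 0) (XT.nd (nat_lit 94) (nat_lit 0) (nat_lit 0) (XT.lf (nat_lit 0) (nat_lit 29107048649) (nat_lit 84) (nat_lit 3097107418) (nat_lit 168) (nat_lit 13665315261) (nat_lit 5) (nat_lit 5) (nat_lit 6) (nat_lit 5) (nat_lit 7) (nat_lit 4) (nat_lit 401) (nat_lit 289)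 (nat_lit 198)) (XT.nd (nat_lit 94) (nat_lit 0) (nat_lit 0) (XT.lf (nat_lit 0) (nat_lit 33824405910) (nat_lit 84) (nat_lit 738041581) (nat_lit 168) (nat_lit 12639564050) (nat_lit 5) (nat_lit 5) (nat_lit 6) (nat_lit 5) (nat_lit 7) (nat_lit 4) (nat_lit 402) (nat_lit 289) (nat_lit 197)) (XT.lf (nat_lit 0) (nat_lit 37002294791) (nat_lit 168) (nat_lit 9917391617) (nat_lit 0) (nat_lit 1655948838) (nat_lit 5) (nat_lit 5) (nat_lit 7) (nat_lit 4) (nat_lit 5) (nat_lit 4) (nat_lit 403) (nat_lit 289) (nat_lit 196)))) (XT.nd (nat_lit 94) (nat_lit 84) (nat_lit 0) (XT.lf (nat_lit 0) (nat_lit 39517219686) (nat_lit 168) (nat_lit 6369802881) (nat_lit 0) (nat_lit 4104871565) (nat_lit 5) (nat_lit 5) (nat_lit 7) (nat_lit 4) (nat_lit 5) (nat_lit 4) (nat_lit 404) (nat_lit 289) (nat_lit 195)) (XT.nd (nat_lit 94) (nat_lit 84) (nat_lit 0) (XT.lf (nat_lit 0) (nat_lit 42102244886) (nat_lit 168) (nat_lit 2724211234)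 (nat_lit 0) (nat_lit 6625879143) (nat_lit 5) (nat_lit 5) (nat_lit 7) (nat_lit 4) (nat_lit 5) (nat_lit 4) (nat_lit 405) (nat_lit 289) (nat_lit 194)) (XT.lf (nat_lit 0) (nat_lit 1043811878) (nat_lit 84) (nat_lit 43726322770) (nat_lit 84) (nat_lit 8187864281) (nat_lit 4) (nat_lit 4) (nat_lit 5) (nat_lit 5) (nat_lit 5) (nat_lit 4) (nat_lit 406) (nat_lit 289) (nat_lit 193))))) (XT.nd (nat_lit 282) (nat_lit 84) (nat_lit 0) (XT.nd (nat_lit 94) (nat_lit 0) (nat_lit 0) (XT.lf (nat_lit 0) (nat_lit 4974900761) (nat_lit 84) (nat_lit 42566752716) (nat_lit 84) (nat_lit 6968068478) (nat_lit 4) (nat_lit 4) (nat_lit 5) (nat_lit 5) (nat_lit 5) (nat_lit 4) (nat_lit 407) (nat_lit 289) (nat_lit 192)) (XT.nd (nat_lit 94) (nat_lit 0) (nat_lit 0) (XT.lf (nat_lit 0) (nat_lit 9016704230) (nat_lit 84) (nat_lit 41375100295) (nat_lit 84) (nat_lit 5718001170) (nat_lit 4) (nat_lit 4) (nat_lit 5) (nat_lit 5) (nat_lit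 5) (nat_lit 4) (nat_lit 408) (nat_lit 289) (nat_lit 191)) (XT.lf (nat_lit 0) (nat_lit 13172989670) (nat_lit 84) (nat_lit 40150254763) (nat_lit 84) (nat_lit 4436497163) (nat_lit 4) (nat_lit 4) (nat_lit 5) (nat_lit 5) (nat_lit 5) (nat_lit 4) (nat_lit 409) (nat_lit 289) (nat_lit 190)))) (XT.nd (nat_lit 188) (nat_lit 84) (nat_lit 0) (XT.nd (nat_lit 94) (nat_lit 0) (nat_lit 0) (XT.lf (nat_lit 0) (nat_lit 17447631174) (nat_lit 84) (nat_lit 38891074434) (nat_lit 84) (nat_lit 3122361961) (nat_lit 4) (nat_lit 4) (nat_lit 5) (nat_lit 5) (nat_lit 5) (nat_lit 4) (nat_lit 410) (nat_lit 289) (nat_lit 189)) (XT.lf (nat_lit 0) (nat_lit 21844613156) (nat_lit 84) (nat_lit 37596385622) (nat_lit 84) (nat_lit 1774370652) (nat_lit 4) (nat_lit 4) (nat_lit 5) (nat_lit 5) (nat_lit 5) (nat_lit 4) (nat_lit 411) (nat_lit 289) (nat_lit 188))) (XT.nd (nat_lit 94) (nat_lit 84) (nat_lit 0) (XT.lf (nat_lit 0) (nat_lit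 26368034064) (nat_lit 84) (nat_lit 36264981540) (nat_lit 84) (nat_lit 391266768) (nat_lit 4) (nat_lit 4) (nat_lit 5) (nat_lit 5) (nat_lit 5) (nat_lit 4) (nat_lit 412) (nat_lit 289) (nat_lit 187)) (XT.lf (nat_lit 0) (nat_lit 1007522167) (nat_lit 168) (nat_lit 33877582548) (nat_lit 84) (nat_lit 30004071567) (nat_lit 3) (nat_lit 5) (nat_lit 5) (nat_lit 5) (nat_lit 4) (nat_lit 4) (nat_lit 413) (nat_lit 289) (nat_lit 186))))))))
noncomputable def xc70 : XT := (XT.nd (nat_lit 46718) (nat_lit 0) (nat_lit 2604) (XT.nd (nat_lit 1128) (nat_lit 0) (nat_lit 0) (XT.nd (nat_lit 564) (nat_lit 84) (nat_lit 0) (XT.nd (nat_lit 282) (nat_lit 0) (nat_lit 0) (XT.nd (nat_lit 94) (nat_lit 0) (nat_lit 0) (XT.lf (nat_lit 0) (nat_lit 2435392778) (nat_lit 168) (nat_lit 31026214871) (nat_lit 84) (nat_lit 33350366365) (nat_lit 3) (nat_lit 5) (nat_lit 5) (nat_lit 5) (nat_lit 4) (nat_lit 4) (nat_lit 414) (nat_lit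 289) (nat_lit 185)) (XT.nd (nat_lit 94) (nat_lit 0) (nat_lit 0) (XT.lf (nat_lit 0) (nat_lit 3901559142) (nat_lit 168) (nat_lit 28095606091) (nat_lit 84) (nat_lit 36797422908) (nat_lit 3) (nat_lit 5) (nat_lit 5) (nat_lit 5) (nat_lit 4) (nat_lit 4) (nat_lit 415) (nat_lit 289) (nat_lit 184)) (XT.lf (nat_lit 0) (nat_lit 5407387881) (nat_lit 168) (nat_lit 25083024573) (nat_lit 84) (nat_lit 40348454216) (nat_lit 3) (nat_lit 5) (nat_lit 5) (nat_lit 5) (nat_lit 4) (nat_lit 4) (nat_lit 416) (nat_lit 289) (nat_lit 183)))) (XT.nd (nat_lit 94) (nat_lit 0) (nat_lit 0) (XT.lf (nat_lit 0) (nat_lit 6954282584) (nat_lit 168) (nat_lit 21985662274) (nat_lit 84) (nat_lit 44006770220) (nat_lit 3) (nat_lit 5) (nat_lit 5) (nat_lit 5) (nat_lit 4) (nat_lit 4) (nat_lit 417) (nat_lit 289) (nat_lit 182)) (XT.nd (nat_lit 94) (nat_lit 0) (nat_lit 0) (XT.lf (nat_lit 0) (nat_lit 8543685120) (nat_lit 168) (nat_lit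 18800632130) (nat_lit 84) (nat_lit 47775780854) (nat_lit 3) (nat_lit 5) (nat_lit 5) (nat_lit 5) (nat_lit 4) (nat_lit 4) (nat_lit 418) (nat_lit 289) (nat_lit 181)) (XT.lf (nat_lit 0) (nat_lit 10177076977) (nat_lit 168) (nat_lit 15524965357) (nat_lit 84) (nat_lit 51658999232) (nat_lit 3) (nat_lit 5) (nat_lit 5) (nat_lit 5) (nat_lit 4) (nat_lit 4) (nat_lit 419) (nat_lit 289) (nat_lit 180))))) (XT.nd (nat_lit 282) (nat_lit 84) (nat_lit 0) (XT.nd (nat_lit 94) (nat_lit 0) (nat_lit 0) (XT.lf (nat_lit 0) (nat_lit 11855980649) (nat_lit 168) (nat_lit 12155608693) (nat_lit 84) (nat_lit 55660044919) (nat_lit 3) (nat_lit 5) (nat_lit 5) (nat_lit 5) (nat_lit 4) (nat_lit 4) (nat_lit 420) (nat_lit 289) (nat_lit 179)) (XT.nd (nat_lit 94) (nat_lit 0) (nat_lit 0) (XT.lf (nat_lit 0) (nat_lit 13581961050) (nat_lit 168) (nat_lit 8689421542) (nat_lit 84) (nat_lit 59782647310) (nat_lit 3) (nat_lit 5) (nat_lit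 5) (nat_lit 5) (nat_lit 4) (nat_lit 4) (nat_lit 421) (nat_lit 289) (nat_lit 178)) (XT.lf (nat_lit 0) (nat_lit 15356626973) (nat_lit 168) (nat_lit 5123173057) (nat_lit 84) (nat_lit 64030649100) (nat_lit 3) (nat_lit 5) (nat_lit 5) (nat_lit 5) (nat_lit 4) (nat_lit 4) (nat_lit 422) (nat_lit 289) (nat_lit 177)))) (XT.nd (nat_lit 94) (nat_lit 84) (nat_lit 0) (XT.lf (nat_lit 0) (nat_lit 17181632593) (nat_lit 168) (nat_lit 1453539119) (nat_lit 84) (nat_lit 68408009874) (nat_lit 3) (nat_lit 5) (nat_lit 5) (nat_lit 5) (nat_lit 4) (nat_lit 4) (nat_lit 423) (nat_lit 289) (nat_lit 176)) (XT.nd (nat_lit 94) (nat_lit 0) (nat_lit 0) (XT.lf (nat_lit 0) (nat_lit 2370664357) (nat_lit 84) (nat_lit 16711531934) (nat_lit 168) (nat_lit 70571662717) (nat_lit 2) (nat_lit 5) (nat_lit 3) (nat_lit 5) (nat_lit 4) (nat_lit 4) (nat_lit 424) (nat_lit 289) (nat_lit 175)) (XT.lf (nat_lit 0) (nat_lit 6337350081) (nat_lit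 84) (nat_lit 14715033036) (nat_lit 168) (nat_lit 71292770602) (nat_lit 2) (nat_lit 5) (nat_lit 3) (nat_lit 5) (nat_lit 4) (nat_lit 4) (nat_lit 425) (nat_lit 289) (nat_lit 174)))))) (XT.nd (nat_lit 44932) (nat_lit 0) (nat_lit 9072) (XT.nd (nat_lit 44650) (nat_lit 0) (nat_lit 11004) (XT.nd (nat_lit 94) (nat_lit 0) (nat_lit 0) (XT.lf (nat_lit 0) (nat_lit 10420327674) (nat_lit 84) (nat_lit 12658986039) (nat_lit 168) (nat_lit 72040716765) (nat_lit 2) (nat_lit 5) (nat_lit 3) (nat_lit 5) (nat_lit 4) (nat_lit 4) (nat_lit 426) (nat_lit 289) (nat_lit 173)) (XT.nd (nat_lit 94) (nat_lit 0) (nat_lit 0) (XT.lf (nat_lit 0) (nat_lit 14623402897) (nat_lit 84) (nat_lit 10541474493) (nat_lit 168) (nat_lit 72816198371) (nat_lit 2) (nat_lit 5) (nat_lit 3) (nat_lit 5) (nat_lit 4) (nat_lit 4) (nat_lit 427) (nat_lit 289) (nat_lit 172)) (XT.lf (nat_lit 0) (nat_lit 18950493457) (nat_lit 84) (nat_lit 8360524655)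 (nat_lit 168) (nat_lit 73619938248) (nat_lit 2) (nat_lit 5) (nat_lit 3) (nat_lit 5) (nat_lit 4) (nat_lit 4) (nat_lit 428) (nat_lit 289) (nat_lit 171)))) (XT.nd (nat_lit 94) (nat_lit 504) (nat_lit 0) (XT.lf (nat_lit 0) (nat_lit 1206908688) (nat_lit 420) (nat_lit 905818699) (nat_lit 0) (nat_lit 1206908688) (nat_lit 139) (nat_lit 5) (nat_lit 144) (nat_lit 4) (nat_lit 139) (nat_lit 4) (nat_lit 308) (nat_lit 290) (nat_lit 290)) (XT.nd (nat_lit 94) (nat_lit 84) (nat_lit 0) (XT.lf (nat_lit 0) (nat_lit 1050596310) (nat_lit 420) (nat_lit 3677579649) (nat_lit 420) (nat_lit 1946825469) (nat_lit 134) (nat_lit 4) (nat_lit 139) (nat_lit 5) (nat_lit 139) (nat_lit 4) (nat_lit 309) (nat_lit 290) (nat_lit 289)) (XT.lf (nat_lit 0) (nat_lit 331095709) (nat_lit 504) (nat_lit 2737012837) (nat_lit 84) (nat_lit 3646443543) (nat_lit 133) (nat_lit 5) (nat_lit 139) (nat_lit 5) (nat_lit 134) (nat_lit 4) (nat_lit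 310) (nat_lit 290) (nat_lit 288))))) (XT.nd (nat_lit 282) (nat_lit 1344) (nat_lit 0) (XT.nd (nat_lit 94) (nat_lit 84) (nat_lit 0) (XT.lf (nat_lit 0) (nat_lit 163583295) (nat_lit 504) (nat_lit 2397367057) (nat_lit 588) (nat_lit 4197037522) (nat_lit 127) (nat_lit 5) (nat_lit 133) (nat_lit 5) (nat_lit 134) (nat_lit 4) (nat_lit 311) (nat_lit 290) (nat_lit 287)) (XT.nd (nat_lit 94) (nat_lit 84) (nat_lit 0) (XT.lf (nat_lit 0) (nat_lit 3153035744) (nat_lit 504) (nat_lit 1657414059) (nat_lit 588) (nat_lit 1994679487) (nat_lit 127) (nat_lit 5) (nat_lit 133) (nat_lit 5) (nat_lit 134) (nat_lit 4) (nat_lit 312) (nat_lit 290) (nat_lit 286)) (XT.lf (nat_lit 0) (nat_lit 193130588) (nat_lit 588) (nat_lit 680982165) (nat_lit 84) (nat_lit 5982705919) (nat_lit 126) (nat_lit 5) (nat_lit 133) (nat_lit 5) (nat_lit 127) (nat_lit 5) (nat_lit 313) (nat_lit 290) (nat_lit 285)))) (XT.nd (nat_lit 188) (nat_lit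 756) (nat_lit 0) (XT.nd (nat_lit 94) (nat_lit 0) (nat_lit 0) (XT.lf (nat_lit 0) (nat_lit 2351327241) (nat_lit 588) (nat_lit 4388644) (nat_lit 672) (nat_lit 4556115108) (nat_lit 119) (nat_lit 5) (nat_lit 126) (nat_lit 5) (nat_lit 127) (nat_lit 5) (nat_lit 314) (nat_lit 290) (nat_lit 284)) (XT.lf (nat_lit 0) (nat_lit 4528278812) (nat_lit 672) (nat_lit 1545631145) (nat_lit 84) (nat_lit 897138037) (nat_lit 119) (nat_lit 5) (nat_lit 127) (nat_lit 5) (nat_lit 120) (nat_lit 4) (nat_lit 315) (nat_lit 290) (nat_lit 283))) (XT.nd (nat_lit 94) (nat_lit 84) (nat_lit 0) (XT.lf (nat_lit 0) (nat_lit 1534947999) (nat_lit 672) (nat_lit 5177617793) (nat_lit 756) (nat_lit 321967717) (nat_lit 111) (nat_lit 5) (nat_lit 119) (nat_lit 5) (nat_lit 120) (nat_lit 4) (nat_lit 316) (nat_lit 290) (nat_lit 282)) (XT.lf (nat_lit 0) (nat_lit 1772586052) (nat_lit 756) (nat_lit 2434519578) (nat_lit 84) (nat_lit 2894661671)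 (nat_lit 110) (nat_lit 5) (nat_lit 119) (nat_lit 5) (nat_lit 111) (nat_lit 5) (nat_lit 317) (nat_lit 290) (nat_lit 281))))))) (XT.nd (nat_lit 1222) (nat_lit 2100) (nat_lit 0) (XT.nd (nat_lit 564) (nat_lit 1764) (nat_lit 0) (XT.nd (nat_lit 282) (nat_lit 1764) (nat_lit 0) (XT.nd (nat_lit 94) (nat_lit 84) (nat_lit 0) (XT.lf (nat_lit 0) (nat_lit 677568435) (nat_lit 756) (nat_lit 3185938938) (nat_lit 840) (nat_lit 3310040429) (nat_lit 101) (nat_lit 5) (nat_lit 110) (nat_lit 5) (nat_lit 111) (nat_lit 5) (nat_lit 318) (nat_lit 290) (nat_lit 280)) (XT.nd (nat_lit 94) (nat_lit 84) (nat_lit 0) (XT.lf (nat_lit 0) (nat_lit 3879979005) (nat_lit 756) (nat_lit 2097572050) (nat_lit 840) (nat_lit 1271921992) (nat_lit 101) (nat_lit 5) (nat_lit 110) (nat_lit 5) (nat_lit 111) (nat_lit 5) (nat_lit 319) (nat_lit 290) (nat_lit 279)) (XT.lf (nat_lit 0) (nat_lit 746316609) (nat_lit 840) (nat_lit 212295260)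 (nat_lit 84) (nat_lit 6371531773) (nat_lit 100) (nat_lit 5) (nat_lit 110) (nat_lit 5) (nat_lit 101) (nat_lit 5) (nat_lit 320) (nat_lit 290) (nat_lit 278)))) (XT.nd (nat_lit 94) (nat_lit 924) (nat_lit 0) (XT.lf (nat_lit 0) (nat_lit 2769108619) (nat_lit 924) (nat_lit 4382533393) (nat_lit 84) (nat_lit 262821164) (nat_lit 90) (nat_lit 5) (nat_lit 101) (nat_lit 5) (nat_lit 91) (nat_lit 5) (nat_lit 321) (nat_lit 290) (nat_lit 277)) (XT.nd (nat_lit 94) (nat_lit 924) (nat_lit 0) (XT.lf (nat_lit 0) (nat_lit 4803749087) (nat_lit 924) (nat_lit 1188175497) (nat_lit 84) (nat_lit 1511603524) (nat_lit 90) (nat_lit 5) (nat_lit 101) (nat_lit 5) (nat_lit 91) (nat_lit 5) (nat_lit 322) (nat_lit 290) (nat_lit 276)) (XT.lf (nat_lit 0) (nat_lit 2090837654) (nat_lit 924) (nat_lit 4770357396) (nat_lit 1008) (nat_lit 735945531) (nat_lit 79) (nat_lit 5) (nat_lit 90) (nat_lit 5) (nat_lit 91) (nat_lit 5) (nat_lit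 323) (nat_lit 290) (nat_lit 275))))) (XT.nd (nat_lit 282) (nat_lit 1008) (nat_lit 0) (XT.nd (nat_lit 94) (nat_lit 672) (nat_lit 0) (XT.lf (nat_lit 0) (nat_lit 1214477511) (nat_lit 1008) (nat_lit 2267174406) (nat_lit 84) (nat_lit 4213611155) (nat_lit 78) (nat_lit 5) (nat_lit 90) (nat_lit 5) (nat_lit 79) (nat_lit 5) (nat_lit 324) (nat_lit 290) (nat_lit 274)) (XT.nd (nat_lit 94) (nat_lit 0) (nat_lit 0) (XT.lf (nat_lit 0) (nat_lit 1029638203) (nat_lit 672) (nat_lit 2131629521) (nat_lit 756) (nat_lit 4636930471) (nat_lit 70) (nat_lit 5) (nat_lit 78) (nat_lit 5) (nat_lit 79) (nat_lit 5) (nat_lit 325) (nat_lit 290) (nat_lit 273)) (XT.lf (nat_lit 0) (nat_lit 4421334501) (nat_lit 672) (nat_lit 712941131) (nat_lit 756) (nat_lit 2771583131) (nat_lit 70) (nat_lit 5) (nat_lit 78) (nat_lit 5) (nat_lit 79) (nat_lit 5) (nat_lit 326) (nat_lit 290) (nat_lit 272)))) (XT.nd (nat_lit 188) (nat_lit 420)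 (nat_lit 0) (XT.nd (nat_lit 94) (nat_lit 588) (nat_lit 0) (XT.lf (nat_lit 0) (nat_lit 7119847818) (nat_lit 756) (nat_lit 162059161) (nat_lit 84) (nat_lit 736918413) (nat_lit 70) (nat_lit 5) (nat_lit 79) (nat_lit 5) (nat_lit 71) (nat_lit 5) (nat_lit 327) (nat_lit 290) (nat_lit 271)) (XT.lf (nat_lit 0) (nat_lit 995660015) (nat_lit 588) (nat_lit 4878585303) (nat_lit 84) (nat_lit 2261638266) (nat_lit 63) (nat_lit 5) (nat_lit 70) (nat_lit 5) (nat_lit 64) (nat_lit 5) (nat_lit 328) (nat_lit 290) (nat_lit 270))) (XT.nd (nat_lit 94) (nat_lit 420) (nat_lit 0) (XT.lf (nat_lit 0) (nat_lit 2877845841) (nat_lit 588) (nat_lit 1534882071) (nat_lit 84) (nat_lit 3845607083) (nat_lit 63) (nat_lit 5) (nat_lit 70) (nat_lit 5) (nat_lit 64) (nat_lit 5) (nat_lit 329) (nat_lit 290) (nat_lit 269)) (XT.lf (nat_lit 0) (nat_lit 1897116104) (nat_lit 420) (nat_lit 2887492732) (nat_lit 504) (nat_lit 3601429359)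 (nat_lit 58) (nat_lit 5) (nat_lit 63) (nat_lit 5) (nat_lit 64) (nat_lit 5) (nat_lit 330) (nat_lit 290) (nat_lit 268)))))) (XT.nd (nat_lit 564) (nat_lit 1260) (nat_lit 0) (XT.nd (nat_lit 282) (nat_lit 336) (nat_lit 0) (XT.nd (nat_lit 94) (nat_lit 504) (nat_lit 0) (XT.lf (nat_lit 0) (nat_lit 5415004874) (nat_lit 420) (nat_lit 1299962525) (nat_lit 504) (nat_lit 1804230340) (nat_lit 58) (nat_lit 5) (nat_lit 63) (nat_lit 5) (nat_lit 64) (nat_lit 5) (nat_lit 331) (nat_lit 290) (nat_lit 267)) (XT.nd (nat_lit 94) (nat_lit 0) (nat_lit 0) (XT.lf (nat_lit 0) (nat_lit 3550158) (nat_lit 504) (nat_lit 8322732133) (nat_lit 84) (nat_lit 331929762) (nat_lit 52) (nat_lit 5) (nat_lit 58) (nat_lit 5) (nat_lit 53) (nat_lit 5) (nat_lit 332) (nat_lit 290) (nat_lit 266)) (XT.lf (nat_lit 0) (nat_lit 1826034467) (nat_lit 504) (nat_lit 4939233943) (nat_lit 84) (nat_lit 2036176893) (nat_lit 52) (nat_lit 5)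 (nat_lit 58) (nat_lit 5) (nat_lit 53) (nat_lit 5) (nat_lit 333) (nat_lit 290) (nat_lit 265)))) (XT.nd (nat_lit 94) (nat_lit 336) (nat_lit 0) (XT.lf (nat_lit 0) (nat_lit 3656628174) (nat_lit 504) (nat_lit 1503429672) (nat_lit 84) (nat_lit 3790911972) (nat_lit 52) (nat_lit 5) (nat_lit 58) (nat_lit 5) (nat_lit 53) (nat_lit 5) (nat_lit 334) (nat_lit 290) (nat_lit 264)) (XT.nd (nat_lit 94) (nat_lit 0) (nat_lit 0) (XT.lf (nat_lit 0) (nat_lit 2028758165) (nat_lit 336) (nat_lit 3488404951) (nat_lit 420) (nat_lit 3589137964) (nat_lit 48) (nat_lit 5) (nat_lit 52) (nat_lit 5) (nat_lit 53) (nat_lit 5) (nat_lit 335) (nat_lit 290) (nat_lit 263)) (XT.lf (nat_lit 0) (nat_lit 5651830766) (nat_lit 336) (nat_lit 1753214245) (nat_lit 420) (nat_lit 1862673044) (nat_lit 48) (nat_lit 5) (nat_lit 52) (nat_lit 5) (nat_lit 53) (nat_lit 5) (nat_lit 336) (nat_lit 290) (nat_lit 262))))) (XT.nd (nat_lit 282)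 (nat_lit 756) (nat_lit 0) (XT.nd (nat_lit 94) (nat_lit 504) (nat_lit 0) (XT.lf (nat_lit 0) (nat_lit 9307124566) (nat_lit 420) (nat_lit 97903311) (nat_lit 84) (nat_lit 30805502) (nat_lit 48) (nat_lit 5) (nat_lit 53) (nat_lit 5) (nat_lit 49) (nat_lit 5) (nat_lit 337) (nat_lit 290) (nat_lit 261)) (XT.nd (nat_lit 94) (nat_lit 0) (nat_lit 0) (XT.lf (nat_lit 0) (nat_lit 1635021118) (nat_lit 504) (nat_lit 6092436169) (nat_lit 84) (nat_lit 1881201551) (nat_lit 42) (nat_lit 5) (nat_lit 48) (nat_lit 5) (nat_lit 43) (nat_lit 5) (nat_lit 338) (nat_lit 290) (nat_lit 260)) (XT.lf (nat_lit 0) (nat_lit 3408538212) (nat_lit 504) (nat_lit 2593465230) (nat_lit 84) (nat_lit 3786398563) (nat_lit 42) (nat_lit 5) (nat_lit 48) (nat_lit 5) (nat_lit 43) (nat_lit 5) (nat_lit 339) (nat_lit 290) (nat_lit 259)))) (XT.nd (nat_lit 188) (nat_lit 420) (nat_lit 0) (XT.nd (nat_lit 94) (nat_lit 0) (nat_lit 0) (XT.lf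 (nat_lit 0) (nat_lit 985537032) (nat_lit 336) (nat_lit 4219327063) (nat_lit 420) (nat_lit 4770133868) (nat_lit 38) (nat_lit 5) (nat_lit 42) (nat_lit 5) (nat_lit 43) (nat_lit 5) (nat_lit 340) (nat_lit 290) (nat_lit 258)) (XT.lf (nat_lit 0) (nat_lit 4682664240) (nat_lit 336) (nat_lit 2360122440) (nat_lit 420) (nat_lit 3125303442) (nat_lit 38) (nat_lit 5) (nat_lit 42) (nat_lit 5) (nat_lit 43) (nat_lit 5) (nat_lit 341) (nat_lit 290) (nat_lit 257))) (XT.nd (nat_lit 94) (nat_lit 420) (nat_lit 0) (XT.lf (nat_lit 0) (nat_lit 8448035539) (nat_lit 336) (nat_lit 449727059) (nat_lit 420) (nat_lit 1470909818) (nat_lit 38) (nat_lit 5) (nat_lit 42) (nat_lit 5) (nat_lit 43) (nat_lit 5) (nat_lit 342) (nat_lit 290) (nat_lit 256)) (XT.lf (nat_lit 0) (nat_lit 223155192) (nat_lit 420) (nat_lit 8850164876) (nat_lit 84) (nat_lit 1502544811) (nat_lit 33) (nat_lit 5) (nat_lit 38) (nat_lit 5) (nat_lit 34)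 (nat_lit 5) (nat_lit 343) (nat_lit 290) (nat_lit 255))))))))
noncomputable def xc71 : XT := (XT.nd (nat_lit 2444) (nat_lit 588) (nat_lit 0) (XT.nd (nat_lit 1222) (nat_lit 672) (nat_lit 0) (XT.nd (nat_lit 564) (nat_lit 588) (nat_lit 0) (XT.nd (nat_lit 282) (nat_lit 252) (nat_lit 0) (XT.nd (nat_lit 94) (nat_lit 252) (nat_lit 0) (XT.lf (nat_lit 0) (nat_lit 1925325842) (nat_lit 420) (nat_lit 5329857204) (nat_lit 84) (nat_lit 3534503786) (nat_lit 33) (nat_lit 5) (nat_lit 38) (nat_lit 5) (nat_lit 34) (nat_lit 5) (nat_lit 344) (nat_lit 290) (nat_lit 254)) (XT.nd (nat_lit 94) (nat_lit 252) (nat_lit 0) (XT.lf (nat_lit 0) (nat_lit 3642719341) (nat_lit 420) (nat_lit 1745948175) (nat_lit 84) (nat_lit 5622869657) (nat_lit 33) (nat_lit 5) (nat_lit 38) (nat_lit 5) (nat_lit 34) (nat_lit 5) (nat_lit 345) (nat_lit 290) (nat_lit 253)) (XT.lf (nat_lit 0) (nat_lit 1944071497) (nat_lit 252) (nat_lit 3452150412)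 (nat_lit 336) (nat_lit 5844802932) (nat_lit 30) (nat_lit 5) (nat_lit 33) (nat_lit 5) (nat_lit 34) (nat_lit 5) (nat_lit 346) (nat_lit 290) (nat_lit 252)))) (XT.nd (nat_lit 94) (nat_lit 252) (nat_lit 0) (XT.lf (nat_lit 0) (nat_lit 5741782794) (nat_lit 252) (nat_lit 1444770133) (nat_lit 336) (nat_lit 4291839184) (nat_lit 30) (nat_lit 5) (nat_lit 33) (nat_lit 5) (nat_lit 34) (nat_lit 5) (nat_lit 347) (nat_lit 290) (nat_lit 251)) (XT.nd (nat_lit 94) (nat_lit 252) (nat_lit 0) (XT.lf (nat_lit 0) (nat_lit 9003826922) (nat_lit 336) (nat_lit 2115704800) (nat_lit 84) (nat_lit 604686691) (nat_lit 30) (nat_lit 5) (nat_lit 34) (nat_lit 5) (nat_lit 31) (nat_lit 5) (nat_lit 348) (nat_lit 290) (nat_lit 250)) (XT.lf (nat_lit 0) (nat_lit 1592455196) (nat_lit 252) (nat_lit 9281844435) (nat_lit 336) (nat_lit 1103671838) (nat_lit 27) (nat_lit 5) (nat_lit 30) (nat_lit 5) (nat_lit 31) (nat_lit 5) (nat_lit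 349) (nat_lit 290) (nat_lit 249))))) (XT.nd (nat_lit 282) (nat_lit 252) (nat_lit 0) (XT.nd (nat_lit 94) (nat_lit 252) (nat_lit 0) (XT.lf (nat_lit 0) (nat_lit 540479371) (nat_lit 336) (nat_lit 6827059395) (nat_lit 84) (nat_lit 4872426985) (nat_lit 26) (nat_lit 5) (nat_lit 30) (nat_lit 5) (nat_lit 27) (nat_lit 5) (nat_lit 350) (nat_lit 290) (nat_lit 248)) (XT.nd (nat_lit 94) (nat_lit 252) (nat_lit 0) (XT.lf (nat_lit 0) (nat_lit 2180035490) (nat_lit 336) (nat_lit 3211053161) (nat_lit 84) (nat_lit 7119845668) (nat_lit 26) (nat_lit 5) (nat_lit 30) (nat_lit 5) (nat_lit 27) (nat_lit 5) (nat_lit 351) (nat_lit 290) (nat_lit 247)) (XT.lf (nat_lit 0) (nat_lit 486625914) (nat_lit 252) (nat_lit 3356962758) (nat_lit 336) (nat_lit 8947730829) (nat_lit 23) (nat_lit 5) (nat_lit 26) (nat_lit 5) (nat_lit 27) (nat_lit 5) (nat_lit 352) (nat_lit 290) (nat_lit 246)))) (XT.nd (nat_lit 188) (nat_lit 252)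 (nat_lit 0) (XT.nd (nat_lit 94) (nat_lit 0) (nat_lit 0) (XT.lf (nat_lit 0) (nat_lit 4327185171) (nat_lit 252) (nat_lit 1233943898) (nat_lit 336) (nat_lit 7519371948) (nat_lit 23) (nat_lit 5) (nat_lit 26) (nat_lit 5) (nat_lit 27) (nat_lit 5) (nat_lit 353) (nat_lit 290) (nat_lit 245)) (XT.lf (nat_lit 0) (nat_lit 7311137284) (nat_lit 336) (nat_lit 5140966325) (nat_lit 84) (nat_lit 927361539) (nat_lit 23) (nat_lit 5) (nat_lit 27) (nat_lit 5) (nat_lit 24) (nat_lit 5) (nat_lit 354) (nat_lit 290) (nat_lit 244))) (XT.nd (nat_lit 94) (nat_lit 252) (nat_lit 0) (XT.lf (nat_lit 0) (nat_lit 9098677057) (nat_lit 336) (nat_lit 1467710486) (nat_lit 84) (nat_lit 3121996605) (nat_lit 23) (nat_lit 5) (nat_lit 27) (nat_lit 5) (nat_lit 24) (nat_lit 5) (nat_lit 355) (nat_lit 290) (nat_lit 243)) (XT.lf (nat_lit 0) (nat_lit 2329041398) (nat_lit 252) (nat_lit 8607236667) (nat_lit 336) (nat_lit 3070931129)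 (nat_lit 20) (nat_lit 5) (nat_lit 23) (nat_lit 5) (nat_lit 24) (nat_lit 5) (nat_lit 356) (nat_lit 290) (nat_lit 242)))))) (XT.nd (nat_lit 564) (nat_lit 420) (nat_lit 0) (XT.nd (nat_lit 282) (nat_lit 168) (nat_lit 0) (XT.nd (nat_lit 94) (nat_lit 84) (nat_lit 0) (XT.lf (nat_lit 0) (nat_lit 6237685032) (nat_lit 252) (nat_lit 6580512051) (nat_lit 336) (nat_lit 1518271520) (nat_lit 20) (nat_lit 5) (nat_lit 23) (nat_lit 5) (nat_lit 24) (nat_lit 5) (nat_lit 357) (nat_lit 290) (nat_lit 241)) (XT.nd (nat_lit 94) (nat_lit 0) (nat_lit 0) (XT.lf (nat_lit 0) (nat_lit 53303066) (nat_lit 336) (nat_lit 4445785019) (nat_lit 84) (nat_lit 10177825101) (nat_lit 19) (nat_lit 5) (nat_lit 23) (nat_lit 5) (nat_lit 20) (nat_lit 5) (nat_lit 358) (nat_lit 290) (nat_lit 240)) (XT.lf (nat_lit 0) (nat_lit 1615332048) (nat_lit 336) (nat_lit 730501508) (nat_lit 84) (nat_lit 12682569953) (nat_lit 19) (nat_lit 5)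 (nat_lit 23) (nat_lit 5) (nat_lit 20) (nat_lit 5) (nat_lit 359) (nat_lit 290) (nat_lit 239)))) (XT.nd (nat_lit 94) (nat_lit 0) (nat_lit 0) (XT.lf (nat_lit 0) (nat_lit 3128626281) (nat_lit 168) (nat_lit 102271265) (nat_lit 252) (nat_lit 12159874430) (nat_lit 17) (nat_lit 5) (nat_lit 19) (nat_lit 5) (nat_lit 20) (nat_lit 5) (nat_lit 360) (nat_lit 290) (nat_lit 238)) (XT.nd (nat_lit 94) (nat_lit 0) (nat_lit 0) (XT.lf (nat_lit 0) (nat_lit 4900614896) (nat_lit 252) (nat_lit 8698131933) (nat_lit 84) (nat_lit 2165637127) (nat_lit 17) (nat_lit 5) (nat_lit 20) (nat_lit 5) (nat_lit 18) (nat_lit 5) (nat_lit 361) (nat_lit 290) (nat_lit 237)) (XT.lf (nat_lit 0) (nat_lit 6598342755) (nat_lit 252) (nat_lit 5058489553) (nat_lit 84) (nat_lit 4493614020) (nat_lit 17) (nat_lit 5) (nat_lit 20) (nat_lit 5) (nat_lit 18) (nat_lit 5) (nat_lit 362) (nat_lit 290) (nat_lit 236))))) (XT.nd (nat_lit 282) (nat_lit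 252) (nat_lit 0) (XT.nd (nat_lit 94) (nat_lit 168) (nat_lit 0) (XT.lf (nat_lit 0) (nat_lit 8324649038) (nat_lit 252) (nat_lit 1338811482) (nat_lit 84) (nat_lit 6885889869) (nat_lit 17) (nat_lit 5) (nat_lit 20) (nat_lit 5) (nat_lit 18) (nat_lit 5) (nat_lit 363) (nat_lit 290) (nat_lit 235)) (XT.nd (nat_lit 94) (nat_lit 0) (nat_lit 0) (XT.lf (nat_lit 0) (nat_lit 2515041897) (nat_lit 168) (nat_lit 7591050475) (nat_lit 252) (nat_lit 6854602155) (nat_lit 15) (nat_lit 5) (nat_lit 17) (nat_lit 5) (nat_lit 18) (nat_lit 5) (nat_lit 364) (nat_lit 290) (nat_lit 234)) (XT.lf (nat_lit 0) (nat_lit 6485261652) (nat_lit 168) (nat_lit 5448534358) (nat_lit 252) (nat_lit 5451392801) (nat_lit 15) (nat_lit 5) (nat_lit 17) (nat_lit 5) (nat_lit 18) (nat_lit 5) (nat_lit 365) (nat_lit 290) (nat_lit 233)))) (XT.nd (nat_lit 188) (nat_lit 252) (nat_lit 0) (XT.nd (nat_lit 94) (nat_lit 0) (nat_lit 0) (XT.lf (nat_lit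 0) (nat_lit 10548019731) (nat_lit 168) (nat_lit 3247889568) (nat_lit 252) (nat_lit 4027739796) (nat_lit 15) (nat_lit 5) (nat_lit 17) (nat_lit 5) (nat_lit 18) (nat_lit 5) (nat_lit 366) (nat_lit 290) (nat_lit 232)) (XT.lf (nat_lit 0) (nat_lit 14707103051) (nat_lit 168) (nat_lit 987064873) (nat_lit 252) (nat_lit 2582316148) (nat_lit 15) (nat_lit 5) (nat_lit 17) (nat_lit 5) (nat_lit 18) (nat_lit 5) (nat_lit 367) (nat_lit 290) (nat_lit 231))) (XT.nd (nat_lit 94) (nat_lit 84) (nat_lit 0) (XT.lf (nat_lit 0) (nat_lit 213316583) (nat_lit 168) (nat_lit 17432394557) (nat_lit 252) (nat_lit 1097928224) (nat_lit 13) (nat_lit 5) (nat_lit 15) (nat_lit 5) (nat_lit 16) (nat_lit 4) (nat_lit 368) (nat_lit 290) (nat_lit 230)) (XT.lf (nat_lit 0) (nat_lit 450514004) (nat_lit 252) (nat_lit 15079589657) (nat_lit 84) (nat_lit 3694314021) (nat_lit 12) (nat_lit 5) (nat_lit 15) (nat_lit 5) (nat_lit 13) (nat_lit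 5) (nat_lit 369) (nat_lit 290) (nat_lit 229))))))) (XT.nd (nat_lit 1222) (nat_lit 336) (nat_lit 0) (XT.nd (nat_lit 564) (nat_lit 84) (nat_lit 0) (XT.nd (nat_lit 282) (nat_lit 168) (nat_lit 0) (XT.nd (nat_lit 94) (nat_lit 0) (nat_lit 0) (XT.lf (nat_lit 0) (nat_lit 2003800547) (nat_lit 252) (nat_lit 11561869917) (nat_lit 84) (nat_lit 6154812830) (nat_lit 12) (nat_lit 5) (nat_lit 15) (nat_lit 5) (nat_lit 13) (nat_lit 5) (nat_lit 370) (nat_lit 290) (nat_lit 228)) (XT.nd (nat_lit 94) (nat_lit 0) (nat_lit 0) (XT.lf (nat_lit 0) (nat_lit 3585500036) (nat_lit 252) (nat_lit 7962993097) (nat_lit 84) (nat_lit 8684143094) (nat_lit 12) (nat_lit 5) (nat_lit 15) (nat_lit 5) (nat_lit 13) (nat_lit 5) (nat_lit 371) (nat_lit 290) (nat_lit 227)) (XT.lf (nat_lit 0) (nat_lit 5197086782) (nat_lit 252) (nat_lit 4279604665) (nat_lit 84) (nat_lit 11284662414) (nat_lit 12) (nat_lit 5) (nat_lit 15) (nat_lit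 5) (nat_lit 13) (nat_lit 5) (nat_lit 372) (nat_lit 290) (nat_lit 226)))) (XT.nd (nat_lit 94) (nat_lit 168) (nat_lit 0) (XT.lf (nat_lit 0) (nat_lit 6840062952) (nat_lit 252) (nat_lit 508271317) (nat_lit 84) (nat_lit 13958794745) (nat_lit 12) (nat_lit 5) (nat_lit 15) (nat_lit 5) (nat_lit 13) (nat_lit 5) (nat_lit 373) (nat_lit 290) (nat_lit 225)) (XT.nd (nat_lit 94) (nat_lit 0) (nat_lit 0) (XT.lf (nat_lit 0) (nat_lit 3423498080) (nat_lit 168) (nat_lit 5126423416) (nat_lit 252) (nat_lit 13319496105) (nat_lit 10) (nat_lit 5) (nat_lit 12) (nat_lit 5) (nat_lit 13) (nat_lit 5) (nat_lit 374) (nat_lit 290) (nat_lit 224)) (XT.lf (nat_lit 0) (nat_lit 7462733943) (nat_lit 168) (nat_lit 2837637254) (nat_lit 252) (nat_lit 12149236969) (nat_lit 10) (nat_lit 5) (nat_lit 12) (nat_lit 5) (nat_lit 13) (nat_lit 5) (nat_lit 375) (nat_lit 290) (nat_lit 223))))) (XT.nd (nat_lit 282) (nat_lit 84) (nat_lit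 0) (XT.nd (nat_lit 94) (nat_lit 0) (nat_lit 0) (XT.lf (nat_lit 0) (nat_lit 11602750162) (nat_lit 168) (nat_lit 485147704) (nat_lit 252) (nat_lit 10960503162) (nat_lit 10) (nat_lit 5) (nat_lit 12) (nat_lit 5) (nat_lit 13) (nat_lit 5) (nat_lit 376) (nat_lit 290) (nat_lit 222)) (XT.nd (nat_lit 94) (nat_lit 0) (nat_lit 0) (XT.lf (nat_lit 0) (nat_lit 13933345626) (nat_lit 252) (nat_lit 7838126620) (nat_lit 84) (nat_lit 1894287562) (nat_lit 10) (nat_lit 5) (nat_lit 13) (nat_lit 5) (nat_lit 11) (nat_lit 4) (nat_lit 377) (nat_lit 290) (nat_lit 221)) (XT.lf (nat_lit 0) (nat_lit 15824727577) (nat_lit 252) (nat_lit 4147231842) (nat_lit 84) (nat_lit 4330725449) (nat_lit 10) (nat_lit 5) (nat_lit 13) (nat_lit 5) (nat_lit 11) (nat_lit 4) (nat_lit 378) (nat_lit 290) (nat_lit 220)))) (XT.nd (nat_lit 188) (nat_lit 0) (nat_lit 0) (XT.nd (nat_lit 94) (nat_lit 84) (nat_lit 0) (XT.lf (nat_lit 0) (nat_lit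 17758993958) (nat_lit 252) (nat_lit 364713508) (nat_lit 84) (nat_lit 6836211616) (nat_lit 10) (nat_lit 5) (nat_lit 13) (nat_lit 5) (nat_lit 11) (nat_lit 4) (nat_lit 379) (nat_lit 290) (nat_lit 219)) (XT.lf (nat_lit 0) (nat_lit 3585187627) (nat_lit 84) (nat_lit 16188325587) (nat_lit 168) (nat_lit 5863459318) (nat_lit 9) (nat_lit 5) (nat_lit 10) (nat_lit 5) (nat_lit 11) (nat_lit 4) (nat_lit 380) (nat_lit 290) (nat_lit 218))) (XT.nd (nat_lit 94) (nat_lit 0) (nat_lit 0) (XT.lf (nat_lit 0) (nat_lit 7643382456) (nat_lit 84) (nat_lit 14195874267) (nat_lit 168) (nat_lit 4496177677) (nat_lit 9) (nat_lit 5) (nat_lit 10) (nat_lit 5) (nat_lit 11) (nat_lit 4) (nat_lit 381) (nat_lit 290) (nat_lit 217)) (XT.lf (nat_lit 0) (nat_lit 11806154384) (nat_lit 84) (nat_lit 12148303193) (nat_lit 168) (nat_lit 3101612612) (nat_lit 9) (nat_lit 5) (nat_lit 10) (nat_lit 5) (nat_lit 11) (nat_lit 4) (nat_lit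 382) (nat_lit 290) (nat_lit 216)))))) (XT.nd (nat_lit 564) (nat_lit 84) (nat_lit 0) (XT.nd (nat_lit 282) (nat_lit 168) (nat_lit 0) (XT.nd (nat_lit 94) (nat_lit 84) (nat_lit 0) (XT.lf (nat_lit 0) (nat_lit 16077383550) (nat_lit 84) (nat_lit 10043703814) (nat_lit 168) (nat_lit 1678464243) (nat_lit 9) (nat_lit 5) (nat_lit 10) (nat_lit 5) (nat_lit 11) (nat_lit 4) (nat_lit 383) (nat_lit 290) (nat_lit 215)) (XT.nd (nat_lit 94) (nat_lit 84) (nat_lit 0) (XT.lf (nat_lit 0) (nat_lit 20461051188) (nat_lit 84) (nat_lit 7880114424) (nat_lit 168) (nat_lit 225406046) (nat_lit 9) (nat_lit 5) (nat_lit 10) (nat_lit 5) (nat_lit 11) (nat_lit 4) (nat_lit 384) (nat_lit 290) (nat_lit 214)) (XT.lf (nat_lit 0) (nat_lit 1233552020) (nat_lit 168) (nat_lit 4409090556) (nat_lit 84) (nat_lit 23714815560) (nat_lit 8) (nat_lit 5) (nat_lit 10) (nat_lit 5) (nat_lit 9) (nat_lit 5) (nat_lit 385) (nat_lit 290) (nat_lit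 213)))) (XT.nd (nat_lit 94) (nat_lit 168) (nat_lit 0) (XT.lf (nat_lit 0) (nat_lit 2719958652) (nat_lit 168) (nat_lit 619492534) (nat_lit 84) (nat_lit 26833805196) (nat_lit 8) (nat_lit 5) (nat_lit 10) (nat_lit 5) (nat_lit 9) (nat_lit 5) (nat_lit 386) (nat_lit 290) (nat_lit 212)) (XT.nd (nat_lit 94) (nat_lit 0) (nat_lit 0) (XT.lf (nat_lit 0) (nat_lit 3336260161) (nat_lit 168) (nat_lit 936576717) (nat_lit 252) (nat_lit 26740933265) (nat_lit 6) (nat_lit 5) (nat_lit 8) (nat_lit 5) (nat_lit 9) (nat_lit 5) (nat_lit 387) (nat_lit 290) (nat_lit 211)) (XT.lf (nat_lit 0) (nat_lit 5883110222) (nat_lit 252) (nat_lit 24486455337) (nat_lit 84) (nat_lit 1510543547) (nat_lit 6) (nat_lit 5) (nat_lit 9) (nat_lit 5) (nat_lit 7) (nat_lit 4) (nat_lit 388) (nat_lit 290) (nat_lit 210))))) (XT.nd (nat_lit 282) (nat_lit 84) (nat_lit 0) (XT.nd (nat_lit 94) (nat_lit 0) (nat_lit 0) (XT.lf (nat_lit 0) (nat_lit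 7540697437) (nat_lit 252) (nat_lit 21224232665) (nat_lit 84) (nat_lit 4008509739) (nat_lit 6) (nat_lit 5) (nat_lit 9) (nat_lit 5) (nat_lit 7) (nat_lit 4) (nat_lit 389) (nat_lit 290) (nat_lit 209)) (XT.nd (nat_lit 94) (nat_lit 0) (nat_lit 0) (XT.lf (nat_lit 0) (nat_lit 9237852611) (nat_lit 252) (nat_lit 17878510275) (nat_lit 84) (nat_lit 6578520156) (nat_lit 6) (nat_lit 5) (nat_lit 9) (nat_lit 5) (nat_lit 7) (nat_lit 4) (nat_lit 390) (nat_lit 290) (nat_lit 208)) (XT.lf (nat_lit 0) (nat_lit 10976157670) (nat_lit 252) (nat_lit 14446169604) (nat_lit 84) (nat_lit 9222970318) (nat_lit 6) (nat_lit 5) (nat_lit 9) (nat_lit 5) (nat_lit 7) (nat_lit 4) (nat_lit 391) (nat_lit 290) (nat_lit 207)))) (XT.nd (nat_lit 188) (nat_lit 84) (nat_lit 0) (XT.nd (nat_lit 94) (nat_lit 0) (nat_lit 0) (XT.lf (nat_lit 0) (nat_lit 12757232897) (nat_lit 252) (nat_lit 10924011350) (nat_lit 84) (nat_lit 11944325130)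 (nat_lit 6) (nat_lit 5) (nat_lit 9) (nat_lit 5) (nat_lit 7) (nat_lit 4) (nat_lit 392) (nat_lit 290) (nat_lit 206)) (XT.lf (nat_lit 0) (nat_lit 14582738441) (nat_lit 252) (nat_lit 7308752493) (nat_lit 84) (nat_lit 14745121179) (nat_lit 6) (nat_lit 5) (nat_lit 9) (nat_lit 5) (nat_lit 7) (nat_lit 4) (nat_lit 393) (nat_lit 290) (nat_lit 205))) (XT.nd (nat_lit 94) (nat_lit 84) (nat_lit 0) (XT.lf (nat_lit 0) (nat_lit 16454375864) (nat_lit 252) (nat_lit 3597023233) (nat_lit 84) (nat_lit 17627969101) (nat_lit 6) (nat_lit 5) (nat_lit 9) (nat_lit 5) (nat_lit 7) (nat_lit 4) (nat_lit 394) (nat_lit 290) (nat_lit 204)) (XT.lf (nat_lit 0) (nat_lit 219049508) (nat_lit 84) (nat_lit 18157013218) (nat_lit 168) (nat_lit 20378679501) (nat_lit 5) (nat_lit 5) (nat_lit 6) (nat_lit 5) (nat_lit 7) (nat_lit 4) (nat_lit 395) (nat_lit 290) (nat_lit 203))))))))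
noncomputable def xc72 : XT := (XT.nd (nat_lit 2350) (nat_lit 84) (nat_lit 0) (XT.nd (nat_lit 1128) (nat_lit 84) (nat_lit 0) (XT.nd (nat_lit 564) (nat_lit 84) (nat_lit 0) (XT.nd (nat_lit 282) (nat_lit 0) (nat_lit 0) (XT.nd (nat_lit 94) (nat_lit 0) (nat_lit 0) (XT.lf (nat_lit 0) (nat_lit 4214695237) (nat_lit 84) (nat_lit 16170184282) (nat_lit 168) (nat_lit 19477763073) (nat_lit 5) (nat_lit 5) (nat_lit 6) (nat_lit 5) (nat_lit 7) (nat_lit 4) (nat_lit 396) (nat_lit 290) (nat_lit 202)) (XT.nd (nat_lit 94) (nat_lit 0) (nat_lit 0) (XT.lf (nat_lit 0) (nat_lit 8319676139) (nat_lit 84) (nat_lit 14126605903) (nat_lit 168) (nat_lit 18558948847) (nat_lit 5) (nat_lit 5) (nat_lit 6) (nat_lit 5) (nat_lit 7) (nat_lit 4) (nat_lit 397) (nat_lit 290) (nat_lit 201)) (XT.lf (nat_lit 0) (nat_lit 12537818484) (nat_lit 84) (nat_lit 12024373252) (nat_lit 168) (nat_lit 17621380394) (nat_lit 5) (nat_lit 5)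 (nat_lit 6) (nat_lit 5) (nat_lit 7) (nat_lit 4) (nat_lit 398) (nat_lit 290) (nat_lit 200)))) (XT.nd (nat_lit 94) (nat_lit 0) (nat_lit 0) (XT.lf (nat_lit 0) (nat_lit 16873054025) (nat_lit 84) (nat_lit 9861526828) (nat_lit 168) (nat_lit 16664183800) (nat_lit 5) (nat_lit 5) (nat_lit 6) (nat_lit 5) (nat_lit 7) (nat_lit 4) (nat_lit 399) (nat_lit 290) (nat_lit 199)) (XT.nd (nat_lit 94) (nat_lit 0) (nat_lit 0) (XT.lf (nat_lit 0) (nat_lit 21329423653) (nat_lit 84) (nat_lit 7636050631) (nat_lit 168) (nat_lit 15686466859) (nat_lit 5) (nat_lit 5) (nat_lit 6) (nat_lit 5) (nat_lit 7) (nat_lit 4) (nat_lit 400) (nat_lit 290) (nat_lit 198)) (XT.lf (nat_lit 0) (nat_lit 25911081174) (nat_lit 84) (nat_lit 5345870285) (nat_lit 168) (nat_lit 14687318235) (nat_lit 5) (nat_lit 5) (nat_lit 6) (nat_lit 5) (nat_lit 7) (nat_lit 4) (nat_lit 401) (nat_lit 290) (nat_lit 197))))) (XT.nd (nat_lit 282) (nat_lit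 84) (nat_lit 0) (XT.nd (nat_lit 94) (nat_lit 0) (nat_lit 0) (XT.lf (nat_lit 0) (nat_lit 30622297171) (nat_lit 84) (nat_lit 2988851101) (nat_lit 168) (nat_lit 13665806617) (nat_lit 5) (nat_lit 5) (nat_lit 6) (nat_lit 5) (nat_lit 7) (nat_lit 4) (nat_lit 402) (nat_lit 290) (nat_lit 196)) (XT.nd (nat_lit 94) (nat_lit 0) (nat_lit 0) (XT.lf (nat_lit 0) (nat_lit 35467462992) (nat_lit 84) (nat_lit 562796091) (nat_lit 168) (nat_lit 12620979850) (nat_lit 5) (nat_lit 5) (nat_lit 6) (nat_lit 5) (nat_lit 7) (nat_lit 4) (nat_lit 403) (nat_lit 290) (nat_lit 195)) (XT.lf (nat_lit 0) (nat_lit 38535729791) (nat_lit 168) (nat_lit 9636498999) (nat_lit 0) (nat_lit 1895579088) (nat_lit 5) (nat_lit 5) (nat_lit 7) (nat_lit 4) (nat_lit 5) (nat_lit 4) (nat_lit 404) (nat_lit 290) (nat_lit 194)))) (XT.nd (nat_lit 94) (nat_lit 84) (nat_lit 0) (XT.lf (nat_lit 0) (nat_lit 41117000210) (nat_lit 168) (nat_lit 5996624909)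 (nat_lit 0) (nat_lit 4414756760) (nat_lit 5) (nat_lit 5) (nat_lit 7) (nat_lit 4) (nat_lit 5) (nat_lit 4) (nat_lit 405) (nat_lit 290) (nat_lit 193)) (XT.nd (nat_lit 94) (nat_lit 84) (nat_lit 0) (XT.lf (nat_lit 0) (nat_lit 43770893346) (nat_lit 168) (nat_lit 2255177921) (nat_lit 0) (nat_lit 7008424147) (nat_lit 5) (nat_lit 5) (nat_lit 7) (nat_lit 4) (nat_lit 5) (nat_lit 4) (nat_lit 406) (nat_lit 290) (nat_lit 192)) (XT.lf (nat_lit 0) (nat_lit 1624050380) (nat_lit 84) (nat_lit 44891943307) (nat_lit 84) (nat_lit 8071059221) (nat_lit 4) (nat_lit 4) (nat_lit 5) (nat_lit 5) (nat_lit 5) (nat_lit 4) (nat_lit 407) (nat_lit 290) (nat_lit 191)))))) (XT.nd (nat_lit 564) (nat_lit 84) (nat_lit 0) (XT.nd (nat_lit 282) (nat_lit 0) (nat_lit 0) (XT.nd (nat_lit 94) (nat_lit 0) (nat_lit 0) (XT.lf (nat_lit 0) (nat_lit 5660529410) (nat_lit 84) (nat_lit 43702136338) (nat_lit 84) (nat_lit 6824593778) (nat_lit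 4) (nat_lit 4) (nat_lit 5) (nat_lit 5) (nat_lit 5) (nat_lit 4) (nat_lit 408) (nat_lit 290) (nat_lit 190)) (XT.nd (nat_lit 94) (nat_lit 0) (nat_lit 0) (XT.lf (nat_lit 0) (nat_lit 9811650505) (nat_lit 84) (nat_lit 42479080769) (nat_lit 84) (nat_lit 5546583335) (nat_lit 4) (nat_lit 4) (nat_lit 5) (nat_lit 5) (nat_lit 5) (nat_lit 4) (nat_lit 409) (nat_lit 290) (nat_lit 189)) (XT.lf (nat_lit 0) (nat_lit 14081282945) (nat_lit 84) (nat_lit 41221636584) (nat_lit 84) (nat_lit 4235836654) (nat_lit 4) (nat_lit 4) (nat_lit 5) (nat_lit 5) (nat_lit 5) (nat_lit 4) (nat_lit 410) (nat_lit 290) (nat_lit 188)))) (XT.nd (nat_lit 94) (nat_lit 0) (nat_lit 0) (XT.lf (nat_lit 0) (nat_lit 18473406475) (nat_lit 84) (nat_lit 39928631712) (nat_lit 84) (nat_lit 2891131980) (nat_lit 4) (nat_lit 4) (nat_lit 5) (nat_lit 5) (nat_lit 5) (nat_lit 4) (nat_lit 411) (nat_lit 290) (nat_lit 187)) (XT.nd (nat_lit 94) (nat_lit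 0) (nat_lit 0) (XT.lf (nat_lit 0) (nat_lit 22992115014) (nat_lit 84) (nat_lit 38598860938) (nat_lit 84) (nat_lit 1511215908) (nat_lit 4) (nat_lit 4) (nat_lit 5) (nat_lit 5) (nat_lit 5) (nat_lit 4) (nat_lit 412) (nat_lit 290) (nat_lit 186)) (XT.lf (nat_lit 0) (nat_lit 27641620472) (nat_lit 84) (nat_lit 37231084776) (nat_lit 84) (nat_lit 94802212) (nat_lit 4) (nat_lit 4) (nat_lit 5) (nat_lit 5) (nat_lit 5) (nat_lit 4) (nat_lit 413) (nat_lit 290) (nat_lit 185))))) (XT.nd (nat_lit 282) (nat_lit 0) (nat_lit 0) (XT.nd (nat_lit 94) (nat_lit 0) (nat_lit 0) (XT.lf (nat_lit 0) (nat_lit 1332039882) (nat_lit 168) (nat_lit 34478084669) (nat_lit 84) (nat_lit 31080313028) (nat_lit 3) (nat_lit 5) (nat_lit 5) (nat_lit 5) (nat_lit 4) (nat_lit 4) (nat_lit 414) (nat_lit 290) (nat_lit 184)) (XT.nd (nat_lit 94) (nat_lit 0) (nat_lit 0) (XT.lf (nat_lit 0) (nat_lit 2795356033) (nat_lit 168) (nat_lit 31551846216)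 (nat_lit 84) (nat_lit 34525949587) (nat_lit 3) (nat_lit 5) (nat_lit 5) (nat_lit 5) (nat_lit 4) (nat_lit 4) (nat_lit 415) (nat_lit 290) (nat_lit 183)) (XT.lf (nat_lit 0) (nat_lit 4298420258) (nat_lit 168) (nat_lit 28543503618) (nat_lit 84) (nat_lit 38075603605) (nat_lit 3) (nat_lit 5) (nat_lit 5) (nat_lit 5) (nat_lit 4) (nat_lit 4) (nat_lit 416) (nat_lit 290) (nat_lit 182)))) (XT.nd (nat_lit 188) (nat_lit 0) (nat_lit 0) (XT.nd (nat_lit 94) (nat_lit 0) (nat_lit 0) (XT.lf (nat_lit 0) (nat_lit 5842633572) (nat_lit 168) (nat_lit 25450252784) (nat_lit 84) (nat_lit 41732583733) (nat_lit 3) (nat_lit 5) (nat_lit 5) (nat_lit 5) (nat_lit 4) (nat_lit 4) (nat_lit 417) (nat_lit 290) (nat_lit 181)) (XT.lf (nat_lit 0) (nat_lit 7429435341) (nat_lit 168) (nat_lit 22269210482) (nat_lit 84) (nat_lit 45500298658) (nat_lit 3) (nat_lit 5) (nat_lit 5) (nat_lit 5) (nat_lit 4) (nat_lit 4) (nat_lit 418) (nat_lit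 290) (nat_lit 180))) (XT.nd (nat_lit 94) (nat_lit 0) (nat_lit 0) (XT.lf (nat_lit 0) (nat_lit 9060304631) (nat_lit 168) (nat_lit 18997411645) (nat_lit 84) (nat_lit 49382260285) (nat_lit 3) (nat_lit 5) (nat_lit 5) (nat_lit 5) (nat_lit 4) (nat_lit 4) (nat_lit 419) (nat_lit 290) (nat_lit 179)) (XT.lf (nat_lit 0) (nat_lit 10736761585) (nat_lit 168) (nat_lit 15631806616) (nat_lit 84) (nat_lit 53382087009) (nat_lit 3) (nat_lit 5) (nat_lit 5) (nat_lit 5) (nat_lit 4) (nat_lit 4) (nat_lit 420) (nat_lit 290) (nat_lit 178))))))) (XT.nd (nat_lit 45402) (nat_lit 0) (nat_lit 6384) (XT.nd (nat_lit 564) (nat_lit 0) (nat_lit 0) (XT.nd (nat_lit 282) (nat_lit 84) (nat_lit 0) (XT.nd (nat_lit 94) (nat_lit 0) (nat_lit 0) (XT.lf (nat_lit 0) (nat_lit 12460368834) (nat_lit 168) (nat_lit 12169258296) (nat_lit 84) (nat_lit 57503507089) (nat_lit 3) (nat_lit 5) (nat_lit 5) (nat_lit 5) (nat_lit 4) (nat_lit 4)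 (nat_lit 421) (nat_lit 290) (nat_lit 177)) (XT.nd (nat_lit 94) (nat_lit 0) (nat_lit 0) (XT.lf (nat_lit 0) (nat_lit 14232732962) (nat_lit 168) (nat_lit 8606539230) (nat_lit 84) (nat_lit 61750362118) (nat_lit 3) (nat_lit 5) (nat_lit 5) (nat_lit 5) (nat_lit 4) (nat_lit 4) (nat_lit 422) (nat_lit 290) (nat_lit 176)) (XT.lf (nat_lit 0) (nat_lit 16055505998) (nat_lit 168) (nat_lit 4940328589) (nat_lit 84) (nat_lit 66126610612) (nat_lit 3) (nat_lit 5) (nat_lit 5) (nat_lit 5) (nat_lit 4) (nat_lit 4) (nat_lit 423) (nat_lit 290) (nat_lit 175)))) (XT.nd (nat_lit 94) (nat_lit 84) (nat_lit 0) (XT.lf (nat_lit 0) (nat_lit 17930386956) (nat_lit 168) (nat_lit 1167209082) (nat_lit 84) (nat_lit 70636331691) (nat_lit 3) (nat_lit 5) (nat_lit 5) (nat_lit 5) (nat_lit 4) (nat_lit 4) (nat_lit 424) (nat_lit 290) (nat_lit 174)) (XT.nd (nat_lit 94) (nat_lit 0) (nat_lit 0) (XT.lf (nat_lit 0) (nat_lit 2772189679)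 (nat_lit 84) (nat_lit 17114434209) (nat_lit 168) (nat_lit 72539039674) (nat_lit 2) (nat_lit 5) (nat_lit 3) (nat_lit 5) (nat_lit 4) (nat_lit 4) (nat_lit 425) (nat_lit 290) (nat_lit 173)) (XT.lf (nat_lit 0) (nat_lit 6851979347) (nat_lit 84) (nat_lit 15059506320) (nat_lit 168) (nat_lit 73289127202) (nat_lit 2) (nat_lit 5) (nat_lit 3) (nat_lit 5) (nat_lit 4) (nat_lit 4) (nat_lit 426) (nat_lit 290) (nat_lit 172))))) (XT.nd (nat_lit 44462) (nat_lit 0) (nat_lit 11004) (XT.nd (nat_lit 94) (nat_lit 0) (nat_lit 0) (XT.lf (nat_lit 0) (nat_lit 11051962499) (nat_lit 84) (nat_lit 12943080232) (nat_lit 168) (nat_lit 74066685785) (nat_lit 2) (nat_lit 5) (nat_lit 3) (nat_lit 5) (nat_lit 4) (nat_lit 4) (nat_lit 427) (nat_lit 290) (nat_lit 171)) (XT.nd (nat_lit 44274) (nat_lit 0) (nat_lit 11928) (XT.lf (nat_lit 0) (nat_lit 15376053961) (nat_lit 84) (nat_lit 10763183214) (nat_lit 168) (nat_lit 74872440191)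 (nat_lit 2) (nat_lit 5) (nat_lit 3) (nat_lit 5) (nat_lit 4) (nat_lit 4) (nat_lit 428) (nat_lit 290) (nat_lit 170)) (XT.lf (nat_lit 0) (nat_lit 2890987705) (nat_lit 252) (nat_lit 199075641) (nat_lit 252) (nat_lit 199075641) (nat_lit 144) (nat_lit 4) (nat_lit 147) (nat_lit 5) (nat_lit 147) (nat_lit 4) (nat_lit 306) (nat_lit 291) (nat_lit 291)))) (XT.nd (nat_lit 188) (nat_lit 504) (nat_lit 0) (XT.nd (nat_lit 94) (nat_lit 0) (nat_lit 0) (XT.lf (nat_lit 0) (nat_lit 1883518192) (nat_lit 420) (nat_lit 4625060745) (nat_lit 0) (nat_lit 99110633) (nat_lit 139) (nat_lit 5) (nat_lit 144) (nat_lit 4) (nat_lit 139) (nat_lit 4) (nat_lit 307) (nat_lit 291) (nat_lit 290)) (XT.lf (nat_lit 0) (nat_lit 4157591694) (nat_lit 420) (nat_lit 1840969222) (nat_lit 0) (nat_lit 642429955) (nat_lit 139) (nat_lit 5) (nat_lit 144) (nat_lit 4) (nat_lit 139) (nat_lit 4) (nat_lit 308) (nat_lit 291) (nat_lit 289)))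 (XT.nd (nat_lit 94) (nat_lit 84) (nat_lit 0) (XT.lf (nat_lit 0) (nat_lit 991626498) (nat_lit 420) (nat_lit 5440327304) (nat_lit 420) (nat_lit 246451521) (nat_lit 134) (nat_lit 4) (nat_lit 139) (nat_lit 5) (nat_lit 139) (nat_lit 4) (nat_lit 309) (nat_lit 291) (nat_lit 288)) (XT.lf (nat_lit 0) (nat_lit 1957888058) (nat_lit 504) (nat_lit 2845643781) (nat_lit 84) (nat_lit 1915539157) (nat_lit 133) (nat_lit 5) (nat_lit 139) (nat_lit 5) (nat_lit 134) (nat_lit 4) (nat_lit 310) (nat_lit 291) (nat_lit 287)))))) (XT.nd (nat_lit 564) (nat_lit 2688) (nat_lit 0) (XT.nd (nat_lit 282) (nat_lit 1344) (nat_lit 0) (XT.nd (nat_lit 94) (nat_lit 84) (nat_lit 0) (XT.lf (nat_lit 0) (nat_lit 23626899) (nat_lit 504) (nat_lit 4124586919) (nat_lit 588) (nat_lit 2615924671) (nat_lit 127) (nat_lit 5) (nat_lit 133) (nat_lit 5) (nat_lit 134) (nat_lit 4) (nat_lit 311) (nat_lit 291) (nat_lit 286)) (XT.nd (nat_lit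 94) (nat_lit 84) (nat_lit 0) (XT.lf (nat_lit 0) (nat_lit 2984862301) (nat_lit 504) (nat_lit 3375577359) (nat_lit 588) (nat_lit 452389825) (nat_lit 127) (nat_lit 5) (nat_lit 133) (nat_lit 5) (nat_lit 134) (nat_lit 4) (nat_lit 312) (nat_lit 291) (nat_lit 285)) (XT.lf (nat_lit 0) (nat_lit 1667449375) (nat_lit 588) (nat_lit 900653564) (nat_lit 84) (nat_lit 4297456204) (nat_lit 126) (nat_lit 5) (nat_lit 133) (nat_lit 5) (nat_lit 127) (nat_lit 5) (nat_lit 313) (nat_lit 291) (nat_lit 284)))) (XT.nd (nat_lit 94) (nat_lit 756) (nat_lit 0) (XT.lf (nat_lit 0) (nat_lit 2098929409) (nat_lit 588) (nat_lit 1692813690) (nat_lit 672) (nat_lit 3130375009) (nat_lit 119) (nat_lit 5) (nat_lit 126) (nat_lit 5) (nat_lit 127) (nat_lit 5) (nat_lit 314) (nat_lit 291) (nat_lit 283)) (XT.nd (nat_lit 94) (nat_lit 756) (nat_lit 0) (XT.lf (nat_lit 0) (nat_lit 5155021961) (nat_lit 588) (nat_lit 765218226) (nat_lit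 672) (nat_lit 1062809756) (nat_lit 119) (nat_lit 5) (nat_lit 126) (nat_lit 5) (nat_lit 127) (nat_lit 5) (nat_lit 315) (nat_lit 291) (nat_lit 282)) (XT.lf (nat_lit 0) (nat_lit 991374130) (nat_lit 756) (nat_lit 5832376772) (nat_lit 84) (nat_lit 224191675) (nat_lit 110) (nat_lit 5) (nat_lit 119) (nat_lit 5) (nat_lit 111) (nat_lit 5) (nat_lit 316) (nat_lit 291) (nat_lit 281))))) (XT.nd (nat_lit 282) (nat_lit 1932) (nat_lit 0) (XT.nd (nat_lit 94) (nat_lit 756) (nat_lit 0) (XT.lf (nat_lit 0) (nat_lit 3045665906) (nat_lit 756) (nat_lit 2799236205) (nat_lit 84) (nat_lit 1271540540) (nat_lit 110) (nat_lit 5) (nat_lit 119) (nat_lit 5) (nat_lit 111) (nat_lit 5) (nat_lit 317) (nat_lit 291) (nat_lit 280)) (XT.nd (nat_lit 94) (nat_lit 0) (nat_lit 0) (XT.lf (nat_lit 0) (nat_lit 276911960) (nat_lit 756) (nat_lit 4822941188) (nat_lit 840) (nat_lit 2089817458) (nat_lit 101) (nat_lit 5) (nat_lit 110)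 (nat_lit 5) (nat_lit 111) (nat_lit 5) (nat_lit 318) (nat_lit 291) (nat_lit 279)) (XT.lf (nat_lit 0) (nat_lit 3451737151) (nat_lit 756) (nat_lit 3730111521) (nat_lit 840) (nat_lit 85040088) (nat_lit 101) (nat_lit 5) (nat_lit 110) (nat_lit 5) (nat_lit 111) (nat_lit 5) (nat_lit 319) (nat_lit 291) (nat_lit 278)))) (XT.nd (nat_lit 188) (nat_lit 1008) (nat_lit 0) (XT.nd (nat_lit 94) (nat_lit 840) (nat_lit 0) (XT.lf (nat_lit 0) (nat_lit 1877598467) (nat_lit 840) (nat_lit 697416019) (nat_lit 84) (nat_lit 4773443854) (nat_lit 100) (nat_lit 5) (nat_lit 110) (nat_lit 5) (nat_lit 101) (nat_lit 5) (nat_lit 320) (nat_lit 291) (nat_lit 277)) (XT.lf (nat_lit 0) (nat_lit 2512168412) (nat_lit 840) (nat_lit 1349643666) (nat_lit 924) (nat_lit 3572434938) (nat_lit 90) (nat_lit 5) (nat_lit 100) (nat_lit 5) (nat_lit 101) (nat_lit 5) (nat_lit 321) (nat_lit 291) (nat_lit 276))) (XT.nd (nat_lit 94) (nat_lit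 1008) (nat_lit 0) (XT.lf (nat_lit 0) (nat_lit 5782041245) (nat_lit 840) (nat_lit 71694633) (nat_lit 924) (nat_lit 1671165284) (nat_lit 90) (nat_lit 5) (nat_lit 100) (nat_lit 5) (nat_lit 101) (nat_lit 5) (nat_lit 322) (nat_lit 291) (nat_lit 275)) (XT.lf (nat_lit 0) (nat_lit 250425432) (nat_lit 1008) (nat_lit 6124474966) (nat_lit 84) (nat_lit 1244899265) (nat_lit 78) (nat_lit 5) (nat_lit 90) (nat_lit 5) (nat_lit 79) (nat_lit 5) (nat_lit 323) (nat_lit 291) (nat_lit 274))))))))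
noncomputable def xc73 : XT := (XT.nd (nat_lit 2350) (nat_lit 1680) (nat_lit 0) (XT.nd (nat_lit 1128) (nat_lit 1512) (nat_lit 0) (XT.nd (nat_lit 564) (nat_lit 1260) (nat_lit 0) (XT.nd (nat_lit 282) (nat_lit 588) (nat_lit 0) (XT.nd (nat_lit 94) (nat_lit 672) (nat_lit 0) (XT.lf (nat_lit 0) (nat_lit 2156959876) (nat_lit 1008) (nat_lit 2920193555) (nat_lit 84) (nat_lit 2641685096) (nat_lit 78) (nat_lit 5) (nat_lit 90) (nat_lit 5) (nat_lit 79) (nat_lit 5) (nat_lit 324) (nat_lit 291) (nat_lit 273)) (XT.nd (nat_lit 94) (nat_lit 0) (nat_lit 0) (XT.lf (nat_lit 0) (nat_lit 335924083) (nat_lit 672) (nat_lit 3732757140) (nat_lit 756) (nat_lit 3754414096) (nat_lit 70) (nat_lit 5) (nat_lit 78) (nat_lit 5) (nat_lit 79) (nat_lit 5) (nat_lit 325) (nat_lit 291) (nat_lit 272)) (XT.lf (nat_lit 0) (nat_lit 3701172703) (nat_lit 672) (nat_lit 2312914457) (nat_lit 756) (nat_lit 1917751870) (nat_lit 70)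 (nat_lit 5) (nat_lit 78) (nat_lit 5) (nat_lit 79) (nat_lit 5) (nat_lit 326) (nat_lit 291) (nat_lit 271)))) (XT.nd (nat_lit 94) (nat_lit 588) (nat_lit 0) (XT.lf (nat_lit 0) (nat_lit 7118643897) (nat_lit 672) (nat_lit 846782773) (nat_lit 756) (nat_lit 80660844) (nat_lit 70) (nat_lit 5) (nat_lit 78) (nat_lit 5) (nat_lit 79) (nat_lit 5) (nat_lit 327) (nat_lit 291) (nat_lit 270)) (XT.nd (nat_lit 94) (nat_lit 0) (nat_lit 0) (XT.lf (nat_lit 0) (nat_lit 1754564751) (nat_lit 588) (nat_lit 5714048516) (nat_lit 84) (nat_lit 695819027) (nat_lit 63) (nat_lit 5) (nat_lit 70) (nat_lit 5) (nat_lit 64) (nat_lit 5) (nat_lit 328) (nat_lit 291) (nat_lit 269)) (XT.lf (nat_lit 0) (nat_lit 3610856822) (nat_lit 588) (nat_lit 2396727617) (nat_lit 84) (nat_lit 2280303306) (nat_lit 63) (nat_lit 5) (nat_lit 70) (nat_lit 5) (nat_lit 64) (nat_lit 5) (nat_lit 329) (nat_lit 291) (nat_lit 268))))) (XT.nd (nat_lit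 282) (nat_lit 756) (nat_lit 0) (XT.nd (nat_lit 94) (nat_lit 84) (nat_lit 0) (XT.lf (nat_lit 0) (nat_lit 991434011) (nat_lit 420) (nat_lit 4492086142) (nat_lit 504) (nat_lit 2933323159) (nat_lit 58) (nat_lit 5) (nat_lit 63) (nat_lit 5) (nat_lit 64) (nat_lit 5) (nat_lit 330) (nat_lit 291) (nat_lit 267)) (XT.nd (nat_lit 94) (nat_lit 84) (nat_lit 0) (XT.lf (nat_lit 0) (nat_lit 4483992775) (nat_lit 420) (nat_lit 2905274639) (nat_lit 504) (nat_lit 1161687798) (nat_lit 58) (nat_lit 5) (nat_lit 63) (nat_lit 5) (nat_lit 64) (nat_lit 5) (nat_lit 331) (nat_lit 291) (nat_lit 266)) (XT.lf (nat_lit 0) (nat_lit 602128588) (nat_lit 504) (nat_lit 662274201) (nat_lit 84) (nat_lit 7426508895) (nat_lit 57) (nat_lit 5) (nat_lit 63) (nat_lit 5) (nat_lit 58) (nat_lit 5) (nat_lit 332) (nat_lit 291) (nat_lit 265)))) (XT.nd (nat_lit 94) (nat_lit 336) (nat_lit 0) (XT.lf (nat_lit 0) (nat_lit 2381471830) (nat_lit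 504) (nat_lit 5996791546) (nat_lit 84) (nat_lit 457391762) (nat_lit 52) (nat_lit 5) (nat_lit 58) (nat_lit 5) (nat_lit 53) (nat_lit 5) (nat_lit 333) (nat_lit 291) (nat_lit 264)) (XT.nd (nat_lit 94) (nat_lit 336) (nat_lit 0) (XT.lf (nat_lit 0) (nat_lit 4188957362) (nat_lit 504) (nat_lit 2586098709) (nat_lit 84) (nat_lit 2211007569) (nat_lit 52) (nat_lit 5) (nat_lit 58) (nat_lit 5) (nat_lit 53) (nat_lit 5) (nat_lit 334) (nat_lit 291) (nat_lit 263)) (XT.lf (nat_lit 0) (nat_lit 898970029) (nat_lit 336) (nat_lit 5116901275) (nat_lit 420) (nat_lit 3126728440) (nat_lit 48) (nat_lit 5) (nat_lit 52) (nat_lit 5) (nat_lit 53) (nat_lit 5) (nat_lit 335) (nat_lit 291) (nat_lit 262)))))) (XT.nd (nat_lit 564) (nat_lit 672) (nat_lit 0) (XT.nd (nat_lit 282) (nat_lit 336) (nat_lit 0) (XT.nd (nat_lit 94) (nat_lit 504) (nat_lit 0) (XT.lf (nat_lit 0) (nat_lit 4497932831) (nat_lit 336) (nat_lit 3383841759)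 (nat_lit 420) (nat_lit 1423081171) (nat_lit 48) (nat_lit 5) (nat_lit 52) (nat_lit 5) (nat_lit 53) (nat_lit 5) (nat_lit 336) (nat_lit 291) (nat_lit 261)) (XT.nd (nat_lit 94) (nat_lit 420) (nat_lit 0) (XT.lf (nat_lit 0) (nat_lit 282618720) (nat_lit 420) (nat_lit 1315687015) (nat_lit 84) (nat_lit 7875400133) (nat_lit 47) (nat_lit 5) (nat_lit 52) (nat_lit 5) (nat_lit 48) (nat_lit 5) (nat_lit 337) (nat_lit 291) (nat_lit 260)) (XT.lf (nat_lit 0) (nat_lit 1994151432) (nat_lit 504) (nat_lit 7383325144) (nat_lit 84) (nat_lit 270696796) (nat_lit 42) (nat_lit 5) (nat_lit 48) (nat_lit 5) (nat_lit 43) (nat_lit 5) (nat_lit 338) (nat_lit 291) (nat_lit 259)))) (XT.nd (nat_lit 94) (nat_lit 336) (nat_lit 0) (XT.lf (nat_lit 0) (nat_lit 3747015208) (nat_lit 504) (nat_lit 3908132221) (nat_lit 84) (nat_lit 2173548938) (nat_lit 42) (nat_lit 5) (nat_lit 48) (nat_lit 5) (nat_lit 43) (nat_lit 5) (nat_lit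 339) (nat_lit 291) (nat_lit 258)) (XT.nd (nat_lit 94) (nat_lit 336) (nat_lit 0) (XT.lf (nat_lit 0) (nat_lit 5513532125) (nat_lit 504) (nat_lit 372049394) (nat_lit 84) (nat_lit 4130770263) (nat_lit 42) (nat_lit 5) (nat_lit 48) (nat_lit 5) (nat_lit 43) (nat_lit 5) (nat_lit 340) (nat_lit 291) (nat_lit 257)) (XT.lf (nat_lit 0) (nat_lit 3294598146) (nat_lit 336) (nat_lit 4033433439) (nat_lit 420) (nat_lit 2882269781) (nat_lit 38) (nat_lit 5) (nat_lit 42) (nat_lit 5) (nat_lit 43) (nat_lit 5) (nat_lit 341) (nat_lit 291) (nat_lit 256))))) (XT.nd (nat_lit 282) (nat_lit 252) (nat_lit 0) (XT.nd (nat_lit 94) (nat_lit 420) (nat_lit 0) (XT.lf (nat_lit 0) (nat_lit 7037826314) (nat_lit 336) (nat_lit 2126115758) (nat_lit 420) (nat_lit 1247659975) (nat_lit 38) (nat_lit 5) (nat_lit 42) (nat_lit 5) (nat_lit 43) (nat_lit 5) (nat_lit 342) (nat_lit 291) (nat_lit 255)) (XT.nd (nat_lit 94) (nat_lit 0) (nat_lit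 0) (XT.lf (nat_lit 0) (nat_lit 233669118) (nat_lit 336) (nat_lit 159266953) (nat_lit 420) (nat_lit 10227427701) (nat_lit 33) (nat_lit 5) (nat_lit 37) (nat_lit 5) (nat_lit 38) (nat_lit 5) (nat_lit 343) (nat_lit 291) (nat_lit 254)) (XT.lf (nat_lit 0) (nat_lit 2075041081) (nat_lit 420) (nat_lit 6887223667) (nat_lit 84) (nat_lit 1872659225) (nat_lit 33) (nat_lit 5) (nat_lit 38) (nat_lit 5) (nat_lit 34) (nat_lit 5) (nat_lit 344) (nat_lit 291) (nat_lit 253)))) (XT.nd (nat_lit 188) (nat_lit 0) (nat_lit 0) (XT.nd (nat_lit 94) (nat_lit 252) (nat_lit 0) (XT.lf (nat_lit 0) (nat_lit 3774504714) (nat_lit 420) (nat_lit 3325057250) (nat_lit 84) (nat_lit 3957880896) (nat_lit 33) (nat_lit 5) (nat_lit 38) (nat_lit 5) (nat_lit 34) (nat_lit 5) (nat_lit 345) (nat_lit 291) (nat_lit 252)) (XT.lf (nat_lit 0) (nat_lit 310970215) (nat_lit 252) (nat_lit 5183445748) (nat_lit 336) (nat_lit 5793665226) (nat_lit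 30) (nat_lit 5) (nat_lit 33) (nat_lit 5) (nat_lit 34) (nat_lit 5) (nat_lit 346) (nat_lit 291) (nat_lit 251))) (XT.nd (nat_lit 94) (nat_lit 0) (nat_lit 0) (XT.lf (nat_lit 0) (nat_lit 4087806160) (nat_lit 252) (nat_lit 3179865884) (nat_lit 336) (nat_lit 4258411779) (nat_lit 30) (nat_lit 5) (nat_lit 33) (nat_lit 5) (nat_lit 34) (nat_lit 5) (nat_lit 347) (nat_lit 291) (nat_lit 250)) (XT.lf (nat_lit 0) (nat_lit 7940600996) (nat_lit 252) (nat_lit 1121661605) (nat_lit 336) (nat_lit 2710453566) (nat_lit 30) (nat_lit 5) (nat_lit 33) (nat_lit 5) (nat_lit 34) (nat_lit 5) (nat_lit 348) (nat_lit 291) (nat_lit 249))))))) (XT.nd (nat_lit 1222) (nat_lit 588) (nat_lit 0) (XT.nd (nat_lit 564) (nat_lit 504) (nat_lit 0) (XT.nd (nat_lit 282) (nat_lit 252) (nat_lit 0) (XT.nd (nat_lit 94) (nat_lit 336) (nat_lit 0) (XT.lf (nat_lit 0) (nat_lit 10889711911) (nat_lit 336) (nat_lit 165113708) (nat_lit 84) (nat_lit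 973077090) (nat_lit 30) (nat_lit 5) (nat_lit 34) (nat_lit 5) (nat_lit 31) (nat_lit 5) (nat_lit 349) (nat_lit 291) (nat_lit 248)) (XT.nd (nat_lit 94) (nat_lit 0) (nat_lit 0) (XT.lf (nat_lit 0) (nat_lit 488897289) (nat_lit 336) (nat_lit 8658067805) (nat_lit 84) (nat_lit 3143586882) (nat_lit 26) (nat_lit 5) (nat_lit 30) (nat_lit 5) (nat_lit 27) (nat_lit 5) (nat_lit 350) (nat_lit 291) (nat_lit 247)) (XT.lf (nat_lit 0) (nat_lit 2112866719) (nat_lit 336) (nat_lit 5061868454) (nat_lit 84) (nat_lit 5387359589) (nat_lit 26) (nat_lit 5) (nat_lit 30) (nat_lit 5) (nat_lit 27) (nat_lit 5) (nat_lit 351) (nat_lit 291) (nat_lit 246)))) (XT.nd (nat_lit 94) (nat_lit 252) (nat_lit 0) (XT.lf (nat_lit 0) (nat_lit 3756474483) (nat_lit 336) (nat_lit 1393205137) (nat_lit 84) (nat_lit 7693506925) (nat_lit 26) (nat_lit 5) (nat_lit 30) (nat_lit 5) (nat_lit 27) (nat_lit 5) (nat_lit 352) (nat_lit 291) (nat_lit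 245)) (XT.nd (nat_lit 94) (nat_lit 0) (nat_lit 0) (XT.lf (nat_lit 0) (nat_lit 2399690130) (nat_lit 252) (nat_lit 3045367687) (nat_lit 336) (nat_lit 7688293553) (nat_lit 23) (nat_lit 5) (nat_lit 26) (nat_lit 5) (nat_lit 27) (nat_lit 5) (nat_lit 353) (nat_lit 291) (nat_lit 244)) (XT.lf (nat_lit 0) (nat_lit 6302238497) (nat_lit 252) (nat_lit 869033291) (nat_lit 336) (nat_lit 6261864397) (nat_lit 23) (nat_lit 5) (nat_lit 26) (nat_lit 5) (nat_lit 27) (nat_lit 5) (nat_lit 354) (nat_lit 291) (nat_lit 243))))) (XT.nd (nat_lit 282) (nat_lit 252) (nat_lit 0) (XT.nd (nat_lit 94) (nat_lit 252) (nat_lit 0) (XT.lf (nat_lit 0) (nat_lit 8936179380) (nat_lit 336) (nat_lit 3467386210) (nat_lit 84) (nat_lit 1339271759) (nat_lit 23) (nat_lit 5) (nat_lit 27) (nat_lit 5) (nat_lit 24) (nat_lit 5) (nat_lit 355) (nat_lit 291) (nat_lit 242)) (XT.nd (nat_lit 94) (nat_lit 0) (nat_lit 0) (XT.lf (nat_lit 0) (nat_lit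 270068895) (nat_lit 252) (nat_lit 10469696258) (nat_lit 336) (nat_lit 3323029858) (nat_lit 20) (nat_lit 5) (nat_lit 23) (nat_lit 5) (nat_lit 24) (nat_lit 5) (nat_lit 356) (nat_lit 291) (nat_lit 241)) (XT.lf (nat_lit 0) (nat_lit 4161079798) (nat_lit 252) (nat_lit 8447248101) (nat_lit 336) (nat_lit 1784216359) (nat_lit 20) (nat_lit 5) (nat_lit 23) (nat_lit 5) (nat_lit 24) (nat_lit 5) (nat_lit 357) (nat_lit 291) (nat_lit 240)))) (XT.nd (nat_lit 188) (nat_lit 168) (nat_lit 0) (XT.nd (nat_lit 94) (nat_lit 84) (nat_lit 0) (XT.lf (nat_lit 0) (nat_lit 8137976757) (nat_lit 252) (nat_lit 6370528387) (nat_lit 336) (nat_lit 224975537) (nat_lit 20) (nat_lit 5) (nat_lit 23) (nat_lit 5) (nat_lit 24) (nat_lit 5) (nat_lit 358) (nat_lit 291) (nat_lit 239)) (XT.lf (nat_lit 0) (nat_lit 1328822663) (nat_lit 336) (nat_lit 2894908548) (nat_lit 84) (nat_lit 10861773808) (nat_lit 19) (nat_lit 5) (nat_lit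 23) (nat_lit 5) (nat_lit 20) (nat_lit 5) (nat_lit 359) (nat_lit 291) (nat_lit 238))) (XT.nd (nat_lit 94) (nat_lit 0) (nat_lit 0) (XT.lf (nat_lit 0) (nat_lit 902965974) (nat_lit 168) (nat_lit 2006963598) (nat_lit 252) (nat_lit 12539079212) (nat_lit 17) (nat_lit 5) (nat_lit 19) (nat_lit 5) (nat_lit 20) (nat_lit 5) (nat_lit 360) (nat_lit 291) (nat_lit 237)) (XT.lf (nat_lit 0) (nat_lit 4548543018) (nat_lit 252) (nat_lit 10979781145) (nat_lit 84) (nat_lit 295325887) (nat_lit 17) (nat_lit 5) (nat_lit 20) (nat_lit 5) (nat_lit 18) (nat_lit 5) (nat_lit 361) (nat_lit 291) (nat_lit 236)))))) (XT.nd (nat_lit 564) (nat_lit 420) (nat_lit 0) (XT.nd (nat_lit 282) (nat_lit 0) (nat_lit 0) (XT.nd (nat_lit 94) (nat_lit 168) (nat_lit 0) (XT.lf (nat_lit 0) (nat_lit 6234428858) (nat_lit 252) (nat_lit 7356285108) (nat_lit 84) (nat_lit 2619428665) (nat_lit 17) (nat_lit 5) (nat_lit 20) (nat_lit 5) (nat_lit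 18) (nat_lit 5) (nat_lit 362) (nat_lit 291) (nat_lit 235)) (XT.nd (nat_lit 94) (nat_lit 168) (nat_lit 0) (XT.lf (nat_lit 0) (nat_lit 7949249188) (nat_lit 252) (nat_lit 3652267893) (nat_lit 84) (nat_lit 5007946886) (nat_lit 17) (nat_lit 5) (nat_lit 20) (nat_lit 5) (nat_lit 18) (nat_lit 5) (nat_lit 363) (nat_lit 291) (nat_lit 234)) (XT.lf (nat_lit 0) (nat_lit 138513773) (nat_lit 168) (nat_lit 9557462700) (nat_lit 252) (nat_lit 7325967199) (nat_lit 15) (nat_lit 5) (nat_lit 17) (nat_lit 5) (nat_lit 18) (nat_lit 5) (nat_lit 364) (nat_lit 291) (nat_lit 233)))) (XT.nd (nat_lit 94) (nat_lit 0) (nat_lit 0) (XT.lf (nat_lit 0) (nat_lit 4093697344) (nat_lit 168) (nat_lit 7419027985) (nat_lit 252) (nat_lit 5934109809) (nat_lit 15) (nat_lit 5) (nat_lit 17) (nat_lit 5) (nat_lit 18) (nat_lit 5) (nat_lit 365) (nat_lit 291) (nat_lit 232)) (XT.nd (nat_lit 94) (nat_lit 0) (nat_lit 0) (XT.lf (nat_lit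 0) (nat_lit 8141871347) (nat_lit 168) (nat_lit 5222341877) (nat_lit 252) (nat_lit 4521467439) (nat_lit 15) (nat_lit 5) (nat_lit 17) (nat_lit 5) (nat_lit 18) (nat_lit 5) (nat_lit 366) (nat_lit 291) (nat_lit 231)) (XT.lf (nat_lit 0) (nat_lit 12286809103) (nat_lit 168) (nat_lit 2965356835) (nat_lit 252) (nat_lit 3086723359) (nat_lit 15) (nat_lit 5) (nat_lit 17) (nat_lit 5) (nat_lit 18) (nat_lit 5) (nat_lit 367) (nat_lit 291) (nat_lit 230))))) (XT.nd (nat_lit 282) (nat_lit 168) (nat_lit 0) (XT.nd (nat_lit 94) (nat_lit 252) (nat_lit 0) (XT.lf (nat_lit 0) (nat_lit 16532374129) (nat_lit 168) (nat_lit 645969113) (nat_lit 252) (nat_lit 1628540236) (nat_lit 15) (nat_lit 5) (nat_lit 17) (nat_lit 5) (nat_lit 18) (nat_lit 5) (nat_lit 368) (nat_lit 291) (nat_lit 229)) (XT.nd (nat_lit 94) (nat_lit 84) (nat_lit 0) (XT.lf (nat_lit 0) (nat_lit 1607572300) (nat_lit 168) (nat_lit 17570156558) (nat_lit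 252) (nat_lit 111341729) (nat_lit 13) (nat_lit 5) (nat_lit 15) (nat_lit 5) (nat_lit 16) (nat_lit 4) (nat_lit 369) (nat_lit 291) (nat_lit 228)) (XT.lf (nat_lit 0) (nat_lit 1434469274) (nat_lit 252) (nat_lit 14176407275) (nat_lit 84) (nat_lit 4174643122) (nat_lit 12) (nat_lit 5) (nat_lit 15) (nat_lit 5) (nat_lit 13) (nat_lit 5) (nat_lit 370) (nat_lit 291) (nat_lit 227)))) (XT.nd (nat_lit 188) (nat_lit 168) (nat_lit 0) (XT.nd (nat_lit 94) (nat_lit 0) (nat_lit 0) (XT.lf (nat_lit 0) (nat_lit 3006742162) (nat_lit 252) (nat_lit 10590850774) (nat_lit 84) (nat_lit 6700418397) (nat_lit 12) (nat_lit 5) (nat_lit 15) (nat_lit 5) (nat_lit 13) (nat_lit 5) (nat_lit 371) (nat_lit 291) (nat_lit 226)) (XT.lf (nat_lit 0) (nat_lit 4609185744) (nat_lit 252) (nat_lit 6920382148) (nat_lit 84) (nat_lit 9297489618) (nat_lit 12) (nat_lit 5) (nat_lit 15) (nat_lit 5) (nat_lit 13) (nat_lit 5) (nat_lit 372) (nat_lit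 291) (nat_lit 225))) (XT.nd (nat_lit 94) (nat_lit 168) (nat_lit 0) (XT.lf (nat_lit 0) (nat_lit 6243293666) (nat_lit 252) (nat_lit 3161580135) (nat_lit 84) (nat_lit 11968277528) (nat_lit 12) (nat_lit 5) (nat_lit 15) (nat_lit 5) (nat_lit 13) (nat_lit 5) (nat_lit 373) (nat_lit 291) (nat_lit 224)) (XT.lf (nat_lit 0) (nat_lit 703227324) (nat_lit 168) (nat_lit 7214337864) (nat_lit 252) (nat_lit 14019020359) (nat_lit 10) (nat_lit 5) (nat_lit 12) (nat_lit 5) (nat_lit 13) (nat_lit 5) (nat_lit 374) (nat_lit 291) (nat_lit 223))))))))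
noncomputable def xc74 : XT := (XT.nd (nat_lit 2350) (nat_lit 168) (nat_lit 0) (XT.nd (nat_lit 1128) (nat_lit 252) (nat_lit 0) (XT.nd (nat_lit 564) (nat_lit 84) (nat_lit 0) (XT.nd (nat_lit 282) (nat_lit 84) (nat_lit 0) (XT.nd (nat_lit 94) (nat_lit 0) (nat_lit 0) (XT.lf (nat_lit 0) (nat_lit 4730431698) (nat_lit 168) (nat_lit 4929120872) (nat_lit 252) (nat_lit 12857527034) (nat_lit 10) (nat_lit 5) (nat_lit 12) (nat_lit 5) (nat_lit 13) (nat_lit 5) (nat_lit 375) (nat_lit 291) (nat_lit 222)) (XT.nd (nat_lit 94) (nat_lit 0) (nat_lit 0) (XT.lf (nat_lit 0) (nat_lit 8858778189) (nat_lit 168) (nat_lit 2580093174) (nat_lit 252) (nat_lit 11677295469) (nat_lit 10) (nat_lit 5) (nat_lit 12) (nat_lit 5) (nat_lit 13) (nat_lit 5) (nat_lit 376) (nat_lit 291) (nat_lit 221)) (XT.lf (nat_lit 0) (nat_lit 13092114848) (nat_lit 168) (nat_lit 165065232) (nat_lit 252) (nat_lit 10477225563) (nat_lit 10) (nat_lit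 5) (nat_lit 12) (nat_lit 5) (nat_lit 13) (nat_lit 5) (nat_lit 377) (nat_lit 291) (nat_lit 220)))) (XT.nd (nat_lit 94) (nat_lit 84) (nat_lit 0) (XT.lf (nat_lit 0) (nat_lit 15139170546) (nat_lit 252) (nat_lit 6960981682) (nat_lit 84) (nat_lit 2271507167) (nat_lit 10) (nat_lit 5) (nat_lit 13) (nat_lit 5) (nat_lit 11) (nat_lit 4) (nat_lit 378) (nat_lit 291) (nat_lit 219)) (XT.nd (nat_lit 94) (nat_lit 84) (nat_lit 0) (XT.lf (nat_lit 0) (nat_lit 17065916057) (nat_lit 252) (nat_lit 3189349024) (nat_lit 84) (nat_lit 4773898104) (nat_lit 10) (nat_lit 5) (nat_lit 13) (nat_lit 5) (nat_lit 11) (nat_lit 4) (nat_lit 379) (nat_lit 291) (nat_lit 218)) (XT.lf (nat_lit 0) (nat_lit 691696343) (nat_lit 84) (nat_lit 18352740444) (nat_lit 168) (nat_lit 6662931133) (nat_lit 9) (nat_lit 5) (nat_lit 10) (nat_lit 5) (nat_lit 11) (nat_lit 4) (nat_lit 380) (nat_lit 291) (nat_lit 217))))) (XT.nd (nat_lit 282)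 (nat_lit 84) (nat_lit 0) (XT.nd (nat_lit 94) (nat_lit 0) (nat_lit 0) (XT.lf (nat_lit 0) (nat_lit 4739439700) (nat_lit 84) (nat_lit 16363561520) (nat_lit 168) (nat_lit 5303085389) (nat_lit 9) (nat_lit 5) (nat_lit 10) (nat_lit 5) (nat_lit 11) (nat_lit 4) (nat_lit 381) (nat_lit 291) (nat_lit 216)) (XT.nd (nat_lit 94) (nat_lit 0) (nat_lit 0) (XT.lf (nat_lit 0) (nat_lit 8892074409) (nat_lit 84) (nat_lit 14319164449) (nat_lit 168) (nat_lit 3915732639) (nat_lit 9) (nat_lit 5) (nat_lit 10) (nat_lit 5) (nat_lit 11) (nat_lit 4) (nat_lit 382) (nat_lit 291) (nat_lit 215)) (XT.lf (nat_lit 0) (nat_lit 13153471161) (nat_lit 84) (nat_lit 12217643637) (nat_lit 168) (nat_lit 2499579727) (nat_lit 9) (nat_lit 5) (nat_lit 10) (nat_lit 5) (nat_lit 11) (nat_lit 4) (nat_lit 383) (nat_lit 291) (nat_lit 214)))) (XT.nd (nat_lit 94) (nat_lit 84) (nat_lit 0) (XT.lf (nat_lit 0) (nat_lit 17527602024) (nat_lit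 84) (nat_lit 10057040247) (nat_lit 168) (nat_lit 1053306648) (nat_lit 9) (nat_lit 5) (nat_lit 10) (nat_lit 5) (nat_lit 11) (nat_lit 4) (nat_lit 384) (nat_lit 291) (nat_lit 213)) (XT.nd (nat_lit 94) (nat_lit 0) (nat_lit 0) (XT.lf (nat_lit 0) (nat_lit 415883262) (nat_lit 168) (nat_lit 7415116141) (nat_lit 84) (nat_lit 21598319916) (nat_lit 8) (nat_lit 5) (nat_lit 10) (nat_lit 5) (nat_lit 9) (nat_lit 5) (nat_lit 385) (nat_lit 291) (nat_lit 212)) (XT.lf (nat_lit 0) (nat_lit 1896035278) (nat_lit 168) (nat_lit 3634647155) (nat_lit 84) (nat_lit 24714657559) (nat_lit 8) (nat_lit 5) (nat_lit 10) (nat_lit 5) (nat_lit 9) (nat_lit 5) (nat_lit 386) (nat_lit 291) (nat_lit 211)))))) (XT.nd (nat_lit 564) (nat_lit 84) (nat_lit 0) (XT.nd (nat_lit 282) (nat_lit 0) (nat_lit 0) (XT.nd (nat_lit 94) (nat_lit 0) (nat_lit 0) (XT.lf (nat_lit 0) (nat_lit 250071165) (nat_lit 168) (nat_lit 3162160409) (nat_lit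 252) (nat_lit 27674786994) (nat_lit 6) (nat_lit 5) (nat_lit 8) (nat_lit 5) (nat_lit 9) (nat_lit 5) (nat_lit 387) (nat_lit 291) (nat_lit 210)) (XT.nd (nat_lit 94) (nat_lit 0) (nat_lit 0) (XT.lf (nat_lit 0) (nat_lit 4314466850) (nat_lit 168) (nat_lit 686774078) (nat_lit 252) (nat_lit 26952802631) (nat_lit 6) (nat_lit 5) (nat_lit 8) (nat_lit 5) (nat_lit 9) (nat_lit 5) (nat_lit 388) (nat_lit 291) (nat_lit 209)) (XT.lf (nat_lit 0) (nat_lit 6646196823) (nat_lit 252) (nat_lit 24379221206) (nat_lit 84) (nat_lit 1822373872) (nat_lit 6) (nat_lit 5) (nat_lit 9) (nat_lit 5) (nat_lit 7) (nat_lit 4) (nat_lit 389) (nat_lit 291) (nat_lit 208)))) (XT.nd (nat_lit 94) (nat_lit 0) (nat_lit 0) (XT.lf (nat_lit 0) (nat_lit 8337708508) (nat_lit 252) (nat_lit 21041917877) (nat_lit 84) (nat_lit 4389808919) (nat_lit 6) (nat_lit 5) (nat_lit 9) (nat_lit 5) (nat_lit 7) (nat_lit 4) (nat_lit 390) (nat_lit 291)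 (nat_lit 207)) (XT.nd (nat_lit 94) (nat_lit 0) (nat_lit 0) (XT.lf (nat_lit 0) (nat_lit 10070539767) (nat_lit 252) (nat_lit 17617743123) (nat_lit 84) (nat_lit 7031761146) (nat_lit 6) (nat_lit 5) (nat_lit 9) (nat_lit 5) (nat_lit 7) (nat_lit 4) (nat_lit 391) (nat_lit 291) (nat_lit 206)) (XT.lf (nat_lit 0) (nat_lit 11846305779) (nat_lit 252) (nat_lit 14103505254) (nat_lit 84) (nat_lit 9750693131) (nat_lit 6) (nat_lit 5) (nat_lit 9) (nat_lit 5) (nat_lit 7) (nat_lit 4) (nat_lit 392) (nat_lit 291) (nat_lit 205))))) (XT.nd (nat_lit 282) (nat_lit 84) (nat_lit 0) (XT.nd (nat_lit 94) (nat_lit 0) (nat_lit 0) (XT.lf (nat_lit 0) (nat_lit 13666661745) (nat_lit 252) (nat_lit 10495928634) (nat_lit 84) (nat_lit 12549139202) (nat_lit 6) (nat_lit 5) (nat_lit 9) (nat_lit 5) (nat_lit 7) (nat_lit 4) (nat_lit 393) (nat_lit 291) (nat_lit 204)) (XT.nd (nat_lit 94) (nat_lit 0) (nat_lit 0) (XT.lf (nat_lit 0)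 (nat_lit 15533304427) (nat_lit 252) (nat_lit 6791650622) (nat_lit 84) (nat_lit 15429707804) (nat_lit 6) (nat_lit 5) (nat_lit 9) (nat_lit 5) (nat_lit 7) (nat_lit 4) (nat_lit 394) (nat_lit 291) (nat_lit 203)) (XT.lf (nat_lit 0) (nat_lit 17447973731) (nat_lit 252) (nat_lit 2987218443) (nat_lit 84) (nat_lit 18395083930) (nat_lit 6) (nat_lit 5) (nat_lit 9) (nat_lit 5) (nat_lit 7) (nat_lit 4) (nat_lit 395) (nat_lit 291) (nat_lit 202)))) (XT.nd (nat_lit 188) (nat_lit 0) (nat_lit 0) (XT.nd (nat_lit 94) (nat_lit 0) (nat_lit 0) (XT.lf (nat_lit 0) (nat_lit 939849913) (nat_lit 84) (nat_lit 18481927845) (nat_lit 168) (nat_lit 20517505134) (nat_lit 5) (nat_lit 5) (nat_lit 6) (nat_lit 5) (nat_lit 7) (nat_lit 4) (nat_lit 396) (nat_lit 291) (nat_lit 201)) (XT.lf (nat_lit 0) (nat_lit 5037891885) (nat_lit 84) (nat_lit 16440661951) (nat_lit 168) (nat_lit 19603481167) (nat_lit 5) (nat_lit 5) (nat_lit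 6) (nat_lit 5) (nat_lit 7) (nat_lit 4) (nat_lit 397) (nat_lit 291) (nat_lit 200))) (XT.nd (nat_lit 94) (nat_lit 0) (nat_lit 0) (XT.lf (nat_lit 0) (nat_lit 9249303941) (nat_lit 84) (nat_lit 14340672254) (nat_lit 168) (nat_lit 18670558938) (nat_lit 5) (nat_lit 5) (nat_lit 6) (nat_lit 5) (nat_lit 7) (nat_lit 4) (nat_lit 398) (nat_lit 291) (nat_lit 199)) (XT.lf (nat_lit 0) (nat_lit 13578011558) (nat_lit 84) (nat_lit 12180001342) (nat_lit 168) (nat_lit 17717868866) (nat_lit 5) (nat_lit 5) (nat_lit 6) (nat_lit 5) (nat_lit 7) (nat_lit 4) (nat_lit 399) (nat_lit 291) (nat_lit 198))))))) (XT.nd (nat_lit 1222) (nat_lit 84) (nat_lit 0) (XT.nd (nat_lit 564) (nat_lit 84) (nat_lit 0) (XT.nd (nat_lit 282) (nat_lit 0) (nat_lit 0) (XT.nd (nat_lit 94) (nat_lit 0) (nat_lit 0) (XT.lf (nat_lit 0) (nat_lit 18028049544) (nat_lit 84) (nat_lit 9956635245) (nat_lit 168) (nat_lit 16744522945) (nat_lit 5) (nat_lit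 5) (nat_lit 6) (nat_lit 5) (nat_lit 7) (nat_lit 4) (nat_lit 400) (nat_lit 291) (nat_lit 197)) (XT.nd (nat_lit 94) (nat_lit 0) (nat_lit 0) (XT.lf (nat_lit 0) (nat_lit 22603565801) (nat_lit 84) (nat_lit 7668501553) (nat_lit 168) (nat_lit 15749613914) (nat_lit 5) (nat_lit 5) (nat_lit 6) (nat_lit 5) (nat_lit 7) (nat_lit 4) (nat_lit 401) (nat_lit 291) (nat_lit 196)) (XT.lf (nat_lit 0) (nat_lit 27308825189) (nat_lit 84) (nat_lit 5313467484) (nat_lit 168) (nat_lit 14732214414) (nat_lit 5) (nat_lit 5) (nat_lit 6) (nat_lit 5) (nat_lit 7) (nat_lit 4) (nat_lit 402) (nat_lit 291) (nat_lit 195)))) (XT.nd (nat_lit 94) (nat_lit 0) (nat_lit 0) (XT.lf (nat_lit 0) (nat_lit 32148213503) (nat_lit 84) (nat_lit 2889337901) (nat_lit 168) (nat_lit 13691376122) (nat_lit 5) (nat_lit 5) (nat_lit 6) (nat_lit 5) (nat_lit 7) (nat_lit 4) (nat_lit 403) (nat_lit 291) (nat_lit 194)) (XT.nd (nat_lit 94) (nat_lit 0)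 (nat_lit 0) (XT.lf (nat_lit 0) (nat_lit 37126241561) (nat_lit 84) (nat_lit 393853260) (nat_lit 168) (nat_lit 12626128867) (nat_lit 5) (nat_lit 5) (nat_lit 6) (nat_lit 5) (nat_lit 7) (nat_lit 4) (nat_lit 404) (nat_lit 291) (nat_lit 193)) (XT.lf (nat_lit 0) (nat_lit 40093816283) (nat_lit 168) (nat_lit 9381746607) (nat_lit 0) (nat_lit 2131484791) (nat_lit 5) (nat_lit 5) (nat_lit 7) (nat_lit 4) (nat_lit 5) (nat_lit 4) (nat_lit 405) (nat_lit 291) (nat_lit 192))))) (XT.nd (nat_lit 282) (nat_lit 0) (nat_lit 0) (XT.nd (nat_lit 94) (nat_lit 84) (nat_lit 0) (XT.lf (nat_lit 0) (nat_lit 42744177040) (nat_lit 168) (nat_lit 5645678515) (nat_lit 0) (nat_lit 4723430661) (nat_lit 5) (nat_lit 5) (nat_lit 7) (nat_lit 4) (nat_lit 5) (nat_lit 4) (nat_lit 406) (nat_lit 291) (nat_lit 191)) (XT.nd (nat_lit 94) (nat_lit 84) (nat_lit 0) (XT.lf (nat_lit 0) (nat_lit 45469740433) (nat_lit 168) (nat_lit 1804388372)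 (nat_lit 0) (nat_lit 7392335579) (nat_lit 5) (nat_lit 5) (nat_lit 7) (nat_lit 4) (nat_lit 5) (nat_lit 4) (nat_lit 407) (nat_lit 291) (nat_lit 190)) (XT.lf (nat_lit 0) (nat_lit 2189824386) (nat_lit 84) (nat_lit 46104945914) (nat_lit 84) (nat_lit 7972586187) (nat_lit 4) (nat_lit 4) (nat_lit 5) (nat_lit 5) (nat_lit 5) (nat_lit 4) (nat_lit 408) (nat_lit 291) (nat_lit 189)))) (XT.nd (nat_lit 188) (nat_lit 0) (nat_lit 0) (XT.nd (nat_lit 94) (nat_lit 0) (nat_lit 0) (XT.lf (nat_lit 0) (nat_lit 6335936417) (nat_lit 84) (nat_lit 44883626488) (nat_lit 84) (nat_lit 6697964264) (nat_lit 4) (nat_lit 4) (nat_lit 5) (nat_lit 5) (nat_lit 5) (nat_lit 4) (nat_lit 409) (nat_lit 291) (nat_lit 188)) (XT.lf (nat_lit 0) (nat_lit 10600710405) (nat_lit 84) (nat_lit 43627866243) (nat_lit 84) (nat_lit 5390504217) (nat_lit 4) (nat_lit 4) (nat_lit 5) (nat_lit 5) (nat_lit 5) (nat_lit 4) (nat_lit 410) (nat_lit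 291) (nat_lit 187))) (XT.nd (nat_lit 94) (nat_lit 0) (nat_lit 0) (XT.lf (nat_lit 0) (nat_lit 14988121567) (nat_lit 84) (nat_lit 42336494679) (nat_lit 84) (nat_lit 4048987355) (nat_lit 4) (nat_lit 4) (nat_lit 5) (nat_lit 5) (nat_lit 5) (nat_lit 4) (nat_lit 411) (nat_lit 291) (nat_lit 186)) (XT.lf (nat_lit 0) (nat_lit 19502259428) (nat_lit 84) (nat_lit 41008308104) (nat_lit 84) (nat_lit 2672163245) (nat_lit 4) (nat_lit 4) (nat_lit 5) (nat_lit 5) (nat_lit 5) (nat_lit 4) (nat_lit 412) (nat_lit 291) (nat_lit 185)))))) (XT.nd (nat_lit 564) (nat_lit 0) (nat_lit 0) (XT.nd (nat_lit 282) (nat_lit 0) (nat_lit 0) (XT.nd (nat_lit 94) (nat_lit 84) (nat_lit 0) (XT.lf (nat_lit 0) (nat_lit 24147331639) (nat_lit 84) (nat_lit 39642068506) (nat_lit 84) (nat_lit 1258748542) (nat_lit 4) (nat_lit 4) (nat_lit 5) (nat_lit 5) (nat_lit 5) (nat_lit 4) (nat_lit 413) (nat_lit 291) (nat_lit 184)) (XT.nd (nat_lit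 94) (nat_lit 0) (nat_lit 0) (XT.lf (nat_lit 0) (nat_lit 188694263) (nat_lit 168) (nat_lit 38045838565) (nat_lit 84) (nat_lit 28737004049) (nat_lit 3) (nat_lit 5) (nat_lit 5) (nat_lit 5) (nat_lit 4) (nat_lit 4) (nat_lit 414) (nat_lit 291) (nat_lit 183)) (XT.lf (nat_lit 0) (nat_lit 1649245901) (nat_lit 168) (nat_lit 35123839032) (nat_lit 84) (nat_lit 32181263319) (nat_lit 3) (nat_lit 5) (nat_lit 5) (nat_lit 5) (nat_lit 4) (nat_lit 4) (nat_lit 415) (nat_lit 291) (nat_lit 182)))) (XT.nd (nat_lit 94) (nat_lit 0) (nat_lit 0) (XT.lf (nat_lit 0) (nat_lit 3149628736) (nat_lit 168) (nat_lit 32119607899) (nat_lit 84) (nat_lit 35729581461) (nat_lit 3) (nat_lit 5) (nat_lit 5) (nat_lit 5) (nat_lit 4) (nat_lit 4) (nat_lit 416) (nat_lit 291) (nat_lit 181)) (XT.nd (nat_lit 94) (nat_lit 0) (nat_lit 0) (XT.lf (nat_lit 0) (nat_lit 4691241283) (nat_lit 168) (nat_lit 29030344907) (nat_lit 84) (nat_lit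 39385265878) (nat_lit 3) (nat_lit 5) (nat_lit 5) (nat_lit 5) (nat_lit 4) (nat_lit 4) (nat_lit 417) (nat_lit 291) (nat_lit 180)) (XT.lf (nat_lit 0) (nat_lit 6275520485) (nat_lit 168) (nat_lit 25853170540) (nat_lit 84) (nat_lit 43151724053) (nat_lit 3) (nat_lit 5) (nat_lit 5) (nat_lit 5) (nat_lit 4) (nat_lit 4) (nat_lit 418) (nat_lit 291) (nat_lit 179))))) (XT.nd (nat_lit 282) (nat_lit 0) (nat_lit 0) (XT.nd (nat_lit 94) (nat_lit 0) (nat_lit 0) (XT.lf (nat_lit 0) (nat_lit 7903943057) (nat_lit 168) (nat_lit 22585123339) (nat_lit 84) (nat_lit 47032466717) (nat_lit 3) (nat_lit 5) (nat_lit 5) (nat_lit 5) (nat_lit 4) (nat_lit 4) (nat_lit 419) (nat_lit 291) (nat_lit 178)) (XT.nd (nat_lit 94) (nat_lit 0) (nat_lit 0) (XT.lf (nat_lit 0) (nat_lit 9578026860) (nat_lit 168) (nat_lit 19223157140) (nat_lit 84) (nat_lit 51031111131) (nat_lit 3) (nat_lit 5) (nat_lit 5) (nat_lit 5) (nat_lit 4) (nat_lit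 4) (nat_lit 420) (nat_lit 291) (nat_lit 177)) (XT.lf (nat_lit 0) (nat_lit 11299332314) (nat_lit 168) (nat_lit 15764138241) (nat_lit 84) (nat_lit 55151384449) (nat_lit 3) (nat_lit 5) (nat_lit 5) (nat_lit 5) (nat_lit 4) (nat_lit 4) (nat_lit 421) (nat_lit 291) (nat_lit 176)))) (XT.nd (nat_lit 188) (nat_lit 0) (nat_lit 0) (XT.nd (nat_lit 94) (nat_lit 0) (nat_lit 0) (XT.lf (nat_lit 0) (nat_lit 13069463857) (nat_lit 168) (nat_lit 12204842472) (nat_lit 84) (nat_lit 59397127198) (nat_lit 3) (nat_lit 5) (nat_lit 5) (nat_lit 5) (nat_lit 4) (nat_lit 4) (nat_lit 422) (nat_lit 291) (nat_lit 175)) (XT.lf (nat_lit 0) (nat_lit 14890071436) (nat_lit 168) (nat_lit 8541952196) (nat_lit 84) (nat_lit 63772296854) (nat_lit 3) (nat_lit 5) (nat_lit 5) (nat_lit 5) (nat_lit 4) (nat_lit 4) (nat_lit 423) (nat_lit 291) (nat_lit 174))) (XT.nd (nat_lit 94) (nat_lit 0) (nat_lit 0) (XT.lf (nat_lit 0) (nat_lit 16762852050)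 (nat_lit 168) (nat_lit 4772053218) (nat_lit 84) (nat_lit 68280971535) (nat_lit 3) (nat_lit 5) (nat_lit 5) (nat_lit 5) (nat_lit 4) (nat_lit 4) (nat_lit 424) (nat_lit 291) (nat_lit 173)) (XT.lf (nat_lit 0) (nat_lit 18689551324) (nat_lit 168) (nat_lit 891631596) (nat_lit 84) (nat_lit 72927353797) (nat_lit 3) (nat_lit 5) (nat_lit 5) (nat_lit 5) (nat_lit 4) (nat_lit 4) (nat_lit 425) (nat_lit 291) (nat_lit 172))))))))
noncomputable def xc75 : XT := (XT.nd (nat_lit 46530) (nat_lit 0) (nat_lit 1764) (XT.nd (nat_lit 45308) (nat_lit 0) (nat_lit 5628) (XT.nd (nat_lit 44650) (nat_lit 0) (nat_lit 9828) (XT.nd (nat_lit 44368) (nat_lit 0) (nat_lit 11508) (XT.nd (nat_lit 94) (nat_lit 0) (nat_lit 0) (XT.lf (nat_lit 0) (nat_lit 3166732227) (nat_lit 84) (nat_lit 17536647295) (nat_lit 168) (nat_lit 74580456704) (nat_lit 2) (nat_lit 5) (nat_lit 3) (nat_lit 5) (nat_lit 4) (nat_lit 4) (nat_lit 426) (nat_lit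 291) (nat_lit 171)) (XT.nd (nat_lit 44180) (nat_lit 0) (nat_lit 11928) (XT.lf (nat_lit 0) (nat_lit 7363716281) (nat_lit 84) (nat_lit 15421274028) (nat_lit 168) (nat_lit 75360029815) (nat_lit 2) (nat_lit 5) (nat_lit 3) (nat_lit 5) (nat_lit 4) (nat_lit 4) (nat_lit 427) (nat_lit 291) (nat_lit 170)) (XT.lf (nat_lit 0) (nat_lit 161552754) (nat_lit 252) (nat_lit 1551299049) (nat_lit 252) (nat_lit 1551299049) (nat_lit 144) (nat_lit 4) (nat_lit 147) (nat_lit 5) (nat_lit 147) (nat_lit 4) (nat_lit 304) (nat_lit 292) (nat_lit 292)))) (XT.nd (nat_lit 94) (nat_lit 420) (nat_lit 0) (XT.lf (nat_lit 0) (nat_lit 3024294879) (nat_lit 252) (nat_lit 2712239306) (nat_lit 252) (nat_lit 815483663) (nat_lit 144) (nat_lit 4) (nat_lit 147) (nat_lit 5) (nat_lit 147) (nat_lit 4) (nat_lit 305) (nat_lit 292) (nat_lit 291)) (XT.nd (nat_lit 94) (nat_lit 336) (nat_lit 0) (XT.lf (nat_lit 0) (nat_lit 1426663073) (nat_lit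 336) (nat_lit 838927134) (nat_lit 84) (nat_lit 4313994410) (nat_lit 143) (nat_lit 5) (nat_lit 147) (nat_lit 5) (nat_lit 144) (nat_lit 4) (nat_lit 306) (nat_lit 292) (nat_lit 290)) (XT.lf (nat_lit 0) (nat_lit 1908654193) (nat_lit 336) (nat_lit 1749416505) (nat_lit 420) (nat_lit 2952571603) (nat_lit 139) (nat_lit 5) (nat_lit 143) (nat_lit 5) (nat_lit 144) (nat_lit 4) (nat_lit 307) (nat_lit 292) (nat_lit 289))))) (XT.nd (nat_lit 282) (nat_lit 1176) (nat_lit 0) (XT.nd (nat_lit 94) (nat_lit 504) (nat_lit 0) (XT.lf (nat_lit 0) (nat_lit 4705067135) (nat_lit 336) (nat_lit 1182037104) (nat_lit 420) (nat_lit 758680886) (nat_lit 139) (nat_lit 5) (nat_lit 143) (nat_lit 5) (nat_lit 144) (nat_lit 4) (nat_lit 308) (nat_lit 292) (nat_lit 288)) (XT.nd (nat_lit 94) (nat_lit 0) (nat_lit 0) (XT.lf (nat_lit 0) (nat_lit 853447295) (nat_lit 420) (nat_lit 548406956) (nat_lit 504) (nat_lit 5282755124) (nat_lit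 133) (nat_lit 5) (nat_lit 138) (nat_lit 5) (nat_lit 139) (nat_lit 5) (nat_lit 309) (nat_lit 292) (nat_lit 287)) (XT.lf (nat_lit 0) (nat_lit 3557647620) (nat_lit 504) (nat_lit 3015537243) (nat_lit 84) (nat_lit 153771714) (nat_lit 133) (nat_lit 5) (nat_lit 139) (nat_lit 5) (nat_lit 134) (nat_lit 4) (nat_lit 310) (nat_lit 292) (nat_lit 286)))) (XT.nd (nat_lit 188) (nat_lit 588) (nat_lit 0) (XT.nd (nat_lit 94) (nat_lit 588) (nat_lit 0) (XT.lf (nat_lit 0) (nat_lit 5710745305) (nat_lit 504) (nat_lit 174391128) (nat_lit 84) (nat_lit 888435804) (nat_lit 133) (nat_lit 5) (nat_lit 139) (nat_lit 5) (nat_lit 134) (nat_lit 4) (nat_lit 311) (nat_lit 292) (nat_lit 285)) (XT.lf (nat_lit 0) (nat_lit 1039850315) (nat_lit 588) (nat_lit 4078458690) (nat_lit 84) (nat_lit 1705185593) (nat_lit 126) (nat_lit 5) (nat_lit 133) (nat_lit 5) (nat_lit 127) (nat_lit 5) (nat_lit 312) (nat_lit 292) (nat_lit 284)))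 (XT.nd (nat_lit 94) (nat_lit 588) (nat_lit 0) (XT.lf (nat_lit 0) (nat_lit 3114787114) (nat_lit 588) (nat_lit 1183274011) (nat_lit 84) (nat_lit 2579493035) (nat_lit 126) (nat_lit 5) (nat_lit 133) (nat_lit 5) (nat_lit 127) (nat_lit 5) (nat_lit 313) (nat_lit 292) (nat_lit 283)) (XT.lf (nat_lit 0) (nat_lit 1783136368) (nat_lit 588) (nat_lit 3418100071) (nat_lit 672) (nat_lit 1734398656) (nat_lit 119) (nat_lit 5) (nat_lit 126) (nat_lit 5) (nat_lit 127) (nat_lit 5) (nat_lit 314) (nat_lit 292) (nat_lit 282)))))) (XT.nd (nat_lit 564) (nat_lit 2604) (nat_lit 0) (XT.nd (nat_lit 282) (nat_lit 840) (nat_lit 0) (XT.nd (nat_lit 94) (nat_lit 672) (nat_lit 0) (XT.lf (nat_lit 0) (nat_lit 291844253) (nat_lit 672) (nat_lit 2188221486) (nat_lit 84) (nat_lit 4517799772) (nat_lit 118) (nat_lit 5) (nat_lit 126) (nat_lit 5) (nat_lit 119) (nat_lit 5) (nat_lit 315) (nat_lit 292) (nat_lit 281)) (XT.nd (nat_lit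 94) (nat_lit 0) (nat_lit 0) (XT.lf (nat_lit 0) (nat_lit 812246877) (nat_lit 672) (nat_lit 1472504952) (nat_lit 756) (nat_lit 4779233499) (nat_lit 110) (nat_lit 5) (nat_lit 118) (nat_lit 5) (nat_lit 119) (nat_lit 5) (nat_lit 316) (nat_lit 292) (nat_lit 280)) (XT.lf (nat_lit 0) (nat_lit 3898341307) (nat_lit 672) (nat_lit 397276380) (nat_lit 756) (nat_lit 2838522616) (nat_lit 110) (nat_lit 5) (nat_lit 118) (nat_lit 5) (nat_lit 119) (nat_lit 5) (nat_lit 317) (nat_lit 292) (nat_lit 279)))) (XT.nd (nat_lit 94) (nat_lit 840) (nat_lit 0) (XT.lf (nat_lit 0) (nat_lit 6311342392) (nat_lit 756) (nat_lit 188318554) (nat_lit 84) (nat_lit 709199069) (nat_lit 110) (nat_lit 5) (nat_lit 119) (nat_lit 5) (nat_lit 111) (nat_lit 5) (nat_lit 318) (nat_lit 292) (nat_lit 278)) (XT.nd (nat_lit 94) (nat_lit 0) (nat_lit 0) (XT.lf (nat_lit 0) (nat_lit 1051337854) (nat_lit 840) (nat_lit 4342156681) (nat_lit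 84) (nat_lit 1893566810) (nat_lit 100) (nat_lit 5) (nat_lit 110) (nat_lit 5) (nat_lit 101) (nat_lit 5) (nat_lit 319) (nat_lit 292) (nat_lit 277)) (XT.lf (nat_lit 0) (nat_lit 2981528783) (nat_lit 840) (nat_lit 1252121319) (nat_lit 84) (nat_lit 3136180645) (nat_lit 100) (nat_lit 5) (nat_lit 110) (nat_lit 5) (nat_lit 101) (nat_lit 5) (nat_lit 320) (nat_lit 292) (nat_lit 276))))) (XT.nd (nat_lit 282) (nat_lit 756) (nat_lit 0) (XT.nd (nat_lit 94) (nat_lit 1008) (nat_lit 0) (XT.lf (nat_lit 0) (nat_lit 1919472512) (nat_lit 840) (nat_lit 3010580121) (nat_lit 924) (nat_lit 2526938168) (nat_lit 90) (nat_lit 5) (nat_lit 100) (nat_lit 5) (nat_lit 101) (nat_lit 5) (nat_lit 321) (nat_lit 292) (nat_lit 275)) (XT.nd (nat_lit 94) (nat_lit 1008) (nat_lit 0) (XT.lf (nat_lit 0) (nat_lit 5163559970) (nat_lit 840) (nat_lit 1729246853) (nat_lit 924) (nat_lit 655999411) (nat_lit 90) (nat_lit 5) (nat_lit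 100) (nat_lit 5) (nat_lit 101) (nat_lit 5) (nat_lit 322) (nat_lit 292) (nat_lit 274)) (XT.lf (nat_lit 0) (nat_lit 816070112) (nat_lit 924) (nat_lit 380770997) (nat_lit 1008) (nat_lit 6448290446) (nat_lit 78) (nat_lit 5) (nat_lit 89) (nat_lit 5) (nat_lit 90) (nat_lit 5) (nat_lit 323) (nat_lit 292) (nat_lit 273)))) (XT.nd (nat_lit 188) (nat_lit 756) (nat_lit 0) (XT.nd (nat_lit 94) (nat_lit 0) (nat_lit 0) (XT.lf (nat_lit 0) (nat_lit 3071411122) (nat_lit 1008) (nat_lit 3647720914) (nat_lit 84) (nat_lit 1026263813) (nat_lit 78) (nat_lit 5) (nat_lit 90) (nat_lit 5) (nat_lit 79) (nat_lit 5) (nat_lit 324) (nat_lit 292) (nat_lit 272)) (XT.lf (nat_lit 0) (nat_lit 4952460454) (nat_lit 1008) (nat_lit 424286214) (nat_lit 84) (nat_lit 2474084289) (nat_lit 78) (nat_lit 5) (nat_lit 90) (nat_lit 5) (nat_lit 79) (nat_lit 5) (nat_lit 325) (nat_lit 292) (nat_lit 271))) (XT.nd (nat_lit 94) (nat_lit 84)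 (nat_lit 0) (XT.lf (nat_lit 0) (nat_lit 2906585757) (nat_lit 672) (nat_lit 3960213078) (nat_lit 756) (nat_lit 1093959569) (nat_lit 70) (nat_lit 5) (nat_lit 78) (nat_lit 5) (nat_lit 79) (nat_lit 5) (nat_lit 326) (nat_lit 292) (nat_lit 270)) (XT.lf (nat_lit 0) (nat_lit 701716675) (nat_lit 756) (nat_lit 1783954313) (nat_lit 84) (nat_lit 5590134655) (nat_lit 69) (nat_lit 5) (nat_lit 78) (nat_lit 5) (nat_lit 70) (nat_lit 5) (nat_lit 327) (nat_lit 292) (nat_lit 269))))))) (XT.nd (nat_lit 1222) (nat_lit 1596) (nat_lit 0) (XT.nd (nat_lit 564) (nat_lit 840) (nat_lit 0) (XT.nd (nat_lit 282) (nat_lit 504) (nat_lit 0) (XT.nd (nat_lit 94) (nat_lit 420) (nat_lit 0) (XT.lf (nat_lit 0) (nat_lit 1557334858) (nat_lit 504) (nat_lit 936359257) (nat_lit 588) (nat_lit 5701923149) (nat_lit 63) (nat_lit 5) (nat_lit 69) (nat_lit 5) (nat_lit 70) (nat_lit 5) (nat_lit 328) (nat_lit 292) (nat_lit 268)) (XT.nd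 (nat_lit 94) (nat_lit 420) (nat_lit 0) (XT.lf (nat_lit 0) (nat_lit 4315582201) (nat_lit 588) (nat_lit 3337261779) (nat_lit 84) (nat_lit 667490536) (nat_lit 63) (nat_lit 5) (nat_lit 70) (nat_lit 5) (nat_lit 64) (nat_lit 5) (nat_lit 329) (nat_lit 292) (nat_lit 267)) (XT.lf (nat_lit 0) (nat_lit 6230532) (nat_lit 420) (nat_lit 6147881634) (nat_lit 504) (nat_lit 2296425457) (nat_lit 58) (nat_lit 5) (nat_lit 63) (nat_lit 5) (nat_lit 64) (nat_lit 5) (nat_lit 330) (nat_lit 292) (nat_lit 266)))) (XT.nd (nat_lit 94) (nat_lit 504) (nat_lit 0) (XT.lf (nat_lit 0) (nat_lit 3474220911) (nat_lit 420) (nat_lit 4561767225) (nat_lit 504) (nat_lit 549585109) (nat_lit 58) (nat_lit 5) (nat_lit 63) (nat_lit 5) (nat_lit 64) (nat_lit 5) (nat_lit 331) (nat_lit 292) (nat_lit 265)) (XT.nd (nat_lit 94) (nat_lit 420) (nat_lit 0) (XT.lf (nat_lit 0) (nat_lit 1178333836) (nat_lit 504) (nat_lit 1737223272) (nat_lit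 84) (nat_lit 5810687716) (nat_lit 57) (nat_lit 5) (nat_lit 63) (nat_lit 5) (nat_lit 58) (nat_lit 5) (nat_lit 332) (nat_lit 292) (nat_lit 264)) (XT.lf (nat_lit 0) (nat_lit 1722346466) (nat_lit 420) (nat_lit 1196720194) (nat_lit 504) (nat_lit 5953286175) (nat_lit 52) (nat_lit 5) (nat_lit 57) (nat_lit 5) (nat_lit 58) (nat_lit 5) (nat_lit 333) (nat_lit 292) (nat_lit 263))))) (XT.nd (nat_lit 282) (nat_lit 504) (nat_lit 0) (XT.nd (nat_lit 94) (nat_lit 336) (nat_lit 0) (XT.lf (nat_lit 0) (nat_lit 4692267220) (nat_lit 504) (nat_lit 3751798304) (nat_lit 84) (nat_lit 579921239) (nat_lit 52) (nat_lit 5) (nat_lit 58) (nat_lit 5) (nat_lit 53) (nat_lit 5) (nat_lit 334) (nat_lit 292) (nat_lit 262)) (XT.nd (nat_lit 94) (nat_lit 336) (nat_lit 0) (XT.lf (nat_lit 0) (nat_lit 6488523832) (nat_lit 504) (nat_lit 308465848) (nat_lit 84) (nat_lit 2384641270) (nat_lit 52) (nat_lit 5) (nat_lit 58) (nat_lit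 5) (nat_lit 53) (nat_lit 5) (nat_lit 335) (nat_lit 292) (nat_lit 261)) (XT.lf (nat_lit 0) (nat_lit 3260769394) (nat_lit 336) (nat_lit 5069217023) (nat_lit 420) (nat_lit 1014811172) (nat_lit 48) (nat_lit 5) (nat_lit 52) (nat_lit 5) (nat_lit 53) (nat_lit 5) (nat_lit 336) (nat_lit 292) (nat_lit 260)))) (XT.nd (nat_lit 188) (nat_lit 0) (nat_lit 0) (XT.nd (nat_lit 94) (nat_lit 420) (nat_lit 0) (XT.lf (nat_lit 0) (nat_lit 661629359) (nat_lit 420) (nat_lit 2620100501) (nat_lit 84) (nat_lit 6232588227) (nat_lit 47) (nat_lit 5) (nat_lit 52) (nat_lit 5) (nat_lit 48) (nat_lit 5) (nat_lit 337) (nat_lit 292) (nat_lit 259)) (XT.lf (nat_lit 0) (nat_lit 913416181) (nat_lit 420) (nat_lit 1423169734) (nat_lit 504) (nat_lit 7353473113) (nat_lit 42) (nat_lit 5) (nat_lit 47) (nat_lit 5) (nat_lit 48) (nat_lit 5) (nat_lit 338) (nat_lit 292) (nat_lit 258))) (XT.nd (nat_lit 94) (nat_lit 0) (nat_lit 0) (XT.lf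 (nat_lit 0) (nat_lit 4055299355) (nat_lit 504) (nat_lit 5310394966) (nat_lit 84) (nat_lit 506081741) (nat_lit 42) (nat_lit 5) (nat_lit 48) (nat_lit 5) (nat_lit 43) (nat_lit 5) (nat_lit 339) (nat_lit 292) (nat_lit 257)) (XT.lf (nat_lit 0) (nat_lit 5802386286) (nat_lit 504) (nat_lit 1796681742) (nat_lit 84) (nat_lit 2461097088) (nat_lit 42) (nat_lit 5) (nat_lit 48) (nat_lit 5) (nat_lit 43) (nat_lit 5) (nat_lit 340) (nat_lit 292) (nat_lit 256)))))) (XT.nd (nat_lit 564) (nat_lit 840) (nat_lit 0) (XT.nd (nat_lit 282) (nat_lit 336) (nat_lit 0) (XT.nd (nat_lit 94) (nat_lit 84) (nat_lit 0) (XT.lf (nat_lit 0) (nat_lit 1818529304) (nat_lit 336) (nat_lit 5764867888) (nat_lit 420) (nat_lit 2671883012) (nat_lit 38) (nat_lit 5) (nat_lit 42) (nat_lit 5) (nat_lit 43) (nat_lit 5) (nat_lit 341) (nat_lit 292) (nat_lit 255)) (XT.nd (nat_lit 94) (nat_lit 84) (nat_lit 0) (XT.lf (nat_lit 0) (nat_lit 5540280138)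 (nat_lit 336) (nat_lit 3860535367) (nat_lit 420) (nat_lit 1056462168) (nat_lit 38) (nat_lit 5) (nat_lit 42) (nat_lit 5) (nat_lit 43) (nat_lit 5) (nat_lit 342) (nat_lit 292) (nat_lit 254)) (XT.lf (nat_lit 0) (nat_lit 559726643) (nat_lit 420) (nat_lit 1337480060) (nat_lit 84) (nat_lit 8769527316) (nat_lit 37) (nat_lit 5) (nat_lit 42) (nat_lit 5) (nat_lit 38) (nat_lit 5) (nat_lit 343) (nat_lit 292) (nat_lit 253)))) (XT.nd (nat_lit 94) (nat_lit 0) (nat_lit 0) (XT.lf (nat_lit 0) (nat_lit 2192981934) (nat_lit 420) (nat_lit 8537027734) (nat_lit 84) (nat_lit 152911613) (nat_lit 33) (nat_lit 5) (nat_lit 38) (nat_lit 5) (nat_lit 34) (nat_lit 5) (nat_lit 344) (nat_lit 292) (nat_lit 252)) (XT.nd (nat_lit 94) (nat_lit 0) (nat_lit 0) (XT.lf (nat_lit 0) (nat_lit 3875054814) (nat_lit 420) (nat_lit 4995950173) (nat_lit 84) (nat_lit 2235083623) (nat_lit 33) (nat_lit 5) (nat_lit 38) (nat_lit 5) (nat_lit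 34) (nat_lit 5) (nat_lit 345) (nat_lit 292) (nat_lit 251)) (XT.lf (nat_lit 0) (nat_lit 5575013351) (nat_lit 420) (nat_lit 1386642824) (nat_lit 84) (nat_lit 4375795342) (nat_lit 33) (nat_lit 5) (nat_lit 38) (nat_lit 5) (nat_lit 34) (nat_lit 5) (nat_lit 346) (nat_lit 292) (nat_lit 250))))) (XT.nd (nat_lit 282) (nat_lit 588) (nat_lit 0) (XT.nd (nat_lit 94) (nat_lit 0) (nat_lit 0) (XT.lf (nat_lit 0) (nat_lit 2341433227) (nat_lit 252) (nat_lit 4976236164) (nat_lit 336) (nat_lit 4258836216) (nat_lit 30) (nat_lit 5) (nat_lit 33) (nat_lit 5) (nat_lit 34) (nat_lit 5) (nat_lit 347) (nat_lit 292) (nat_lit 249)) (XT.nd (nat_lit 94) (nat_lit 0) (nat_lit 0) (XT.lf (nat_lit 0) (nat_lit 6174589194) (nat_lit 252) (nat_lit 2921607195) (nat_lit 336) (nat_lit 2727539293) (nat_lit 30) (nat_lit 5) (nat_lit 33) (nat_lit 5) (nat_lit 34) (nat_lit 5) (nat_lit 348) (nat_lit 292) (nat_lit 248)) (XT.lf (nat_lit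 0) (nat_lit 10087885760) (nat_lit 252) (nat_lit 810327846) (nat_lit 336) (nat_lit 1181593774) (nat_lit 30) (nat_lit 5) (nat_lit 33) (nat_lit 5) (nat_lit 34) (nat_lit 5) (nat_lit 349) (nat_lit 292) (nat_lit 247)))) (XT.nd (nat_lit 188) (nat_lit 252) (nat_lit 0) (XT.nd (nat_lit 94) (nat_lit 0) (nat_lit 0) (XT.lf (nat_lit 0) (nat_lit 404059598) (nat_lit 336) (nat_lit 10586065255) (nat_lit 84) (nat_lit 1353747758) (nat_lit 26) (nat_lit 5) (nat_lit 30) (nat_lit 5) (nat_lit 27) (nat_lit 5) (nat_lit 350) (nat_lit 292) (nat_lit 246)) (XT.lf (nat_lit 0) (nat_lit 2012910998) (nat_lit 336) (nat_lit 7009077235) (nat_lit 84) (nat_lit 3593984116) (nat_lit 26) (nat_lit 5) (nat_lit 30) (nat_lit 5) (nat_lit 27) (nat_lit 5) (nat_lit 351) (nat_lit 292) (nat_lit 245))) (XT.nd (nat_lit 94) (nat_lit 252) (nat_lit 0) (XT.lf (nat_lit 0) (nat_lit 3641855299) (nat_lit 336) (nat_lit 3359047606) (nat_lit 84)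 (nat_lit 5896701433) (nat_lit 26) (nat_lit 5) (nat_lit 30) (nat_lit 5) (nat_lit 27) (nat_lit 5) (nat_lit 352) (nat_lit 292) (nat_lit 244)) (XT.lf (nat_lit 0) (nat_lit 374980870) (nat_lit 252) (nat_lit 4921149834) (nat_lit 336) (nat_lit 7892785068) (nat_lit 23) (nat_lit 5) (nat_lit 26) (nat_lit 5) (nat_lit 27) (nat_lit 5) (nat_lit 353) (nat_lit 292) (nat_lit 243))))))))
noncomputable def xc76 : XT := (XT.nd (nat_lit 2350) (nat_lit 420) (nat_lit 0) (XT.nd (nat_lit 1128) (nat_lit 420) (nat_lit 0) (XT.nd (nat_lit 564) (nat_lit 336) (nat_lit 0) (XT.nd (nat_lit 282) (nat_lit 336) (nat_lit 0) (XT.nd (nat_lit 94) (nat_lit 0) (nat_lit 0) (XT.lf (nat_lit 0) (nat_lit 4259638802) (nat_lit 252) (nat_lit 2748733477) (nat_lit 336) (nat_lit 6480842019) (nat_lit 23) (nat_lit 5) (nat_lit 26) (nat_lit 5) (nat_lit 27) (nat_lit 5) (nat_lit 354) (nat_lit 292) (nat_lit 242)) (XT.nd (nat_lit 94) (nat_lit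 0) (nat_lit 0) (XT.lf (nat_lit 0) (nat_lit 8229478189) (nat_lit 252) (nat_lit 516690483) (nat_lit 336) (nat_lit 5053665381) (nat_lit 23) (nat_lit 5) (nat_lit 26) (nat_lit 5) (nat_lit 27) (nat_lit 5) (nat_lit 355) (nat_lit 292) (nat_lit 241)) (XT.lf (nat_lit 0) (nat_lit 10528768343) (nat_lit 336) (nat_lit 1850493882) (nat_lit 84) (nat_lit 1741255853) (nat_lit 23) (nat_lit 5) (nat_lit 27) (nat_lit 5) (nat_lit 24) (nat_lit 5) (nat_lit 356) (nat_lit 292) (nat_lit 240)))) (XT.nd (nat_lit 94) (nat_lit 84) (nat_lit 0) (XT.lf (nat_lit 0) (nat_lit 1985364519) (nat_lit 252) (nat_lit 10380277305) (nat_lit 336) (nat_lit 2085681384) (nat_lit 20) (nat_lit 5) (nat_lit 23) (nat_lit 5) (nat_lit 24) (nat_lit 5) (nat_lit 357) (nat_lit 292) (nat_lit 239)) (XT.nd (nat_lit 94) (nat_lit 84) (nat_lit 0) (XT.lf (nat_lit 0) (nat_lit 5945673164) (nat_lit 252) (nat_lit 8307580748) (nat_lit 336) (nat_lit 539466542)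 (nat_lit 20) (nat_lit 5) (nat_lit 23) (nat_lit 5) (nat_lit 24) (nat_lit 5) (nat_lit 358) (nat_lit 292) (nat_lit 238)) (XT.lf (nat_lit 0) (nat_lit 1008288187) (nat_lit 336) (nat_lit 5159743298) (nat_lit 84) (nat_lit 8977260875) (nat_lit 19) (nat_lit 5) (nat_lit 23) (nat_lit 5) (nat_lit 20) (nat_lit 5) (nat_lit 359) (nat_lit 292) (nat_lit 237))))) (XT.nd (nat_lit 282) (nat_lit 168) (nat_lit 0) (XT.nd (nat_lit 94) (nat_lit 168) (nat_lit 0) (XT.lf (nat_lit 0) (nat_lit 2568430032) (nat_lit 336) (nat_lit 1395979250) (nat_lit 84) (nat_lit 11545101823) (nat_lit 19) (nat_lit 5) (nat_lit 23) (nat_lit 5) (nat_lit 20) (nat_lit 5) (nat_lit 360) (nat_lit 292) (nat_lit 236)) (XT.nd (nat_lit 94) (nat_lit 0) (nat_lit 0) (XT.lf (nat_lit 0) (nat_lit 2503545510) (nat_lit 168) (nat_lit 1674572226) (nat_lit 252) (nat_lit 11706994442) (nat_lit 17) (nat_lit 5) (nat_lit 19) (nat_lit 5) (nat_lit 20) (nat_lit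 5) (nat_lit 361) (nat_lit 292) (nat_lit 235)) (XT.lf (nat_lit 0) (nat_lit 5835905659) (nat_lit 252) (nat_lit 9757119524) (nat_lit 84) (nat_lit 679511821) (nat_lit 17) (nat_lit 5) (nat_lit 20) (nat_lit 5) (nat_lit 18) (nat_lit 5) (nat_lit 362) (nat_lit 292) (nat_lit 234)))) (XT.nd (nat_lit 94) (nat_lit 168) (nat_lit 0) (XT.lf (nat_lit 0) (nat_lit 7539585394) (nat_lit 252) (nat_lit 6068292278) (nat_lit 84) (nat_lit 3064385397) (nat_lit 17) (nat_lit 5) (nat_lit 20) (nat_lit 5) (nat_lit 18) (nat_lit 5) (nat_lit 363) (nat_lit 292) (nat_lit 233)) (XT.nd (nat_lit 94) (nat_lit 168) (nat_lit 0) (XT.lf (nat_lit 0) (nat_lit 9274132985) (nat_lit 252) (nat_lit 2295034592) (nat_lit 84) (nat_lit 5516010352) (nat_lit 17) (nat_lit 5) (nat_lit 20) (nat_lit 5) (nat_lit 18) (nat_lit 5) (nat_lit 364) (nat_lit 292) (nat_lit 232)) (XT.lf (nat_lit 0) (nat_lit 1598374284) (nat_lit 168) (nat_lit 9458646998)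 (nat_lit 252) (nat_lit 6454153644) (nat_lit 15) (nat_lit 5) (nat_lit 17) (nat_lit 5) (nat_lit 18) (nat_lit 5) (nat_lit 365) (nat_lit 292) (nat_lit 231)))))) (XT.nd (nat_lit 564) (nat_lit 168) (nat_lit 0) (XT.nd (nat_lit 282) (nat_lit 252) (nat_lit 0) (XT.nd (nat_lit 94) (nat_lit 0) (nat_lit 0) (XT.lf (nat_lit 0) (nat_lit 5632402723) (nat_lit 168) (nat_lit 7265800544) (nat_lit 252) (nat_lit 5052190842) (nat_lit 15) (nat_lit 5) (nat_lit 17) (nat_lit 5) (nat_lit 18) (nat_lit 5) (nat_lit 366) (nat_lit 292) (nat_lit 230)) (XT.nd (nat_lit 94) (nat_lit 0) (nat_lit 0) (XT.lf (nat_lit 0) (nat_lit 9763620242) (nat_lit 168) (nat_lit 5012539704) (nat_lit 252) (nat_lit 3627805218) (nat_lit 15) (nat_lit 5) (nat_lit 17) (nat_lit 5) (nat_lit 18) (nat_lit 5) (nat_lit 367) (nat_lit 292) (nat_lit 229)) (XT.lf (nat_lit 0) (nat_lit 13995877570) (nat_lit 168) (nat_lit 2696764206) (nat_lit 252) (nat_lit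 2179669094) (nat_lit 15) (nat_lit 5) (nat_lit 17) (nat_lit 5) (nat_lit 18) (nat_lit 5) (nat_lit 368) (nat_lit 292) (nat_lit 228)))) (XT.nd (nat_lit 94) (nat_lit 252) (nat_lit 0) (XT.lf (nat_lit 0) (nat_lit 18333119613) (nat_lit 168) (nat_lit 316315502) (nat_lit 252) (nat_lit 706432657) (nat_lit 15) (nat_lit 5) (nat_lit 17) (nat_lit 5) (nat_lit 18) (nat_lit 5) (nat_lit 369) (nat_lit 292) (nat_lit 227)) (XT.nd (nat_lit 94) (nat_lit 0) (nat_lit 0) (XT.lf (nat_lit 0) (nat_lit 828343304) (nat_lit 252) (nat_lit 16899048861) (nat_lit 84) (nat_lit 2125867969) (nat_lit 12) (nat_lit 5) (nat_lit 15) (nat_lit 5) (nat_lit 13) (nat_lit 5) (nat_lit 370) (nat_lit 292) (nat_lit 226)) (XT.lf (nat_lit 0) (nat_lit 2391473028) (nat_lit 252) (nat_lit 13326412166) (nat_lit 84) (nat_lit 4648195146) (nat_lit 12) (nat_lit 5) (nat_lit 15) (nat_lit 5) (nat_lit 13) (nat_lit 5) (nat_lit 371) (nat_lit 292) (nat_lit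 225))))) (XT.nd (nat_lit 282) (nat_lit 168) (nat_lit 0) (XT.nd (nat_lit 94) (nat_lit 0) (nat_lit 0) (XT.lf (nat_lit 0) (nat_lit 3985048362) (nat_lit 252) (nat_lit 9668474874) (nat_lit 84) (nat_lit 7241921947) (nat_lit 12) (nat_lit 5) (nat_lit 15) (nat_lit 5) (nat_lit 13) (nat_lit 5) (nat_lit 372) (nat_lit 292) (nat_lit 224)) (XT.nd (nat_lit 94) (nat_lit 0) (nat_lit 0) (XT.lf (nat_lit 0) (nat_lit 5610554686) (nat_lit 252) (nat_lit 5921827405) (nat_lit 84) (nat_lit 9909465996) (nat_lit 12) (nat_lit 5) (nat_lit 15) (nat_lit 5) (nat_lit 13) (nat_lit 5) (nat_lit 373) (nat_lit 292) (nat_lit 223)) (XT.lf (nat_lit 0) (nat_lit 7269507141) (nat_lit 252) (nat_lit 2082977490) (nat_lit 84) (nat_lit 12653313724) (nat_lit 12) (nat_lit 5) (nat_lit 15) (nat_lit 5) (nat_lit 13) (nat_lit 5) (nat_lit 374) (nat_lit 292) (nat_lit 222)))) (XT.nd (nat_lit 188) (nat_lit 0) (nat_lit 0) (XT.nd (nat_lit 94)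 (nat_lit 0) (nat_lit 0) (XT.lf (nat_lit 0) (nat_lit 1889726865) (nat_lit 168) (nat_lit 7092471504) (nat_lit 252) (nat_lit 13605042144) (nat_lit 10) (nat_lit 5) (nat_lit 12) (nat_lit 5) (nat_lit 13) (nat_lit 5) (nat_lit 375) (nat_lit 292) (nat_lit 221)) (XT.lf (nat_lit 0) (nat_lit 6006754511) (nat_lit 168) (nat_lit 4746801568) (nat_lit 252) (nat_lit 12433057176) (nat_lit 10) (nat_lit 5) (nat_lit 12) (nat_lit 5) (nat_lit 13) (nat_lit 5) (nat_lit 376) (nat_lit 292) (nat_lit 220))) (XT.nd (nat_lit 94) (nat_lit 0) (nat_lit 0) (XT.lf (nat_lit 0) (nat_lit 10229112661) (nat_lit 168) (nat_lit 2335030426) (nat_lit 252) (nat_lit 11240985909) (nat_lit 10) (nat_lit 5) (nat_lit 12) (nat_lit 5) (nat_lit 13) (nat_lit 5) (nat_lit 377) (nat_lit 292) (nat_lit 219)) (XT.lf (nat_lit 0) (nat_lit 14417086359) (nat_lit 252) (nat_lit 9884066575) (nat_lit 84) (nat_lit 142166704) (nat_lit 10) (nat_lit 5) (nat_lit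 13) (nat_lit 5) (nat_lit 11) (nat_lit 4) (nat_lit 378) (nat_lit 292) (nat_lit 218))))))) (XT.nd (nat_lit 1222) (nat_lit 84) (nat_lit 0) (XT.nd (nat_lit 564) (nat_lit 252) (nat_lit 0) (XT.nd (nat_lit 282) (nat_lit 0) (nat_lit 0) (XT.nd (nat_lit 94) (nat_lit 84) (nat_lit 0) (XT.lf (nat_lit 0) (nat_lit 16336537137) (nat_lit 252) (nat_lit 6122992283) (nat_lit 84) (nat_lit 2641555476) (nat_lit 10) (nat_lit 5) (nat_lit 13) (nat_lit 5) (nat_lit 11) (nat_lit 4) (nat_lit 379) (nat_lit 292) (nat_lit 217)) (XT.nd (nat_lit 94) (nat_lit 84) (nat_lit 0) (XT.lf (nat_lit 0) (nat_lit 18301120758) (nat_lit 252) (nat_lit 2266123954) (nat_lit 84) (nat_lit 5212511240) (nat_lit 10) (nat_lit 5) (nat_lit 13) (nat_lit 5) (nat_lit 11) (nat_lit 4) (nat_lit 380) (nat_lit 292) (nat_lit 216)) (XT.lf (nat_lit 0) (nat_lit 1724886026) (nat_lit 84) (nat_lit 18604893478) (nat_lit 168) (nat_lit 6149655453) (nat_lit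 9) (nat_lit 5) (nat_lit 10) (nat_lit 5) (nat_lit 11) (nat_lit 4) (nat_lit 381) (nat_lit 292) (nat_lit 215)))) (XT.nd (nat_lit 94) (nat_lit 0) (nat_lit 0) (XT.lf (nat_lit 0) (nat_lit 5867688321) (nat_lit 84) (nat_lit 16563574973) (nat_lit 168) (nat_lit 4769298160) (nat_lit 9) (nat_lit 5) (nat_lit 10) (nat_lit 5) (nat_lit 11) (nat_lit 4) (nat_lit 382) (nat_lit 292) (nat_lit 214)) (XT.nd (nat_lit 94) (nat_lit 0) (nat_lit 0) (XT.lf (nat_lit 0) (nat_lit 10119548299) (nat_lit 84) (nat_lit 14465040161) (nat_lit 168) (nat_lit 3359930364) (nat_lit 9) (nat_lit 5) (nat_lit 10) (nat_lit 5) (nat_lit 11) (nat_lit 4) (nat_lit 383) (nat_lit 292) (nat_lit 213)) (XT.lf (nat_lit 0) (nat_lit 14484429139) (nat_lit 84) (nat_lit 12307332990) (nat_lit 168) (nat_lit 1920238389) (nat_lit 9) (nat_lit 5) (nat_lit 10) (nat_lit 5) (nat_lit 11) (nat_lit 4) (nat_lit 384) (nat_lit 292) (nat_lit 212))))) (XT.nd (nat_lit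 282) (nat_lit 168) (nat_lit 0) (XT.nd (nat_lit 94) (nat_lit 84) (nat_lit 0) (XT.lf (nat_lit 0) (nat_lit 18966399367) (nat_lit 84) (nat_lit 10088442249) (nat_lit 168) (nat_lit 448880289) (nat_lit 9) (nat_lit 5) (nat_lit 10) (nat_lit 5) (nat_lit 11) (nat_lit 4) (nat_lit 385) (nat_lit 292) (nat_lit 211)) (XT.nd (nat_lit 94) (nat_lit 0) (nat_lit 0) (XT.lf (nat_lit 0) (nat_lit 1034249110) (nat_lit 168) (nat_lit 6761255150) (nat_lit 84) (nat_lit 22524592098) (nat_lit 8) (nat_lit 5) (nat_lit 10) (nat_lit 5) (nat_lit 9) (nat_lit 5) (nat_lit 386) (nat_lit 292) (nat_lit 210)) (XT.lf (nat_lit 0) (nat_lit 2542080526) (nat_lit 168) (nat_lit 2890163513) (nat_lit 84) (nat_lit 25729817050) (nat_lit 8) (nat_lit 5) (nat_lit 10) (nat_lit 5) (nat_lit 9) (nat_lit 5) (nat_lit 387) (nat_lit 292) (nat_lit 209)))) (XT.nd (nat_lit 188) (nat_lit 0) (nat_lit 0) (XT.nd (nat_lit 94) (nat_lit 0) (nat_lit 0) (XT.lf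 (nat_lit 0) (nat_lit 1106303122) (nat_lit 168) (nat_lit 2989734892) (nat_lit 252) (nat_lit 27934160711) (nat_lit 6) (nat_lit 5) (nat_lit 8) (nat_lit 5) (nat_lit 9) (nat_lit 5) (nat_lit 388) (nat_lit 292) (nat_lit 208)) (XT.lf (nat_lit 0) (nat_lit 5271183073) (nat_lit 168) (nat_lit 445743522) (nat_lit 252) (nat_lit 27207791812) (nat_lit 6) (nat_lit 5) (nat_lit 8) (nat_lit 5) (nat_lit 9) (nat_lit 5) (nat_lit 389) (nat_lit 292) (nat_lit 207))) (XT.nd (nat_lit 94) (nat_lit 0) (nat_lit 0) (XT.lf (nat_lit 0) (nat_lit 7398542650) (nat_lit 252) (nat_lit 24319976092) (nat_lit 84) (nat_lit 2128174327) (nat_lit 6) (nat_lit 5) (nat_lit 9) (nat_lit 5) (nat_lit 7) (nat_lit 4) (nat_lit 390) (nat_lit 292) (nat_lit 206)) (XT.lf (nat_lit 0) (nat_lit 9126064693) (nat_lit 252) (nat_lit 20903721724) (nat_lit 84) (nat_lit 4767703727) (nat_lit 6) (nat_lit 5) (nat_lit 9) (nat_lit 5) (nat_lit 7) (nat_lit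 4) (nat_lit 391) (nat_lit 292) (nat_lit 205)))))) (XT.nd (nat_lit 564) (nat_lit 0) (nat_lit 0) (XT.nd (nat_lit 282) (nat_lit 84) (nat_lit 0) (XT.nd (nat_lit 94) (nat_lit 0) (nat_lit 0) (XT.lf (nat_lit 0) (nat_lit 10896681128) (nat_lit 252) (nat_lit 17397166092) (nat_lit 84) (nat_lit 7484285734) (nat_lit 6) (nat_lit 5) (nat_lit 9) (nat_lit 5) (nat_lit 7) (nat_lit 4) (nat_lit 392) (nat_lit 292) (nat_lit 204)) (XT.nd (nat_lit 94) (nat_lit 0) (nat_lit 0) (XT.lf (nat_lit 0) (nat_lit 12712042353) (nat_lit 252) (nat_lit 13797040718) (nat_lit 84) (nat_lit 10280452486) (nat_lit 6) (nat_lit 5) (nat_lit 9) (nat_lit 5) (nat_lit 7) (nat_lit 4) (nat_lit 393) (nat_lit 292) (nat_lit 203)) (XT.lf (nat_lit 0) (nat_lit 14573840475) (nat_lit 252) (nat_lit 10099989910) (nat_lit 84) (nat_lit 13158810304) (nat_lit 6) (nat_lit 5) (nat_lit 9) (nat_lit 5) (nat_lit 7) (nat_lit 4) (nat_lit 394) (nat_lit 292)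 (nat_lit 202)))) (XT.nd (nat_lit 94) (nat_lit 84) (nat_lit 0) (XT.lf (nat_lit 0) (nat_lit 16483810885) (nat_lit 252) (nat_lit 6302567629) (nat_lit 84) (nat_lit 16122042119) (nat_lit 6) (nat_lit 5) (nat_lit 9) (nat_lit 5) (nat_lit 7) (nat_lit 4) (nat_lit 395) (nat_lit 292) (nat_lit 201)) (XT.nd (nat_lit 94) (nat_lit 84) (nat_lit 0) (XT.lf (nat_lit 0) (nat_lit 18443733876) (nat_lit 252) (nat_lit 2401234278) (nat_lit 84) (nat_lit 19172909973) (nat_lit 6) (nat_lit 5) (nat_lit 9) (nat_lit 5) (nat_lit 7) (nat_lit 4) (nat_lit 396) (nat_lit 292) (nat_lit 200)) (XT.lf (nat_lit 0) (nat_lit 1640703102) (nat_lit 84) (nat_lit 18831009176) (nat_lit 168) (nat_lit 20689830469) (nat_lit 5) (nat_lit 5) (nat_lit 6) (nat_lit 5) (nat_lit 7) (nat_lit 4) (nat_lit 397) (nat_lit 292) (nat_lit 199))))) (XT.nd (nat_lit 282) (nat_lit 0) (nat_lit 0) (XT.nd (nat_lit 94) (nat_lit 0) (nat_lit 0) (XT.lf (nat_lit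 0) (nat_lit 5845587235) (nat_lit 84) (nat_lit 16733194991) (nat_lit 168) (nat_lit 19761414763) (nat_lit 5) (nat_lit 5) (nat_lit 6) (nat_lit 5) (nat_lit 7) (nat_lit 4) (nat_lit 398) (nat_lit 292) (nat_lit 198)) (XT.nd (nat_lit 94) (nat_lit 0) (nat_lit 0) (XT.lf (nat_lit 0) (nat_lit 10167963208) (nat_lit 84) (nat_lit 14574634180) (nat_lit 168) (nat_lit 18813095712) (nat_lit 5) (nat_lit 5) (nat_lit 6) (nat_lit 5) (nat_lit 7) (nat_lit 4) (nat_lit 399) (nat_lit 292) (nat_lit 197)) (XT.lf (nat_lit 0) (nat_lit 14611859930) (nat_lit 84) (nat_lit 12353314736) (nat_lit 168) (nat_lit 17843989384) (nat_lit 5) (nat_lit 5) (nat_lit 6) (nat_lit 5) (nat_lit 7) (nat_lit 4) (nat_lit 400) (nat_lit 292) (nat_lit 196)))) (XT.nd (nat_lit 188) (nat_lit 0) (nat_lit 0) (XT.nd (nat_lit 94) (nat_lit 0) (nat_lit 0) (XT.lf (nat_lit 0) (nat_lit 19181419579) (nat_lit 84) (nat_lit 10067166159) (nat_lit 168) (nat_lit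 16853192470) (nat_lit 5) (nat_lit 5) (nat_lit 6) (nat_lit 5) (nat_lit 7) (nat_lit 4) (nat_lit 401) (nat_lit 292) (nat_lit 195)) (XT.lf (nat_lit 0) (nat_lit 23880901461) (nat_lit 84) (nat_lit 7714057517) (nat_lit 168) (nat_lit 15839781445) (nat_lit 5) (nat_lit 5) (nat_lit 6) (nat_lit 5) (nat_lit 7) (nat_lit 4) (nat_lit 402) (nat_lit 292) (nat_lit 194))) (XT.nd (nat_lit 94) (nat_lit 0) (nat_lit 0) (XT.lf (nat_lit 0) (nat_lit 28714685986) (nat_lit 84) (nat_lit 5291795466) (nat_lit 168) (nat_lit 14802811702) (nat_lit 5) (nat_lit 5) (nat_lit 6) (nat_lit 5) (nat_lit 7) (nat_lit 4) (nat_lit 403) (nat_lit 292) (nat_lit 193)) (XT.lf (nat_lit 0) (nat_lit 33687278749) (nat_lit 84) (nat_lit 2798122206) (nat_lit 168) (nat_lit 13741316678) (nat_lit 5) (nat_lit 5) (nat_lit 6) (nat_lit 5) (nat_lit 7) (nat_lit 4) (nat_lit 404) (nat_lit 292) (nat_lit 192))))))))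
noncomputable def xc77 : XT := (XT.nd (nat_lit 46248) (nat_lit 0) (nat_lit 5124) (XT.nd (nat_lit 1128) (nat_lit 84) (nat_lit 0) (XT.nd (nat_lit 564) (nat_lit 84) (nat_lit 0) (XT.nd (nat_lit 282) (nat_lit 84) (nat_lit 0) (XT.nd (nat_lit 94) (nat_lit 0) (nat_lit 0) (XT.lf (nat_lit 0) (nat_lit 38803314726) (nat_lit 84) (nat_lit 230713371) (nat_lit 168) (nat_lit 12654306948) (nat_lit 5) (nat_lit 5) (nat_lit 6) (nat_lit 5) (nat_lit 7) (nat_lit 4) (nat_lit 405) (nat_lit 292) (nat_lit 191)) (XT.nd (nat_lit 94) (nat_lit 0) (nat_lit 0) (XT.lf (nat_lit 0) (nat_lit 41678673981) (nat_lit 168) (nat_lit 9151880687) (nat_lit 0) (nat_lit 2364211102) (nat_lit 5) (nat_lit 5) (nat_lit 7) (nat_lit 4) (nat_lit 5) (nat_lit 4) (nat_lit 406) (nat_lit 292) (nat_lit 190)) (XT.lf (nat_lit 0) (nat_lit 44400914223) (nat_lit 168) (nat_lit 5315650839) (nat_lit 0) (nat_lit 5031496470) (nat_lit 5) (nat_lit 5) (nat_lit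 7) (nat_lit 4) (nat_lit 5) (nat_lit 4) (nat_lit 407) (nat_lit 292) (nat_lit 189)))) (XT.nd (nat_lit 94) (nat_lit 84) (nat_lit 0) (XT.lf (nat_lit 0) (nat_lit 47200997531) (nat_lit 168) (nat_lit 1370466304) (nat_lit 0) (nat_lit 7778277283) (nat_lit 5) (nat_lit 5) (nat_lit 7) (nat_lit 4) (nat_lit 5) (nat_lit 4) (nat_lit 408) (nat_lit 292) (nat_lit 188)) (XT.nd (nat_lit 94) (nat_lit 0) (nat_lit 0) (XT.lf (nat_lit 0) (nat_lit 2742607676) (nat_lit 84) (nat_lit 47366133208) (nat_lit 84) (nat_lit 7891713157) (nat_lit 4) (nat_lit 4) (nat_lit 5) (nat_lit 5) (nat_lit 5) (nat_lit 4) (nat_lit 409) (nat_lit 292) (nat_lit 187)) (XT.lf (nat_lit 0) (nat_lit 7002669296) (nat_lit 84) (nat_lit 46112006271) (nat_lit 84) (nat_lit 6587440922) (nat_lit 4) (nat_lit 4) (nat_lit 5) (nat_lit 5) (nat_lit 5) (nat_lit 4) (nat_lit 410) (nat_lit 292) (nat_lit 186))))) (XT.nd (nat_lit 282) (nat_lit 84) (nat_lit 0)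 (XT.nd (nat_lit 94) (nat_lit 0) (nat_lit 0) (XT.lf (nat_lit 0) (nat_lit 11385509780) (nat_lit 84) (nat_lit 44822218905) (nat_lit 84) (nat_lit 5249016022) (nat_lit 4) (nat_lit 4) (nat_lit 5) (nat_lit 5) (nat_lit 5) (nat_lit 4) (nat_lit 411) (nat_lit 292) (nat_lit 185)) (XT.nd (nat_lit 94) (nat_lit 0) (nat_lit 0) (XT.lf (nat_lit 0) (nat_lit 15895214395) (nat_lit 84) (nat_lit 43495568894) (nat_lit 84) (nat_lit 3875190904) (nat_lit 4) (nat_lit 4) (nat_lit 5) (nat_lit 5) (nat_lit 5) (nat_lit 4) (nat_lit 412) (nat_lit 292) (nat_lit 184)) (XT.lf (nat_lit 0) (nat_lit 20535986657) (nat_lit 84) (nat_lit 42130819660) (nat_lit 84) (nat_lit 2464685021) (nat_lit 4) (nat_lit 4) (nat_lit 5) (nat_lit 5) (nat_lit 5) (nat_lit 4) (nat_lit 413) (nat_lit 292) (nat_lit 183)))) (XT.nd (nat_lit 94) (nat_lit 84) (nat_lit 0) (XT.lf (nat_lit 0) (nat_lit 25312152254) (nat_lit 84) (nat_lit 40726699114) (nat_lit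 84) (nat_lit 1016183631) (nat_lit 4) (nat_lit 4) (nat_lit 5) (nat_lit 5) (nat_lit 5) (nat_lit 4) (nat_lit 414) (nat_lit 292) (nat_lit 182)) (XT.nd (nat_lit 94) (nat_lit 0) (nat_lit 0) (XT.lf (nat_lit 0) (nat_lit 462160451) (nat_lit 168) (nat_lit 38814914010) (nat_lit 84) (nat_lit 29761178611) (nat_lit 3) (nat_lit 5) (nat_lit 5) (nat_lit 5) (nat_lit 4) (nat_lit 4) (nat_lit 415) (nat_lit 292) (nat_lit 181)) (XT.lf (nat_lit 0) (nat_lit 1959942520) (nat_lit 168) (nat_lit 35814670719) (nat_lit 84) (nat_lit 33308201043) (nat_lit 3) (nat_lit 5) (nat_lit 5) (nat_lit 5) (nat_lit 4) (nat_lit 4) (nat_lit 416) (nat_lit 292) (nat_lit 180)))))) (XT.nd (nat_lit 564) (nat_lit 84) (nat_lit 0) (XT.nd (nat_lit 282) (nat_lit 0) (nat_lit 0) (XT.nd (nat_lit 94) (nat_lit 0) (nat_lit 0) (XT.lf (nat_lit 0) (nat_lit 3499032500) (nat_lit 168) (nat_lit 32729275663) (nat_lit 84) (nat_lit 36962628710) (nat_lit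 3) (nat_lit 5) (nat_lit 5) (nat_lit 5) (nat_lit 4) (nat_lit 4) (nat_lit 417) (nat_lit 292) (nat_lit 179)) (XT.nd (nat_lit 94) (nat_lit 0) (nat_lit 0) (XT.lf (nat_lit 0) (nat_lit 5080864984) (nat_lit 168) (nat_lit 29555852931) (nat_lit 84) (nat_lit 40727867922) (nat_lit 3) (nat_lit 5) (nat_lit 5) (nat_lit 5) (nat_lit 4) (nat_lit 4) (nat_lit 418) (nat_lit 292) (nat_lit 178)) (XT.lf (nat_lit 0) (nat_lit 6706914405) (nat_lit 168) (nat_lit 26291444561) (nat_lit 84) (nat_lit 44607428275) (nat_lit 3) (nat_lit 5) (nat_lit 5) (nat_lit 5) (nat_lit 4) (nat_lit 4) (nat_lit 419) (nat_lit 292) (nat_lit 177)))) (XT.nd (nat_lit 94) (nat_lit 0) (nat_lit 0) (XT.lf (nat_lit 0) (nat_lit 8378696412) (nat_lit 168) (nat_lit 22933007782) (nat_lit 84) (nat_lit 48604925927) (nat_lit 3) (nat_lit 5) (nat_lit 5) (nat_lit 5) (nat_lit 4) (nat_lit 4) (nat_lit 420) (nat_lit 292) (nat_lit 176)) (XT.nd (nat_lit 94)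 (nat_lit 0) (nat_lit 0) (XT.lf (nat_lit 0) (nat_lit 10097769281) (nat_lit 168) (nat_lit 19477412180) (nat_lit 84) (nat_lit 52724086965) (nat_lit 3) (nat_lit 5) (nat_lit 5) (nat_lit 5) (nat_lit 4) (nat_lit 4) (nat_lit 421) (nat_lit 292) (nat_lit 175)) (XT.lf (nat_lit 0) (nat_lit 11865735368) (nat_lit 168) (nat_lit 15921436776) (nat_lit 84) (nat_lit 56968750877) (nat_lit 3) (nat_lit 5) (nat_lit 5) (nat_lit 5) (nat_lit 4) (nat_lit 4) (nat_lit 422) (nat_lit 292) (nat_lit 174))))) (XT.nd (nat_lit 282) (nat_lit 84) (nat_lit 0) (XT.nd (nat_lit 94) (nat_lit 0) (nat_lit 0) (XT.lf (nat_lit 0) (nat_lit 13684242602) (nat_lit 168) (nat_lit 12261767031) (nat_lit 84) (nat_lit 61342874135) (nat_lit 3) (nat_lit 5) (nat_lit 5) (nat_lit 5) (nat_lit 4) (nat_lit 4) (nat_lit 423) (nat_lit 292) (nat_lit 173)) (XT.nd (nat_lit 94) (nat_lit 0) (nat_lit 0) (XT.lf (nat_lit 0) (nat_lit 15554986023) (nat_lit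 168) (nat_lit 8494991747) (nat_lit 84) (nat_lit 65850533881) (nat_lit 3) (nat_lit 5) (nat_lit 5) (nat_lit 5) (nat_lit 4) (nat_lit 4) (nat_lit 424) (nat_lit 292) (nat_lit 172)) (XT.lf (nat_lit 0) (nat_lit 17479709360) (nat_lit 168) (nat_lit 4617599896) (nat_lit 84) (nat_lit 70495931724) (nat_lit 3) (nat_lit 5) (nat_lit 5) (nat_lit 5) (nat_lit 4) (nat_lit 4) (nat_lit 425) (nat_lit 292) (nat_lit 171)))) (XT.nd (nat_lit 44086) (nat_lit 0) (nat_lit 12180) (XT.nd (nat_lit 94) (nat_lit 84) (nat_lit 0) (XT.lf (nat_lit 0) (nat_lit 19460206656) (nat_lit 168) (nat_lit 625977343) (nat_lit 84) (nat_lit 75283397664) (nat_lit 3) (nat_lit 5) (nat_lit 5) (nat_lit 5) (nat_lit 4) (nat_lit 4) (nat_lit 426) (nat_lit 292) (nat_lit 170)) (XT.lf (nat_lit 0) (nat_lit 3555226411) (nat_lit 84) (nat_lit 17978365817) (nat_lit 168) (nat_lit 76697435993) (nat_lit 2) (nat_lit 5) (nat_lit 3) (nat_lit 5) (nat_lit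 4) (nat_lit 4) (nat_lit 427) (nat_lit 292) (nat_lit 169))) (XT.nd (nat_lit 94) (nat_lit 0) (nat_lit 0) (XT.lf (nat_lit 0) (nat_lit 404851862) (nat_lit 252) (nat_lit 2435439559) (nat_lit 0) (nat_lit 404851862) (nat_lit 147) (nat_lit 5) (nat_lit 150) (nat_lit 4) (nat_lit 147) (nat_lit 4) (nat_lit 302) (nat_lit 293) (nat_lit 293)) (XT.lf (nat_lit 0) (nat_lit 3080257583) (nat_lit 252) (nat_lit 2303178900) (nat_lit 0) (nat_lit 1124702514) (nat_lit 147) (nat_lit 5) (nat_lit 150) (nat_lit 4) (nat_lit 147) (nat_lit 4) (nat_lit 303) (nat_lit 293) (nat_lit 292))))))) (XT.nd (nat_lit 1222) (nat_lit 3948) (nat_lit 0) (XT.nd (nat_lit 564) (nat_lit 1932) (nat_lit 0) (XT.nd (nat_lit 282) (nat_lit 840) (nat_lit 0) (XT.nd (nat_lit 94) (nat_lit 84) (nat_lit 0) (XT.lf (nat_lit 0) (nat_lit 295859798) (nat_lit 252) (nat_lit 5043280703) (nat_lit 252) (nat_lit 1190969991) (nat_lit 144) (nat_lit 4) (nat_lit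 147) (nat_lit 5) (nat_lit 147) (nat_lit 4) (nat_lit 304) (nat_lit 293) (nat_lit 291)) (XT.nd (nat_lit 94) (nat_lit 0) (nat_lit 0) (XT.lf (nat_lit 0) (nat_lit 1032311828) (nat_lit 336) (nat_lit 3595409582) (nat_lit 84) (nat_lit 1927535633) (nat_lit 143) (nat_lit 5) (nat_lit 147) (nat_lit 5) (nat_lit 144) (nat_lit 4) (nat_lit 305) (nat_lit 293) (nat_lit 290)) (XT.lf (nat_lit 0) (nat_lit 3217535904) (nat_lit 336) (nat_lit 941627043) (nat_lit 84) (nat_lit 2425124440) (nat_lit 143) (nat_lit 5) (nat_lit 147) (nat_lit 5) (nat_lit 144) (nat_lit 4) (nat_lit 306) (nat_lit 293) (nat_lit 289)))) (XT.nd (nat_lit 94) (nat_lit 504) (nat_lit 0) (XT.lf (nat_lit 0) (nat_lit 1777191543) (nat_lit 336) (nat_lit 3631172901) (nat_lit 420) (nat_lit 1208683862) (nat_lit 139) (nat_lit 5) (nat_lit 143) (nat_lit 5) (nat_lit 144) (nat_lit 4) (nat_lit 307) (nat_lit 293) (nat_lit 288)) (XT.nd (nat_lit 94) (nat_lit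 420) (nat_lit 0) (XT.lf (nat_lit 0) (nat_lit 926191227) (nat_lit 420) (nat_lit 2115433940) (nat_lit 84) (nat_lit 3611896041) (nat_lit 138) (nat_lit 5) (nat_lit 143) (nat_lit 5) (nat_lit 139) (nat_lit 5) (nat_lit 308) (nat_lit 293) (nat_lit 287)) (XT.lf (nat_lit 0) (nat_lit 640658042) (nat_lit 420) (nat_lit 2390683429) (nat_lit 504) (nat_lit 3662420062) (nat_lit 133) (nat_lit 5) (nat_lit 138) (nat_lit 5) (nat_lit 139) (nat_lit 5) (nat_lit 309) (nat_lit 293) (nat_lit 286))))) (XT.nd (nat_lit 282) (nat_lit 1344) (nat_lit 0) (XT.nd (nat_lit 94) (nat_lit 588) (nat_lit 0) (XT.lf (nat_lit 0) (nat_lit 3474241135) (nat_lit 420) (nat_lit 1674233000) (nat_lit 504) (nat_lit 1589227180) (nat_lit 133) (nat_lit 5) (nat_lit 138) (nat_lit 5) (nat_lit 139) (nat_lit 5) (nat_lit 310) (nat_lit 293) (nat_lit 285)) (XT.nd (nat_lit 94) (nat_lit 504) (nat_lit 0) (XT.lf (nat_lit 0) (nat_lit 462588537) (nat_lit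 504) (nat_lit 446269851) (nat_lit 84) (nat_lit 5877041860) (nat_lit 132) (nat_lit 5) (nat_lit 138) (nat_lit 5) (nat_lit 133) (nat_lit 5) (nat_lit 311) (nat_lit 293) (nat_lit 284)) (XT.lf (nat_lit 0) (nat_lit 2439260040) (nat_lit 504) (nat_lit 57578918) (nat_lit 588) (nat_lit 4340473822) (nat_lit 126) (nat_lit 5) (nat_lit 132) (nat_lit 5) (nat_lit 133) (nat_lit 5) (nat_lit 312) (nat_lit 293) (nat_lit 283)))) (XT.nd (nat_lit 188) (nat_lit 756) (nat_lit 0) (XT.nd (nat_lit 94) (nat_lit 588) (nat_lit 0) (XT.lf (nat_lit 0) (nat_lit 4536492875) (nat_lit 588) (nat_lit 1529106939) (nat_lit 84) (nat_lit 827215092) (nat_lit 126) (nat_lit 5) (nat_lit 133) (nat_lit 5) (nat_lit 127) (nat_lit 5) (nat_lit 313) (nat_lit 293) (nat_lit 282)) (XT.lf (nat_lit 0) (nat_lit 1403653766) (nat_lit 588) (nat_lit 5181855935) (nat_lit 672) (nat_lit 366884854) (nat_lit 119) (nat_lit 5) (nat_lit 126) (nat_lit 5)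 (nat_lit 127) (nat_lit 5) (nat_lit 314) (nat_lit 293) (nat_lit 281))) (XT.nd (nat_lit 94) (nat_lit 672) (nat_lit 0) (XT.lf (nat_lit 0) (nat_lit 1598236565) (nat_lit 672) (nat_lit 2624778650) (nat_lit 84) (nat_lit 2792548123) (nat_lit 118) (nat_lit 5) (nat_lit 126) (nat_lit 5) (nat_lit 119) (nat_lit 5) (nat_lit 315) (nat_lit 293) (nat_lit 280)) (XT.lf (nat_lit 0) (nat_lit 340234818) (nat_lit 672) (nat_lit 3213667123) (nat_lit 756) (nat_lit 3529244421) (nat_lit 110) (nat_lit 5) (nat_lit 118) (nat_lit 5) (nat_lit 119) (nat_lit 5) (nat_lit 316) (nat_lit 293) (nat_lit 279)))))) (XT.nd (nat_lit 564) (nat_lit 2184) (nat_lit 0) (XT.nd (nat_lit 282) (nat_lit 924) (nat_lit 0) (XT.nd (nat_lit 94) (nat_lit 840) (nat_lit 0) (XT.lf (nat_lit 0) (nat_lit 3400647013) (nat_lit 672) (nat_lit 2132285237) (nat_lit 756) (nat_lit 1621655404) (nat_lit 110) (nat_lit 5) (nat_lit 118) (nat_lit 5) (nat_lit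 119) (nat_lit 5) (nat_lit 317) (nat_lit 293) (nat_lit 278)) (XT.nd (nat_lit 94) (nat_lit 756) (nat_lit 0) (XT.lf (nat_lit 0) (nat_lit 274183272) (nat_lit 756) (nat_lit 728213721) (nat_lit 84) (nat_lit 6228294542) (nat_lit 109) (nat_lit 5) (nat_lit 118) (nat_lit 5) (nat_lit 110) (nat_lit 5) (nat_lit 318) (nat_lit 293) (nat_lit 277)) (XT.lf (nat_lit 0) (nat_lit 2158755751) (nat_lit 840) (nat_lit 4940914466) (nat_lit 84) (nat_lit 210652053) (nat_lit 100) (nat_lit 5) (nat_lit 110) (nat_lit 5) (nat_lit 101) (nat_lit 5) (nat_lit 319) (nat_lit 293) (nat_lit 276)))) (XT.nd (nat_lit 94) (nat_lit 924) (nat_lit 0) (XT.lf (nat_lit 0) (nat_lit 4059136536) (nat_lit 840) (nat_lit 1876928203) (nat_lit 84) (nat_lit 1458216044) (nat_lit 100) (nat_lit 5) (nat_lit 110) (nat_lit 5) (nat_lit 101) (nat_lit 5) (nat_lit 320) (nat_lit 293) (nat_lit 275)) (XT.nd (nat_lit 94) (nat_lit 84) (nat_lit 0) (XT.lf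 (nat_lit 0) (nat_lit 1256032942) (nat_lit 840) (nat_lit 4716132225) (nat_lit 924) (nat_lit 1510633050) (nat_lit 90) (nat_lit 5) (nat_lit 100) (nat_lit 5) (nat_lit 101) (nat_lit 5) (nat_lit 321) (nat_lit 293) (nat_lit 274)) (XT.lf (nat_lit 0) (nat_lit 324220165) (nat_lit 924) (nat_lit 3103912120) (nat_lit 84) (nat_lit 4147505979) (nat_lit 89) (nat_lit 5) (nat_lit 100) (nat_lit 5) (nat_lit 90) (nat_lit 5) (nat_lit 322) (nat_lit 293) (nat_lit 273))))) (XT.nd (nat_lit 282) (nat_lit 1260) (nat_lit 0) (XT.nd (nat_lit 94) (nat_lit 0) (nat_lit 0) (XT.lf (nat_lit 0) (nat_lit 50402668) (nat_lit 924) (nat_lit 2077886134) (nat_lit 1008) (nat_lit 5544809786) (nat_lit 78) (nat_lit 5) (nat_lit 89) (nat_lit 5) (nat_lit 90) (nat_lit 5) (nat_lit 323) (nat_lit 293) (nat_lit 272)) (XT.nd (nat_lit 94) (nat_lit 0) (nat_lit 0) (XT.lf (nat_lit 0) (nat_lit 3317905867) (nat_lit 924) (nat_lit 647198032) (nat_lit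 1008) (nat_lit 3809656868) (nat_lit 78) (nat_lit 5) (nat_lit 89) (nat_lit 5) (nat_lit 90) (nat_lit 5) (nat_lit 324) (nat_lit 293) (nat_lit 271)) (XT.lf (nat_lit 0) (nat_lit 5813215383) (nat_lit 1008) (nat_lit 1252135528) (nat_lit 84) (nat_lit 816086677) (nat_lit 78) (nat_lit 5) (nat_lit 90) (nat_lit 5) (nat_lit 79) (nat_lit 5) (nat_lit 325) (nat_lit 293) (nat_lit 270)))) (XT.nd (nat_lit 188) (nat_lit 504) (nat_lit 0) (XT.nd (nat_lit 94) (nat_lit 84) (nat_lit 0) (XT.lf (nat_lit 0) (nat_lit 2036833025) (nat_lit 672) (nat_lit 5656372448) (nat_lit 756) (nat_lit 299438367) (nat_lit 70) (nat_lit 5) (nat_lit 78) (nat_lit 5) (nat_lit 79) (nat_lit 5) (nat_lit 326) (nat_lit 293) (nat_lit 269)) (XT.lf (nat_lit 0) (nat_lit 1454582774) (nat_lit 756) (nat_lit 2718335936) (nat_lit 84) (nat_lit 3935524433) (nat_lit 69) (nat_lit 5) (nat_lit 78) (nat_lit 5) (nat_lit 70) (nat_lit 5) (nat_lit 327) (nat_lit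 293) (nat_lit 268))) (XT.nd (nat_lit 94) (nat_lit 0) (nat_lit 0) (XT.lf (nat_lit 0) (nat_lit 579130427) (nat_lit 504) (nat_lit 2632849764) (nat_lit 588) (nat_lit 5017541831) (nat_lit 63) (nat_lit 5) (nat_lit 69) (nat_lit 5) (nat_lit 70) (nat_lit 5) (nat_lit 328) (nat_lit 293) (nat_lit 267)) (XT.lf (nat_lit 0) (nat_lit 3987965506) (nat_lit 504) (nat_lit 1014780094) (nat_lit 588) (nat_lit 3352647883) (nat_lit 63) (nat_lit 5) (nat_lit 69) (nat_lit 5) (nat_lit 70) (nat_lit 5) (nat_lit 329) (nat_lit 293) (nat_lit 266))))))))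
noncomputable def xc78 : XT := (XT.nd (nat_lit 2350) (nat_lit 1092) (nat_lit 0) (XT.nd (nat_lit 1128) (nat_lit 1260) (nat_lit 0) (XT.nd (nat_lit 564) (nat_lit 1176) (nat_lit 0) (XT.nd (nat_lit 282) (nat_lit 420) (nat_lit 0) (XT.nd (nat_lit 94) (nat_lit 504) (nat_lit 0) (XT.lf (nat_lit 0) (nat_lit 6807519445) (nat_lit 588) (nat_lit 1038067840) (nat_lit 84) (nat_lit 641239457) (nat_lit 63) (nat_lit 5) (nat_lit 70) (nat_lit 5) (nat_lit 64) (nat_lit 5) (nat_lit 330) (nat_lit 293) (nat_lit 265)) (XT.nd (nat_lit 94) (nat_lit 0) (nat_lit 0) (XT.lf (nat_lit 0) (nat_lit 31990481) (nat_lit 504) (nat_lit 6238659913) (nat_lit 84) (nat_lit 2352423672) (nat_lit 57) (nat_lit 5) (nat_lit 63) (nat_lit 5) (nat_lit 58) (nat_lit 5) (nat_lit 331) (nat_lit 293) (nat_lit 264)) (XT.lf (nat_lit 0) (nat_lit 1725980124) (nat_lit 504) (nat_lit 2893733568) (nat_lit 84) (nat_lit 4144739124) (nat_lit 57) (nat_lit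 5) (nat_lit 63) (nat_lit 5) (nat_lit 58) (nat_lit 5) (nat_lit 332) (nat_lit 293) (nat_lit 263)))) (XT.nd (nat_lit 94) (nat_lit 0) (nat_lit 0) (XT.lf (nat_lit 0) (nat_lit 518545636) (nat_lit 420) (nat_lit 2914056314) (nat_lit 504) (nat_lit 5479178910) (nat_lit 52) (nat_lit 5) (nat_lit 57) (nat_lit 5) (nat_lit 58) (nat_lit 5) (nat_lit 333) (nat_lit 293) (nat_lit 262)) (XT.nd (nat_lit 94) (nat_lit 0) (nat_lit 0) (XT.lf (nat_lit 0) (nat_lit 4051637413) (nat_lit 420) (nat_lit 1126565137) (nat_lit 504) (nat_lit 3886225541) (nat_lit 52) (nat_lit 5) (nat_lit 57) (nat_lit 5) (nat_lit 58) (nat_lit 5) (nat_lit 334) (nat_lit 293) (nat_lit 261)) (XT.lf (nat_lit 0) (nat_lit 6942197719) (nat_lit 504) (nat_lit 1581196273) (nat_lit 84) (nat_lit 699831354) (nat_lit 52) (nat_lit 5) (nat_lit 58) (nat_lit 5) (nat_lit 53) (nat_lit 5) (nat_lit 335) (nat_lit 293) (nat_lit 260))))) (XT.nd (nat_lit 282) (nat_lit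 756) (nat_lit 0) (XT.nd (nat_lit 94) (nat_lit 84) (nat_lit 0) (XT.lf (nat_lit 0) (nat_lit 1939187287) (nat_lit 336) (nat_lit 6810910985) (nat_lit 420) (nat_lit 637482499) (nat_lit 48) (nat_lit 5) (nat_lit 52) (nat_lit 5) (nat_lit 53) (nat_lit 5) (nat_lit 336) (nat_lit 293) (nat_lit 259)) (XT.nd (nat_lit 94) (nat_lit 0) (nat_lit 0) (XT.lf (nat_lit 0) (nat_lit 1010954510) (nat_lit 420) (nat_lit 4010767745) (nat_lit 84) (nat_lit 4536034989) (nat_lit 47) (nat_lit 5) (nat_lit 52) (nat_lit 5) (nat_lit 48) (nat_lit 5) (nat_lit 337) (nat_lit 293) (nat_lit 258)) (XT.lf (nat_lit 0) (nat_lit 2657062095) (nat_lit 420) (nat_lit 517534874) (nat_lit 84) (nat_lit 6559930913) (nat_lit 47) (nat_lit 5) (nat_lit 52) (nat_lit 5) (nat_lit 48) (nat_lit 5) (nat_lit 338) (nat_lit 293) (nat_lit 257)))) (XT.nd (nat_lit 94) (nat_lit 336) (nat_lit 0) (XT.lf (nat_lit 0) (nat_lit 3103411926) (nat_lit 420) (nat_lit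 1242592755) (nat_lit 504) (nat_lit 5571294438) (nat_lit 42) (nat_lit 5) (nat_lit 47) (nat_lit 5) (nat_lit 48) (nat_lit 5) (nat_lit 339) (nat_lit 293) (nat_lit 256)) (XT.nd (nat_lit 94) (nat_lit 336) (nat_lit 0) (XT.lf (nat_lit 0) (nat_lit 6061919171) (nat_lit 504) (nat_lit 3309544292) (nat_lit 84) (nat_lit 735318416) (nat_lit 42) (nat_lit 5) (nat_lit 48) (nat_lit 5) (nat_lit 43) (nat_lit 5) (nat_lit 340) (nat_lit 293) (nat_lit 255)) (XT.lf (nat_lit 0) (nat_lit 253081864) (nat_lit 336) (nat_lit 7556039665) (nat_lit 420) (nat_lit 2493947034) (nat_lit 38) (nat_lit 5) (nat_lit 42) (nat_lit 5) (nat_lit 43) (nat_lit 5) (nat_lit 341) (nat_lit 293) (nat_lit 254)))))) (XT.nd (nat_lit 564) (nat_lit 588) (nat_lit 0) (XT.nd (nat_lit 282) (nat_lit 252) (nat_lit 0) (XT.nd (nat_lit 94) (nat_lit 420) (nat_lit 0) (XT.lf (nat_lit 0) (nat_lit 3954001142) (nat_lit 336) (nat_lit 5654602547) (nat_lit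 420) (nat_lit 897138179) (nat_lit 38) (nat_lit 5) (nat_lit 42) (nat_lit 5) (nat_lit 43) (nat_lit 5) (nat_lit 342) (nat_lit 293) (nat_lit 253)) (XT.nd (nat_lit 94) (nat_lit 336) (nat_lit 0) (XT.lf (nat_lit 0) (nat_lit 698151958) (nat_lit 420) (nat_lit 2994485393) (nat_lit 84) (nat_lit 7023172935) (nat_lit 37) (nat_lit 5) (nat_lit 42) (nat_lit 5) (nat_lit 38) (nat_lit 5) (nat_lit 343) (nat_lit 293) (nat_lit 252)) (XT.lf (nat_lit 0) (nat_lit 635940624) (nat_lit 336) (nat_lit 1659782963) (nat_lit 420) (nat_lit 8637489484) (nat_lit 33) (nat_lit 5) (nat_lit 37) (nat_lit 5) (nat_lit 38) (nat_lit 5) (nat_lit 344) (nat_lit 293) (nat_lit 251)))) (XT.nd (nat_lit 94) (nat_lit 252) (nat_lit 0) (XT.lf (nat_lit 0) (nat_lit 3944463365) (nat_lit 420) (nat_lit 6760184394) (nat_lit 84) (nat_lit 452872010) (nat_lit 33) (nat_lit 5) (nat_lit 38) (nat_lit 5) (nat_lit 34) (nat_lit 5) (nat_lit 345) (nat_lit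 293) (nat_lit 250)) (XT.nd (nat_lit 94) (nat_lit 252) (nat_lit 0) (XT.lf (nat_lit 0) (nat_lit 5628061233) (nat_lit 420) (nat_lit 3170716772) (nat_lit 84) (nat_lit 2590714705) (nat_lit 33) (nat_lit 5) (nat_lit 38) (nat_lit 5) (nat_lit 34) (nat_lit 5) (nat_lit 346) (nat_lit 293) (nat_lit 249)) (XT.lf (nat_lit 0) (nat_lit 501036192) (nat_lit 252) (nat_lit 6835555377) (nat_lit 336) (nat_lit 4293112890) (nat_lit 30) (nat_lit 5) (nat_lit 33) (nat_lit 5) (nat_lit 34) (nat_lit 5) (nat_lit 347) (nat_lit 293) (nat_lit 248))))) (XT.nd (nat_lit 282) (nat_lit 504) (nat_lit 0) (XT.nd (nat_lit 94) (nat_lit 84) (nat_lit 0) (XT.lf (nat_lit 0) (nat_lit 4315143790) (nat_lit 252) (nat_lit 4784394216) (nat_lit 336) (nat_lit 2777976286) (nat_lit 30) (nat_lit 5) (nat_lit 33) (nat_lit 5) (nat_lit 34) (nat_lit 5) (nat_lit 348) (nat_lit 293) (nat_lit 247)) (XT.nd (nat_lit 94) (nat_lit 84) (nat_lit 0) (XT.lf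 (nat_lit 0) (nat_lit 8209964731) (nat_lit 252) (nat_lit 2676478406) (nat_lit 336) (nat_lit 1247705181) (nat_lit 30) (nat_lit 5) (nat_lit 33) (nat_lit 5) (nat_lit 34) (nat_lit 5) (nat_lit 349) (nat_lit 293) (nat_lit 246)) (XT.lf (nat_lit 0) (nat_lit 293100059) (nat_lit 336) (nat_lit 213683726) (nat_lit 84) (nat_lit 11892969972) (nat_lit 29) (nat_lit 5) (nat_lit 33) (nat_lit 5) (nat_lit 30) (nat_lit 5) (nat_lit 350) (nat_lit 293) (nat_lit 245)))) (XT.nd (nat_lit 188) (nat_lit 252) (nat_lit 0) (XT.nd (nat_lit 94) (nat_lit 0) (nat_lit 0) (XT.lf (nat_lit 0) (nat_lit 1880075157) (nat_lit 336) (nat_lit 9054494508) (nat_lit 84) (nat_lit 1738047635) (nat_lit 26) (nat_lit 5) (nat_lit 30) (nat_lit 5) (nat_lit 27) (nat_lit 5) (nat_lit 351) (nat_lit 293) (nat_lit 244)) (XT.lf (nat_lit 0) (nat_lit 3494796895) (nat_lit 336) (nat_lit 5422538290) (nat_lit 84) (nat_lit 4037438066) (nat_lit 26) (nat_lit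 5) (nat_lit 30) (nat_lit 5) (nat_lit 27) (nat_lit 5) (nat_lit 352) (nat_lit 293) (nat_lit 243))) (XT.nd (nat_lit 94) (nat_lit 252) (nat_lit 0) (XT.lf (nat_lit 0) (nat_lit 5131557524) (nat_lit 336) (nat_lit 1713594824) (nat_lit 84) (nat_lit 6401555863) (nat_lit 26) (nat_lit 5) (nat_lit 30) (nat_lit 5) (nat_lit 27) (nat_lit 5) (nat_lit 353) (nat_lit 293) (nat_lit 242)) (XT.lf (nat_lit 0) (nat_lit 2118475576) (nat_lit 252) (nat_lit 4694422638) (nat_lit 336) (nat_lit 6735144593) (nat_lit 23) (nat_lit 5) (nat_lit 26) (nat_lit 5) (nat_lit 27) (nat_lit 5) (nat_lit 354) (nat_lit 293) (nat_lit 241))))))) (XT.nd (nat_lit 1222) (nat_lit 420) (nat_lit 0) (XT.nd (nat_lit 564) (nat_lit 336) (nat_lit 0) (XT.nd (nat_lit 282) (nat_lit 336) (nat_lit 0) (XT.nd (nat_lit 94) (nat_lit 0) (nat_lit 0) (XT.lf (nat_lit 0) (nat_lit 6071484210) (nat_lit 252) (nat_lit 2466065610) (nat_lit 336) (nat_lit 5321596024)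 (nat_lit 23) (nat_lit 5) (nat_lit 26) (nat_lit 5) (nat_lit 27) (nat_lit 5) (nat_lit 355) (nat_lit 293) (nat_lit 240)) (XT.nd (nat_lit 94) (nat_lit 0) (nat_lit 0) (XT.lf (nat_lit 0) (nat_lit 10113880669) (nat_lit 252) (nat_lit 175890619) (nat_lit 336) (nat_lit 3891073821) (nat_lit 23) (nat_lit 5) (nat_lit 26) (nat_lit 5) (nat_lit 27) (nat_lit 5) (nat_lit 356) (nat_lit 293) (nat_lit 239)) (XT.lf (nat_lit 0) (nat_lit 12092804253) (nat_lit 336) (nat_lit 285615949) (nat_lit 84) (nat_lit 2134350397) (nat_lit 23) (nat_lit 5) (nat_lit 27) (nat_lit 5) (nat_lit 24) (nat_lit 5) (nat_lit 357) (nat_lit 293) (nat_lit 238)))) (XT.nd (nat_lit 94) (nat_lit 84) (nat_lit 0) (XT.lf (nat_lit 0) (nat_lit 3652730307) (nat_lit 252) (nat_lit 10312607081) (nat_lit 336) (nat_lit 889367066) (nat_lit 20) (nat_lit 5) (nat_lit 23) (nat_lit 5) (nat_lit 24) (nat_lit 5) (nat_lit 358) (nat_lit 293) (nat_lit 237))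 (XT.nd (nat_lit 94) (nat_lit 0) (nat_lit 0) (XT.lf (nat_lit 0) (nat_lit 653429849) (nat_lit 336) (nat_lit 7527116821) (nat_lit 84) (nat_lit 7027274590) (nat_lit 19) (nat_lit 5) (nat_lit 23) (nat_lit 5) (nat_lit 20) (nat_lit 5) (nat_lit 359) (nat_lit 293) (nat_lit 236)) (XT.lf (nat_lit 0) (nat_lit 2201925205) (nat_lit 336) (nat_lit 3778791885) (nat_lit 84) (nat_lit 9591747065) (nat_lit 19) (nat_lit 5) (nat_lit 23) (nat_lit 5) (nat_lit 20) (nat_lit 5) (nat_lit 360) (nat_lit 293) (nat_lit 235))))) (XT.nd (nat_lit 282) (nat_lit 168) (nat_lit 0) (XT.nd (nat_lit 94) (nat_lit 0) (nat_lit 0) (XT.lf (nat_lit 0) (nat_lit 56454557) (nat_lit 168) (nat_lit 3719586602) (nat_lit 252) (nat_lit 12173188002) (nat_lit 17) (nat_lit 5) (nat_lit 19) (nat_lit 5) (nat_lit 20) (nat_lit 5) (nat_lit 361) (nat_lit 293) (nat_lit 234)) (XT.nd (nat_lit 94) (nat_lit 0) (nat_lit 0) (XT.lf (nat_lit 0) (nat_lit 4060595956)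 (nat_lit 168) (nat_lit 1355249984) (nat_lit 252) (nat_lit 10921424896) (nat_lit 17) (nat_lit 5) (nat_lit 19) (nat_lit 5) (nat_lit 20) (nat_lit 5) (nat_lit 362) (nat_lit 293) (nat_lit 233)) (XT.lf (nat_lit 0) (nat_lit 7095275807) (nat_lit 252) (nat_lit 8589136623) (nat_lit 84) (nat_lit 1053393801) (nat_lit 17) (nat_lit 5) (nat_lit 20) (nat_lit 5) (nat_lit 18) (nat_lit 5) (nat_lit 363) (nat_lit 293) (nat_lit 232)))) (XT.nd (nat_lit 188) (nat_lit 168) (nat_lit 0) (XT.nd (nat_lit 94) (nat_lit 0) (nat_lit 0) (XT.lf (nat_lit 0) (nat_lit 8819342679) (nat_lit 252) (nat_lit 4830169177) (nat_lit 84) (nat_lit 3501589990) (nat_lit 17) (nat_lit 5) (nat_lit 20) (nat_lit 5) (nat_lit 18) (nat_lit 5) (nat_lit 364) (nat_lit 293) (nat_lit 231)) (XT.lf (nat_lit 0) (nat_lit 10576209321) (nat_lit 252) (nat_lit 982824543) (nat_lit 84) (nat_lit 6018925825) (nat_lit 17) (nat_lit 5) (nat_lit 20) (nat_lit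 5) (nat_lit 18) (nat_lit 5) (nat_lit 365) (nat_lit 293) (nat_lit 230))) (XT.nd (nat_lit 94) (nat_lit 0) (nat_lit 0) (XT.lf (nat_lit 0) (nat_lit 3017274770) (nat_lit 168) (nat_lit 9380170284) (nat_lit 252) (nat_lit 5620404695) (nat_lit 15) (nat_lit 5) (nat_lit 17) (nat_lit 5) (nat_lit 18) (nat_lit 5) (nat_lit 366) (nat_lit 293) (nat_lit 229)) (XT.lf (nat_lit 0) (nat_lit 7135184591) (nat_lit 168) (nat_lit 7130521669) (nat_lit 252) (nat_lit 4206066070) (nat_lit 15) (nat_lit 5) (nat_lit 17) (nat_lit 5) (nat_lit 18) (nat_lit 5) (nat_lit 367) (nat_lit 293) (nat_lit 228)))))) (XT.nd (nat_lit 564) (nat_lit 168) (nat_lit 0) (XT.nd (nat_lit 282) (nat_lit 0) (nat_lit 0) (XT.nd (nat_lit 94) (nat_lit 252) (nat_lit 0) (XT.lf (nat_lit 0) (nat_lit 11354534356) (nat_lit 168) (nat_lit 4818249782) (nat_lit 252) (nat_lit 2767674853) (nat_lit 15) (nat_lit 5) (nat_lit 17) (nat_lit 5) (nat_lit 18) (nat_lit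 5) (nat_lit 368) (nat_lit 293) (nat_lit 227)) (XT.nd (nat_lit 94) (nat_lit 252) (nat_lit 0) (XT.lf (nat_lit 0) (nat_lit 15679256938) (nat_lit 168) (nat_lit 2441199343) (nat_lit 252) (nat_lit 1303890314) (nat_lit 15) (nat_lit 5) (nat_lit 17) (nat_lit 5) (nat_lit 18) (nat_lit 5) (nat_lit 369) (nat_lit 293) (nat_lit 226)) (XT.lf (nat_lit 0) (nat_lit 184857663) (nat_lit 252) (nat_lit 19732332461) (nat_lit 84) (nat_lit 6577700) (nat_lit 12) (nat_lit 5) (nat_lit 15) (nat_lit 5) (nat_lit 13) (nat_lit 5) (nat_lit 370) (nat_lit 293) (nat_lit 225)))) (XT.nd (nat_lit 94) (nat_lit 0) (nat_lit 0) (XT.lf (nat_lit 0) (nat_lit 1739119140) (nat_lit 252) (nat_lit 16172227101) (nat_lit 84) (nat_lit 2525560456) (nat_lit 12) (nat_lit 5) (nat_lit 15) (nat_lit 5) (nat_lit 13) (nat_lit 5) (nat_lit 371) (nat_lit 293) (nat_lit 224)) (XT.nd (nat_lit 94) (nat_lit 0) (nat_lit 0) (XT.lf (nat_lit 0) (nat_lit 3324092876)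 (nat_lit 252) (nat_lit 12526444353) (nat_lit 84) (nat_lit 5116043395) (nat_lit 12) (nat_lit 5) (nat_lit 15) (nat_lit 5) (nat_lit 13) (nat_lit 5) (nat_lit 372) (nat_lit 293) (nat_lit 223)) (XT.lf (nat_lit 0) (nat_lit 4941256233) (nat_lit 252) (nat_lit 8791585966) (nat_lit 84) (nat_lit 7780441119) (nat_lit 12) (nat_lit 5) (nat_lit 15) (nat_lit 5) (nat_lit 13) (nat_lit 5) (nat_lit 373) (nat_lit 293) (nat_lit 222))))) (XT.nd (nat_lit 282) (nat_lit 0) (nat_lit 0) (XT.nd (nat_lit 94) (nat_lit 168) (nat_lit 0) (XT.lf (nat_lit 0) (nat_lit 6592116577) (nat_lit 252) (nat_lit 4964170660) (nat_lit 84) (nat_lit 10521237126) (nat_lit 12) (nat_lit 5) (nat_lit 15) (nat_lit 5) (nat_lit 13) (nat_lit 5) (nat_lit 374) (nat_lit 293) (nat_lit 221)) (XT.nd (nat_lit 94) (nat_lit 168) (nat_lit 0) (XT.lf (nat_lit 0) (nat_lit 8278212683) (nat_lit 252) (nat_lit 1040630884) (nat_lit 84) (nat_lit 13340986124)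 (nat_lit 12) (nat_lit 5) (nat_lit 15) (nat_lit 5) (nat_lit 13) (nat_lit 5) (nat_lit 375) (nat_lit 293) (nat_lit 220)) (XT.lf (nat_lit 0) (nat_lit 3044020746) (nat_lit 168) (nat_lit 6987292484) (nat_lit 252) (nat_lit 13228492731) (nat_lit 10) (nat_lit 5) (nat_lit 12) (nat_lit 5) (nat_lit 13) (nat_lit 5) (nat_lit 376) (nat_lit 293) (nat_lit 219)))) (XT.nd (nat_lit 188) (nat_lit 0) (nat_lit 0) (XT.nd (nat_lit 94) (nat_lit 0) (nat_lit 0) (XT.lf (nat_lit 0) (nat_lit 7255730485) (nat_lit 168) (nat_lit 4578680219) (nat_lit 252) (nat_lit 12044179601) (nat_lit 10) (nat_lit 5) (nat_lit 12) (nat_lit 5) (nat_lit 13) (nat_lit 5) (nat_lit 377) (nat_lit 293) (nat_lit 218)) (XT.lf (nat_lit 0) (nat_lit 11577026583) (nat_lit 168) (nat_lit 2101623743) (nat_lit 252) (nat_lit 10838435767) (nat_lit 10) (nat_lit 5) (nat_lit 12) (nat_lit 5) (nat_lit 13) (nat_lit 5) (nat_lit 378) (nat_lit 293) (nat_lit 217)))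 (XT.nd (nat_lit 94) (nat_lit 0) (nat_lit 0) (XT.lf (nat_lit 0) (nat_lit 15570177340) (nat_lit 252) (nat_lit 9168377750) (nat_lit 84) (nat_lit 437196167) (nat_lit 10) (nat_lit 5) (nat_lit 13) (nat_lit 5) (nat_lit 11) (nat_lit 4) (nat_lit 379) (nat_lit 293) (nat_lit 216)) (XT.lf (nat_lit 0) (nat_lit 17527898307) (nat_lit 252) (nat_lit 5321442397) (nat_lit 84) (nat_lit 3005327590) (nat_lit 10) (nat_lit 5) (nat_lit 13) (nat_lit 5) (nat_lit 11) (nat_lit 4) (nat_lit 380) (nat_lit 293) (nat_lit 215))))))))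
noncomputable def xc79 : XT := (XT.nd (nat_lit 2444) (nat_lit 168) (nat_lit 0) (XT.nd (nat_lit 1222) (nat_lit 84) (nat_lit 0) (XT.nd (nat_lit 564) (nat_lit 168) (nat_lit 0) (XT.nd (nat_lit 282) (nat_lit 84) (nat_lit 0) (XT.nd (nat_lit 94) (nat_lit 84) (nat_lit 0) (XT.lf (nat_lit 0) (nat_lit 19532789662) (nat_lit 252) (nat_lit 1374819338) (nat_lit 84) (nat_lit 5647507328) (nat_lit 10) (nat_lit 5) (nat_lit 13) (nat_lit 5) (nat_lit 11) (nat_lit 4) (nat_lit 381) (nat_lit 293) (nat_lit 214)) (XT.nd (nat_lit 94) (nat_lit 0) (nat_lit 0) (XT.lf (nat_lit 0) (nat_lit 2730177077) (nat_lit 84) (nat_lit 18883626790) (nat_lit 168) (nat_lit 5663104785) (nat_lit 9) (nat_lit 5) (nat_lit 10) (nat_lit 5) (nat_lit 11) (nat_lit 4) (nat_lit 382) (nat_lit 293) (nat_lit 213)) (XT.lf (nat_lit 0) (nat_lit 6972787032) (nat_lit 84) (nat_lit 16787988197) (nat_lit 168) (nat_lit 4260318093) (nat_lit 9) (nat_lit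 5) (nat_lit 10) (nat_lit 5) (nat_lit 11) (nat_lit 4) (nat_lit 383) (nat_lit 293) (nat_lit 212)))) (XT.nd (nat_lit 94) (nat_lit 84) (nat_lit 0) (XT.lf (nat_lit 0) (nat_lit 11328695977) (nat_lit 84) (nat_lit 14633090161) (nat_lit 168) (nat_lit 2827009341) (nat_lit 9) (nat_lit 5) (nat_lit 10) (nat_lit 5) (nat_lit 11) (nat_lit 4) (nat_lit 384) (nat_lit 293) (nat_lit 211)) (XT.nd (nat_lit 94) (nat_lit 84) (nat_lit 0) (XT.lf (nat_lit 0) (nat_lit 15801964076) (nat_lit 84) (nat_lit 12416924090) (nat_lit 168) (nat_lit 1361842535) (nat_lit 9) (nat_lit 5) (nat_lit 10) (nat_lit 5) (nat_lit 11) (nat_lit 4) (nat_lit 385) (nat_lit 293) (nat_lit 210)) (XT.lf (nat_lit 0) (nat_lit 133796875) (nat_lit 168) (nat_lit 10002230845) (nat_lit 84) (nat_lit 20261567444) (nat_lit 8) (nat_lit 5) (nat_lit 10) (nat_lit 5) (nat_lit 9) (nat_lit 5) (nat_lit 386) (nat_lit 293) (nat_lit 209))))) (XT.nd (nat_lit 282)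 (nat_lit 0) (nat_lit 0) (XT.nd (nat_lit 94) (nat_lit 168) (nat_lit 0) (XT.lf (nat_lit 0) (nat_lit 1635921070) (nat_lit 168) (nat_lit 6139469284) (nat_lit 84) (nat_lit 23464372501) (nat_lit 8) (nat_lit 5) (nat_lit 10) (nat_lit 5) (nat_lit 9) (nat_lit 5) (nat_lit 387) (nat_lit 293) (nat_lit 208)) (XT.nd (nat_lit 94) (nat_lit 168) (nat_lit 0) (XT.lf (nat_lit 0) (nat_lit 3173368279) (nat_lit 168) (nat_lit 2173371798) (nat_lit 84) (nat_lit 26761697486) (nat_lit 8) (nat_lit 5) (nat_lit 10) (nat_lit 5) (nat_lit 9) (nat_lit 5) (nat_lit 388) (nat_lit 293) (nat_lit 207)) (XT.lf (nat_lit 0) (nat_lit 1938821361) (nat_lit 168) (nat_lit 2827983549) (nat_lit 252) (nat_lit 28237027839) (nat_lit 6) (nat_lit 5) (nat_lit 8) (nat_lit 5) (nat_lit 9) (nat_lit 5) (nat_lit 389) (nat_lit 293) (nat_lit 206)))) (XT.nd (nat_lit 188) (nat_lit 0) (nat_lit 0) (XT.nd (nat_lit 94) (nat_lit 0) (nat_lit 0) (XT.lf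 (nat_lit 0) (nat_lit 6208811710) (nat_lit 168) (nat_lit 212778715) (nat_lit 252) (nat_lit 27505072491) (nat_lit 6) (nat_lit 5) (nat_lit 8) (nat_lit 5) (nat_lit 9) (nat_lit 5) (nat_lit 390) (nat_lit 293) (nat_lit 205)) (XT.lf (nat_lit 0) (nat_lit 8141852100) (nat_lit 252) (nat_lit 24307168283) (nat_lit 84) (nat_lit 2428687724) (nat_lit 6) (nat_lit 5) (nat_lit 9) (nat_lit 5) (nat_lit 7) (nat_lit 4) (nat_lit 391) (nat_lit 293) (nat_lit 204))) (XT.nd (nat_lit 94) (nat_lit 0) (nat_lit 0) (XT.lf (nat_lit 0) (nat_lit 9907473793) (nat_lit 252) (nat_lit 20808063898) (nat_lit 84) (nat_lit 5142990412) (nat_lit 6) (nat_lit 5) (nat_lit 9) (nat_lit 5) (nat_lit 7) (nat_lit 4) (nat_lit 392) (nat_lit 293) (nat_lit 203)) (XT.lf (nat_lit 0) (nat_lit 11717990458) (nat_lit 252) (nat_lit 17215165729) (nat_lit 84) (nat_lit 7936946379) (nat_lit 6) (nat_lit 5) (nat_lit 9) (nat_lit 5) (nat_lit 7) (nat_lit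 4) (nat_lit 393) (nat_lit 293) (nat_lit 202)))))) (XT.nd (nat_lit 564) (nat_lit 0) (nat_lit 0) (XT.nd (nat_lit 282) (nat_lit 84) (nat_lit 0) (XT.nd (nat_lit 94) (nat_lit 0) (nat_lit 0) (XT.lf (nat_lit 0) (nat_lit 13575089686) (nat_lit 252) (nat_lit 13525124819) (nat_lit 84) (nat_lit 10813159886) (nat_lit 6) (nat_lit 5) (nat_lit 9) (nat_lit 5) (nat_lit 7) (nat_lit 4) (nat_lit 394) (nat_lit 293) (nat_lit 201)) (XT.nd (nat_lit 94) (nat_lit 0) (nat_lit 0) (XT.lf (nat_lit 0) (nat_lit 15480502488) (nat_lit 252) (nat_lit 9734501662) (nat_lit 84) (nat_lit 13774311865) (nat_lit 6) (nat_lit 5) (nat_lit 9) (nat_lit 5) (nat_lit 7) (nat_lit 4) (nat_lit 395) (nat_lit 293) (nat_lit 200)) (XT.lf (nat_lit 0) (nat_lit 17436004909) (nat_lit 252) (nat_lit 5839763000) (nat_lit 84) (nat_lit 16823162419) (nat_lit 6) (nat_lit 5) (nat_lit 9) (nat_lit 5) (nat_lit 7) (nat_lit 4) (nat_lit 396) (nat_lit 293)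 (nat_lit 199)))) (XT.nd (nat_lit 94) (nat_lit 84) (nat_lit 0) (XT.lf (nat_lit 0) (nat_lit 19443419681) (nat_lit 252) (nat_lit 1837278530) (nat_lit 84) (nat_lit 19962553397) (nat_lit 6) (nat_lit 5) (nat_lit 9) (nat_lit 5) (nat_lit 7) (nat_lit 4) (nat_lit 397) (nat_lit 293) (nat_lit 198)) (XT.nd (nat_lit 94) (nat_lit 0) (nat_lit 0) (XT.lf (nat_lit 0) (nat_lit 2323495743) (nat_lit 84) (nat_lit 19204171547) (nat_lit 168) (nat_lit 20894964661) (nat_lit 5) (nat_lit 5) (nat_lit 6) (nat_lit 5) (nat_lit 7) (nat_lit 4) (nat_lit 398) (nat_lit 293) (nat_lit 197)) (XT.lf (nat_lit 0) (nat_lit 6639730453) (nat_lit 84) (nat_lit 17047657389) (nat_lit 168) (nat_lit 19950885203) (nat_lit 5) (nat_lit 5) (nat_lit 6) (nat_lit 5) (nat_lit 7) (nat_lit 4) (nat_lit 399) (nat_lit 293) (nat_lit 196))))) (XT.nd (nat_lit 282) (nat_lit 0) (nat_lit 0) (XT.nd (nat_lit 94) (nat_lit 0) (nat_lit 0) (XT.lf (nat_lit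 0) (nat_lit 11077670566) (nat_lit 84) (nat_lit 14828323060) (nat_lit 168) (nat_lit 18985890993) (nat_lit 5) (nat_lit 5) (nat_lit 6) (nat_lit 5) (nat_lit 7) (nat_lit 4) (nat_lit 400) (nat_lit 293) (nat_lit 195)) (XT.nd (nat_lit 94) (nat_lit 0) (nat_lit 0) (XT.lf (nat_lit 0) (nat_lit 15641452708) (nat_lit 84) (nat_lit 12544099909) (nat_lit 168) (nat_lit 17999082554) (nat_lit 5) (nat_lit 5) (nat_lit 6) (nat_lit 5) (nat_lit 7) (nat_lit 4) (nat_lit 401) (nat_lit 293) (nat_lit 194)) (XT.lf (nat_lit 0) (nat_lit 20335330802) (nat_lit 84) (nat_lit 10192858800) (nat_lit 168) (nat_lit 16989540079) (nat_lit 5) (nat_lit 5) (nat_lit 6) (nat_lit 5) (nat_lit 7) (nat_lit 4) (nat_lit 402) (nat_lit 293) (nat_lit 193)))) (XT.nd (nat_lit 188) (nat_lit 0) (nat_lit 0) (XT.nd (nat_lit 94) (nat_lit 0) (nat_lit 0) (XT.lf (nat_lit 0) (nat_lit 25163680033) (nat_lit 84) (nat_lit 7772408130) (nat_lit 168) (nat_lit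 15956322567) (nat_lit 5) (nat_lit 5) (nat_lit 6) (nat_lit 5) (nat_lit 7) (nat_lit 4) (nat_lit 403) (nat_lit 293) (nat_lit 192)) (XT.lf (nat_lit 0) (nat_lit 30131000929) (nat_lit 84) (nat_lit 5280491786) (nat_lit 168) (nat_lit 14898466951) (nat_lit 5) (nat_lit 5) (nat_lit 6) (nat_lit 5) (nat_lit 7) (nat_lit 4) (nat_lit 404) (nat_lit 293) (nat_lit 191))) (XT.nd (nat_lit 94) (nat_lit 0) (nat_lit 0) (XT.lf (nat_lit 0) (nat_lit 35241923553) (nat_lit 84) (nat_lit 2714787040) (nat_lit 168) (nat_lit 13814987201) (nat_lit 5) (nat_lit 5) (nat_lit 6) (nat_lit 5) (nat_lit 7) (nat_lit 4) (nat_lit 405) (nat_lit 293) (nat_lit 190)) (XT.lf (nat_lit 0) (nat_lit 40501211821) (nat_lit 84) (nat_lit 72902388) (nat_lit 168) (nat_lit 12704873398) (nat_lit 5) (nat_lit 5) (nat_lit 6) (nat_lit 5) (nat_lit 7) (nat_lit 4) (nat_lit 406) (nat_lit 293) (nat_lit 189))))))) (XT.nd (nat_lit 1222) (nat_lit 0) (nat_lit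 0) (XT.nd (nat_lit 564) (nat_lit 84) (nat_lit 0) (XT.nd (nat_lit 282) (nat_lit 84) (nat_lit 0) (XT.nd (nat_lit 94) (nat_lit 0) (nat_lit 0) (XT.lf (nat_lit 0) (nat_lit 43292408020) (nat_lit 168) (nat_lit 8945730880) (nat_lit 0) (nat_lit 2594280947) (nat_lit 5) (nat_lit 5) (nat_lit 7) (nat_lit 4) (nat_lit 5) (nat_lit 4) (nat_lit 407) (nat_lit 293) (nat_lit 188)) (XT.nd (nat_lit 94) (nat_lit 0) (nat_lit 0) (XT.lf (nat_lit 0) (nat_lit 46089365013) (nat_lit 168) (nat_lit 5005306910) (nat_lit 0) (nat_lit 5339538138) (nat_lit 5) (nat_lit 5) (nat_lit 7) (nat_lit 4) (nat_lit 5) (nat_lit 4) (nat_lit 408) (nat_lit 293) (nat_lit 187)) (XT.lf (nat_lit 0) (nat_lit 48966869046) (nat_lit 168) (nat_lit 952107786) (nat_lit 0) (nat_lit 8166896873) (nat_lit 5) (nat_lit 5) (nat_lit 7) (nat_lit 4) (nat_lit 5) (nat_lit 4) (nat_lit 409) (nat_lit 293) (nat_lit 186)))) (XT.nd (nat_lit 94) (nat_lit 0) (nat_lit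 0) (XT.lf (nat_lit 0) (nat_lit 3283805867) (nat_lit 84) (nat_lit 48676372146) (nat_lit 84) (nat_lit 7827762439) (nat_lit 4) (nat_lit 4) (nat_lit 5) (nat_lit 5) (nat_lit 5) (nat_lit 4) (nat_lit 410) (nat_lit 293) (nat_lit 185)) (XT.nd (nat_lit 94) (nat_lit 0) (nat_lit 0) (XT.lf (nat_lit 0) (nat_lit 7662213104) (nat_lit 84) (nat_lit 47388121345) (nat_lit 84) (nat_lit 6492336531) (nat_lit 4) (nat_lit 4) (nat_lit 5) (nat_lit 5) (nat_lit 5) (nat_lit 4) (nat_lit 411) (nat_lit 293) (nat_lit 184)) (XT.lf (nat_lit 0) (nat_lit 12167617770) (nat_lit 84) (nat_lit 46062961697) (nat_lit 84) (nat_lit 5121420233) (nat_lit 4) (nat_lit 4) (nat_lit 5) (nat_lit 5) (nat_lit 5) (nat_lit 4) (nat_lit 412) (nat_lit 293) (nat_lit 183))))) (XT.nd (nat_lit 282) (nat_lit 84) (nat_lit 0) (XT.nd (nat_lit 94) (nat_lit 0) (nat_lit 0) (XT.lf (nat_lit 0) (nat_lit 16804219375) (nat_lit 84) (nat_lit 44699658014) (nat_lit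 84) (nat_lit 3713735707) (nat_lit 4) (nat_lit 4) (nat_lit 5) (nat_lit 5) (nat_lit 5) (nat_lit 4) (nat_lit 413) (nat_lit 293) (nat_lit 182)) (XT.nd (nat_lit 94) (nat_lit 0) (nat_lit 0) (XT.lf (nat_lit 0) (nat_lit 21576339716) (nat_lit 84) (nat_lit 43296939555) (nat_lit 84) (nat_lit 2267970842) (nat_lit 4) (nat_lit 4) (nat_lit 5) (nat_lit 5) (nat_lit 5) (nat_lit 4) (nat_lit 414) (nat_lit 293) (nat_lit 181)) (XT.lf (nat_lit 0) (nat_lit 26488426909) (nat_lit 84) (nat_lit 41853498839) (nat_lit 84) (nat_lit 782778036) (nat_lit 4) (nat_lit 4) (nat_lit 5) (nat_lit 5) (nat_lit 5) (nat_lit 4) (nat_lit 415) (nat_lit 293) (nat_lit 180)))) (XT.nd (nat_lit 188) (nat_lit 0) (nat_lit 0) (XT.nd (nat_lit 94) (nat_lit 0) (nat_lit 0) (XT.lf (nat_lit 0) (nat_lit 728252698) (nat_lit 168) (nat_lit 39632136264) (nat_lit 84) (nat_lit 30809205372) (nat_lit 3) (nat_lit 5) (nat_lit 5) (nat_lit 5) (nat_lit 4)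 (nat_lit 4) (nat_lit 416) (nat_lit 293) (nat_lit 179)) (XT.lf (nat_lit 0) (nat_lit 2264895959) (nat_lit 168) (nat_lit 36550492843) (nat_lit 84) (nat_lit 34462414076) (nat_lit 3) (nat_lit 5) (nat_lit 5) (nat_lit 5) (nat_lit 4) (nat_lit 4) (nat_lit 417) (nat_lit 293) (nat_lit 178))) (XT.nd (nat_lit 94) (nat_lit 0) (nat_lit 0) (XT.lf (nat_lit 0) (nat_lit 3844355292) (nat_lit 168) (nat_lit 33380708943) (nat_lit 84) (nat_lit 38226470977) (nat_lit 3) (nat_lit 5) (nat_lit 5) (nat_lit 5) (nat_lit 4) (nat_lit 4) (nat_lit 418) (nat_lit 293) (nat_lit 177)) (XT.lf (nat_lit 0) (nat_lit 5468102918) (nat_lit 168) (nat_lit 30119829992) (nat_lit 84) (nat_lit 42104884569) (nat_lit 3) (nat_lit 5) (nat_lit 5) (nat_lit 5) (nat_lit 4) (nat_lit 4) (nat_lit 419) (nat_lit 293) (nat_lit 176)))))) (XT.nd (nat_lit 564) (nat_lit 0) (nat_lit 0) (XT.nd (nat_lit 282) (nat_lit 0) (nat_lit 0) (XT.nd (nat_lit 94)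 (nat_lit 0) (nat_lit 0) (XT.lf (nat_lit 0) (nat_lit 7137652340) (nat_lit 168) (nat_lit 26764816510) (nat_lit 84) (nat_lit 46101269941) (nat_lit 3) (nat_lit 5) (nat_lit 5) (nat_lit 5) (nat_lit 4) (nat_lit 4) (nat_lit 420) (nat_lit 293) (nat_lit 175)) (XT.nd (nat_lit 94) (nat_lit 0) (nat_lit 0) (XT.lf (nat_lit 0) (nat_lit 8854559753) (nat_lit 168) (nat_lit 23312541273) (nat_lit 84) (nat_lit 50219352141) (nat_lit 3) (nat_lit 5) (nat_lit 5) (nat_lit 5) (nat_lit 4) (nat_lit 4) (nat_lit 421) (nat_lit 293) (nat_lit 174)) (XT.lf (nat_lit 0) (nat_lit 10620425495) (nat_lit 168) (nat_lit 19759786399) (nat_lit 84) (nat_lit 54462969655) (nat_lit 3) (nat_lit 5) (nat_lit 5) (nat_lit 5) (nat_lit 4) (nat_lit 4) (nat_lit 422) (nat_lit 293) (nat_lit 173)))) (XT.nd (nat_lit 94) (nat_lit 0) (nat_lit 0) (XT.lf (nat_lit 0) (nat_lit 12436895537) (nat_lit 168) (nat_lit 16103240349) (nat_lit 84) (nat_lit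 58836077978) (nat_lit 3) (nat_lit 5) (nat_lit 5) (nat_lit 5) (nat_lit 4) (nat_lit 4) (nat_lit 423) (nat_lit 293) (nat_lit 172)) (XT.nd (nat_lit 94) (nat_lit 0) (nat_lit 0) (XT.lf (nat_lit 0) (nat_lit 14305663020) (nat_lit 168) (nat_lit 12339494837) (nat_lit 84) (nat_lit 63342753305) (nat_lit 3) (nat_lit 5) (nat_lit 5) (nat_lit 5) (nat_lit 4) (nat_lit 4) (nat_lit 424) (nat_lit 293) (nat_lit 171)) (XT.lf (nat_lit 0) (nat_lit 16228469831) (nat_lit 168) (nat_lit 8465041659) (nat_lit 84) (nat_lit 67987196330) (nat_lit 3) (nat_lit 5) (nat_lit 5) (nat_lit 5) (nat_lit 4) (nat_lit 4) (nat_lit 425) (nat_lit 293) (nat_lit 170))))) (XT.nd (nat_lit 43992) (nat_lit 0) (nat_lit 11760) (XT.nd (nat_lit 94) (nat_lit 0) (nat_lit 0) (XT.lf (nat_lit 0) (nat_lit 18207108226) (nat_lit 168) (nat_lit 4476269420) (nat_lit 84) (nat_lit 72773736159) (nat_lit 3) (nat_lit 5) (nat_lit 5) (nat_lit 5) (nat_lit 4)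 (nat_lit 4) (nat_lit 426) (nat_lit 293) (nat_lit 169)) (XT.nd (nat_lit 43804) (nat_lit 0) (nat_lit 12348) (XT.lf (nat_lit 0) (nat_lit 20243422506) (nat_lit 168) (nat_lit 369460164) (nat_lit 84) (nat_lit 77706834351) (nat_lit 3) (nat_lit 5) (nat_lit 5) (nat_lit 5) (nat_lit 4) (nat_lit 4) (nat_lit 427) (nat_lit 293) (nat_lit 168)) (XT.lf (nat_lit 0) (nat_lit 1525953788) (nat_lit 84) (nat_lit 852799324) (nat_lit 84) (nat_lit 852799324) (nat_lit 150) (nat_lit 4) (nat_lit 151) (nat_lit 5) (nat_lit 151) (nat_lit 4) (nat_lit 300) (nat_lit 294) (nat_lit 294)))) (XT.nd (nat_lit 188) (nat_lit 336) (nat_lit 0) (XT.nd (nat_lit 94) (nat_lit 168) (nat_lit 0) (XT.lf (nat_lit 0) (nat_lit 563031609) (nat_lit 168) (nat_lit 935161571) (nat_lit 84) (nat_lit 4977677137) (nat_lit 149) (nat_lit 5) (nat_lit 151) (nat_lit 5) (nat_lit 150) (nat_lit 4) (nat_lit 301) (nat_lit 294) (nat_lit 293)) (XT.lf (nat_lit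 0) (nat_lit 1581328614) (nat_lit 168) (nat_lit 1213444729) (nat_lit 252) (nat_lit 3696996280) (nat_lit 147) (nat_lit 5) (nat_lit 149) (nat_lit 5) (nat_lit 150) (nat_lit 4) (nat_lit 302) (nat_lit 294) (nat_lit 292))) (XT.nd (nat_lit 94) (nat_lit 336) (nat_lit 0) (XT.lf (nat_lit 0) (nat_lit 4145449776) (nat_lit 168) (nat_lit 874668830) (nat_lit 252) (nat_lit 1491408033) (nat_lit 147) (nat_lit 5) (nat_lit 149) (nat_lit 5) (nat_lit 150) (nat_lit 4) (nat_lit 303) (nat_lit 294) (nat_lit 291)) (XT.lf (nat_lit 0) (nat_lit 202074579) (nat_lit 252) (nat_lit 482123432) (nat_lit 336) (nat_lit 5850979022) (nat_lit 143) (nat_lit 5) (nat_lit 146) (nat_lit 5) (nat_lit 147) (nat_lit 5) (nat_lit 304) (nat_lit 294) (nat_lit 290))))))))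
noncomputable def xc80 : XT := (XT.nd (nat_lit 2350) (nat_lit 3360) (nat_lit 0) (XT.nd (nat_lit 1128) (nat_lit 4620) (nat_lit 0) (XT.nd (nat_lit 564) (nat_lit 1260) (nat_lit 0) (XT.nd (nat_lit 282) (nat_lit 420) (nat_lit 0) (XT.nd (nat_lit 94) (nat_lit 420) (nat_lit 0) (XT.lf (nat_lit 0) (nat_lit 2833555089) (nat_lit 252) (nat_lit 4700776) (nat_lit 336) (nat_lit 3723562642) (nat_lit 143) (nat_lit 5) (nat_lit 146) (nat_lit 5) (nat_lit 147) (nat_lit 5) (nat_lit 305) (nat_lit 294) (nat_lit 289)) (XT.nd (nat_lit 94) (nat_lit 420) (nat_lit 0) (XT.lf (nat_lit 0) (nat_lit 4984158351) (nat_lit 336) (nat_lit 1100548308) (nat_lit 84) (nat_lit 507806446) (nat_lit 143) (nat_lit 5) (nat_lit 147) (nat_lit 5) (nat_lit 144) (nat_lit 4) (nat_lit 306) (nat_lit 294) (nat_lit 288)) (XT.lf (nat_lit 0) (nat_lit 497846082) (nat_lit 420) (nat_lit 5042832056) (nat_lit 84) (nat_lit 1086110277) (nat_lit 138)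 (nat_lit 5) (nat_lit 143) (nat_lit 5) (nat_lit 139) (nat_lit 5) (nat_lit 307) (nat_lit 294) (nat_lit 287)))) (XT.nd (nat_lit 94) (nat_lit 420) (nat_lit 0) (XT.lf (nat_lit 0) (nat_lit 2570380617) (nat_lit 420) (nat_lit 2356659392) (nat_lit 84) (nat_lit 1737433559) (nat_lit 138) (nat_lit 5) (nat_lit 143) (nat_lit 5) (nat_lit 139) (nat_lit 5) (nat_lit 308) (nat_lit 294) (nat_lit 286)) (XT.nd (nat_lit 94) (nat_lit 0) (nat_lit 0) (XT.lf (nat_lit 0) (nat_lit 368478492) (nat_lit 420) (nat_lit 4267506273) (nat_lit 504) (nat_lit 2070349154) (nat_lit 133) (nat_lit 5) (nat_lit 138) (nat_lit 5) (nat_lit 139) (nat_lit 5) (nat_lit 309) (nat_lit 294) (nat_lit 285)) (XT.lf (nat_lit 0) (nat_lit 3176849163) (nat_lit 420) (nat_lit 3540279997) (nat_lit 504) (nat_lit 34642423) (nat_lit 133) (nat_lit 5) (nat_lit 138) (nat_lit 5) (nat_lit 139) (nat_lit 5) (nat_lit 310) (nat_lit 294) (nat_lit 284))))) (XT.nd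 (nat_lit 282) (nat_lit 672) (nat_lit 0) (XT.nd (nat_lit 94) (nat_lit 504) (nat_lit 0) (XT.lf (nat_lit 0) (nat_lit 1950225406) (nat_lit 504) (nat_lit 798700262) (nat_lit 84) (nat_lit 4052030803) (nat_lit 132) (nat_lit 5) (nat_lit 138) (nat_lit 5) (nat_lit 133) (nat_lit 5) (nat_lit 311) (nat_lit 294) (nat_lit 283)) (XT.nd (nat_lit 94) (nat_lit 0) (nat_lit 0) (XT.lf (nat_lit 0) (nat_lit 2054295074) (nat_lit 504) (nat_lit 1891806597) (nat_lit 588) (nat_lit 2907805725) (nat_lit 126) (nat_lit 5) (nat_lit 132) (nat_lit 5) (nat_lit 133) (nat_lit 5) (nat_lit 312) (nat_lit 294) (nat_lit 282)) (XT.lf (nat_lit 0) (nat_lit 4962849921) (nat_lit 504) (nat_lit 980771289) (nat_lit 588) (nat_lit 967432784) (nat_lit 126) (nat_lit 5) (nat_lit 132) (nat_lit 5) (nat_lit 133) (nat_lit 5) (nat_lit 313) (nat_lit 294) (nat_lit 281)))) (XT.nd (nat_lit 94) (nat_lit 0) (nat_lit 0) (XT.lf (nat_lit 0) (nat_lit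 950133707) (nat_lit 588) (nat_lit 3731707) (nat_lit 672) (nat_lit 6018246189) (nat_lit 118) (nat_lit 5) (nat_lit 125) (nat_lit 5) (nat_lit 126) (nat_lit 5) (nat_lit 314) (nat_lit 294) (nat_lit 280)) (XT.nd (nat_lit 94) (nat_lit 0) (nat_lit 0) (XT.lf (nat_lit 0) (nat_lit 2878998121) (nat_lit 672) (nat_lit 3127563187) (nat_lit 84) (nat_lit 1029925452) (nat_lit 118) (nat_lit 5) (nat_lit 126) (nat_lit 5) (nat_lit 119) (nat_lit 5) (nat_lit 315) (nat_lit 294) (nat_lit 279)) (XT.lf (nat_lit 0) (nat_lit 4799707548) (nat_lit 672) (nat_lit 194569486) (nat_lit 84) (nat_lit 2111175799) (nat_lit 118) (nat_lit 5) (nat_lit 126) (nat_lit 5) (nat_lit 119) (nat_lit 5) (nat_lit 316) (nat_lit 294) (nat_lit 278)))))) (XT.nd (nat_lit 564) (nat_lit 2184) (nat_lit 0) (XT.nd (nat_lit 282) (nat_lit 924) (nat_lit 0) (XT.nd (nat_lit 94) (nat_lit 840) (nat_lit 0) (XT.lf (nat_lit 0) (nat_lit 2836931935) (nat_lit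 672) (nat_lit 3908957760) (nat_lit 756) (nat_lit 432313137) (nat_lit 110) (nat_lit 5) (nat_lit 118) (nat_lit 5) (nat_lit 119) (nat_lit 5) (nat_lit 317) (nat_lit 294) (nat_lit 277)) (XT.nd (nat_lit 94) (nat_lit 756) (nat_lit 0) (XT.lf (nat_lit 0) (nat_lit 1409030745) (nat_lit 756) (nat_lit 1352404448) (nat_lit 84) (nat_lit 4493725478) (nat_lit 109) (nat_lit 5) (nat_lit 118) (nat_lit 5) (nat_lit 110) (nat_lit 5) (nat_lit 318) (nat_lit 294) (nat_lit 276)) (XT.lf (nat_lit 0) (nat_lit 1709772893) (nat_lit 756) (nat_lit 1545518037) (nat_lit 840) (nat_lit 4080953154) (nat_lit 100) (nat_lit 5) (nat_lit 109) (nat_lit 5) (nat_lit 110) (nat_lit 5) (nat_lit 319) (nat_lit 294) (nat_lit 275)))) (XT.nd (nat_lit 94) (nat_lit 924) (nat_lit 0) (XT.lf (nat_lit 0) (nat_lit 4846677294) (nat_lit 756) (nat_lit 267401531) (nat_lit 840) (nat_lit 2307670180) (nat_lit 100) (nat_lit 5) (nat_lit 109) (nat_lit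 5) (nat_lit 110) (nat_lit 5) (nat_lit 320) (nat_lit 294) (nat_lit 274)) (XT.nd (nat_lit 94) (nat_lit 84) (nat_lit 0) (XT.lf (nat_lit 0) (nat_lit 521231308) (nat_lit 840) (nat_lit 6467889731) (nat_lit 924) (nat_lit 522572280) (nat_lit 90) (nat_lit 5) (nat_lit 100) (nat_lit 5) (nat_lit 101) (nat_lit 5) (nat_lit 321) (nat_lit 294) (nat_lit 273)) (XT.lf (nat_lit 0) (nat_lit 1264414270) (nat_lit 924) (nat_lit 3902478042) (nat_lit 84) (nat_lit 2438438479) (nat_lit 89) (nat_lit 5) (nat_lit 100) (nat_lit 5) (nat_lit 90) (nat_lit 5) (nat_lit 322) (nat_lit 294) (nat_lit 272))))) (XT.nd (nat_lit 282) (nat_lit 1260) (nat_lit 0) (XT.nd (nat_lit 94) (nat_lit 924) (nat_lit 0) (XT.lf (nat_lit 0) (nat_lit 3040864146) (nat_lit 924) (nat_lit 773492528) (nat_lit 84) (nat_lit 3889518104) (nat_lit 89) (nat_lit 5) (nat_lit 100) (nat_lit 5) (nat_lit 90) (nat_lit 5) (nat_lit 323) (nat_lit 294) (nat_lit 271))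 (XT.nd (nat_lit 94) (nat_lit 0) (nat_lit 0) (XT.lf (nat_lit 0) (nat_lit 2454038459) (nat_lit 924) (nat_lit 2389267756) (nat_lit 1008) (nat_lit 2963516947) (nat_lit 78) (nat_lit 5) (nat_lit 89) (nat_lit 5) (nat_lit 90) (nat_lit 5) (nat_lit 324) (nat_lit 294) (nat_lit 270)) (XT.lf (nat_lit 0) (nat_lit 5750608969) (nat_lit 924) (nat_lit 906802541) (nat_lit 1008) (nat_lit 1257356675) (nat_lit 78) (nat_lit 5) (nat_lit 89) (nat_lit 5) (nat_lit 90) (nat_lit 5) (nat_lit 325) (nat_lit 294) (nat_lit 269)))) (XT.nd (nat_lit 188) (nat_lit 504) (nat_lit 0) (XT.nd (nat_lit 94) (nat_lit 0) (nat_lit 0) (XT.lf (nat_lit 0) (nat_lit 457152323) (nat_lit 756) (nat_lit 6941049511) (nat_lit 84) (nat_lit 629179751) (nat_lit 69) (nat_lit 5) (nat_lit 78) (nat_lit 5) (nat_lit 70) (nat_lit 5) (nat_lit 326) (nat_lit 294) (nat_lit 268)) (XT.lf (nat_lit 0) (nat_lit 2180264336) (nat_lit 756) (nat_lit 3730659264)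 (nat_lit 84) (nat_lit 2233131640) (nat_lit 69) (nat_lit 5) (nat_lit 78) (nat_lit 5) (nat_lit 70) (nat_lit 5) (nat_lit 327) (nat_lit 294) (nat_lit 267))) (XT.nd (nat_lit 94) (nat_lit 504) (nat_lit 0) (XT.lf (nat_lit 0) (nat_lit 3907788568) (nat_lit 756) (nat_lit 468250192) (nat_lit 84) (nat_lit 3890210835) (nat_lit 69) (nat_lit 5) (nat_lit 78) (nat_lit 5) (nat_lit 70) (nat_lit 5) (nat_lit 328) (nat_lit 294) (nat_lit 266)) (XT.lf (nat_lit 0) (nat_lit 2907804390) (nat_lit 504) (nat_lit 2762376642) (nat_lit 588) (nat_lit 2723003297) (nat_lit 63) (nat_lit 5) (nat_lit 69) (nat_lit 5) (nat_lit 70) (nat_lit 5) (nat_lit 329) (nat_lit 294) (nat_lit 265))))))) (XT.nd (nat_lit 1222) (nat_lit 1260) (nat_lit 0) (XT.nd (nat_lit 564) (nat_lit 1176) (nat_lit 0) (XT.nd (nat_lit 282) (nat_lit 420) (nat_lit 0) (XT.nd (nat_lit 94) (nat_lit 504) (nat_lit 0) (XT.lf (nat_lit 0) (nat_lit 6352834841) (nat_lit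 504) (nat_lit 1092706304) (nat_lit 588) (nat_lit 1080166456) (nat_lit 63) (nat_lit 5) (nat_lit 69) (nat_lit 5) (nat_lit 70) (nat_lit 5) (nat_lit 330) (nat_lit 294) (nat_lit 264)) (XT.nd (nat_lit 94) (nat_lit 0) (nat_lit 0) (XT.lf (nat_lit 0) (nat_lit 573757416) (nat_lit 504) (nat_lit 7454772794) (nat_lit 84) (nat_lit 634812478) (nat_lit 57) (nat_lit 5) (nat_lit 63) (nat_lit 5) (nat_lit 58) (nat_lit 5) (nat_lit 331) (nat_lit 294) (nat_lit 263)) (XT.lf (nat_lit 0) (nat_lit 2245577914) (nat_lit 504) (nat_lit 4132883079) (nat_lit 84) (nat_lit 2427110280) (nat_lit 57) (nat_lit 5) (nat_lit 63) (nat_lit 5) (nat_lit 58) (nat_lit 5) (nat_lit 332) (nat_lit 294) (nat_lit 262)))) (XT.nd (nat_lit 94) (nat_lit 420) (nat_lit 0) (XT.lf (nat_lit 0) (nat_lit 3925553140) (nat_lit 504) (nat_lit 753395379) (nat_lit 84) (nat_lit 4274934547) (nat_lit 57) (nat_lit 5) (nat_lit 63) (nat_lit 5) (nat_lit 58)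 (nat_lit 5) (nat_lit 333) (nat_lit 294) (nat_lit 261)) (XT.nd (nat_lit 94) (nat_lit 0) (nat_lit 0) (XT.lf (nat_lit 0) (nat_lit 2742087289) (nat_lit 420) (nat_lit 2900363561) (nat_lit 504) (nat_lit 3465122201) (nat_lit 52) (nat_lit 5) (nat_lit 57) (nat_lit 5) (nat_lit 58) (nat_lit 5) (nat_lit 334) (nat_lit 294) (nat_lit 260)) (XT.lf (nat_lit 0) (nat_lit 6318331032) (nat_lit 420) (nat_lit 1060588076) (nat_lit 504) (nat_lit 1888452892) (nat_lit 52) (nat_lit 5) (nat_lit 57) (nat_lit 5) (nat_lit 58) (nat_lit 5) (nat_lit 335) (nat_lit 294) (nat_lit 259))))) (XT.nd (nat_lit 282) (nat_lit 756) (nat_lit 0) (XT.nd (nat_lit 94) (nat_lit 84) (nat_lit 0) (XT.lf (nat_lit 0) (nat_lit 531954658) (nat_lit 336) (nat_lit 8610547086) (nat_lit 420) (nat_lit 290743440) (nat_lit 48) (nat_lit 5) (nat_lit 52) (nat_lit 5) (nat_lit 53) (nat_lit 5) (nat_lit 336) (nat_lit 294) (nat_lit 258)) (XT.nd (nat_lit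 94) (nat_lit 0) (nat_lit 0) (XT.lf (nat_lit 0) (nat_lit 1330919779) (nat_lit 420) (nat_lit 5488984993) (nat_lit 84) (nat_lit 2784159054) (nat_lit 47) (nat_lit 5) (nat_lit 52) (nat_lit 5) (nat_lit 48) (nat_lit 5) (nat_lit 337) (nat_lit 294) (nat_lit 257)) (XT.lf (nat_lit 0) (nat_lit 2957834571) (nat_lit 420) (nat_lit 2016974733) (nat_lit 84) (nat_lit 4806751444) (nat_lit 47) (nat_lit 5) (nat_lit 52) (nat_lit 5) (nat_lit 48) (nat_lit 5) (nat_lit 338) (nat_lit 294) (nat_lit 256)))) (XT.nd (nat_lit 188) (nat_lit 336) (nat_lit 0) (XT.nd (nat_lit 94) (nat_lit 0) (nat_lit 0) (XT.lf (nat_lit 0) (nat_lit 1552132757) (nat_lit 420) (nat_lit 3060639812) (nat_lit 504) (nat_lit 5352740919) (nat_lit 42) (nat_lit 5) (nat_lit 47) (nat_lit 5) (nat_lit 48) (nat_lit 5) (nat_lit 339) (nat_lit 294) (nat_lit 255)) (XT.lf (nat_lit 0) (nat_lit 5233257541) (nat_lit 420) (nat_lit 1069726973) (nat_lit 504)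 (nat_lit 3852932041) (nat_lit 42) (nat_lit 5) (nat_lit 47) (nat_lit 5) (nat_lit 48) (nat_lit 5) (nat_lit 340) (nat_lit 294) (nat_lit 254))) (XT.nd (nat_lit 94) (nat_lit 336) (nat_lit 0) (XT.lf (nat_lit 0) (nat_lit 8019334945) (nat_lit 504) (nat_lit 1374931916) (nat_lit 84) (nat_lit 959012605) (nat_lit 42) (nat_lit 5) (nat_lit 48) (nat_lit 5) (nat_lit 43) (nat_lit 5) (nat_lit 341) (nat_lit 294) (nat_lit 253)) (XT.lf (nat_lit 0) (nat_lit 2277510747) (nat_lit 336) (nat_lit 7509989557) (nat_lit 420) (nat_lit 769539502) (nat_lit 38) (nat_lit 5) (nat_lit 42) (nat_lit 5) (nat_lit 43) (nat_lit 5) (nat_lit 342) (nat_lit 294) (nat_lit 252)))))) (XT.nd (nat_lit 564) (nat_lit 588) (nat_lit 0) (XT.nd (nat_lit 282) (nat_lit 252) (nat_lit 0) (XT.nd (nat_lit 94) (nat_lit 336) (nat_lit 0) (XT.lf (nat_lit 0) (nat_lit 806023015) (nat_lit 420) (nat_lit 4743599296) (nat_lit 84) (nat_lit 5218087863) (nat_lit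 37) (nat_lit 5) (nat_lit 42) (nat_lit 5) (nat_lit 38) (nat_lit 5) (nat_lit 343) (nat_lit 294) (nat_lit 251)) (XT.nd (nat_lit 94) (nat_lit 336) (nat_lit 0) (XT.lf (nat_lit 0) (nat_lit 2380645113) (nat_lit 420) (nat_lit 1145442685) (nat_lit 84) (nat_lit 7459842640) (nat_lit 37) (nat_lit 5) (nat_lit 42) (nat_lit 5) (nat_lit 38) (nat_lit 5) (nat_lit 344) (nat_lit 294) (nat_lit 250)) (XT.lf (nat_lit 0) (nat_lit 2577866831) (nat_lit 336) (nat_lit 1419004936) (nat_lit 420) (nat_lit 7214476130) (nat_lit 33) (nat_lit 5) (nat_lit 37) (nat_lit 5) (nat_lit 38) (nat_lit 5) (nat_lit 345) (nat_lit 294) (nat_lit 249)))) (XT.nd (nat_lit 94) (nat_lit 252) (nat_lit 0) (XT.lf (nat_lit 0) (nat_lit 5650524193) (nat_lit 420) (nat_lit 5049179928) (nat_lit 84) (nat_lit 744644786) (nat_lit 33) (nat_lit 5) (nat_lit 38) (nat_lit 5) (nat_lit 34) (nat_lit 5) (nat_lit 346) (nat_lit 294) (nat_lit 248)) (XT.nd (nat_lit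 94) (nat_lit 252) (nat_lit 0) (XT.lf (nat_lit 0) (nat_lit 7338692589) (nat_lit 420) (nat_lit 1406186313) (nat_lit 84) (nat_lit 2940409735) (nat_lit 33) (nat_lit 5) (nat_lit 38) (nat_lit 5) (nat_lit 34) (nat_lit 5) (nat_lit 347) (nat_lit 294) (nat_lit 247)) (XT.lf (nat_lit 0) (nat_lit 2360531585) (nat_lit 252) (nat_lit 6711758982) (nat_lit 336) (nat_lit 2861811560) (nat_lit 30) (nat_lit 5) (nat_lit 33) (nat_lit 5) (nat_lit 34) (nat_lit 5) (nat_lit 348) (nat_lit 294) (nat_lit 246))))) (XT.nd (nat_lit 282) (nat_lit 252) (nat_lit 0) (XT.nd (nat_lit 94) (nat_lit 336) (nat_lit 0) (XT.lf (nat_lit 0) (nat_lit 6237432425) (nat_lit 252) (nat_lit 4607105576) (nat_lit 336) (nat_lit 1346743571) (nat_lit 30) (nat_lit 5) (nat_lit 33) (nat_lit 5) (nat_lit 34) (nat_lit 5) (nat_lit 349) (nat_lit 294) (nat_lit 245)) (XT.nd (nat_lit 94) (nat_lit 252) (nat_lit 0) (XT.lf (nat_lit 0) (nat_lit 181608180)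 (nat_lit 336) (nat_lit 2260130831) (nat_lit 84) (nat_lit 10015712010) (nat_lit 29) (nat_lit 5) (nat_lit 33) (nat_lit 5) (nat_lit 30) (nat_lit 5) (nat_lit 350) (nat_lit 294) (nat_lit 244)) (XT.lf (nat_lit 0) (nat_lit 1530154015) (nat_lit 252) (nat_lit 185925770) (nat_lit 336) (nat_lit 11015945451) (nat_lit 26) (nat_lit 5) (nat_lit 29) (nat_lit 5) (nat_lit 30) (nat_lit 5) (nat_lit 351) (nat_lit 294) (nat_lit 243)))) (XT.nd (nat_lit 188) (nat_lit 252) (nat_lit 0) (XT.nd (nat_lit 94) (nat_lit 0) (nat_lit 0) (XT.lf (nat_lit 0) (nat_lit 3315162197) (nat_lit 336) (nat_lit 7585600579) (nat_lit 84) (nat_lit 2113983797) (nat_lit 26) (nat_lit 5) (nat_lit 30) (nat_lit 5) (nat_lit 27) (nat_lit 5) (nat_lit 352) (nat_lit 294) (nat_lit 242)) (XT.lf (nat_lit 0) (nat_lit 4938542689) (nat_lit 336) (nat_lit 3893660005) (nat_lit 84) (nat_lit 4474971765) (nat_lit 26) (nat_lit 5) (nat_lit 30) (nat_lit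 5) (nat_lit 27) (nat_lit 5) (nat_lit 353) (nat_lit 294) (nat_lit 241))) (XT.nd (nat_lit 94) (nat_lit 252) (nat_lit 0) (XT.lf (nat_lit 0) (nat_lit 6585890017) (nat_lit 336) (nat_lit 120763817) (nat_lit 84) (nat_lit 6902984811) (nat_lit 26) (nat_lit 5) (nat_lit 30) (nat_lit 5) (nat_lit 27) (nat_lit 5) (nat_lit 354) (nat_lit 294) (nat_lit 240)) (XT.lf (nat_lit 0) (nat_lit 3813436975) (nat_lit 252) (nat_lit 4483132471) (nat_lit 336) (nat_lit 5624678888) (nat_lit 23) (nat_lit 5) (nat_lit 26) (nat_lit 5) (nat_lit 27) (nat_lit 5) (nat_lit 355) (nat_lit 294) (nat_lit 239))))))))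
noncomputable def xc81 : XT := (XT.nd (nat_lit 2350) (nat_lit 420) (nat_lit 0) (XT.nd (nat_lit 1128) (nat_lit 420) (nat_lit 0) (XT.nd (nat_lit 564) (nat_lit 336) (nat_lit 0) (XT.nd (nat_lit 282) (nat_lit 84) (nat_lit 0) (XT.nd (nat_lit 94) (nat_lit 252) (nat_lit 0) (XT.lf (nat_lit 0) (nat_lit 7839999596) (nat_lit 252) (nat_lit 2196425120) (nat_lit 336) (nat_lit 4206977541) (nat_lit 23) (nat_lit 5) (nat_lit 26) (nat_lit 5) (nat_lit 27) (nat_lit 5) (nat_lit 356) (nat_lit 294) (nat_lit 238)) (XT.nd (nat_lit 94) (nat_lit 252) (nat_lit 0) (XT.lf (nat_lit 0) (nat_lit 11807385990) (nat_lit 336) (nat_lit 2617775587) (nat_lit 84) (nat_lit 151229552) (nat_lit 23) (nat_lit 5) (nat_lit 27) (nat_lit 5) (nat_lit 24) (nat_lit 5) (nat_lit 357) (nat_lit 294) (nat_lit 237)) (XT.lf (nat_lit 0) (nat_lit 1257010923) (nat_lit 252) (nat_lit 12387476278) (nat_lit 336) (nat_lit 1275003253) (nat_lit 20) (nat_lit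 5) (nat_lit 23) (nat_lit 5) (nat_lit 24) (nat_lit 5) (nat_lit 358) (nat_lit 294) (nat_lit 236)))) (XT.nd (nat_lit 94) (nat_lit 0) (nat_lit 0) (XT.lf (nat_lit 0) (nat_lit 263916883) (nat_lit 336) (nat_lit 9999235758) (nat_lit 84) (nat_lit 5009997362) (nat_lit 19) (nat_lit 5) (nat_lit 23) (nat_lit 5) (nat_lit 20) (nat_lit 5) (nat_lit 359) (nat_lit 294) (nat_lit 235)) (XT.nd (nat_lit 94) (nat_lit 0) (nat_lit 0) (XT.lf (nat_lit 0) (nat_lit 1801115935) (nat_lit 336) (nat_lit 6265885711) (nat_lit 84) (nat_lit 7571202646) (nat_lit 19) (nat_lit 5) (nat_lit 23) (nat_lit 5) (nat_lit 20) (nat_lit 5) (nat_lit 360) (nat_lit 294) (nat_lit 234)) (XT.lf (nat_lit 0) (nat_lit 3363715207) (nat_lit 336) (nat_lit 2446301328) (nat_lit 84) (nat_lit 10205369152) (nat_lit 19) (nat_lit 5) (nat_lit 23) (nat_lit 5) (nat_lit 20) (nat_lit 5) (nat_lit 361) (nat_lit 294) (nat_lit 233))))) (XT.nd (nat_lit 282) (nat_lit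 168) (nat_lit 0) (XT.nd (nat_lit 94) (nat_lit 0) (nat_lit 0) (XT.lf (nat_lit 0) (nat_lit 1493161521) (nat_lit 168) (nat_lit 3474822031) (nat_lit 252) (nat_lit 11436603023) (nat_lit 17) (nat_lit 5) (nat_lit 19) (nat_lit 5) (nat_lit 20) (nat_lit 5) (nat_lit 362) (nat_lit 294) (nat_lit 232)) (XT.nd (nat_lit 94) (nat_lit 0) (nat_lit 0) (XT.lf (nat_lit 0) (nat_lit 5578285170) (nat_lit 168) (nat_lit 1048017576) (nat_lit 252) (nat_lit 10179529508) (nat_lit 17) (nat_lit 5) (nat_lit 19) (nat_lit 5) (nat_lit 20) (nat_lit 5) (nat_lit 363) (nat_lit 294) (nat_lit 231)) (XT.lf (nat_lit 0) (nat_lit 8329807570) (nat_lit 252) (nat_lit 7472043737) (nat_lit 84) (nat_lit 1417968160) (nat_lit 17) (nat_lit 5) (nat_lit 20) (nat_lit 5) (nat_lit 18) (nat_lit 5) (nat_lit 364) (nat_lit 294) (nat_lit 230)))) (XT.nd (nat_lit 94) (nat_lit 168) (nat_lit 0) (XT.lf (nat_lit 0) (nat_lit 10076814284) (nat_lit 252)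 (nat_lit 3638142907) (nat_lit 84) (nat_lit 3932078321) (nat_lit 17) (nat_lit 5) (nat_lit 20) (nat_lit 5) (nat_lit 18) (nat_lit 5) (nat_lit 365) (nat_lit 294) (nat_lit 229)) (XT.nd (nat_lit 94) (nat_lit 0) (nat_lit 0) (XT.lf (nat_lit 0) (nat_lit 294049916) (nat_lit 168) (nat_lit 11567421913) (nat_lit 252) (nat_lit 6226638632) (nat_lit 15) (nat_lit 5) (nat_lit 17) (nat_lit 5) (nat_lit 18) (nat_lit 5) (nat_lit 366) (nat_lit 294) (nat_lit 228)) (XT.lf (nat_lit 0) (nat_lit 4399052174) (nat_lit 168) (nat_lit 9321276909) (nat_lit 252) (nat_lit 4822044914) (nat_lit 15) (nat_lit 5) (nat_lit 17) (nat_lit 5) (nat_lit 18) (nat_lit 5) (nat_lit 367) (nat_lit 294) (nat_lit 227)))))) (XT.nd (nat_lit 564) (nat_lit 168) (nat_lit 0) (XT.nd (nat_lit 282) (nat_lit 252) (nat_lit 0) (XT.nd (nat_lit 94) (nat_lit 0) (nat_lit 0) (XT.lf (nat_lit 0) (nat_lit 8605882478) (nat_lit 168) (nat_lit 7012403288) (nat_lit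 252) (nat_lit 3393105595) (nat_lit 15) (nat_lit 5) (nat_lit 17) (nat_lit 5) (nat_lit 18) (nat_lit 5) (nat_lit 368) (nat_lit 294) (nat_lit 226)) (XT.nd (nat_lit 94) (nat_lit 0) (nat_lit 0) (XT.lf (nat_lit 0) (nat_lit 12918462034) (nat_lit 168) (nat_lit 4638648937) (nat_lit 252) (nat_lit 1938488756) (nat_lit 15) (nat_lit 5) (nat_lit 17) (nat_lit 5) (nat_lit 18) (nat_lit 5) (nat_lit 369) (nat_lit 294) (nat_lit 225)) (XT.lf (nat_lit 0) (nat_lit 17340810619) (nat_lit 168) (nat_lit 2197801268) (nat_lit 252) (nat_lit 456838540) (nat_lit 15) (nat_lit 5) (nat_lit 17) (nat_lit 5) (nat_lit 18) (nat_lit 5) (nat_lit 370) (nat_lit 294) (nat_lit 224)))) (XT.nd (nat_lit 94) (nat_lit 0) (nat_lit 0) (XT.lf (nat_lit 0) (nat_lit 1049072435) (nat_lit 252) (nat_lit 19130948178) (nat_lit 84) (nat_lit 330535808) (nat_lit 12) (nat_lit 5) (nat_lit 15) (nat_lit 5) (nat_lit 13) (nat_lit 5) (nat_lit 371) (nat_lit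 294) (nat_lit 223)) (XT.nd (nat_lit 94) (nat_lit 0) (nat_lit 0) (XT.lf (nat_lit 0) (nat_lit 2625703204) (nat_lit 252) (nat_lit 15496954512) (nat_lit 84) (nat_lit 2917872422) (nat_lit 12) (nat_lit 5) (nat_lit 15) (nat_lit 5) (nat_lit 13) (nat_lit 5) (nat_lit 372) (nat_lit 294) (nat_lit 222)) (XT.lf (nat_lit 0) (nat_lit 4234774451) (nat_lit 252) (nat_lit 11773530734) (nat_lit 84) (nat_lit 5579218424) (nat_lit 12) (nat_lit 5) (nat_lit 15) (nat_lit 5) (nat_lit 13) (nat_lit 5) (nat_lit 373) (nat_lit 294) (nat_lit 221))))) (XT.nd (nat_lit 282) (nat_lit 168) (nat_lit 0) (XT.nd (nat_lit 94) (nat_lit 0) (nat_lit 0) (XT.lf (nat_lit 0) (nat_lit 5877785997) (nat_lit 252) (nat_lit 7957206223) (nat_lit 84) (nat_lit 8317054468) (nat_lit 12) (nat_lit 5) (nat_lit 15) (nat_lit 5) (nat_lit 13) (nat_lit 5) (nat_lit 374) (nat_lit 294) (nat_lit 220)) (XT.nd (nat_lit 94) (nat_lit 0) (nat_lit 0) (XT.lf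 (nat_lit 0) (nat_lit 7556269301) (nat_lit 252) (nat_lit 4044423765) (nat_lit 84) (nat_lit 11133932503) (nat_lit 12) (nat_lit 5) (nat_lit 15) (nat_lit 5) (nat_lit 13) (nat_lit 5) (nat_lit 375) (nat_lit 294) (nat_lit 219)) (XT.lf (nat_lit 0) (nat_lit 9271788886) (nat_lit 252) (nat_lit 31536236) (nat_lit 84) (nat_lit 14032478155) (nat_lit 12) (nat_lit 5) (nat_lit 15) (nat_lit 5) (nat_lit 13) (nat_lit 5) (nat_lit 376) (nat_lit 294) (nat_lit 218)))) (XT.nd (nat_lit 188) (nat_lit 0) (nat_lit 0) (XT.nd (nat_lit 94) (nat_lit 0) (nat_lit 0) (XT.lf (nat_lit 0) (nat_lit 4169196819) (nat_lit 168) (nat_lit 6898105925) (nat_lit 252) (nat_lit 12887555301) (nat_lit 10) (nat_lit 5) (nat_lit 12) (nat_lit 5) (nat_lit 13) (nat_lit 5) (nat_lit 377) (nat_lit 294) (nat_lit 217)) (XT.lf (nat_lit 0) (nat_lit 8480475230) (nat_lit 168) (nat_lit 4424021219) (nat_lit 252) (nat_lit 11689110075) (nat_lit 10) (nat_lit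 5) (nat_lit 12) (nat_lit 5) (nat_lit 13) (nat_lit 5) (nat_lit 378) (nat_lit 294) (nat_lit 216))) (XT.nd (nat_lit 94) (nat_lit 0) (nat_lit 0) (XT.lf (nat_lit 0) (nat_lit 12905669111) (nat_lit 168) (nat_lit 1879094073) (nat_lit 252) (nat_lit 10467890813) (nat_lit 10) (nat_lit 5) (nat_lit 12) (nat_lit 5) (nat_lit 13) (nat_lit 5) (nat_lit 379) (nat_lit 294) (nat_lit 215)) (XT.lf (nat_lit 0) (nat_lit 16717186998) (nat_lit 252) (nat_lit 8491043001) (nat_lit 84) (nat_lit 724157488) (nat_lit 10) (nat_lit 5) (nat_lit 13) (nat_lit 5) (nat_lit 11) (nat_lit 4) (nat_lit 380) (nat_lit 294) (nat_lit 214))))))) (XT.nd (nat_lit 1222) (nat_lit 84) (nat_lit 0) (XT.nd (nat_lit 564) (nat_lit 252) (nat_lit 0) (XT.nd (nat_lit 282) (nat_lit 0) (nat_lit 0) (XT.nd (nat_lit 94) (nat_lit 84) (nat_lit 0) (XT.lf (nat_lit 0) (nat_lit 18715622185) (nat_lit 252) (nat_lit 4553764571) (nat_lit 84) (nat_lit 3363680175)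 (nat_lit 10) (nat_lit 5) (nat_lit 13) (nat_lit 5) (nat_lit 11) (nat_lit 4) (nat_lit 381) (nat_lit 294) (nat_lit 213)) (XT.nd (nat_lit 94) (nat_lit 84) (nat_lit 0) (XT.lf (nat_lit 0) (nat_lit 20763290652) (nat_lit 252) (nat_lit 512838795) (nat_lit 84) (nat_lit 6079793856) (nat_lit 10) (nat_lit 5) (nat_lit 13) (nat_lit 5) (nat_lit 11) (nat_lit 4) (nat_lit 382) (nat_lit 294) (nat_lit 212)) (XT.lf (nat_lit 0) (nat_lit 3710254247) (nat_lit 84) (nat_lit 19188652975) (nat_lit 168) (nat_lit 5201582169) (nat_lit 9) (nat_lit 5) (nat_lit 10) (nat_lit 5) (nat_lit 11) (nat_lit 4) (nat_lit 383) (nat_lit 294) (nat_lit 211)))) (XT.nd (nat_lit 94) (nat_lit 0) (nat_lit 0) (XT.lf (nat_lit 0) (nat_lit 8057461063) (nat_lit 84) (nat_lit 17036479608) (nat_lit 168) (nat_lit 3774464711) (nat_lit 9) (nat_lit 5) (nat_lit 10) (nat_lit 5) (nat_lit 11) (nat_lit 4) (nat_lit 384) (nat_lit 294) (nat_lit 210)) (XT.nd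 (nat_lit 94) (nat_lit 0) (nat_lit 0) (XT.lf (nat_lit 0) (nat_lit 12522288688) (nat_lit 84) (nat_lit 14822956282) (nat_lit 168) (nat_lit 2315303039) (nat_lit 9) (nat_lit 5) (nat_lit 10) (nat_lit 5) (nat_lit 11) (nat_lit 4) (nat_lit 385) (nat_lit 294) (nat_lit 209)) (XT.lf (nat_lit 0) (nat_lit 17108898810) (nat_lit 84) (nat_lit 12546019762) (nat_lit 168) (nat_lit 822737062) (nat_lit 9) (nat_lit 5) (nat_lit 10) (nat_lit 5) (nat_lit 11) (nat_lit 4) (nat_lit 386) (nat_lit 294) (nat_lit 208))))) (XT.nd (nat_lit 282) (nat_lit 168) (nat_lit 0) (XT.nd (nat_lit 94) (nat_lit 0) (nat_lit 0) (XT.lf (nat_lit 0) (nat_lit 690427834) (nat_lit 168) (nat_lit 9505913217) (nat_lit 84) (nat_lit 21123932142) (nat_lit 8) (nat_lit 5) (nat_lit 10) (nat_lit 5) (nat_lit 9) (nat_lit 5) (nat_lit 387) (nat_lit 294) (nat_lit 207)) (XT.nd (nat_lit 94) (nat_lit 0) (nat_lit 0) (XT.lf (nat_lit 0) (nat_lit 2222505871)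 (nat_lit 168) (nat_lit 5547652401) (nat_lit 84) (nat_lit 24418980568) (nat_lit 8) (nat_lit 5) (nat_lit 10) (nat_lit 5) (nat_lit 9) (nat_lit 5) (nat_lit 388) (nat_lit 294) (nat_lit 206)) (XT.lf (nat_lit 0) (nat_lit 3791501423) (nat_lit 168) (nat_lit 1482123209) (nat_lit 84) (nat_lit 27811690826) (nat_lit 8) (nat_lit 5) (nat_lit 10) (nat_lit 5) (nat_lit 9) (nat_lit 5) (nat_lit 389) (nat_lit 294) (nat_lit 205)))) (XT.nd (nat_lit 188) (nat_lit 0) (nat_lit 0) (XT.nd (nat_lit 94) (nat_lit 0) (nat_lit 0) (XT.lf (nat_lit 0) (nat_lit 2749867561) (nat_lit 168) (nat_lit 2676288423) (nat_lit 252) (nat_lit 28582636743) (nat_lit 6) (nat_lit 5) (nat_lit 8) (nat_lit 5) (nat_lit 9) (nat_lit 5) (nat_lit 390) (nat_lit 294) (nat_lit 204)) (XT.lf (nat_lit 0) (nat_lit 7116984596) (nat_lit 252) (nat_lit 27831255170) (nat_lit 84) (nat_lit 12532927) (nat_lit 6) (nat_lit 5) (nat_lit 9) (nat_lit 5) (nat_lit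 7) (nat_lit 4) (nat_lit 391) (nat_lit 294) (nat_lit 203))) (XT.nd (nat_lit 94) (nat_lit 0) (nat_lit 0) (XT.lf (nat_lit 0) (nat_lit 8877761730) (nat_lit 252) (nat_lit 24339377989) (nat_lit 84) (nat_lit 2724624830) (nat_lit 6) (nat_lit 5) (nat_lit 9) (nat_lit 5) (nat_lit 7) (nat_lit 4) (nat_lit 392) (nat_lit 294) (nat_lit 202)) (XT.lf (nat_lit 0) (nat_lit 10683579501) (nat_lit 252) (nat_lit 20753489717) (nat_lit 84) (nat_lit 5516436487) (nat_lit 6) (nat_lit 5) (nat_lit 9) (nat_lit 5) (nat_lit 7) (nat_lit 4) (nat_lit 393) (nat_lit 294) (nat_lit 201)))))) (XT.nd (nat_lit 564) (nat_lit 0) (nat_lit 0) (XT.nd (nat_lit 282) (nat_lit 84) (nat_lit 0) (XT.nd (nat_lit 94) (nat_lit 0) (nat_lit 0) (XT.lf (nat_lit 0) (nat_lit 12536121121) (nat_lit 252) (nat_lit 17070247931) (nat_lit 84) (nat_lit 8390570158) (nat_lit 6) (nat_lit 5) (nat_lit 9) (nat_lit 5) (nat_lit 7) (nat_lit 4) (nat_lit 394) (nat_lit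 294) (nat_lit 200)) (XT.nd (nat_lit 94) (nat_lit 0) (nat_lit 0) (XT.lf (nat_lit 0) (nat_lit 14437113353) (nat_lit 252) (nat_lit 13286219463) (nat_lit 84) (nat_lit 11349704837) (nat_lit 6) (nat_lit 5) (nat_lit 9) (nat_lit 5) (nat_lit 7) (nat_lit 4) (nat_lit 395) (nat_lit 294) (nat_lit 199)) (XT.lf (nat_lit 0) (nat_lit 16388328120) (nat_lit 252) (nat_lit 9397877203) (nat_lit 84) (nat_lit 14396598747) (nat_lit 6) (nat_lit 5) (nat_lit 9) (nat_lit 5) (nat_lit 7) (nat_lit 4) (nat_lit 396) (nat_lit 294) (nat_lit 198)))) (XT.nd (nat_lit 94) (nat_lit 84) (nat_lit 0) (XT.lf (nat_lit 0) (nat_lit 18391584160) (nat_lit 252) (nat_lit 5401596807) (nat_lit 84) (nat_lit 17534091913) (nat_lit 6) (nat_lit 5) (nat_lit 9) (nat_lit 5) (nat_lit 7) (nat_lit 4) (nat_lit 397) (nat_lit 294) (nat_lit 197)) (XT.nd (nat_lit 94) (nat_lit 84) (nat_lit 0) (XT.lf (nat_lit 0) (nat_lit 20448748716) (nat_lit 252) (nat_lit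 1293653325) (nat_lit 84) (nat_lit 20765108807) (nat_lit 6) (nat_lit 5) (nat_lit 9) (nat_lit 5) (nat_lit 7) (nat_lit 4) (nat_lit 398) (nat_lit 294) (nat_lit 196)) (XT.lf (nat_lit 0) (nat_lit 2990024610) (nat_lit 84) (nat_lit 19601376085) (nat_lit 168) (nat_lit 21132297879) (nat_lit 5) (nat_lit 5) (nat_lit 6) (nat_lit 5) (nat_lit 7) (nat_lit 4) (nat_lit 399) (nat_lit 294) (nat_lit 195))))) (XT.nd (nat_lit 282) (nat_lit 0) (nat_lit 0) (XT.nd (nat_lit 94) (nat_lit 0) (nat_lit 0) (XT.lf (nat_lit 0) (nat_lit 7422187217) (nat_lit 84) (nat_lit 17383967183) (nat_lit 168) (nat_lit 20171292144) (nat_lit 5) (nat_lit 5) (nat_lit 6) (nat_lit 5) (nat_lit 7) (nat_lit 4) (nat_lit 400) (nat_lit 294) (nat_lit 194)) (XT.nd (nat_lit 94) (nat_lit 0) (nat_lit 0) (XT.lf (nat_lit 0) (nat_lit 11980365570) (nat_lit 84) (nat_lit 15101611565) (nat_lit 168) (nat_lit 19188352255) (nat_lit 5) (nat_lit 5) (nat_lit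 6) (nat_lit 5) (nat_lit 7) (nat_lit 4) (nat_lit 401) (nat_lit 294) (nat_lit 193)) (XT.lf (nat_lit 0) (nat_lit 16668808369) (nat_lit 84) (nat_lit 12752181837) (nat_lit 168) (nat_lit 18182562010) (nat_lit 5) (nat_lit 5) (nat_lit 6) (nat_lit 5) (nat_lit 7) (nat_lit 4) (nat_lit 402) (nat_lit 294) (nat_lit 192)))) (XT.nd (nat_lit 188) (nat_lit 0) (nat_lit 0) (XT.nd (nat_lit 94) (nat_lit 0) (nat_lit 0) (XT.lf (nat_lit 0) (nat_lit 21491885734) (nat_lit 84) (nat_lit 10333488083) (nat_lit 168) (nat_lit 17152983907) (nat_lit 5) (nat_lit 5) (nat_lit 6) (nat_lit 5) (nat_lit 7) (nat_lit 4) (nat_lit 403) (nat_lit 294) (nat_lit 191)) (XT.lf (nat_lit 0) (nat_lit 26454093277) (nat_lit 84) (nat_lit 7843275828) (nat_lit 168) (nat_lit 16098658272) (nat_lit 5) (nat_lit 5) (nat_lit 6) (nat_lit 5) (nat_lit 7) (nat_lit 4) (nat_lit 404) (nat_lit 294) (nat_lit 190))) (XT.nd (nat_lit 94) (nat_lit 0) (nat_lit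 0) (XT.lf (nat_lit 0) (nat_lit 31560056296) (nat_lit 84) (nat_lit 5279223933) (nat_lit 168) (nat_lit 15018602361) (nat_lit 5) (nat_lit 5) (nat_lit 6) (nat_lit 5) (nat_lit 7) (nat_lit 4) (nat_lit 405) (nat_lit 294) (nat_lit 189)) (XT.lf (nat_lit 0) (nat_lit 36814534084) (nat_lit 84) (nat_lit 2638942434) (nat_lit 168) (nat_lit 13911809451) (nat_lit 5) (nat_lit 5) (nat_lit 6) (nat_lit 5) (nat_lit 7) (nat_lit 4) (nat_lit 406) (nat_lit 294) (nat_lit 188))))))))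
noncomputable def xc82 : XT := (XT.nd (nat_lit 45966) (nat_lit 0) (nat_lit 5544) (XT.nd (nat_lit 1128) (nat_lit 0) (nat_lit 0) (XT.nd (nat_lit 564) (nat_lit 84) (nat_lit 0) (XT.nd (nat_lit 282) (nat_lit 84) (nat_lit 0) (XT.nd (nat_lit 94) (nat_lit 0) (nat_lit 0) (XT.lf (nat_lit 0) (nat_lit 42143188579) (nat_lit 168) (nat_lit 12698012110) (nat_lit 0) (nat_lit 78417269) (nat_lit 5) (nat_lit 5) (nat_lit 7) (nat_lit 4) (nat_lit 5) (nat_lit 4) (nat_lit 407) (nat_lit 294) (nat_lit 187)) (XT.nd (nat_lit 94) (nat_lit 0) (nat_lit 0) (XT.lf (nat_lit 0) (nat_lit 44937113259) (nat_lit 168) (nat_lit 8762205564) (nat_lit 0) (nat_lit 2822196651) (nat_lit 5) (nat_lit 5) (nat_lit 7) (nat_lit 4) (nat_lit 5) (nat_lit 4) (nat_lit 408) (nat_lit 294) (nat_lit 186)) (XT.lf (nat_lit 0) (nat_lit 47811676154) (nat_lit 168) (nat_lit 4713485029) (nat_lit 0) (nat_lit 5648122011) (nat_lit 5) (nat_lit 5) (nat_lit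 7) (nat_lit 4) (nat_lit 5) (nat_lit 4) (nat_lit 409) (nat_lit 294) (nat_lit 185)))) (XT.nd (nat_lit 94) (nat_lit 84) (nat_lit 0) (XT.lf (nat_lit 0) (nat_lit 50769556657) (nat_lit 168) (nat_lit 548076672) (nat_lit 0) (nat_lit 8558827408) (nat_lit 5) (nat_lit 5) (nat_lit 7) (nat_lit 4) (nat_lit 5) (nat_lit 4) (nat_lit 410) (nat_lit 294) (nat_lit 184)) (XT.nd (nat_lit 94) (nat_lit 0) (nat_lit 0) (XT.lf (nat_lit 0) (nat_lit 3814761035) (nat_lit 84) (nat_lit 50036593688) (nat_lit 84) (nat_lit 7780107789) (nat_lit 4) (nat_lit 4) (nat_lit 5) (nat_lit 5) (nat_lit 5) (nat_lit 4) (nat_lit 411) (nat_lit 294) (nat_lit 183)) (XT.lf (nat_lit 0) (nat_lit 8315995044) (nat_lit 84) (nat_lit 48712879591) (nat_lit 84) (nat_lit 6412012848) (nat_lit 4) (nat_lit 4) (nat_lit 5) (nat_lit 5) (nat_lit 5) (nat_lit 4) (nat_lit 412) (nat_lit 294) (nat_lit 182))))) (XT.nd (nat_lit 282) (nat_lit 84) (nat_lit 0)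 (XT.nd (nat_lit 94) (nat_lit 0) (nat_lit 0) (XT.lf (nat_lit 0) (nat_lit 12948551393) (nat_lit 84) (nat_lit 47350977994) (nat_lit 84) (nat_lit 5007064847) (nat_lit 4) (nat_lit 4) (nat_lit 5) (nat_lit 5) (nat_lit 5) (nat_lit 4) (nat_lit 413) (nat_lit 294) (nat_lit 181)) (XT.nd (nat_lit 94) (nat_lit 0) (nat_lit 0) (XT.lf (nat_lit 0) (nat_lit 17716748111) (nat_lit 84) (nat_lit 45949619464) (nat_lit 84) (nat_lit 3563954226) (nat_lit 4) (nat_lit 4) (nat_lit 5) (nat_lit 5) (nat_lit 5) (nat_lit 4) (nat_lit 414) (nat_lit 294) (nat_lit 180)) (XT.lf (nat_lit 0) (nat_lit 22625029657) (nat_lit 84) (nat_lit 44507497786) (nat_lit 84) (nat_lit 2081335855) (nat_lit 4) (nat_lit 4) (nat_lit 5) (nat_lit 5) (nat_lit 5) (nat_lit 4) (nat_lit 415) (nat_lit 294) (nat_lit 179)))) (XT.nd (nat_lit 94) (nat_lit 84) (nat_lit 0) (XT.lf (nat_lit 0) (nat_lit 27677971063) (nat_lit 84) (nat_lit 43023268753) (nat_lit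 84) (nat_lit 557827779) (nat_lit 4) (nat_lit 4) (nat_lit 5) (nat_lit 5) (nat_lit 5) (nat_lit 4) (nat_lit 416) (nat_lit 294) (nat_lit 178)) (XT.nd (nat_lit 94) (nat_lit 0) (nat_lit 0) (XT.lf (nat_lit 0) (nat_lit 987681317) (nat_lit 168) (nat_lit 40497558222) (nat_lit 84) (nat_lit 31882291516) (nat_lit 3) (nat_lit 5) (nat_lit 5) (nat_lit 5) (nat_lit 4) (nat_lit 4) (nat_lit 417) (nat_lit 294) (nat_lit 177)) (XT.lf (nat_lit 0) (nat_lit 2564838854) (nat_lit 168) (nat_lit 37331303741) (nat_lit 84) (nat_lit 35645201655) (nat_lit 3) (nat_lit 5) (nat_lit 5) (nat_lit 5) (nat_lit 4) (nat_lit 4) (nat_lit 418) (nat_lit 294) (nat_lit 176)))))) (XT.nd (nat_lit 564) (nat_lit 0) (nat_lit 0) (XT.nd (nat_lit 282) (nat_lit 0) (nat_lit 0) (XT.nd (nat_lit 94) (nat_lit 0) (nat_lit 0) (XT.lf (nat_lit 0) (nat_lit 4186353895) (nat_lit 168) (nat_lit 34073848088) (nat_lit 84) (nat_lit 39522502966) (nat_lit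 3) (nat_lit 5) (nat_lit 5) (nat_lit 5) (nat_lit 4) (nat_lit 4) (nat_lit 419) (nat_lit 294) (nat_lit 175)) (XT.nd (nat_lit 94) (nat_lit 0) (nat_lit 0) (XT.lf (nat_lit 0) (nat_lit 5853737861) (nat_lit 168) (nat_lit 30722154972) (nat_lit 84) (nat_lit 43517809501) (nat_lit 3) (nat_lit 5) (nat_lit 5) (nat_lit 5) (nat_lit 4) (nat_lit 4) (nat_lit 420) (nat_lit 294) (nat_lit 174)) (XT.lf (nat_lit 0) (nat_lit 7568544929) (nat_lit 168) (nat_lit 27273100264) (nat_lit 84) (nat_lit 47634845303) (nat_lit 3) (nat_lit 5) (nat_lit 5) (nat_lit 5) (nat_lit 4) (nat_lit 4) (nat_lit 421) (nat_lit 294) (nat_lit 173)))) (XT.nd (nat_lit 94) (nat_lit 0) (nat_lit 0) (XT.lf (nat_lit 0) (nat_lit 9332373478) (nat_lit 168) (nat_lit 23723469085) (nat_lit 84) (nat_lit 51877447882) (nat_lit 3) (nat_lit 5) (nat_lit 5) (nat_lit 5) (nat_lit 4) (nat_lit 4) (nat_lit 422) (nat_lit 294) (nat_lit 172)) (XT.nd (nat_lit 94)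 (nat_lit 0) (nat_lit 0) (XT.lf (nat_lit 0) (nat_lit 11146867582) (nat_lit 168) (nat_lit 20069952806) (nat_lit 84) (nat_lit 56249571786) (nat_lit 3) (nat_lit 5) (nat_lit 5) (nat_lit 5) (nat_lit 4) (nat_lit 4) (nat_lit 423) (nat_lit 294) (nat_lit 171)) (XT.lf (nat_lit 0) (nat_lit 13013718539) (nat_lit 168) (nat_lit 16309145968) (nat_lit 84) (nat_lit 60755292294) (nat_lit 3) (nat_lit 5) (nat_lit 5) (nat_lit 5) (nat_lit 4) (nat_lit 4) (nat_lit 424) (nat_lit 294) (nat_lit 170))))) (XT.nd (nat_lit 43898) (nat_lit 0) (nat_lit 12096) (XT.nd (nat_lit 94) (nat_lit 0) (nat_lit 0) (XT.lf (nat_lit 0) (nat_lit 14934666450) (nat_lit 168) (nat_lit 12437543103) (nat_lit 84) (nat_lit 65398809209) (nat_lit 3) (nat_lit 5) (nat_lit 5) (nat_lit 5) (nat_lit 4) (nat_lit 4) (nat_lit 425) (nat_lit 294) (nat_lit 169)) (XT.nd (nat_lit 43710) (nat_lit 0) (nat_lit 12432) (XT.lf (nat_lit 0) (nat_lit 16911501839)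 (nat_lit 168) (nat_lit 8451535474) (nat_lit 84) (nat_lit 70184450775) (nat_lit 3) (nat_lit 5) (nat_lit 5) (nat_lit 5) (nat_lit 4) (nat_lit 4) (nat_lit 426) (nat_lit 294) (nat_lit 168)) (XT.lf (nat_lit 0) (nat_lit 1162685562) (nat_lit 84) (nat_lit 898165396) (nat_lit 0) (nat_lit 1162685562) (nat_lit 151) (nat_lit 5) (nat_lit 152) (nat_lit 0) (nat_lit 151) (nat_lit 4) (nat_lit 298) (nat_lit 295) (nat_lit 295)))) (XT.nd (nat_lit 188) (nat_lit 168) (nat_lit 0) (XT.nd (nat_lit 94) (nat_lit 84) (nat_lit 0) (XT.lf (nat_lit 0) (nat_lit 584372751) (nat_lit 84) (nat_lit 4006517339) (nat_lit 84) (nat_lit 1863399526) (nat_lit 150) (nat_lit 4) (nat_lit 151) (nat_lit 5) (nat_lit 151) (nat_lit 4) (nat_lit 299) (nat_lit 295) (nat_lit 294)) (XT.lf (nat_lit 0) (nat_lit 384299682) (nat_lit 168) (nat_lit 3441283929) (nat_lit 84) (nat_lit 2639298051) (nat_lit 149) (nat_lit 5) (nat_lit 151) (nat_lit 5)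 (nat_lit 150) (nat_lit 4) (nat_lit 300) (nat_lit 295) (nat_lit 293))) (XT.nd (nat_lit 94) (nat_lit 168) (nat_lit 0) (XT.lf (nat_lit 0) (nat_lit 2575496632) (nat_lit 168) (nat_lit 1007140199) (nat_lit 84) (nat_lit 2896339628) (nat_lit 149) (nat_lit 5) (nat_lit 151) (nat_lit 5) (nat_lit 150) (nat_lit 4) (nat_lit 301) (nat_lit 295) (nat_lit 292)) (XT.lf (nat_lit 0) (nat_lit 1483150532) (nat_lit 168) (nat_lit 3281339600) (nat_lit 252) (nat_lit 1732213948) (nat_lit 147) (nat_lit 5) (nat_lit 149) (nat_lit 5) (nat_lit 150) (nat_lit 4) (nat_lit 302) (nat_lit 295) (nat_lit 291))))))) (XT.nd (nat_lit 1222) (nat_lit 4116) (nat_lit 0) (XT.nd (nat_lit 564) (nat_lit 1680) (nat_lit 0) (XT.nd (nat_lit 282) (nat_lit 420) (nat_lit 0) (XT.nd (nat_lit 94) (nat_lit 252) (nat_lit 0) (XT.lf (nat_lit 0) (nat_lit 422185786) (nat_lit 252) (nat_lit 2499191251) (nat_lit 84) (nat_lit 3596702990) (nat_lit 146)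 (nat_lit 5) (nat_lit 149) (nat_lit 5) (nat_lit 147) (nat_lit 5) (nat_lit 303) (nat_lit 295) (nat_lit 290)) (XT.nd (nat_lit 94) (nat_lit 0) (nat_lit 0) (XT.lf (nat_lit 0) (nat_lit 26074204) (nat_lit 252) (nat_lit 2499524418) (nat_lit 336) (nat_lit 4017438729) (nat_lit 143) (nat_lit 5) (nat_lit 146) (nat_lit 5) (nat_lit 147) (nat_lit 5) (nat_lit 304) (nat_lit 295) (nat_lit 289)) (XT.lf (nat_lit 0) (nat_lit 2633258190) (nat_lit 252) (nat_lit 2006973251) (nat_lit 336) (nat_lit 1931114844) (nat_lit 143) (nat_lit 5) (nat_lit 146) (nat_lit 5) (nat_lit 147) (nat_lit 5) (nat_lit 305) (nat_lit 295) (nat_lit 288)))) (XT.nd (nat_lit 94) (nat_lit 336) (nat_lit 0) (XT.lf (nat_lit 0) (nat_lit 136136409) (nat_lit 336) (nat_lit 1331793463) (nat_lit 84) (nat_lit 5135844982) (nat_lit 142) (nat_lit 5) (nat_lit 146) (nat_lit 5) (nat_lit 143) (nat_lit 5) (nat_lit 306) (nat_lit 295) (nat_lit 287)) (XT.nd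 (nat_lit 94) (nat_lit 0) (nat_lit 0) (XT.lf (nat_lit 0) (nat_lit 1313172527) (nat_lit 336) (nat_lit 850279424) (nat_lit 420) (nat_lit 4475950815) (nat_lit 138) (nat_lit 5) (nat_lit 142) (nat_lit 5) (nat_lit 143) (nat_lit 5) (nat_lit 307) (nat_lit 295) (nat_lit 286)) (XT.lf (nat_lit 0) (nat_lit 4020029637) (nat_lit 336) (nat_lit 172386022) (nat_lit 420) (nat_lit 2486417053) (nat_lit 138) (nat_lit 5) (nat_lit 142) (nat_lit 5) (nat_lit 143) (nat_lit 5) (nat_lit 308) (nat_lit 295) (nat_lit 285))))) (XT.nd (nat_lit 282) (nat_lit 1176) (nat_lit 0) (XT.nd (nat_lit 94) (nat_lit 84) (nat_lit 0) (XT.lf (nat_lit 0) (nat_lit 36654946) (nat_lit 420) (nat_lit 6180624881) (nat_lit 504) (nat_lit 505058422) (nat_lit 133) (nat_lit 5) (nat_lit 138) (nat_lit 5) (nat_lit 139) (nat_lit 5) (nat_lit 309) (nat_lit 295) (nat_lit 284)) (XT.nd (nat_lit 94) (nat_lit 0) (nat_lit 0) (XT.lf (nat_lit 0) (nat_lit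 1464182686) (nat_lit 504) (nat_lit 3963481016) (nat_lit 84) (nat_lit 1341105527) (nat_lit 132) (nat_lit 5) (nat_lit 138) (nat_lit 5) (nat_lit 133) (nat_lit 5) (nat_lit 310) (nat_lit 295) (nat_lit 283)) (XT.lf (nat_lit 0) (nat_lit 3413797293) (nat_lit 504) (nat_lit 1212380883) (nat_lit 84) (nat_lit 2193185295) (nat_lit 132) (nat_lit 5) (nat_lit 138) (nat_lit 5) (nat_lit 133) (nat_lit 5) (nat_lit 311) (nat_lit 295) (nat_lit 282)))) (XT.nd (nat_lit 188) (nat_lit 588) (nat_lit 0) (XT.nd (nat_lit 94) (nat_lit 84) (nat_lit 0) (XT.lf (nat_lit 0) (nat_lit 1607580822) (nat_lit 504) (nat_lit 3764145022) (nat_lit 588) (nat_lit 1502103236) (nat_lit 126) (nat_lit 5) (nat_lit 132) (nat_lit 5) (nat_lit 133) (nat_lit 5) (nat_lit 312) (nat_lit 295) (nat_lit 281)) (XT.lf (nat_lit 0) (nat_lit 396038635) (nat_lit 588) (nat_lit 2443982777) (nat_lit 84) (nat_lit 4092173184) (nat_lit 125) (nat_lit 5) (nat_lit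 132) (nat_lit 5) (nat_lit 126) (nat_lit 5) (nat_lit 313) (nat_lit 295) (nat_lit 280))) (XT.nd (nat_lit 94) (nat_lit 0) (nat_lit 0) (XT.lf (nat_lit 0) (nat_lit 409822338) (nat_lit 588) (nat_lit 1850266310) (nat_lit 672) (nat_lit 4734345200) (nat_lit 118) (nat_lit 5) (nat_lit 125) (nat_lit 5) (nat_lit 126) (nat_lit 5) (nat_lit 314) (nat_lit 295) (nat_lit 279)) (XT.lf (nat_lit 0) (nat_lit 3355556453) (nat_lit 588) (nat_lit 787579155) (nat_lit 672) (nat_lit 2917277471) (nat_lit 118) (nat_lit 5) (nat_lit 125) (nat_lit 5) (nat_lit 126) (nat_lit 5) (nat_lit 315) (nat_lit 295) (nat_lit 278)))))) (XT.nd (nat_lit 564) (nat_lit 2520) (nat_lit 0) (XT.nd (nat_lit 282) (nat_lit 840) (nat_lit 0) (XT.nd (nat_lit 94) (nat_lit 756) (nat_lit 0) (XT.lf (nat_lit 0) (nat_lit 6025400942) (nat_lit 672) (nat_lit 788458187) (nat_lit 84) (nat_lit 317002204) (nat_lit 118) (nat_lit 5) (nat_lit 126) (nat_lit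 5) (nat_lit 119) (nat_lit 5) (nat_lit 316) (nat_lit 295) (nat_lit 277)) (XT.nd (nat_lit 94) (nat_lit 0) (nat_lit 0) (XT.lf (nat_lit 0) (nat_lit 715892555) (nat_lit 756) (nat_lit 5005584987) (nat_lit 84) (nat_lit 1483305626) (nat_lit 109) (nat_lit 5) (nat_lit 118) (nat_lit 5) (nat_lit 110) (nat_lit 5) (nat_lit 317) (nat_lit 295) (nat_lit 276)) (XT.lf (nat_lit 0) (nat_lit 2518912134) (nat_lit 756) (nat_lit 2045315622) (nat_lit 84) (nat_lit 2718563340) (nat_lit 109) (nat_lit 5) (nat_lit 118) (nat_lit 5) (nat_lit 110) (nat_lit 5) (nat_lit 318) (nat_lit 295) (nat_lit 275)))) (XT.nd (nat_lit 94) (nat_lit 84) (nat_lit 0) (XT.lf (nat_lit 0) (nat_lit 978551660) (nat_lit 756) (nat_lit 3350643131) (nat_lit 840) (nat_lit 3036052050) (nat_lit 100) (nat_lit 5) (nat_lit 109) (nat_lit 5) (nat_lit 110) (nat_lit 5) (nat_lit 319) (nat_lit 295) (nat_lit 274)) (XT.nd (nat_lit 94) (nat_lit 84) (nat_lit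 0) (XT.lf (nat_lit 0) (nat_lit 4092117182) (nat_lit 756) (nat_lit 2067773918) (nat_lit 840) (nat_lit 1291980802) (nat_lit 100) (nat_lit 5) (nat_lit 109) (nat_lit 5) (nat_lit 110) (nat_lit 5) (nat_lit 320) (nat_lit 295) (nat_lit 273)) (XT.lf (nat_lit 0) (nat_lit 439573016) (nat_lit 840) (nat_lit 291611993) (nat_lit 84) (nat_lit 6812065971) (nat_lit 99) (nat_lit 5) (nat_lit 109) (nat_lit 5) (nat_lit 100) (nat_lit 5) (nat_lit 321) (nat_lit 295) (nat_lit 272))))) (XT.nd (nat_lit 282) (nat_lit 756) (nat_lit 0) (XT.nd (nat_lit 94) (nat_lit 924) (nat_lit 0) (XT.lf (nat_lit 0) (nat_lit 2178676189) (nat_lit 924) (nat_lit 4775180781) (nat_lit 84) (nat_lit 684256255) (nat_lit 89) (nat_lit 5) (nat_lit 100) (nat_lit 5) (nat_lit 90) (nat_lit 5) (nat_lit 322) (nat_lit 295) (nat_lit 271)) (XT.nd (nat_lit 94) (nat_lit 924) (nat_lit 0) (XT.lf (nat_lit 0) (nat_lit 3928822709) (nat_lit 924) (nat_lit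 1669777976) (nat_lit 84) (nat_lit 2139092573) (nat_lit 89) (nat_lit 5) (nat_lit 100) (nat_lit 5) (nat_lit 90) (nat_lit 5) (nat_lit 323) (nat_lit 295) (nat_lit 270)) (XT.lf (nat_lit 0) (nat_lit 1515979588) (nat_lit 924) (nat_lit 4180467060) (nat_lit 1008) (nat_lit 2145488365) (nat_lit 78) (nat_lit 5) (nat_lit 89) (nat_lit 5) (nat_lit 90) (nat_lit 5) (nat_lit 324) (nat_lit 295) (nat_lit 269)))) (XT.nd (nat_lit 188) (nat_lit 0) (nat_lit 0) (XT.nd (nat_lit 94) (nat_lit 756) (nat_lit 0) (XT.lf (nat_lit 0) (nat_lit 4789908045) (nat_lit 924) (nat_lit 2695673921) (nat_lit 1008) (nat_lit 465279711) (nat_lit 78) (nat_lit 5) (nat_lit 89) (nat_lit 5) (nat_lit 90) (nat_lit 5) (nat_lit 325) (nat_lit 295) (nat_lit 268)) (XT.lf (nat_lit 0) (nat_lit 44460109) (nat_lit 672) (nat_lit 1147375902) (nat_lit 756) (nat_lit 6872875238) (nat_lit 69) (nat_lit 5) (nat_lit 77) (nat_lit 5) (nat_lit 78) (nat_lit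 5) (nat_lit 326) (nat_lit 295) (nat_lit 267))) (XT.nd (nat_lit 94) (nat_lit 0) (nat_lit 0) (XT.lf (nat_lit 0) (nat_lit 2879437773) (nat_lit 756) (nat_lit 4821867887) (nat_lit 84) (nat_lit 481369468) (nat_lit 69) (nat_lit 5) (nat_lit 78) (nat_lit 5) (nat_lit 70) (nat_lit 5) (nat_lit 327) (nat_lit 295) (nat_lit 266)) (XT.lf (nat_lit 0) (nat_lit 4583559347) (nat_lit 756) (nat_lit 1582144659) (nat_lit 84) (nat_lit 2140074671) (nat_lit 69) (nat_lit 5) (nat_lit 78) (nat_lit 5) (nat_lit 70) (nat_lit 5) (nat_lit 328) (nat_lit 295) (nat_lit 265))))))))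
noncomputable def xc83 : XT := (XT.nd (nat_lit 2350) (nat_lit 1344) (nat_lit 0) (XT.nd (nat_lit 1128) (nat_lit 1344) (nat_lit 0) (XT.nd (nat_lit 564) (nat_lit 840) (nat_lit 0) (XT.nd (nat_lit 282) (nat_lit 840) (nat_lit 0) (XT.nd (nat_lit 94) (nat_lit 84) (nat_lit 0) (XT.lf (nat_lit 0) (nat_lit 1748549798) (nat_lit 504) (nat_lit 4563203075) (nat_lit 588) (nat_lit 2122198894) (nat_lit 63) (nat_lit 5) (nat_lit 69) (nat_lit 5) (nat_lit 70) (nat_lit 5) (nat_lit 329) (nat_lit 295) (nat_lit 264)) (XT.nd (nat_lit 94) (nat_lit 84) (nat_lit 0) (XT.lf (nat_lit 0) (nat_lit 5171799288) (nat_lit 504) (nat_lit 2893081149) (nat_lit 588) (nat_lit 502456640) (nat_lit 63) (nat_lit 5) (nat_lit 69) (nat_lit 5) (nat_lit 70) (nat_lit 5) (nat_lit 330) (nat_lit 295) (nat_lit 263)) (XT.lf (nat_lit 0) (nat_lit 1099396997) (nat_lit 588) (nat_lit 59423398) (nat_lit 84) (nat_lit 7547390053) (nat_lit 62) (nat_lit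 5) (nat_lit 69) (nat_lit 5) (nat_lit 63) (nat_lit 5) (nat_lit 331) (nat_lit 295) (nat_lit 262)))) (XT.nd (nat_lit 94) (nat_lit 420) (nat_lit 0) (XT.lf (nat_lit 0) (nat_lit 2737611528) (nat_lit 504) (nat_lit 5455826821) (nat_lit 84) (nat_lit 656200175) (nat_lit 57) (nat_lit 5) (nat_lit 63) (nat_lit 5) (nat_lit 58) (nat_lit 5) (nat_lit 332) (nat_lit 295) (nat_lit 261)) (XT.nd (nat_lit 94) (nat_lit 420) (nat_lit 0) (XT.lf (nat_lit 0) (nat_lit 4396730725) (nat_lit 504) (nat_lit 2098011252) (nat_lit 84) (nat_lit 2504007838) (nat_lit 57) (nat_lit 5) (nat_lit 63) (nat_lit 5) (nat_lit 58) (nat_lit 5) (nat_lit 333) (nat_lit 295) (nat_lit 260)) (XT.lf (nat_lit 0) (nat_lit 1348370636) (nat_lit 420) (nat_lit 4731203026) (nat_lit 504) (nat_lit 3074070198) (nat_lit 52) (nat_lit 5) (nat_lit 57) (nat_lit 5) (nat_lit 58) (nat_lit 5) (nat_lit 334) (nat_lit 295) (nat_lit 259))))) (XT.nd (nat_lit 282)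 (nat_lit 420) (nat_lit 0) (XT.nd (nat_lit 94) (nat_lit 420) (nat_lit 0) (XT.lf (nat_lit 0) (nat_lit 4903806698) (nat_lit 420) (nat_lit 2892408118) (nat_lit 504) (nat_lit 1517986536) (nat_lit 52) (nat_lit 5) (nat_lit 57) (nat_lit 5) (nat_lit 58) (nat_lit 5) (nat_lit 335) (nat_lit 295) (nat_lit 258)) (XT.nd (nat_lit 94) (nat_lit 336) (nat_lit 0) (XT.lf (nat_lit 0) (nat_lit 44860958) (nat_lit 504) (nat_lit 953213024) (nat_lit 84) (nat_lit 8483142343) (nat_lit 51) (nat_lit 5) (nat_lit 57) (nat_lit 5) (nat_lit 52) (nat_lit 5) (nat_lit 336) (nat_lit 295) (nat_lit 257)) (XT.lf (nat_lit 0) (nat_lit 1621823408) (nat_lit 420) (nat_lit 7056130099) (nat_lit 84) (nat_lit 975327489) (nat_lit 47) (nat_lit 5) (nat_lit 52) (nat_lit 5) (nat_lit 48) (nat_lit 5) (nat_lit 337) (nat_lit 295) (nat_lit 256)))) (XT.nd (nat_lit 94) (nat_lit 420) (nat_lit 0) (XT.lf (nat_lit 0) (nat_lit 3230122493) (nat_lit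 420) (nat_lit 3604704331) (nat_lit 84) (nat_lit 2996655540) (nat_lit 47) (nat_lit 5) (nat_lit 52) (nat_lit 5) (nat_lit 48) (nat_lit 5) (nat_lit 338) (nat_lit 295) (nat_lit 255)) (XT.nd (nat_lit 94) (nat_lit 420) (nat_lit 0) (XT.lf (nat_lit 0) (nat_lit 4851607171) (nat_lit 420) (nat_lit 86834415) (nat_lit 84) (nat_lit 5078154101) (nat_lit 47) (nat_lit 5) (nat_lit 52) (nat_lit 5) (nat_lit 48) (nat_lit 5) (nat_lit 339) (nat_lit 295) (nat_lit 254)) (XT.lf (nat_lit 0) (nat_lit 3572741448) (nat_lit 420) (nat_lit 2950489426) (nat_lit 504) (nat_lit 3684463933) (nat_lit 42) (nat_lit 5) (nat_lit 47) (nat_lit 5) (nat_lit 48) (nat_lit 5) (nat_lit 340) (nat_lit 295) (nat_lit 253)))))) (XT.nd (nat_lit 564) (nat_lit 588) (nat_lit 0) (XT.nd (nat_lit 282) (nat_lit 336) (nat_lit 0) (XT.nd (nat_lit 94) (nat_lit 420) (nat_lit 0) (XT.lf (nat_lit 0) (nat_lit 7308672400) (nat_lit 420) (nat_lit 904023116)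 (nat_lit 504) (nat_lit 2193311874) (nat_lit 42) (nat_lit 5) (nat_lit 47) (nat_lit 5) (nat_lit 48) (nat_lit 5) (nat_lit 341) (nat_lit 295) (nat_lit 252)) (XT.nd (nat_lit 94) (nat_lit 84) (nat_lit 0) (XT.lf (nat_lit 0) (nat_lit 509246288) (nat_lit 336) (nat_lit 9428425812) (nat_lit 420) (nat_lit 673547201) (nat_lit 38) (nat_lit 5) (nat_lit 42) (nat_lit 5) (nat_lit 43) (nat_lit 5) (nat_lit 342) (nat_lit 295) (nat_lit 251)) (XT.lf (nat_lit 0) (nat_lit 883440363) (nat_lit 420) (nat_lit 6586452126) (nat_lit 84) (nat_lit 3352589572) (nat_lit 37) (nat_lit 5) (nat_lit 42) (nat_lit 5) (nat_lit 38) (nat_lit 5) (nat_lit 343) (nat_lit 295) (nat_lit 250)))) (XT.nd (nat_lit 94) (nat_lit 336) (nat_lit 0) (XT.lf (nat_lit 0) (nat_lit 2441921896) (nat_lit 420) (nat_lit 3007167115) (nat_lit 84) (nat_lit 5592216524) (nat_lit 37) (nat_lit 5) (nat_lit 42) (nat_lit 5) (nat_lit 38) (nat_lit 5) (nat_lit 344)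 (nat_lit 295) (nat_lit 249)) (XT.nd (nat_lit 94) (nat_lit 0) (nat_lit 0) (XT.lf (nat_lit 0) (nat_lit 659180985) (nat_lit 336) (nat_lit 3364278712) (nat_lit 420) (nat_lit 7244438414) (nat_lit 33) (nat_lit 5) (nat_lit 37) (nat_lit 5) (nat_lit 38) (nat_lit 5) (nat_lit 345) (nat_lit 295) (nat_lit 248)) (XT.lf (nat_lit 0) (nat_lit 4466136840) (nat_lit 336) (nat_lit 1188072150) (nat_lit 420) (nat_lit 5847496890) (nat_lit 33) (nat_lit 5) (nat_lit 37) (nat_lit 5) (nat_lit 38) (nat_lit 5) (nat_lit 346) (nat_lit 295) (nat_lit 247))))) (XT.nd (nat_lit 282) (nat_lit 336) (nat_lit 0) (XT.nd (nat_lit 94) (nat_lit 252) (nat_lit 0) (XT.lf (nat_lit 0) (nat_lit 7315662759) (nat_lit 420) (nat_lit 3398892985) (nat_lit 84) (nat_lit 1029011873) (nat_lit 33) (nat_lit 5) (nat_lit 38) (nat_lit 5) (nat_lit 34) (nat_lit 5) (nat_lit 347) (nat_lit 295) (nat_lit 246)) (XT.nd (nat_lit 94) (nat_lit 0) (nat_lit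 0) (XT.lf (nat_lit 0) (nat_lit 308930676) (nat_lit 252) (nat_lit 8705497998) (nat_lit 336) (nat_lit 2979123257) (nat_lit 30) (nat_lit 5) (nat_lit 33) (nat_lit 5) (nat_lit 34) (nat_lit 5) (nat_lit 348) (nat_lit 295) (nat_lit 245)) (XT.lf (nat_lit 0) (nat_lit 4168450234) (nat_lit 252) (nat_lit 6604008903) (nat_lit 336) (nat_lit 1478801259) (nat_lit 30) (nat_lit 5) (nat_lit 33) (nat_lit 5) (nat_lit 34) (nat_lit 5) (nat_lit 349) (nat_lit 295) (nat_lit 244)))) (XT.nd (nat_lit 188) (nat_lit 252) (nat_lit 0) (XT.nd (nat_lit 94) (nat_lit 0) (nat_lit 0) (XT.lf (nat_lit 0) (nat_lit 38196717) (nat_lit 336) (nat_lit 4405011709) (nat_lit 84) (nat_lit 8074779542) (nat_lit 29) (nat_lit 5) (nat_lit 33) (nat_lit 5) (nat_lit 30) (nat_lit 5) (nat_lit 350) (nat_lit 295) (nat_lit 243)) (XT.lf (nat_lit 0) (nat_lit 1543895946) (nat_lit 336) (nat_lit 662267880) (nat_lit 84) (nat_lit 10587370865) (nat_lit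 29) (nat_lit 5) (nat_lit 33) (nat_lit 5) (nat_lit 30) (nat_lit 5) (nat_lit 351) (nat_lit 295) (nat_lit 242))) (XT.nd (nat_lit 94) (nat_lit 0) (nat_lit 0) (XT.lf (nat_lit 0) (nat_lit 3102783767) (nat_lit 336) (nat_lit 9850250674) (nat_lit 84) (nat_lit 124545764) (nat_lit 26) (nat_lit 5) (nat_lit 30) (nat_lit 5) (nat_lit 27) (nat_lit 5) (nat_lit 352) (nat_lit 295) (nat_lit 241)) (XT.lf (nat_lit 0) (nat_lit 4713186435) (nat_lit 336) (nat_lit 6174801751) (nat_lit 84) (nat_lit 2482498011) (nat_lit 26) (nat_lit 5) (nat_lit 30) (nat_lit 5) (nat_lit 27) (nat_lit 5) (nat_lit 353) (nat_lit 295) (nat_lit 240))))))) (XT.nd (nat_lit 1222) (nat_lit 588) (nat_lit 0) (XT.nd (nat_lit 564) (nat_lit 252) (nat_lit 0) (XT.nd (nat_lit 282) (nat_lit 252) (nat_lit 0) (XT.nd (nat_lit 94) (nat_lit 252) (nat_lit 0) (XT.lf (nat_lit 0) (nat_lit 6347946155) (nat_lit 336) (nat_lit 2417901345) (nat_lit 84) (nat_lit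 4907566614) (nat_lit 26) (nat_lit 5) (nat_lit 30) (nat_lit 5) (nat_lit 27) (nat_lit 5) (nat_lit 354) (nat_lit 295) (nat_lit 239)) (XT.nd (nat_lit 94) (nat_lit 0) (nat_lit 0) (XT.lf (nat_lit 0) (nat_lit 1453231749) (nat_lit 252) (nat_lit 6569771182) (nat_lit 336) (nat_lit 5963196479) (nat_lit 23) (nat_lit 5) (nat_lit 26) (nat_lit 5) (nat_lit 27) (nat_lit 5) (nat_lit 355) (nat_lit 295) (nat_lit 238)) (XT.lf (nat_lit 0) (nat_lit 5464436621) (nat_lit 252) (nat_lit 4286427206) (nat_lit 336) (nat_lit 4557930491) (nat_lit 23) (nat_lit 5) (nat_lit 26) (nat_lit 5) (nat_lit 27) (nat_lit 5) (nat_lit 356) (nat_lit 295) (nat_lit 237)))) (XT.nd (nat_lit 94) (nat_lit 252) (nat_lit 0) (XT.lf (nat_lit 0) (nat_lit 9569735121) (nat_lit 252) (nat_lit 1938925190) (nat_lit 336) (nat_lit 3133598070) (nat_lit 23) (nat_lit 5) (nat_lit 26) (nat_lit 5) (nat_lit 27) (nat_lit 5) (nat_lit 357) (nat_lit 295) (nat_lit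 236)) (XT.nd (nat_lit 94) (nat_lit 252) (nat_lit 0) (XT.lf (nat_lit 0) (nat_lit 13302742127) (nat_lit 336) (nat_lit 1218659900) (nat_lit 84) (nat_lit 465354345) (nat_lit 23) (nat_lit 5) (nat_lit 27) (nat_lit 5) (nat_lit 24) (nat_lit 5) (nat_lit 358) (nat_lit 295) (nat_lit 235)) (XT.lf (nat_lit 0) (nat_lit 2761258621) (nat_lit 252) (nat_lit 12416114127) (nat_lit 336) (nat_lit 163916325) (nat_lit 20) (nat_lit 5) (nat_lit 23) (nat_lit 5) (nat_lit 24) (nat_lit 5) (nat_lit 359) (nat_lit 295) (nat_lit 234))))) (XT.nd (nat_lit 282) (nat_lit 168) (nat_lit 0) (XT.nd (nat_lit 94) (nat_lit 0) (nat_lit 0) (XT.lf (nat_lit 0) (nat_lit 1365628628) (nat_lit 336) (nat_lit 8859578961) (nat_lit 84) (nat_lit 5481585208) (nat_lit 19) (nat_lit 5) (nat_lit 23) (nat_lit 5) (nat_lit 20) (nat_lit 5) (nat_lit 360) (nat_lit 295) (nat_lit 233)) (XT.nd (nat_lit 94) (nat_lit 0) (nat_lit 0) (XT.lf (nat_lit 0) (nat_lit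 2917600695) (nat_lit 336) (nat_lit 5054082479) (nat_lit 84) (nat_lit 8112678044) (nat_lit 19) (nat_lit 5) (nat_lit 23) (nat_lit 5) (nat_lit 20) (nat_lit 5) (nat_lit 361) (nat_lit 295) (nat_lit 232)) (XT.lf (nat_lit 0) (nat_lit 4496749026) (nat_lit 336) (nat_lit 1158367814) (nat_lit 84) (nat_lit 10819279840) (nat_lit 19) (nat_lit 5) (nat_lit 23) (nat_lit 5) (nat_lit 20) (nat_lit 5) (nat_lit 362) (nat_lit 295) (nat_lit 231)))) (XT.nd (nat_lit 188) (nat_lit 0) (nat_lit 0) (XT.nd (nat_lit 94) (nat_lit 0) (nat_lit 0) (XT.lf (nat_lit 0) (nat_lit 2889411447) (nat_lit 168) (nat_lit 3243797424) (nat_lit 252) (nat_lit 10743165302) (nat_lit 17) (nat_lit 5) (nat_lit 19) (nat_lit 5) (nat_lit 20) (nat_lit 5) (nat_lit 363) (nat_lit 295) (nat_lit 230)) (XT.lf (nat_lit 0) (nat_lit 7060583416) (nat_lit 168) (nat_lit 751947353) (nat_lit 252) (nat_lit 9478632832) (nat_lit 17) (nat_lit 5) (nat_lit 19)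 (nat_lit 5) (nat_lit 20) (nat_lit 5) (nat_lit 364) (nat_lit 295) (nat_lit 229))) (XT.nd (nat_lit 94) (nat_lit 0) (nat_lit 0) (XT.lf (nat_lit 0) (nat_lit 9542514613) (nat_lit 252) (nat_lit 6402259523) (nat_lit 84) (nat_lit 1774184185) (nat_lit 17) (nat_lit 5) (nat_lit 20) (nat_lit 5) (nat_lit 18) (nat_lit 5) (nat_lit 365) (nat_lit 295) (nat_lit 228)) (XT.lf (nat_lit 0) (nat_lit 11314979240) (nat_lit 252) (nat_lit 2488638654) (nat_lit 84) (nat_lit 4356842789) (nat_lit 17) (nat_lit 5) (nat_lit 20) (nat_lit 5) (nat_lit 18) (nat_lit 5) (nat_lit 366) (nat_lit 295) (nat_lit 227)))))) (XT.nd (nat_lit 564) (nat_lit 168) (nat_lit 0) (XT.nd (nat_lit 282) (nat_lit 252) (nat_lit 0) (XT.nd (nat_lit 94) (nat_lit 0) (nat_lit 0) (XT.lf (nat_lit 0) (nat_lit 1552672627) (nat_lit 168) (nat_lit 11586847440) (nat_lit 252) (nat_lit 5476315907) (nat_lit 15) (nat_lit 5) (nat_lit 17) (nat_lit 5) (nat_lit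 18) (nat_lit 5) (nat_lit 367) (nat_lit 295) (nat_lit 226)) (XT.nd (nat_lit 94) (nat_lit 0) (nat_lit 0) (XT.lf (nat_lit 0) (nat_lit 5747359905) (nat_lit 168) (nat_lit 9281269906) (nat_lit 252) (nat_lit 4056544288) (nat_lit 15) (nat_lit 5) (nat_lit 17) (nat_lit 5) (nat_lit 18) (nat_lit 5) (nat_lit 368) (nat_lit 295) (nat_lit 225)) (XT.lf (nat_lit 0) (nat_lit 10048161550) (nat_lit 168) (nat_lit 6910712535) (nat_lit 252) (nat_lit 2610819495) (nat_lit 15) (nat_lit 5) (nat_lit 17) (nat_lit 5) (nat_lit 18) (nat_lit 5) (nat_lit 369) (nat_lit 295) (nat_lit 224)))) (XT.nd (nat_lit 94) (nat_lit 252) (nat_lit 0) (XT.lf (nat_lit 0) (nat_lit 14459086360) (nat_lit 168) (nat_lit 4472965720) (nat_lit 252) (nat_lit 1137793960) (nat_lit 15) (nat_lit 5) (nat_lit 17) (nat_lit 5) (nat_lit 18) (nat_lit 5) (nat_lit 370) (nat_lit 295) (nat_lit 223)) (XT.nd (nat_lit 94) (nat_lit 168) (nat_lit 0) (XT.lf (nat_lit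 0) (nat_lit 356573449) (nat_lit 252) (nat_lit 1605461881) (nat_lit 84) (nat_lit 18623950435) (nat_lit 14) (nat_lit 5) (nat_lit 17) (nat_lit 5) (nat_lit 15) (nat_lit 5) (nat_lit 371) (nat_lit 295) (nat_lit 222)) (XT.lf (nat_lit 0) (nat_lit 1889228376) (nat_lit 252) (nat_lit 18582774177) (nat_lit 84) (nat_lit 645360102) (nat_lit 12) (nat_lit 5) (nat_lit 15) (nat_lit 5) (nat_lit 13) (nat_lit 5) (nat_lit 372) (nat_lit 295) (nat_lit 221))))) (XT.nd (nat_lit 282) (nat_lit 168) (nat_lit 0) (XT.nd (nat_lit 94) (nat_lit 0) (nat_lit 0) (XT.lf (nat_lit 0) (nat_lit 3490450824) (nat_lit 252) (nat_lit 14870441194) (nat_lit 84) (nat_lit 3303746141) (nat_lit 12) (nat_lit 5) (nat_lit 15) (nat_lit 5) (nat_lit 13) (nat_lit 5) (nat_lit 373) (nat_lit 295) (nat_lit 220)) (XT.nd (nat_lit 94) (nat_lit 0) (nat_lit 0) (XT.lf (nat_lit 0) (nat_lit 5125849569) (nat_lit 252) (nat_lit 11064874001) (nat_lit 84)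 (nat_lit 6038711222) (nat_lit 12) (nat_lit 5) (nat_lit 15) (nat_lit 5) (nat_lit 13) (nat_lit 5) (nat_lit 374) (nat_lit 295) (nat_lit 219)) (XT.lf (nat_lit 0) (nat_lit 6796948972) (nat_lit 252) (nat_lit 7162525410) (nat_lit 84) (nat_lit 8852804618) (nat_lit 12) (nat_lit 5) (nat_lit 15) (nat_lit 5) (nat_lit 13) (nat_lit 5) (nat_lit 375) (nat_lit 295) (nat_lit 218)))) (XT.nd (nat_lit 188) (nat_lit 0) (nat_lit 0) (XT.nd (nat_lit 94) (nat_lit 168) (nat_lit 0) (XT.lf (nat_lit 0) (nat_lit 8505306675) (nat_lit 252) (nat_lit 3159758025) (nat_lit 84) (nat_lit 11748649358) (nat_lit 12) (nat_lit 5) (nat_lit 15) (nat_lit 5) (nat_lit 13) (nat_lit 5) (nat_lit 376) (nat_lit 295) (nat_lit 217)) (XT.lf (nat_lit 0) (nat_lit 966634688) (nat_lit 168) (nat_lit 9295469493) (nat_lit 252) (nat_lit 13771899122) (nat_lit 10) (nat_lit 5) (nat_lit 12) (nat_lit 5) (nat_lit 13) (nat_lit 5) (nat_lit 377) (nat_lit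 295) (nat_lit 216))) (XT.nd (nat_lit 94) (nat_lit 0) (nat_lit 0) (XT.lf (nat_lit 0) (nat_lit 5268196624) (nat_lit 168) (nat_lit 6824267203) (nat_lit 252) (nat_lit 12580533052) (nat_lit 10) (nat_lit 5) (nat_lit 12) (nat_lit 5) (nat_lit 13) (nat_lit 5) (nat_lit 378) (nat_lit 295) (nat_lit 215)) (XT.lf (nat_lit 0) (nat_lit 9683966183) (nat_lit 168) (nat_lit 4282135804) (nat_lit 252) (nat_lit 11366180089) (nat_lit 10) (nat_lit 5) (nat_lit 12) (nat_lit 5) (nat_lit 13) (nat_lit 5) (nat_lit 379) (nat_lit 295) (nat_lit 214))))))))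
noncomputable def xc84 : XT := (XT.nd (nat_lit 2350) (nat_lit 168) (nat_lit 0) (XT.nd (nat_lit 1128) (nat_lit 84) (nat_lit 0) (XT.nd (nat_lit 564) (nat_lit 252) (nat_lit 0) (XT.nd (nat_lit 282) (nat_lit 84) (nat_lit 0) (XT.nd (nat_lit 94) (nat_lit 0) (nat_lit 0) (XT.lf (nat_lit 0) (nat_lit 14218059326) (nat_lit 168) (nat_lit 1666705763) (nat_lit 252) (nat_lit 10127708329) (nat_lit 10) (nat_lit 5) (nat_lit 12) (nat_lit 5) (nat_lit 13) (nat_lit 5) (nat_lit 380) (nat_lit 295) (nat_lit 213)) (XT.nd (nat_lit 94) (nat_lit 0) (nat_lit 0) (XT.lf (nat_lit 0) (nat_lit 17860404305) (nat_lit 252) (nat_lit 7849665392) (nat_lit 84) (nat_lit 1003820171) (nat_lit 10) (nat_lit 5) (nat_lit 13) (nat_lit 5) (nat_lit 11) (nat_lit 4) (nat_lit 381) (nat_lit 295) (nat_lit 212)) (XT.lf (nat_lit 0) (nat_lit 19901999015) (nat_lit 252) (nat_lit 3817530747) (nat_lit 84) (nat_lit 3717434184) (nat_lit 10) (nat_lit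 5) (nat_lit 13) (nat_lit 5) (nat_lit 11) (nat_lit 4) (nat_lit 382) (nat_lit 295) (nat_lit 211)))) (XT.nd (nat_lit 94) (nat_lit 0) (nat_lit 0) (XT.lf (nat_lit 0) (nat_lit 328908922) (nat_lit 84) (nat_lit 21669272166) (nat_lit 168) (nat_lit 6184599948) (nat_lit 9) (nat_lit 5) (nat_lit 10) (nat_lit 5) (nat_lit 11) (nat_lit 4) (nat_lit 383) (nat_lit 295) (nat_lit 210)) (XT.nd (nat_lit 94) (nat_lit 0) (nat_lit 0) (XT.lf (nat_lit 0) (nat_lit 4667675264) (nat_lit 84) (nat_lit 19519741544) (nat_lit 168) (nat_lit 4763487624) (nat_lit 9) (nat_lit 5) (nat_lit 10) (nat_lit 5) (nat_lit 11) (nat_lit 4) (nat_lit 384) (nat_lit 295) (nat_lit 209)) (XT.lf (nat_lit 0) (nat_lit 9124316203) (nat_lit 84) (nat_lit 17308781501) (nat_lit 168) (nat_lit 3310150525) (nat_lit 9) (nat_lit 5) (nat_lit 10) (nat_lit 5) (nat_lit 11) (nat_lit 4) (nat_lit 385) (nat_lit 295) (nat_lit 208))))) (XT.nd (nat_lit 282) (nat_lit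 168) (nat_lit 0) (XT.nd (nat_lit 94) (nat_lit 84) (nat_lit 0) (XT.lf (nat_lit 0) (nat_lit 13702985794) (nat_lit 84) (nat_lit 15034331191) (nat_lit 168) (nat_lit 1823233988) (nat_lit 9) (nat_lit 5) (nat_lit 10) (nat_lit 5) (nat_lit 11) (nat_lit 4) (nat_lit 386) (nat_lit 295) (nat_lit 207)) (XT.nd (nat_lit 94) (nat_lit 84) (nat_lit 0) (XT.lf (nat_lit 0) (nat_lit 18407951837) (nat_lit 84) (nat_lit 12694270588) (nat_lit 168) (nat_lit 301352051) (nat_lit 9) (nat_lit 5) (nat_lit 10) (nat_lit 5) (nat_lit 11) (nat_lit 4) (nat_lit 387) (nat_lit 295) (nat_lit 206)) (XT.lf (nat_lit 0) (nat_lit 1231589824) (nat_lit 168) (nat_lit 9041973412) (nat_lit 84) (nat_lit 21999154756) (nat_lit 8) (nat_lit 5) (nat_lit 10) (nat_lit 5) (nat_lit 9) (nat_lit 5) (nat_lit 388) (nat_lit 295) (nat_lit 205)))) (XT.nd (nat_lit 94) (nat_lit 168) (nat_lit 0) (XT.lf (nat_lit 0) (nat_lit 2795534229) (nat_lit 168) (nat_lit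 4983816711) (nat_lit 84) (nat_lit 25389723298) (nat_lit 8) (nat_lit 5) (nat_lit 10) (nat_lit 5) (nat_lit 9) (nat_lit 5) (nat_lit 389) (nat_lit 295) (nat_lit 204)) (XT.nd (nat_lit 94) (nat_lit 168) (nat_lit 0) (XT.lf (nat_lit 0) (nat_lit 4398010495) (nat_lit 168) (nat_lit 814380460) (nat_lit 84) (nat_lit 28881180432) (nat_lit 8) (nat_lit 5) (nat_lit 10) (nat_lit 5) (nat_lit 9) (nat_lit 5) (nat_lit 390) (nat_lit 295) (nat_lit 203)) (XT.lf (nat_lit 0) (nat_lit 3541576568) (nat_lit 168) (nat_lit 2534068606) (nat_lit 252) (nat_lit 28970336869) (nat_lit 6) (nat_lit 5) (nat_lit 8) (nat_lit 5) (nat_lit 9) (nat_lit 5) (nat_lit 391) (nat_lit 295) (nat_lit 202)))))) (XT.nd (nat_lit 564) (nat_lit 84) (nat_lit 0) (XT.nd (nat_lit 282) (nat_lit 0) (nat_lit 0) (XT.nd (nat_lit 94) (nat_lit 0) (nat_lit 0) (XT.lf (nat_lit 0) (nat_lit 7806585139) (nat_lit 252) (nat_lit 27994399918) (nat_lit 84) (nat_lit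 226934821) (nat_lit 6) (nat_lit 5) (nat_lit 9) (nat_lit 5) (nat_lit 7) (nat_lit 4) (nat_lit 392) (nat_lit 295) (nat_lit 201)) (XT.nd (nat_lit 94) (nat_lit 0) (nat_lit 0) (XT.lf (nat_lit 0) (nat_lit 9607845303) (nat_lit 252) (nat_lit 24415310771) (nat_lit 84) (nat_lit 3016666641) (nat_lit 6) (nat_lit 5) (nat_lit 9) (nat_lit 5) (nat_lit 7) (nat_lit 4) (nat_lit 393) (nat_lit 295) (nat_lit 200)) (XT.lf (nat_lit 0) (nat_lit 11455966352) (nat_lit 252) (nat_lit 20738663674) (nat_lit 84) (nat_lit 5888783012) (nat_lit 6) (nat_lit 5) (nat_lit 9) (nat_lit 5) (nat_lit 7) (nat_lit 4) (nat_lit 394) (nat_lit 295) (nat_lit 199)))) (XT.nd (nat_lit 94) (nat_lit 0) (nat_lit 0) (XT.lf (nat_lit 0) (nat_lit 13352670931) (nat_lit 252) (nat_lit 16961031606) (nat_lit 84) (nat_lit 8845961047) (nat_lit 6) (nat_lit 5) (nat_lit 9) (nat_lit 5) (nat_lit 7) (nat_lit 4) (nat_lit 395) (nat_lit 295) (nat_lit 198))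 (XT.nd (nat_lit 94) (nat_lit 0) (nat_lit 0) (XT.lf (nat_lit 0) (nat_lit 15299726966) (nat_lit 252) (nat_lit 13078893420) (nat_lit 84) (nat_lit 11890957146) (nat_lit 6) (nat_lit 5) (nat_lit 9) (nat_lit 5) (nat_lit 7) (nat_lit 4) (nat_lit 396) (nat_lit 295) (nat_lit 197)) (XT.lf (nat_lit 0) (nat_lit 17298949317) (nat_lit 252) (nat_lit 9088630556) (nat_lit 84) (nat_lit 15026609564) (nat_lit 6) (nat_lit 5) (nat_lit 9) (nat_lit 5) (nat_lit 7) (nat_lit 4) (nat_lit 397) (nat_lit 295) (nat_lit 196))))) (XT.nd (nat_lit 282) (nat_lit 0) (nat_lit 0) (XT.nd (nat_lit 94) (nat_lit 84) (nat_lit 0) (XT.lf (nat_lit 0) (nat_lit 19352201469) (nat_lit 252) (nat_lit 4986523670) (nat_lit 84) (nat_lit 18255841057) (nat_lit 6) (nat_lit 5) (nat_lit 9) (nat_lit 5) (nat_lit 7) (nat_lit 4) (nat_lit 398) (nat_lit 295) (nat_lit 195)) (XT.nd (nat_lit 94) (nat_lit 84) (nat_lit 0) (XT.lf (nat_lit 0) (nat_lit 21461397269)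 (nat_lit 252) (nat_lit 768749169) (nat_lit 84) (nat_lit 21581661607) (nat_lit 6) (nat_lit 5) (nat_lit 9) (nat_lit 5) (nat_lit 7) (nat_lit 4) (nat_lit 399) (nat_lit 295) (nat_lit 194)) (XT.lf (nat_lit 0) (nat_lit 3642002589) (nat_lit 84) (nat_lit 20022629234) (nat_lit 168) (nat_lit 21401297755) (nat_lit 5) (nat_lit 5) (nat_lit 6) (nat_lit 5) (nat_lit 7) (nat_lit 4) (nat_lit 400) (nat_lit 295) (nat_lit 193)))) (XT.nd (nat_lit 188) (nat_lit 0) (nat_lit 0) (XT.nd (nat_lit 94) (nat_lit 0) (nat_lit 0) (XT.lf (nat_lit 0) (nat_lit 8194745648) (nat_lit 84) (nat_lit 17742084997) (nat_lit 168) (nat_lit 20422110097) (nat_lit 5) (nat_lit 5) (nat_lit 6) (nat_lit 5) (nat_lit 7) (nat_lit 4) (nat_lit 401) (nat_lit 295) (nat_lit 192)) (XT.lf (nat_lit 0) (nat_lit 12877916580) (nat_lit 84) (nat_lit 15394412184) (nat_lit 168) (nat_lit 19419959261) (nat_lit 5) (nat_lit 5) (nat_lit 6) (nat_lit 5) (nat_lit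 7) (nat_lit 4) (nat_lit 402) (nat_lit 295) (nat_lit 191))) (XT.nd (nat_lit 94) (nat_lit 0) (nat_lit 0) (XT.lf (nat_lit 0) (nat_lit 17695880591) (nat_lit 84) (nat_lit 12977422520) (nat_lit 168) (nat_lit 18393911138) (nat_lit 5) (nat_lit 5) (nat_lit 6) (nat_lit 5) (nat_lit 7) (nat_lit 4) (nat_lit 403) (nat_lit 295) (nat_lit 190)) (XT.lf (nat_lit 0) (nat_lit 22653128530) (nat_lit 84) (nat_lit 10488863116) (nat_lit 168) (nat_lit 17343009343) (nat_lit 5) (nat_lit 5) (nat_lit 6) (nat_lit 5) (nat_lit 7) (nat_lit 4) (nat_lit 404) (nat_lit 295) (nat_lit 189))))))) (XT.nd (nat_lit 1222) (nat_lit 84) (nat_lit 0) (XT.nd (nat_lit 564) (nat_lit 84) (nat_lit 0) (XT.nd (nat_lit 282) (nat_lit 0) (nat_lit 0) (XT.nd (nat_lit 94) (nat_lit 0) (nat_lit 0) (XT.lf (nat_lit 0) (nat_lit 27754281069) (nat_lit 84) (nat_lit 7926414374) (nat_lit 168) (nat_lit 16266274325) (nat_lit 5) (nat_lit 5) (nat_lit 6) (nat_lit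 5) (nat_lit 7) (nat_lit 4) (nat_lit 405) (nat_lit 295) (nat_lit 188)) (XT.nd (nat_lit 94) (nat_lit 0) (nat_lit 0) (XT.lf (nat_lit 0) (nat_lit 33004093017) (nat_lit 84) (nat_lit 5287687824) (nat_lit 168) (nat_lit 15162702456) (nat_lit 5) (nat_lit 5) (nat_lit 6) (nat_lit 5) (nat_lit 7) (nat_lit 4) (nat_lit 406) (nat_lit 295) (nat_lit 187)) (XT.lf (nat_lit 0) (nat_lit 38407457750) (nat_lit 84) (nat_lit 2570223896) (nat_lit 168) (nat_lit 14031265090) (nat_lit 5) (nat_lit 5) (nat_lit 6) (nat_lit 5) (nat_lit 7) (nat_lit 4) (nat_lit 407) (nat_lit 295) (nat_lit 186)))) (XT.nd (nat_lit 94) (nat_lit 0) (nat_lit 0) (XT.lf (nat_lit 0) (nat_lit 43743168250) (nat_lit 168) (nat_lit 12644664090) (nat_lit 0) (nat_lit 223906395) (nat_lit 5) (nat_lit 5) (nat_lit 7) (nat_lit 4) (nat_lit 5) (nat_lit 4) (nat_lit 408) (nat_lit 295) (nat_lit 185)) (XT.nd (nat_lit 94) (nat_lit 0) (nat_lit 0) (XT.lf (nat_lit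 0) (nat_lit 46614878441) (nat_lit 168) (nat_lit 8600287481) (nat_lit 0) (nat_lit 3048441479) (nat_lit 5) (nat_lit 5) (nat_lit 7) (nat_lit 4) (nat_lit 5) (nat_lit 4) (nat_lit 409) (nat_lit 295) (nat_lit 184)) (XT.lf (nat_lit 0) (nat_lit 49569992014) (nat_lit 168) (nat_lit 4439092439) (nat_lit 0) (nat_lit 5957798403) (nat_lit 5) (nat_lit 5) (nat_lit 7) (nat_lit 4) (nat_lit 5) (nat_lit 4) (nat_lit 410) (nat_lit 295) (nat_lit 183))))) (XT.nd (nat_lit 282) (nat_lit 0) (nat_lit 0) (XT.nd (nat_lit 94) (nat_lit 84) (nat_lit 0) (XT.lf (nat_lit 0) (nat_lit 52611263446) (nat_lit 168) (nat_lit 157200292) (nat_lit 0) (nat_lit 8954688991) (nat_lit 5) (nat_lit 5) (nat_lit 7) (nat_lit 4) (nat_lit 5) (nat_lit 4) (nat_lit 411) (nat_lit 295) (nat_lit 182)) (XT.nd (nat_lit 94) (nat_lit 0) (nat_lit 0) (XT.lf (nat_lit 0) (nat_lit 4336756099) (nat_lit 84) (nat_lit 51447792577) (nat_lit 84) (nat_lit 7748171717)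 (nat_lit 4) (nat_lit 4) (nat_lit 5) (nat_lit 5) (nat_lit 5) (nat_lit 4) (nat_lit 412) (nat_lit 295) (nat_lit 181)) (XT.lf (nat_lit 0) (nat_lit 8965388826) (nat_lit 84) (nat_lit 50087250910) (nat_lit 84) (nat_lit 6345877959) (nat_lit 4) (nat_lit 4) (nat_lit 5) (nat_lit 5) (nat_lit 5) (nat_lit 4) (nat_lit 413) (nat_lit 295) (nat_lit 180)))) (XT.nd (nat_lit 188) (nat_lit 0) (nat_lit 0) (XT.nd (nat_lit 94) (nat_lit 0) (nat_lit 0) (XT.lf (nat_lit 0) (nat_lit 13729779896) (nat_lit 84) (nat_lit 48687211418) (nat_lit 84) (nat_lit 4905341774) (nat_lit 4) (nat_lit 4) (nat_lit 5) (nat_lit 5) (nat_lit 5) (nat_lit 4) (nat_lit 414) (nat_lit 295) (nat_lit 179)) (XT.lf (nat_lit 0) (nat_lit 18634370222) (nat_lit 84) (nat_lit 47246369118) (nat_lit 84) (nat_lit 3425220431) (nat_lit 4) (nat_lit 4) (nat_lit 5) (nat_lit 5) (nat_lit 5) (nat_lit 4) (nat_lit 415) (nat_lit 295) (nat_lit 178))) (XT.nd (nat_lit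 94) (nat_lit 0) (nat_lit 0) (XT.lf (nat_lit 0) (nat_lit 23683731395) (nat_lit 84) (nat_lit 45763380994) (nat_lit 84) (nat_lit 1904134303) (nat_lit 4) (nat_lit 4) (nat_lit 5) (nat_lit 5) (nat_lit 5) (nat_lit 4) (nat_lit 416) (nat_lit 295) (nat_lit 177)) (XT.lf (nat_lit 0) (nat_lit 28882569950) (nat_lit 84) (nat_lit 44236864746) (nat_lit 84) (nat_lit 340665577) (nat_lit 4) (nat_lit 4) (nat_lit 5) (nat_lit 5) (nat_lit 5) (nat_lit 4) (nat_lit 417) (nat_lit 295) (nat_lit 176)))))) (XT.nd (nat_lit 564) (nat_lit 0) (nat_lit 0) (XT.nd (nat_lit 282) (nat_lit 0) (nat_lit 0) (XT.nd (nat_lit 94) (nat_lit 0) (nat_lit 0) (XT.lf (nat_lit 0) (nat_lit 1241123026) (nat_lit 168) (nat_lit 41411319695) (nat_lit 84) (nat_lit 32981653942) (nat_lit 3) (nat_lit 5) (nat_lit 5) (nat_lit 5) (nat_lit 4) (nat_lit 4) (nat_lit 418) (nat_lit 295) (nat_lit 175)) (XT.nd (nat_lit 94) (nat_lit 0) (nat_lit 0) (XT.lf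 (nat_lit 0) (nat_lit 2860472611) (nat_lit 168) (nat_lit 38157184407) (nat_lit 84) (nat_lit 36857876416) (nat_lit 3) (nat_lit 5) (nat_lit 5) (nat_lit 5) (nat_lit 4) (nat_lit 4) (nat_lit 419) (nat_lit 295) (nat_lit 174)) (XT.lf (nat_lit 0) (nat_lit 4525756232) (nat_lit 168) (nat_lit 34808711821) (nat_lit 84) (nat_lit 40852136553) (nat_lit 3) (nat_lit 5) (nat_lit 5) (nat_lit 5) (nat_lit 4) (nat_lit 4) (nat_lit 420) (nat_lit 295) (nat_lit 173)))) (XT.nd (nat_lit 94) (nat_lit 0) (nat_lit 0) (XT.lf (nat_lit 0) (nat_lit 6238526107) (nat_lit 168) (nat_lit 31362780808) (nat_lit 84) (nat_lit 44968157420) (nat_lit 3) (nat_lit 5) (nat_lit 5) (nat_lit 5) (nat_lit 4) (nat_lit 4) (nat_lit 421) (nat_lit 295) (nat_lit 172)) (XT.nd (nat_lit 94) (nat_lit 0) (nat_lit 0) (XT.lf (nat_lit 0) (nat_lit 8000378719) (nat_lit 168) (nat_lit 27816179401) (nat_lit 84) (nat_lit 49209775579) (nat_lit 3) (nat_lit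 5) (nat_lit 5) (nat_lit 5) (nat_lit 4) (nat_lit 4) (nat_lit 422) (nat_lit 295) (nat_lit 171)) (XT.lf (nat_lit 0) (nat_lit 9812956296) (nat_lit 168) (nat_lit 24165601795) (nat_lit 84) (nat_lit 53580944665) (nat_lit 3) (nat_lit 5) (nat_lit 5) (nat_lit 5) (nat_lit 4) (nat_lit 4) (nat_lit 423) (nat_lit 295) (nat_lit 170))))) (XT.nd (nat_lit 43710) (nat_lit 0) (nat_lit 12264) (XT.nd (nat_lit 94) (nat_lit 0) (nat_lit 0) (XT.lf (nat_lit 0) (nat_lit 11677948353) (nat_lit 168) (nat_lit 20407645270) (nat_lit 84) (nat_lit 58085739063) (nat_lit 3) (nat_lit 5) (nat_lit 5) (nat_lit 5) (nat_lit 4) (nat_lit 4) (nat_lit 424) (nat_lit 295) (nat_lit 169)) (XT.nd (nat_lit 94) (nat_lit 0) (nat_lit 0) (XT.lf (nat_lit 0) (nat_lit 13597093257) (nat_lit 168) (nat_lit 16538807016) (nat_lit 84) (nat_lit 62728357715) (nat_lit 3) (nat_lit 5) (nat_lit 5) (nat_lit 5) (nat_lit 4) (nat_lit 4) (nat_lit 425) (nat_lit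 295) (nat_lit 168)) (XT.lf (nat_lit 0) (nat_lit 15572179852) (nat_lit 168) (nat_lit 12555480871) (nat_lit 84) (nat_lit 67513128026) (nat_lit 3) (nat_lit 5) (nat_lit 5) (nat_lit 5) (nat_lit 4) (nat_lit 4) (nat_lit 426) (nat_lit 295) (nat_lit 167)))) (XT.nd (nat_lit 188) (nat_lit 168) (nat_lit 0) (XT.nd (nat_lit 94) (nat_lit 84) (nat_lit 0) (XT.lf (nat_lit 0) (nat_lit 1073741823) (nat_lit 0) (nat_lit 0) (nat_lit 0) (nat_lit 0) (nat_lit 152) (nat_lit 0) (nat_lit 1) (nat_lit 0) (nat_lit 1) (nat_lit 0) (nat_lit 296) (nat_lit 296) (nat_lit 296)) (XT.lf (nat_lit 0) (nat_lit 2255452109) (nat_lit 84) (nat_lit 4142387837) (nat_lit 0) (nat_lit 45897643) (nat_lit 151) (nat_lit 5) (nat_lit 152) (nat_lit 0) (nat_lit 151) (nat_lit 4) (nat_lit 297) (nat_lit 296) (nat_lit 295))) (XT.nd (nat_lit 94) (nat_lit 168) (nat_lit 0) (XT.lf (nat_lit 0) (nat_lit 4490407991) (nat_lit 84) (nat_lit 1820877852)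 (nat_lit 0) (nat_lit 137735713) (nat_lit 151) (nat_lit 5) (nat_lit 152) (nat_lit 0) (nat_lit 151) (nat_lit 4) (nat_lit 298) (nat_lit 296) (nat_lit 294)) (XT.lf (nat_lit 0) (nat_lit 248995259) (nat_lit 168) (nat_lit 5925641677) (nat_lit 84) (nat_lit 283428152) (nat_lit 149) (nat_lit 5) (nat_lit 151) (nat_lit 5) (nat_lit 150) (nat_lit 4) (nat_lit 299) (nat_lit 296) (nat_lit 293))))))))
noncomputable def xc85 : XT := (XT.nd (nat_lit 2350) (nat_lit 4032) (nat_lit 0) (XT.nd (nat_lit 1128) (nat_lit 4536) (nat_lit 0) (XT.nd (nat_lit 564) (nat_lit 924) (nat_lit 0) (XT.nd (nat_lit 282) (nat_lit 252) (nat_lit 0) (XT.nd (nat_lit 94) (nat_lit 252) (nat_lit 0) (XT.lf (nat_lit 0) (nat_lit 2416081823) (nat_lit 168) (nat_lit 3540466142) (nat_lit 84) (nat_lit 513389996) (nat_lit 149) (nat_lit 5) (nat_lit 151) (nat_lit 5) (nat_lit 150) (nat_lit 4) (nat_lit 300) (nat_lit 296) (nat_lit 292)) (XT.nd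 (nat_lit 94) (nat_lit 252) (nat_lit 0) (XT.lf (nat_lit 0) (nat_lit 4565504479) (nat_lit 168) (nat_lit 1130543796) (nat_lit 84) (nat_lit 789782606) (nat_lit 149) (nat_lit 5) (nat_lit 151) (nat_lit 5) (nat_lit 150) (nat_lit 4) (nat_lit 301) (nat_lit 296) (nat_lit 291)) (XT.lf (nat_lit 0) (nat_lit 202970401) (nat_lit 252) (nat_lit 5174170217) (nat_lit 84) (nat_lit 1128144344) (nat_lit 146) (nat_lit 5) (nat_lit 149) (nat_lit 5) (nat_lit 147) (nat_lit 5) (nat_lit 302) (nat_lit 296) (nat_lit 290)))) (XT.nd (nat_lit 94) (nat_lit 252) (nat_lit 0) (XT.lf (nat_lit 0) (nat_lit 2282071170) (nat_lit 252) (nat_lit 2701536716) (nat_lit 84) (nat_lit 1544231774) (nat_lit 146) (nat_lit 5) (nat_lit 149) (nat_lit 5) (nat_lit 147) (nat_lit 5) (nat_lit 303) (nat_lit 296) (nat_lit 289)) (XT.nd (nat_lit 94) (nat_lit 252) (nat_lit 0) (XT.lf (nat_lit 0) (nat_lit 4346041336) (nat_lit 252) (nat_lit 200603601)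 (nat_lit 84) (nat_lit 2007820054) (nat_lit 146) (nat_lit 5) (nat_lit 149) (nat_lit 5) (nat_lit 147) (nat_lit 5) (nat_lit 304) (nat_lit 296) (nat_lit 288)) (XT.lf (nat_lit 0) (nat_lit 2378889584) (nat_lit 252) (nat_lit 4041514032) (nat_lit 336) (nat_lit 164050592) (nat_lit 143) (nat_lit 5) (nat_lit 146) (nat_lit 5) (nat_lit 147) (nat_lit 5) (nat_lit 305) (nat_lit 296) (nat_lit 287))))) (XT.nd (nat_lit 282) (nat_lit 504) (nat_lit 0) (XT.nd (nat_lit 94) (nat_lit 336) (nat_lit 0) (XT.lf (nat_lit 0) (nat_lit 1829718620) (nat_lit 336) (nat_lit 1640842084) (nat_lit 84) (nat_lit 3147359240) (nat_lit 142) (nat_lit 5) (nat_lit 146) (nat_lit 5) (nat_lit 143) (nat_lit 5) (nat_lit 306) (nat_lit 296) (nat_lit 286)) (XT.nd (nat_lit 94) (nat_lit 0) (nat_lit 0) (XT.lf (nat_lit 0) (nat_lit 973970045) (nat_lit 336) (nat_lit 2842958513) (nat_lit 420) (nat_lit 2838256670) (nat_lit 138) (nat_lit 5) (nat_lit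 142) (nat_lit 5) (nat_lit 143) (nat_lit 5) (nat_lit 307) (nat_lit 296) (nat_lit 285)) (XT.lf (nat_lit 0) (nat_lit 3657743560) (nat_lit 336) (nat_lit 2152283755) (nat_lit 420) (nat_lit 886081919) (nat_lit 138) (nat_lit 5) (nat_lit 142) (nat_lit 5) (nat_lit 143) (nat_lit 5) (nat_lit 308) (nat_lit 296) (nat_lit 284)))) (XT.nd (nat_lit 94) (nat_lit 420) (nat_lit 0) (XT.lf (nat_lit 0) (nat_lit 1031799615) (nat_lit 420) (nat_lit 372450190) (nat_lit 84) (nat_lit 5336671451) (nat_lit 137) (nat_lit 5) (nat_lit 142) (nat_lit 5) (nat_lit 138) (nat_lit 5) (nat_lit 309) (nat_lit 296) (nat_lit 283)) (XT.nd (nat_lit 94) (nat_lit 0) (nat_lit 0) (XT.lf (nat_lit 0) (nat_lit 2368514000) (nat_lit 420) (nat_lit 575767732) (nat_lit 504) (nat_lit 3844708059) (nat_lit 132) (nat_lit 5) (nat_lit 137) (nat_lit 5) (nat_lit 138) (nat_lit 5) (nat_lit 310) (nat_lit 296) (nat_lit 282)) (XT.lf (nat_lit 0) (nat_lit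 4854668400) (nat_lit 504) (nat_lit 1687697305) (nat_lit 84) (nat_lit 298772699) (nat_lit 132) (nat_lit 5) (nat_lit 138) (nat_lit 5) (nat_lit 133) (nat_lit 5) (nat_lit 311) (nat_lit 296) (nat_lit 281)))))) (XT.nd (nat_lit 564) (nat_lit 2604) (nat_lit 0) (XT.nd (nat_lit 282) (nat_lit 1344) (nat_lit 0) (XT.nd (nat_lit 94) (nat_lit 84) (nat_lit 0) (XT.lf (nat_lit 0) (nat_lit 1098700901) (nat_lit 504) (nat_lit 5676339409) (nat_lit 588) (nat_lit 122056093) (nat_lit 126) (nat_lit 5) (nat_lit 132) (nat_lit 5) (nat_lit 133) (nat_lit 5) (nat_lit 312) (nat_lit 296) (nat_lit 280)) (XT.nd (nat_lit 94) (nat_lit 0) (nat_lit 0) (XT.lf (nat_lit 0) (nat_lit 1715884288) (nat_lit 588) (nat_lit 3013869801) (nat_lit 84) (nat_lit 2226596425) (nat_lit 125) (nat_lit 5) (nat_lit 132) (nat_lit 5) (nat_lit 126) (nat_lit 5) (nat_lit 313) (nat_lit 296) (nat_lit 279)) (XT.lf (nat_lit 0) (nat_lit 3544446296) (nat_lit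 588) (nat_lit 191648115) (nat_lit 84) (nat_lit 3283894901) (nat_lit 125) (nat_lit 5) (nat_lit 132) (nat_lit 5) (nat_lit 126) (nat_lit 5) (nat_lit 314) (nat_lit 296) (nat_lit 278)))) (XT.nd (nat_lit 94) (nat_lit 756) (nat_lit 0) (XT.lf (nat_lit 0) (nat_lit 2727055057) (nat_lit 588) (nat_lit 2667791166) (nat_lit 672) (nat_lit 1692424790) (nat_lit 118) (nat_lit 5) (nat_lit 125) (nat_lit 5) (nat_lit 126) (nat_lit 5) (nat_lit 315) (nat_lit 296) (nat_lit 277)) (XT.nd (nat_lit 94) (nat_lit 672) (nat_lit 0) (XT.lf (nat_lit 0) (nat_lit 83380514) (nat_lit 672) (nat_lit 1465053263) (nat_lit 84) (nat_lit 5610563779) (nat_lit 117) (nat_lit 5) (nat_lit 125) (nat_lit 5) (nat_lit 118) (nat_lit 5) (nat_lit 316) (nat_lit 296) (nat_lit 276)) (XT.lf (nat_lit 0) (nat_lit 1486615224) (nat_lit 672) (nat_lit 347397107) (nat_lit 756) (nat_lit 5400334009) (nat_lit 109) (nat_lit 5) (nat_lit 117) (nat_lit 5)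 (nat_lit 118) (nat_lit 5) (nat_lit 317) (nat_lit 296) (nat_lit 275))))) (XT.nd (nat_lit 282) (nat_lit 1848) (nat_lit 0) (XT.nd (nat_lit 94) (nat_lit 756) (nat_lit 0) (XT.lf (nat_lit 0) (nat_lit 3604861964) (nat_lit 756) (nat_lit 2807593110) (nat_lit 84) (nat_lit 901153490) (nat_lit 109) (nat_lit 5) (nat_lit 118) (nat_lit 5) (nat_lit 110) (nat_lit 5) (nat_lit 318) (nat_lit 296) (nat_lit 274)) (XT.nd (nat_lit 94) (nat_lit 0) (nat_lit 0) (XT.lf (nat_lit 0) (nat_lit 177261305) (nat_lit 756) (nat_lit 5202074356) (nat_lit 840) (nat_lit 2018088027) (nat_lit 100) (nat_lit 5) (nat_lit 109) (nat_lit 5) (nat_lit 110) (nat_lit 5) (nat_lit 319) (nat_lit 296) (nat_lit 273)) (XT.lf (nat_lit 0) (nat_lit 3268189699) (nat_lit 756) (nat_lit 3914595340) (nat_lit 840) (nat_lit 302350168) (nat_lit 100) (nat_lit 5) (nat_lit 109) (nat_lit 5) (nat_lit 110) (nat_lit 5) (nat_lit 320) (nat_lit 296) (nat_lit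 272)))) (XT.nd (nat_lit 188) (nat_lit 924) (nat_lit 0) (XT.nd (nat_lit 94) (nat_lit 840) (nat_lit 0) (XT.lf (nat_lit 0) (nat_lit 1382337023) (nat_lit 840) (nat_lit 1181357689) (nat_lit 84) (nat_lit 5013577481) (nat_lit 99) (nat_lit 5) (nat_lit 109) (nat_lit 5) (nat_lit 100) (nat_lit 5) (nat_lit 321) (nat_lit 296) (nat_lit 271)) (XT.lf (nat_lit 0) (nat_lit 1939526533) (nat_lit 840) (nat_lit 1139636917) (nat_lit 924) (nat_lit 4594502210) (nat_lit 89) (nat_lit 5) (nat_lit 99) (nat_lit 5) (nat_lit 100) (nat_lit 5) (nat_lit 322) (nat_lit 296) (nat_lit 270))) (XT.nd (nat_lit 94) (nat_lit 924) (nat_lit 0) (XT.lf (nat_lit 0) (nat_lit 4792492160) (nat_lit 924) (nat_lit 2640304610) (nat_lit 84) (nat_lit 341804282) (nat_lit 89) (nat_lit 5) (nat_lit 100) (nat_lit 5) (nat_lit 90) (nat_lit 5) (nat_lit 323) (nat_lit 296) (nat_lit 269)) (XT.lf (nat_lit 0) (nat_lit 502854884) (nat_lit 924) (nat_lit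 6022465530) (nat_lit 1008) (nat_lit 1354808634) (nat_lit 78) (nat_lit 5) (nat_lit 89) (nat_lit 5) (nat_lit 90) (nat_lit 5) (nat_lit 324) (nat_lit 296) (nat_lit 268))))))) (XT.nd (nat_lit 1222) (nat_lit 1428) (nat_lit 0) (XT.nd (nat_lit 564) (nat_lit 1260) (nat_lit 0) (XT.nd (nat_lit 282) (nat_lit 588) (nat_lit 0) (XT.nd (nat_lit 94) (nat_lit 672) (nat_lit 0) (XT.lf (nat_lit 0) (nat_lit 294179773) (nat_lit 1008) (nat_lit 4238164057) (nat_lit 84) (nat_lit 3457571681) (nat_lit 77) (nat_lit 5) (nat_lit 89) (nat_lit 5) (nat_lit 78) (nat_lit 5) (nat_lit 325) (nat_lit 296) (nat_lit 267)) (XT.nd (nat_lit 94) (nat_lit 672) (nat_lit 0) (XT.lf (nat_lit 0) (nat_lit 1917557535) (nat_lit 1008) (nat_lit 1060243946) (nat_lit 84) (nat_lit 5126765194) (nat_lit 77) (nat_lit 5) (nat_lit 89) (nat_lit 5) (nat_lit 78) (nat_lit 5) (nat_lit 326) (nat_lit 296) (nat_lit 266)) (XT.lf (nat_lit 0) (nat_lit 2217567227)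 (nat_lit 672) (nat_lit 1348565497) (nat_lit 756) (nat_lit 4657791366) (nat_lit 69) (nat_lit 5) (nat_lit 77) (nat_lit 5) (nat_lit 78) (nat_lit 5) (nat_lit 327) (nat_lit 296) (nat_lit 265)))) (XT.nd (nat_lit 94) (nat_lit 588) (nat_lit 0) (XT.lf (nat_lit 0) (nat_lit 5234177373) (nat_lit 756) (nat_lit 2775259427) (nat_lit 84) (nat_lit 338887412) (nat_lit 69) (nat_lit 5) (nat_lit 78) (nat_lit 5) (nat_lit 70) (nat_lit 5) (nat_lit 328) (nat_lit 296) (nat_lit 264)) (XT.nd (nat_lit 94) (nat_lit 84) (nat_lit 0) (XT.lf (nat_lit 0) (nat_lit 509121183) (nat_lit 504) (nat_lit 6418937952) (nat_lit 588) (nat_lit 1549674661) (nat_lit 63) (nat_lit 5) (nat_lit 69) (nat_lit 5) (nat_lit 70) (nat_lit 5) (nat_lit 329) (nat_lit 296) (nat_lit 263)) (XT.lf (nat_lit 0) (nat_lit 46707018) (nat_lit 588) (nat_lit 4701183471) (nat_lit 84) (nat_lit 3864050076) (nat_lit 62) (nat_lit 5) (nat_lit 69) (nat_lit 5) (nat_lit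 63) (nat_lit 5) (nat_lit 330) (nat_lit 296) (nat_lit 262))))) (XT.nd (nat_lit 282) (nat_lit 840) (nat_lit 0) (XT.nd (nat_lit 94) (nat_lit 420) (nat_lit 0) (XT.lf (nat_lit 0) (nat_lit 1617148363) (nat_lit 588) (nat_lit 1391139797) (nat_lit 84) (nat_lit 5743188920) (nat_lit 62) (nat_lit 5) (nat_lit 69) (nat_lit 5) (nat_lit 63) (nat_lit 5) (nat_lit 331) (nat_lit 296) (nat_lit 261)) (XT.nd (nat_lit 94) (nat_lit 0) (nat_lit 0) (XT.lf (nat_lit 0) (nat_lit 2020689063) (nat_lit 420) (nat_lit 1193692101) (nat_lit 504) (nat_lit 5681947388) (nat_lit 57) (nat_lit 5) (nat_lit 62) (nat_lit 5) (nat_lit 63) (nat_lit 5) (nat_lit 332) (nat_lit 296) (nat_lit 260)) (XT.lf (nat_lit 0) (nat_lit 4841429857) (nat_lit 504) (nat_lit 3527002843) (nat_lit 84) (nat_lit 678149692) (nat_lit 57) (nat_lit 5) (nat_lit 63) (nat_lit 5) (nat_lit 58) (nat_lit 5) (nat_lit 333) (nat_lit 296) (nat_lit 259)))) (XT.nd (nat_lit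 188) (nat_lit 420) (nat_lit 0) (XT.nd (nat_lit 94) (nat_lit 420) (nat_lit 0) (XT.lf (nat_lit 0) (nat_lit 6491276101) (nat_lit 504) (nat_lit 128176070) (nat_lit 84) (nat_lit 2583191065) (nat_lit 57) (nat_lit 5) (nat_lit 63) (nat_lit 5) (nat_lit 58) (nat_lit 5) (nat_lit 334) (nat_lit 296) (nat_lit 258)) (XT.lf (nat_lit 0) (nat_lit 3404442389) (nat_lit 420) (nat_lit 4782946253) (nat_lit 504) (nat_lit 1176588049) (nat_lit 52) (nat_lit 5) (nat_lit 57) (nat_lit 5) (nat_lit 58) (nat_lit 5) (nat_lit 335) (nat_lit 296) (nat_lit 257))) (XT.nd (nat_lit 94) (nat_lit 336) (nat_lit 0) (XT.lf (nat_lit 0) (nat_lit 360404891) (nat_lit 504) (nat_lit 2525836091) (nat_lit 84) (nat_lit 6645365262) (nat_lit 51) (nat_lit 5) (nat_lit 57) (nat_lit 5) (nat_lit 52) (nat_lit 5) (nat_lit 336) (nat_lit 296) (nat_lit 256)) (XT.lf (nat_lit 0) (nat_lit 982478652) (nat_lit 336) (nat_lit 910490072) (nat_lit 420) (nat_lit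 7812205908) (nat_lit 47) (nat_lit 5) (nat_lit 51) (nat_lit 5) (nat_lit 52) (nat_lit 5) (nat_lit 337) (nat_lit 296) (nat_lit 255)))))) (XT.nd (nat_lit 564) (nat_lit 588) (nat_lit 0) (XT.nd (nat_lit 282) (nat_lit 420) (nat_lit 0) (XT.nd (nat_lit 94) (nat_lit 420) (nat_lit 0) (XT.lf (nat_lit 0) (nat_lit 3474179663) (nat_lit 420) (nat_lit 5282203598) (nat_lit 84) (nat_lit 1127956002) (nat_lit 47) (nat_lit 5) (nat_lit 52) (nat_lit 5) (nat_lit 48) (nat_lit 5) (nat_lit 338) (nat_lit 296) (nat_lit 254)) (XT.nd (nat_lit 94) (nat_lit 420) (nat_lit 0) (XT.lf (nat_lit 0) (nat_lit 5078151275) (nat_lit 420) (nat_lit 1783698919) (nat_lit 84) (nat_lit 3208265113) (nat_lit 47) (nat_lit 5) (nat_lit 52) (nat_lit 5) (nat_lit 48) (nat_lit 5) (nat_lit 339) (nat_lit 296) (nat_lit 253)) (XT.lf (nat_lit 0) (nat_lit 1821816748) (nat_lit 420) (nat_lit 4893602354) (nat_lit 504) (nat_lit 3546976570) (nat_lit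 42) (nat_lit 5) (nat_lit 47) (nat_lit 5) (nat_lit 48) (nat_lit 5) (nat_lit 340) (nat_lit 296) (nat_lit 252)))) (XT.nd (nat_lit 94) (nat_lit 420) (nat_lit 0) (XT.lf (nat_lit 0) (nat_lit 5539154896) (nat_lit 420) (nat_lit 2849068669) (nat_lit 504) (nat_lit 2073113876) (nat_lit 42) (nat_lit 5) (nat_lit 47) (nat_lit 5) (nat_lit 48) (nat_lit 5) (nat_lit 341) (nat_lit 296) (nat_lit 251)) (XT.nd (nat_lit 94) (nat_lit 420) (nat_lit 0) (XT.lf (nat_lit 0) (nat_lit 9335103963) (nat_lit 420) (nat_lit 744961577) (nat_lit 504) (nat_lit 587620313) (nat_lit 42) (nat_lit 5) (nat_lit 47) (nat_lit 5) (nat_lit 48) (nat_lit 5) (nat_lit 342) (nat_lit 296) (nat_lit 250)) (XT.lf (nat_lit 0) (nat_lit 930476162) (nat_lit 420) (nat_lit 8524761614) (nat_lit 84) (nat_lit 1424939222) (nat_lit 37) (nat_lit 5) (nat_lit 42) (nat_lit 5) (nat_lit 38) (nat_lit 5) (nat_lit 343) (nat_lit 296) (nat_lit 249))))) (XT.nd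 (nat_lit 282) (nat_lit 252) (nat_lit 0) (XT.nd (nat_lit 94) (nat_lit 336) (nat_lit 0) (XT.lf (nat_lit 0) (nat_lit 2473302444) (nat_lit 420) (nat_lit 4963780775) (nat_lit 84) (nat_lit 3662502329) (nat_lit 37) (nat_lit 5) (nat_lit 42) (nat_lit 5) (nat_lit 38) (nat_lit 5) (nat_lit 344) (nat_lit 296) (nat_lit 248)) (XT.nd (nat_lit 94) (nat_lit 336) (nat_lit 0) (XT.lf (nat_lit 0) (nat_lit 4033116557) (nat_lit 420) (nat_lit 1328467505) (nat_lit 84) (nat_lit 5965364258) (nat_lit 37) (nat_lit 5) (nat_lit 42) (nat_lit 5) (nat_lit 38) (nat_lit 5) (nat_lit 345) (nat_lit 296) (nat_lit 247)) (XT.lf (nat_lit 0) (nat_lit 2433598270) (nat_lit 336) (nat_lit 3201915737) (nat_lit 420) (nat_lit 5926214841) (nat_lit 33) (nat_lit 5) (nat_lit 37) (nat_lit 5) (nat_lit 38) (nat_lit 5) (nat_lit 346) (nat_lit 296) (nat_lit 246)))) (XT.nd (nat_lit 188) (nat_lit 252) (nat_lit 0) (XT.nd (nat_lit 94) (nat_lit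 0) (nat_lit 0) (XT.lf (nat_lit 0) (nat_lit 6305831189) (nat_lit 336) (nat_lit 966264545) (nat_lit 420) (nat_lit 4532356915) (nat_lit 33) (nat_lit 5) (nat_lit 37) (nat_lit 5) (nat_lit 38) (nat_lit 5) (nat_lit 347) (nat_lit 296) (nat_lit 245)) (XT.lf (nat_lit 0) (nat_lit 8944167010) (nat_lit 420) (nat_lit 1804467686) (nat_lit 84) (nat_lit 1306718094) (nat_lit 33) (nat_lit 5) (nat_lit 38) (nat_lit 5) (nat_lit 34) (nat_lit 5) (nat_lit 348) (nat_lit 296) (nat_lit 244))) (XT.nd (nat_lit 94) (nat_lit 0) (nat_lit 0) (XT.lf (nat_lit 0) (nat_lit 2001089651) (nat_lit 252) (nat_lit 8669049709) (nat_lit 336) (nat_lit 1644001335) (nat_lit 30) (nat_lit 5) (nat_lit 33) (nat_lit 5) (nat_lit 34) (nat_lit 5) (nat_lit 349) (nat_lit 296) (nat_lit 243)) (XT.lf (nat_lit 0) (nat_lit 5929662613) (nat_lit 252) (nat_lit 6511624811) (nat_lit 336) (nat_lit 140090516) (nat_lit 30) (nat_lit 5) (nat_lit 33) (nat_lit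 5) (nat_lit 34) (nat_lit 5) (nat_lit 350) (nat_lit 296) (nat_lit 242))))))))
noncomputable def xc86 : XT := (XT.nd (nat_lit 2350) (nat_lit 588) (nat_lit 0) (XT.nd (nat_lit 1128) (nat_lit 588) (nat_lit 0) (XT.nd (nat_lit 564) (nat_lit 336) (nat_lit 0) (XT.nd (nat_lit 282) (nat_lit 252) (nat_lit 0) (XT.nd (nat_lit 94) (nat_lit 252) (nat_lit 0) (XT.lf (nat_lit 0) (nat_lit 1355246880) (nat_lit 336) (nat_lit 2923791120) (nat_lit 84) (nat_lit 8578416604) (nat_lit 29) (nat_lit 5) (nat_lit 33) (nat_lit 5) (nat_lit 30) (nat_lit 5) (nat_lit 351) (nat_lit 296) (nat_lit 241)) (XT.nd (nat_lit 94) (nat_lit 0) (nat_lit 0) (XT.lf (nat_lit 0) (nat_lit 904559507) (nat_lit 252) (nat_lit 1972471297) (nat_lit 336) (nat_lit 10265695327) (nat_lit 26) (nat_lit 5) (nat_lit 29) (nat_lit 5) (nat_lit 30) (nat_lit 5) (nat_lit 352) (nat_lit 296) (nat_lit 240)) (XT.lf (nat_lit 0) (nat_lit 4455278706) (nat_lit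 336) (nat_lit 8559146324) (nat_lit 84) (nat_lit 422277407) (nat_lit 26) (nat_lit 5) (nat_lit 30) (nat_lit 5) (nat_lit 27) (nat_lit 5) (nat_lit 353) (nat_lit 296) (nat_lit 239)))) (XT.nd (nat_lit 94) (nat_lit 252) (nat_lit 0) (XT.lf (nat_lit 0) (nat_lit 6077829300) (nat_lit 336) (nat_lit 4817760741) (nat_lit 84) (nat_lit 2844490099) (nat_lit 26) (nat_lit 5) (nat_lit 30) (nat_lit 5) (nat_lit 27) (nat_lit 5) (nat_lit 354) (nat_lit 296) (nat_lit 238)) (XT.nd (nat_lit 94) (nat_lit 252) (nat_lit 0) (XT.lf (nat_lit 0) (nat_lit 7726627816) (nat_lit 336) (nat_lit 990955351) (nat_lit 84) (nat_lit 5336165437) (nat_lit 26) (nat_lit 5) (nat_lit 30) (nat_lit 5) (nat_lit 27) (nat_lit 5) (nat_lit 355) (nat_lit 296) (nat_lit 237)) (XT.lf (nat_lit 0) (nat_lit 2984977471) (nat_lit 252) (nat_lit 6447844980) (nat_lit 336) (nat_lit 4944259795) (nat_lit 23) (nat_lit 5) (nat_lit 26) (nat_lit 5) (nat_lit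 27) (nat_lit 5) (nat_lit 356) (nat_lit 296) (nat_lit 236))))) (XT.nd (nat_lit 282) (nat_lit 84) (nat_lit 0) (XT.nd (nat_lit 94) (nat_lit 252) (nat_lit 0) (XT.lf (nat_lit 0) (nat_lit 7075827888) (nat_lit 252) (nat_lit 4103507120) (nat_lit 336) (nat_lit 3531626167) (nat_lit 23) (nat_lit 5) (nat_lit 26) (nat_lit 5) (nat_lit 27) (nat_lit 5) (nat_lit 357) (nat_lit 296) (nat_lit 235)) (XT.nd (nat_lit 94) (nat_lit 252) (nat_lit 0) (XT.lf (nat_lit 0) (nat_lit 11265032925) (nat_lit 252) (nat_lit 1692727963) (nat_lit 336) (nat_lit 2098246721) (nat_lit 23) (nat_lit 5) (nat_lit 26) (nat_lit 5) (nat_lit 27) (nat_lit 5) (nat_lit 358) (nat_lit 296) (nat_lit 234)) (XT.lf (nat_lit 0) (nat_lit 138949155) (nat_lit 252) (nat_lit 14639991559) (nat_lit 336) (nat_lit 633317780) (nat_lit 20) (nat_lit 5) (nat_lit 23) (nat_lit 5) (nat_lit 24) (nat_lit 5) (nat_lit 359) (nat_lit 296) (nat_lit 233)))) (XT.nd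 (nat_lit 94) (nat_lit 0) (nat_lit 0) (XT.lf (nat_lit 0) (nat_lit 895057362) (nat_lit 336) (nat_lit 11562289228) (nat_lit 84) (nat_lit 3320947007) (nat_lit 19) (nat_lit 5) (nat_lit 23) (nat_lit 5) (nat_lit 20) (nat_lit 5) (nat_lit 360) (nat_lit 296) (nat_lit 232)) (XT.nd (nat_lit 94) (nat_lit 0) (nat_lit 0) (XT.lf (nat_lit 0) (nat_lit 2436721763) (nat_lit 336) (nat_lit 7770457054) (nat_lit 84) (nat_lit 5949058594) (nat_lit 19) (nat_lit 5) (nat_lit 23) (nat_lit 5) (nat_lit 20) (nat_lit 5) (nat_lit 361) (nat_lit 296) (nat_lit 231)) (XT.lf (nat_lit 0) (nat_lit 4005872357) (nat_lit 336) (nat_lit 3887995840) (nat_lit 84) (nat_lit 8652768779) (nat_lit 19) (nat_lit 5) (nat_lit 23) (nat_lit 5) (nat_lit 20) (nat_lit 5) (nat_lit 362) (nat_lit 296) (nat_lit 230)))))) (XT.nd (nat_lit 564) (nat_lit 252) (nat_lit 0) (XT.nd (nat_lit 282) (nat_lit 168) (nat_lit 0) (XT.nd (nat_lit 94) (nat_lit 0)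 (nat_lit 0) (XT.lf (nat_lit 0) (nat_lit 90537400) (nat_lit 168) (nat_lit 5514332499) (nat_lit 252) (nat_lit 11344958446) (nat_lit 17) (nat_lit 5) (nat_lit 19) (nat_lit 5) (nat_lit 20) (nat_lit 5) (nat_lit 363) (nat_lit 296) (nat_lit 229)) (XT.nd (nat_lit 94) (nat_lit 0) (nat_lit 0) (XT.lf (nat_lit 0) (nat_lit 4248984566) (nat_lit 168) (nat_lit 3025675446) (nat_lit 252) (nat_lit 10090304212) (nat_lit 17) (nat_lit 5) (nat_lit 19) (nat_lit 5) (nat_lit 20) (nat_lit 5) (nat_lit 364) (nat_lit 296) (nat_lit 228)) (XT.lf (nat_lit 0) (nat_lit 8511276598) (nat_lit 168) (nat_lit 466160052) (nat_lit 252) (nat_lit 8816215150) (nat_lit 17) (nat_lit 5) (nat_lit 19) (nat_lit 5) (nat_lit 20) (nat_lit 5) (nat_lit 365) (nat_lit 296) (nat_lit 227)))) (XT.nd (nat_lit 94) (nat_lit 168) (nat_lit 0) (XT.lf (nat_lit 0) (nat_lit 10736279912) (nat_lit 252) (nat_lit 5376397189) (nat_lit 84) (nat_lit 2122947270)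 (nat_lit 17) (nat_lit 5) (nat_lit 20) (nat_lit 5) (nat_lit 18) (nat_lit 5) (nat_lit 366) (nat_lit 296) (nat_lit 226)) (XT.nd (nat_lit 94) (nat_lit 168) (nat_lit 0) (XT.lf (nat_lit 0) (nat_lit 12536691556) (nat_lit 252) (nat_lit 1378267171) (nat_lit 84) (nat_lit 4776835445) (nat_lit 17) (nat_lit 5) (nat_lit 20) (nat_lit 5) (nat_lit 18) (nat_lit 5) (nat_lit 367) (nat_lit 296) (nat_lit 225)) (XT.lf (nat_lit 0) (nat_lit 2776302194) (nat_lit 168) (nat_lit 11626964456) (nat_lit 252) (nat_lit 4758609326) (nat_lit 15) (nat_lit 5) (nat_lit 17) (nat_lit 5) (nat_lit 18) (nat_lit 5) (nat_lit 368) (nat_lit 296) (nat_lit 224))))) (XT.nd (nat_lit 282) (nat_lit 252) (nat_lit 0) (XT.nd (nat_lit 94) (nat_lit 0) (nat_lit 0) (XT.lf (nat_lit 0) (nat_lit 7065680065) (nat_lit 168) (nat_lit 9259507939) (nat_lit 252) (nat_lit 3321509214) (nat_lit 15) (nat_lit 5) (nat_lit 17) (nat_lit 5) (nat_lit 18) (nat_lit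 5) (nat_lit 369) (nat_lit 296) (nat_lit 223)) (XT.nd (nat_lit 94) (nat_lit 0) (nat_lit 0) (XT.lf (nat_lit 0) (nat_lit 11465524590) (nat_lit 168) (nat_lit 6824768742) (nat_lit 252) (nat_lit 1856849033) (nat_lit 15) (nat_lit 5) (nat_lit 17) (nat_lit 5) (nat_lit 18) (nat_lit 5) (nat_lit 370) (nat_lit 296) (nat_lit 222)) (XT.lf (nat_lit 0) (nat_lit 15979936885) (nat_lit 168) (nat_lit 4320477433) (nat_lit 252) (nat_lit 363263569) (nat_lit 15) (nat_lit 5) (nat_lit 17) (nat_lit 5) (nat_lit 18) (nat_lit 5) (nat_lit 371) (nat_lit 296) (nat_lit 221)))) (XT.nd (nat_lit 188) (nat_lit 0) (nat_lit 0) (XT.nd (nat_lit 94) (nat_lit 168) (nat_lit 0) (XT.lf (nat_lit 0) (nat_lit 1137255061) (nat_lit 252) (nat_lit 595174078) (nat_lit 84) (nat_lit 19463999184) (nat_lit 14) (nat_lit 5) (nat_lit 17) (nat_lit 5) (nat_lit 15) (nat_lit 5) (nat_lit 372) (nat_lit 296) (nat_lit 220)) (XT.lf (nat_lit 0) (nat_lit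 2707591566) (nat_lit 252) (nat_lit 18085203990) (nat_lit 84) (nat_lit 951903292) (nat_lit 12) (nat_lit 5) (nat_lit 15) (nat_lit 5) (nat_lit 13) (nat_lit 5) (nat_lit 373) (nat_lit 296) (nat_lit 219))) (XT.nd (nat_lit 94) (nat_lit 0) (nat_lit 0) (XT.lf (nat_lit 0) (nat_lit 4335606410) (nat_lit 252) (nat_lit 14290070665) (nat_lit 84) (nat_lit 3684083733) (nat_lit 12) (nat_lit 5) (nat_lit 15) (nat_lit 5) (nat_lit 13) (nat_lit 5) (nat_lit 374) (nat_lit 296) (nat_lit 218)) (XT.lf (nat_lit 0) (nat_lit 5999543931) (nat_lit 252) (nat_lit 10397842218) (nat_lit 84) (nat_lit 6495476218) (nat_lit 12) (nat_lit 5) (nat_lit 15) (nat_lit 5) (nat_lit 13) (nat_lit 5) (nat_lit 375) (nat_lit 296) (nat_lit 217))))))) (XT.nd (nat_lit 1222) (nat_lit 252) (nat_lit 0) (XT.nd (nat_lit 564) (nat_lit 168) (nat_lit 0) (XT.nd (nat_lit 282) (nat_lit 0) (nat_lit 0) (XT.nd (nat_lit 94) (nat_lit 168) (nat_lit 0) (XT.lf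 (nat_lit 0) (nat_lit 7700955095) (nat_lit 252) (nat_lit 6404890685) (nat_lit 84) (nat_lit 9388701258) (nat_lit 12) (nat_lit 5) (nat_lit 15) (nat_lit 5) (nat_lit 13) (nat_lit 5) (nat_lit 376) (nat_lit 296) (nat_lit 216)) (XT.nd (nat_lit 94) (nat_lit 168) (nat_lit 0) (XT.lf (nat_lit 0) (nat_lit 9441425794) (nat_lit 252) (nat_lit 2307494216) (nat_lit 84) (nat_lit 12366455643) (nat_lit 12) (nat_lit 5) (nat_lit 15) (nat_lit 5) (nat_lit 13) (nat_lit 5) (nat_lit 377) (nat_lit 296) (nat_lit 215)) (XT.lf (nat_lit 0) (nat_lit 1937196584) (nat_lit 168) (nat_lit 9304598974) (nat_lit 252) (nat_lit 13513535596) (nat_lit 10) (nat_lit 5) (nat_lit 12) (nat_lit 5) (nat_lit 13) (nat_lit 5) (nat_lit 378) (nat_lit 296) (nat_lit 214)))) (XT.nd (nat_lit 94) (nat_lit 0) (nat_lit 0) (XT.lf (nat_lit 0) (nat_lit 6343825192) (nat_lit 168) (nat_lit 6765179260) (nat_lit 252) (nat_lit 12305842478) (nat_lit 10)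 (nat_lit 5) (nat_lit 12) (nat_lit 5) (nat_lit 13) (nat_lit 5) (nat_lit 379) (nat_lit 296) (nat_lit 213)) (XT.nd (nat_lit 94) (nat_lit 0) (nat_lit 0) (XT.lf (nat_lit 0) (nat_lit 10869052231) (nat_lit 168) (nat_lit 4152379369) (nat_lit 252) (nat_lit 11073830316) (nat_lit 10) (nat_lit 5) (nat_lit 12) (nat_lit 5) (nat_lit 13) (nat_lit 5) (nat_lit 380) (nat_lit 296) (nat_lit 212)) (XT.lf (nat_lit 0) (nat_lit 15517095689) (nat_lit 168) (nat_lit 1463763900) (nat_lit 252) (nat_lit 9816350744) (nat_lit 10) (nat_lit 5) (nat_lit 12) (nat_lit 5) (nat_lit 13) (nat_lit 5) (nat_lit 381) (nat_lit 296) (nat_lit 211))))) (XT.nd (nat_lit 282) (nat_lit 84) (nat_lit 0) (XT.nd (nat_lit 94) (nat_lit 84) (nat_lit 0) (XT.lf (nat_lit 0) (nat_lit 19002042447) (nat_lit 252) (nat_lit 7241986080) (nat_lit 84) (nat_lit 1276917184) (nat_lit 10) (nat_lit 5) (nat_lit 13) (nat_lit 5) (nat_lit 11) (nat_lit 4) (nat_lit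 382) (nat_lit 296) (nat_lit 210)) (XT.nd (nat_lit 94) (nat_lit 84) (nat_lit 0) (XT.lf (nat_lit 0) (nat_lit 21089247704) (nat_lit 252) (nat_lit 3110443610) (nat_lit 84) (nat_lit 4067377444) (nat_lit 10) (nat_lit 5) (nat_lit 13) (nat_lit 5) (nat_lit 11) (nat_lit 4) (nat_lit 383) (nat_lit 296) (nat_lit 209)) (XT.lf (nat_lit 0) (nat_lit 1156178945) (nat_lit 84) (nat_lit 22085190628) (nat_lit 168) (nat_lit 5794999954) (nat_lit 9) (nat_lit 5) (nat_lit 10) (nat_lit 5) (nat_lit 11) (nat_lit 4) (nat_lit 384) (nat_lit 296) (nat_lit 208)))) (XT.nd (nat_lit 188) (nat_lit 84) (nat_lit 0) (XT.nd (nat_lit 94) (nat_lit 0) (nat_lit 0) (XT.lf (nat_lit 0) (nat_lit 5604879354) (nat_lit 84) (nat_lit 19876716796) (nat_lit 168) (nat_lit 4347312295) (nat_lit 9) (nat_lit 5) (nat_lit 10) (nat_lit 5) (nat_lit 11) (nat_lit 4) (nat_lit 385) (nat_lit 296) (nat_lit 207)) (XT.lf (nat_lit 0) (nat_lit 10175847170)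 (nat_lit 84) (nat_lit 17604677941) (nat_lit 168) (nat_lit 2865875331) (nat_lit 9) (nat_lit 5) (nat_lit 10) (nat_lit 5) (nat_lit 11) (nat_lit 4) (nat_lit 386) (nat_lit 296) (nat_lit 206))) (XT.nd (nat_lit 94) (nat_lit 84) (nat_lit 0) (XT.lf (nat_lit 0) (nat_lit 14873343013) (nat_lit 84) (nat_lit 15266956286) (nat_lit 168) (nat_lit 1349308209) (nat_lit 9) (nat_lit 5) (nat_lit 10) (nat_lit 5) (nat_lit 11) (nat_lit 4) (nat_lit 387) (nat_lit 296) (nat_lit 205)) (XT.lf (nat_lit 0) (nat_lit 199696501) (nat_lit 168) (nat_lit 12659591904) (nat_lit 84) (nat_lit 19499964520) (nat_lit 8) (nat_lit 5) (nat_lit 10) (nat_lit 5) (nat_lit 9) (nat_lit 5) (nat_lit 388) (nat_lit 296) (nat_lit 204)))))) (XT.nd (nat_lit 564) (nat_lit 84) (nat_lit 0) (XT.nd (nat_lit 282) (nat_lit 168) (nat_lit 0) (XT.nd (nat_lit 94) (nat_lit 0) (nat_lit 0) (XT.lf (nat_lit 0) (nat_lit 1758741637) (nat_lit 168) (nat_lit 8608586019)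 (nat_lit 84) (nat_lit 22888455743) (nat_lit 8) (nat_lit 5) (nat_lit 10) (nat_lit 5) (nat_lit 9) (nat_lit 5) (nat_lit 389) (nat_lit 296) (nat_lit 203)) (XT.nd (nat_lit 94) (nat_lit 0) (nat_lit 0) (XT.lf (nat_lit 0) (nat_lit 3356465943) (nat_lit 168) (nat_lit 4446085574) (nat_lit 84) (nat_lit 26377898019) (nat_lit 8) (nat_lit 5) (nat_lit 10) (nat_lit 5) (nat_lit 9) (nat_lit 5) (nat_lit 390) (nat_lit 296) (nat_lit 202)) (XT.lf (nat_lit 0) (nat_lit 4994358668) (nat_lit 168) (nat_lit 168210681) (nat_lit 84) (nat_lit 29971543871) (nat_lit 8) (nat_lit 5) (nat_lit 10) (nat_lit 5) (nat_lit 9) (nat_lit 5) (nat_lit 391) (nat_lit 296) (nat_lit 201)))) (XT.nd (nat_lit 94) (nat_lit 0) (nat_lit 0) (XT.lf (nat_lit 0) (nat_lit 4315983534) (nat_lit 168) (nat_lit 2400778053) (nat_lit 252) (nat_lit 29399574510) (nat_lit 6) (nat_lit 5) (nat_lit 8) (nat_lit 5) (nat_lit 9) (nat_lit 5) (nat_lit 392) (nat_lit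 296) (nat_lit 200)) (XT.nd (nat_lit 94) (nat_lit 0) (nat_lit 0) (XT.lf (nat_lit 0) (nat_lit 8489785165) (nat_lit 252) (nat_lit 28204042090) (nat_lit 84) (nat_lit 435306794) (nat_lit 6) (nat_lit 5) (nat_lit 9) (nat_lit 5) (nat_lit 7) (nat_lit 4) (nat_lit 393) (nat_lit 296) (nat_lit 199)) (XT.lf (nat_lit 0) (nat_lit 10333618562) (nat_lit 252) (nat_lit 24533791394) (nat_lit 84) (nat_lit 3305466521) (nat_lit 6) (nat_lit 5) (nat_lit 9) (nat_lit 5) (nat_lit 7) (nat_lit 4) (nat_lit 394) (nat_lit 296) (nat_lit 198))))) (XT.nd (nat_lit 282) (nat_lit 84) (nat_lit 0) (XT.nd (nat_lit 94) (nat_lit 0) (nat_lit 0) (XT.lf (nat_lit 0) (nat_lit 12226164408) (nat_lit 252) (nat_lit 20762363401) (nat_lit 84) (nat_lit 6260746745) (nat_lit 6) (nat_lit 5) (nat_lit 9) (nat_lit 5) (nat_lit 7) (nat_lit 4) (nat_lit 395) (nat_lit 296) (nat_lit 197)) (XT.nd (nat_lit 94) (nat_lit 0) (nat_lit 0) (XT.lf (nat_lit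 0) (nat_lit 14169186754) (nat_lit 252) (nat_lit 16886242746) (nat_lit 84) (nat_lit 9303902095) (nat_lit 6) (nat_lit 5) (nat_lit 9) (nat_lit 5) (nat_lit 7) (nat_lit 4) (nat_lit 396) (nat_lit 296) (nat_lit 196)) (XT.lf (nat_lit 0) (nat_lit 16164496702) (nat_lit 252) (nat_lit 12901816478) (nat_lit 84) (nat_lit 12437769112) (nat_lit 6) (nat_lit 5) (nat_lit 9) (nat_lit 5) (nat_lit 7) (nat_lit 4) (nat_lit 397) (nat_lit 296) (nat_lit 195)))) (XT.nd (nat_lit 188) (nat_lit 84) (nat_lit 0) (XT.nd (nat_lit 94) (nat_lit 0) (nat_lit 0) (XT.lf (nat_lit 0) (nat_lit 18213954089) (nat_lit 252) (nat_lit 8805370694) (nat_lit 84) (nat_lit 15665268887) (nat_lit 6) (nat_lit 5) (nat_lit 9) (nat_lit 5) (nat_lit 7) (nat_lit 4) (nat_lit 398) (nat_lit 296) (nat_lit 194)) (XT.lf (nat_lit 0) (nat_lit 20319469223) (nat_lit 252) (nat_lit 4593087078) (nat_lit 84) (nat_lit 18989409789) (nat_lit 6) (nat_lit 5) (nat_lit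 9) (nat_lit 5) (nat_lit 7) (nat_lit 4) (nat_lit 399) (nat_lit 296) (nat_lit 193))) (XT.nd (nat_lit 94) (nat_lit 84) (nat_lit 0) (XT.lf (nat_lit 0) (nat_lit 22483004666) (nat_lit 252) (nat_lit 261039340) (nat_lit 84) (nat_lit 22413290265) (nat_lit 6) (nat_lit 5) (nat_lit 9) (nat_lit 5) (nat_lit 7) (nat_lit 4) (nat_lit 400) (nat_lit 296) (nat_lit 192)) (XT.lf (nat_lit 0) (nat_lit 4281064346) (nat_lit 84) (nat_lit 20467981401) (nat_lit 168) (nat_lit 21701506072) (nat_lit 5) (nat_lit 5) (nat_lit 6) (nat_lit 5) (nat_lit 7) (nat_lit 4) (nat_lit 401) (nat_lit 296) (nat_lit 191))))))))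
noncomputable def xc87 : XT := (XT.nd (nat_lit 46060) (nat_lit 0) (nat_lit 7224) (XT.nd (nat_lit 1222) (nat_lit 84) (nat_lit 0) (XT.nd (nat_lit 564) (nat_lit 84) (nat_lit 0) (XT.nd (nat_lit 282) (nat_lit 0) (nat_lit 0) (XT.nd (nat_lit 94) (nat_lit 0) (nat_lit 0) (XT.lf (nat_lit 0) (nat_lit 8959121926) (nat_lit 84) (nat_lit 18122012677) (nat_lit 168) (nat_lit 20702885216) (nat_lit 5) (nat_lit 5) (nat_lit 6) (nat_lit 5) (nat_lit 7) (nat_lit 4) (nat_lit 402) (nat_lit 296) (nat_lit 190)) (XT.nd (nat_lit 94) (nat_lit 0) (nat_lit 0) (XT.lf (nat_lit 0) (nat_lit 13772126332) (nat_lit 84) (nat_lit 15706675864) (nat_lit 168) (nat_lit 19680260933) (nat_lit 5) (nat_lit 5) (nat_lit 6) (nat_lit 5) (nat_lit 7) (nat_lit 4) (nat_lit 403) (nat_lit 296) (nat_lit 189)) (XT.lf (nat_lit 0) (nat_lit 18724563790) (nat_lit 84) (nat_lit 13219719613) (nat_lit 168) (nat_lit 18632680031) (nat_lit 5) (nat_lit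 5) (nat_lit 6) (nat_lit 5) (nat_lit 7) (nat_lit 4) (nat_lit 404) (nat_lit 296) (nat_lit 188)))) (XT.nd (nat_lit 94) (nat_lit 0) (nat_lit 0) (XT.lf (nat_lit 0) (nat_lit 23821050490) (nat_lit 84) (nat_lit 10658825821) (nat_lit 168) (nat_lit 17559166054) (nat_lit 5) (nat_lit 5) (nat_lit 6) (nat_lit 5) (nat_lit 7) (nat_lit 4) (nat_lit 405) (nat_lit 296) (nat_lit 187)) (XT.nd (nat_lit 94) (nat_lit 0) (nat_lit 0) (XT.lf (nat_lit 0) (nat_lit 29066336892) (nat_lit 84) (nat_lit 8021607466) (nat_lit 168) (nat_lit 16458718375) (nat_lit 5) (nat_lit 5) (nat_lit 6) (nat_lit 5) (nat_lit 7) (nat_lit 4) (nat_lit 406) (nat_lit 296) (nat_lit 186)) (XT.lf (nat_lit 0) (nat_lit 34465312151) (nat_lit 84) (nat_lit 5305606386) (nat_lit 168) (nat_lit 15330311261) (nat_lit 5) (nat_lit 5) (nat_lit 6) (nat_lit 5) (nat_lit 7) (nat_lit 4) (nat_lit 407) (nat_lit 296) (nat_lit 185))))) (XT.nd (nat_lit 282) (nat_lit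 84) (nat_lit 0) (XT.nd (nat_lit 94) (nat_lit 0) (nat_lit 0) (XT.lf (nat_lit 0) (nat_lit 40023008678) (nat_lit 84) (nat_lit 2508290982) (nat_lit 168) (nat_lit 14172892920) (nat_lit 5) (nat_lit 5) (nat_lit 6) (nat_lit 5) (nat_lit 7) (nat_lit 4) (nat_lit 408) (nat_lit 296) (nat_lit 184)) (XT.nd (nat_lit 94) (nat_lit 0) (nat_lit 0) (XT.lf (nat_lit 0) (nat_lit 45375360365) (nat_lit 168) (nat_lit 12616138051) (nat_lit 0) (nat_lit 365432102) (nat_lit 5) (nat_lit 5) (nat_lit 7) (nat_lit 4) (nat_lit 5) (nat_lit 4) (nat_lit 409) (nat_lit 296) (nat_lit 183)) (XT.lf (nat_lit 0) (nat_lit 48327790205) (nat_lit 168) (nat_lit 8459029637) (nat_lit 0) (nat_lit 3273481098) (nat_lit 5) (nat_lit 5) (nat_lit 7) (nat_lit 4) (nat_lit 5) (nat_lit 4) (nat_lit 410) (nat_lit 296) (nat_lit 182)))) (XT.nd (nat_lit 188) (nat_lit 0) (nat_lit 0) (XT.nd (nat_lit 94) (nat_lit 84) (nat_lit 0) (XT.lf (nat_lit 0) (nat_lit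 51366458598) (nat_lit 168) (nat_lit 4181101243) (nat_lit 0) (nat_lit 6269103086) (nat_lit 5) (nat_lit 5) (nat_lit 7) (nat_lit 4) (nat_lit 5) (nat_lit 4) (nat_lit 411) (nat_lit 296) (nat_lit 181)) (XT.lf (nat_lit 0) (nat_lit 226191870) (nat_lit 84) (nat_lit 54270249881) (nat_lit 84) (nat_lit 9131142279) (nat_lit 4) (nat_lit 4) (nat_lit 5) (nat_lit 5) (nat_lit 5) (nat_lit 4) (nat_lit 412) (nat_lit 296) (nat_lit 180))) (XT.nd (nat_lit 94) (nat_lit 0) (nat_lit 0) (XT.lf (nat_lit 0) (nat_lit 4851018948) (nat_lit 84) (nat_lit 52911027252) (nat_lit 84) (nat_lit 7731422957) (nat_lit 4) (nat_lit 4) (nat_lit 5) (nat_lit 5) (nat_lit 5) (nat_lit 4) (nat_lit 413) (nat_lit 296) (nat_lit 179)) (XT.lf (nat_lit 0) (nat_lit 9611718799) (nat_lit 84) (nat_lit 51512267138) (nat_lit 84) (nat_lit 6293383800) (nat_lit 4) (nat_lit 4) (nat_lit 5) (nat_lit 5) (nat_lit 5) (nat_lit 4) (nat_lit 414) (nat_lit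 296) (nat_lit 178)))))) (XT.nd (nat_lit 564) (nat_lit 0) (nat_lit 0) (XT.nd (nat_lit 282) (nat_lit 84) (nat_lit 0) (XT.nd (nat_lit 94) (nat_lit 0) (nat_lit 0) (XT.lf (nat_lit 0) (nat_lit 14512728892) (nat_lit 84) (nat_lit 50072665748) (nat_lit 84) (nat_lit 4815684405) (nat_lit 4) (nat_lit 4) (nat_lit 5) (nat_lit 5) (nat_lit 5) (nat_lit 4) (nat_lit 415) (nat_lit 296) (nat_lit 177)) (XT.nd (nat_lit 94) (nat_lit 0) (nat_lit 0) (XT.lf (nat_lit 0) (nat_lit 19558617483) (nat_lit 84) (nat_lit 48590881222) (nat_lit 84) (nat_lit 3296947402) (nat_lit 4) (nat_lit 4) (nat_lit 5) (nat_lit 5) (nat_lit 5) (nat_lit 4) (nat_lit 416) (nat_lit 296) (nat_lit 176)) (XT.lf (nat_lit 0) (nat_lit 24754087868) (nat_lit 84) (nat_lit 47065532383) (nat_lit 84) (nat_lit 1735757168) (nat_lit 4) (nat_lit 4) (nat_lit 5) (nat_lit 5) (nat_lit 5) (nat_lit 4) (nat_lit 417) (nat_lit 296) (nat_lit 175)))) (XT.nd (nat_lit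 94) (nat_lit 84) (nat_lit 0) (XT.lf (nat_lit 0) (nat_lit 30103982770) (nat_lit 84) (nat_lit 45495197444) (nat_lit 84) (nat_lit 130658510) (nat_lit 4) (nat_lit 4) (nat_lit 5) (nat_lit 5) (nat_lit 5) (nat_lit 4) (nat_lit 418) (nat_lit 296) (nat_lit 174)) (XT.nd (nat_lit 94) (nat_lit 0) (nat_lit 0) (XT.lf (nat_lit 0) (nat_lit 1489223206) (nat_lit 168) (nat_lit 42373645048) (nat_lit 84) (nat_lit 34108521208) (nat_lit 3) (nat_lit 5) (nat_lit 5) (nat_lit 5) (nat_lit 4) (nat_lit 4) (nat_lit 419) (nat_lit 296) (nat_lit 173)) (XT.lf (nat_lit 0) (nat_lit 3152469635) (nat_lit 168) (nat_lit 39028296156) (nat_lit 84) (nat_lit 38101766409) (nat_lit 3) (nat_lit 5) (nat_lit 5) (nat_lit 5) (nat_lit 4) (nat_lit 4) (nat_lit 420) (nat_lit 296) (nat_lit 172))))) (XT.nd (nat_lit 282) (nat_lit 0) (nat_lit 0) (XT.nd (nat_lit 94) (nat_lit 0) (nat_lit 0) (XT.lf (nat_lit 0) (nat_lit 4863263572) (nat_lit 168)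 (nat_lit 35585394916) (nat_lit 84) (nat_lit 42216802858) (nat_lit 3) (nat_lit 5) (nat_lit 5) (nat_lit 5) (nat_lit 4) (nat_lit 4) (nat_lit 421) (nat_lit 296) (nat_lit 171)) (XT.nd (nat_lit 94) (nat_lit 0) (nat_lit 0) (XT.lf (nat_lit 0) (nat_lit 6623199657) (nat_lit 168) (nat_lit 32041732182) (nat_lit 84) (nat_lit 46457466198) (nat_lit 3) (nat_lit 5) (nat_lit 5) (nat_lit 5) (nat_lit 4) (nat_lit 4) (nat_lit 422) (nat_lit 296) (nat_lit 170)) (XT.lf (nat_lit 0) (nat_lit 8433918335) (nat_lit 168) (nat_lit 28394004889) (nat_lit 84) (nat_lit 50827709174) (nat_lit 3) (nat_lit 5) (nat_lit 5) (nat_lit 5) (nat_lit 4) (nat_lit 4) (nat_lit 423) (nat_lit 296) (nat_lit 169)))) (XT.nd (nat_lit 43804) (nat_lit 0) (nat_lit 12180) (XT.nd (nat_lit 94) (nat_lit 0) (nat_lit 0) (XT.lf (nat_lit 0) (nat_lit 10297107385) (nat_lit 168) (nat_lit 24638812974) (nat_lit 84) (nat_lit 55331605309) (nat_lit 3) (nat_lit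 5) (nat_lit 5) (nat_lit 5) (nat_lit 4) (nat_lit 4) (nat_lit 424) (nat_lit 296) (nat_lit 168)) (XT.lf (nat_lit 0) (nat_lit 12214503495) (nat_lit 168) (nat_lit 20772656205) (nat_lit 84) (nat_lit 59973352706) (nat_lit 3) (nat_lit 5) (nat_lit 5) (nat_lit 5) (nat_lit 4) (nat_lit 4) (nat_lit 425) (nat_lit 296) (nat_lit 167))) (XT.nd (nat_lit 94) (nat_lit 252) (nat_lit 0) (XT.lf (nat_lit 0) (nat_lit 1116308841) (nat_lit 0) (nat_lit 1116308841) (nat_lit 84) (nat_lit 990886538) (nat_lit 151) (nat_lit 5) (nat_lit 151) (nat_lit 3) (nat_lit 152) (nat_lit 0) (nat_lit 297) (nat_lit 297) (nat_lit 294)) (XT.lf (nat_lit 0) (nat_lit 197586567) (nat_lit 252) (nat_lit 1917545124) (nat_lit 252) (nat_lit 4339024125) (nat_lit 148) (nat_lit 3) (nat_lit 151) (nat_lit 3) (nat_lit 151) (nat_lit 5) (nat_lit 298) (nat_lit 297) (nat_lit 293))))))) (XT.nd (nat_lit 1222) (nat_lit 3612) (nat_lit 0) (XT.nd (nat_lit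 564) (nat_lit 1092) (nat_lit 0) (XT.nd (nat_lit 282) (nat_lit 0) (nat_lit 0) (XT.nd (nat_lit 94) (nat_lit 252) (nat_lit 0) (XT.lf (nat_lit 84) (nat_lit 392549854) (nat_lit 0) (nat_lit 1927262174) (nat_lit 252) (nat_lit 4144727290) (nat_lit 149) (nat_lit 5) (nat_lit 148) (nat_lit 3) (nat_lit 151) (nat_lit 5) (nat_lit 299) (nat_lit 297) (nat_lit 292)) (XT.nd (nat_lit 94) (nat_lit 252) (nat_lit 0) (XT.lf (nat_lit 84) (nat_lit 2769777316) (nat_lit 0) (nat_lit 1672822913) (nat_lit 252) (nat_lit 2035688331) (nat_lit 149) (nat_lit 5) (nat_lit 148) (nat_lit 3) (nat_lit 151) (nat_lit 5) (nat_lit 300) (nat_lit 297) (nat_lit 291)) (XT.lf (nat_lit 0) (nat_lit 51440509) (nat_lit 252) (nat_lit 1319614537) (nat_lit 336) (nat_lit 5124946984) (nat_lit 145) (nat_lit 5) (nat_lit 148) (nat_lit 3) (nat_lit 149) (nat_lit 5) (nat_lit 301) (nat_lit 297) (nat_lit 290)))) (XT.nd (nat_lit 94) (nat_lit 0) (nat_lit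 0) (XT.lf (nat_lit 84) (nat_lit 1099596316) (nat_lit 0) (nat_lit 990341510) (nat_lit 336) (nat_lit 4426816212) (nat_lit 146) (nat_lit 5) (nat_lit 145) (nat_lit 5) (nat_lit 149) (nat_lit 5) (nat_lit 302) (nat_lit 297) (nat_lit 289)) (XT.nd (nat_lit 94) (nat_lit 0) (nat_lit 0) (XT.lf (nat_lit 84) (nat_lit 3577158431) (nat_lit 0) (nat_lit 548311157) (nat_lit 336) (nat_lit 2415635072) (nat_lit 146) (nat_lit 5) (nat_lit 145) (nat_lit 5) (nat_lit 149) (nat_lit 5) (nat_lit 303) (nat_lit 297) (nat_lit 288)) (XT.lf (nat_lit 84) (nat_lit 6088247172) (nat_lit 0) (nat_lit 58326039) (nat_lit 336) (nat_lit 422917538) (nat_lit 146) (nat_lit 5) (nat_lit 145) (nat_lit 5) (nat_lit 149) (nat_lit 5) (nat_lit 304) (nat_lit 297) (nat_lit 287))))) (XT.nd (nat_lit 282) (nat_lit 504) (nat_lit 0) (XT.nd (nat_lit 94) (nat_lit 336) (nat_lit 0) (XT.lf (nat_lit 0) (nat_lit 1547458286) (nat_lit 336) (nat_lit 4546608947)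 (nat_lit 84) (nat_lit 506601595) (nat_lit 142) (nat_lit 5) (nat_lit 146) (nat_lit 5) (nat_lit 143) (nat_lit 5) (nat_lit 305) (nat_lit 297) (nat_lit 286)) (XT.nd (nat_lit 94) (nat_lit 336) (nat_lit 0) (XT.lf (nat_lit 0) (nat_lit 3501181572) (nat_lit 336) (nat_lit 2006833496) (nat_lit 84) (nat_lit 1127602106) (nat_lit 142) (nat_lit 5) (nat_lit 146) (nat_lit 5) (nat_lit 143) (nat_lit 5) (nat_lit 306) (nat_lit 297) (nat_lit 285)) (XT.lf (nat_lit 0) (nat_lit 577369505) (nat_lit 336) (nat_lit 4871451720) (nat_lit 420) (nat_lit 1225670159) (nat_lit 138) (nat_lit 5) (nat_lit 142) (nat_lit 5) (nat_lit 143) (nat_lit 5) (nat_lit 307) (nat_lit 297) (nat_lit 284)))) (XT.nd (nat_lit 188) (nat_lit 420) (nat_lit 0) (XT.nd (nat_lit 94) (nat_lit 0) (nat_lit 0) (XT.lf (nat_lit 0) (nat_lit 676361507) (nat_lit 420) (nat_lit 3484958581) (nat_lit 84) (nat_lit 2555332165) (nat_lit 137) (nat_lit 5) (nat_lit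 142) (nat_lit 5) (nat_lit 138) (nat_lit 5) (nat_lit 308) (nat_lit 297) (nat_lit 283)) (XT.lf (nat_lit 0) (nat_lit 2541952410) (nat_lit 420) (nat_lit 850606363) (nat_lit 84) (nat_lit 3370049383) (nat_lit 137) (nat_lit 5) (nat_lit 142) (nat_lit 5) (nat_lit 138) (nat_lit 5) (nat_lit 309) (nat_lit 297) (nat_lit 282))) (XT.nd (nat_lit 94) (nat_lit 0) (nat_lit 0) (XT.lf (nat_lit 0) (nat_lit 1857983289) (nat_lit 420) (nat_lit 2557984134) (nat_lit 504) (nat_lit 2396240055) (nat_lit 132) (nat_lit 5) (nat_lit 137) (nat_lit 5) (nat_lit 138) (nat_lit 5) (nat_lit 310) (nat_lit 297) (nat_lit 281)) (XT.lf (nat_lit 0) (nat_lit 4624164106) (nat_lit 420) (nat_lit 1666550045) (nat_lit 504) (nat_lit 575074911) (nat_lit 132) (nat_lit 5) (nat_lit 137) (nat_lit 5) (nat_lit 138) (nat_lit 5) (nat_lit 311) (nat_lit 297) (nat_lit 280)))))) (XT.nd (nat_lit 564) (nat_lit 1680) (nat_lit 0) (XT.nd (nat_lit 282)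 (nat_lit 1344) (nat_lit 0) (XT.nd (nat_lit 94) (nat_lit 0) (nat_lit 0) (XT.lf (nat_lit 0) (nat_lit 507317868) (nat_lit 504) (nat_lit 708477634) (nat_lit 588) (nat_lit 5707338307) (nat_lit 125) (nat_lit 5) (nat_lit 131) (nat_lit 5) (nat_lit 132) (nat_lit 5) (nat_lit 312) (nat_lit 297) (nat_lit 279)) (XT.nd (nat_lit 94) (nat_lit 0) (nat_lit 0) (XT.lf (nat_lit 0) (nat_lit 3012826022) (nat_lit 588) (nat_lit 3648799288) (nat_lit 84) (nat_lit 322216462) (nat_lit 125) (nat_lit 5) (nat_lit 132) (nat_lit 5) (nat_lit 126) (nat_lit 5) (nat_lit 313) (nat_lit 297) (nat_lit 278)) (XT.lf (nat_lit 0) (nat_lit 4810910322) (nat_lit 588) (nat_lit 849202647) (nat_lit 84) (nat_lit 1388602823) (nat_lit 125) (nat_lit 5) (nat_lit 132) (nat_lit 5) (nat_lit 126) (nat_lit 5) (nat_lit 314) (nat_lit 297) (nat_lit 277)))) (XT.nd (nat_lit 94) (nat_lit 756) (nat_lit 0) (XT.lf (nat_lit 0) (nat_lit 2033583866) (nat_lit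 588) (nat_lit 4591285754) (nat_lit 672) (nat_lit 492539213) (nat_lit 118) (nat_lit 5) (nat_lit 125) (nat_lit 5) (nat_lit 126) (nat_lit 5) (nat_lit 315) (nat_lit 297) (nat_lit 276)) (XT.nd (nat_lit 94) (nat_lit 672) (nat_lit 0) (XT.lf (nat_lit 0) (nat_lit 1229639955) (nat_lit 672) (nat_lit 2223158448) (nat_lit 84) (nat_lit 3737145963) (nat_lit 117) (nat_lit 5) (nat_lit 125) (nat_lit 5) (nat_lit 118) (nat_lit 5) (nat_lit 316) (nat_lit 297) (nat_lit 275)) (XT.lf (nat_lit 0) (nat_lit 690557417) (nat_lit 672) (nat_lit 2253251780) (nat_lit 756) (nat_lit 4322871320) (nat_lit 109) (nat_lit 5) (nat_lit 117) (nat_lit 5) (nat_lit 118) (nat_lit 5) (nat_lit 317) (nat_lit 297) (nat_lit 274))))) (XT.nd (nat_lit 282) (nat_lit 840) (nat_lit 0) (XT.nd (nat_lit 94) (nat_lit 840) (nat_lit 0) (XT.lf (nat_lit 0) (nat_lit 3697671869) (nat_lit 672) (nat_lit 979941729) (nat_lit 756) (nat_lit 2669726846)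 (nat_lit 109) (nat_lit 5) (nat_lit 117) (nat_lit 5) (nat_lit 118) (nat_lit 5) (nat_lit 318) (nat_lit 297) (nat_lit 273)) (XT.nd (nat_lit 94) (nat_lit 840) (nat_lit 0) (XT.lf (nat_lit 0) (nat_lit 6413585330) (nat_lit 756) (nat_lit 680845478) (nat_lit 84) (nat_lit 338160126) (nat_lit 109) (nat_lit 5) (nat_lit 118) (nat_lit 5) (nat_lit 110) (nat_lit 5) (nat_lit 319) (nat_lit 297) (nat_lit 272)) (XT.lf (nat_lit 0) (nat_lit 648803429) (nat_lit 840) (nat_lit 5154011620) (nat_lit 84) (nat_lit 1718551252) (nat_lit 99) (nat_lit 5) (nat_lit 109) (nat_lit 5) (nat_lit 100) (nat_lit 5) (nat_lit 320) (nat_lit 297) (nat_lit 271)))) (XT.nd (nat_lit 188) (nat_lit 0) (nat_lit 0) (XT.nd (nat_lit 94) (nat_lit 840) (nat_lit 0) (XT.lf (nat_lit 0) (nat_lit 2301280827) (nat_lit 840) (nat_lit 2143477127) (nat_lit 84) (nat_lit 3169682657) (nat_lit 99) (nat_lit 5) (nat_lit 109) (nat_lit 5) (nat_lit 100) (nat_lit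 5) (nat_lit 321) (nat_lit 297) (nat_lit 270)) (XT.lf (nat_lit 0) (nat_lit 935793246) (nat_lit 840) (nat_lit 3027024052) (nat_lit 924) (nat_lit 3749324775) (nat_lit 89) (nat_lit 5) (nat_lit 99) (nat_lit 5) (nat_lit 100) (nat_lit 5) (nat_lit 322) (nat_lit 297) (nat_lit 269))) (XT.nd (nat_lit 94) (nat_lit 0) (nat_lit 0) (XT.lf (nat_lit 0) (nat_lit 4112956596) (nat_lit 840) (nat_lit 1534947807) (nat_lit 924) (nat_lit 2166256127) (nat_lit 89) (nat_lit 5) (nat_lit 99) (nat_lit 5) (nat_lit 100) (nat_lit 5) (nat_lit 323) (nat_lit 297) (nat_lit 268)) (XT.lf (nat_lit 0) (nat_lit 7336516079) (nat_lit 924) (nat_lit 574467756) (nat_lit 84) (nat_lit 10276735) (nat_lit 89) (nat_lit 5) (nat_lit 100) (nat_lit 5) (nat_lit 90) (nat_lit 5) (nat_lit 324) (nat_lit 297) (nat_lit 267))))))))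
noncomputable def xc88 : XT := (XT.nd (nat_lit 2350) (nat_lit 1764) (nat_lit 0) (XT.nd (nat_lit 1128) (nat_lit 1512) (nat_lit 0) (XT.nd (nat_lit 564) (nat_lit 924) (nat_lit 0) (XT.nd (nat_lit 282) (nat_lit 588) (nat_lit 0) (XT.nd (nat_lit 94) (nat_lit 672) (nat_lit 0) (XT.lf (nat_lit 0) (nat_lit 1018930823) (nat_lit 1008) (nat_lit 5398172626) (nat_lit 84) (nat_lit 1614819916) (nat_lit 77) (nat_lit 5) (nat_lit 89) (nat_lit 5) (nat_lit 78) (nat_lit 5) (nat_lit 325) (nat_lit 297) (nat_lit 266)) (XT.nd (nat_lit 94) (nat_lit 672) (nat_lit 0) (XT.lf (nat_lit 0) (nat_lit 2619105324) (nat_lit 1008) (nat_lit 2241573784) (nat_lit 84) (nat_lit 3286798435) (nat_lit 77) (nat_lit 5) (nat_lit 89) (nat_lit 5) (nat_lit 78) (nat_lit 5) (nat_lit 326) (nat_lit 297) (nat_lit 265)) (XT.lf (nat_lit 0) (nat_lit 990841415) (nat_lit 672) (nat_lit 3242164239) (nat_lit 756) (nat_lit 4035082412) (nat_lit 69)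 (nat_lit 5) (nat_lit 77) (nat_lit 5) (nat_lit 78) (nat_lit 5) (nat_lit 327) (nat_lit 297) (nat_lit 264)))) (XT.nd (nat_lit 94) (nat_lit 588) (nat_lit 0) (XT.lf (nat_lit 0) (nat_lit 4329405448) (nat_lit 672) (nat_lit 1546181958) (nat_lit 756) (nat_lit 2517862961) (nat_lit 69) (nat_lit 5) (nat_lit 77) (nat_lit 5) (nat_lit 78) (nat_lit 5) (nat_lit 328) (nat_lit 297) (nat_lit 263)) (XT.nd (nat_lit 94) (nat_lit 588) (nat_lit 0) (XT.lf (nat_lit 0) (nat_lit 7527725817) (nat_lit 756) (nat_lit 795284060) (nat_lit 84) (nat_lit 201311751) (nat_lit 69) (nat_lit 5) (nat_lit 78) (nat_lit 5) (nat_lit 70) (nat_lit 5) (nat_lit 329) (nat_lit 297) (nat_lit 262)) (XT.lf (nat_lit 0) (nat_lit 559219765) (nat_lit 588) (nat_lit 6095269364) (nat_lit 84) (nat_lit 2004938996) (nat_lit 62) (nat_lit 5) (nat_lit 69) (nat_lit 5) (nat_lit 63) (nat_lit 5) (nat_lit 330) (nat_lit 297) (nat_lit 261))))) (XT.nd (nat_lit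 282) (nat_lit 504) (nat_lit 0) (XT.nd (nat_lit 94) (nat_lit 420) (nat_lit 0) (XT.lf (nat_lit 0) (nat_lit 2109012310) (nat_lit 588) (nat_lit 2805677954) (nat_lit 84) (nat_lit 3885067450) (nat_lit 62) (nat_lit 5) (nat_lit 69) (nat_lit 5) (nat_lit 63) (nat_lit 5) (nat_lit 331) (nat_lit 297) (nat_lit 260)) (XT.nd (nat_lit 94) (nat_lit 0) (nat_lit 0) (XT.lf (nat_lit 0) (nat_lit 556819897) (nat_lit 420) (nat_lit 3114875518) (nat_lit 504) (nat_lit 5274133174) (nat_lit 57) (nat_lit 5) (nat_lit 62) (nat_lit 5) (nat_lit 63) (nat_lit 5) (nat_lit 332) (nat_lit 297) (nat_lit 259)) (XT.lf (nat_lit 0) (nat_lit 4043152403) (nat_lit 420) (nat_lit 1229105516) (nat_lit 504) (nat_lit 3824789484) (nat_lit 57) (nat_lit 5) (nat_lit 62) (nat_lit 5) (nat_lit 63) (nat_lit 5) (nat_lit 333) (nat_lit 297) (nat_lit 258)))) (XT.nd (nat_lit 94) (nat_lit 504) (nat_lit 0) (XT.lf (nat_lit 0) (nat_lit 6890880549) (nat_lit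 504) (nat_lit 1662650765) (nat_lit 84) (nat_lit 700684441) (nat_lit 57) (nat_lit 5) (nat_lit 63) (nat_lit 5) (nat_lit 58) (nat_lit 5) (nat_lit 334) (nat_lit 297) (nat_lit 257)) (XT.nd (nat_lit 94) (nat_lit 84) (nat_lit 0) (XT.lf (nat_lit 0) (nat_lit 1818840541) (nat_lit 420) (nat_lit 6733964660) (nat_lit 504) (nat_lit 863939212) (nat_lit 52) (nat_lit 5) (nat_lit 57) (nat_lit 5) (nat_lit 58) (nat_lit 5) (nat_lit 335) (nat_lit 297) (nat_lit 256)) (XT.lf (nat_lit 0) (nat_lit 648348988) (nat_lit 504) (nat_lit 4186799613) (nat_lit 84) (nat_lit 4749827149) (nat_lit 51) (nat_lit 5) (nat_lit 57) (nat_lit 5) (nat_lit 52) (nat_lit 5) (nat_lit 336) (nat_lit 297) (nat_lit 255)))))) (XT.nd (nat_lit 564) (nat_lit 756) (nat_lit 0) (XT.nd (nat_lit 282) (nat_lit 420) (nat_lit 0) (XT.nd (nat_lit 94) (nat_lit 336) (nat_lit 0) (XT.lf (nat_lit 0) (nat_lit 2153314364) (nat_lit 504) (nat_lit 717185967)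 (nat_lit 84) (nat_lit 6889022890) (nat_lit 51) (nat_lit 5) (nat_lit 57) (nat_lit 5) (nat_lit 52) (nat_lit 5) (nat_lit 337) (nat_lit 297) (nat_lit 254)) (XT.nd (nat_lit 94) (nat_lit 0) (nat_lit 0) (XT.lf (nat_lit 0) (nat_lit 2880782848) (nat_lit 336) (nat_lit 817561025) (nat_lit 420) (nat_lit 6241585419) (nat_lit 47) (nat_lit 5) (nat_lit 51) (nat_lit 5) (nat_lit 52) (nat_lit 5) (nat_lit 338) (nat_lit 297) (nat_lit 253)) (XT.lf (nat_lit 0) (nat_lit 5277218694) (nat_lit 420) (nat_lit 3571314425) (nat_lit 84) (nat_lit 1278066432) (nat_lit 47) (nat_lit 5) (nat_lit 52) (nat_lit 5) (nat_lit 48) (nat_lit 5) (nat_lit 339) (nat_lit 297) (nat_lit 252)))) (XT.nd (nat_lit 94) (nat_lit 420) (nat_lit 0) (XT.lf (nat_lit 0) (nat_lit 6879938136) (nat_lit 420) (nat_lit 20722506) (nat_lit 84) (nat_lit 3419402993) (nat_lit 47) (nat_lit 5) (nat_lit 52) (nat_lit 5) (nat_lit 48) (nat_lit 5) (nat_lit 340)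 (nat_lit 297) (nat_lit 251)) (XT.nd (nat_lit 94) (nat_lit 0) (nat_lit 0) (XT.lf (nat_lit 0) (nat_lit 3678155786) (nat_lit 420) (nat_lit 4858217771) (nat_lit 504) (nat_lit 1983248616) (nat_lit 42) (nat_lit 5) (nat_lit 47) (nat_lit 5) (nat_lit 48) (nat_lit 5) (nat_lit 341) (nat_lit 297) (nat_lit 250)) (XT.lf (nat_lit 0) (nat_lit 7456613332) (nat_lit 420) (nat_lit 2755928832) (nat_lit 504) (nat_lit 514020340) (nat_lit 42) (nat_lit 5) (nat_lit 47) (nat_lit 5) (nat_lit 48) (nat_lit 5) (nat_lit 342) (nat_lit 297) (nat_lit 249))))) (XT.nd (nat_lit 282) (nat_lit 336) (nat_lit 0) (XT.nd (nat_lit 94) (nat_lit 0) (nat_lit 0) (XT.lf (nat_lit 0) (nat_lit 374599529) (nat_lit 336) (nat_lit 578311648) (nat_lit 420) (nat_lit 9987759744) (nat_lit 37) (nat_lit 5) (nat_lit 41) (nat_lit 5) (nat_lit 42) (nat_lit 5) (nat_lit 343) (nat_lit 297) (nat_lit 248)) (XT.nd (nat_lit 94) (nat_lit 0) (nat_lit 0)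 (XT.lf (nat_lit 0) (nat_lit 2474816005) (nat_lit 420) (nat_lit 7017107433) (nat_lit 84) (nat_lit 1668901359) (nat_lit 37) (nat_lit 5) (nat_lit 42) (nat_lit 5) (nat_lit 38) (nat_lit 5) (nat_lit 344) (nat_lit 297) (nat_lit 247)) (XT.lf (nat_lit 0) (nat_lit 4019902154) (nat_lit 420) (nat_lit 3399014147) (nat_lit 84) (nat_lit 3969821688) (nat_lit 37) (nat_lit 5) (nat_lit 42) (nat_lit 5) (nat_lit 38) (nat_lit 5) (nat_lit 345) (nat_lit 297) (nat_lit 246)))) (XT.nd (nat_lit 188) (nat_lit 0) (nat_lit 0) (XT.nd (nat_lit 94) (nat_lit 0) (nat_lit 0) (XT.lf (nat_lit 0) (nat_lit 303431296) (nat_lit 336) (nat_lit 5283451663) (nat_lit 420) (nat_lit 6037824505) (nat_lit 33) (nat_lit 5) (nat_lit 37) (nat_lit 5) (nat_lit 38) (nat_lit 5) (nat_lit 346) (nat_lit 297) (nat_lit 245)) (XT.lf (nat_lit 0) (nat_lit 4159131094) (nat_lit 336) (nat_lit 3050313979) (nat_lit 420) (nat_lit 4658509093) (nat_lit 33)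 (nat_lit 5) (nat_lit 37) (nat_lit 5) (nat_lit 38) (nat_lit 5) (nat_lit 347) (nat_lit 297) (nat_lit 244))) (XT.nd (nat_lit 94) (nat_lit 0) (nat_lit 0) (XT.lf (nat_lit 0) (nat_lit 8101788462) (nat_lit 336) (nat_lit 752900467) (nat_lit 420) (nat_lit 3265082667) (nat_lit 33) (nat_lit 5) (nat_lit 37) (nat_lit 5) (nat_lit 38) (nat_lit 5) (nat_lit 348) (nat_lit 297) (nat_lit 243)) (XT.lf (nat_lit 0) (nat_lit 10540128693) (nat_lit 420) (nat_lit 261296734) (nat_lit 84) (nat_lit 1578473648) (nat_lit 33) (nat_lit 5) (nat_lit 38) (nat_lit 5) (nat_lit 34) (nat_lit 5) (nat_lit 349) (nat_lit 297) (nat_lit 242))))))) (XT.nd (nat_lit 1222) (nat_lit 588) (nat_lit 0) (XT.nd (nat_lit 564) (nat_lit 588) (nat_lit 0) (XT.nd (nat_lit 282) (nat_lit 252) (nat_lit 0) (XT.nd (nat_lit 94) (nat_lit 84) (nat_lit 0) (XT.lf (nat_lit 0) (nat_lit 3646043335) (nat_lit 252) (nat_lit 8649615305) (nat_lit 336) (nat_lit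 352042407) (nat_lit 30) (nat_lit 5) (nat_lit 33) (nat_lit 5) (nat_lit 34) (nat_lit 5) (nat_lit 350) (nat_lit 297) (nat_lit 241)) (XT.nd (nat_lit 94) (nat_lit 0) (nat_lit 0) (XT.lf (nat_lit 0) (nat_lit 1134777428) (nat_lit 336) (nat_lit 5287352871) (nat_lit 84) (nat_lit 6502184810) (nat_lit 29) (nat_lit 5) (nat_lit 33) (nat_lit 5) (nat_lit 30) (nat_lit 5) (nat_lit 351) (nat_lit 297) (nat_lit 240)) (XT.lf (nat_lit 0) (nat_lit 2635184598) (nat_lit 336) (nat_lit 1492476332) (nat_lit 84) (nat_lit 9082661903) (nat_lit 29) (nat_lit 5) (nat_lit 33) (nat_lit 5) (nat_lit 30) (nat_lit 5) (nat_lit 352) (nat_lit 297) (nat_lit 239)))) (XT.nd (nat_lit 94) (nat_lit 0) (nat_lit 0) (XT.lf (nat_lit 0) (nat_lit 2439144764) (nat_lit 252) (nat_lit 1742722361) (nat_lit 336) (nat_lit 9323481844) (nat_lit 26) (nat_lit 5) (nat_lit 29) (nat_lit 5) (nat_lit 30) (nat_lit 5) (nat_lit 353) (nat_lit 297) (nat_lit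 238)) (XT.nd (nat_lit 94) (nat_lit 0) (nat_lit 0) (XT.lf (nat_lit 0) (nat_lit 5775287676) (nat_lit 336) (nat_lit 7322578925) (nat_lit 84) (nat_lit 711832264) (nat_lit 26) (nat_lit 5) (nat_lit 30) (nat_lit 5) (nat_lit 27) (nat_lit 5) (nat_lit 354) (nat_lit 297) (nat_lit 237)) (XT.lf (nat_lit 0) (nat_lit 7412600234) (nat_lit 336) (nat_lit 3510369388) (nat_lit 84) (nat_lit 3200820852) (nat_lit 26) (nat_lit 5) (nat_lit 30) (nat_lit 5) (nat_lit 27) (nat_lit 5) (nat_lit 355) (nat_lit 297) (nat_lit 236))))) (XT.nd (nat_lit 282) (nat_lit 336) (nat_lit 0) (XT.nd (nat_lit 94) (nat_lit 0) (nat_lit 0) (XT.lf (nat_lit 0) (nat_lit 399311031) (nat_lit 252) (nat_lit 8682693107) (nat_lit 336) (nat_lit 5366325555) (nat_lit 23) (nat_lit 5) (nat_lit 26) (nat_lit 5) (nat_lit 27) (nat_lit 5) (nat_lit 356) (nat_lit 297) (nat_lit 235)) (XT.nd (nat_lit 94) (nat_lit 0) (nat_lit 0) (XT.lf (nat_lit 0) (nat_lit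 4476147788) (nat_lit 252) (nat_lit 6341424266) (nat_lit 336) (nat_lit 3965038960) (nat_lit 23) (nat_lit 5) (nat_lit 26) (nat_lit 5) (nat_lit 27) (nat_lit 5) (nat_lit 357) (nat_lit 297) (nat_lit 234)) (XT.lf (nat_lit 0) (nat_lit 8651760527) (nat_lit 252) (nat_lit 3933621847) (nat_lit 336) (nat_lit 2542665366) (nat_lit 23) (nat_lit 5) (nat_lit 26) (nat_lit 5) (nat_lit 27) (nat_lit 5) (nat_lit 358) (nat_lit 297) (nat_lit 233)))) (XT.nd (nat_lit 188) (nat_lit 0) (nat_lit 0) (XT.nd (nat_lit 94) (nat_lit 336) (nat_lit 0) (XT.lf (nat_lit 0) (nat_lit 12930041355) (nat_lit 252) (nat_lit 1457041526) (nat_lit 336) (nat_lit 1097878972) (nat_lit 23) (nat_lit 5) (nat_lit 26) (nat_lit 5) (nat_lit 27) (nat_lit 5) (nat_lit 359) (nat_lit 297) (nat_lit 232)) (XT.lf (nat_lit 0) (nat_lit 388963516) (nat_lit 336) (nat_lit 14376535723) (nat_lit 84) (nat_lit 1087274103) (nat_lit 19) (nat_lit 5) (nat_lit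 23) (nat_lit 5) (nat_lit 20) (nat_lit 5) (nat_lit 360) (nat_lit 297) (nat_lit 231))) (XT.nd (nat_lit 94) (nat_lit 0) (nat_lit 0) (XT.lf (nat_lit 0) (nat_lit 1920630181) (nat_lit 336) (nat_lit 10597956999) (nat_lit 84) (nat_lit 3712494080) (nat_lit 19) (nat_lit 5) (nat_lit 23) (nat_lit 5) (nat_lit 20) (nat_lit 5) (nat_lit 361) (nat_lit 297) (nat_lit 230)) (XT.lf (nat_lit 0) (nat_lit 3480083649) (nat_lit 336) (nat_lit 6728350732) (nat_lit 84) (nat_lit 6413399600) (nat_lit 19) (nat_lit 5) (nat_lit 23) (nat_lit 5) (nat_lit 20) (nat_lit 5) (nat_lit 362) (nat_lit 297) (nat_lit 229)))))) (XT.nd (nat_lit 564) (nat_lit 420) (nat_lit 0) (XT.nd (nat_lit 282) (nat_lit 0) (nat_lit 0) (XT.nd (nat_lit 94) (nat_lit 168) (nat_lit 0) (XT.lf (nat_lit 0) (nat_lit 5068777496) (nat_lit 336) (nat_lit 2764110044) (nat_lit 84) (nat_lit 9192508190) (nat_lit 19) (nat_lit 5) (nat_lit 23) (nat_lit 5) (nat_lit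 20) (nat_lit 5) (nat_lit 363) (nat_lit 297) (nat_lit 228)) (XT.nd (nat_lit 94) (nat_lit 0) (nat_lit 0) (XT.lf (nat_lit 0) (nat_lit 1325159155) (nat_lit 168) (nat_lit 5376179137) (nat_lit 252) (nat_lit 10740396858) (nat_lit 17) (nat_lit 5) (nat_lit 19) (nat_lit 5) (nat_lit 20) (nat_lit 5) (nat_lit 364) (nat_lit 297) (nat_lit 227)) (XT.lf (nat_lit 0) (nat_lit 5575480096) (nat_lit 168) (nat_lit 2819667632) (nat_lit 252) (nat_lit 9475600926) (nat_lit 17) (nat_lit 5) (nat_lit 19) (nat_lit 5) (nat_lit 20) (nat_lit 5) (nat_lit 365) (nat_lit 297) (nat_lit 226)))) (XT.nd (nat_lit 94) (nat_lit 0) (nat_lit 0) (XT.lf (nat_lit 0) (nat_lit 9933978751) (nat_lit 168) (nat_lit 189821728) (nat_lit 252) (nat_lit 8189903158) (nat_lit 17) (nat_lit 5) (nat_lit 19) (nat_lit 5) (nat_lit 20) (nat_lit 5) (nat_lit 366) (nat_lit 297) (nat_lit 225)) (XT.nd (nat_lit 94) (nat_lit 0) (nat_lit 0) (XT.lf (nat_lit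 0) (nat_lit 11913864976) (nat_lit 252) (nat_lit 4391252426) (nat_lit 84) (nat_lit 2465121904) (nat_lit 17) (nat_lit 5) (nat_lit 20) (nat_lit 5) (nat_lit 18) (nat_lit 5) (nat_lit 367) (nat_lit 297) (nat_lit 224)) (XT.lf (nat_lit 0) (nat_lit 13744689214) (nat_lit 252) (nat_lit 303812972) (nat_lit 84) (nat_lit 5192970950) (nat_lit 17) (nat_lit 5) (nat_lit 20) (nat_lit 5) (nat_lit 18) (nat_lit 5) (nat_lit 368) (nat_lit 297) (nat_lit 223))))) (XT.nd (nat_lit 282) (nat_lit 252) (nat_lit 0) (XT.nd (nat_lit 94) (nat_lit 0) (nat_lit 0) (XT.lf (nat_lit 0) (nat_lit 3968237594) (nat_lit 168) (nat_lit 11687224472) (nat_lit 252) (nat_lit 4071220350) (nat_lit 15) (nat_lit 5) (nat_lit 17) (nat_lit 5) (nat_lit 18) (nat_lit 5) (nat_lit 369) (nat_lit 297) (nat_lit 222)) (XT.nd (nat_lit 94) (nat_lit 0) (nat_lit 0) (XT.lf (nat_lit 0) (nat_lit 8357334995) (nat_lit 168) (nat_lit 9255402460) (nat_lit 252)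 (nat_lit 2614673995) (nat_lit 15) (nat_lit 5) (nat_lit 17) (nat_lit 5) (nat_lit 18) (nat_lit 5) (nat_lit 370) (nat_lit 297) (nat_lit 221)) (XT.lf (nat_lit 0) (nat_lit 12861323309) (nat_lit 168) (nat_lit 6753940623) (nat_lit 252) (nat_lit 1128958391) (nat_lit 15) (nat_lit 5) (nat_lit 17) (nat_lit 5) (nat_lit 18) (nat_lit 5) (nat_lit 371) (nat_lit 297) (nat_lit 220)))) (XT.nd (nat_lit 188) (nat_lit 0) (nat_lit 0) (XT.nd (nat_lit 94) (nat_lit 168) (nat_lit 0) (XT.lf (nat_lit 0) (nat_lit 379507845) (nat_lit 252) (nat_lit 3797038206) (nat_lit 84) (nat_lit 17100931597) (nat_lit 14) (nat_lit 5) (nat_lit 17) (nat_lit 5) (nat_lit 15) (nat_lit 5) (nat_lit 372) (nat_lit 297) (nat_lit 219)) (XT.lf (nat_lit 0) (nat_lit 391532148) (nat_lit 168) (nat_lit 1508903327) (nat_lit 252) (nat_lit 19926880799) (nat_lit 12) (nat_lit 5) (nat_lit 14) (nat_lit 5) (nat_lit 15) (nat_lit 5) (nat_lit 373) (nat_lit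 297) (nat_lit 218))) (XT.nd (nat_lit 94) (nat_lit 0) (nat_lit 0) (XT.lf (nat_lit 0) (nat_lit 3506319930) (nat_lit 252) (nat_lit 17635802437) (nat_lit 84) (nat_lit 1250977241) (nat_lit 12) (nat_lit 5) (nat_lit 15) (nat_lit 5) (nat_lit 13) (nat_lit 5) (nat_lit 374) (nat_lit 297) (nat_lit 217)) (XT.lf (nat_lit 0) (nat_lit 5163310913) (nat_lit 252) (nat_lit 13753389842) (nat_lit 84) (nat_lit 4059750026) (nat_lit 12) (nat_lit 5) (nat_lit 15) (nat_lit 5) (nat_lit 13) (nat_lit 5) (nat_lit 375) (nat_lit 297) (nat_lit 216))))))))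
noncomputable def xc89 : XT := (XT.nd (nat_lit 2350) (nat_lit 252) (nat_lit 0) (XT.nd (nat_lit 1128) (nat_lit 252) (nat_lit 0) (XT.nd (nat_lit 564) (nat_lit 84) (nat_lit 0) (XT.nd (nat_lit 282) (nat_lit 168) (nat_lit 0) (XT.nd (nat_lit 94) (nat_lit 0) (nat_lit 0) (XT.lf (nat_lit 0) (nat_lit 6857984405) (nat_lit 252) (nat_lit 9769959019) (nat_lit 84) (nat_lit 6950434135) (nat_lit 12) (nat_lit 5) (nat_lit 15) (nat_lit 5) (nat_lit 13) (nat_lit 5) (nat_lit 376) (nat_lit 297) (nat_lit 215)) (XT.nd (nat_lit 94) (nat_lit 0) (nat_lit 0) (XT.lf (nat_lit 0) (nat_lit 8591920020) (nat_lit 252) (nat_lit 5681796992) (nat_lit 84) (nat_lit 9925723988) (nat_lit 12) (nat_lit 5) (nat_lit 15) (nat_lit 5) (nat_lit 13) (nat_lit 5) (nat_lit 377) (nat_lit 297) (nat_lit 214)) (XT.lf (nat_lit 0) (nat_lit 10366733967) (nat_lit 252) (nat_lit 1485093168) (nat_lit 84) (nat_lit 12988392869) (nat_lit 12) (nat_lit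 5) (nat_lit 15) (nat_lit 5) (nat_lit 13) (nat_lit 5) (nat_lit 378) (nat_lit 297) (nat_lit 213)))) (XT.nd (nat_lit 94) (nat_lit 0) (nat_lit 0) (XT.lf (nat_lit 0) (nat_lit 2882132775) (nat_lit 168) (nat_lit 9330538898) (nat_lit 252) (nat_lit 13287753843) (nat_lit 10) (nat_lit 5) (nat_lit 12) (nat_lit 5) (nat_lit 13) (nat_lit 5) (nat_lit 379) (nat_lit 297) (nat_lit 212)) (XT.nd (nat_lit 94) (nat_lit 0) (nat_lit 0) (XT.lf (nat_lit 0) (nat_lit 7398760297) (nat_lit 168) (nat_lit 6720290074) (nat_lit 252) (nat_lit 12062007051) (nat_lit 10) (nat_lit 5) (nat_lit 12) (nat_lit 5) (nat_lit 13) (nat_lit 5) (nat_lit 380) (nat_lit 297) (nat_lit 211)) (XT.lf (nat_lit 0) (nat_lit 12038462806) (nat_lit 168) (nat_lit 4034148966) (nat_lit 252) (nat_lit 10810604464) (nat_lit 10) (nat_lit 5) (nat_lit 12) (nat_lit 5) (nat_lit 13) (nat_lit 5) (nat_lit 381) (nat_lit 297) (nat_lit 210))))) (XT.nd (nat_lit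 282) (nat_lit 84) (nat_lit 0) (XT.nd (nat_lit 94) (nat_lit 0) (nat_lit 0) (XT.lf (nat_lit 0) (nat_lit 16805564991) (nat_lit 168) (nat_lit 1269611809) (nat_lit 252) (nat_lit 9532379643) (nat_lit 10) (nat_lit 5) (nat_lit 12) (nat_lit 5) (nat_lit 13) (nat_lit 5) (nat_lit 382) (nat_lit 297) (nat_lit 209)) (XT.nd (nat_lit 94) (nat_lit 0) (nat_lit 0) (XT.lf (nat_lit 0) (nat_lit 20144245161) (nat_lit 252) (nat_lit 6665876019) (nat_lit 84) (nat_lit 1544147398) (nat_lit 10) (nat_lit 5) (nat_lit 13) (nat_lit 5) (nat_lit 11) (nat_lit 4) (nat_lit 383) (nat_lit 297) (nat_lit 208)) (XT.lf (nat_lit 0) (nat_lit 22279522044) (nat_lit 252) (nat_lit 2430328438) (nat_lit 84) (nat_lit 4414267096) (nat_lit 10) (nat_lit 5) (nat_lit 13) (nat_lit 5) (nat_lit 11) (nat_lit 4) (nat_lit 384) (nat_lit 297) (nat_lit 207)))) (XT.nd (nat_lit 94) (nat_lit 0) (nat_lit 0) (XT.lf (nat_lit 0) (nat_lit 1960697657) (nat_lit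 84) (nat_lit 22529155751) (nat_lit 168) (nat_lit 5427755093) (nat_lit 9) (nat_lit 5) (nat_lit 10) (nat_lit 5) (nat_lit 11) (nat_lit 4) (nat_lit 385) (nat_lit 297) (nat_lit 206)) (XT.nd (nat_lit 94) (nat_lit 0) (nat_lit 0) (XT.lf (nat_lit 0) (nat_lit 6524195273) (nat_lit 84) (nat_lit 20259455844) (nat_lit 168) (nat_lit 3951632944) (nat_lit 9) (nat_lit 5) (nat_lit 10) (nat_lit 5) (nat_lit 11) (nat_lit 4) (nat_lit 386) (nat_lit 297) (nat_lit 205)) (XT.lf (nat_lit 0) (nat_lit 11214445531) (nat_lit 84) (nat_lit 17924002810) (nat_lit 168) (nat_lit 2440220830) (nat_lit 9) (nat_lit 5) (nat_lit 10) (nat_lit 5) (nat_lit 11) (nat_lit 4) (nat_lit 387) (nat_lit 297) (nat_lit 204)))))) (XT.nd (nat_lit 564) (nat_lit 0) (nat_lit 0) (XT.nd (nat_lit 282) (nat_lit 168) (nat_lit 0) (XT.nd (nat_lit 94) (nat_lit 84) (nat_lit 0) (XT.lf (nat_lit 0) (nat_lit 16035820235) (nat_lit 84) (nat_lit 15520619760)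 (nat_lit 168) (nat_lit 892109957) (nat_lit 9) (nat_lit 5) (nat_lit 10) (nat_lit 5) (nat_lit 11) (nat_lit 4) (nat_lit 388) (nat_lit 297) (nat_lit 203)) (XT.nd (nat_lit 94) (nat_lit 0) (nat_lit 0) (XT.lf (nat_lit 0) (nat_lit 680157246) (nat_lit 168) (nat_lit 12359809798) (nat_lit 84) (nat_lit 20305556718) (nat_lit 8) (nat_lit 5) (nat_lit 10) (nat_lit 5) (nat_lit 9) (nat_lit 5) (nat_lit 389) (nat_lit 297) (nat_lit 202)) (XT.lf (nat_lit 0) (nat_lit 2273272475) (nat_lit 168) (nat_lit 8204036613) (nat_lit 84) (nat_lit 23793044717) (nat_lit 8) (nat_lit 5) (nat_lit 10) (nat_lit 5) (nat_lit 9) (nat_lit 5) (nat_lit 390) (nat_lit 297) (nat_lit 201)))) (XT.nd (nat_lit 94) (nat_lit 168) (nat_lit 0) (XT.lf (nat_lit 0) (nat_lit 3906694708) (nat_lit 168) (nat_lit 3932686707) (nat_lit 84) (nat_lit 27384795055) (nat_lit 8) (nat_lit 5) (nat_lit 10) (nat_lit 5) (nat_lit 9) (nat_lit 5) (nat_lit 391)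 (nat_lit 297) (nat_lit 200)) (XT.nd (nat_lit 94) (nat_lit 0) (nat_lit 0) (XT.lf (nat_lit 0) (nat_lit 467643234) (nat_lit 168) (nat_lit 5118942307) (nat_lit 252) (nat_lit 30621151462) (nat_lit 6) (nat_lit 5) (nat_lit 8) (nat_lit 5) (nat_lit 9) (nat_lit 5) (nat_lit 392) (nat_lit 297) (nat_lit 199)) (XT.lf (nat_lit 0) (nat_lit 5075030650) (nat_lit 168) (nat_lit 2275903535) (nat_lit 252) (nat_lit 29869888880) (nat_lit 6) (nat_lit 5) (nat_lit 8) (nat_lit 5) (nat_lit 9) (nat_lit 5) (nat_lit 393) (nat_lit 297) (nat_lit 198))))) (XT.nd (nat_lit 282) (nat_lit 0) (nat_lit 0) (XT.nd (nat_lit 94) (nat_lit 0) (nat_lit 0) (XT.lf (nat_lit 0) (nat_lit 9168031604) (nat_lit 252) (nat_lit 28459168549) (nat_lit 84) (nat_lit 638212764) (nat_lit 6) (nat_lit 5) (nat_lit 9) (nat_lit 5) (nat_lit 7) (nat_lit 4) (nat_lit 394) (nat_lit 297) (nat_lit 197)) (XT.nd (nat_lit 94) (nat_lit 0) (nat_lit 0) (XT.lf (nat_lit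 0) (nat_lit 11056543762) (nat_lit 252) (nat_lit 24693758087) (nat_lit 84) (nat_lit 3591652239) (nat_lit 6) (nat_lit 5) (nat_lit 9) (nat_lit 5) (nat_lit 7) (nat_lit 4) (nat_lit 395) (nat_lit 297) (nat_lit 196)) (XT.lf (nat_lit 0) (nat_lit 12995653705) (nat_lit 252) (nat_lit 20823474028) (nat_lit 84) (nat_lit 6633022188) (nat_lit 6) (nat_lit 5) (nat_lit 9) (nat_lit 5) (nat_lit 7) (nat_lit 4) (nat_lit 396) (nat_lit 297) (nat_lit 195)))) (XT.nd (nat_lit 188) (nat_lit 0) (nat_lit 0) (XT.nd (nat_lit 94) (nat_lit 0) (nat_lit 0) (XT.lf (nat_lit 0) (nat_lit 14987168887) (nat_lit 252) (nat_lit 16844708862) (nat_lit 84) (nat_lit 9765157487) (nat_lit 6) (nat_lit 5) (nat_lit 9) (nat_lit 5) (nat_lit 7) (nat_lit 4) (nat_lit 397) (nat_lit 297) (nat_lit 194)) (XT.lf (nat_lit 0) (nat_lit 17032945608) (nat_lit 252) (nat_lit 12753753963) (nat_lit 84) (nat_lit 12990977614) (nat_lit 6) (nat_lit 5) (nat_lit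 9) (nat_lit 5) (nat_lit 7) (nat_lit 4) (nat_lit 398) (nat_lit 297) (nat_lit 193))) (XT.nd (nat_lit 94) (nat_lit 0) (nat_lit 0) (XT.lf (nat_lit 0) (nat_lit 19134890747) (nat_lit 252) (nat_lit 8546796133) (nat_lit 84) (nat_lit 16313489370) (nat_lit 6) (nat_lit 5) (nat_lit 9) (nat_lit 5) (nat_lit 7) (nat_lit 4) (nat_lit 399) (nat_lit 297) (nat_lit 192)) (XT.lf (nat_lit 0) (nat_lit 21294963537) (nat_lit 252) (nat_lit 4219914046) (nat_lit 84) (nat_lit 19735789686) (nat_lit 6) (nat_lit 5) (nat_lit 9) (nat_lit 5) (nat_lit 7) (nat_lit 4) (nat_lit 400) (nat_lit 297) (nat_lit 191))))))) (XT.nd (nat_lit 1222) (nat_lit 84) (nat_lit 0) (XT.nd (nat_lit 564) (nat_lit 84) (nat_lit 0) (XT.nd (nat_lit 282) (nat_lit 0) (nat_lit 0) (XT.nd (nat_lit 94) (nat_lit 0) (nat_lit 0) (XT.lf (nat_lit 0) (nat_lit 235673705) (nat_lit 84) (nat_lit 23281841599) (nat_lit 168) (nat_lit 23027732711) (nat_lit 5) (nat_lit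 5) (nat_lit 6) (nat_lit 5) (nat_lit 7) (nat_lit 4) (nat_lit 401) (nat_lit 297) (nat_lit 190)) (XT.nd (nat_lit 94) (nat_lit 0) (nat_lit 0) (XT.lf (nat_lit 0) (nat_lit 4908771679) (nat_lit 84) (nat_lit 20937525726) (nat_lit 168) (nat_lit 22032535695) (nat_lit 5) (nat_lit 5) (nat_lit 6) (nat_lit 5) (nat_lit 7) (nat_lit 4) (nat_lit 402) (nat_lit 297) (nat_lit 189)) (XT.lf (nat_lit 0) (nat_lit 9716965606) (nat_lit 84) (nat_lit 18523792065) (nat_lit 168) (nat_lit 21013232305) (nat_lit 5) (nat_lit 5) (nat_lit 6) (nat_lit 5) (nat_lit 7) (nat_lit 4) (nat_lit 403) (nat_lit 297) (nat_lit 188)))) (XT.nd (nat_lit 94) (nat_lit 0) (nat_lit 0) (XT.lf (nat_lit 0) (nat_lit 14664737225) (nat_lit 84) (nat_lit 16038390764) (nat_lit 168) (nat_lit 19968872443) (nat_lit 5) (nat_lit 5) (nat_lit 6) (nat_lit 5) (nat_lit 7) (nat_lit 4) (nat_lit 404) (nat_lit 297) (nat_lit 187)) (XT.nd (nat_lit 94) (nat_lit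 0) (nat_lit 0) (XT.lf (nat_lit 0) (nat_lit 19756698377) (nat_lit 84) (nat_lit 13479005168) (nat_lit 168) (nat_lit 18898482657) (nat_lit 5) (nat_lit 5) (nat_lit 6) (nat_lit 5) (nat_lit 7) (nat_lit 4) (nat_lit 405) (nat_lit 297) (nat_lit 186)) (XT.lf (nat_lit 0) (nat_lit 24997595305) (nat_lit 84) (nat_lit 10843249661) (nat_lit 168) (nat_lit 17801065231) (nat_lit 5) (nat_lit 5) (nat_lit 6) (nat_lit 5) (nat_lit 7) (nat_lit 4) (nat_lit 406) (nat_lit 297) (nat_lit 185))))) (XT.nd (nat_lit 282) (nat_lit 84) (nat_lit 0) (XT.nd (nat_lit 94) (nat_lit 0) (nat_lit 0) (XT.lf (nat_lit 0) (nat_lit 30392313073) (nat_lit 84) (nat_lit 8128667443) (nat_lit 168) (nat_lit 16675597257) (nat_lit 5) (nat_lit 5) (nat_lit 6) (nat_lit 5) (nat_lit 7) (nat_lit 4) (nat_lit 407) (nat_lit 297) (nat_lit 184)) (XT.nd (nat_lit 94) (nat_lit 0) (nat_lit 0) (XT.lf (nat_lit 0) (nat_lit 35945880123) (nat_lit 84) (nat_lit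 5332728239) (nat_lit 168) (nat_lit 15521029681) (nat_lit 5) (nat_lit 5) (nat_lit 6) (nat_lit 5) (nat_lit 7) (nat_lit 4) (nat_lit 408) (nat_lit 297) (nat_lit 183)) (XT.lf (nat_lit 0) (nat_lit 41663472962) (nat_lit 84) (nat_lit 2452825942) (nat_lit 168) (nat_lit 14336286325) (nat_lit 5) (nat_lit 5) (nat_lit 6) (nat_lit 5) (nat_lit 7) (nat_lit 4) (nat_lit 409) (nat_lit 297) (nat_lit 182)))) (XT.nd (nat_lit 188) (nat_lit 84) (nat_lit 0) (XT.nd (nat_lit 94) (nat_lit 0) (nat_lit 0) (XT.lf (nat_lit 0) (nat_lit 47041793368) (nat_lit 168) (nat_lit 12611635269) (nat_lit 0) (nat_lit 503373429) (nat_lit 5) (nat_lit 5) (nat_lit 7) (nat_lit 4) (nat_lit 5) (nat_lit 4) (nat_lit 410) (nat_lit 297) (nat_lit 181)) (XT.lf (nat_lit 0) (nat_lit 50077936989) (nat_lit 168) (nat_lit 8337551445) (nat_lit 0) (nat_lit 3497764960) (nat_lit 5) (nat_lit 5) (nat_lit 7) (nat_lit 4) (nat_lit 5) (nat_lit 4) (nat_lit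 411) (nat_lit 297) (nat_lit 180))) (XT.nd (nat_lit 94) (nat_lit 84) (nat_lit 0) (XT.lf (nat_lit 0) (nat_lit 53203227435) (nat_lit 168) (nat_lit 3938544567) (nat_lit 0) (nat_lit 6582558713) (nat_lit 5) (nat_lit 5) (nat_lit 7) (nat_lit 4) (nat_lit 5) (nat_lit 4) (nat_lit 412) (nat_lit 297) (nat_lit 179)) (XT.lf (nat_lit 0) (nat_lit 601606737) (nat_lit 84) (nat_lit 55824939078) (nat_lit 84) (nat_lit 9164991314) (nat_lit 4) (nat_lit 4) (nat_lit 5) (nat_lit 5) (nat_lit 5) (nat_lit 4) (nat_lit 413) (nat_lit 297) (nat_lit 178)))))) (XT.nd (nat_lit 564) (nat_lit 0) (nat_lit 0) (XT.nd (nat_lit 282) (nat_lit 84) (nat_lit 0) (XT.nd (nat_lit 94) (nat_lit 0) (nat_lit 0) (XT.lf (nat_lit 0) (nat_lit 5358726355) (nat_lit 84) (nat_lit 54427419873) (nat_lit 84) (nat_lit 7729374105) (nat_lit 4) (nat_lit 4) (nat_lit 5) (nat_lit 5) (nat_lit 5) (nat_lit 4) (nat_lit 414) (nat_lit 297) (nat_lit 177)) (XT.nd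 (nat_lit 94) (nat_lit 0) (nat_lit 0) (XT.lf (nat_lit 0) (nat_lit 10256263866) (nat_lit 84) (nat_lit 52989022081) (nat_lit 84) (nat_lit 6254023835) (nat_lit 4) (nat_lit 4) (nat_lit 5) (nat_lit 5) (nat_lit 5) (nat_lit 4) (nat_lit 415) (nat_lit 297) (nat_lit 176)) (XT.lf (nat_lit 0) (nat_lit 15298784287) (nat_lit 84) (nat_lit 51508404964) (nat_lit 84) (nat_lit 4737565323) (nat_lit 4) (nat_lit 4) (nat_lit 5) (nat_lit 5) (nat_lit 5) (nat_lit 4) (nat_lit 416) (nat_lit 297) (nat_lit 175)))) (XT.nd (nat_lit 94) (nat_lit 84) (nat_lit 0) (XT.lf (nat_lit 0) (nat_lit 20490987776) (nat_lit 84) (nat_lit 49984188431) (nat_lit 84) (nat_lit 3178585071) (nat_lit 4) (nat_lit 4) (nat_lit 5) (nat_lit 5) (nat_lit 5) (nat_lit 4) (nat_lit 417) (nat_lit 297) (nat_lit 174)) (XT.nd (nat_lit 94) (nat_lit 84) (nat_lit 0) (XT.lf (nat_lit 0) (nat_lit 25837714011) (nat_lit 84) (nat_lit 48414951754) (nat_lit 84)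 (nat_lit 1575629946) (nat_lit 4) (nat_lit 4) (nat_lit 5) (nat_lit 5) (nat_lit 5) (nat_lit 4) (nat_lit 418) (nat_lit 297) (nat_lit 173)) (XT.lf (nat_lit 0) (nat_lit 71327532) (nat_lit 168) (nat_lit 46727160193) (nat_lit 84) (nat_lit 31271874655) (nat_lit 3) (nat_lit 5) (nat_lit 5) (nat_lit 5) (nat_lit 4) (nat_lit 4) (nat_lit 419) (nat_lit 297) (nat_lit 172))))) (XT.nd (nat_lit 282) (nat_lit 0) (nat_lit 0) (XT.nd (nat_lit 94) (nat_lit 0) (nat_lit 0) (XT.lf (nat_lit 0) (nat_lit 1732598022) (nat_lit 168) (nat_lit 43384841073) (nat_lit 84) (nat_lit 35264135437) (nat_lit 3) (nat_lit 5) (nat_lit 5) (nat_lit 5) (nat_lit 4) (nat_lit 4) (nat_lit 420) (nat_lit 297) (nat_lit 171)) (XT.nd (nat_lit 94) (nat_lit 0) (nat_lit 0) (XT.lf (nat_lit 0) (nat_lit 3441475434) (nat_lit 168) (nat_lit 39944878506) (nat_lit 84) (nat_lit 39378217067) (nat_lit 3) (nat_lit 5) (nat_lit 5) (nat_lit 5) (nat_lit 4)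 (nat_lit 4) (nat_lit 421) (nat_lit 297) (nat_lit 170)) (XT.lf (nat_lit 0) (nat_lit 5199552619) (nat_lit 168) (nat_lit 36404066085) (nat_lit 84) (nat_lit 43617954298) (nat_lit 3) (nat_lit 5) (nat_lit 5) (nat_lit 5) (nat_lit 4) (nat_lit 4) (nat_lit 422) (nat_lit 297) (nat_lit 169)))) (XT.nd (nat_lit 188) (nat_lit 0) (nat_lit 0) (XT.nd (nat_lit 94) (nat_lit 0) (nat_lit 0) (XT.lf (nat_lit 0) (nat_lit 7008468290) (nat_lit 168) (nat_lit 32759103403) (nat_lit 84) (nat_lit 47987299010) (nat_lit 3) (nat_lit 5) (nat_lit 5) (nat_lit 5) (nat_lit 4) (nat_lit 4) (nat_lit 423) (nat_lit 297) (nat_lit 168)) (XT.lf (nat_lit 0) (nat_lit 8869908546) (nat_lit 168) (nat_lit 29006592972) (nat_lit 84) (nat_lit 52490323890) (nat_lit 3) (nat_lit 5) (nat_lit 5) (nat_lit 5) (nat_lit 4) (nat_lit 4) (nat_lit 424) (nat_lit 297) (nat_lit 167))) (XT.nd (nat_lit 43804) (nat_lit 0) (nat_lit 12180) (XT.lf (nat_lit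 0) (nat_lit 10785608444) (nat_lit 168) (nat_lit 25143037060) (nat_lit 84) (nat_lit 57131226230) (nat_lit 3) (nat_lit 5) (nat_lit 5) (nat_lit 5) (nat_lit 4) (nat_lit 4) (nat_lit 425) (nat_lit 297) (nat_lit 166)) (XT.lf (nat_lit 0) (nat_lit 1146986944) (nat_lit 252) (nat_lit 1042143236) (nat_lit 252) (nat_lit 1042143236) (nat_lit 148) (nat_lit 3) (nat_lit 151) (nat_lit 3) (nat_lit 151) (nat_lit 5) (nat_lit 298) (nat_lit 298) (nat_lit 292))))))))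
noncomputable def xc90 : XT := (XT.nd (nat_lit 2350) (nat_lit 4704) (nat_lit 0) (XT.nd (nat_lit 1128) (nat_lit 3612) (nat_lit 0) (XT.nd (nat_lit 564) (nat_lit 756) (nat_lit 0) (XT.nd (nat_lit 282) (nat_lit 336) (nat_lit 0) (XT.nd (nat_lit 94) (nat_lit 252) (nat_lit 0) (XT.lf (nat_lit 84) (nat_lit 200158687) (nat_lit 0) (nat_lit 4172382351) (nat_lit 252) (nat_lit 2102245825) (nat_lit 149) (nat_lit 5) (nat_lit 148) (nat_lit 3) (nat_lit 151) (nat_lit 5) (nat_lit 299) (nat_lit 298) (nat_lit 291)) (XT.nd (nat_lit 94) (nat_lit 252) (nat_lit 0) (XT.lf (nat_lit 84) (nat_lit 2555833021) (nat_lit 0) (nat_lit 3898787967) (nat_lit 252) (nat_lit 35665065) (nat_lit 149) (nat_lit 5) (nat_lit 148) (nat_lit 3) (nat_lit 151) (nat_lit 5) (nat_lit 300) (nat_lit 298) (nat_lit 290)) (XT.lf (nat_lit 0) (nat_lit 1970815910) (nat_lit 252) (nat_lit 1587590681) (nat_lit 336) (nat_lit 2950687875) (nat_lit 145)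 (nat_lit 5) (nat_lit 148) (nat_lit 3) (nat_lit 149) (nat_lit 5) (nat_lit 301) (nat_lit 298) (nat_lit 289)))) (XT.nd (nat_lit 94) (nat_lit 336) (nat_lit 0) (XT.lf (nat_lit 84) (nat_lit 804140851) (nat_lit 0) (nat_lit 3163102864) (nat_lit 336) (nat_lit 2564352199) (nat_lit 146) (nat_lit 5) (nat_lit 145) (nat_lit 5) (nat_lit 149) (nat_lit 5) (nat_lit 302) (nat_lit 298) (nat_lit 288)) (XT.nd (nat_lit 94) (nat_lit 336) (nat_lit 0) (XT.lf (nat_lit 84) (nat_lit 3260394349) (nat_lit 0) (nat_lit 2704207999) (nat_lit 336) (nat_lit 592959449) (nat_lit 146) (nat_lit 5) (nat_lit 145) (nat_lit 5) (nat_lit 149) (nat_lit 5) (nat_lit 303) (nat_lit 298) (nat_lit 287)) (XT.lf (nat_lit 0) (nat_lit 1333741583) (nat_lit 336) (nat_lit 850202339) (nat_lit 420) (nat_lit 4403152070) (nat_lit 141) (nat_lit 5) (nat_lit 145) (nat_lit 5) (nat_lit 146) (nat_lit 5) (nat_lit 304) (nat_lit 298) (nat_lit 286)))))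 (XT.nd (nat_lit 282) (nat_lit 336) (nat_lit 0) (XT.nd (nat_lit 94) (nat_lit 420) (nat_lit 0) (XT.lf (nat_lit 84) (nat_lit 1656890255) (nat_lit 0) (nat_lit 1592907501) (nat_lit 420) (nat_lit 3370160117) (nat_lit 142) (nat_lit 5) (nat_lit 141) (nat_lit 5) (nat_lit 146) (nat_lit 5) (nat_lit 305) (nat_lit 298) (nat_lit 285)) (XT.nd (nat_lit 94) (nat_lit 420) (nat_lit 0) (XT.lf (nat_lit 84) (nat_lit 4217115870) (nat_lit 0) (nat_lit 944335297) (nat_lit 420) (nat_lit 1495141465) (nat_lit 142) (nat_lit 5) (nat_lit 141) (nat_lit 5) (nat_lit 146) (nat_lit 5) (nat_lit 306) (nat_lit 298) (nat_lit 284)) (XT.lf (nat_lit 84) (nat_lit 116814676) (nat_lit 0) (nat_lit 241573658) (nat_lit 504) (nat_lit 6338764876) (nat_lit 137) (nat_lit 5) (nat_lit 136) (nat_lit 5) (nat_lit 142) (nat_lit 5) (nat_lit 307) (nat_lit 298) (nat_lit 283)))) (XT.nd (nat_lit 94) (nat_lit 420) (nat_lit 0) (XT.lf (nat_lit 0)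 (nat_lit 2198890982) (nat_lit 420) (nat_lit 4000710821) (nat_lit 84) (nat_lit 540826018) (nat_lit 137) (nat_lit 5) (nat_lit 142) (nat_lit 5) (nat_lit 138) (nat_lit 5) (nat_lit 308) (nat_lit 298) (nat_lit 282)) (XT.nd (nat_lit 94) (nat_lit 420) (nat_lit 0) (XT.lf (nat_lit 0) (nat_lit 4031079309) (nat_lit 420) (nat_lit 1388447085) (nat_lit 84) (nat_lit 1368231116) (nat_lit 137) (nat_lit 5) (nat_lit 142) (nat_lit 5) (nat_lit 138) (nat_lit 5) (nat_lit 309) (nat_lit 298) (nat_lit 281)) (XT.lf (nat_lit 0) (nat_lit 1287218603) (nat_lit 420) (nat_lit 4579815431) (nat_lit 504) (nat_lit 971830799) (nat_lit 132) (nat_lit 5) (nat_lit 137) (nat_lit 5) (nat_lit 138) (nat_lit 5) (nat_lit 310) (nat_lit 298) (nat_lit 280)))))) (XT.nd (nat_lit 564) (nat_lit 2352) (nat_lit 0) (XT.nd (nat_lit 282) (nat_lit 672) (nat_lit 0) (XT.nd (nat_lit 94) (nat_lit 504) (nat_lit 0) (XT.lf (nat_lit 0) (nat_lit 799952283)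 (nat_lit 504) (nat_lit 2869652159) (nat_lit 84) (nat_lit 3223889850) (nat_lit 131) (nat_lit 5) (nat_lit 137) (nat_lit 5) (nat_lit 132) (nat_lit 5) (nat_lit 311) (nat_lit 298) (nat_lit 279)) (XT.nd (nat_lit 94) (nat_lit 504) (nat_lit 0) (XT.lf (nat_lit 0) (nat_lit 2542903984) (nat_lit 504) (nat_lit 158148234) (nat_lit 84) (nat_lit 4251035686) (nat_lit 131) (nat_lit 5) (nat_lit 137) (nat_lit 5) (nat_lit 132) (nat_lit 5) (nat_lit 312) (nat_lit 298) (nat_lit 278)) (XT.lf (nat_lit 0) (nat_lit 2648392843) (nat_lit 504) (nat_lit 1656108684) (nat_lit 588) (nat_lit 2709683176) (nat_lit 125) (nat_lit 5) (nat_lit 131) (nat_lit 5) (nat_lit 132) (nat_lit 5) (nat_lit 313) (nat_lit 298) (nat_lit 277)))) (XT.nd (nat_lit 94) (nat_lit 672) (nat_lit 0) (XT.lf (nat_lit 0) (nat_lit 5503339719) (nat_lit 504) (nat_lit 558799354) (nat_lit 588) (nat_lit 1018455179) (nat_lit 125) (nat_lit 5) (nat_lit 131)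 (nat_lit 5) (nat_lit 132) (nat_lit 5) (nat_lit 314) (nat_lit 298) (nat_lit 276)) (XT.nd (nat_lit 94) (nat_lit 0) (nat_lit 0) (XT.lf (nat_lit 0) (nat_lit 669726721) (nat_lit 672) (nat_lit 5883138523) (nat_lit 84) (nat_lit 597779198) (nat_lit 117) (nat_lit 5) (nat_lit 125) (nat_lit 5) (nat_lit 118) (nat_lit 5) (nat_lit 315) (nat_lit 298) (nat_lit 275)) (XT.lf (nat_lit 0) (nat_lit 2353416740) (nat_lit 672) (nat_lit 3049271885) (nat_lit 84) (nat_lit 1821482444) (nat_lit 117) (nat_lit 5) (nat_lit 125) (nat_lit 5) (nat_lit 118) (nat_lit 5) (nat_lit 316) (nat_lit 298) (nat_lit 274))))) (XT.nd (nat_lit 282) (nat_lit 1680) (nat_lit 0) (XT.nd (nat_lit 94) (nat_lit 672) (nat_lit 0) (XT.lf (nat_lit 0) (nat_lit 4033028892) (nat_lit 672) (nat_lit 170724140) (nat_lit 84) (nat_lit 3098474758) (nat_lit 117) (nat_lit 5) (nat_lit 125) (nat_lit 5) (nat_lit 118) (nat_lit 5) (nat_lit 317) (nat_lit 298)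 (nat_lit 273)) (XT.nd (nat_lit 94) (nat_lit 0) (nat_lit 0) (XT.lf (nat_lit 0) (nat_lit 2811840131) (nat_lit 672) (nat_lit 2926182422) (nat_lit 756) (nat_lit 1646000102) (nat_lit 109) (nat_lit 5) (nat_lit 117) (nat_lit 5) (nat_lit 118) (nat_lit 5) (nat_lit 318) (nat_lit 298) (nat_lit 272)) (XT.lf (nat_lit 0) (nat_lit 5849036296) (nat_lit 672) (nat_lit 1595266418) (nat_lit 756) (nat_lit 26125402) (nat_lit 109) (nat_lit 5) (nat_lit 117) (nat_lit 5) (nat_lit 118) (nat_lit 5) (nat_lit 319) (nat_lit 298) (nat_lit 271)))) (XT.nd (nat_lit 188) (nat_lit 840) (nat_lit 0) (XT.nd (nat_lit 94) (nat_lit 0) (nat_lit 0) (XT.lf (nat_lit 0) (nat_lit 1390854712) (nat_lit 756) (nat_lit 181057781) (nat_lit 840) (nat_lit 5988749071) (nat_lit 99) (nat_lit 5) (nat_lit 108) (nat_lit 5) (nat_lit 109) (nat_lit 5) (nat_lit 320) (nat_lit 298) (nat_lit 270)) (XT.lf (nat_lit 0) (nat_lit 3197260979) (nat_lit 840)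 (nat_lit 3178867104) (nat_lit 84) (nat_lit 1278662795) (nat_lit 99) (nat_lit 5) (nat_lit 109) (nat_lit 5) (nat_lit 100) (nat_lit 5) (nat_lit 321) (nat_lit 298) (nat_lit 269))) (XT.nd (nat_lit 94) (nat_lit 840) (nat_lit 0) (XT.lf (nat_lit 0) (nat_lit 4824943174) (nat_lit 840) (nat_lit 139198559) (nat_lit 84) (nat_lit 2789607663) (nat_lit 99) (nat_lit 5) (nat_lit 109) (nat_lit 5) (nat_lit 100) (nat_lit 5) (nat_lit 322) (nat_lit 298) (nat_lit 268)) (XT.lf (nat_lit 0) (nat_lit 3014564952) (nat_lit 840) (nat_lit 3470020038) (nat_lit 924) (nat_lit 1372172998) (nat_lit 89) (nat_lit 5) (nat_lit 99) (nat_lit 5) (nat_lit 100) (nat_lit 5) (nat_lit 323) (nat_lit 298) (nat_lit 267))))))) (XT.nd (nat_lit 1222) (nat_lit 1512) (nat_lit 0) (XT.nd (nat_lit 564) (nat_lit 1512) (nat_lit 0) (XT.nd (nat_lit 282) (nat_lit 672) (nat_lit 0) (XT.nd (nat_lit 94) (nat_lit 924) (nat_lit 0) (XT.lf (nat_lit 0)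 (nat_lit 181272724) (nat_lit 924) (nat_lit 1738026136) (nat_lit 84) (nat_lit 6045423492) (nat_lit 88) (nat_lit 5) (nat_lit 99) (nat_lit 5) (nat_lit 89) (nat_lit 5) (nat_lit 324) (nat_lit 298) (nat_lit 266)) (XT.nd (nat_lit 94) (nat_lit 0) (nat_lit 0) (XT.lf (nat_lit 0) (nat_lit 1436706153) (nat_lit 924) (nat_lit 285145861) (nat_lit 1008) (nat_lit 6355127778) (nat_lit 77) (nat_lit 5) (nat_lit 88) (nat_lit 5) (nat_lit 89) (nat_lit 5) (nat_lit 325) (nat_lit 298) (nat_lit 265)) (XT.lf (nat_lit 0) (nat_lit 3296692245) (nat_lit 1008) (nat_lit 3501526299) (nat_lit 84) (nat_lit 1395278976) (nat_lit 77) (nat_lit 5) (nat_lit 89) (nat_lit 5) (nat_lit 78) (nat_lit 5) (nat_lit 326) (nat_lit 298) (nat_lit 264)))) (XT.nd (nat_lit 94) (nat_lit 672) (nat_lit 0) (XT.lf (nat_lit 0) (nat_lit 4878934414) (nat_lit 1008) (nat_lit 309132719) (nat_lit 84) (nat_lit 3127195144) (nat_lit 77) (nat_lit 5) (nat_lit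 89) (nat_lit 5) (nat_lit 78) (nat_lit 5) (nat_lit 327) (nat_lit 298) (nat_lit 263)) (XT.nd (nat_lit 94) (nat_lit 0) (nat_lit 0) (XT.lf (nat_lit 0) (nat_lit 3003219610) (nat_lit 672) (nat_lit 3493797354) (nat_lit 756) (nat_lit 1944534723) (nat_lit 69) (nat_lit 5) (nat_lit 77) (nat_lit 5) (nat_lit 78) (nat_lit 5) (nat_lit 328) (nat_lit 298) (nat_lit 262)) (XT.lf (nat_lit 0) (nat_lit 6385694719) (nat_lit 672) (nat_lit 1740695581) (nat_lit 756) (nat_lit 446900958) (nat_lit 69) (nat_lit 5) (nat_lit 77) (nat_lit 5) (nat_lit 78) (nat_lit 5) (nat_lit 329) (nat_lit 298) (nat_lit 261))))) (XT.nd (nat_lit 282) (nat_lit 924) (nat_lit 0) (XT.nd (nat_lit 94) (nat_lit 0) (nat_lit 0) (XT.lf (nat_lit 0) (nat_lit 1045682696) (nat_lit 588) (nat_lit 7574110467) (nat_lit 84) (nat_lit 90205370) (nat_lit 62) (nat_lit 5) (nat_lit 69) (nat_lit 5) (nat_lit 63) (nat_lit 5) (nat_lit 330) (nat_lit 298) (nat_lit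 260)) (XT.nd (nat_lit 94) (nat_lit 0) (nat_lit 0) (XT.lf (nat_lit 0) (nat_lit 2575447308) (nat_lit 588) (nat_lit 4304356365) (nat_lit 84) (nat_lit 1971293677) (nat_lit 62) (nat_lit 5) (nat_lit 69) (nat_lit 5) (nat_lit 63) (nat_lit 5) (nat_lit 331) (nat_lit 298) (nat_lit 259)) (XT.lf (nat_lit 0) (nat_lit 4113180956) (nat_lit 588) (nat_lit 972318036) (nat_lit 84) (nat_lit 3912586570) (nat_lit 62) (nat_lit 5) (nat_lit 69) (nat_lit 5) (nat_lit 63) (nat_lit 5) (nat_lit 332) (nat_lit 298) (nat_lit 258)))) (XT.nd (nat_lit 188) (nat_lit 504) (nat_lit 0) (XT.nd (nat_lit 94) (nat_lit 0) (nat_lit 0) (XT.lf (nat_lit 0) (nat_lit 2474975572) (nat_lit 420) (nat_lit 3209893459) (nat_lit 504) (nat_lit 3465470028) (nat_lit 57) (nat_lit 5) (nat_lit 62) (nat_lit 5) (nat_lit 63) (nat_lit 5) (nat_lit 333) (nat_lit 298) (nat_lit 257)) (XT.lf (nat_lit 0) (nat_lit 6012228496) (nat_lit 420) (nat_lit 1265710988)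 (nat_lit 504) (nat_lit 2030495422) (nat_lit 57) (nat_lit 5) (nat_lit 62) (nat_lit 5) (nat_lit 63) (nat_lit 5) (nat_lit 334) (nat_lit 298) (nat_lit 256))) (XT.nd (nat_lit 94) (nat_lit 84) (nat_lit 0) (XT.lf (nat_lit 0) (nat_lit 145523206) (nat_lit 420) (nat_lit 8747281892) (nat_lit 504) (nat_lit 579748604) (nat_lit 52) (nat_lit 5) (nat_lit 57) (nat_lit 5) (nat_lit 58) (nat_lit 5) (nat_lit 335) (nat_lit 298) (nat_lit 255)) (XT.lf (nat_lit 0) (nat_lit 908961642) (nat_lit 504) (nat_lit 5937651784) (nat_lit 84) (nat_lit 2794761165) (nat_lit 51) (nat_lit 5) (nat_lit 57) (nat_lit 5) (nat_lit 52) (nat_lit 5) (nat_lit 336) (nat_lit 298) (nat_lit 254)))))) (XT.nd (nat_lit 564) (nat_lit 756) (nat_lit 0) (XT.nd (nat_lit 282) (nat_lit 420) (nat_lit 0) (XT.nd (nat_lit 94) (nat_lit 336) (nat_lit 0) (XT.lf (nat_lit 0) (nat_lit 2396611649) (nat_lit 504) (nat_lit 2486376005) (nat_lit 84) (nat_lit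 4933591000) (nat_lit 51) (nat_lit 5) (nat_lit 57) (nat_lit 5) (nat_lit 52) (nat_lit 5) (nat_lit 337) (nat_lit 298) (nat_lit 253)) (XT.nd (nat_lit 94) (nat_lit 0) (nat_lit 0) (XT.lf (nat_lit 0) (nat_lit 1057062421) (nat_lit 336) (nat_lit 2849692471) (nat_lit 420) (nat_lit 6091427521) (nat_lit 47) (nat_lit 5) (nat_lit 51) (nat_lit 5) (nat_lit 52) (nat_lit 5) (nat_lit 338) (nat_lit 298) (nat_lit 252)) (XT.lf (nat_lit 0) (nat_lit 4727298677) (nat_lit 336) (nat_lit 728927351) (nat_lit 420) (nat_lit 4729650876) (nat_lit 47) (nat_lit 5) (nat_lit 51) (nat_lit 5) (nat_lit 52) (nat_lit 5) (nat_lit 339) (nat_lit 298) (nat_lit 251)))) (XT.nd (nat_lit 94) (nat_lit 420) (nat_lit 0) (XT.lf (nat_lit 0) (nat_lit 7035734075) (nat_lit 420) (nat_lit 1918425677) (nat_lit 84) (nat_lit 1426010120) (nat_lit 47) (nat_lit 5) (nat_lit 52) (nat_lit 5) (nat_lit 48) (nat_lit 5) (nat_lit 340) (nat_lit 298) (nat_lit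 250)) (XT.nd (nat_lit 94) (nat_lit 0) (nat_lit 0) (XT.lf (nat_lit 0) (nat_lit 1723940424) (nat_lit 420) (nat_lit 6933343162) (nat_lit 504) (nat_lit 1923632329) (nat_lit 42) (nat_lit 5) (nat_lit 47) (nat_lit 5) (nat_lit 48) (nat_lit 5) (nat_lit 341) (nat_lit 298) (nat_lit 249)) (XT.lf (nat_lit 0) (nat_lit 5485432383) (nat_lit 420) (nat_lit 4832817706) (nat_lit 504) (nat_lit 470180277) (nat_lit 42) (nat_lit 5) (nat_lit 47) (nat_lit 5) (nat_lit 48) (nat_lit 5) (nat_lit 342) (nat_lit 298) (nat_lit 248))))) (XT.nd (nat_lit 282) (nat_lit 336) (nat_lit 0) (XT.nd (nat_lit 94) (nat_lit 336) (nat_lit 0) (XT.lf (nat_lit 0) (nat_lit 977158320) (nat_lit 504) (nat_lit 1683292055) (nat_lit 84) (nat_lit 8342751688) (nat_lit 41) (nat_lit 5) (nat_lit 47) (nat_lit 5) (nat_lit 42) (nat_lit 5) (nat_lit 343) (nat_lit 298) (nat_lit 247)) (XT.nd (nat_lit 94) (nat_lit 0) (nat_lit 0) (XT.lf (nat_lit 0) (nat_lit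 2051943919) (nat_lit 336) (nat_lit 398472972) (nat_lit 420) (nat_lit 8774540934) (nat_lit 37) (nat_lit 5) (nat_lit 41) (nat_lit 5) (nat_lit 42) (nat_lit 5) (nat_lit 344) (nat_lit 298) (nat_lit 246)) (XT.lf (nat_lit 0) (nat_lit 3977265014) (nat_lit 420) (nat_lit 5567669934) (nat_lit 84) (nat_lit 1908592477) (nat_lit 37) (nat_lit 5) (nat_lit 42) (nat_lit 5) (nat_lit 38) (nat_lit 5) (nat_lit 345) (nat_lit 298) (nat_lit 245)))) (XT.nd (nat_lit 188) (nat_lit 0) (nat_lit 0) (XT.nd (nat_lit 94) (nat_lit 336) (nat_lit 0) (XT.lf (nat_lit 0) (nat_lit 5527380142) (nat_lit 420) (nat_lit 1887537970) (nat_lit 84) (nat_lit 4275189919) (nat_lit 37) (nat_lit 5) (nat_lit 42) (nat_lit 5) (nat_lit 38) (nat_lit 5) (nat_lit 346) (nat_lit 298) (nat_lit 244)) (XT.lf (nat_lit 0) (nat_lit 1913314171) (nat_lit 336) (nat_lit 5203920385) (nat_lit 420) (nat_lit 4817219753) (nat_lit 33) (nat_lit 5) (nat_lit 37)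 (nat_lit 5) (nat_lit 38) (nat_lit 5) (nat_lit 347) (nat_lit 298) (nat_lit 243))) (XT.nd (nat_lit 94) (nat_lit 0) (nat_lit 0) (XT.lf (nat_lit 0) (nat_lit 5840417704) (nat_lit 336) (nat_lit 2908871501) (nat_lit 420) (nat_lit 3437474463) (nat_lit 33) (nat_lit 5) (nat_lit 37) (nat_lit 5) (nat_lit 38) (nat_lit 5) (nat_lit 348) (nat_lit 298) (nat_lit 242)) (XT.lf (nat_lit 0) (nat_lit 9858621446) (nat_lit 336) (nat_lit 547334260) (nat_lit 420) (nat_lit 2041907978) (nat_lit 33) (nat_lit 5) (nat_lit 37) (nat_lit 5) (nat_lit 38) (nat_lit 5) (nat_lit 349) (nat_lit 298) (nat_lit 241))))))))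
noncomputable def xc91 : XT := (XT.nd (nat_lit 2444) (nat_lit 504) (nat_lit 0) (XT.nd (nat_lit 1222) (nat_lit 588) (nat_lit 0) (XT.nd (nat_lit 564) (nat_lit 588) (nat_lit 0) (XT.nd (nat_lit 282) (nat_lit 252) (nat_lit 0) (XT.nd (nat_lit 94) (nat_lit 84) (nat_lit 0) (XT.lf (nat_lit 0) (nat_lit 1260388547) (nat_lit 252) (nat_lit 10859571436) (nat_lit 336) (nat_lit 597071112) (nat_lit 30) (nat_lit 5) (nat_lit 33) (nat_lit 5) (nat_lit 34) (nat_lit 5) (nat_lit 350) (nat_lit 298) (nat_lit 240)) (XT.nd (nat_lit 94) (nat_lit 0) (nat_lit 0) (XT.lf (nat_lit 0) (nat_lit 882282091) (nat_lit 336) (nat_lit 7755156223) (nat_lit 84) (nat_lit 4356740218) (nat_lit 29) (nat_lit 5) (nat_lit 33) (nat_lit 5) (nat_lit 30) (nat_lit 5) (nat_lit 351) (nat_lit 298) (nat_lit 239)) (XT.lf (nat_lit 0) (nat_lit 2370658792) (nat_lit 336) (nat_lit 3975070400) (nat_lit 84) (nat_lit 6934901312) (nat_lit 29) (nat_lit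 5) (nat_lit 33) (nat_lit 5) (nat_lit 30) (nat_lit 5) (nat_lit 352) (nat_lit 298) (nat_lit 238)))) (XT.nd (nat_lit 94) (nat_lit 252) (nat_lit 0) (XT.lf (nat_lit 0) (nat_lit 3881475964) (nat_lit 336) (nat_lit 106938626) (nat_lit 84) (nat_lit 9588423038) (nat_lit 29) (nat_lit 5) (nat_lit 33) (nat_lit 5) (nat_lit 30) (nat_lit 5) (nat_lit 353) (nat_lit 298) (nat_lit 237)) (XT.nd (nat_lit 94) (nat_lit 0) (nat_lit 0) (XT.lf (nat_lit 0) (nat_lit 3932066989) (nat_lit 252) (nat_lit 1523081448) (nat_lit 336) (nat_lit 8426718358) (nat_lit 26) (nat_lit 5) (nat_lit 29) (nat_lit 5) (nat_lit 30) (nat_lit 5) (nat_lit 354) (nat_lit 298) (nat_lit 236)) (XT.lf (nat_lit 0) (nat_lit 7066211240) (nat_lit 336) (nat_lit 6136638100) (nat_lit 84) (nat_lit 993987871) (nat_lit 26) (nat_lit 5) (nat_lit 30) (nat_lit 5) (nat_lit 27) (nat_lit 5) (nat_lit 355) (nat_lit 298) (nat_lit 235))))) (XT.nd (nat_lit 282)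 (nat_lit 336) (nat_lit 0) (XT.nd (nat_lit 94) (nat_lit 252) (nat_lit 0) (XT.lf (nat_lit 0) (nat_lit 8720848306) (nat_lit 336) (nat_lit 2248734222) (nat_lit 84) (nat_lit 3552314782) (nat_lit 26) (nat_lit 5) (nat_lit 30) (nat_lit 5) (nat_lit 27) (nat_lit 5) (nat_lit 356) (nat_lit 298) (nat_lit 234)) (XT.nd (nat_lit 94) (nat_lit 0) (nat_lit 0) (XT.lf (nat_lit 0) (nat_lit 1768271648) (nat_lit 252) (nat_lit 8654762599) (nat_lit 336) (nat_lit 4434240435) (nat_lit 23) (nat_lit 5) (nat_lit 26) (nat_lit 5) (nat_lit 27) (nat_lit 5) (nat_lit 357) (nat_lit 298) (nat_lit 233)) (XT.lf (nat_lit 0) (nat_lit 5930700779) (nat_lit 252) (nat_lit 6249847415) (nat_lit 336) (nat_lit 3022541771) (nat_lit 23) (nat_lit 5) (nat_lit 26) (nat_lit 5) (nat_lit 27) (nat_lit 5) (nat_lit 358) (nat_lit 298) (nat_lit 232)))) (XT.nd (nat_lit 188) (nat_lit 336) (nat_lit 0) (XT.nd (nat_lit 94) (nat_lit 0) (nat_lit 0)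 (XT.lf (nat_lit 0) (nat_lit 10196194404) (nat_lit 252) (nat_lit 3776067515) (nat_lit 336) (nat_lit 1588109334) (nat_lit 23) (nat_lit 5) (nat_lit 26) (nat_lit 5) (nat_lit 27) (nat_lit 5) (nat_lit 359) (nat_lit 298) (nat_lit 231)) (XT.lf (nat_lit 0) (nat_lit 14568728409) (nat_lit 252) (nat_lit 1231117080) (nat_lit 336) (nat_lit 129606084) (nat_lit 23) (nat_lit 5) (nat_lit 26) (nat_lit 5) (nat_lit 27) (nat_lit 5) (nat_lit 360) (nat_lit 298) (nat_lit 230))) (XT.nd (nat_lit 94) (nat_lit 0) (nat_lit 0) (XT.lf (nat_lit 0) (nat_lit 1368844897) (nat_lit 336) (nat_lit 13539217840) (nat_lit 84) (nat_lit 1400899790) (nat_lit 19) (nat_lit 5) (nat_lit 23) (nat_lit 5) (nat_lit 20) (nat_lit 5) (nat_lit 361) (nat_lit 298) (nat_lit 229)) (XT.lf (nat_lit 0) (nat_lit 2918892812) (nat_lit 336) (nat_lit 9682079999) (nat_lit 84) (nat_lit 4099084975) (nat_lit 19) (nat_lit 5) (nat_lit 23) (nat_lit 5) (nat_lit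 20) (nat_lit 5) (nat_lit 362) (nat_lit 298) (nat_lit 228)))))) (XT.nd (nat_lit 564) (nat_lit 420) (nat_lit 0) (XT.nd (nat_lit 282) (nat_lit 0) (nat_lit 0) (XT.nd (nat_lit 94) (nat_lit 168) (nat_lit 0) (XT.lf (nat_lit 0) (nat_lit 4498463910) (nat_lit 336) (nat_lit 5729932838) (nat_lit 84) (nat_lit 6875555025) (nat_lit 19) (nat_lit 5) (nat_lit 23) (nat_lit 5) (nat_lit 20) (nat_lit 5) (nat_lit 363) (nat_lit 298) (nat_lit 227)) (XT.nd (nat_lit 94) (nat_lit 168) (nat_lit 0) (XT.lf (nat_lit 0) (nat_lit 6109030518) (nat_lit 336) (nat_lit 1679092541) (nat_lit 84) (nat_lit 9732897900) (nat_lit 19) (nat_lit 5) (nat_lit 23) (nat_lit 5) (nat_lit 20) (nat_lit 5) (nat_lit 364) (nat_lit 298) (nat_lit 226)) (XT.lf (nat_lit 0) (nat_lit 2525091668) (nat_lit 168) (nat_lit 5252051405) (nat_lit 252) (nat_lit 10173734499) (nat_lit 17) (nat_lit 5) (nat_lit 19) (nat_lit 5) (nat_lit 20) (nat_lit 5) (nat_lit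 365) (nat_lit 298) (nat_lit 225)))) (XT.nd (nat_lit 94) (nat_lit 0) (nat_lit 0) (XT.lf (nat_lit 0) (nat_lit 6872328300) (nat_lit 168) (nat_lit 2625031465) (nat_lit 252) (nat_lit 8896779413) (nat_lit 17) (nat_lit 5) (nat_lit 19) (nat_lit 5) (nat_lit 20) (nat_lit 5) (nat_lit 366) (nat_lit 298) (nat_lit 224)) (XT.nd (nat_lit 94) (nat_lit 0) (nat_lit 0) (XT.lf (nat_lit 0) (nat_lit 11255057085) (nat_lit 252) (nat_lit 7520374446) (nat_lit 84) (nat_lit 76290448) (nat_lit 17) (nat_lit 5) (nat_lit 20) (nat_lit 5) (nat_lit 18) (nat_lit 5) (nat_lit 367) (nat_lit 298) (nat_lit 223)) (XT.lf (nat_lit 0) (nat_lit 13077918573) (nat_lit 252) (nat_lit 3443792035) (nat_lit 84) (nat_lit 2801534481) (nat_lit 17) (nat_lit 5) (nat_lit 20) (nat_lit 5) (nat_lit 18) (nat_lit 5) (nat_lit 368) (nat_lit 298) (nat_lit 222))))) (XT.nd (nat_lit 282) (nat_lit 252) (nat_lit 0) (XT.nd (nat_lit 94) (nat_lit 0) (nat_lit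 0) (XT.lf (nat_lit 0) (nat_lit 752946997) (nat_lit 168) (nat_lit 14196125021) (nat_lit 252) (nat_lit 4860651712) (nat_lit 15) (nat_lit 5) (nat_lit 17) (nat_lit 5) (nat_lit 18) (nat_lit 5) (nat_lit 369) (nat_lit 298) (nat_lit 221)) (XT.nd (nat_lit 94) (nat_lit 0) (nat_lit 0) (XT.lf (nat_lit 0) (nat_lit 5131620416) (nat_lit 168) (nat_lit 11767132481) (nat_lit 252) (nat_lit 3411975218) (nat_lit 15) (nat_lit 5) (nat_lit 17) (nat_lit 5) (nat_lit 18) (nat_lit 5) (nat_lit 370) (nat_lit 298) (nat_lit 220)) (XT.lf (nat_lit 0) (nat_lit 9625498176) (nat_lit 168) (nat_lit 9268415038) (nat_lit 252) (nat_lit 1933892845) (nat_lit 15) (nat_lit 5) (nat_lit 17) (nat_lit 5) (nat_lit 18) (nat_lit 5) (nat_lit 371) (nat_lit 298) (nat_lit 219)))) (XT.nd (nat_lit 188) (nat_lit 168) (nat_lit 0) (XT.nd (nat_lit 94) (nat_lit 84) (nat_lit 0) (XT.lf (nat_lit 0) (nat_lit 14238769042) (nat_lit 168) (nat_lit 6697643627)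 (nat_lit 252) (nat_lit 425026863) (nat_lit 15) (nat_lit 5) (nat_lit 17) (nat_lit 5) (nat_lit 18) (nat_lit 5) (nat_lit 372) (nat_lit 298) (nat_lit 218)) (XT.lf (nat_lit 0) (nat_lit 1093543646) (nat_lit 252) (nat_lit 2947464021) (nat_lit 84) (nat_lit 17870775066) (nat_lit 14) (nat_lit 5) (nat_lit 17) (nat_lit 5) (nat_lit 15) (nat_lit 5) (nat_lit 373) (nat_lit 298) (nat_lit 217))) (XT.nd (nat_lit 94) (nat_lit 0) (nat_lit 0) (XT.lf (nat_lit 0) (nat_lit 1361159149) (nat_lit 168) (nat_lit 1288843486) (nat_lit 252) (nat_lit 19829129891) (nat_lit 12) (nat_lit 5) (nat_lit 14) (nat_lit 5) (nat_lit 15) (nat_lit 5) (nat_lit 374) (nat_lit 298) (nat_lit 216)) (XT.lf (nat_lit 0) (nat_lit 4287470460) (nat_lit 252) (nat_lit 17232296005) (nat_lit 84) (nat_lit 1543355690) (nat_lit 12) (nat_lit 5) (nat_lit 15) (nat_lit 5) (nat_lit 13) (nat_lit 5) (nat_lit 375) (nat_lit 298) (nat_lit 215))))))) (XT.nd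 (nat_lit 1222) (nat_lit 252) (nat_lit 0) (XT.nd (nat_lit 564) (nat_lit 84) (nat_lit 0) (XT.nd (nat_lit 282) (nat_lit 168) (nat_lit 0) (XT.nd (nat_lit 94) (nat_lit 0) (nat_lit 0) (XT.lf (nat_lit 0) (nat_lit 5975608868) (nat_lit 252) (nat_lit 13258099624) (nat_lit 84) (nat_lit 4431575268) (nat_lit 12) (nat_lit 5) (nat_lit 15) (nat_lit 5) (nat_lit 13) (nat_lit 5) (nat_lit 376) (nat_lit 298) (nat_lit 214)) (XT.nd (nat_lit 94) (nat_lit 0) (nat_lit 0) (XT.lf (nat_lit 0) (nat_lit 7703205895) (nat_lit 252) (nat_lit 9178894380) (nat_lit 84) (nat_lit 7404474694) (nat_lit 12) (nat_lit 5) (nat_lit 15) (nat_lit 5) (nat_lit 13) (nat_lit 5) (nat_lit 377) (nat_lit 298) (nat_lit 213)) (XT.lf (nat_lit 0) (nat_lit 9471871842) (nat_lit 252) (nat_lit 4990878025) (nat_lit 84) (nat_lit 10464825022) (nat_lit 12) (nat_lit 5) (nat_lit 15) (nat_lit 5) (nat_lit 13) (nat_lit 5) (nat_lit 378) (nat_lit 298) (nat_lit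 212)))) (XT.nd (nat_lit 94) (nat_lit 168) (nat_lit 0) (XT.lf (nat_lit 0) (nat_lit 11283255292) (nat_lit 252) (nat_lit 690146891) (nat_lit 84) (nat_lit 13615478819) (nat_lit 12) (nat_lit 5) (nat_lit 15) (nat_lit 5) (nat_lit 13) (nat_lit 5) (nat_lit 379) (nat_lit 298) (nat_lit 211)) (XT.nd (nat_lit 94) (nat_lit 0) (nat_lit 0) (XT.lf (nat_lit 0) (nat_lit 3803948846) (nat_lit 168) (nat_lit 9372831440) (nat_lit 252) (nat_lit 13093159621) (nat_lit 10) (nat_lit 5) (nat_lit 12) (nat_lit 5) (nat_lit 13) (nat_lit 5) (nat_lit 380) (nat_lit 298) (nat_lit 210)) (XT.lf (nat_lit 0) (nat_lit 8435561202) (nat_lit 168) (nat_lit 6689090295) (nat_lit 252) (nat_lit 11847651296) (nat_lit 10) (nat_lit 5) (nat_lit 12) (nat_lit 5) (nat_lit 13) (nat_lit 5) (nat_lit 381) (nat_lit 298) (nat_lit 209))))) (XT.nd (nat_lit 282) (nat_lit 84) (nat_lit 0) (XT.nd (nat_lit 94) (nat_lit 0) (nat_lit 0) (XT.lf (nat_lit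 0) (nat_lit 13194816488) (nat_lit 168) (nat_lit 3926880939) (nat_lit 252) (nat_lit 10575143509) (nat_lit 10) (nat_lit 5) (nat_lit 12) (nat_lit 5) (nat_lit 13) (nat_lit 5) (nat_lit 382) (nat_lit 298) (nat_lit 208)) (XT.nd (nat_lit 94) (nat_lit 0) (nat_lit 0) (XT.lf (nat_lit 0) (nat_lit 18086150828) (nat_lit 168) (nat_lit 1083628703) (nat_lit 252) (nat_lit 9274450150) (nat_lit 10) (nat_lit 5) (nat_lit 12) (nat_lit 5) (nat_lit 13) (nat_lit 5) (nat_lit 383) (nat_lit 298) (nat_lit 207)) (XT.lf (nat_lit 0) (nat_lit 21289092766) (nat_lit 252) (nat_lit 6119328143) (nat_lit 84) (nat_lit 1806177899) (nat_lit 10) (nat_lit 5) (nat_lit 13) (nat_lit 5) (nat_lit 11) (nat_lit 4) (nat_lit 384) (nat_lit 298) (nat_lit 206)))) (XT.nd (nat_lit 188) (nat_lit 0) (nat_lit 0) (XT.nd (nat_lit 94) (nat_lit 84) (nat_lit 0) (XT.lf (nat_lit 0) (nat_lit 23474916621) (nat_lit 252) (nat_lit 1775125427) (nat_lit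 84) (nat_lit 4758831910) (nat_lit 10) (nat_lit 5) (nat_lit 13) (nat_lit 5) (nat_lit 11) (nat_lit 4) (nat_lit 385) (nat_lit 298) (nat_lit 205)) (XT.lf (nat_lit 0) (nat_lit 2744626384) (nat_lit 84) (nat_lit 23001139431) (nat_lit 168) (nat_lit 5081518865) (nat_lit 9) (nat_lit 5) (nat_lit 10) (nat_lit 5) (nat_lit 11) (nat_lit 4) (nat_lit 386) (nat_lit 298) (nat_lit 204))) (XT.nd (nat_lit 94) (nat_lit 0) (nat_lit 0) (XT.lf (nat_lit 0) (nat_lit 7427848915) (nat_lit 84) (nat_lit 20667886805) (nat_lit 168) (nat_lit 3575106759) (nat_lit 9) (nat_lit 5) (nat_lit 10) (nat_lit 5) (nat_lit 11) (nat_lit 4) (nat_lit 387) (nat_lit 298) (nat_lit 203)) (XT.lf (nat_lit 0) (nat_lit 12242407201) (nat_lit 84) (nat_lit 18266638002) (nat_lit 168) (nat_lit 2031845555) (nat_lit 9) (nat_lit 5) (nat_lit 10) (nat_lit 5) (nat_lit 11) (nat_lit 4) (nat_lit 388) (nat_lit 298) (nat_lit 202)))))) (XT.nd (nat_lit 564)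 (nat_lit 0) (nat_lit 0) (XT.nd (nat_lit 282) (nat_lit 168) (nat_lit 0) (XT.nd (nat_lit 94) (nat_lit 84) (nat_lit 0) (XT.lf (nat_lit 0) (nat_lit 17192788915) (nat_lit 84) (nat_lit 15795154807) (nat_lit 168) (nat_lit 450296772) (nat_lit 9) (nat_lit 5) (nat_lit 10) (nat_lit 5) (nat_lit 11) (nat_lit 4) (nat_lit 389) (nat_lit 298) (nat_lit 201)) (XT.nd (nat_lit 94) (nat_lit 0) (nat_lit 0) (XT.lf (nat_lit 0) (nat_lit 1147420440) (nat_lit 168) (nat_lit 12091736382) (nat_lit 84) (nat_lit 21124211173) (nat_lit 8) (nat_lit 5) (nat_lit 10) (nat_lit 5) (nat_lit 9) (nat_lit 5) (nat_lit 390) (nat_lit 298) (nat_lit 200)) (XT.lf (nat_lit 0) (nat_lit 2776506599) (nat_lit 168) (nat_lit 7826715269) (nat_lit 84) (nat_lit 24714122991) (nat_lit 8) (nat_lit 5) (nat_lit 10) (nat_lit 5) (nat_lit 9) (nat_lit 5) (nat_lit 391) (nat_lit 298) (nat_lit 199)))) (XT.nd (nat_lit 94) (nat_lit 168) (nat_lit 0) (XT.lf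 (nat_lit 0) (nat_lit 4447552658) (nat_lit 168) (nat_lit 3441945796) (nat_lit 84) (nat_lit 28411700314) (nat_lit 8) (nat_lit 5) (nat_lit 10) (nat_lit 5) (nat_lit 9) (nat_lit 5) (nat_lit 392) (nat_lit 298) (nat_lit 198)) (XT.nd (nat_lit 94) (nat_lit 0) (nat_lit 0) (XT.lf (nat_lit 0) (nat_lit 1088591800) (nat_lit 168) (nat_lit 5084323371) (nat_lit 252) (nat_lit 31142596837) (nat_lit 6) (nat_lit 5) (nat_lit 8) (nat_lit 5) (nat_lit 9) (nat_lit 5) (nat_lit 393) (nat_lit 298) (nat_lit 197)) (XT.lf (nat_lit 0) (nat_lit 5820573501) (nat_lit 168) (nat_lit 2158962706) (nat_lit 252) (nat_lit 30380908471) (nat_lit 6) (nat_lit 5) (nat_lit 8) (nat_lit 5) (nat_lit 9) (nat_lit 5) (nat_lit 394) (nat_lit 298) (nat_lit 196))))) (XT.nd (nat_lit 282) (nat_lit 0) (nat_lit 0) (XT.nd (nat_lit 94) (nat_lit 0) (nat_lit 0) (XT.lf (nat_lit 0) (nat_lit 9842718784) (nat_lit 252) (nat_lit 28758880135) (nat_lit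 84) (nat_lit 836189654) (nat_lit 6) (nat_lit 5) (nat_lit 9) (nat_lit 5) (nat_lit 7) (nat_lit 4) (nat_lit 395) (nat_lit 298) (nat_lit 195)) (XT.nd (nat_lit 94) (nat_lit 0) (nat_lit 0) (XT.lf (nat_lit 0) (nat_lit 11778033962) (nat_lit 252) (nat_lit 24894257179) (nat_lit 84) (nat_lit 3875827885) (nat_lit 6) (nat_lit 5) (nat_lit 9) (nat_lit 5) (nat_lit 7) (nat_lit 4) (nat_lit 396) (nat_lit 298) (nat_lit 194)) (XT.lf (nat_lit 0) (nat_lit 13765868478) (nat_lit 252) (nat_lit 20920982898) (nat_lit 84) (nat_lit 7006283536) (nat_lit 6) (nat_lit 5) (nat_lit 9) (nat_lit 5) (nat_lit 7) (nat_lit 4) (nat_lit 397) (nat_lit 298) (nat_lit 193)))) (XT.nd (nat_lit 188) (nat_lit 0) (nat_lit 0) (XT.nd (nat_lit 94) (nat_lit 0) (nat_lit 0) (XT.lf (nat_lit 0) (nat_lit 15808075204) (nat_lit 252) (nat_lit 16835353784) (nat_lit 84) (nat_lit 10230474517) (nat_lit 6) (nat_lit 5) (nat_lit 9) (nat_lit 5) (nat_lit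 7) (nat_lit 4) (nat_lit 398) (nat_lit 298) (nat_lit 192)) (XT.lf (nat_lit 0) (nat_lit 17906557690) (nat_lit 252) (nat_lit 12633561604) (nat_lit 84) (nat_lit 13551406114) (nat_lit 6) (nat_lit 5) (nat_lit 9) (nat_lit 5) (nat_lit 7) (nat_lit 4) (nat_lit 399) (nat_lit 298) (nat_lit 191))) (XT.nd (nat_lit 94) (nat_lit 0) (nat_lit 0) (XT.lf (nat_lit 0) (nat_lit 20063271941) (nat_lit 252) (nat_lit 8311689847) (nat_lit 84) (nat_lit 16972173781) (nat_lit 6) (nat_lit 5) (nat_lit 9) (nat_lit 5) (nat_lit 7) (nat_lit 4) (nat_lit 400) (nat_lit 298) (nat_lit 190)) (XT.lf (nat_lit 0) (nat_lit 22280228242) (nat_lit 252) (nat_lit 3865710076) (nat_lit 84) (nat_lit 20495966034) (nat_lit 6) (nat_lit 5) (nat_lit 9) (nat_lit 5) (nat_lit 7) (nat_lit 4) (nat_lit 401) (nat_lit 298) (nat_lit 189))))))))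
noncomputable def xc92 : XT := (XT.nd (nat_lit 46248) (nat_lit 0) (nat_lit 6216) (XT.nd (nat_lit 1128) (nat_lit 168) (nat_lit 0) (XT.nd (nat_lit 564) (nat_lit 0) (nat_lit 0) (XT.nd (nat_lit 282) (nat_lit 0) (nat_lit 0) (XT.nd (nat_lit 94) (nat_lit 0) (nat_lit 0) (XT.lf (nat_lit 0) (nat_lit 723090490) (nat_lit 84) (nat_lit 23843575683) (nat_lit 168) (nat_lit 23410150072) (nat_lit 5) (nat_lit 5) (nat_lit 6) (nat_lit 5) (nat_lit 7) (nat_lit 4) (nat_lit 402) (nat_lit 298) (nat_lit 188)) (XT.nd (nat_lit 94) (nat_lit 0) (nat_lit 0) (XT.lf (nat_lit 0) (nat_lit 5526618578) (nat_lit 84) (nat_lit 21431396972) (nat_lit 168) (nat_lit 22394067723) (nat_lit 5) (nat_lit 5) (nat_lit 6) (nat_lit 5) (nat_lit 7) (nat_lit 4) (nat_lit 403) (nat_lit 298) (nat_lit 187)) (XT.lf (nat_lit 0) (nat_lit 10469864649) (nat_lit 84) (nat_lit 18947503866) (nat_lit 168) (nat_lit 21352832052) (nat_lit 5) (nat_lit 5)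 (nat_lit 6) (nat_lit 5) (nat_lit 7) (nat_lit 4) (nat_lit 404) (nat_lit 298) (nat_lit 186)))) (XT.nd (nat_lit 94) (nat_lit 0) (nat_lit 0) (XT.lf (nat_lit 0) (nat_lit 15557436329) (nat_lit 84) (nat_lit 16389581117) (nat_lit 168) (nat_lit 20285472518) (nat_lit 5) (nat_lit 5) (nat_lit 6) (nat_lit 5) (nat_lit 7) (nat_lit 4) (nat_lit 405) (nat_lit 298) (nat_lit 185)) (XT.nd (nat_lit 94) (nat_lit 0) (nat_lit 0) (XT.lf (nat_lit 0) (nat_lit 20794075765) (nat_lit 84) (nat_lit 13755244473) (nat_lit 168) (nat_lit 19190994232) (nat_lit 5) (nat_lit 5) (nat_lit 6) (nat_lit 5) (nat_lit 7) (nat_lit 4) (nat_lit 406) (nat_lit 298) (nat_lit 184)) (XT.lf (nat_lit 0) (nat_lit 26184664056) (nat_lit 84) (nat_lit 11042038456) (nat_lit 168) (nat_lit 18068377024) (nat_lit 5) (nat_lit 5) (nat_lit 6) (nat_lit 5) (nat_lit 7) (nat_lit 4) (nat_lit 407) (nat_lit 298) (nat_lit 183))))) (XT.nd (nat_lit 282) (nat_lit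 0) (nat_lit 0) (XT.nd (nat_lit 94) (nat_lit 0) (nat_lit 0) (XT.lf (nat_lit 0) (nat_lit 31734225793) (nat_lit 84) (nat_lit 8247434073) (nat_lit 168) (nat_lit 16916574497) (nat_lit 5) (nat_lit 5) (nat_lit 6) (nat_lit 5) (nat_lit 7) (nat_lit 4) (nat_lit 408) (nat_lit 298) (nat_lit 182)) (XT.nd (nat_lit 94) (nat_lit 0) (nat_lit 0) (XT.lf (nat_lit 0) (nat_lit 37447933750) (nat_lit 84) (nat_lit 5368826461) (nat_lit 168) (nat_lit 15734513051) (nat_lit 5) (nat_lit 5) (nat_lit 6) (nat_lit 5) (nat_lit 7) (nat_lit 4) (nat_lit 409) (nat_lit 298) (nat_lit 181)) (XT.lf (nat_lit 0) (nat_lit 43331113701) (nat_lit 84) (nat_lit 2403532456) (nat_lit 168) (nat_lit 14521090882) (nat_lit 5) (nat_lit 5) (nat_lit 6) (nat_lit 5) (nat_lit 7) (nat_lit 4) (nat_lit 410) (nat_lit 298) (nat_lit 180)))) (XT.nd (nat_lit 94) (nat_lit 0) (nat_lit 0) (XT.lf (nat_lit 0) (nat_lit 48744497582) (nat_lit 168) (nat_lit 12630425147)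 (nat_lit 0) (nat_lit 638091437) (nat_lit 5) (nat_lit 5) (nat_lit 7) (nat_lit 4) (nat_lit 5) (nat_lit 4) (nat_lit 411) (nat_lit 298) (nat_lit 179)) (XT.nd (nat_lit 94) (nat_lit 0) (nat_lit 0) (XT.lf (nat_lit 0) (nat_lit 51867412803) (nat_lit 168) (nat_lit 8235035119) (nat_lit 0) (nat_lit 3721727615) (nat_lit 5) (nat_lit 5) (nat_lit 7) (nat_lit 4) (nat_lit 5) (nat_lit 4) (nat_lit 412) (nat_lit 298) (nat_lit 178)) (XT.lf (nat_lit 0) (nat_lit 55082459364) (nat_lit 168) (nat_lit 3710512948) (nat_lit 0) (nat_lit 6898676172) (nat_lit 5) (nat_lit 5) (nat_lit 7) (nat_lit 4) (nat_lit 5) (nat_lit 4) (nat_lit 413) (nat_lit 298) (nat_lit 177)))))) (XT.nd (nat_lit 564) (nat_lit 84) (nat_lit 0) (XT.nd (nat_lit 282) (nat_lit 0) (nat_lit 0) (XT.nd (nat_lit 94) (nat_lit 0) (nat_lit 0) (XT.lf (nat_lit 0) (nat_lit 966838330) (nat_lit 84) (nat_lit 57435386851) (nat_lit 84) (nat_lit 9214651181) (nat_lit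 4) (nat_lit 4) (nat_lit 5) (nat_lit 5) (nat_lit 5) (nat_lit 4) (nat_lit 414) (nat_lit 298) (nat_lit 176)) (XT.nd (nat_lit 94) (nat_lit 0) (nat_lit 0) (XT.lf (nat_lit 0) (nat_lit 5861007671) (nat_lit 84) (nat_lit 55998156467) (nat_lit 84) (nat_lit 7741579403) (nat_lit 4) (nat_lit 4) (nat_lit 5) (nat_lit 5) (nat_lit 5) (nat_lit 4) (nat_lit 415) (nat_lit 298) (nat_lit 175)) (XT.lf (nat_lit 0) (nat_lit 10900261197) (nat_lit 84) (nat_lit 54518671657) (nat_lit 84) (nat_lit 6227330873) (nat_lit 4) (nat_lit 4) (nat_lit 5) (nat_lit 5) (nat_lit 5) (nat_lit 4) (nat_lit 416) (nat_lit 298) (nat_lit 174)))) (XT.nd (nat_lit 94) (nat_lit 0) (nat_lit 0) (XT.lf (nat_lit 0) (nat_lit 16089296019) (nat_lit 84) (nat_lit 52995553385) (nat_lit 84) (nat_lit 4670494154) (nat_lit 4) (nat_lit 4) (nat_lit 5) (nat_lit 5) (nat_lit 5) (nat_lit 4) (nat_lit 417) (nat_lit 298) (nat_lit 173)) (XT.nd (nat_lit 94) (nat_lit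 0) (nat_lit 0) (XT.lf (nat_lit 0) (nat_lit 21432948862) (nat_lit 84) (nat_lit 51427381946) (nat_lit 84) (nat_lit 3069618111) (nat_lit 4) (nat_lit 4) (nat_lit 5) (nat_lit 5) (nat_lit 5) (nat_lit 4) (nat_lit 418) (nat_lit 298) (nat_lit 172)) (XT.lf (nat_lit 0) (nat_lit 26936200570) (nat_lit 84) (nat_lit 49812695640) (nat_lit 84) (nat_lit 1423210559) (nat_lit 4) (nat_lit 4) (nat_lit 5) (nat_lit 5) (nat_lit 5) (nat_lit 4) (nat_lit 419) (nat_lit 298) (nat_lit 171))))) (XT.nd (nat_lit 282) (nat_lit 0) (nat_lit 0) (XT.nd (nat_lit 94) (nat_lit 0) (nat_lit 0) (XT.lf (nat_lit 0) (nat_lit 264817926) (nat_lit 168) (nat_lit 47882407327) (nat_lit 84) (nat_lit 32336598668) (nat_lit 3) (nat_lit 5) (nat_lit 5) (nat_lit 5) (nat_lit 4) (nat_lit 4) (nat_lit 420) (nat_lit 298) (nat_lit 170)) (XT.nd (nat_lit 94) (nat_lit 0) (nat_lit 0) (XT.lf (nat_lit 0) (nat_lit 1971836437) (nat_lit 168) (nat_lit 44445295073)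 (nat_lit 84) (nat_lit 36449754188) (nat_lit 3) (nat_lit 5) (nat_lit 5) (nat_lit 5) (nat_lit 4) (nat_lit 4) (nat_lit 421) (nat_lit 298) (nat_lit 169)) (XT.lf (nat_lit 0) (nat_lit 3728110616) (nat_lit 168) (nat_lit 40907247263) (nat_lit 84) (nat_lit 40688593155) (nat_lit 3) (nat_lit 5) (nat_lit 5) (nat_lit 5) (nat_lit 4) (nat_lit 4) (nat_lit 422) (nat_lit 298) (nat_lit 168)))) (XT.nd (nat_lit 44086) (nat_lit 0) (nat_lit 11928) (XT.nd (nat_lit 94) (nat_lit 0) (nat_lit 0) (XT.lf (nat_lit 0) (nat_lit 5535277492) (nat_lit 168) (nat_lit 37264966065) (nat_lit 84) (nat_lit 45057066613) (nat_lit 3) (nat_lit 5) (nat_lit 5) (nat_lit 5) (nat_lit 4) (nat_lit 4) (nat_lit 423) (nat_lit 298) (nat_lit 167)) (XT.lf (nat_lit 0) (nat_lit 7395021537) (nat_lit 168) (nat_lit 33515056492) (nat_lit 84) (nat_lit 49559246435) (nat_lit 3) (nat_lit 5) (nat_lit 5) (nat_lit 5) (nat_lit 4) (nat_lit 4) (nat_lit 424)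 (nat_lit 298) (nat_lit 166))) (XT.nd (nat_lit 94) (nat_lit 252) (nat_lit 0) (XT.lf (nat_lit 0) (nat_lit 3203321274) (nat_lit 252) (nat_lit 20562693) (nat_lit 252) (nat_lit 20562693) (nat_lit 148) (nat_lit 3) (nat_lit 151) (nat_lit 3) (nat_lit 151) (nat_lit 5) (nat_lit 299) (nat_lit 299) (nat_lit 290)) (XT.lf (nat_lit 0) (nat_lit 1903577690) (nat_lit 252) (nat_lit 4232576511) (nat_lit 336) (nat_lit 369351117) (nat_lit 145) (nat_lit 5) (nat_lit 148) (nat_lit 3) (nat_lit 149) (nat_lit 5) (nat_lit 300) (nat_lit 299) (nat_lit 289))))))) (XT.nd (nat_lit 1222) (nat_lit 4032) (nat_lit 0) (XT.nd (nat_lit 564) (nat_lit 924) (nat_lit 0) (XT.nd (nat_lit 282) (nat_lit 420) (nat_lit 0) (XT.nd (nat_lit 94) (nat_lit 336) (nat_lit 0) (XT.lf (nat_lit 0) (nat_lit 3870201537) (nat_lit 252) (nat_lit 1907594514) (nat_lit 336) (nat_lit 748165291) (nat_lit 145) (nat_lit 5) (nat_lit 148) (nat_lit 3) (nat_lit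 149) (nat_lit 5) (nat_lit 301) (nat_lit 299) (nat_lit 288)) (XT.nd (nat_lit 94) (nat_lit 336) (nat_lit 0) (XT.lf (nat_lit 84) (nat_lit 456248466) (nat_lit 0) (nat_lit 5368967995) (nat_lit 336) (nat_lit 724962023) (nat_lit 146) (nat_lit 5) (nat_lit 145) (nat_lit 5) (nat_lit 149) (nat_lit 5) (nat_lit 302) (nat_lit 299) (nat_lit 287)) (XT.lf (nat_lit 0) (nat_lit 1183503430) (nat_lit 336) (nat_lit 3697858919) (nat_lit 420) (nat_lit 1695977276) (nat_lit 141) (nat_lit 5) (nat_lit 145) (nat_lit 5) (nat_lit 146) (nat_lit 5) (nat_lit 303) (nat_lit 299) (nat_lit 286)))) (XT.nd (nat_lit 94) (nat_lit 420) (nat_lit 0) (XT.lf (nat_lit 0) (nat_lit 3061580160) (nat_lit 336) (nat_lit 1277970772) (nat_lit 420) (nat_lit 2268671637) (nat_lit 141) (nat_lit 5) (nat_lit 145) (nat_lit 5) (nat_lit 146) (nat_lit 5) (nat_lit 304) (nat_lit 299) (nat_lit 285)) (XT.nd (nat_lit 94) (nat_lit 420) (nat_lit 0) (XT.lf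 (nat_lit 84) (nat_lit 1199345871) (nat_lit 0) (nat_lit 3738176887) (nat_lit 420) (nat_lit 1705187460) (nat_lit 142) (nat_lit 5) (nat_lit 141) (nat_lit 5) (nat_lit 146) (nat_lit 5) (nat_lit 305) (nat_lit 299) (nat_lit 284)) (XT.lf (nat_lit 0) (nat_lit 130984328) (nat_lit 420) (nat_lit 2942895582) (nat_lit 504) (nat_lit 3606870625) (nat_lit 136) (nat_lit 5) (nat_lit 141) (nat_lit 5) (nat_lit 142) (nat_lit 5) (nat_lit 306) (nat_lit 299) (nat_lit 283))))) (XT.nd (nat_lit 282) (nat_lit 924) (nat_lit 0) (XT.nd (nat_lit 94) (nat_lit 0) (nat_lit 0) (XT.lf (nat_lit 0) (nat_lit 1918871561) (nat_lit 420) (nat_lit 424582455) (nat_lit 504) (nat_lit 4378847183) (nat_lit 136) (nat_lit 5) (nat_lit 141) (nat_lit 5) (nat_lit 142) (nat_lit 5) (nat_lit 307) (nat_lit 299) (nat_lit 282)) (XT.nd (nat_lit 94) (nat_lit 0) (nat_lit 0) (XT.lf (nat_lit 84) (nat_lit 2174652435) (nat_lit 0) (nat_lit 1541416849)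 (nat_lit 504) (nat_lit 3051187283) (nat_lit 137) (nat_lit 5) (nat_lit 136) (nat_lit 5) (nat_lit 142) (nat_lit 5) (nat_lit 308) (nat_lit 299) (nat_lit 281)) (XT.lf (nat_lit 84) (nat_lit 4822918877) (nat_lit 0) (nat_lit 684439178) (nat_lit 504) (nat_lit 1308824221) (nat_lit 137) (nat_lit 5) (nat_lit 136) (nat_lit 5) (nat_lit 142) (nat_lit 5) (nat_lit 309) (nat_lit 299) (nat_lit 280)))) (XT.nd (nat_lit 188) (nat_lit 504) (nat_lit 0) (XT.nd (nat_lit 94) (nat_lit 0) (nat_lit 0) (XT.lf (nat_lit 0) (nat_lit 421186938) (nat_lit 504) (nat_lit 6217562917) (nat_lit 84) (nat_lit 230104664) (nat_lit 131) (nat_lit 5) (nat_lit 137) (nat_lit 5) (nat_lit 132) (nat_lit 5) (nat_lit 310) (nat_lit 299) (nat_lit 279)) (XT.lf (nat_lit 0) (nat_lit 2142090217) (nat_lit 504) (nat_lit 3566722289) (nat_lit 84) (nat_lit 1215642313) (nat_lit 131) (nat_lit 5) (nat_lit 137) (nat_lit 5) (nat_lit 132) (nat_lit 5)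 (nat_lit 311) (nat_lit 299) (nat_lit 278))) (XT.nd (nat_lit 94) (nat_lit 504) (nat_lit 0) (XT.lf (nat_lit 0) (nat_lit 3854683452) (nat_lit 504) (nat_lit 876084283) (nat_lit 84) (nat_lit 2253512222) (nat_lit 131) (nat_lit 5) (nat_lit 137) (nat_lit 5) (nat_lit 132) (nat_lit 5) (nat_lit 312) (nat_lit 299) (nat_lit 277)) (XT.lf (nat_lit 0) (nat_lit 1895039887) (nat_lit 504) (nat_lit 3684322102) (nat_lit 588) (nat_lit 1468440938) (nat_lit 125) (nat_lit 5) (nat_lit 131) (nat_lit 5) (nat_lit 132) (nat_lit 5) (nat_lit 313) (nat_lit 299) (nat_lit 276)))))) (XT.nd (nat_lit 564) (nat_lit 2604) (nat_lit 0) (XT.nd (nat_lit 282) (nat_lit 756) (nat_lit 0) (XT.nd (nat_lit 94) (nat_lit 588) (nat_lit 0) (XT.lf (nat_lit 0) (nat_lit 188977532) (nat_lit 588) (nat_lit 2387337311) (nat_lit 84) (nat_lit 4539003064) (nat_lit 124) (nat_lit 5) (nat_lit 131) (nat_lit 5) (nat_lit 125) (nat_lit 5) (nat_lit 314)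 (nat_lit 299) (nat_lit 275)) (XT.nd (nat_lit 94) (nat_lit 0) (nat_lit 0) (XT.lf (nat_lit 0) (nat_lit 416004912) (nat_lit 588) (nat_lit 1397634802) (nat_lit 672) (nat_lit 5373005215) (nat_lit 117) (nat_lit 5) (nat_lit 124) (nat_lit 5) (nat_lit 125) (nat_lit 5) (nat_lit 315) (nat_lit 299) (nat_lit 274)) (XT.lf (nat_lit 0) (nat_lit 3316103319) (nat_lit 588) (nat_lit 141054305) (nat_lit 672) (nat_lit 3804508568) (nat_lit 117) (nat_lit 5) (nat_lit 124) (nat_lit 5) (nat_lit 125) (nat_lit 5) (nat_lit 316) (nat_lit 299) (nat_lit 273)))) (XT.nd (nat_lit 94) (nat_lit 756) (nat_lit 0) (XT.lf (nat_lit 0) (nat_lit 5108496906) (nat_lit 672) (nat_lit 1086231689) (nat_lit 84) (nat_lit 1146112581) (nat_lit 117) (nat_lit 5) (nat_lit 125) (nat_lit 5) (nat_lit 118) (nat_lit 5) (nat_lit 317) (nat_lit 299) (nat_lit 272)) (XT.nd (nat_lit 94) (nat_lit 84) (nat_lit 0) (XT.lf (nat_lit 0) (nat_lit 1857100749)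 (nat_lit 672) (nat_lit 4920853124) (nat_lit 756) (nat_lit 646018340) (nat_lit 109) (nat_lit 5) (nat_lit 117) (nat_lit 5) (nat_lit 118) (nat_lit 5) (nat_lit 318) (nat_lit 299) (nat_lit 271)) (XT.lf (nat_lit 0) (nat_lit 928273664) (nat_lit 756) (nat_lit 2646289525) (nat_lit 84) (nat_lit 3936540454) (nat_lit 108) (nat_lit 5) (nat_lit 117) (nat_lit 5) (nat_lit 109) (nat_lit 5) (nat_lit 319) (nat_lit 299) (nat_lit 270))))) (XT.nd (nat_lit 282) (nat_lit 1848) (nat_lit 0) (XT.nd (nat_lit 94) (nat_lit 0) (nat_lit 0) (XT.lf (nat_lit 0) (nat_lit 324278554) (nat_lit 756) (nat_lit 2165745022) (nat_lit 840) (nat_lit 5112628098) (nat_lit 99) (nat_lit 5) (nat_lit 108) (nat_lit 5) (nat_lit 109) (nat_lit 5) (nat_lit 320) (nat_lit 299) (nat_lit 269)) (XT.nd (nat_lit 94) (nat_lit 0) (nat_lit 0) (XT.lf (nat_lit 0) (nat_lit 3402965855) (nat_lit 756) (nat_lit 674841280) (nat_lit 840) (nat_lit 3620345939)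 (nat_lit 99) (nat_lit 5) (nat_lit 108) (nat_lit 5) (nat_lit 109) (nat_lit 5) (nat_lit 321) (nat_lit 299) (nat_lit 268)) (XT.lf (nat_lit 0) (nat_lit 5674962530) (nat_lit 840) (nat_lit 1268948008) (nat_lit 84) (nat_lit 854348717) (nat_lit 99) (nat_lit 5) (nat_lit 109) (nat_lit 5) (nat_lit 100) (nat_lit 5) (nat_lit 322) (nat_lit 299) (nat_lit 267)))) (XT.nd (nat_lit 188) (nat_lit 924) (nat_lit 0) (XT.nd (nat_lit 94) (nat_lit 84) (nat_lit 0) (XT.lf (nat_lit 0) (nat_lit 1841665430) (nat_lit 840) (nat_lit 5458187903) (nat_lit 924) (nat_lit 602687073) (nat_lit 89) (nat_lit 5) (nat_lit 99) (nat_lit 5) (nat_lit 100) (nat_lit 5) (nat_lit 323) (nat_lit 299) (nat_lit 266)) (XT.lf (nat_lit 0) (nat_lit 912226029) (nat_lit 924) (nat_lit 2984319862) (nat_lit 84) (nat_lit 4114619862) (nat_lit 88) (nat_lit 5) (nat_lit 99) (nat_lit 5) (nat_lit 89) (nat_lit 5) (nat_lit 324) (nat_lit 299) (nat_lit 265)))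 (XT.nd (nat_lit 94) (nat_lit 0) (nat_lit 0) (XT.lf (nat_lit 0) (nat_lit 145009946) (nat_lit 924) (nat_lit 2272644832) (nat_lit 1008) (nat_lit 5707036269) (nat_lit 77) (nat_lit 5) (nat_lit 88) (nat_lit 5) (nat_lit 89) (nat_lit 5) (nat_lit 325) (nat_lit 299) (nat_lit 264)) (XT.lf (nat_lit 0) (nat_lit 3395657365) (nat_lit 924) (nat_lit 560856279) (nat_lit 1008) (nat_lit 4285983383) (nat_lit 77) (nat_lit 5) (nat_lit 88) (nat_lit 5) (nat_lit 89) (nat_lit 5) (nat_lit 326) (nat_lit 299) (nat_lit 263))))))))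
noncomputable def xc93 : XT := (XT.nd (nat_lit 2350) (nat_lit 1428) (nat_lit 0) (XT.nd (nat_lit 1128) (nat_lit 1848) (nat_lit 0) (XT.nd (nat_lit 564) (nat_lit 924) (nat_lit 0) (XT.nd (nat_lit 282) (nat_lit 504) (nat_lit 0) (XT.nd (nat_lit 94) (nat_lit 756) (nat_lit 0) (XT.lf (nat_lit 0) (nat_lit 5512019506) (nat_lit 1008) (nat_lit 1668337579) (nat_lit 84) (nat_lit 1184901158) (nat_lit 77) (nat_lit 5) (nat_lit 89) (nat_lit 5) (nat_lit 78) (nat_lit 5) (nat_lit 327) (nat_lit 299) (nat_lit 262)) (XT.nd (nat_lit 94) (nat_lit 84) (nat_lit 0) (XT.lf (nat_lit 0) (nat_lit 1596808417) (nat_lit 672) (nat_lit 5498805936) (nat_lit 756) (nat_lit 1397165011) (nat_lit 69) (nat_lit 5) (nat_lit 77) (nat_lit 5) (nat_lit 78) (nat_lit 5) (nat_lit 328) (nat_lit 299) (nat_lit 261)) (XT.lf (nat_lit 0) (nat_lit 77980633) (nat_lit 756) (nat_lit 3665485051) (nat_lit 84) (nat_lit 4881809697) (nat_lit 68) (nat_lit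 5) (nat_lit 77) (nat_lit 5) (nat_lit 69) (nat_lit 5) (nat_lit 329) (nat_lit 299) (nat_lit 260)))) (XT.nd (nat_lit 94) (nat_lit 504) (nat_lit 0) (XT.lf (nat_lit 0) (nat_lit 1529520898) (nat_lit 756) (nat_lit 387070865) (nat_lit 84) (nat_lit 6846395044) (nat_lit 68) (nat_lit 5) (nat_lit 77) (nat_lit 5) (nat_lit 69) (nat_lit 5) (nat_lit 330) (nat_lit 299) (nat_lit 259)) (XT.nd (nat_lit 94) (nat_lit 0) (nat_lit 0) (XT.lf (nat_lit 0) (nat_lit 3016888123) (nat_lit 588) (nat_lit 5888571957) (nat_lit 84) (nat_lit 83765) (nat_lit 62) (nat_lit 5) (nat_lit 69) (nat_lit 5) (nat_lit 63) (nat_lit 5) (nat_lit 331) (nat_lit 299) (nat_lit 258)) (XT.lf (nat_lit 0) (nat_lit 4535780126) (nat_lit 588) (nat_lit 2575195938) (nat_lit 84) (nat_lit 1942279659) (nat_lit 62) (nat_lit 5) (nat_lit 69) (nat_lit 5) (nat_lit 63) (nat_lit 5) (nat_lit 332) (nat_lit 299) (nat_lit 257))))) (XT.nd (nat_lit 282) (nat_lit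 504) (nat_lit 0) (XT.nd (nat_lit 94) (nat_lit 0) (nat_lit 0) (XT.lf (nat_lit 0) (nat_lit 820665841) (nat_lit 420) (nat_lit 5252116286) (nat_lit 504) (nat_lit 3133937739) (nat_lit 57) (nat_lit 5) (nat_lit 62) (nat_lit 5) (nat_lit 63) (nat_lit 5) (nat_lit 333) (nat_lit 299) (nat_lit 256)) (XT.nd (nat_lit 94) (nat_lit 0) (nat_lit 0) (XT.lf (nat_lit 0) (nat_lit 4340000851) (nat_lit 420) (nat_lit 3307948362) (nat_lit 504) (nat_lit 1717552814) (nat_lit 57) (nat_lit 5) (nat_lit 62) (nat_lit 5) (nat_lit 63) (nat_lit 5) (nat_lit 334) (nat_lit 299) (nat_lit 255)) (XT.lf (nat_lit 0) (nat_lit 7933138168) (nat_lit 420) (nat_lit 1303539887) (nat_lit 504) (nat_lit 293880367) (nat_lit 57) (nat_lit 5) (nat_lit 62) (nat_lit 5) (nat_lit 63) (nat_lit 5) (nat_lit 335) (nat_lit 299) (nat_lit 254)))) (XT.nd (nat_lit 94) (nat_lit 0) (nat_lit 0) (XT.lf (nat_lit 0) (nat_lit 1142485773) (nat_lit 504) (nat_lit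 7780024581) (nat_lit 84) (nat_lit 778344982) (nat_lit 51) (nat_lit 5) (nat_lit 57) (nat_lit 5) (nat_lit 52) (nat_lit 5) (nat_lit 336) (nat_lit 299) (nat_lit 253)) (XT.nd (nat_lit 94) (nat_lit 0) (nat_lit 0) (XT.lf (nat_lit 0) (nat_lit 2613341046) (nat_lit 504) (nat_lit 4346535288) (nat_lit 84) (nat_lit 2916819914) (nat_lit 51) (nat_lit 5) (nat_lit 57) (nat_lit 5) (nat_lit 52) (nat_lit 5) (nat_lit 337) (nat_lit 299) (nat_lit 252)) (XT.lf (nat_lit 0) (nat_lit 4096708349) (nat_lit 504) (nat_lit 841645997) (nat_lit 84) (nat_lit 5120888435) (nat_lit 51) (nat_lit 5) (nat_lit 57) (nat_lit 5) (nat_lit 52) (nat_lit 5) (nat_lit 338) (nat_lit 299) (nat_lit 251)))))) (XT.nd (nat_lit 564) (nat_lit 1008) (nat_lit 0) (XT.nd (nat_lit 282) (nat_lit 504) (nat_lit 0) (XT.nd (nat_lit 94) (nat_lit 0) (nat_lit 0) (XT.lf (nat_lit 0) (nat_lit 2794207264) (nat_lit 336) (nat_lit 2827481952) (nat_lit 420)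 (nat_lit 4626116584) (nat_lit 47) (nat_lit 5) (nat_lit 51) (nat_lit 5) (nat_lit 52) (nat_lit 5) (nat_lit 339) (nat_lit 299) (nat_lit 250)) (XT.nd (nat_lit 94) (nat_lit 0) (nat_lit 0) (XT.lf (nat_lit 0) (nat_lit 6526973848) (nat_lit 336) (nat_lit 644297149) (nat_lit 420) (nat_lit 3271861528) (nat_lit 47) (nat_lit 5) (nat_lit 51) (nat_lit 5) (nat_lit 52) (nat_lit 5) (nat_lit 340) (nat_lit 299) (nat_lit 249)) (XT.lf (nat_lit 0) (nat_lit 8754293496) (nat_lit 420) (nat_lit 318758395) (nat_lit 84) (nat_lit 1572123869) (nat_lit 47) (nat_lit 5) (nat_lit 52) (nat_lit 5) (nat_lit 48) (nat_lit 5) (nat_lit 341) (nat_lit 299) (nat_lit 248)))) (XT.nd (nat_lit 94) (nat_lit 84) (nat_lit 0) (XT.lf (nat_lit 0) (nat_lit 3419723769) (nat_lit 420) (nat_lit 6977564079) (nat_lit 504) (nat_lit 456059262) (nat_lit 42) (nat_lit 5) (nat_lit 47) (nat_lit 5) (nat_lit 48) (nat_lit 5) (nat_lit 342) (nat_lit 299)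 (nat_lit 247)) (XT.nd (nat_lit 94) (nat_lit 0) (nat_lit 0) (XT.lf (nat_lit 0) (nat_lit 976452086) (nat_lit 504) (nat_lit 3830411062) (nat_lit 84) (nat_lit 6261795992) (nat_lit 41) (nat_lit 5) (nat_lit 47) (nat_lit 5) (nat_lit 42) (nat_lit 5) (nat_lit 343) (nat_lit 299) (nat_lit 246)) (XT.lf (nat_lit 0) (nat_lit 2415249648) (nat_lit 504) (nat_lit 152379035) (nat_lit 84) (nat_lit 8723945542) (nat_lit 41) (nat_lit 5) (nat_lit 47) (nat_lit 5) (nat_lit 42) (nat_lit 5) (nat_lit 344) (nat_lit 299) (nat_lit 245))))) (XT.nd (nat_lit 282) (nat_lit 672) (nat_lit 0) (XT.nd (nat_lit 94) (nat_lit 0) (nat_lit 0) (XT.lf (nat_lit 0) (nat_lit 3682621838) (nat_lit 336) (nat_lit 224773336) (nat_lit 420) (nat_lit 7613912724) (nat_lit 37) (nat_lit 5) (nat_lit 41) (nat_lit 5) (nat_lit 42) (nat_lit 5) (nat_lit 345) (nat_lit 299) (nat_lit 244)) (XT.nd (nat_lit 94) (nat_lit 0) (nat_lit 0) (XT.lf (nat_lit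 0) (nat_lit 5441841531) (nat_lit 420) (nat_lit 4172037231) (nat_lit 84) (nat_lit 2144581112) (nat_lit 37) (nat_lit 5) (nat_lit 42) (nat_lit 5) (nat_lit 38) (nat_lit 5) (nat_lit 346) (nat_lit 299) (nat_lit 243)) (XT.lf (nat_lit 0) (nat_lit 6999680722) (nat_lit 420) (nat_lit 424974566) (nat_lit 84) (nat_lit 4579226402) (nat_lit 37) (nat_lit 5) (nat_lit 42) (nat_lit 5) (nat_lit 38) (nat_lit 5) (nat_lit 347) (nat_lit 299) (nat_lit 242)))) (XT.nd (nat_lit 188) (nat_lit 336) (nat_lit 0) (XT.nd (nat_lit 94) (nat_lit 0) (nat_lit 0) (XT.lf (nat_lit 0) (nat_lit 3478304453) (nat_lit 336) (nat_lit 5136335796) (nat_lit 420) (nat_lit 3642161314) (nat_lit 33) (nat_lit 5) (nat_lit 37) (nat_lit 5) (nat_lit 38) (nat_lit 5) (nat_lit 348) (nat_lit 299) (nat_lit 241)) (XT.lf (nat_lit 0) (nat_lit 7481875640) (nat_lit 336) (nat_lit 2777023122) (nat_lit 420) (nat_lit 2259465608) (nat_lit 33) (nat_lit 5)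 (nat_lit 37) (nat_lit 5) (nat_lit 38) (nat_lit 5) (nat_lit 349) (nat_lit 299) (nat_lit 240))) (XT.nd (nat_lit 94) (nat_lit 336) (nat_lit 0) (XT.lf (nat_lit 0) (nat_lit 11580732394) (nat_lit 336) (nat_lit 348954002) (nat_lit 420) (nat_lit 859260895) (nat_lit 33) (nat_lit 5) (nat_lit 37) (nat_lit 5) (nat_lit 38) (nat_lit 5) (nat_lit 350) (nat_lit 299) (nat_lit 239)) (XT.lf (nat_lit 0) (nat_lit 597525517) (nat_lit 336) (nat_lit 10329501425) (nat_lit 84) (nat_lit 2140083050) (nat_lit 29) (nat_lit 5) (nat_lit 33) (nat_lit 5) (nat_lit 30) (nat_lit 5) (nat_lit 351) (nat_lit 299) (nat_lit 238))))))) (XT.nd (nat_lit 1222) (nat_lit 588) (nat_lit 0) (XT.nd (nat_lit 564) (nat_lit 588) (nat_lit 0) (XT.nd (nat_lit 282) (nat_lit 0) (nat_lit 0) (XT.nd (nat_lit 94) (nat_lit 252) (nat_lit 0) (XT.lf (nat_lit 0) (nat_lit 2074233480) (nat_lit 336) (nat_lit 6563761594) (nat_lit 84) (nat_lit 4715997781)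 (nat_lit 29) (nat_lit 5) (nat_lit 33) (nat_lit 5) (nat_lit 30) (nat_lit 5) (nat_lit 352) (nat_lit 299) (nat_lit 237)) (XT.nd (nat_lit 94) (nat_lit 252) (nat_lit 0) (XT.lf (nat_lit 0) (nat_lit 3573732768) (nat_lit 336) (nat_lit 2709544458) (nat_lit 84) (nat_lit 7367340688) (nat_lit 29) (nat_lit 5) (nat_lit 33) (nat_lit 5) (nat_lit 30) (nat_lit 5) (nat_lit 353) (nat_lit 299) (nat_lit 236)) (XT.lf (nat_lit 0) (nat_lit 1262172479) (nat_lit 252) (nat_lit 3847769500) (nat_lit 336) (nat_lit 8846931527) (nat_lit 26) (nat_lit 5) (nat_lit 29) (nat_lit 5) (nat_lit 30) (nat_lit 5) (nat_lit 354) (nat_lit 299) (nat_lit 235)))) (XT.nd (nat_lit 94) (nat_lit 0) (nat_lit 0) (XT.lf (nat_lit 0) (nat_lit 5387320179) (nat_lit 252) (nat_lit 1312841332) (nat_lit 336) (nat_lit 7572391659) (nat_lit 26) (nat_lit 5) (nat_lit 29) (nat_lit 5) (nat_lit 30) (nat_lit 5) (nat_lit 355) (nat_lit 299) (nat_lit 234))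 (XT.nd (nat_lit 94) (nat_lit 0) (nat_lit 0) (XT.lf (nat_lit 0) (nat_lit 8331294307) (nat_lit 336) (nat_lit 4997624010) (nat_lit 84) (nat_lit 1269484796) (nat_lit 26) (nat_lit 5) (nat_lit 30) (nat_lit 5) (nat_lit 27) (nat_lit 5) (nat_lit 356) (nat_lit 299) (nat_lit 233)) (XT.lf (nat_lit 0) (nat_lit 10005773186) (nat_lit 336) (nat_lit 1029162858) (nat_lit 84) (nat_lit 3899762730) (nat_lit 26) (nat_lit 5) (nat_lit 30) (nat_lit 5) (nat_lit 27) (nat_lit 5) (nat_lit 357) (nat_lit 299) (nat_lit 232))))) (XT.nd (nat_lit 282) (nat_lit 336) (nat_lit 0) (XT.nd (nat_lit 94) (nat_lit 0) (nat_lit 0) (XT.lf (nat_lit 0) (nat_lit 3099317370) (nat_lit 252) (nat_lit 8643563631) (nat_lit 336) (nat_lit 3538323230) (nat_lit 23) (nat_lit 5) (nat_lit 26) (nat_lit 5) (nat_lit 27) (nat_lit 5) (nat_lit 358) (nat_lit 299) (nat_lit 231)) (XT.nd (nat_lit 94) (nat_lit 0) (nat_lit 0) (XT.lf (nat_lit 0) (nat_lit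 7352408276) (nat_lit 252) (nat_lit 6172499951) (nat_lit 336) (nat_lit 2113933429) (nat_lit 23) (nat_lit 5) (nat_lit 26) (nat_lit 5) (nat_lit 27) (nat_lit 5) (nat_lit 359) (nat_lit 299) (nat_lit 230)) (XT.lf (nat_lit 0) (nat_lit 11712912486) (nat_lit 252) (nat_lit 3630184063) (nat_lit 336) (nat_lit 665170853) (nat_lit 23) (nat_lit 5) (nat_lit 26) (nat_lit 5) (nat_lit 27) (nat_lit 5) (nat_lit 360) (nat_lit 299) (nat_lit 229)))) (XT.nd (nat_lit 188) (nat_lit 0) (nat_lit 0) (XT.nd (nat_lit 94) (nat_lit 252) (nat_lit 0) (XT.lf (nat_lit 0) (nat_lit 793009004) (nat_lit 336) (nat_lit 212959870) (nat_lit 84) (nat_lit 15383608053) (nat_lit 22) (nat_lit 5) (nat_lit 26) (nat_lit 5) (nat_lit 23) (nat_lit 5) (nat_lit 361) (nat_lit 299) (nat_lit 228)) (XT.lf (nat_lit 0) (nat_lit 2321776757) (nat_lit 336) (nat_lit 12751936826) (nat_lit 84) (nat_lit 1707667721) (nat_lit 19) (nat_lit 5) (nat_lit 23)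 (nat_lit 5) (nat_lit 20) (nat_lit 5) (nat_lit 362) (nat_lit 299) (nat_lit 227))) (XT.nd (nat_lit 94) (nat_lit 0) (nat_lit 0) (XT.lf (nat_lit 0) (nat_lit 3892499409) (nat_lit 336) (nat_lit 8811519565) (nat_lit 84) (nat_lit 4481578566) (nat_lit 19) (nat_lit 5) (nat_lit 23) (nat_lit 5) (nat_lit 20) (nat_lit 5) (nat_lit 363) (nat_lit 299) (nat_lit 226)) (XT.lf (nat_lit 0) (nat_lit 5494483624) (nat_lit 336) (nat_lit 4772056474) (nat_lit 84) (nat_lit 7336439186) (nat_lit 19) (nat_lit 5) (nat_lit 23) (nat_lit 5) (nat_lit 20) (nat_lit 5) (nat_lit 364) (nat_lit 299) (nat_lit 225)))))) (XT.nd (nat_lit 564) (nat_lit 252) (nat_lit 0) (XT.nd (nat_lit 282) (nat_lit 168) (nat_lit 0) (XT.nd (nat_lit 94) (nat_lit 168) (nat_lit 0) (XT.lf (nat_lit 0) (nat_lit 7129222619) (nat_lit 336) (nat_lit 629782352) (nat_lit 84) (nat_lit 10274910612) (nat_lit 19) (nat_lit 5) (nat_lit 23) (nat_lit 5) (nat_lit 20)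 (nat_lit 5) (nat_lit 365) (nat_lit 299) (nat_lit 224)) (XT.nd (nat_lit 94) (nat_lit 0) (nat_lit 0) (XT.lf (nat_lit 0) (nat_lit 3693581266) (nat_lit 168) (nat_lit 5141299660) (nat_lit 252) (nat_lit 9642791323) (nat_lit 17) (nat_lit 5) (nat_lit 19) (nat_lit 5) (nat_lit 20) (nat_lit 5) (nat_lit 366) (nat_lit 299) (nat_lit 223)) (XT.lf (nat_lit 0) (nat_lit 8142801861) (nat_lit 168) (nat_lit 2441067636) (nat_lit 252) (nat_lit 8351697960) (nat_lit 17) (nat_lit 5) (nat_lit 19) (nat_lit 5) (nat_lit 20) (nat_lit 5) (nat_lit 367) (nat_lit 299) (nat_lit 222)))) (XT.nd (nat_lit 94) (nat_lit 168) (nat_lit 0) (XT.lf (nat_lit 0) (nat_lit 12374791966) (nat_lit 252) (nat_lit 6702498086) (nat_lit 84) (nat_lit 330831784) (nat_lit 17) (nat_lit 5) (nat_lit 20) (nat_lit 5) (nat_lit 18) (nat_lit 5) (nat_lit 368) (nat_lit 299) (nat_lit 221)) (XT.nd (nat_lit 94) (nat_lit 168) (nat_lit 0) (XT.lf (nat_lit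 0) (nat_lit 14230984981) (nat_lit 252) (nat_lit 2531143218) (nat_lit 84) (nat_lit 3132975971) (nat_lit 17) (nat_lit 5) (nat_lit 20) (nat_lit 5) (nat_lit 18) (nat_lit 5) (nat_lit 369) (nat_lit 299) (nat_lit 220)) (XT.lf (nat_lit 0) (nat_lit 1785374151) (nat_lit 168) (nat_lit 14362299998) (nat_lit 252) (nat_lit 4249495870) (nat_lit 15) (nat_lit 5) (nat_lit 17) (nat_lit 5) (nat_lit 18) (nat_lit 5) (nat_lit 370) (nat_lit 299) (nat_lit 219))))) (XT.nd (nat_lit 282) (nat_lit 168) (nat_lit 0) (XT.nd (nat_lit 94) (nat_lit 84) (nat_lit 0) (XT.lf (nat_lit 0) (nat_lit 6269445360) (nat_lit 168) (nat_lit 11866244433) (nat_lit 252) (nat_lit 2778817212) (nat_lit 15) (nat_lit 5) (nat_lit 17) (nat_lit 5) (nat_lit 18) (nat_lit 5) (nat_lit 371) (nat_lit 299) (nat_lit 218)) (XT.nd (nat_lit 94) (nat_lit 84) (nat_lit 0) (XT.lf (nat_lit 0) (nat_lit 10873204537) (nat_lit 168) (nat_lit 9298054862) (nat_lit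 252) (nat_lit 1277132332) (nat_lit 15) (nat_lit 5) (nat_lit 17) (nat_lit 5) (nat_lit 18) (nat_lit 5) (nat_lit 372) (nat_lit 299) (nat_lit 217)) (XT.lf (nat_lit 0) (nat_lit 251781356) (nat_lit 252) (nat_lit 6400928027) (nat_lit 84) (nat_lit 15346533431) (nat_lit 14) (nat_lit 5) (nat_lit 17) (nat_lit 5) (nat_lit 15) (nat_lit 5) (nat_lit 373) (nat_lit 299) (nat_lit 216)))) (XT.nd (nat_lit 188) (nat_lit 0) (nat_lit 0) (XT.nd (nat_lit 94) (nat_lit 168) (nat_lit 0) (XT.lf (nat_lit 0) (nat_lit 1788117840) (nat_lit 252) (nat_lit 2128846827) (nat_lit 84) (nat_lit 18650284978) (nat_lit 14) (nat_lit 5) (nat_lit 17) (nat_lit 5) (nat_lit 15) (nat_lit 5) (nat_lit 374) (nat_lit 299) (nat_lit 215)) (XT.lf (nat_lit 0) (nat_lit 2304130845) (nat_lit 168) (nat_lit 1077766933) (nat_lit 252) (nat_lit 19770728059) (nat_lit 12) (nat_lit 5) (nat_lit 14) (nat_lit 5) (nat_lit 15) (nat_lit 5) (nat_lit 375)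 (nat_lit 299) (nat_lit 214))) (XT.nd (nat_lit 94) (nat_lit 0) (nat_lit 0) (XT.lf (nat_lit 0) (nat_lit 5053006017) (nat_lit 252) (nat_lit 16872563812) (nat_lit 84) (nat_lit 1829776818) (nat_lit 12) (nat_lit 5) (nat_lit 15) (nat_lit 5) (nat_lit 13) (nat_lit 5) (nat_lit 376) (nat_lit 299) (nat_lit 213)) (XT.lf (nat_lit 0) (nat_lit 6774455045) (nat_lit 252) (nat_lit 12802046038) (nat_lit 84) (nat_lit 4800357691) (nat_lit 12) (nat_lit 5) (nat_lit 15) (nat_lit 5) (nat_lit 13) (nat_lit 5) (nat_lit 377) (nat_lit 299) (nat_lit 212))))))))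
noncomputable def xc94 : XT := (XT.nd (nat_lit 2350) (nat_lit 252) (nat_lit 0) (XT.nd (nat_lit 1128) (nat_lit 252) (nat_lit 0) (XT.nd (nat_lit 564) (nat_lit 84) (nat_lit 0) (XT.nd (nat_lit 282) (nat_lit 0) (nat_lit 0) (XT.nd (nat_lit 94) (nat_lit 168) (nat_lit 0) (XT.lf (nat_lit 0) (nat_lit 8537157850) (nat_lit 252) (nat_lit 8622455941) (nat_lit 84) (nat_lit 7858459181) (nat_lit 12) (nat_lit 5) (nat_lit 15) (nat_lit 5) (nat_lit 13) (nat_lit 5) (nat_lit 378) (nat_lit 299) (nat_lit 211)) (XT.nd (nat_lit 94) (nat_lit 168) (nat_lit 0) (XT.lf (nat_lit 0) (nat_lit 10342757457) (nat_lit 252) (nat_lit 4329897703) (nat_lit 84) (nat_lit 11006931757) (nat_lit 12) (nat_lit 5) (nat_lit 15) (nat_lit 5) (nat_lit 13) (nat_lit 5) (nat_lit 379) (nat_lit 299) (nat_lit 210)) (XT.lf (nat_lit 0) (nat_lit 81267139) (nat_lit 168) (nat_lit 12112475913) (nat_lit 252) (nat_lit 14168249167) (nat_lit 10) (nat_lit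 5) (nat_lit 12) (nat_lit 5) (nat_lit 13) (nat_lit 5) (nat_lit 380) (nat_lit 299) (nat_lit 209)))) (XT.nd (nat_lit 94) (nat_lit 0) (nat_lit 0) (XT.lf (nat_lit 0) (nat_lit 4705032595) (nat_lit 168) (nat_lit 9431062569) (nat_lit 252) (nat_lit 12928457876) (nat_lit 10) (nat_lit 5) (nat_lit 12) (nat_lit 5) (nat_lit 13) (nat_lit 5) (nat_lit 381) (nat_lit 299) (nat_lit 208)) (XT.nd (nat_lit 94) (nat_lit 0) (nat_lit 0) (XT.lf (nat_lit 0) (nat_lit 9456676921) (nat_lit 168) (nat_lit 6671111022) (nat_lit 252) (nat_lit 11661495224) (nat_lit 10) (nat_lit 5) (nat_lit 12) (nat_lit 5) (nat_lit 13) (nat_lit 5) (nat_lit 382) (nat_lit 299) (nat_lit 207)) (XT.lf (nat_lit 0) (nat_lit 14340629147) (nat_lit 168) (nat_lit 3830048708) (nat_lit 252) (nat_lit 10366180269) (nat_lit 10) (nat_lit 5) (nat_lit 12) (nat_lit 5) (nat_lit 13) (nat_lit 5) (nat_lit 383) (nat_lit 299) (nat_lit 206))))) (XT.nd (nat_lit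 282) (nat_lit 84) (nat_lit 0) (XT.nd (nat_lit 94) (nat_lit 0) (nat_lit 0) (XT.lf (nat_lit 0) (nat_lit 19361441628) (nat_lit 168) (nat_lit 905227458) (nat_lit 252) (nat_lit 9041305642) (nat_lit 10) (nat_lit 5) (nat_lit 12) (nat_lit 5) (nat_lit 13) (nat_lit 5) (nat_lit 384) (nat_lit 299) (nat_lit 205)) (XT.nd (nat_lit 94) (nat_lit 0) (nat_lit 0) (XT.lf (nat_lit 0) (nat_lit 22438607885) (nat_lit 252) (nat_lit 5600450019) (nat_lit 84) (nat_lit 2063646168) (nat_lit 10) (nat_lit 5) (nat_lit 13) (nat_lit 5) (nat_lit 11) (nat_lit 4) (nat_lit 385) (nat_lit 299) (nat_lit 204)) (XT.lf (nat_lit 0) (nat_lit 24677472444) (nat_lit 252) (nat_lit 1142882446) (nat_lit 84) (nat_lit 5101774471) (nat_lit 10) (nat_lit 5) (nat_lit 13) (nat_lit 5) (nat_lit 11) (nat_lit 4) (nat_lit 386) (nat_lit 299) (nat_lit 203)))) (XT.nd (nat_lit 94) (nat_lit 0) (nat_lit 0) (XT.lf (nat_lit 0) (nat_lit 3510023660) (nat_lit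 84) (nat_lit 23501165859) (nat_lit 168) (nat_lit 4755023829) (nat_lit 9) (nat_lit 5) (nat_lit 10) (nat_lit 5) (nat_lit 11) (nat_lit 4) (nat_lit 387) (nat_lit 299) (nat_lit 202)) (XT.nd (nat_lit 94) (nat_lit 0) (nat_lit 0) (XT.lf (nat_lit 0) (nat_lit 8317970484) (nat_lit 84) (nat_lit 21101987130) (nat_lit 168) (nat_lit 3216466475) (nat_lit 9) (nat_lit 5) (nat_lit 10) (nat_lit 5) (nat_lit 11) (nat_lit 4) (nat_lit 388) (nat_lit 299) (nat_lit 201)) (XT.lf (nat_lit 0) (nat_lit 13261939529) (nat_lit 84) (nat_lit 18632511767) (nat_lit 168) (nat_lit 1639480106) (nat_lit 9) (nat_lit 5) (nat_lit 10) (nat_lit 5) (nat_lit 11) (nat_lit 4) (nat_lit 389) (nat_lit 299) (nat_lit 200)))))) (XT.nd (nat_lit 564) (nat_lit 0) (nat_lit 0) (XT.nd (nat_lit 282) (nat_lit 168) (nat_lit 0) (XT.nd (nat_lit 94) (nat_lit 84) (nat_lit 0) (XT.lf (nat_lit 0) (nat_lit 18346539090) (nat_lit 84) (nat_lit 16090437959)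 (nat_lit 168) (nat_lit 22594807) (nat_lit 9) (nat_lit 5) (nat_lit 10) (nat_lit 5) (nat_lit 11) (nat_lit 4) (nat_lit 390) (nat_lit 299) (nat_lit 199)) (XT.nd (nat_lit 94) (nat_lit 0) (nat_lit 0) (XT.lf (nat_lit 0) (nat_lit 1602740888) (nat_lit 168) (nat_lit 11853926011) (nat_lit 84) (nat_lit 21957038332) (nat_lit 8) (nat_lit 5) (nat_lit 10) (nat_lit 5) (nat_lit 9) (nat_lit 5) (nat_lit 391) (nat_lit 299) (nat_lit 198)) (XT.lf (nat_lit 0) (nat_lit 3269707706) (nat_lit 168) (nat_lit 7475110466) (nat_lit 84) (nat_lit 25652886033) (nat_lit 8) (nat_lit 5) (nat_lit 10) (nat_lit 5) (nat_lit 9) (nat_lit 5) (nat_lit 392) (nat_lit 299) (nat_lit 197)))) (XT.nd (nat_lit 94) (nat_lit 168) (nat_lit 0) (XT.lf (nat_lit 0) (nat_lit 4980314668) (nat_lit 168) (nat_lit 2972280474) (nat_lit 84) (nat_lit 29459897776) (nat_lit 8) (nat_lit 5) (nat_lit 10) (nat_lit 5) (nat_lit 9) (nat_lit 5) (nat_lit 393)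 (nat_lit 299) (nat_lit 196)) (XT.nd (nat_lit 94) (nat_lit 0) (nat_lit 0) (XT.lf (nat_lit 0) (nat_lit 1692868603) (nat_lit 168) (nat_lit 5060081103) (nat_lit 252) (nat_lit 31705546957) (nat_lit 6) (nat_lit 5) (nat_lit 8) (nat_lit 5) (nat_lit 9) (nat_lit 5) (nat_lit 394) (nat_lit 299) (nat_lit 195)) (XT.lf (nat_lit 0) (nat_lit 6554387086) (nat_lit 168) (nat_lit 2049502293) (nat_lit 252) (nat_lit 30932347689) (nat_lit 6) (nat_lit 5) (nat_lit 8) (nat_lit 5) (nat_lit 9) (nat_lit 5) (nat_lit 395) (nat_lit 299) (nat_lit 194))))) (XT.nd (nat_lit 282) (nat_lit 0) (nat_lit 0) (XT.nd (nat_lit 94) (nat_lit 0) (nat_lit 0) (XT.lf (nat_lit 0) (nat_lit 10515192575) (nat_lit 252) (nat_lit 29102386594) (nat_lit 84) (nat_lit 1029749193) (nat_lit 6) (nat_lit 5) (nat_lit 9) (nat_lit 5) (nat_lit 7) (nat_lit 4) (nat_lit 396) (nat_lit 299) (nat_lit 193)) (XT.nd (nat_lit 94) (nat_lit 0) (nat_lit 0) (XT.lf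 (nat_lit 0) (nat_lit 12499457096) (nat_lit 252) (nat_lit 25134438099) (nat_lit 84) (nat_lit 4158575698) (nat_lit 6) (nat_lit 5) (nat_lit 9) (nat_lit 5) (nat_lit 7) (nat_lit 4) (nat_lit 397) (nat_lit 299) (nat_lit 192)) (XT.lf (nat_lit 0) (nat_lit 14538201169) (nat_lit 252) (nat_lit 21053974636) (nat_lit 84) (nat_lit 7381186519) (nat_lit 6) (nat_lit 5) (nat_lit 9) (nat_lit 5) (nat_lit 7) (nat_lit 4) (nat_lit 398) (nat_lit 299) (nat_lit 191)))) (XT.nd (nat_lit 188) (nat_lit 0) (nat_lit 0) (XT.nd (nat_lit 94) (nat_lit 0) (nat_lit 0) (XT.lf (nat_lit 0) (nat_lit 16633325116) (nat_lit 252) (nat_lit 16857192786) (nat_lit 84) (nat_lit 10700585468) (nat_lit 6) (nat_lit 5) (nat_lit 9) (nat_lit 5) (nat_lit 7) (nat_lit 4) (nat_lit 399) (nat_lit 299) (nat_lit 190)) (XT.lf (nat_lit 0) (nat_lit 18786781814) (nat_lit 252) (nat_lit 12540180708) (nat_lit 84) (nat_lit 14119866571) (nat_lit 6) (nat_lit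 5) (nat_lit 9) (nat_lit 5) (nat_lit 7) (nat_lit 4) (nat_lit 400) (nat_lit 299) (nat_lit 189))) (XT.nd (nat_lit 94) (nat_lit 0) (nat_lit 0) (XT.lf (nat_lit 0) (nat_lit 21000578507) (nat_lit 252) (nat_lit 8098914497) (nat_lit 84) (nat_lit 17642216957) (nat_lit 6) (nat_lit 5) (nat_lit 9) (nat_lit 5) (nat_lit 7) (nat_lit 4) (nat_lit 401) (nat_lit 299) (nat_lit 188)) (XT.lf (nat_lit 0) (nat_lit 23276778689) (nat_lit 252) (nat_lit 3529254425) (nat_lit 84) (nat_lit 21270919825) (nat_lit 6) (nat_lit 5) (nat_lit 9) (nat_lit 5) (nat_lit 7) (nat_lit 4) (nat_lit 402) (nat_lit 299) (nat_lit 187))))))) (XT.nd (nat_lit 1222) (nat_lit 84) (nat_lit 0) (XT.nd (nat_lit 564) (nat_lit 84) (nat_lit 0) (XT.nd (nat_lit 282) (nat_lit 0) (nat_lit 0) (XT.nd (nat_lit 94) (nat_lit 0) (nat_lit 0) (XT.lf (nat_lit 0) (nat_lit 1197179405) (nat_lit 84) (nat_lit 24432200776) (nat_lit 168) (nat_lit 23824054270) (nat_lit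 5) (nat_lit 5) (nat_lit 6) (nat_lit 5) (nat_lit 7) (nat_lit 4) (nat_lit 403) (nat_lit 299) (nat_lit 186)) (XT.nd (nat_lit 94) (nat_lit 0) (nat_lit 0) (XT.lf (nat_lit 0) (nat_lit 6136036003) (nat_lit 84) (nat_lit 21949770518) (nat_lit 168) (nat_lit 22785848851) (nat_lit 5) (nat_lit 5) (nat_lit 6) (nat_lit 5) (nat_lit 7) (nat_lit 4) (nat_lit 404) (nat_lit 299) (nat_lit 185)) (XT.lf (nat_lit 0) (nat_lit 11219350192) (nat_lit 84) (nat_lit 19393266631) (nat_lit 168) (nat_lit 21721428458) (nat_lit 5) (nat_lit 5) (nat_lit 6) (nat_lit 5) (nat_lit 7) (nat_lit 4) (nat_lit 405) (nat_lit 299) (nat_lit 184)))) (XT.nd (nat_lit 94) (nat_lit 0) (nat_lit 0) (XT.lf (nat_lit 0) (nat_lit 16451860151) (nat_lit 84) (nat_lit 16760306187) (nat_lit 168) (nat_lit 20629800937) (nat_lit 5) (nat_lit 5) (nat_lit 6) (nat_lit 5) (nat_lit 7) (nat_lit 4) (nat_lit 406) (nat_lit 299) (nat_lit 183)) (XT.nd (nat_lit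 94) (nat_lit 0) (nat_lit 0) (XT.lf (nat_lit 0) (nat_lit 21838443129) (nat_lit 84) (nat_lit 14048434991) (nat_lit 168) (nat_lit 19509948778) (nat_lit 5) (nat_lit 5) (nat_lit 6) (nat_lit 5) (nat_lit 7) (nat_lit 4) (nat_lit 407) (nat_lit 299) (nat_lit 182)) (XT.lf (nat_lit 0) (nat_lit 27384119984) (nat_lit 84) (nat_lit 11255125294) (nat_lit 168) (nat_lit 18360828161) (nat_lit 5) (nat_lit 5) (nat_lit 6) (nat_lit 5) (nat_lit 7) (nat_lit 4) (nat_lit 408) (nat_lit 299) (nat_lit 181))))) (XT.nd (nat_lit 282) (nat_lit 84) (nat_lit 0) (XT.nd (nat_lit 94) (nat_lit 0) (nat_lit 0) (XT.lf (nat_lit 0) (nat_lit 33094059870) (nat_lit 84) (nat_lit 8377773439) (nat_lit 168) (nat_lit 17181367986) (nat_lit 5) (nat_lit 5) (nat_lit 6) (nat_lit 5) (nat_lit 7) (nat_lit 4) (nat_lit 409) (nat_lit 299) (nat_lit 180)) (XT.nd (nat_lit 94) (nat_lit 0) (nat_lit 0) (XT.lf (nat_lit 0) (nat_lit 38973585048) (nat_lit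 84) (nat_lit 5413697433) (nat_lit 168) (nat_lit 15970468873) (nat_lit 5) (nat_lit 5) (nat_lit 6) (nat_lit 5) (nat_lit 7) (nat_lit 4) (nat_lit 410) (nat_lit 299) (nat_lit 179)) (XT.lf (nat_lit 0) (nat_lit 45028175851) (nat_lit 84) (nat_lit 2360134447) (nat_lit 168) (nat_lit 14727002135) (nat_lit 5) (nat_lit 5) (nat_lit 6) (nat_lit 5) (nat_lit 7) (nat_lit 4) (nat_lit 411) (nat_lit 299) (nat_lit 178)))) (XT.nd (nat_lit 188) (nat_lit 84) (nat_lit 0) (XT.nd (nat_lit 94) (nat_lit 0) (nat_lit 0) (XT.lf (nat_lit 0) (nat_lit 50485508887) (nat_lit 168) (nat_lit 12671841827) (nat_lit 0) (nat_lit 769930411) (nat_lit 5) (nat_lit 5) (nat_lit 7) (nat_lit 4) (nat_lit 5) (nat_lit 4) (nat_lit 412) (nat_lit 299) (nat_lit 177)) (XT.lf (nat_lit 0) (nat_lit 53698320912) (nat_lit 168) (nat_lit 8150722274) (nat_lit 0) (nat_lit 3945789958) (nat_lit 5) (nat_lit 5) (nat_lit 7) (nat_lit 4) (nat_lit 5) (nat_lit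 4) (nat_lit 413) (nat_lit 299) (nat_lit 176))) (XT.nd (nat_lit 94) (nat_lit 84) (nat_lit 0) (XT.lf (nat_lit 0) (nat_lit 57006328225) (nat_lit 168) (nat_lit 3496150941) (nat_lit 0) (nat_lit 7217955877) (nat_lit 5) (nat_lit 5) (nat_lit 7) (nat_lit 4) (nat_lit 5) (nat_lit 4) (nat_lit 414) (nat_lit 299) (nat_lit 175)) (XT.lf (nat_lit 0) (nat_lit 1322863470) (nat_lit 84) (nat_lit 59102873735) (nat_lit 84) (nat_lit 9279737668) (nat_lit 4) (nat_lit 4) (nat_lit 5) (nat_lit 5) (nat_lit 5) (nat_lit 4) (nat_lit 415) (nat_lit 299) (nat_lit 174)))))) (XT.nd (nat_lit 564) (nat_lit 0) (nat_lit 0) (XT.nd (nat_lit 282) (nat_lit 84) (nat_lit 0) (XT.nd (nat_lit 94) (nat_lit 0) (nat_lit 0) (XT.lf (nat_lit 0) (nat_lit 6358948328) (nat_lit 84) (nat_lit 57624487185) (nat_lit 84) (nat_lit 7767632671) (nat_lit 4) (nat_lit 4) (nat_lit 5) (nat_lit 5) (nat_lit 5) (nat_lit 4) (nat_lit 416) (nat_lit 299) (nat_lit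 173)) (XT.nd (nat_lit 94) (nat_lit 0) (nat_lit 0) (XT.lf (nat_lit 0) (nat_lit 11544909759) (nat_lit 84) (nat_lit 56102434152) (nat_lit 84) (nat_lit 6212875033) (nat_lit 4) (nat_lit 4) (nat_lit 5) (nat_lit 5) (nat_lit 5) (nat_lit 4) (nat_lit 417) (nat_lit 299) (nat_lit 172)) (XT.lf (nat_lit 0) (nat_lit 16885581621) (nat_lit 84) (nat_lit 54535295922) (nat_lit 84) (nat_lit 4614015557) (nat_lit 4) (nat_lit 4) (nat_lit 5) (nat_lit 5) (nat_lit 5) (nat_lit 4) (nat_lit 418) (nat_lit 299) (nat_lit 171)))) (XT.nd (nat_lit 94) (nat_lit 84) (nat_lit 0) (XT.lf (nat_lit 0) (nat_lit 22385941979) (nat_lit 84) (nat_lit 52921611758) (nat_lit 84) (nat_lit 2969563938) (nat_lit 4) (nat_lit 4) (nat_lit 5) (nat_lit 5) (nat_lit 5) (nat_lit 4) (nat_lit 419) (nat_lit 299) (nat_lit 170)) (XT.nd (nat_lit 94) (nat_lit 84) (nat_lit 0) (XT.lf (nat_lit 0) (nat_lit 28051117746) (nat_lit 84) (nat_lit 51259877538)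 (nat_lit 84) (nat_lit 1277987376) (nat_lit 4) (nat_lit 4) (nat_lit 5) (nat_lit 5) (nat_lit 5) (nat_lit 4) (nat_lit 420) (nat_lit 299) (nat_lit 169)) (XT.lf (nat_lit 0) (nat_lit 452976725) (nat_lit 168) (nat_lit 49090839478) (nat_lit 84) (nat_lit 33428684586) (nat_lit 3) (nat_lit 5) (nat_lit 5) (nat_lit 5) (nat_lit 4) (nat_lit 4) (nat_lit 421) (nat_lit 299) (nat_lit 168))))) (XT.nd (nat_lit 44274) (nat_lit 0) (nat_lit 11508) (XT.nd (nat_lit 94) (nat_lit 0) (nat_lit 0) (XT.lf (nat_lit 0) (nat_lit 2207502109) (nat_lit 168) (nat_lit 45555473152) (nat_lit 84) (nat_lit 37666652299) (nat_lit 3) (nat_lit 5) (nat_lit 5) (nat_lit 5) (nat_lit 4) (nat_lit 4) (nat_lit 422) (nat_lit 299) (nat_lit 167)) (XT.nd (nat_lit 94) (nat_lit 0) (nat_lit 0) (XT.lf (nat_lit 0) (nat_lit 4012972774) (nat_lit 168) (nat_lit 41915792812) (nat_lit 84) (nat_lit 42034280699) (nat_lit 3) (nat_lit 5) (nat_lit 5) (nat_lit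 5) (nat_lit 4) (nat_lit 4) (nat_lit 423) (nat_lit 299) (nat_lit 166)) (XT.lf (nat_lit 0) (nat_lit 5871071609) (nat_lit 168) (nat_lit 38168405895) (nat_lit 84) (nat_lit 46535640873) (nat_lit 3) (nat_lit 5) (nat_lit 5) (nat_lit 5) (nat_lit 4) (nat_lit 4) (nat_lit 424) (nat_lit 299) (nat_lit 165)))) (XT.nd (nat_lit 188) (nat_lit 420) (nat_lit 0) (XT.nd (nat_lit 94) (nat_lit 0) (nat_lit 0) (XT.lf (nat_lit 0) (nat_lit 960440271) (nat_lit 0) (nat_lit 960440271) (nat_lit 252) (nat_lit 1341100923) (nat_lit 145) (nat_lit 5) (nat_lit 145) (nat_lit 3) (nat_lit 148) (nat_lit 3) (nat_lit 300) (nat_lit 300) (nat_lit 288)) (XT.lf (nat_lit 0) (nat_lit 4251197119) (nat_lit 0) (nat_lit 1515201684) (nat_lit 252) (nat_lit 779753617) (nat_lit 145) (nat_lit 5) (nat_lit 145) (nat_lit 3) (nat_lit 148) (nat_lit 3) (nat_lit 301) (nat_lit 300) (nat_lit 287))) (XT.nd (nat_lit 94) (nat_lit 0) (nat_lit 0) (XT.lf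 (nat_lit 84) (nat_lit 33699451) (nat_lit 0) (nat_lit 1047740178) (nat_lit 420) (nat_lit 5490421095) (nat_lit 141) (nat_lit 5) (nat_lit 140) (nat_lit 3) (nat_lit 145) (nat_lit 5) (nat_lit 302) (nat_lit 300) (nat_lit 286)) (XT.lf (nat_lit 84) (nat_lit 2435479168) (nat_lit 0) (nat_lit 497685442) (nat_lit 420) (nat_lit 3667334564) (nat_lit 141) (nat_lit 5) (nat_lit 140) (nat_lit 3) (nat_lit 145) (nat_lit 5) (nat_lit 303) (nat_lit 300) (nat_lit 285))))))))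
noncomputable def xc95 : XT := (XT.nd (nat_lit 2444) (nat_lit 3528) (nat_lit 0) (XT.nd (nat_lit 1222) (nat_lit 4116) (nat_lit 0) (XT.nd (nat_lit 564) (nat_lit 1092) (nat_lit 0) (XT.nd (nat_lit 282) (nat_lit 504) (nat_lit 0) (XT.nd (nat_lit 94) (nat_lit 420) (nat_lit 0) (XT.lf (nat_lit 0) (nat_lit 4770729563) (nat_lit 336) (nat_lit 1760752209) (nat_lit 420) (nat_lit 101538459) (nat_lit 141) (nat_lit 5) (nat_lit 145) (nat_lit 5) (nat_lit 146) (nat_lit 5) (nat_lit 304) (nat_lit 300) (nat_lit 284)) (XT.nd (nat_lit 94) (nat_lit 420) (nat_lit 0) (XT.lf (nat_lit 84) (nat_lit 686288132) (nat_lit 0) (nat_lit 5920789411) (nat_lit 420) (nat_lit 62028523) (nat_lit 142) (nat_lit 5) (nat_lit 141) (nat_lit 5) (nat_lit 146) (nat_lit 5) (nat_lit 305) (nat_lit 300) (nat_lit 283)) (XT.lf (nat_lit 0) (nat_lit 1706677290) (nat_lit 420) (nat_lit 3519442279) (nat_lit 504) (nat_lit 1481935458) (nat_lit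 136) (nat_lit 5) (nat_lit 141) (nat_lit 5) (nat_lit 142) (nat_lit 5) (nat_lit 306) (nat_lit 300) (nat_lit 282)))) (XT.nd (nat_lit 94) (nat_lit 504) (nat_lit 0) (XT.lf (nat_lit 0) (nat_lit 3461237672) (nat_lit 420) (nat_lit 1021296726) (nat_lit 504) (nat_lit 2268442732) (nat_lit 136) (nat_lit 5) (nat_lit 141) (nat_lit 5) (nat_lit 142) (nat_lit 5) (nat_lit 307) (nat_lit 300) (nat_lit 281)) (XT.nd (nat_lit 94) (nat_lit 504) (nat_lit 0) (XT.lf (nat_lit 84) (nat_lit 1545705100) (nat_lit 0) (nat_lit 3674166277) (nat_lit 504) (nat_lit 1577584740) (nat_lit 137) (nat_lit 5) (nat_lit 136) (nat_lit 5) (nat_lit 142) (nat_lit 5) (nat_lit 308) (nat_lit 300) (nat_lit 280)) (XT.lf (nat_lit 0) (nat_lit 129278991) (nat_lit 504) (nat_lit 2674378416) (nat_lit 588) (nat_lit 4043980005) (nat_lit 130) (nat_lit 5) (nat_lit 136) (nat_lit 5) (nat_lit 137) (nat_lit 5) (nat_lit 309) (nat_lit 300) (nat_lit 279)))))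 (XT.nd (nat_lit 282) (nat_lit 1092) (nat_lit 0) (XT.nd (nat_lit 94) (nat_lit 0) (nat_lit 0) (XT.lf (nat_lit 0) (nat_lit 1792894089) (nat_lit 504) (nat_lit 73297881) (nat_lit 588) (nat_lit 5035255417) (nat_lit 130) (nat_lit 5) (nat_lit 136) (nat_lit 5) (nat_lit 137) (nat_lit 5) (nat_lit 310) (nat_lit 300) (nat_lit 278)) (XT.nd (nat_lit 94) (nat_lit 0) (nat_lit 84) (XT.lf (nat_lit 84) (nat_lit 2622400427) (nat_lit 0) (nat_lit 850210143) (nat_lit 588) (nat_lit 3486004321) (nat_lit 131) (nat_lit 5) (nat_lit 130) (nat_lit 5) (nat_lit 137) (nat_lit 5) (nat_lit 311) (nat_lit 300) (nat_lit 277)) (XT.lf (nat_lit 0) (nat_lit 5147323964) (nat_lit 504) (nat_lit 1657380793) (nat_lit 84) (nat_lit 215191228) (nat_lit 131) (nat_lit 5) (nat_lit 137) (nat_lit 5) (nat_lit 132) (nat_lit 5) (nat_lit 312) (nat_lit 300) (nat_lit 276)))) (XT.nd (nat_lit 188) (nat_lit 588) (nat_lit 0) (XT.nd (nat_lit 94)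 (nat_lit 84) (nat_lit 0) (XT.lf (nat_lit 0) (nat_lit 1077644690) (nat_lit 504) (nat_lit 5757688866) (nat_lit 588) (nat_lit 249495347) (nat_lit 125) (nat_lit 5) (nat_lit 131) (nat_lit 5) (nat_lit 132) (nat_lit 5) (nat_lit 313) (nat_lit 300) (nat_lit 275)) (XT.lf (nat_lit 0) (nat_lit 1354924840) (nat_lit 588) (nat_lit 3274123632) (nat_lit 84) (nat_lit 2524059202) (nat_lit 124) (nat_lit 5) (nat_lit 131) (nat_lit 5) (nat_lit 125) (nat_lit 5) (nat_lit 314) (nat_lit 300) (nat_lit 274))) (XT.nd (nat_lit 94) (nat_lit 588) (nat_lit 0) (XT.lf (nat_lit 0) (nat_lit 2947876065) (nat_lit 588) (nat_lit 498826469) (nat_lit 84) (nat_lit 3778964503) (nat_lit 124) (nat_lit 5) (nat_lit 131) (nat_lit 5) (nat_lit 125) (nat_lit 5) (nat_lit 315) (nat_lit 300) (nat_lit 273)) (XT.lf (nat_lit 0) (nat_lit 2371550628) (nat_lit 588) (nat_lit 2187845345) (nat_lit 672) (nat_lit 2742526069) (nat_lit 117) (nat_lit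 5) (nat_lit 124) (nat_lit 5) (nat_lit 125) (nat_lit 5) (nat_lit 316) (nat_lit 300) (nat_lit 272)))))) (XT.nd (nat_lit 564) (nat_lit 2604) (nat_lit 0) (XT.nd (nat_lit 282) (nat_lit 756) (nat_lit 0) (XT.nd (nat_lit 94) (nat_lit 756) (nat_lit 0) (XT.lf (nat_lit 0) (nat_lit 5303140701) (nat_lit 588) (nat_lit 869853627) (nat_lit 672) (nat_lit 1209507200) (nat_lit 117) (nat_lit 5) (nat_lit 124) (nat_lit 5) (nat_lit 125) (nat_lit 5) (nat_lit 317) (nat_lit 300) (nat_lit 271)) (XT.nd (nat_lit 94) (nat_lit 0) (nat_lit 0) (XT.lf (nat_lit 0) (nat_lit 324478582) (nat_lit 756) (nat_lit 6637947605) (nat_lit 84) (nat_lit 504698330) (nat_lit 108) (nat_lit 5) (nat_lit 117) (nat_lit 5) (nat_lit 109) (nat_lit 5) (nat_lit 318) (nat_lit 300) (nat_lit 270)) (XT.lf (nat_lit 0) (nat_lit 1860573709) (nat_lit 756) (nat_lit 3743704401) (nat_lit 84) (nat_lit 1950773792) (nat_lit 108) (nat_lit 5) (nat_lit 117)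 (nat_lit 5) (nat_lit 109) (nat_lit 5) (nat_lit 319) (nat_lit 300) (nat_lit 269)))) (XT.nd (nat_lit 94) (nat_lit 756) (nat_lit 0) (XT.lf (nat_lit 0) (nat_lit 3394682832) (nat_lit 756) (nat_lit 799000707) (nat_lit 84) (nat_lit 3453980832) (nat_lit 108) (nat_lit 5) (nat_lit 117) (nat_lit 5) (nat_lit 109) (nat_lit 5) (nat_lit 320) (nat_lit 300) (nat_lit 268)) (XT.nd (nat_lit 94) (nat_lit 0) (nat_lit 0) (XT.lf (nat_lit 0) (nat_lit 2244122312) (nat_lit 756) (nat_lit 2706375560) (nat_lit 840) (nat_lit 2793860255) (nat_lit 99) (nat_lit 5) (nat_lit 108) (nat_lit 5) (nat_lit 109) (nat_lit 5) (nat_lit 321) (nat_lit 300) (nat_lit 267)) (XT.lf (nat_lit 0) (nat_lit 5360825520) (nat_lit 756) (nat_lit 1155016881) (nat_lit 840) (nat_lit 1329803322) (nat_lit 99) (nat_lit 5) (nat_lit 108) (nat_lit 5) (nat_lit 109) (nat_lit 5) (nat_lit 322) (nat_lit 300) (nat_lit 266))))) (XT.nd (nat_lit 282) (nat_lit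 1680) (nat_lit 0) (XT.nd (nat_lit 94) (nat_lit 0) (nat_lit 0) (XT.lf (nat_lit 0) (nat_lit 140039390) (nat_lit 924) (nat_lit 7359803467) (nat_lit 84) (nat_lit 451663652) (nat_lit 88) (nat_lit 5) (nat_lit 99) (nat_lit 5) (nat_lit 89) (nat_lit 5) (nat_lit 323) (nat_lit 300) (nat_lit 265)) (XT.nd (nat_lit 94) (nat_lit 0) (nat_lit 0) (XT.lf (nat_lit 0) (nat_lit 1620472938) (nat_lit 924) (nat_lit 4308604764) (nat_lit 84) (nat_lit 2131739440) (nat_lit 88) (nat_lit 5) (nat_lit 99) (nat_lit 5) (nat_lit 89) (nat_lit 5) (nat_lit 324) (nat_lit 300) (nat_lit 264)) (XT.lf (nat_lit 0) (nat_lit 3102798036) (nat_lit 924) (nat_lit 1200991618) (nat_lit 84) (nat_lit 3871441825) (nat_lit 88) (nat_lit 5) (nat_lit 99) (nat_lit 5) (nat_lit 89) (nat_lit 5) (nat_lit 325) (nat_lit 300) (nat_lit 263)))) (XT.nd (nat_lit 188) (nat_lit 756) (nat_lit 0) (XT.nd (nat_lit 94) (nat_lit 0) (nat_lit 0) (XT.lf (nat_lit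 0) (nat_lit 2006356196) (nat_lit 924) (nat_lit 2601943472) (nat_lit 1008) (nat_lit 3685939499) (nat_lit 77) (nat_lit 5) (nat_lit 88) (nat_lit 5) (nat_lit 89) (nat_lit 5) (nat_lit 326) (nat_lit 300) (nat_lit 262)) (XT.lf (nat_lit 0) (nat_lit 5301942086) (nat_lit 924) (nat_lit 829306499) (nat_lit 1008) (nat_lit 2286923655) (nat_lit 77) (nat_lit 5) (nat_lit 88) (nat_lit 5) (nat_lit 89) (nat_lit 5) (nat_lit 327) (nat_lit 300) (nat_lit 261))) (XT.nd (nat_lit 94) (nat_lit 84) (nat_lit 0) (XT.lf (nat_lit 0) (nat_lit 108860946) (nat_lit 672) (nat_lit 7563076583) (nat_lit 756) (nat_lit 875243620) (nat_lit 69) (nat_lit 5) (nat_lit 77) (nat_lit 5) (nat_lit 78) (nat_lit 5) (nat_lit 328) (nat_lit 300) (nat_lit 260)) (XT.lf (nat_lit 0) (nat_lit 569537879) (nat_lit 756) (nat_lit 5231685914) (nat_lit 84) (nat_lit 2879056540) (nat_lit 68) (nat_lit 5) (nat_lit 77) (nat_lit 5) (nat_lit 69) (nat_lit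 5) (nat_lit 329) (nat_lit 300) (nat_lit 259))))))) (XT.nd (nat_lit 1222) (nat_lit 1344) (nat_lit 0) (XT.nd (nat_lit 564) (nat_lit 1260) (nat_lit 0) (XT.nd (nat_lit 282) (nat_lit 420) (nat_lit 0) (XT.nd (nat_lit 94) (nat_lit 504) (nat_lit 0) (XT.lf (nat_lit 0) (nat_lit 2001826357) (nat_lit 756) (nat_lit 1971384320) (nat_lit 84) (nat_lit 4845521789) (nat_lit 68) (nat_lit 5) (nat_lit 77) (nat_lit 5) (nat_lit 69) (nat_lit 5) (nat_lit 330) (nat_lit 300) (nat_lit 258)) (XT.nd (nat_lit 94) (nat_lit 0) (nat_lit 0) (XT.lf (nat_lit 0) (nat_lit 1382153356) (nat_lit 504) (nat_lit 2072148840) (nat_lit 588) (nat_lit 5508208517) (nat_lit 62) (nat_lit 5) (nat_lit 68) (nat_lit 5) (nat_lit 69) (nat_lit 5) (nat_lit 331) (nat_lit 300) (nat_lit 257)) (XT.lf (nat_lit 0) (nat_lit 4846123669) (nat_lit 504) (nat_lit 89123558) (nat_lit 588) (nat_lit 4176287097) (nat_lit 62) (nat_lit 5) (nat_lit 68) (nat_lit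 5) (nat_lit 69) (nat_lit 5) (nat_lit 332) (nat_lit 300) (nat_lit 256)))) (XT.nd (nat_lit 94) (nat_lit 420) (nat_lit 0) (XT.lf (nat_lit 0) (nat_lit 6445498385) (nat_lit 588) (nat_lit 902756256) (nat_lit 84) (nat_lit 1917704411) (nat_lit 62) (nat_lit 5) (nat_lit 69) (nat_lit 5) (nat_lit 63) (nat_lit 5) (nat_lit 333) (nat_lit 300) (nat_lit 255)) (XT.nd (nat_lit 94) (nat_lit 0) (nat_lit 0) (XT.lf (nat_lit 0) (nat_lit 2580637071) (nat_lit 420) (nat_lit 5413523749) (nat_lit 504) (nat_lit 1431529396) (nat_lit 57) (nat_lit 5) (nat_lit 62) (nat_lit 5) (nat_lit 63) (nat_lit 5) (nat_lit 334) (nat_lit 300) (nat_lit 254)) (XT.lf (nat_lit 0) (nat_lit 6156917781) (nat_lit 420) (nat_lit 3409128959) (nat_lit 504) (nat_lit 25345532) (nat_lit 57) (nat_lit 5) (nat_lit 62) (nat_lit 5) (nat_lit 63) (nat_lit 5) (nat_lit 335) (nat_lit 300) (nat_lit 253))))) (XT.nd (nat_lit 282) (nat_lit 756) (nat_lit 0)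 (XT.nd (nat_lit 94) (nat_lit 0) (nat_lit 0) (XT.lf (nat_lit 0) (nat_lit 34255225) (nat_lit 420) (nat_lit 1328058325) (nat_lit 504) (nat_lit 8400751465) (nat_lit 51) (nat_lit 5) (nat_lit 56) (nat_lit 5) (nat_lit 57) (nat_lit 5) (nat_lit 336) (nat_lit 300) (nat_lit 252)) (XT.nd (nat_lit 94) (nat_lit 0) (nat_lit 0) (XT.lf (nat_lit 0) (nat_lit 2803704571) (nat_lit 504) (nat_lit 6299397679) (nat_lit 84) (nat_lit 836829790) (nat_lit 51) (nat_lit 5) (nat_lit 57) (nat_lit 5) (nat_lit 52) (nat_lit 5) (nat_lit 337) (nat_lit 300) (nat_lit 251)) (XT.lf (nat_lit 0) (nat_lit 4271271921) (nat_lit 504) (nat_lit 2811241350) (nat_lit 84) (nat_lit 3040564429) (nat_lit 51) (nat_lit 5) (nat_lit 57) (nat_lit 5) (nat_lit 52) (nat_lit 5) (nat_lit 338) (nat_lit 300) (nat_lit 250)))) (XT.nd (nat_lit 188) (nat_lit 420) (nat_lit 0) (XT.nd (nat_lit 94) (nat_lit 0) (nat_lit 0) (XT.lf (nat_lit 0) (nat_lit 767549435)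 (nat_lit 336) (nat_lit 4993273776) (nat_lit 420) (nat_lit 4552021869) (nat_lit 47) (nat_lit 5) (nat_lit 51) (nat_lit 5) (nat_lit 52) (nat_lit 5) (nat_lit 339) (nat_lit 300) (nat_lit 249)) (XT.lf (nat_lit 0) (nat_lit 4484250494) (nat_lit 336) (nat_lit 2811131032) (nat_lit 420) (nat_lit 3213358860) (nat_lit 47) (nat_lit 5) (nat_lit 51) (nat_lit 5) (nat_lit 52) (nat_lit 5) (nat_lit 340) (nat_lit 300) (nat_lit 248))) (XT.nd (nat_lit 94) (nat_lit 420) (nat_lit 0) (XT.lf (nat_lit 0) (nat_lit 8284521293) (nat_lit 336) (nat_lit 563394647) (nat_lit 420) (nat_lit 1863912573) (nat_lit 47) (nat_lit 5) (nat_lit 51) (nat_lit 5) (nat_lit 52) (nat_lit 5) (nat_lit 341) (nat_lit 300) (nat_lit 247)) (XT.lf (nat_lit 0) (nat_lit 1257562032) (nat_lit 420) (nat_lit 9192167077) (nat_lit 504) (nat_lit 471644131) (nat_lit 42) (nat_lit 5) (nat_lit 47) (nat_lit 5) (nat_lit 48) (nat_lit 5) (nat_lit 342) (nat_lit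 300) (nat_lit 246)))))) (XT.nd (nat_lit 564) (nat_lit 588) (nat_lit 0) (XT.nd (nat_lit 282) (nat_lit 336) (nat_lit 0) (XT.nd (nat_lit 94) (nat_lit 336) (nat_lit 0) (XT.lf (nat_lit 0) (nat_lit 947075744) (nat_lit 504) (nat_lit 6076306177) (nat_lit 84) (nat_lit 4113836443) (nat_lit 41) (nat_lit 5) (nat_lit 47) (nat_lit 5) (nat_lit 42) (nat_lit 5) (nat_lit 343) (nat_lit 300) (nat_lit 245)) (XT.nd (nat_lit 94) (nat_lit 336) (nat_lit 0) (XT.lf (nat_lit 0) (nat_lit 2372191955) (nat_lit 504) (nat_lit 2413659068) (nat_lit 84) (nat_lit 6574794841) (nat_lit 41) (nat_lit 5) (nat_lit 47) (nat_lit 5) (nat_lit 42) (nat_lit 5) (nat_lit 344) (nat_lit 300) (nat_lit 244)) (XT.lf (nat_lit 0) (nat_lit 1359616090) (nat_lit 336) (nat_lit 2468406906) (nat_lit 420) (nat_lit 7763567930) (nat_lit 37) (nat_lit 5) (nat_lit 41) (nat_lit 5) (nat_lit 42) (nat_lit 5) (nat_lit 345) (nat_lit 300) (nat_lit 243))))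 (XT.nd (nat_lit 94) (nat_lit 336) (nat_lit 0) (XT.lf (nat_lit 0) (nat_lit 5271030673) (nat_lit 336) (nat_lit 56709208) (nat_lit 420) (nat_lit 6502162699) (nat_lit 37) (nat_lit 5) (nat_lit 41) (nat_lit 5) (nat_lit 42) (nat_lit 5) (nat_lit 346) (nat_lit 300) (nat_lit 242)) (XT.nd (nat_lit 94) (nat_lit 336) (nat_lit 0) (XT.lf (nat_lit 0) (nat_lit 6872373531) (nat_lit 420) (nat_lit 2826028891) (nat_lit 84) (nat_lit 2377411910) (nat_lit 37) (nat_lit 5) (nat_lit 42) (nat_lit 5) (nat_lit 38) (nat_lit 5) (nat_lit 347) (nat_lit 300) (nat_lit 241)) (XT.lf (nat_lit 0) (nat_lit 1013246972) (nat_lit 336) (nat_lit 7437369581) (nat_lit 420) (nat_lit 3879334008) (nat_lit 33) (nat_lit 5) (nat_lit 37) (nat_lit 5) (nat_lit 38) (nat_lit 5) (nat_lit 348) (nat_lit 300) (nat_lit 240))))) (XT.nd (nat_lit 282) (nat_lit 252) (nat_lit 0) (XT.nd (nat_lit 94) (nat_lit 336) (nat_lit 0) (XT.lf (nat_lit 0) (nat_lit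 5002625574) (nat_lit 336) (nat_lit 5080214586) (nat_lit 420) (nat_lit 2509122084) (nat_lit 33) (nat_lit 5) (nat_lit 37) (nat_lit 5) (nat_lit 38) (nat_lit 5) (nat_lit 349) (nat_lit 300) (nat_lit 239)) (XT.nd (nat_lit 94) (nat_lit 336) (nat_lit 0) (XT.lf (nat_lit 0) (nat_lit 9087716485) (nat_lit 336) (nat_lit 2654238269) (nat_lit 420) (nat_lit 1121025791) (nat_lit 33) (nat_lit 5) (nat_lit 37) (nat_lit 5) (nat_lit 38) (nat_lit 5) (nat_lit 350) (nat_lit 300) (nat_lit 238)) (XT.lf (nat_lit 0) (nat_lit 128825273) (nat_lit 252) (nat_lit 152934134) (nat_lit 336) (nat_lit 12861371028) (nat_lit 29) (nat_lit 5) (nat_lit 32) (nat_lit 5) (nat_lit 33) (nat_lit 5) (nat_lit 351) (nat_lit 300) (nat_lit 237)))) (XT.nd (nat_lit 188) (nat_lit 252) (nat_lit 0) (XT.nd (nat_lit 94) (nat_lit 0) (nat_lit 0) (XT.lf (nat_lit 0) (nat_lit 1745632361) (nat_lit 336) (nat_lit 9260962845) (nat_lit 84) (nat_lit 2423883059)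 (nat_lit 29) (nat_lit 5) (nat_lit 33) (nat_lit 5) (nat_lit 30) (nat_lit 5) (nat_lit 352) (nat_lit 300) (nat_lit 236)) (XT.lf (nat_lit 0) (nat_lit 3234154071) (nat_lit 336) (nat_lit 5420241963) (nat_lit 84) (nat_lit 5073112660) (nat_lit 29) (nat_lit 5) (nat_lit 33) (nat_lit 5) (nat_lit 30) (nat_lit 5) (nat_lit 353) (nat_lit 300) (nat_lit 235))) (XT.nd (nat_lit 94) (nat_lit 252) (nat_lit 0) (XT.lf (nat_lit 0) (nat_lit 4747194869) (nat_lit 336) (nat_lit 1487045437) (nat_lit 84) (nat_lit 7800305308) (nat_lit 29) (nat_lit 5) (nat_lit 33) (nat_lit 5) (nat_lit 30) (nat_lit 5) (nat_lit 354) (nat_lit 300) (nat_lit 234)) (XT.lf (nat_lit 0) (nat_lit 2594567637) (nat_lit 252) (nat_lit 3717335863) (nat_lit 336) (nat_lit 8039173827) (nat_lit 26) (nat_lit 5) (nat_lit 29) (nat_lit 5) (nat_lit 30) (nat_lit 5) (nat_lit 355) (nat_lit 300) (nat_lit 233))))))))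
noncomputable def xc96 : XT := (XT.nd (nat_lit 2350) (nat_lit 588) (nat_lit 0) (XT.nd (nat_lit 1128) (nat_lit 420) (nat_lit 0) (XT.nd (nat_lit 564) (nat_lit 420) (nat_lit 0) (XT.nd (nat_lit 282) (nat_lit 84) (nat_lit 0) (XT.nd (nat_lit 94) (nat_lit 252) (nat_lit 0) (XT.lf (nat_lit 0) (nat_lit 6808709076) (nat_lit 252) (nat_lit 1111333311) (nat_lit 336) (nat_lit 6757657064) (nat_lit 26) (nat_lit 5) (nat_lit 29) (nat_lit 5) (nat_lit 30) (nat_lit 5) (nat_lit 356) (nat_lit 300) (nat_lit 232)) (XT.nd (nat_lit 94) (nat_lit 252) (nat_lit 0) (XT.lf (nat_lit 0) (nat_lit 9573636771) (nat_lit 336) (nat_lit 3902034229) (nat_lit 84) (nat_lit 1539029115) (nat_lit 26) (nat_lit 5) (nat_lit 30) (nat_lit 5) (nat_lit 27) (nat_lit 5) (nat_lit 357) (nat_lit 300) (nat_lit 231)) (XT.lf (nat_lit 0) (nat_lit 154971152) (nat_lit 252) (nat_lit 11117001691) (nat_lit 336) (nat_lit 4090490507) (nat_lit 23) (nat_lit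 5) (nat_lit 26) (nat_lit 5) (nat_lit 27) (nat_lit 5) (nat_lit 358) (nat_lit 300) (nat_lit 230)))) (XT.nd (nat_lit 94) (nat_lit 84) (nat_lit 0) (XT.lf (nat_lit 0) (nat_lit 4396032263) (nat_lit 252) (nat_lit 8648572558) (nat_lit 336) (nat_lit 2675841380) (nat_lit 23) (nat_lit 5) (nat_lit 26) (nat_lit 5) (nat_lit 27) (nat_lit 5) (nat_lit 359) (nat_lit 300) (nat_lit 229)) (XT.nd (nat_lit 94) (nat_lit 84) (nat_lit 0) (XT.lf (nat_lit 0) (nat_lit 8744868388) (nat_lit 252) (nat_lit 6108812002) (nat_lit 336) (nat_lit 1236526596) (nat_lit 23) (nat_lit 5) (nat_lit 26) (nat_lit 5) (nat_lit 27) (nat_lit 5) (nat_lit 360) (nat_lit 300) (nat_lit 228)) (XT.lf (nat_lit 0) (nat_lit 224185717) (nat_lit 336) (nat_lit 3268826944) (nat_lit 84) (nat_lit 12979007342) (nat_lit 22) (nat_lit 5) (nat_lit 26) (nat_lit 5) (nat_lit 23) (nat_lit 5) (nat_lit 361) (nat_lit 300) (nat_lit 227))))) (XT.nd (nat_lit 282)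 (nat_lit 168) (nat_lit 0) (XT.nd (nat_lit 94) (nat_lit 0) (nat_lit 0) (XT.lf (nat_lit 0) (nat_lit 917132693) (nat_lit 252) (nat_lit 778771727) (nat_lit 336) (nat_lit 15169736426) (nat_lit 19) (nat_lit 5) (nat_lit 22) (nat_lit 5) (nat_lit 23) (nat_lit 5) (nat_lit 362) (nat_lit 300) (nat_lit 226)) (XT.nd (nat_lit 94) (nat_lit 0) (nat_lit 0) (XT.lf (nat_lit 0) (nat_lit 3250319168) (nat_lit 336) (nat_lit 12011742586) (nat_lit 84) (nat_lit 2008347377) (nat_lit 19) (nat_lit 5) (nat_lit 23) (nat_lit 5) (nat_lit 20) (nat_lit 5) (nat_lit 363) (nat_lit 300) (nat_lit 225)) (XT.lf (nat_lit 0) (nat_lit 4843979046) (nat_lit 336) (nat_lit 7983314613) (nat_lit 84) (nat_lit 4860800378) (nat_lit 19) (nat_lit 5) (nat_lit 23) (nat_lit 5) (nat_lit 20) (nat_lit 5) (nat_lit 364) (nat_lit 300) (nat_lit 224)))) (XT.nd (nat_lit 94) (nat_lit 168) (nat_lit 0) (XT.lf (nat_lit 0) (nat_lit 6470643999) (nat_lit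 336) (nat_lit 3851743806) (nat_lit 84) (nat_lit 7796936577) (nat_lit 19) (nat_lit 5) (nat_lit 23) (nat_lit 5) (nat_lit 20) (nat_lit 5) (nat_lit 365) (nat_lit 300) (nat_lit 223)) (XT.nd (nat_lit 94) (nat_lit 0) (nat_lit 0) (XT.lf (nat_lit 0) (nat_lit 394774723) (nat_lit 168) (nat_lit 7740971740) (nat_lit 252) (nat_lit 10428634250) (nat_lit 17) (nat_lit 5) (nat_lit 19) (nat_lit 5) (nat_lit 20) (nat_lit 5) (nat_lit 366) (nat_lit 300) (nat_lit 222)) (XT.lf (nat_lit 0) (nat_lit 4833718932) (nat_lit 168) (nat_lit 5043318355) (nat_lit 252) (nat_lit 9145518422) (nat_lit 17) (nat_lit 5) (nat_lit 19) (nat_lit 5) (nat_lit 20) (nat_lit 5) (nat_lit 367) (nat_lit 300) (nat_lit 221)))))) (XT.nd (nat_lit 564) (nat_lit 252) (nat_lit 0) (XT.nd (nat_lit 282) (nat_lit 168) (nat_lit 0) (XT.nd (nat_lit 94) (nat_lit 0) (nat_lit 0) (XT.lf (nat_lit 0) (nat_lit 9390026631) (nat_lit 168) (nat_lit 2267117459)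 (nat_lit 252) (nat_lit 7838341205) (nat_lit 17) (nat_lit 5) (nat_lit 19) (nat_lit 5) (nat_lit 20) (nat_lit 5) (nat_lit 368) (nat_lit 300) (nat_lit 220)) (XT.nd (nat_lit 94) (nat_lit 0) (nat_lit 0) (XT.lf (nat_lit 0) (nat_lit 13483581159) (nat_lit 252) (nat_lit 5921520560) (nat_lit 84) (nat_lit 578327066) (nat_lit 17) (nat_lit 5) (nat_lit 20) (nat_lit 5) (nat_lit 18) (nat_lit 5) (nat_lit 369) (nat_lit 300) (nat_lit 219)) (XT.lf (nat_lit 0) (nat_lit 15375511803) (nat_lit 252) (nat_lit 1650583471) (nat_lit 84) (nat_lit 3460204430) (nat_lit 17) (nat_lit 5) (nat_lit 20) (nat_lit 5) (nat_lit 18) (nat_lit 5) (nat_lit 370) (nat_lit 300) (nat_lit 218)))) (XT.nd (nat_lit 94) (nat_lit 0) (nat_lit 0) (XT.lf (nat_lit 0) (nat_lit 2790036667) (nat_lit 168) (nat_lit 14549850256) (nat_lit 252) (nat_lit 3664519051) (nat_lit 15) (nat_lit 5) (nat_lit 17) (nat_lit 5) (nat_lit 18) (nat_lit 5) (nat_lit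 371) (nat_lit 300) (nat_lit 217)) (XT.nd (nat_lit 94) (nat_lit 0) (nat_lit 0) (XT.lf (nat_lit 0) (nat_lit 7384570152) (nat_lit 168) (nat_lit 11984164895) (nat_lit 252) (nat_lit 2169799351) (nat_lit 15) (nat_lit 5) (nat_lit 17) (nat_lit 5) (nat_lit 18) (nat_lit 5) (nat_lit 372) (nat_lit 300) (nat_lit 216)) (XT.lf (nat_lit 0) (nat_lit 12103360188) (nat_lit 168) (nat_lit 9343876410) (nat_lit 252) (nat_lit 642464274) (nat_lit 15) (nat_lit 5) (nat_lit 17) (nat_lit 5) (nat_lit 18) (nat_lit 5) (nat_lit 373) (nat_lit 300) (nat_lit 215))))) (XT.nd (nat_lit 282) (nat_lit 0) (nat_lit 0) (XT.nd (nat_lit 94) (nat_lit 168) (nat_lit 0) (XT.lf (nat_lit 0) (nat_lit 900395832) (nat_lit 252) (nat_lit 5716729658) (nat_lit 84) (nat_lit 16041011064) (nat_lit 14) (nat_lit 5) (nat_lit 17) (nat_lit 5) (nat_lit 15) (nat_lit 5) (nat_lit 374) (nat_lit 300) (nat_lit 214)) (XT.nd (nat_lit 94) (nat_lit 168) (nat_lit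 0) (XT.lf (nat_lit 0) (nat_lit 2465090961) (nat_lit 252) (nat_lit 1338752681) (nat_lit 84) (nat_lit 19440602004) (nat_lit 14) (nat_lit 5) (nat_lit 17) (nat_lit 5) (nat_lit 15) (nat_lit 5) (nat_lit 375) (nat_lit 300) (nat_lit 213)) (XT.lf (nat_lit 0) (nat_lit 3222980172) (nat_lit 168) (nat_lit 875015986) (nat_lit 252) (nat_lit 19750384924) (nat_lit 12) (nat_lit 5) (nat_lit 14) (nat_lit 5) (nat_lit 15) (nat_lit 5) (nat_lit 376) (nat_lit 300) (nat_lit 212)))) (XT.nd (nat_lit 188) (nat_lit 0) (nat_lit 0) (XT.nd (nat_lit 94) (nat_lit 0) (nat_lit 0) (XT.lf (nat_lit 0) (nat_lit 5804801776) (nat_lit 252) (nat_lit 16554629126) (nat_lit 84) (nat_lit 2110945670) (nat_lit 12) (nat_lit 5) (nat_lit 15) (nat_lit 5) (nat_lit 13) (nat_lit 5) (nat_lit 377) (nat_lit 300) (nat_lit 211)) (XT.lf (nat_lit 0) (nat_lit 7561720738) (nat_lit 252) (nat_lit 12383211925) (nat_lit 84) (nat_lit 5166865939) (nat_lit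 12) (nat_lit 5) (nat_lit 15) (nat_lit 5) (nat_lit 13) (nat_lit 5) (nat_lit 378) (nat_lit 300) (nat_lit 210))) (XT.nd (nat_lit 94) (nat_lit 0) (nat_lit 0) (XT.lf (nat_lit 0) (nat_lit 9361710410) (nat_lit 252) (nat_lit 8098580842) (nat_lit 84) (nat_lit 8313222879) (nat_lit 12) (nat_lit 5) (nat_lit 15) (nat_lit 5) (nat_lit 13) (nat_lit 5) (nat_lit 379) (nat_lit 300) (nat_lit 209)) (XT.lf (nat_lit 0) (nat_lit 11206448570) (nat_lit 252) (nat_lit 3696742153) (nat_lit 84) (nat_lit 11552949225) (nat_lit 12) (nat_lit 5) (nat_lit 15) (nat_lit 5) (nat_lit 13) (nat_lit 5) (nat_lit 380) (nat_lit 300) (nat_lit 208))))))) (XT.nd (nat_lit 1222) (nat_lit 252) (nat_lit 0) (XT.nd (nat_lit 564) (nat_lit 168) (nat_lit 0) (XT.nd (nat_lit 282) (nat_lit 0) (nat_lit 0) (XT.nd (nat_lit 94) (nat_lit 0) (nat_lit 0) (XT.lf (nat_lit 0) (nat_lit 843399742) (nat_lit 168) (nat_lit 12262621594) (nat_lit 252) (nat_lit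 14054031629) (nat_lit 10) (nat_lit 5) (nat_lit 12) (nat_lit 5) (nat_lit 13) (nat_lit 5) (nat_lit 381) (nat_lit 300) (nat_lit 207)) (XT.nd (nat_lit 94) (nat_lit 0) (nat_lit 0) (XT.lf (nat_lit 0) (nat_lit 5587661954) (nat_lit 168) (nat_lit 9504859969) (nat_lit 252) (nat_lit 12792447381) (nat_lit 10) (nat_lit 5) (nat_lit 12) (nat_lit 5) (nat_lit 13) (nat_lit 5) (nat_lit 382) (nat_lit 300) (nat_lit 206)) (XT.lf (nat_lit 0) (nat_lit 10464454030) (nat_lit 168) (nat_lit 6665921729) (nat_lit 252) (nat_lit 11502349113) (nat_lit 10) (nat_lit 5) (nat_lit 12) (nat_lit 5) (nat_lit 13) (nat_lit 5) (nat_lit 383) (nat_lit 300) (nat_lit 205)))) (XT.nd (nat_lit 94) (nat_lit 0) (nat_lit 0) (XT.lf (nat_lit 0) (nat_lit 15478321651) (nat_lit 168) (nat_lit 3743160688) (nat_lit 252) (nat_lit 10182534318) (nat_lit 10) (nat_lit 5) (nat_lit 12) (nat_lit 5) (nat_lit 13) (nat_lit 5) (nat_lit 384) (nat_lit 300)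 (nat_lit 204)) (XT.nd (nat_lit 94) (nat_lit 0) (nat_lit 0) (XT.lf (nat_lit 0) (nat_lit 20633938269) (nat_lit 168) (nat_lit 733852527) (nat_lit 252) (nat_lit 8831772791) (nat_lit 10) (nat_lit 5) (nat_lit 12) (nat_lit 5) (nat_lit 13) (nat_lit 5) (nat_lit 385) (nat_lit 300) (nat_lit 203)) (XT.lf (nat_lit 0) (nat_lit 23594760895) (nat_lit 252) (nat_lit 5107456919) (nat_lit 84) (nat_lit 2317162140) (nat_lit 10) (nat_lit 5) (nat_lit 13) (nat_lit 5) (nat_lit 11) (nat_lit 4) (nat_lit 386) (nat_lit 300) (nat_lit 202))))) (XT.nd (nat_lit 282) (nat_lit 84) (nat_lit 0) (XT.nd (nat_lit 94) (nat_lit 84) (nat_lit 0) (XT.lf (nat_lit 0) (nat_lit 25889182301) (nat_lit 252) (nat_lit 531748222) (nat_lit 84) (nat_lit 5443773263) (nat_lit 10) (nat_lit 5) (nat_lit 13) (nat_lit 5) (nat_lit 11) (nat_lit 4) (nat_lit 387) (nat_lit 300) (nat_lit 201)) (XT.nd (nat_lit 94) (nat_lit 0) (nat_lit 0) (XT.lf (nat_lit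 0) (nat_lit 4258852098) (nat_lit 84) (nat_lit 24029309987) (nat_lit 168) (nat_lit 4447076907) (nat_lit 9) (nat_lit 5) (nat_lit 10) (nat_lit 5) (nat_lit 11) (nat_lit 4) (nat_lit 388) (nat_lit 300) (nat_lit 200)) (XT.lf (nat_lit 0) (nat_lit 9196601288) (nat_lit 84) (nat_lit 21561782084) (nat_lit 168) (nat_lit 2874515771) (nat_lit 9) (nat_lit 5) (nat_lit 10) (nat_lit 5) (nat_lit 11) (nat_lit 4) (nat_lit 389) (nat_lit 300) (nat_lit 199)))) (XT.nd (nat_lit 188) (nat_lit 0) (nat_lit 0) (XT.nd (nat_lit 94) (nat_lit 84) (nat_lit 0) (XT.lf (nat_lit 0) (nat_lit 14275168014) (nat_lit 84) (nat_lit 19021597180) (nat_lit 168) (nat_lit 1261922646) (nat_lit 9) (nat_lit 5) (nat_lit 10) (nat_lit 5) (nat_lit 11) (nat_lit 4) (nat_lit 390) (nat_lit 300) (nat_lit 198)) (XT.lf (nat_lit 0) (nat_lit 384303503) (nat_lit 168) (nat_lit 16018072714) (nat_lit 84) (nat_lit 19110971187) (nat_lit 8) (nat_lit 5)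 (nat_lit 10) (nat_lit 5) (nat_lit 9) (nat_lit 5) (nat_lit 391) (nat_lit 300) (nat_lit 197))) (XT.nd (nat_lit 94) (nat_lit 0) (nat_lit 0) (XT.lf (nat_lit 0) (nat_lit 2047313734) (nat_lit 168) (nat_lit 11645032076) (nat_lit 84) (nat_lit 22805141273) (nat_lit 8) (nat_lit 5) (nat_lit 10) (nat_lit 5) (nat_lit 9) (nat_lit 5) (nat_lit 392) (nat_lit 300) (nat_lit 196)) (XT.lf (nat_lit 0) (nat_lit 3754083076) (nat_lit 168) (nat_lit 7147803351) (nat_lit 84) (nat_lit 26610525842) (nat_lit 8) (nat_lit 5) (nat_lit 10) (nat_lit 5) (nat_lit 9) (nat_lit 5) (nat_lit 393) (nat_lit 300) (nat_lit 195)))))) (XT.nd (nat_lit 564) (nat_lit 84) (nat_lit 0) (XT.nd (nat_lit 282) (nat_lit 0) (nat_lit 0) (XT.nd (nat_lit 94) (nat_lit 168) (nat_lit 0) (XT.lf (nat_lit 0) (nat_lit 5506202416) (nat_lit 168) (nat_lit 2522194651) (nat_lit 84) (nat_lit 30530671913) (nat_lit 8) (nat_lit 5) (nat_lit 10) (nat_lit 5) (nat_lit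 9) (nat_lit 5) (nat_lit 394) (nat_lit 300) (nat_lit 194)) (XT.nd (nat_lit 94) (nat_lit 0) (nat_lit 0) (XT.lf (nat_lit 0) (nat_lit 2282084490) (nat_lit 168) (nat_lit 5045858983) (nat_lit 252) (nat_lit 32309787540) (nat_lit 6) (nat_lit 5) (nat_lit 8) (nat_lit 5) (nat_lit 9) (nat_lit 5) (nat_lit 395) (nat_lit 300) (nat_lit 193)) (XT.lf (nat_lit 0) (nat_lit 7278171497) (nat_lit 168) (nat_lit 1947096385) (nat_lit 252) (nat_lit 31524003744) (nat_lit 6) (nat_lit 5) (nat_lit 8) (nat_lit 5) (nat_lit 9) (nat_lit 5) (nat_lit 396) (nat_lit 300) (nat_lit 192)))) (XT.nd (nat_lit 94) (nat_lit 0) (nat_lit 0) (XT.lf (nat_lit 0) (nat_lit 11186754313) (nat_lit 252) (nat_lit 29489001847) (nat_lit 84) (nat_lit 1219379612) (nat_lit 6) (nat_lit 5) (nat_lit 9) (nat_lit 5) (nat_lit 7) (nat_lit 4) (nat_lit 397) (nat_lit 300) (nat_lit 191)) (XT.nd (nat_lit 94) (nat_lit 0) (nat_lit 0) (XT.lf (nat_lit 0) (nat_lit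 13222139847) (nat_lit 252) (nat_lit 25413548714) (nat_lit 84) (nat_lit 4440457785) (nat_lit 6) (nat_lit 5) (nat_lit 9) (nat_lit 5) (nat_lit 7) (nat_lit 4) (nat_lit 398) (nat_lit 300) (nat_lit 190)) (XT.lf (nat_lit 0) (nat_lit 15314006240) (nat_lit 252) (nat_lit 21221626544) (nat_lit 84) (nat_lit 7758370169) (nat_lit 6) (nat_lit 5) (nat_lit 9) (nat_lit 5) (nat_lit 7) (nat_lit 4) (nat_lit 399) (nat_lit 300) (nat_lit 189))))) (XT.nd (nat_lit 282) (nat_lit 84) (nat_lit 0) (XT.nd (nat_lit 94) (nat_lit 0) (nat_lit 0) (XT.lf (nat_lit 0) (nat_lit 17464303331) (nat_lit 252) (nat_lit 16909328026) (nat_lit 84) (nat_lit 11176209405) (nat_lit 6) (nat_lit 5) (nat_lit 9) (nat_lit 5) (nat_lit 7) (nat_lit 4) (nat_lit 400) (nat_lit 300) (nat_lit 188)) (XT.nd (nat_lit 94) (nat_lit 0) (nat_lit 0) (XT.lf (nat_lit 0) (nat_lit 19675035421) (nat_lit 252) (nat_lit 12472633647) (nat_lit 84) (nat_lit 14697161279)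 (nat_lit 6) (nat_lit 5) (nat_lit 9) (nat_lit 5) (nat_lit 7) (nat_lit 4) (nat_lit 401) (nat_lit 300) (nat_lit 187)) (XT.lf (nat_lit 0) (nat_lit 21948263145) (nat_lit 252) (nat_lit 7907407943) (nat_lit 84) (nat_lit 18324507685) (nat_lit 6) (nat_lit 5) (nat_lit 9) (nat_lit 5) (nat_lit 7) (nat_lit 4) (nat_lit 402) (nat_lit 300) (nat_lit 186)))) (XT.nd (nat_lit 188) (nat_lit 0) (nat_lit 0) (XT.nd (nat_lit 94) (nat_lit 84) (nat_lit 0) (XT.lf (nat_lit 0) (nat_lit 24286105388) (nat_lit 252) (nat_lit 3209395644) (nat_lit 84) (nat_lit 22061629690) (nat_lit 6) (nat_lit 5) (nat_lit 9) (nat_lit 5) (nat_lit 7) (nat_lit 4) (nat_lit 403) (nat_lit 300) (nat_lit 185)) (XT.lf (nat_lit 0) (nat_lit 1659211705) (nat_lit 84) (nat_lit 25047989145) (nat_lit 168) (nat_lit 24269258564) (nat_lit 5) (nat_lit 5) (nat_lit 6) (nat_lit 5) (nat_lit 7) (nat_lit 4) (nat_lit 404) (nat_lit 300) (nat_lit 184))) (XT.nd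 (nat_lit 94) (nat_lit 0) (nat_lit 0) (XT.lf (nat_lit 0) (nat_lit 6738396416) (nat_lit 84) (nat_lit 22492861459) (nat_lit 168) (nat_lit 23207688936) (nat_lit 5) (nat_lit 5) (nat_lit 6) (nat_lit 5) (nat_lit 7) (nat_lit 4) (nat_lit 405) (nat_lit 300) (nat_lit 183)) (XT.lf (nat_lit 0) (nat_lit 11966901062) (nat_lit 84) (nat_lit 19861235836) (nat_lit 168) (nat_lit 22118826465) (nat_lit 5) (nat_lit 5) (nat_lit 6) (nat_lit 5) (nat_lit 7) (nat_lit 4) (nat_lit 406) (nat_lit 300) (nat_lit 182))))))))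
noncomputable def xc97 : XT := (XT.nd (nat_lit 46436) (nat_lit 0) (nat_lit 4956) (XT.nd (nat_lit 1128) (nat_lit 84) (nat_lit 0) (XT.nd (nat_lit 564) (nat_lit 84) (nat_lit 0) (XT.nd (nat_lit 282) (nat_lit 0) (nat_lit 0) (XT.nd (nat_lit 94) (nat_lit 0) (nat_lit 0) (XT.lf (nat_lit 0) (nat_lit 17349599158) (nat_lit 84) (nat_lit 17150659325) (nat_lit 168) (nat_lit 21001656216) (nat_lit 5) (nat_lit 5) (nat_lit 6) (nat_lit 5) (nat_lit 7) (nat_lit 4) (nat_lit 407) (nat_lit 300) (nat_lit 181)) (XT.nd (nat_lit 94) (nat_lit 0) (nat_lit 0) (XT.lf (nat_lit 0) (nat_lit 22891507943) (nat_lit 84) (nat_lit 14358605386) (nat_lit 168) (nat_lit 19855136870) (nat_lit 5) (nat_lit 5) (nat_lit 6) (nat_lit 5) (nat_lit 7) (nat_lit 4) (nat_lit 408) (nat_lit 300) (nat_lit 180)) (XT.lf (nat_lit 0) (nat_lit 28597793056) (nat_lit 84) (nat_lit 11482471530) (nat_lit 168) (nat_lit 18678199751) (nat_lit 5) (nat_lit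 5) (nat_lit 6) (nat_lit 5) (nat_lit 7) (nat_lit 4) (nat_lit 409) (nat_lit 300) (nat_lit 179)))) (XT.nd (nat_lit 94) (nat_lit 0) (nat_lit 0) (XT.lf (nat_lit 0) (nat_lit 34473773351) (nat_lit 84) (nat_lit 8519576901) (nat_lit 168) (nat_lit 17469747830) (nat_lit 5) (nat_lit 5) (nat_lit 6) (nat_lit 5) (nat_lit 7) (nat_lit 4) (nat_lit 410) (nat_lit 300) (nat_lit 178)) (XT.nd (nat_lit 94) (nat_lit 0) (nat_lit 0) (XT.lf (nat_lit 0) (nat_lit 40524925860) (nat_lit 84) (nat_lit 5467159769) (nat_lit 168) (nat_lit 16228654704) (nat_lit 5) (nat_lit 5) (nat_lit 6) (nat_lit 5) (nat_lit 7) (nat_lit 4) (nat_lit 411) (nat_lit 300) (nat_lit 177)) (XT.lf (nat_lit 0) (nat_lit 46756890889) (nat_lit 84) (nat_lit 2322374964) (nat_lit 168) (nat_lit 14953763543) (nat_lit 5) (nat_lit 5) (nat_lit 6) (nat_lit 5) (nat_lit 7) (nat_lit 4) (nat_lit 412) (nat_lit 300) (nat_lit 176))))) (XT.nd (nat_lit 282) (nat_lit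 84) (nat_lit 0) (XT.nd (nat_lit 94) (nat_lit 0) (nat_lit 0) (XT.lf (nat_lit 0) (nat_lit 52266872282) (nat_lit 168) (nat_lit 12735281015) (nat_lit 0) (nat_lit 899218997) (nat_lit 5) (nat_lit 5) (nat_lit 7) (nat_lit 4) (nat_lit 5) (nat_lit 4) (nat_lit 413) (nat_lit 300) (nat_lit 175)) (XT.nd (nat_lit 94) (nat_lit 0) (nat_lit 0) (XT.lf (nat_lit 0) (nat_lit 55572777415) (nat_lit 168) (nat_lit 8083910757) (nat_lit 0) (nat_lit 4170360411) (nat_lit 5) (nat_lit 5) (nat_lit 7) (nat_lit 4) (nat_lit 5) (nat_lit 4) (nat_lit 414) (nat_lit 300) (nat_lit 174)) (XT.lf (nat_lit 0) (nat_lit 58977024453) (nat_lit 168) (nat_lit 3294653922) (nat_lit 0) (nat_lit 7540889001) (nat_lit 5) (nat_lit 5) (nat_lit 7) (nat_lit 4) (nat_lit 5) (nat_lit 4) (nat_lit 415) (nat_lit 300) (nat_lit 173)))) (XT.nd (nat_lit 94) (nat_lit 0) (nat_lit 0) (XT.lf (nat_lit 0) (nat_lit 1670612702) (nat_lit 84) (nat_lit 60828746494)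 (nat_lit 84) (nat_lit 9359906438) (nat_lit 4) (nat_lit 4) (nat_lit 5) (nat_lit 5) (nat_lit 5) (nat_lit 4) (nat_lit 416) (nat_lit 300) (nat_lit 172)) (XT.nd (nat_lit 94) (nat_lit 0) (nat_lit 0) (XT.lf (nat_lit 0) (nat_lit 6853593151) (nat_lit 84) (nat_lit 59307726670) (nat_lit 84) (nat_lit 7807165368) (nat_lit 4) (nat_lit 4) (nat_lit 5) (nat_lit 5) (nat_lit 5) (nat_lit 4) (nat_lit 417) (nat_lit 300) (nat_lit 171)) (XT.lf (nat_lit 0) (nat_lit 12191373663) (nat_lit 84) (nat_lit 57741590582) (nat_lit 84) (nat_lit 6210261825) (nat_lit 4) (nat_lit 4) (nat_lit 5) (nat_lit 5) (nat_lit 5) (nat_lit 4) (nat_lit 418) (nat_lit 300) (nat_lit 170)))))) (XT.nd (nat_lit 44650) (nat_lit 0) (nat_lit 11088) (XT.nd (nat_lit 282) (nat_lit 84) (nat_lit 0) (XT.nd (nat_lit 94) (nat_lit 0) (nat_lit 0) (XT.lf (nat_lit 0) (nat_lit 17688929609) (nat_lit 84) (nat_lit 56128878429) (nat_lit 84) (nat_lit 4567707330)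 (nat_lit 4) (nat_lit 4) (nat_lit 5) (nat_lit 5) (nat_lit 5) (nat_lit 4) (nat_lit 419) (nat_lit 300) (nat_lit 169)) (XT.nd (nat_lit 94) (nat_lit 0) (nat_lit 0) (XT.lf (nat_lit 0) (nat_lit 23351385286) (nat_lit 84) (nat_lit 54468086992) (nat_lit 84) (nat_lit 2877970848) (nat_lit 4) (nat_lit 4) (nat_lit 5) (nat_lit 5) (nat_lit 5) (nat_lit 4) (nat_lit 420) (nat_lit 300) (nat_lit 168)) (XT.lf (nat_lit 0) (nat_lit 29184018697) (nat_lit 84) (nat_lit 52757668242) (nat_lit 84) (nat_lit 1139477368) (nat_lit 4) (nat_lit 4) (nat_lit 5) (nat_lit 5) (nat_lit 5) (nat_lit 4) (nat_lit 421) (nat_lit 300) (nat_lit 167)))) (XT.nd (nat_lit 94) (nat_lit 0) (nat_lit 0) (XT.lf (nat_lit 0) (nat_lit 636309733) (nat_lit 168) (nat_lit 50353076386) (nat_lit 84) (nat_lit 34549314964) (nat_lit 3) (nat_lit 5) (nat_lit 5) (nat_lit 5) (nat_lit 4) (nat_lit 4) (nat_lit 422) (nat_lit 300) (nat_lit 166)) (XT.nd (nat_lit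 94) (nat_lit 0) (nat_lit 0) (XT.lf (nat_lit 0) (nat_lit 2440135188) (nat_lit 168) (nat_lit 46715918701) (nat_lit 84) (nat_lit 38916123716) (nat_lit 3) (nat_lit 5) (nat_lit 5) (nat_lit 5) (nat_lit 4) (nat_lit 4) (nat_lit 423) (nat_lit 300) (nat_lit 165)) (XT.lf (nat_lit 0) (nat_lit 4296638280) (nat_lit 168) (nat_lit 42970978588) (nat_lit 84) (nat_lit 43416688886) (nat_lit 3) (nat_lit 5) (nat_lit 5) (nat_lit 5) (nat_lit 4) (nat_lit 4) (nat_lit 424) (nat_lit 300) (nat_lit 164))))) (XT.nd (nat_lit 282) (nat_lit 420) (nat_lit 0) (XT.nd (nat_lit 94) (nat_lit 0) (nat_lit 0) (XT.lf (nat_lit 0) (nat_lit 531141014) (nat_lit 420) (nat_lit 1376823129) (nat_lit 420) (nat_lit 1376823129) (nat_lit 140) (nat_lit 3) (nat_lit 145) (nat_lit 3) (nat_lit 145) (nat_lit 5) (nat_lit 301) (nat_lit 301) (nat_lit 286)) (XT.nd (nat_lit 94) (nat_lit 0) (nat_lit 0) (XT.lf (nat_lit 0) (nat_lit 2870774238) (nat_lit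 420) (nat_lit 452499167) (nat_lit 420) (nat_lit 3273310460) (nat_lit 140) (nat_lit 3) (nat_lit 145) (nat_lit 3) (nat_lit 145) (nat_lit 5) (nat_lit 302) (nat_lit 301) (nat_lit 285)) (XT.lf (nat_lit 84) (nat_lit 1921076100) (nat_lit 0) (nat_lit 2761100224) (nat_lit 420) (nat_lit 1944678250) (nat_lit 141) (nat_lit 5) (nat_lit 140) (nat_lit 3) (nat_lit 145) (nat_lit 5) (nat_lit 303) (nat_lit 301) (nat_lit 284)))) (XT.nd (nat_lit 188) (nat_lit 0) (nat_lit 0) (XT.nd (nat_lit 94) (nat_lit 420) (nat_lit 0) (XT.lf (nat_lit 84) (nat_lit 4340592956) (nat_lit 0) (nat_lit 2143453265) (nat_lit 420) (nat_lit 176806710) (nat_lit 141) (nat_lit 5) (nat_lit 140) (nat_lit 3) (nat_lit 145) (nat_lit 5) (nat_lit 304) (nat_lit 301) (nat_lit 283)) (XT.lf (nat_lit 84) (nat_lit 86368306) (nat_lit 0) (nat_lit 1457490855) (nat_lit 504) (nat_lit 5154382652) (nat_lit 136) (nat_lit 5) (nat_lit 135) (nat_lit 5)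 (nat_lit 141) (nat_lit 5) (nat_lit 305) (nat_lit 301) (nat_lit 282))) (XT.nd (nat_lit 94) (nat_lit 0) (nat_lit 84) (XT.lf (nat_lit 84) (nat_lit 2577077950) (nat_lit 0) (nat_lit 693329866) (nat_lit 504) (nat_lit 3468370317) (nat_lit 136) (nat_lit 5) (nat_lit 135) (nat_lit 5) (nat_lit 141) (nat_lit 5) (nat_lit 306) (nat_lit 301) (nat_lit 281)) (XT.lf (nat_lit 0) (nat_lit 4985765498) (nat_lit 420) (nat_lit 1676237891) (nat_lit 504) (nat_lit 121240266) (nat_lit 136) (nat_lit 5) (nat_lit 141) (nat_lit 5) (nat_lit 142) (nat_lit 5) (nat_lit 307) (nat_lit 301) (nat_lit 280))))))) (XT.nd (nat_lit 1222) (nat_lit 3864) (nat_lit 0) (XT.nd (nat_lit 564) (nat_lit 1260) (nat_lit 0) (XT.nd (nat_lit 282) (nat_lit 588) (nat_lit 0) (XT.nd (nat_lit 94) (nat_lit 504) (nat_lit 0) (XT.lf (nat_lit 84) (nat_lit 857933864) (nat_lit 0) (nat_lit 5848289719) (nat_lit 504) (nat_lit 125000770) (nat_lit 137) (nat_lit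 5) (nat_lit 136) (nat_lit 5) (nat_lit 142) (nat_lit 5) (nat_lit 308) (nat_lit 301) (nat_lit 279)) (XT.nd (nat_lit 94) (nat_lit 0) (nat_lit 0) (XT.lf (nat_lit 0) (nat_lit 1521384782) (nat_lit 504) (nat_lit 3430049826) (nat_lit 588) (nat_lit 1930791319) (nat_lit 130) (nat_lit 5) (nat_lit 136) (nat_lit 5) (nat_lit 137) (nat_lit 5) (nat_lit 309) (nat_lit 301) (nat_lit 278)) (XT.lf (nat_lit 0) (nat_lit 3154726507) (nat_lit 504) (nat_lit 848098413) (nat_lit 588) (nat_lit 2934439869) (nat_lit 130) (nat_lit 5) (nat_lit 136) (nat_lit 5) (nat_lit 137) (nat_lit 5) (nat_lit 310) (nat_lit 301) (nat_lit 277)))) (XT.nd (nat_lit 94) (nat_lit 588) (nat_lit 0) (XT.lf (nat_lit 84) (nat_lit 1812732950) (nat_lit 0) (nat_lit 2984314921) (nat_lit 588) (nat_lit 2198825353) (nat_lit 131) (nat_lit 5) (nat_lit 130) (nat_lit 5) (nat_lit 137) (nat_lit 5) (nat_lit 311) (nat_lit 301) (nat_lit 276)) (XT.nd (nat_lit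 94) (nat_lit 588) (nat_lit 0) (XT.lf (nat_lit 84) (nat_lit 4536727762) (nat_lit 0) (nat_lit 1904192460) (nat_lit 588) (nat_lit 617463379) (nat_lit 131) (nat_lit 5) (nat_lit 130) (nat_lit 5) (nat_lit 137) (nat_lit 5) (nat_lit 312) (nat_lit 301) (nat_lit 275)) (XT.lf (nat_lit 84) (nat_lit 177986621) (nat_lit 0) (nat_lit 758723869) (nat_lit 672) (nat_lit 6188061709) (nat_lit 124) (nat_lit 5) (nat_lit 123) (nat_lit 5) (nat_lit 131) (nat_lit 5) (nat_lit 313) (nat_lit 301) (nat_lit 274))))) (XT.nd (nat_lit 282) (nat_lit 756) (nat_lit 0) (XT.nd (nat_lit 94) (nat_lit 588) (nat_lit 0) (XT.lf (nat_lit 0) (nat_lit 2500993130) (nat_lit 588) (nat_lit 4228336876) (nat_lit 84) (nat_lit 464981973) (nat_lit 124) (nat_lit 5) (nat_lit 131) (nat_lit 5) (nat_lit 125) (nat_lit 5) (nat_lit 314) (nat_lit 301) (nat_lit 273)) (XT.nd (nat_lit 94) (nat_lit 588) (nat_lit 0) (XT.lf (nat_lit 0) (nat_lit 4067189614)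 (nat_lit 588) (nat_lit 1472111961) (nat_lit 84) (nat_lit 1728640968) (nat_lit 124) (nat_lit 5) (nat_lit 131) (nat_lit 5) (nat_lit 125) (nat_lit 5) (nat_lit 315) (nat_lit 301) (nat_lit 272)) (XT.lf (nat_lit 0) (nat_lit 1359373230) (nat_lit 588) (nat_lit 4283345085) (nat_lit 672) (nat_lit 1702829494) (nat_lit 117) (nat_lit 5) (nat_lit 124) (nat_lit 5) (nat_lit 125) (nat_lit 5) (nat_lit 316) (nat_lit 301) (nat_lit 271)))) (XT.nd (nat_lit 188) (nat_lit 672) (nat_lit 0) (XT.nd (nat_lit 94) (nat_lit 84) (nat_lit 0) (XT.lf (nat_lit 0) (nat_lit 4272651801) (nat_lit 588) (nat_lit 2958313206) (nat_lit 672) (nat_lit 196175673) (nat_lit 117) (nat_lit 5) (nat_lit 124) (nat_lit 5) (nat_lit 125) (nat_lit 5) (nat_lit 317) (nat_lit 301) (nat_lit 270)) (XT.lf (nat_lit 0) (nat_lit 1278949241) (nat_lit 672) (nat_lit 286037850) (nat_lit 84) (nat_lit 5947870741) (nat_lit 116) (nat_lit 5) (nat_lit 124)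 (nat_lit 5) (nat_lit 117) (nat_lit 5) (nat_lit 318) (nat_lit 301) (nat_lit 269))) (XT.nd (nat_lit 94) (nat_lit 0) (nat_lit 0) (XT.lf (nat_lit 0) (nat_lit 2687042324) (nat_lit 672) (nat_lit 85980717) (nat_lit 756) (nat_lit 4829272410) (nat_lit 108) (nat_lit 5) (nat_lit 116) (nat_lit 5) (nat_lit 117) (nat_lit 5) (nat_lit 319) (nat_lit 301) (nat_lit 268)) (XT.lf (nat_lit 0) (nat_lit 4282589695) (nat_lit 756) (nat_lit 1988446150) (nat_lit 84) (nat_lit 1424834223) (nat_lit 108) (nat_lit 5) (nat_lit 117) (nat_lit 5) (nat_lit 109) (nat_lit 5) (nat_lit 320) (nat_lit 301) (nat_lit 267)))))) (XT.nd (nat_lit 564) (nat_lit 1260) (nat_lit 0) (XT.nd (nat_lit 282) (nat_lit 1764) (nat_lit 0) (XT.nd (nat_lit 94) (nat_lit 84) (nat_lit 0) (XT.lf (nat_lit 0) (nat_lit 1011659598) (nat_lit 756) (nat_lit 4791541717) (nat_lit 840) (nat_lit 1990649093) (nat_lit 99) (nat_lit 5) (nat_lit 108) (nat_lit 5) (nat_lit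 109) (nat_lit 5) (nat_lit 321) (nat_lit 301) (nat_lit 266)) (XT.nd (nat_lit 94) (nat_lit 84) (nat_lit 0) (XT.lf (nat_lit 0) (nat_lit 4110361028) (nat_lit 756) (nat_lit 3235719877) (nat_lit 840) (nat_lit 549942919) (nat_lit 99) (nat_lit 5) (nat_lit 108) (nat_lit 5) (nat_lit 109) (nat_lit 5) (nat_lit 322) (nat_lit 301) (nat_lit 265)) (XT.lf (nat_lit 0) (nat_lit 871505789) (nat_lit 840) (nat_lit 742272912) (nat_lit 84) (nat_lit 6389057399) (nat_lit 98) (nat_lit 5) (nat_lit 108) (nat_lit 5) (nat_lit 99) (nat_lit 5) (nat_lit 323) (nat_lit 301) (nat_lit 264)))) (XT.nd (nat_lit 94) (nat_lit 924) (nat_lit 0) (XT.lf (nat_lit 0) (nat_lit 2306673611) (nat_lit 924) (nat_lit 5712115216) (nat_lit 84) (nat_lit 94933973) (nat_lit 88) (nat_lit 5) (nat_lit 99) (nat_lit 5) (nat_lit 89) (nat_lit 5) (nat_lit 324) (nat_lit 301) (nat_lit 263)) (XT.nd (nat_lit 94) (nat_lit 924) (nat_lit 0) (XT.lf (nat_lit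 0) (nat_lit 3767984999) (nat_lit 924) (nat_lit 2622731978) (nat_lit 84) (nat_lit 1838239218) (nat_lit 88) (nat_lit 5) (nat_lit 99) (nat_lit 5) (nat_lit 89) (nat_lit 5) (nat_lit 325) (nat_lit 301) (nat_lit 262)) (XT.lf (nat_lit 0) (nat_lit 537336592) (nat_lit 924) (nat_lit 4701195312) (nat_lit 1008) (nat_lit 3110678170) (nat_lit 77) (nat_lit 5) (nat_lit 88) (nat_lit 5) (nat_lit 89) (nat_lit 5) (nat_lit 326) (nat_lit 301) (nat_lit 261))))) (XT.nd (nat_lit 282) (nat_lit 504) (nat_lit 0) (XT.nd (nat_lit 94) (nat_lit 756) (nat_lit 0) (XT.lf (nat_lit 0) (nat_lit 3815419720) (nat_lit 924) (nat_lit 2926118439) (nat_lit 1008) (nat_lit 1732380914) (nat_lit 77) (nat_lit 5) (nat_lit 88) (nat_lit 5) (nat_lit 89) (nat_lit 5) (nat_lit 327) (nat_lit 301) (nat_lit 260)) (XT.nd (nat_lit 94) (nat_lit 756) (nat_lit 0) (XT.lf (nat_lit 0) (nat_lit 7160644174) (nat_lit 924) (nat_lit 1091207745) (nat_lit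 1008) (nat_lit 352170656) (nat_lit 77) (nat_lit 5) (nat_lit 88) (nat_lit 5) (nat_lit 89) (nat_lit 5) (nat_lit 328) (nat_lit 301) (nat_lit 259)) (XT.lf (nat_lit 0) (nat_lit 1037233020) (nat_lit 756) (nat_lit 6883225678) (nat_lit 84) (nat_lit 818036116) (nat_lit 68) (nat_lit 5) (nat_lit 77) (nat_lit 5) (nat_lit 69) (nat_lit 5) (nat_lit 329) (nat_lit 301) (nat_lit 258)))) (XT.nd (nat_lit 188) (nat_lit 504) (nat_lit 0) (XT.nd (nat_lit 94) (nat_lit 0) (nat_lit 0) (XT.lf (nat_lit 0) (nat_lit 2450848572) (nat_lit 756) (nat_lit 3640492069) (nat_lit 84) (nat_lit 2786324743) (nat_lit 68) (nat_lit 5) (nat_lit 77) (nat_lit 5) (nat_lit 69) (nat_lit 5) (nat_lit 330) (nat_lit 301) (nat_lit 257)) (XT.lf (nat_lit 0) (nat_lit 3871501808) (nat_lit 756) (nat_lit 331841454) (nat_lit 84) (nat_lit 4819222247) (nat_lit 68) (nat_lit 5) (nat_lit 77) (nat_lit 5) (nat_lit 69) (nat_lit 5) (nat_lit 331) (nat_lit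 301) (nat_lit 256))) (XT.nd (nat_lit 94) (nat_lit 0) (nat_lit 0) (XT.lf (nat_lit 0) (nat_lit 3108438277) (nat_lit 504) (nat_lit 2222914743) (nat_lit 588) (nat_lit 3841021317) (nat_lit 62) (nat_lit 5) (nat_lit 68) (nat_lit 5) (nat_lit 69) (nat_lit 5) (nat_lit 332) (nat_lit 301) (nat_lit 255)) (XT.lf (nat_lit 0) (nat_lit 6629174227) (nat_lit 504) (nat_lit 175813924) (nat_lit 588) (nat_lit 2523073371) (nat_lit 62) (nat_lit 5) (nat_lit 68) (nat_lit 5) (nat_lit 69) (nat_lit 5) (nat_lit 333) (nat_lit 301) (nat_lit 254))))))))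
noncomputable def xc98 : XT := (XT.nd (nat_lit 2350) (nat_lit 1344) (nat_lit 0) (XT.nd (nat_lit 1128) (nat_lit 1260) (nat_lit 0) (XT.nd (nat_lit 564) (nat_lit 840) (nat_lit 0) (XT.nd (nat_lit 282) (nat_lit 420) (nat_lit 0) (XT.nd (nat_lit 94) (nat_lit 84) (nat_lit 0) (XT.lf (nat_lit 0) (nat_lit 732497245) (nat_lit 420) (nat_lit 7584399768) (nat_lit 504) (nat_lit 1172158564) (nat_lit 57) (nat_lit 5) (nat_lit 62) (nat_lit 5) (nat_lit 63) (nat_lit 5) (nat_lit 334) (nat_lit 301) (nat_lit 253)) (XT.nd (nat_lit 94) (nat_lit 0) (nat_lit 0) (XT.lf (nat_lit 0) (nat_lit 212689233) (nat_lit 504) (nat_lit 5365108978) (nat_lit 84) (nat_lit 4077518918) (nat_lit 56) (nat_lit 5) (nat_lit 62) (nat_lit 5) (nat_lit 57) (nat_lit 5) (nat_lit 335) (nat_lit 301) (nat_lit 252)) (XT.lf (nat_lit 0) (nat_lit 1583376627) (nat_lit 504) (nat_lit 1913623222) (nat_lit 84) (nat_lit 6330605240) (nat_lit 56) (nat_lit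 5) (nat_lit 62) (nat_lit 5) (nat_lit 57) (nat_lit 5) (nat_lit 336) (nat_lit 301) (nat_lit 251)))) (XT.nd (nat_lit 94) (nat_lit 0) (nat_lit 0) (XT.lf (nat_lit 0) (nat_lit 1645905363) (nat_lit 420) (nat_lit 1335219844) (nat_lit 504) (nat_lit 7024809151) (nat_lit 51) (nat_lit 5) (nat_lit 56) (nat_lit 5) (nat_lit 57) (nat_lit 5) (nat_lit 337) (nat_lit 301) (nat_lit 250)) (XT.nd (nat_lit 94) (nat_lit 0) (nat_lit 0) (XT.lf (nat_lit 0) (nat_lit 4420122131) (nat_lit 504) (nat_lit 4874856958) (nat_lit 84) (nat_lit 895092656) (nat_lit 51) (nat_lit 5) (nat_lit 57) (nat_lit 5) (nat_lit 52) (nat_lit 5) (nat_lit 338) (nat_lit 301) (nat_lit 249)) (XT.lf (nat_lit 0) (nat_lit 5887195142) (nat_lit 504) (nat_lit 1327272423) (nat_lit 84) (nat_lit 3166171240) (nat_lit 51) (nat_lit 5) (nat_lit 57) (nat_lit 5) (nat_lit 52) (nat_lit 5) (nat_lit 339) (nat_lit 301) (nat_lit 248))))) (XT.nd (nat_lit 282) (nat_lit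 504) (nat_lit 0) (XT.nd (nat_lit 94) (nat_lit 0) (nat_lit 0) (XT.lf (nat_lit 0) (nat_lit 2346554723) (nat_lit 336) (nat_lit 5047189549) (nat_lit 420) (nat_lit 3183757885) (nat_lit 47) (nat_lit 5) (nat_lit 51) (nat_lit 5) (nat_lit 52) (nat_lit 5) (nat_lit 340) (nat_lit 301) (nat_lit 247)) (XT.nd (nat_lit 94) (nat_lit 0) (nat_lit 0) (XT.lf (nat_lit 0) (nat_lit 6131711586) (nat_lit 336) (nat_lit 2800433500) (nat_lit 420) (nat_lit 1848980102) (nat_lit 47) (nat_lit 5) (nat_lit 51) (nat_lit 5) (nat_lit 52) (nat_lit 5) (nat_lit 341) (nat_lit 301) (nat_lit 246)) (XT.lf (nat_lit 0) (nat_lit 10004434884) (nat_lit 336) (nat_lit 485959208) (nat_lit 420) (nat_lit 501720165) (nat_lit 47) (nat_lit 5) (nat_lit 51) (nat_lit 5) (nat_lit 52) (nat_lit 5) (nat_lit 342) (nat_lit 301) (nat_lit 245)))) (XT.nd (nat_lit 94) (nat_lit 0) (nat_lit 0) (XT.lf (nat_lit 0) (nat_lit 889001912) (nat_lit 504) (nat_lit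 8423070810) (nat_lit 84) (nat_lit 1896870918) (nat_lit 41) (nat_lit 5) (nat_lit 47) (nat_lit 5) (nat_lit 42) (nat_lit 5) (nat_lit 343) (nat_lit 301) (nat_lit 244)) (XT.nd (nat_lit 94) (nat_lit 0) (nat_lit 0) (XT.lf (nat_lit 0) (nat_lit 2300848142) (nat_lit 504) (nat_lit 4775346027) (nat_lit 84) (nat_lit 4356673980) (nat_lit 41) (nat_lit 5) (nat_lit 47) (nat_lit 5) (nat_lit 42) (nat_lit 5) (nat_lit 344) (nat_lit 301) (nat_lit 243)) (XT.lf (nat_lit 0) (nat_lit 3730320643) (nat_lit 504) (nat_lit 1043937745) (nat_lit 84) (nat_lit 6890455001) (nat_lit 41) (nat_lit 5) (nat_lit 47) (nat_lit 5) (nat_lit 42) (nat_lit 5) (nat_lit 345) (nat_lit 301) (nat_lit 242)))))) (XT.nd (nat_lit 564) (nat_lit 588) (nat_lit 0) (XT.nd (nat_lit 282) (nat_lit 336) (nat_lit 0) (XT.nd (nat_lit 94) (nat_lit 0) (nat_lit 0) (XT.lf (nat_lit 0) (nat_lit 2831684225) (nat_lit 336) (nat_lit 2375158265) (nat_lit 420)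 (nat_lit 6696982164) (nat_lit 37) (nat_lit 5) (nat_lit 41) (nat_lit 5) (nat_lit 42) (nat_lit 5) (nat_lit 346) (nat_lit 301) (nat_lit 241)) (XT.nd (nat_lit 94) (nat_lit 0) (nat_lit 0) (XT.lf (nat_lit 0) (nat_lit 6716214009) (nat_lit 420) (nat_lit 5330635853) (nat_lit 84) (nat_lit 104057815) (nat_lit 37) (nat_lit 5) (nat_lit 42) (nat_lit 5) (nat_lit 38) (nat_lit 5) (nat_lit 347) (nat_lit 301) (nat_lit 240)) (XT.lf (nat_lit 0) (nat_lit 8272511382) (nat_lit 420) (nat_lit 1525681294) (nat_lit 84) (nat_lit 2607607339) (nat_lit 37) (nat_lit 5) (nat_lit 42) (nat_lit 5) (nat_lit 38) (nat_lit 5) (nat_lit 348) (nat_lit 301) (nat_lit 239)))) (XT.nd (nat_lit 94) (nat_lit 0) (nat_lit 0) (XT.lf (nat_lit 0) (nat_lit 2418560327) (nat_lit 336) (nat_lit 7459055468) (nat_lit 420) (nat_lit 2791110113) (nat_lit 33) (nat_lit 5) (nat_lit 37) (nat_lit 5) (nat_lit 38) (nat_lit 5) (nat_lit 349) (nat_lit 301)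 (nat_lit 238)) (XT.nd (nat_lit 94) (nat_lit 0) (nat_lit 0) (XT.lf (nat_lit 0) (nat_lit 6490299304) (nat_lit 336) (nat_lit 5035109027) (nat_lit 420) (nat_lit 1414758166) (nat_lit 33) (nat_lit 5) (nat_lit 37) (nat_lit 5) (nat_lit 38) (nat_lit 5) (nat_lit 350) (nat_lit 301) (nat_lit 237)) (XT.lf (nat_lit 0) (nat_lit 10661959786) (nat_lit 336) (nat_lit 2540018965) (nat_lit 420) (nat_lit 18874873) (nat_lit 33) (nat_lit 5) (nat_lit 37) (nat_lit 5) (nat_lit 38) (nat_lit 5) (nat_lit 351) (nat_lit 301) (nat_lit 236))))) (XT.nd (nat_lit 282) (nat_lit 252) (nat_lit 0) (XT.nd (nat_lit 94) (nat_lit 0) (nat_lit 0) (XT.lf (nat_lit 0) (nat_lit 1384549146) (nat_lit 336) (nat_lit 12069188226) (nat_lit 84) (nat_lit 56420656) (nat_lit 29) (nat_lit 5) (nat_lit 33) (nat_lit 5) (nat_lit 30) (nat_lit 5) (nat_lit 352) (nat_lit 301) (nat_lit 235)) (XT.nd (nat_lit 94) (nat_lit 0) (nat_lit 0) (XT.lf (nat_lit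 0) (nat_lit 2862423350) (nat_lit 336) (nat_lit 8241557794) (nat_lit 84) (nat_lit 2703600493) (nat_lit 29) (nat_lit 5) (nat_lit 33) (nat_lit 5) (nat_lit 30) (nat_lit 5) (nat_lit 353) (nat_lit 301) (nat_lit 234)) (XT.lf (nat_lit 0) (nat_lit 4365136790) (nat_lit 336) (nat_lit 4321058116) (nat_lit 84) (nat_lit 5428805009) (nat_lit 29) (nat_lit 5) (nat_lit 33) (nat_lit 5) (nat_lit 30) (nat_lit 5) (nat_lit 354) (nat_lit 301) (nat_lit 233)))) (XT.nd (nat_lit 188) (nat_lit 0) (nat_lit 0) (XT.nd (nat_lit 94) (nat_lit 252) (nat_lit 0) (XT.lf (nat_lit 0) (nat_lit 5894090154) (nat_lit 336) (nat_lit 304034876) (nat_lit 84) (nat_lit 8234574382) (nat_lit 29) (nat_lit 5) (nat_lit 33) (nat_lit 5) (nat_lit 30) (nat_lit 5) (nat_lit 355) (nat_lit 301) (nat_lit 232)) (XT.lf (nat_lit 0) (nat_lit 3891664579) (nat_lit 252) (nat_lit 3597649800) (nat_lit 336) (nat_lit 7270465096) (nat_lit 26) (nat_lit 5)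 (nat_lit 29) (nat_lit 5) (nat_lit 30) (nat_lit 5) (nat_lit 356) (nat_lit 301) (nat_lit 231))) (XT.nd (nat_lit 94) (nat_lit 0) (nat_lit 0) (XT.lf (nat_lit 0) (nat_lit 8199861836) (nat_lit 252) (nat_lit 917924823) (nat_lit 336) (nat_lit 5979828119) (nat_lit 26) (nat_lit 5) (nat_lit 29) (nat_lit 5) (nat_lit 30) (nat_lit 5) (nat_lit 357) (nat_lit 301) (nat_lit 230)) (XT.lf (nat_lit 0) (nat_lit 10796203561) (nat_lit 336) (nat_lit 2846551377) (nat_lit 84) (nat_lit 1803294743) (nat_lit 26) (nat_lit 5) (nat_lit 30) (nat_lit 5) (nat_lit 27) (nat_lit 5) (nat_lit 358) (nat_lit 301) (nat_lit 229))))))) (XT.nd (nat_lit 1222) (nat_lit 588) (nat_lit 0) (XT.nd (nat_lit 564) (nat_lit 168) (nat_lit 0) (XT.nd (nat_lit 282) (nat_lit 336) (nat_lit 0) (XT.nd (nat_lit 94) (nat_lit 0) (nat_lit 0) (XT.lf (nat_lit 0) (nat_lit 1324310714) (nat_lit 252) (nat_lit 11206593296) (nat_lit 336) (nat_lit 3274356944)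 (nat_lit 23) (nat_lit 5) (nat_lit 26) (nat_lit 5) (nat_lit 27) (nat_lit 5) (nat_lit 359) (nat_lit 301) (nat_lit 228)) (XT.nd (nat_lit 94) (nat_lit 0) (nat_lit 0) (XT.lf (nat_lit 0) (nat_lit 5661829589) (nat_lit 252) (nat_lit 8669311239) (nat_lit 336) (nat_lit 1844205877) (nat_lit 23) (nat_lit 5) (nat_lit 26) (nat_lit 5) (nat_lit 27) (nat_lit 5) (nat_lit 360) (nat_lit 301) (nat_lit 227)) (XT.lf (nat_lit 0) (nat_lit 10111517335) (nat_lit 252) (nat_lit 6058255914) (nat_lit 336) (nat_lit 387772029) (nat_lit 23) (nat_lit 5) (nat_lit 26) (nat_lit 5) (nat_lit 27) (nat_lit 5) (nat_lit 361) (nat_lit 301) (nat_lit 226)))) (XT.nd (nat_lit 94) (nat_lit 252) (nat_lit 0) (XT.lf (nat_lit 0) (nat_lit 1074214104) (nat_lit 336) (nat_lit 2285566845) (nat_lit 84) (nat_lit 13592094830) (nat_lit 22) (nat_lit 5) (nat_lit 26) (nat_lit 5) (nat_lit 23) (nat_lit 5) (nat_lit 362) (nat_lit 301) (nat_lit 225))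 (XT.nd (nat_lit 94) (nat_lit 0) (nat_lit 0) (XT.lf (nat_lit 0) (nat_lit 2019177004) (nat_lit 252) (nat_lit 557679859) (nat_lit 336) (nat_lit 14781437239) (nat_lit 19) (nat_lit 5) (nat_lit 22) (nat_lit 5) (nat_lit 23) (nat_lit 5) (nat_lit 363) (nat_lit 301) (nat_lit 224)) (XT.lf (nat_lit 0) (nat_lit 4156910445) (nat_lit 336) (nat_lit 11315860187) (nat_lit 84) (nat_lit 2303673921) (nat_lit 19) (nat_lit 5) (nat_lit 23) (nat_lit 5) (nat_lit 20) (nat_lit 5) (nat_lit 364) (nat_lit 301) (nat_lit 223))))) (XT.nd (nat_lit 282) (nat_lit 0) (nat_lit 0) (XT.nd (nat_lit 94) (nat_lit 168) (nat_lit 0) (XT.lf (nat_lit 0) (nat_lit 5775744125) (nat_lit 336) (nat_lit 7194670868) (nat_lit 84) (nat_lit 5237545108) (nat_lit 19) (nat_lit 5) (nat_lit 23) (nat_lit 5) (nat_lit 20) (nat_lit 5) (nat_lit 365) (nat_lit 301) (nat_lit 222)) (XT.nd (nat_lit 94) (nat_lit 168) (nat_lit 0) (XT.lf (nat_lit 0) (nat_lit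 7429334573) (nat_lit 336) (nat_lit 2966175509) (nat_lit 84) (nat_lit 8257904383) (nat_lit 19) (nat_lit 5) (nat_lit 23) (nat_lit 5) (nat_lit 20) (nat_lit 5) (nat_lit 366) (nat_lit 301) (nat_lit 221)) (XT.lf (nat_lit 0) (nat_lit 1401810651) (nat_lit 168) (nat_lit 7731318591) (nat_lit 252) (nat_lit 9979662521) (nat_lit 17) (nat_lit 5) (nat_lit 19) (nat_lit 5) (nat_lit 20) (nat_lit 5) (nat_lit 367) (nat_lit 301) (nat_lit 220)))) (XT.nd (nat_lit 188) (nat_lit 0) (nat_lit 0) (XT.nd (nat_lit 94) (nat_lit 0) (nat_lit 0) (XT.lf (nat_lit 0) (nat_lit 5948450652) (nat_lit 168) (nat_lit 4957543597) (nat_lit 252) (nat_lit 8679990316) (nat_lit 17) (nat_lit 5) (nat_lit 19) (nat_lit 5) (nat_lit 20) (nat_lit 5) (nat_lit 368) (nat_lit 301) (nat_lit 219)) (XT.lf (nat_lit 0) (nat_lit 10616991785) (nat_lit 168) (nat_lit 2102560441) (nat_lit 252) (nat_lit 7354812637) (nat_lit 17) (nat_lit 5) (nat_lit 19)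 (nat_lit 5) (nat_lit 20) (nat_lit 5) (nat_lit 369) (nat_lit 301) (nat_lit 218))) (XT.nd (nat_lit 94) (nat_lit 0) (nat_lit 0) (XT.lf (nat_lit 0) (nat_lit 14583789719) (nat_lit 252) (nat_lit 5174898380) (nat_lit 84) (nat_lit 819442600) (nat_lit 17) (nat_lit 5) (nat_lit 20) (nat_lit 5) (nat_lit 18) (nat_lit 5) (nat_lit 370) (nat_lit 301) (nat_lit 217)) (XT.lf (nat_lit 0) (nat_lit 16513857367) (nat_lit 252) (nat_lit 799531077) (nat_lit 84) (nat_lit 3783947387) (nat_lit 17) (nat_lit 5) (nat_lit 20) (nat_lit 5) (nat_lit 18) (nat_lit 5) (nat_lit 371) (nat_lit 301) (nat_lit 216)))))) (XT.nd (nat_lit 564) (nat_lit 168) (nat_lit 0) (XT.nd (nat_lit 282) (nat_lit 252) (nat_lit 0) (XT.nd (nat_lit 94) (nat_lit 0) (nat_lit 0) (XT.lf (nat_lit 0) (nat_lit 3769614114) (nat_lit 168) (nat_lit 14758477461) (nat_lit 252) (nat_lit 3103859981) (nat_lit 15) (nat_lit 5) (nat_lit 17) (nat_lit 5) (nat_lit 18)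 (nat_lit 5) (nat_lit 372) (nat_lit 301) (nat_lit 215)) (XT.nd (nat_lit 94) (nat_lit 0) (nat_lit 0) (XT.lf (nat_lit 0) (nat_lit 8479724911) (nat_lit 168) (nat_lit 12120544857) (nat_lit 252) (nat_lit 1583077525) (nat_lit 15) (nat_lit 5) (nat_lit 17) (nat_lit 5) (nat_lit 18) (nat_lit 5) (nat_lit 373) (nat_lit 301) (nat_lit 214)) (XT.lf (nat_lit 0) (nat_lit 13318751633) (nat_lit 168) (nat_lit 9405477268) (nat_lit 252) (nat_lit 28059031) (nat_lit 15) (nat_lit 5) (nat_lit 17) (nat_lit 5) (nat_lit 18) (nat_lit 5) (nat_lit 374) (nat_lit 301) (nat_lit 213)))) (XT.nd (nat_lit 94) (nat_lit 168) (nat_lit 0) (XT.lf (nat_lit 0) (nat_lit 1531161127) (nat_lit 252) (nat_lit 5063600657) (nat_lit 84) (nat_lit 16744061449) (nat_lit 14) (nat_lit 5) (nat_lit 17) (nat_lit 5) (nat_lit 15) (nat_lit 5) (nat_lit 375) (nat_lit 301) (nat_lit 212)) (XT.nd (nat_lit 94) (nat_lit 168) (nat_lit 0) (XT.lf (nat_lit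 0) (nat_lit 3126235284) (nat_lit 252) (nat_lit 574873198) (nat_lit 84) (nat_lit 20242852366) (nat_lit 14) (nat_lit 5) (nat_lit 17) (nat_lit 5) (nat_lit 15) (nat_lit 5) (nat_lit 376) (nat_lit 301) (nat_lit 211)) (XT.lf (nat_lit 0) (nat_lit 4120119616) (nat_lit 168) (nat_lit 679968022) (nat_lit 252) (nat_lit 19766918787) (nat_lit 12) (nat_lit 5) (nat_lit 14) (nat_lit 5) (nat_lit 15) (nat_lit 5) (nat_lit 377) (nat_lit 301) (nat_lit 210))))) (XT.nd (nat_lit 282) (nat_lit 168) (nat_lit 0) (XT.nd (nat_lit 94) (nat_lit 0) (nat_lit 0) (XT.lf (nat_lit 0) (nat_lit 6544651298) (nat_lit 252) (nat_lit 16276651396) (nat_lit 84) (nat_lit 2387536450) (nat_lit 12) (nat_lit 5) (nat_lit 15) (nat_lit 5) (nat_lit 13) (nat_lit 5) (nat_lit 378) (nat_lit 301) (nat_lit 209)) (XT.nd (nat_lit 94) (nat_lit 0) (nat_lit 0) (XT.lf (nat_lit 0) (nat_lit 8339199713) (nat_lit 252) (nat_lit 11999709115) (nat_lit 84)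 (nat_lit 5531841367) (nat_lit 12) (nat_lit 5) (nat_lit 15) (nat_lit 5) (nat_lit 13) (nat_lit 5) (nat_lit 379) (nat_lit 301) (nat_lit 208)) (XT.lf (nat_lit 0) (nat_lit 10178660224) (nat_lit 252) (nat_lit 7605328042) (nat_lit 84) (nat_lit 8769577390) (nat_lit 12) (nat_lit 5) (nat_lit 15) (nat_lit 5) (nat_lit 13) (nat_lit 5) (nat_lit 380) (nat_lit 301) (nat_lit 207)))) (XT.nd (nat_lit 188) (nat_lit 0) (nat_lit 0) (XT.nd (nat_lit 94) (nat_lit 168) (nat_lit 0) (XT.lf (nat_lit 0) (nat_lit 12064747400) (nat_lit 252) (nat_lit 3089412152) (nat_lit 84) (nat_lit 12103762427) (nat_lit 12) (nat_lit 5) (nat_lit 15) (nat_lit 5) (nat_lit 13) (nat_lit 5) (nat_lit 381) (nat_lit 301) (nat_lit 206)) (XT.lf (nat_lit 0) (nat_lit 1584165258) (nat_lit 168) (nat_lit 12430769129) (nat_lit 252) (nat_lit 13969054146) (nat_lit 10) (nat_lit 5) (nat_lit 12) (nat_lit 5) (nat_lit 13) (nat_lit 5) (nat_lit 382) (nat_lit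 301) (nat_lit 205))) (XT.nd (nat_lit 94) (nat_lit 0) (nat_lit 0) (XT.lf (nat_lit 0) (nat_lit 6454012475) (nat_lit 168) (nat_lit 9593891099) (nat_lit 252) (nat_lit 12684015711) (nat_lit 10) (nat_lit 5) (nat_lit 12) (nat_lit 5) (nat_lit 13) (nat_lit 5) (nat_lit 383) (nat_lit 301) (nat_lit 204)) (XT.lf (nat_lit 0) (nat_lit 11461144055) (nat_lit 168) (nat_lit 6673128320) (nat_lit 252) (nat_lit 11369108610) (nat_lit 10) (nat_lit 5) (nat_lit 12) (nat_lit 5) (nat_lit 13) (nat_lit 5) (nat_lit 384) (nat_lit 301) (nat_lit 203))))))))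
noncomputable def xc99 : XT := (XT.nd (nat_lit 2350) (nat_lit 168) (nat_lit 0) (XT.nd (nat_lit 1128) (nat_lit 84) (nat_lit 0) (XT.nd (nat_lit 564) (nat_lit 252) (nat_lit 0) (XT.nd (nat_lit 282) (nat_lit 84) (nat_lit 0) (XT.nd (nat_lit 94) (nat_lit 0) (nat_lit 0) (XT.lf (nat_lit 0) (nat_lit 16610227169) (nat_lit 168) (nat_lit 3665758337) (nat_lit 252) (nat_lit 10023107212) (nat_lit 10) (nat_lit 5) (nat_lit 12) (nat_lit 5) (nat_lit 13) (nat_lit 5) (nat_lit 385) (nat_lit 301) (nat_lit 202)) (XT.nd (nat_lit 94) (nat_lit 0) (nat_lit 0) (XT.lf (nat_lit 0) (nat_lit 21906061302) (nat_lit 168) (nat_lit 568977966) (nat_lit 252) (nat_lit 8644756903) (nat_lit 10) (nat_lit 5) (nat_lit 12) (nat_lit 5) (nat_lit 13) (nat_lit 5) (nat_lit 386) (nat_lit 301) (nat_lit 201)) (XT.lf (nat_lit 0) (nat_lit 24759475119) (nat_lit 252) (nat_lit 4638665309) (nat_lit 84) (nat_lit 2567310154) (nat_lit 10) (nat_lit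 5) (nat_lit 13) (nat_lit 5) (nat_lit 11) (nat_lit 4) (nat_lit 387) (nat_lit 301) (nat_lit 200)))) (XT.nd (nat_lit 94) (nat_lit 0) (nat_lit 0) (XT.lf (nat_lit 0) (nat_lit 61268518) (nat_lit 84) (nat_lit 27051335145) (nat_lit 168) (nat_lit 5724823909) (nat_lit 9) (nat_lit 5) (nat_lit 10) (nat_lit 5) (nat_lit 11) (nat_lit 4) (nat_lit 388) (nat_lit 301) (nat_lit 199)) (XT.nd (nat_lit 94) (nat_lit 0) (nat_lit 0) (XT.lf (nat_lit 0) (nat_lit 4992984873) (nat_lit 84) (nat_lit 24585696146) (nat_lit 168) (nat_lit 4156554947) (nat_lit 9) (nat_lit 5) (nat_lit 10) (nat_lit 5) (nat_lit 11) (nat_lit 4) (nat_lit 389) (nat_lit 301) (nat_lit 198)) (XT.lf (nat_lit 0) (nat_lit 10065700157) (nat_lit 84) (nat_lit 22047343351) (nat_lit 168) (nat_lit 2548124941) (nat_lit 9) (nat_lit 5) (nat_lit 10) (nat_lit 5) (nat_lit 11) (nat_lit 4) (nat_lit 390) (nat_lit 301) (nat_lit 197))))) (XT.nd (nat_lit 282) (nat_lit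 168) (nat_lit 0) (XT.nd (nat_lit 94) (nat_lit 84) (nat_lit 0) (XT.lf (nat_lit 0) (nat_lit 15284142673) (nat_lit 84) (nat_lit 19433910749) (nat_lit 168) (nat_lit 898034665) (nat_lit 9) (nat_lit 5) (nat_lit 10) (nat_lit 5) (nat_lit 11) (nat_lit 4) (nat_lit 391) (nat_lit 301) (nat_lit 196)) (XT.nd (nat_lit 94) (nat_lit 0) (nat_lit 0) (XT.lf (nat_lit 0) (nat_lit 779231342) (nat_lit 168) (nat_lit 15955597429) (nat_lit 84) (nat_lit 19865811636) (nat_lit 8) (nat_lit 5) (nat_lit 10) (nat_lit 5) (nat_lit 9) (nat_lit 5) (nat_lit 392) (nat_lit 301) (nat_lit 195)) (XT.lf (nat_lit 0) (nat_lit 2482278453) (nat_lit 168) (nat_lit 11463801553) (nat_lit 84) (nat_lit 23669617958) (nat_lit 8) (nat_lit 5) (nat_lit 10) (nat_lit 5) (nat_lit 9) (nat_lit 5) (nat_lit 393) (nat_lit 301) (nat_lit 194)))) (XT.nd (nat_lit 94) (nat_lit 168) (nat_lit 0) (XT.lf (nat_lit 0) (nat_lit 4230787482) (nat_lit 168) (nat_lit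 6843462347) (nat_lit 84) (nat_lit 27588233235) (nat_lit 8) (nat_lit 5) (nat_lit 10) (nat_lit 5) (nat_lit 9) (nat_lit 5) (nat_lit 394) (nat_lit 301) (nat_lit 193)) (XT.nd (nat_lit 94) (nat_lit 168) (nat_lit 0) (XT.lf (nat_lit 0) (nat_lit 6026388222) (nat_lit 168) (nat_lit 2090273173) (nat_lit 84) (nat_lit 31625310028) (nat_lit 8) (nat_lit 5) (nat_lit 10) (nat_lit 5) (nat_lit 9) (nat_lit 5) (nat_lit 395) (nat_lit 301) (nat_lit 192)) (XT.lf (nat_lit 0) (nat_lit 2857774222) (nat_lit 168) (nat_lit 5041329614) (nat_lit 252) (nat_lit 32955186566) (nat_lit 6) (nat_lit 5) (nat_lit 8) (nat_lit 5) (nat_lit 9) (nat_lit 5) (nat_lit 396) (nat_lit 301) (nat_lit 191)))))) (XT.nd (nat_lit 564) (nat_lit 84) (nat_lit 0) (XT.nd (nat_lit 282) (nat_lit 0) (nat_lit 0) (XT.nd (nat_lit 94) (nat_lit 0) (nat_lit 0) (XT.lf (nat_lit 0) (nat_lit 7993557288) (nat_lit 168) (nat_lit 1851344833) (nat_lit 252) (nat_lit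 32155753788) (nat_lit 6) (nat_lit 5) (nat_lit 8) (nat_lit 5) (nat_lit 9) (nat_lit 5) (nat_lit 397) (nat_lit 301) (nat_lit 190)) (XT.nd (nat_lit 94) (nat_lit 0) (nat_lit 0) (XT.lf (nat_lit 0) (nat_lit 11858664532) (nat_lit 252) (nat_lit 29918139598) (nat_lit 84) (nat_lit 1405547247) (nat_lit 6) (nat_lit 5) (nat_lit 9) (nat_lit 5) (nat_lit 7) (nat_lit 4) (nat_lit 398) (nat_lit 301) (nat_lit 189)) (XT.lf (nat_lit 0) (nat_lit 13947371318) (nat_lit 252) (nat_lit 25730930988) (nat_lit 84) (nat_lit 4722017765) (nat_lit 6) (nat_lit 5) (nat_lit 9) (nat_lit 5) (nat_lit 7) (nat_lit 4) (nat_lit 399) (nat_lit 301) (nat_lit 188)))) (XT.nd (nat_lit 94) (nat_lit 0) (nat_lit 0) (XT.lf (nat_lit 0) (nat_lit 16094603805) (nat_lit 252) (nat_lit 21423204304) (nat_lit 84) (nat_lit 8138458488) (nat_lit 6) (nat_lit 5) (nat_lit 9) (nat_lit 5) (nat_lit 7) (nat_lit 4) (nat_lit 400) (nat_lit 301) (nat_lit 187))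 (XT.nd (nat_lit 94) (nat_lit 0) (nat_lit 0) (XT.lf (nat_lit 0) (nat_lit 18302363438) (nat_lit 252) (nat_lit 16990944292) (nat_lit 84) (nat_lit 11658053899) (nat_lit 6) (nat_lit 5) (nat_lit 9) (nat_lit 5) (nat_lit 7) (nat_lit 4) (nat_lit 401) (nat_lit 301) (nat_lit 186)) (XT.lf (nat_lit 0) (nat_lit 20572708079) (nat_lit 252) (nat_lit 12430019623) (nat_lit 84) (nat_lit 15284084628) (nat_lit 6) (nat_lit 5) (nat_lit 9) (nat_lit 5) (nat_lit 7) (nat_lit 4) (nat_lit 402) (nat_lit 301) (nat_lit 185))))) (XT.nd (nat_lit 282) (nat_lit 0) (nat_lit 0) (XT.nd (nat_lit 94) (nat_lit 84) (nat_lit 0) (XT.lf (nat_lit 0) (nat_lit 22907753929) (nat_lit 252) (nat_lit 7736179037) (nat_lit 84) (nat_lit 19019930517) (nat_lit 6) (nat_lit 5) (nat_lit 9) (nat_lit 5) (nat_lit 7) (nat_lit 4) (nat_lit 403) (nat_lit 301) (nat_lit 184)) (XT.nd (nat_lit 94) (nat_lit 84) (nat_lit 0) (XT.lf (nat_lit 0) (nat_lit 25309677494)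 (nat_lit 252) (nat_lit 2905047382) (nat_lit 84) (nat_lit 22869073764) (nat_lit 6) (nat_lit 5) (nat_lit 9) (nat_lit 5) (nat_lit 7) (nat_lit 4) (nat_lit 404) (nat_lit 301) (nat_lit 183)) (XT.lf (nat_lit 0) (nat_lit 2110398282) (nat_lit 84) (nat_lit 25691254748) (nat_lit 168) (nat_lit 24745639305) (nat_lit 5) (nat_lit 5) (nat_lit 6) (nat_lit 5) (nat_lit 7) (nat_lit 4) (nat_lit 405) (nat_lit 301) (nat_lit 182)))) (XT.nd (nat_lit 188) (nat_lit 0) (nat_lit 0) (XT.nd (nat_lit 94) (nat_lit 0) (nat_lit 0) (XT.lf (nat_lit 0) (nat_lit 7335018047) (nat_lit 84) (nat_lit 23060923811) (nat_lit 168) (nat_lit 23659458744) (nat_lit 5) (nat_lit 5) (nat_lit 6) (nat_lit 5) (nat_lit 7) (nat_lit 4) (nat_lit 406) (nat_lit 301) (nat_lit 181)) (XT.lf (nat_lit 0) (nat_lit 12713948072) (nat_lit 84) (nat_lit 20351603057) (nat_lit 168) (nat_lit 22544889765) (nat_lit 5) (nat_lit 5) (nat_lit 6) (nat_lit 5) (nat_lit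 7) (nat_lit 4) (nat_lit 407) (nat_lit 301) (nat_lit 180))) (XT.nd (nat_lit 94) (nat_lit 0) (nat_lit 0) (XT.lf (nat_lit 0) (nat_lit 18252202084) (nat_lit 84) (nat_lit 17560767116) (nat_lit 168) (nat_lit 21400893475) (nat_lit 5) (nat_lit 5) (nat_lit 6) (nat_lit 5) (nat_lit 7) (nat_lit 4) (nat_lit 408) (nat_lit 301) (nat_lit 179)) (XT.lf (nat_lit 0) (nat_lit 23954942314) (nat_lit 84) (nat_lit 14685814637) (nat_lit 168) (nat_lit 20226403549) (nat_lit 5) (nat_lit 5) (nat_lit 6) (nat_lit 5) (nat_lit 7) (nat_lit 4) (nat_lit 409) (nat_lit 301) (nat_lit 178))))))) (XT.nd (nat_lit 1222) (nat_lit 84) (nat_lit 0) (XT.nd (nat_lit 564) (nat_lit 84) (nat_lit 0) (XT.nd (nat_lit 282) (nat_lit 0) (nat_lit 0) (XT.nd (nat_lit 94) (nat_lit 0) (nat_lit 0) (XT.lf (nat_lit 0) (nat_lit 29827484316) (nat_lit 84) (nat_lit 11724065863) (nat_lit 168) (nat_lit 19020325239) (nat_lit 5) (nat_lit 5) (nat_lit 6)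 (nat_lit 5) (nat_lit 7) (nat_lit 4) (nat_lit 410) (nat_lit 301) (nat_lit 177)) (XT.nd (nat_lit 94) (nat_lit 0) (nat_lit 0) (XT.lf (nat_lit 0) (nat_lit 35875301911) (nat_lit 84) (nat_lit 8672760134) (nat_lit 168) (nat_lit 17781534354) (nat_lit 5) (nat_lit 5) (nat_lit 6) (nat_lit 5) (nat_lit 7) (nat_lit 4) (nat_lit 411) (nat_lit 301) (nat_lit 176)) (XT.lf (nat_lit 0) (nat_lit 42104032302) (nat_lit 84) (nat_lit 5529053312) (nat_lit 168) (nat_lit 16508876211) (nat_lit 5) (nat_lit 5) (nat_lit 6) (nat_lit 5) (nat_lit 7) (nat_lit 4) (nat_lit 412) (nat_lit 301) (nat_lit 175)))) (XT.nd (nat_lit 94) (nat_lit 0) (nat_lit 0) (XT.lf (nat_lit 0) (nat_lit 48519481315) (nat_lit 84) (nat_lit 2290015135) (nat_lit 168) (nat_lit 15201164560) (nat_lit 5) (nat_lit 5) (nat_lit 6) (nat_lit 5) (nat_lit 7) (nat_lit 4) (nat_lit 413) (nat_lit 301) (nat_lit 174)) (XT.nd (nat_lit 94) (nat_lit 0) (nat_lit 0) (XT.lf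 (nat_lit 0) (nat_lit 54090645376) (nat_lit 168) (nat_lit 12820197028) (nat_lit 0) (nat_lit 1026271279) (nat_lit 5) (nat_lit 5) (nat_lit 7) (nat_lit 4) (nat_lit 5) (nat_lit 4) (nat_lit 414) (nat_lit 301) (nat_lit 173)) (XT.lf (nat_lit 0) (nat_lit 57492914750) (nat_lit 168) (nat_lit 8033951663) (nat_lit 0) (nat_lit 4395836047) (nat_lit 5) (nat_lit 5) (nat_lit 7) (nat_lit 4) (nat_lit 5) (nat_lit 4) (nat_lit 415) (nat_lit 301) (nat_lit 172))))) (XT.nd (nat_lit 282) (nat_lit 0) (nat_lit 0) (XT.nd (nat_lit 94) (nat_lit 84) (nat_lit 0) (XT.lf (nat_lit 0) (nat_lit 60996758608) (nat_lit 168) (nat_lit 3105265082) (nat_lit 0) (nat_lit 7867958660) (nat_lit 5) (nat_lit 5) (nat_lit 7) (nat_lit 4) (nat_lit 5) (nat_lit 4) (nat_lit 416) (nat_lit 301) (nat_lit 171)) (XT.nd (nat_lit 94) (nat_lit 0) (nat_lit 0) (XT.lf (nat_lit 0) (nat_lit 2010973398) (nat_lit 84) (nat_lit 62614418607) (nat_lit 84) (nat_lit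 9454851204) (nat_lit 4) (nat_lit 4) (nat_lit 5) (nat_lit 5) (nat_lit 5) (nat_lit 4) (nat_lit 417) (nat_lit 301) (nat_lit 170)) (XT.lf (nat_lit 0) (nat_lit 7345949497) (nat_lit 84) (nat_lit 61049254530) (nat_lit 84) (nat_lit 7859844784) (nat_lit 4) (nat_lit 4) (nat_lit 5) (nat_lit 5) (nat_lit 5) (nat_lit 4) (nat_lit 418) (nat_lit 301) (nat_lit 169)))) (XT.nd (nat_lit 188) (nat_lit 0) (nat_lit 0) (XT.nd (nat_lit 94) (nat_lit 0) (nat_lit 0) (XT.lf (nat_lit 0) (nat_lit 12840785353) (nat_lit 84) (nat_lit 59437485160) (nat_lit 84) (nat_lit 6219130369) (nat_lit 4) (nat_lit 4) (nat_lit 5) (nat_lit 5) (nat_lit 5) (nat_lit 4) (nat_lit 419) (nat_lit 301) (nat_lit 168)) (XT.lf (nat_lit 0) (nat_lit 18500602728) (nat_lit 84) (nat_lit 57777608160) (nat_lit 84) (nat_lit 4531178640) (nat_lit 4) (nat_lit 4) (nat_lit 5) (nat_lit 5) (nat_lit 5) (nat_lit 4) (nat_lit 420) (nat_lit 301) (nat_lit 167)))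 (XT.nd (nat_lit 94) (nat_lit 0) (nat_lit 0) (XT.lf (nat_lit 0) (nat_lit 24330677164) (nat_lit 84) (nat_lit 56068076351) (nat_lit 84) (nat_lit 2794416249) (nat_lit 4) (nat_lit 4) (nat_lit 5) (nat_lit 5) (nat_lit 5) (nat_lit 4) (nat_lit 421) (nat_lit 301) (nat_lit 166)) (XT.lf (nat_lit 0) (nat_lit 30336442902) (nat_lit 84) (nat_lit 54307296270) (nat_lit 84) (nat_lit 1007224353) (nat_lit 4) (nat_lit 4) (nat_lit 5) (nat_lit 5) (nat_lit 5) (nat_lit 4) (nat_lit 422) (nat_lit 301) (nat_lit 165)))))) (XT.nd (nat_lit 44744) (nat_lit 0) (nat_lit 10080) (XT.nd (nat_lit 44462) (nat_lit 0) (nat_lit 11088) (XT.nd (nat_lit 94) (nat_lit 0) (nat_lit 0) (XT.lf (nat_lit 0) (nat_lit 815298685) (nat_lit 168) (nat_lit 51669817953) (nat_lit 84) (nat_lit 35699689213) (nat_lit 3) (nat_lit 5) (nat_lit 5) (nat_lit 5) (nat_lit 4) (nat_lit 4) (nat_lit 423) (nat_lit 301) (nat_lit 164)) (XT.nd (nat_lit 44274)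 (nat_lit 0) (nat_lit 11508) (XT.lf (nat_lit 0) (nat_lit 2670254015) (nat_lit 168) (nat_lit 47927251075) (nat_lit 84) (nat_lit 40199483284) (nat_lit 3) (nat_lit 5) (nat_lit 5) (nat_lit 5) (nat_lit 4) (nat_lit 4) (nat_lit 424) (nat_lit 301) (nat_lit 163)) (XT.lf (nat_lit 0) (nat_lit 2321856095) (nat_lit 420) (nat_lit 495341356) (nat_lit 420) (nat_lit 495341356) (nat_lit 140) (nat_lit 3) (nat_lit 145) (nat_lit 3) (nat_lit 145) (nat_lit 5) (nat_lit 302) (nat_lit 302) (nat_lit 284)))) (XT.nd (nat_lit 94) (nat_lit 420) (nat_lit 0) (XT.lf (nat_lit 84) (nat_lit 1353494546) (nat_lit 0) (nat_lit 5061504036) (nat_lit 420) (nat_lit 241964081) (nat_lit 141) (nat_lit 5) (nat_lit 140) (nat_lit 3) (nat_lit 145) (nat_lit 5) (nat_lit 303) (nat_lit 302) (nat_lit 283)) (XT.nd (nat_lit 94) (nat_lit 0) (nat_lit 0) (XT.lf (nat_lit 0) (nat_lit 1460842858) (nat_lit 420) (nat_lit 2951921963) (nat_lit 504)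 (nat_lit 2279139690) (nat_lit 135) (nat_lit 5) (nat_lit 140) (nat_lit 3) (nat_lit 141) (nat_lit 5) (nat_lit 304) (nat_lit 302) (nat_lit 282)) (XT.lf (nat_lit 0) (nat_lit 3143800679) (nat_lit 420) (nat_lit 567056574) (nat_lit 504) (nat_lit 3019778594) (nat_lit 135) (nat_lit 5) (nat_lit 140) (nat_lit 3) (nat_lit 141) (nat_lit 5) (nat_lit 305) (nat_lit 302) (nat_lit 281))))) (XT.nd (nat_lit 282) (nat_lit 504) (nat_lit 0) (XT.nd (nat_lit 94) (nat_lit 504) (nat_lit 0) (XT.lf (nat_lit 84) (nat_lit 1893909358) (nat_lit 0) (nat_lit 2938231568) (nat_lit 504) (nat_lit 1940543837) (nat_lit 136) (nat_lit 5) (nat_lit 135) (nat_lit 5) (nat_lit 141) (nat_lit 5) (nat_lit 306) (nat_lit 302) (nat_lit 280)) (XT.nd (nat_lit 94) (nat_lit 504) (nat_lit 0) (XT.lf (nat_lit 84) (nat_lit 4407562550) (nat_lit 0) (nat_lit 2107217366) (nat_lit 504) (nat_lit 303702914) (nat_lit 136) (nat_lit 5) (nat_lit 135)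 (nat_lit 5) (nat_lit 141) (nat_lit 5) (nat_lit 307) (nat_lit 302) (nat_lit 279)) (XT.lf (nat_lit 84) (nat_lit 84959620) (nat_lit 0) (nat_lit 1208596748) (nat_lit 588) (nat_lit 5574262496) (nat_lit 130) (nat_lit 5) (nat_lit 129) (nat_lit 5) (nat_lit 136) (nat_lit 5) (nat_lit 308) (nat_lit 302) (nat_lit 278)))) (XT.nd (nat_lit 188) (nat_lit 504) (nat_lit 0) (XT.nd (nat_lit 94) (nat_lit 0) (nat_lit 84) (XT.lf (nat_lit 84) (nat_lit 2670058933) (nat_lit 0) (nat_lit 227357110) (nat_lit 588) (nat_lit 4022896598) (nat_lit 130) (nat_lit 5) (nat_lit 129) (nat_lit 5) (nat_lit 136) (nat_lit 5) (nat_lit 309) (nat_lit 302) (nat_lit 277)) (XT.lf (nat_lit 0) (nat_lit 4499139241) (nat_lit 504) (nat_lit 1684600834) (nat_lit 588) (nat_lit 792873283) (nat_lit 130) (nat_lit 5) (nat_lit 136) (nat_lit 5) (nat_lit 137) (nat_lit 5) (nat_lit 310) (nat_lit 302) (nat_lit 276))) (XT.nd (nat_lit 94) (nat_lit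 588) (nat_lit 0) (XT.lf (nat_lit 84) (nat_lit 940664216) (nat_lit 0) (nat_lit 5163665129) (nat_lit 588) (nat_lit 932316728) (nat_lit 131) (nat_lit 5) (nat_lit 130) (nat_lit 5) (nat_lit 137) (nat_lit 5) (nat_lit 311) (nat_lit 302) (nat_lit 275)) (XT.lf (nat_lit 0) (nat_lit 607623833) (nat_lit 588) (nat_lit 3459589761) (nat_lit 672) (nat_lit 3032878971) (nat_lit 123) (nat_lit 5) (nat_lit 130) (nat_lit 5) (nat_lit 131) (nat_lit 5) (nat_lit 312) (nat_lit 302) (nat_lit 274))))))))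
noncomputable def xc100 : XT := (XT.nd (nat_lit 2350) (nat_lit 2856) (nat_lit 0) (XT.nd (nat_lit 1128) (nat_lit 2688) (nat_lit 0) (XT.nd (nat_lit 564) (nat_lit 2352) (nat_lit 0) (XT.nd (nat_lit 282) (nat_lit 588) (nat_lit 0) (XT.nd (nat_lit 94) (nat_lit 0) (nat_lit 0) (XT.lf (nat_lit 0) (nat_lit 2120099208) (nat_lit 588) (nat_lit 787751497) (nat_lit 672) (nat_lit 4259596870) (nat_lit 123) (nat_lit 5) (nat_lit 130) (nat_lit 5) (nat_lit 131) (nat_lit 5) (nat_lit 313) (nat_lit 302) (nat_lit 273)) (XT.nd (nat_lit 94) (nat_lit 0) (nat_lit 0) (XT.lf (nat_lit 84) (nat_lit 1970982979) (nat_lit 0) (nat_lit 1673872703) (nat_lit 672) (nat_lit 3593598788) (nat_lit 124) (nat_lit 5) (nat_lit 123) (nat_lit 5) (nat_lit 131) (nat_lit 5) (nat_lit 314) (nat_lit 302) (nat_lit 272)) (XT.lf (nat_lit 84) (nat_lit 4796657296) (nat_lit 0) (nat_lit 375565217) (nat_lit 672) (nat_lit 2141300775) (nat_lit 124)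 (nat_lit 5) (nat_lit 123) (nat_lit 5) (nat_lit 131) (nat_lit 5) (nat_lit 315) (nat_lit 302) (nat_lit 271)))) (XT.nd (nat_lit 94) (nat_lit 84) (nat_lit 0) (XT.lf (nat_lit 0) (nat_lit 278627670) (nat_lit 588) (nat_lit 6429506749) (nat_lit 672) (nat_lit 684449737) (nat_lit 117) (nat_lit 5) (nat_lit 124) (nat_lit 5) (nat_lit 125) (nat_lit 5) (nat_lit 316) (nat_lit 302) (nat_lit 270)) (XT.nd (nat_lit 94) (nat_lit 0) (nat_lit 0) (XT.lf (nat_lit 0) (nat_lit 780581421) (nat_lit 672) (nat_lit 4308917301) (nat_lit 84) (nat_lit 2385416236) (nat_lit 116) (nat_lit 5) (nat_lit 124) (nat_lit 5) (nat_lit 117) (nat_lit 5) (nat_lit 317) (nat_lit 302) (nat_lit 269)) (XT.lf (nat_lit 0) (nat_lit 2227450166) (nat_lit 672) (nat_lit 1460346546) (nat_lit 84) (nat_lit 3873736056) (nat_lit 116) (nat_lit 5) (nat_lit 124) (nat_lit 5) (nat_lit 117) (nat_lit 5) (nat_lit 318) (nat_lit 302) (nat_lit 268))))) (XT.nd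 (nat_lit 282) (nat_lit 1680) (nat_lit 0) (XT.nd (nat_lit 94) (nat_lit 0) (nat_lit 0) (XT.lf (nat_lit 0) (nat_lit 1470834813) (nat_lit 672) (nat_lit 2215051316) (nat_lit 756) (nat_lit 3966390363) (nat_lit 108) (nat_lit 5) (nat_lit 116) (nat_lit 5) (nat_lit 117) (nat_lit 5) (nat_lit 319) (nat_lit 302) (nat_lit 267)) (XT.nd (nat_lit 94) (nat_lit 0) (nat_lit 0) (XT.lf (nat_lit 0) (nat_lit 4488869918) (nat_lit 672) (nat_lit 669122765) (nat_lit 756) (nat_lit 2589214968) (nat_lit 108) (nat_lit 5) (nat_lit 116) (nat_lit 5) (nat_lit 117) (nat_lit 5) (nat_lit 320) (nat_lit 302) (nat_lit 266)) (XT.lf (nat_lit 0) (nat_lit 6639644376) (nat_lit 756) (nat_lit 289615972) (nat_lit 84) (nat_lit 917324807) (nat_lit 108) (nat_lit 5) (nat_lit 117) (nat_lit 5) (nat_lit 109) (nat_lit 5) (nat_lit 321) (nat_lit 302) (nat_lit 265)))) (XT.nd (nat_lit 94) (nat_lit 840) (nat_lit 0) (XT.lf (nat_lit 0) (nat_lit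 203901121) (nat_lit 840) (nat_lit 5166103110) (nat_lit 84) (nat_lit 2579640426) (nat_lit 98) (nat_lit 5) (nat_lit 108) (nat_lit 5) (nat_lit 99) (nat_lit 5) (nat_lit 322) (nat_lit 302) (nat_lit 264)) (XT.nd (nat_lit 94) (nat_lit 840) (nat_lit 0) (XT.lf (nat_lit 0) (nat_lit 1592744652) (nat_lit 840) (nat_lit 2145719658) (nat_lit 84) (nat_lit 4318663609) (nat_lit 98) (nat_lit 5) (nat_lit 108) (nat_lit 5) (nat_lit 99) (nat_lit 5) (nat_lit 323) (nat_lit 302) (nat_lit 263)) (XT.lf (nat_lit 0) (nat_lit 952920767) (nat_lit 840) (nat_lit 2038771761) (nat_lit 924) (nat_lit 5177612542) (nat_lit 88) (nat_lit 5) (nat_lit 98) (nat_lit 5) (nat_lit 99) (nat_lit 5) (nat_lit 324) (nat_lit 302) (nat_lit 262)))))) (XT.nd (nat_lit 564) (nat_lit 1008) (nat_lit 0) (XT.nd (nat_lit 282) (nat_lit 756) (nat_lit 0) (XT.nd (nat_lit 94) (nat_lit 924) (nat_lit 0) (XT.lf (nat_lit 0) (nat_lit 4158883066) (nat_lit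 840) (nat_lit 256054200) (nat_lit 924) (nat_lit 3870943860) (nat_lit 88) (nat_lit 5) (nat_lit 98) (nat_lit 5) (nat_lit 99) (nat_lit 5) (nat_lit 325) (nat_lit 302) (nat_lit 261)) (XT.nd (nat_lit 94) (nat_lit 924) (nat_lit 0) (XT.lf (nat_lit 0) (nat_lit 5857844604) (nat_lit 924) (nat_lit 992365655) (nat_lit 84) (nat_lit 1556939275) (nat_lit 88) (nat_lit 5) (nat_lit 99) (nat_lit 5) (nat_lit 89) (nat_lit 5) (nat_lit 326) (nat_lit 302) (nat_lit 260)) (XT.lf (nat_lit 0) (nat_lit 2248335909) (nat_lit 924) (nat_lit 5083125111) (nat_lit 1008) (nat_lit 1201461561) (nat_lit 77) (nat_lit 5) (nat_lit 88) (nat_lit 5) (nat_lit 89) (nat_lit 5) (nat_lit 327) (nat_lit 302) (nat_lit 259)))) (XT.nd (nat_lit 94) (nat_lit 672) (nat_lit 0) (XT.lf (nat_lit 0) (nat_lit 156048626) (nat_lit 1008) (nat_lit 3088241582) (nat_lit 84) (nat_lit 5419416866) (nat_lit 76) (nat_lit 5) (nat_lit 88) (nat_lit 5) (nat_lit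 77) (nat_lit 5) (nat_lit 328) (nat_lit 302) (nat_lit 258)) (XT.nd (nat_lit 94) (nat_lit 0) (nat_lit 0) (XT.lf (nat_lit 0) (nat_lit 164726887) (nat_lit 672) (nat_lit 1329968562) (nat_lit 756) (nat_lit 7304868642) (nat_lit 68) (nat_lit 5) (nat_lit 76) (nat_lit 5) (nat_lit 77) (nat_lit 5) (nat_lit 329) (nat_lit 302) (nat_lit 257)) (XT.lf (nat_lit 0) (nat_lit 2877006078) (nat_lit 756) (nat_lit 5395949895) (nat_lit 84) (nat_lit 666884518) (nat_lit 68) (nat_lit 5) (nat_lit 77) (nat_lit 5) (nat_lit 69) (nat_lit 5) (nat_lit 330) (nat_lit 302) (nat_lit 256))))) (XT.nd (nat_lit 282) (nat_lit 504) (nat_lit 0) (XT.nd (nat_lit 94) (nat_lit 504) (nat_lit 0) (XT.lf (nat_lit 0) (nat_lit 4280092418) (nat_lit 756) (nat_lit 2103826683) (nat_lit 84) (nat_lit 2701497398) (nat_lit 68) (nat_lit 5) (nat_lit 77) (nat_lit 5) (nat_lit 69) (nat_lit 5) (nat_lit 331) (nat_lit 302) (nat_lit 255)) (XT.nd (nat_lit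 94) (nat_lit 0) (nat_lit 0) (XT.lf (nat_lit 0) (nat_lit 1283657320) (nat_lit 504) (nat_lit 4421145560) (nat_lit 588) (nat_lit 3531639171) (nat_lit 62) (nat_lit 5) (nat_lit 68) (nat_lit 5) (nat_lit 69) (nat_lit 5) (nat_lit 332) (nat_lit 302) (nat_lit 254)) (XT.lf (nat_lit 0) (nat_lit 4788525105) (nat_lit 504) (nat_lit 2373229112) (nat_lit 588) (nat_lit 2231015746) (nat_lit 62) (nat_lit 5) (nat_lit 68) (nat_lit 5) (nat_lit 69) (nat_lit 5) (nat_lit 333) (nat_lit 302) (nat_lit 253)))) (XT.nd (nat_lit 188) (nat_lit 0) (nat_lit 0) (XT.nd (nat_lit 94) (nat_lit 504) (nat_lit 0) (XT.lf (nat_lit 0) (nat_lit 8370784586) (nat_lit 504) (nat_lit 260220519) (nat_lit 588) (nat_lit 924201126) (nat_lit 62) (nat_lit 5) (nat_lit 68) (nat_lit 5) (nat_lit 69) (nat_lit 5) (nat_lit 334) (nat_lit 302) (nat_lit 252)) (XT.lf (nat_lit 0) (nat_lit 424834395) (nat_lit 504) (nat_lit 7388962462) (nat_lit 84) (nat_lit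 1908662704) (nat_lit 56) (nat_lit 5) (nat_lit 62) (nat_lit 5) (nat_lit 57) (nat_lit 5) (nat_lit 335) (nat_lit 302) (nat_lit 251))) (XT.nd (nat_lit 94) (nat_lit 0) (nat_lit 0) (XT.lf (nat_lit 0) (nat_lit 1779885301) (nat_lit 504) (nat_lit 3953288894) (nat_lit 84) (nat_lit 4162167386) (nat_lit 56) (nat_lit 5) (nat_lit 62) (nat_lit 5) (nat_lit 57) (nat_lit 5) (nat_lit 336) (nat_lit 302) (nat_lit 250)) (XT.lf (nat_lit 0) (nat_lit 3146139965) (nat_lit 504) (nat_lit 442258382) (nat_lit 84) (nat_lit 6486354858) (nat_lit 56) (nat_lit 5) (nat_lit 62) (nat_lit 5) (nat_lit 57) (nat_lit 5) (nat_lit 337) (nat_lit 302) (nat_lit 249))))))) (XT.nd (nat_lit 1222) (nat_lit 924) (nat_lit 0) (XT.nd (nat_lit 564) (nat_lit 672) (nat_lit 0) (XT.nd (nat_lit 282) (nat_lit 504) (nat_lit 0) (XT.nd (nat_lit 94) (nat_lit 336) (nat_lit 0) (XT.lf (nat_lit 0) (nat_lit 3212118756) (nat_lit 420) (nat_lit 1344617740)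 (nat_lit 504) (nat_lit 5703137363) (nat_lit 51) (nat_lit 5) (nat_lit 56) (nat_lit 5) (nat_lit 57) (nat_lit 5) (nat_lit 338) (nat_lit 302) (nat_lit 248)) (XT.nd (nat_lit 94) (nat_lit 336) (nat_lit 0) (XT.lf (nat_lit 0) (nat_lit 5996053571) (nat_lit 504) (nat_lit 3502100309) (nat_lit 84) (nat_lit 953247234) (nat_lit 51) (nat_lit 5) (nat_lit 57) (nat_lit 5) (nat_lit 52) (nat_lit 5) (nat_lit 339) (nat_lit 302) (nat_lit 247)) (XT.lf (nat_lit 0) (nat_lit 111893979) (nat_lit 336) (nat_lit 7354556942) (nat_lit 420) (nat_lit 3183031011) (nat_lit 47) (nat_lit 5) (nat_lit 51) (nat_lit 5) (nat_lit 52) (nat_lit 5) (nat_lit 340) (nat_lit 302) (nat_lit 246)))) (XT.nd (nat_lit 94) (nat_lit 504) (nat_lit 0) (XT.lf (nat_lit 0) (nat_lit 3882391350) (nat_lit 336) (nat_lit 5108751753) (nat_lit 420) (nat_lit 1862480682) (nat_lit 47) (nat_lit 5) (nat_lit 51) (nat_lit 5) (nat_lit 52) (nat_lit 5) (nat_lit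 341) (nat_lit 302) (nat_lit 245)) (XT.nd (nat_lit 94) (nat_lit 504) (nat_lit 0) (XT.lf (nat_lit 0) (nat_lit 7740895936) (nat_lit 336) (nat_lit 2795199729) (nat_lit 420) (nat_lit 529020408) (nat_lit 47) (nat_lit 5) (nat_lit 51) (nat_lit 5) (nat_lit 52) (nat_lit 5) (nat_lit 342) (nat_lit 302) (nat_lit 244)) (XT.lf (nat_lit 0) (nat_lit 406926452) (nat_lit 420) (nat_lit 399210222) (nat_lit 504) (nat_lit 10477642382) (nat_lit 41) (nat_lit 5) (nat_lit 46) (nat_lit 5) (nat_lit 47) (nat_lit 5) (nat_lit 343) (nat_lit 302) (nat_lit 243))))) (XT.nd (nat_lit 282) (nat_lit 336) (nat_lit 0) (XT.nd (nat_lit 94) (nat_lit 336) (nat_lit 0) (XT.lf (nat_lit 0) (nat_lit 2201151709) (nat_lit 504) (nat_lit 7239641250) (nat_lit 84) (nat_lit 2067515436) (nat_lit 41) (nat_lit 5) (nat_lit 47) (nat_lit 5) (nat_lit 42) (nat_lit 5) (nat_lit 344) (nat_lit 302) (nat_lit 242)) (XT.nd (nat_lit 94) (nat_lit 336) (nat_lit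 0) (XT.lf (nat_lit 0) (nat_lit 3618140232) (nat_lit 504) (nat_lit 3522271419) (nat_lit 84) (nat_lit 4600209553) (nat_lit 41) (nat_lit 5) (nat_lit 47) (nat_lit 5) (nat_lit 42) (nat_lit 5) (nat_lit 345) (nat_lit 302) (nat_lit 241)) (XT.lf (nat_lit 0) (nat_lit 288494603) (nat_lit 336) (nat_lit 4768830110) (nat_lit 420) (nat_lit 6923643359) (nat_lit 37) (nat_lit 5) (nat_lit 41) (nat_lit 5) (nat_lit 42) (nat_lit 5) (nat_lit 346) (nat_lit 302) (nat_lit 240)))) (XT.nd (nat_lit 188) (nat_lit 336) (nat_lit 0) (XT.nd (nat_lit 94) (nat_lit 0) (nat_lit 0) (XT.lf (nat_lit 0) (nat_lit 4264689861) (nat_lit 336) (nat_lit 2289074640) (nat_lit 420) (nat_lit 5674763272) (nat_lit 37) (nat_lit 5) (nat_lit 41) (nat_lit 5) (nat_lit 42) (nat_lit 5) (nat_lit 347) (nat_lit 302) (nat_lit 239)) (XT.lf (nat_lit 0) (nat_lit 8075817488) (nat_lit 420) (nat_lit 4149663942) (nat_lit 84) (nat_lit 259073772) (nat_lit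 37) (nat_lit 5) (nat_lit 42) (nat_lit 5) (nat_lit 38) (nat_lit 5) (nat_lit 348) (nat_lit 302) (nat_lit 238))) (XT.nd (nat_lit 94) (nat_lit 336) (nat_lit 0) (XT.lf (nat_lit 0) (nat_lit 9645739879) (nat_lit 420) (nat_lit 267233843) (nat_lit 84) (nat_lit 2835669320) (nat_lit 37) (nat_lit 5) (nat_lit 42) (nat_lit 5) (nat_lit 38) (nat_lit 5) (nat_lit 349) (nat_lit 302) (nat_lit 237)) (XT.lf (nat_lit 0) (nat_lit 3786059788) (nat_lit 336) (nat_lit 7493785497) (nat_lit 420) (nat_lit 1740731808) (nat_lit 33) (nat_lit 5) (nat_lit 37) (nat_lit 5) (nat_lit 38) (nat_lit 5) (nat_lit 350) (nat_lit 302) (nat_lit 236)))))) (XT.nd (nat_lit 564) (nat_lit 336) (nat_lit 0) (XT.nd (nat_lit 282) (nat_lit 252) (nat_lit 0) (XT.nd (nat_lit 94) (nat_lit 336) (nat_lit 0) (XT.lf (nat_lit 0) (nat_lit 7945159194) (nat_lit 336) (nat_lit 5000605079) (nat_lit 420) (nat_lit 355897223) (nat_lit 33) (nat_lit 5) (nat_lit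 37) (nat_lit 5) (nat_lit 38) (nat_lit 5) (nat_lit 351) (nat_lit 302) (nat_lit 235)) (XT.nd (nat_lit 94) (nat_lit 252) (nat_lit 0) (XT.lf (nat_lit 0) (nat_lit 1028944813) (nat_lit 420) (nat_lit 1394213048) (nat_lit 84) (nat_lit 11168761328) (nat_lit 32) (nat_lit 5) (nat_lit 37) (nat_lit 5) (nat_lit 33) (nat_lit 5) (nat_lit 352) (nat_lit 302) (nat_lit 234)) (XT.lf (nat_lit 0) (nat_lit 2458194113) (nat_lit 336) (nat_lit 11176121713) (nat_lit 84) (nat_lit 256595553) (nat_lit 29) (nat_lit 5) (nat_lit 33) (nat_lit 5) (nat_lit 30) (nat_lit 5) (nat_lit 353) (nat_lit 302) (nat_lit 233)))) (XT.nd (nat_lit 94) (nat_lit 252) (nat_lit 0) (XT.lf (nat_lit 0) (nat_lit 3950890718) (nat_lit 336) (nat_lit 7267937116) (nat_lit 84) (nat_lit 2979871717) (nat_lit 29) (nat_lit 5) (nat_lit 33) (nat_lit 5) (nat_lit 30) (nat_lit 5) (nat_lit 354) (nat_lit 302) (nat_lit 232)) (XT.nd (nat_lit 94) (nat_lit 252)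 (nat_lit 0) (XT.lf (nat_lit 0) (nat_lit 5470128430) (nat_lit 336) (nat_lit 3262858668) (nat_lit 84) (nat_lit 5783770719) (nat_lit 29) (nat_lit 5) (nat_lit 33) (nat_lit 5) (nat_lit 30) (nat_lit 5) (nat_lit 355) (nat_lit 302) (nat_lit 231)) (XT.lf (nat_lit 0) (nat_lit 860177440) (nat_lit 252) (nat_lit 6165678965) (nat_lit 336) (nat_lit 7819261710) (nat_lit 26) (nat_lit 5) (nat_lit 29) (nat_lit 5) (nat_lit 30) (nat_lit 5) (nat_lit 356) (nat_lit 302) (nat_lit 230))))) (XT.nd (nat_lit 282) (nat_lit 336) (nat_lit 0) (XT.nd (nat_lit 94) (nat_lit 0) (nat_lit 0) (XT.lf (nat_lit 0) (nat_lit 5156906354) (nat_lit 252) (nat_lit 3488168388) (nat_lit 336) (nat_lit 6538219723) (nat_lit 26) (nat_lit 5) (nat_lit 29) (nat_lit 5) (nat_lit 30) (nat_lit 5) (nat_lit 357) (nat_lit 302) (nat_lit 229)) (XT.nd (nat_lit 94) (nat_lit 0) (nat_lit 0) (XT.lf (nat_lit 0) (nat_lit 9564242008) (nat_lit 252) (nat_lit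 732017200) (nat_lit 336) (nat_lit 5236366912) (nat_lit 26) (nat_lit 5) (nat_lit 29) (nat_lit 5) (nat_lit 30) (nat_lit 5) (nat_lit 358) (nat_lit 302) (nat_lit 228)) (XT.lf (nat_lit 0) (nat_lit 12001834148) (nat_lit 336) (nat_lit 1828031461) (nat_lit 84) (nat_lit 2062925639) (nat_lit 26) (nat_lit 5) (nat_lit 30) (nat_lit 5) (nat_lit 27) (nat_lit 5) (nat_lit 359) (nat_lit 302) (nat_lit 227)))) (XT.nd (nat_lit 188) (nat_lit 84) (nat_lit 0) (XT.nd (nat_lit 94) (nat_lit 0) (nat_lit 0) (XT.lf (nat_lit 0) (nat_lit 2460922372) (nat_lit 252) (nat_lit 11314068428) (nat_lit 336) (nat_lit 2488775118) (nat_lit 23) (nat_lit 5) (nat_lit 26) (nat_lit 5) (nat_lit 27) (nat_lit 5) (nat_lit 360) (nat_lit 302) (nat_lit 226)) (XT.lf (nat_lit 0) (nat_lit 6899963208) (nat_lit 252) (nat_lit 8705344795) (nat_lit 336) (nat_lit 1040962204) (nat_lit 23) (nat_lit 5) (nat_lit 26) (nat_lit 5) (nat_lit 27) (nat_lit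 5) (nat_lit 361) (nat_lit 302) (nat_lit 225))) (XT.nd (nat_lit 94) (nat_lit 0) (nat_lit 0) (XT.lf (nat_lit 0) (nat_lit 425991004) (nat_lit 336) (nat_lit 5589906530) (nat_lit 84) (nat_lit 11025203144) (nat_lit 22) (nat_lit 5) (nat_lit 26) (nat_lit 5) (nat_lit 23) (nat_lit 5) (nat_lit 362) (nat_lit 302) (nat_lit 224)) (XT.lf (nat_lit 0) (nat_lit 1900656380) (nat_lit 336) (nat_lit 1336068027) (nat_lit 84) (nat_lit 14211705643) (nat_lit 22) (nat_lit 5) (nat_lit 26) (nat_lit 5) (nat_lit 23) (nat_lit 5) (nat_lit 363) (nat_lit 302) (nat_lit 223))))))))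
noncomputable def xc101 : XT := (XT.nd (nat_lit 2350) (nat_lit 420) (nat_lit 0) (XT.nd (nat_lit 1128) (nat_lit 336) (nat_lit 0) (XT.nd (nat_lit 564) (nat_lit 252) (nat_lit 0) (XT.nd (nat_lit 282) (nat_lit 168) (nat_lit 0) (XT.nd (nat_lit 94) (nat_lit 0) (nat_lit 0) (XT.lf (nat_lit 0) (nat_lit 3091792740) (nat_lit 252) (nat_lit 344259761) (nat_lit 336) (nat_lit 14431954816) (nat_lit 19) (nat_lit 5) (nat_lit 22) (nat_lit 5) (nat_lit 23) (nat_lit 5) (nat_lit 364) (nat_lit 302) (nat_lit 222)) (XT.nd (nat_lit 94) (nat_lit 0) (nat_lit 0) (XT.lf (nat_lit 0) (nat_lit 5043875279) (nat_lit 336) (nat_lit 10661679498) (nat_lit 84) (nat_lit 2594350585) (nat_lit 19) (nat_lit 5) (nat_lit 23) (nat_lit 5) (nat_lit 20) (nat_lit 5) (nat_lit 365) (nat_lit 302) (nat_lit 221)) (XT.lf (nat_lit 0) (nat_lit 6690098313) (nat_lit 336) (nat_lit 6442950714) (nat_lit 84) (nat_lit 5612579009) (nat_lit 19) (nat_lit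 5) (nat_lit 23) (nat_lit 5) (nat_lit 20) (nat_lit 5) (nat_lit 366) (nat_lit 302) (nat_lit 220)))) (XT.nd (nat_lit 94) (nat_lit 168) (nat_lit 0) (XT.lf (nat_lit 0) (nat_lit 8372840957) (nat_lit 336) (nat_lit 2112680829) (nat_lit 84) (nat_lit 8720174882) (nat_lit 19) (nat_lit 5) (nat_lit 23) (nat_lit 5) (nat_lit 20) (nat_lit 5) (nat_lit 367) (nat_lit 302) (nat_lit 219)) (XT.nd (nat_lit 94) (nat_lit 0) (nat_lit 0) (XT.lf (nat_lit 0) (nat_lit 2381141110) (nat_lit 168) (nat_lit 7736151808) (nat_lit 252) (nat_lit 9562514914) (nat_lit 17) (nat_lit 5) (nat_lit 19) (nat_lit 5) (nat_lit 20) (nat_lit 5) (nat_lit 368) (nat_lit 302) (nat_lit 218)) (XT.lf (nat_lit 0) (nat_lit 7040587180) (nat_lit 168) (nat_lit 4883450863) (nat_lit 252) (nat_lit 8244397712) (nat_lit 17) (nat_lit 5) (nat_lit 19) (nat_lit 5) (nat_lit 20) (nat_lit 5) (nat_lit 369) (nat_lit 302) (nat_lit 217))))) (XT.nd (nat_lit 282)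 (nat_lit 84) (nat_lit 0) (XT.nd (nat_lit 94) (nat_lit 168) (nat_lit 0) (XT.lf (nat_lit 0) (nat_lit 11826559420) (nat_lit 168) (nat_lit 1946811992) (nat_lit 252) (nat_lit 6899327538) (nat_lit 17) (nat_lit 5) (nat_lit 19) (nat_lit 5) (nat_lit 20) (nat_lit 5) (nat_lit 370) (nat_lit 302) (nat_lit 216)) (XT.nd (nat_lit 94) (nat_lit 168) (nat_lit 0) (XT.lf (nat_lit 0) (nat_lit 15677695831) (nat_lit 252) (nat_lit 4460227618) (nat_lit 84) (nat_lit 1054812943) (nat_lit 17) (nat_lit 5) (nat_lit 20) (nat_lit 5) (nat_lit 18) (nat_lit 5) (nat_lit 371) (nat_lit 302) (nat_lit 215)) (XT.lf (nat_lit 0) (nat_lit 24966905) (nat_lit 168) (nat_lit 17623578511) (nat_lit 252) (nat_lit 4080184864) (nat_lit 15) (nat_lit 5) (nat_lit 17) (nat_lit 5) (nat_lit 18) (nat_lit 5) (nat_lit 372) (nat_lit 302) (nat_lit 214)))) (XT.nd (nat_lit 94) (nat_lit 84) (nat_lit 0) (XT.lf (nat_lit 0) (nat_lit 4726659430) (nat_lit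 168) (nat_lit 14987930952) (nat_lit 252) (nat_lit 2565758005) (nat_lit 15) (nat_lit 5) (nat_lit 17) (nat_lit 5) (nat_lit 18) (nat_lit 5) (nat_lit 373) (nat_lit 302) (nat_lit 213)) (XT.nd (nat_lit 94) (nat_lit 84) (nat_lit 0) (XT.lf (nat_lit 0) (nat_lit 9557521000) (nat_lit 168) (nat_lit 12275079701) (nat_lit 252) (nat_lit 1016904009) (nat_lit 15) (nat_lit 5) (nat_lit 17) (nat_lit 5) (nat_lit 18) (nat_lit 5) (nat_lit 374) (nat_lit 302) (nat_lit 212)) (XT.lf (nat_lit 0) (nat_lit 556380494) (nat_lit 252) (nat_lit 8920308131) (nat_lit 84) (nat_lit 13959866516) (nat_lit 14) (nat_lit 5) (nat_lit 17) (nat_lit 5) (nat_lit 15) (nat_lit 5) (nat_lit 375) (nat_lit 302) (nat_lit 211)))))) (XT.nd (nat_lit 564) (nat_lit 168) (nat_lit 0) (XT.nd (nat_lit 282) (nat_lit 0) (nat_lit 0) (XT.nd (nat_lit 94) (nat_lit 168) (nat_lit 0) (XT.lf (nat_lit 0) (nat_lit 2145772130) (nat_lit 252) (nat_lit 4439407567)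 (nat_lit 84) (nat_lit 17456717751) (nat_lit 14) (nat_lit 5) (nat_lit 17) (nat_lit 5) (nat_lit 15) (nat_lit 5) (nat_lit 376) (nat_lit 302) (nat_lit 210)) (XT.nd (nat_lit 94) (nat_lit 0) (nat_lit 0) (XT.lf (nat_lit 0) (nat_lit 168374840) (nat_lit 168) (nat_lit 3606536187) (nat_lit 252) (nat_lit 20891445789) (nat_lit 12) (nat_lit 5) (nat_lit 14) (nat_lit 5) (nat_lit 15) (nat_lit 5) (nat_lit 377) (nat_lit 302) (nat_lit 209)) (XT.lf (nat_lit 0) (nat_lit 4997849258) (nat_lit 168) (nat_lit 492033286) (nat_lit 252) (nat_lit 19819251193) (nat_lit 12) (nat_lit 5) (nat_lit 14) (nat_lit 5) (nat_lit 15) (nat_lit 5) (nat_lit 378) (nat_lit 302) (nat_lit 208)))) (XT.nd (nat_lit 94) (nat_lit 0) (nat_lit 0) (XT.lf (nat_lit 0) (nat_lit 7274272279) (nat_lit 252) (nat_lit 16036918783) (nat_lit 84) (nat_lit 2660194681) (nat_lit 12) (nat_lit 5) (nat_lit 15) (nat_lit 5) (nat_lit 13) (nat_lit 5) (nat_lit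 379) (nat_lit 302) (nat_lit 207)) (XT.nd (nat_lit 94) (nat_lit 0) (nat_lit 0) (XT.lf (nat_lit 0) (nat_lit 9108613829) (nat_lit 252) (nat_lit 11649771091) (nat_lit 84) (nat_lit 5896000225) (nat_lit 12) (nat_lit 5) (nat_lit 15) (nat_lit 5) (nat_lit 13) (nat_lit 5) (nat_lit 380) (nat_lit 302) (nat_lit 206)) (XT.lf (nat_lit 0) (nat_lit 10989735960) (nat_lit 252) (nat_lit 7140871090) (nat_lit 84) (nat_lit 9228312830) (nat_lit 12) (nat_lit 5) (nat_lit 15) (nat_lit 5) (nat_lit 13) (nat_lit 5) (nat_lit 381) (nat_lit 302) (nat_lit 205))))) (XT.nd (nat_lit 282) (nat_lit 0) (nat_lit 0) (XT.nd (nat_lit 94) (nat_lit 168) (nat_lit 0) (XT.lf (nat_lit 0) (nat_lit 12919392076) (nat_lit 252) (nat_lit 2506016013) (nat_lit 84) (nat_lit 12660238559) (nat_lit 12) (nat_lit 5) (nat_lit 15) (nat_lit 5) (nat_lit 13) (nat_lit 5) (nat_lit 382) (nat_lit 302) (nat_lit 204)) (XT.nd (nat_lit 94) (nat_lit 0) (nat_lit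 0) (XT.lf (nat_lit 0) (nat_lit 2305566332) (nat_lit 168) (nat_lit 12616685989) (nat_lit 252) (nat_lit 13912281499) (nat_lit 10) (nat_lit 5) (nat_lit 12) (nat_lit 5) (nat_lit 13) (nat_lit 5) (nat_lit 383) (nat_lit 302) (nat_lit 203)) (XT.lf (nat_lit 0) (nat_lit 7306164409) (nat_lit 168) (nat_lit 9697861390) (nat_lit 252) (nat_lit 12602134528) (nat_lit 10) (nat_lit 5) (nat_lit 12) (nat_lit 5) (nat_lit 13) (nat_lit 5) (nat_lit 384) (nat_lit 302) (nat_lit 202)))) (XT.nd (nat_lit 188) (nat_lit 0) (nat_lit 0) (XT.nd (nat_lit 94) (nat_lit 0) (nat_lit 0) (XT.lf (nat_lit 0) (nat_lit 12448910468) (nat_lit 168) (nat_lit 6692371309) (nat_lit 252) (nat_lit 11260750132) (nat_lit 10) (nat_lit 5) (nat_lit 12) (nat_lit 5) (nat_lit 13) (nat_lit 5) (nat_lit 385) (nat_lit 302) (nat_lit 201)) (XT.lf (nat_lit 0) (nat_lit 17738598089) (nat_lit 168) (nat_lit 3597414315) (nat_lit 252) (nat_lit 9886878003)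 (nat_lit 10) (nat_lit 5) (nat_lit 12) (nat_lit 5) (nat_lit 13) (nat_lit 5) (nat_lit 386) (nat_lit 302) (nat_lit 200))) (XT.nd (nat_lit 94) (nat_lit 0) (nat_lit 0) (XT.lf (nat_lit 0) (nat_lit 23180157813) (nat_lit 168) (nat_lit 410105584) (nat_lit 252) (nat_lit 8479237546) (nat_lit 10) (nat_lit 5) (nat_lit 12) (nat_lit 5) (nat_lit 13) (nat_lit 5) (nat_lit 387) (nat_lit 302) (nat_lit 199)) (XT.lf (nat_lit 0) (nat_lit 25934631767) (nat_lit 252) (nat_lit 4192486716) (nat_lit 84) (nat_lit 2814650796) (nat_lit 10) (nat_lit 5) (nat_lit 13) (nat_lit 5) (nat_lit 11) (nat_lit 4) (nat_lit 388) (nat_lit 302) (nat_lit 198))))))) (XT.nd (nat_lit 1222) (nat_lit 84) (nat_lit 0) (XT.nd (nat_lit 564) (nat_lit 168) (nat_lit 0) (XT.nd (nat_lit 282) (nat_lit 84) (nat_lit 0) (XT.nd (nat_lit 94) (nat_lit 0) (nat_lit 0) (XT.lf (nat_lit 0) (nat_lit 647172071) (nat_lit 84) (nat_lit 27707072556) (nat_lit 168)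 (nat_lit 5486792632) (nat_lit 9) (nat_lit 5) (nat_lit 10) (nat_lit 5) (nat_lit 11) (nat_lit 4) (nat_lit 389) (nat_lit 302) (nat_lit 197)) (XT.nd (nat_lit 94) (nat_lit 0) (nat_lit 0) (XT.lf (nat_lit 0) (nat_lit 5714211854) (nat_lit 84) (nat_lit 25170496783) (nat_lit 168) (nat_lit 3882400568) (nat_lit 9) (nat_lit 5) (nat_lit 10) (nat_lit 5) (nat_lit 11) (nat_lit 4) (nat_lit 390) (nat_lit 302) (nat_lit 196)) (XT.lf (nat_lit 0) (nat_lit 10927149520) (nat_lit 84) (nat_lit 22558787771) (nat_lit 168) (nat_lit 2236226821) (nat_lit 9) (nat_lit 5) (nat_lit 10) (nat_lit 5) (nat_lit 11) (nat_lit 4) (nat_lit 391) (nat_lit 302) (nat_lit 195)))) (XT.nd (nat_lit 94) (nat_lit 84) (nat_lit 0) (XT.lf (nat_lit 0) (nat_lit 16290844072) (nat_lit 84) (nat_lit 19869511135) (nat_lit 168) (nat_lit 546736986) (nat_lit 9) (nat_lit 5) (nat_lit 10) (nat_lit 5) (nat_lit 11) (nat_lit 4) (nat_lit 392) (nat_lit 302)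 (nat_lit 194)) (XT.nd (nat_lit 94) (nat_lit 0) (nat_lit 0) (XT.lf (nat_lit 0) (nat_lit 1163715344) (nat_lit 168) (nat_lit 15924298041) (nat_lit 84) (nat_lit 20634432888) (nat_lit 8) (nat_lit 5) (nat_lit 10) (nat_lit 5) (nat_lit 9) (nat_lit 5) (nat_lit 393) (nat_lit 302) (nat_lit 193)) (XT.lf (nat_lit 0) (nat_lit 2908722616) (nat_lit 168) (nat_lit 11309069888) (nat_lit 84) (nat_lit 24551563400) (nat_lit 8) (nat_lit 5) (nat_lit 10) (nat_lit 5) (nat_lit 9) (nat_lit 5) (nat_lit 394) (nat_lit 302) (nat_lit 192))))) (XT.nd (nat_lit 282) (nat_lit 0) (nat_lit 0) (XT.nd (nat_lit 94) (nat_lit 168) (nat_lit 0) (XT.lf (nat_lit 0) (nat_lit 4700926890) (nat_lit 168) (nat_lit 6560838087) (nat_lit 84) (nat_lit 28587200072) (nat_lit 8) (nat_lit 5) (nat_lit 10) (nat_lit 5) (nat_lit 9) (nat_lit 5) (nat_lit 395) (nat_lit 302) (nat_lit 191)) (XT.nd (nat_lit 94) (nat_lit 168) (nat_lit 0) (XT.lf (nat_lit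 0) (nat_lit 6541998688) (nat_lit 168) (nat_lit 1675176788) (nat_lit 84) (nat_lit 32745104538) (nat_lit 8) (nat_lit 5) (nat_lit 10) (nat_lit 5) (nat_lit 9) (nat_lit 5) (nat_lit 396) (nat_lit 302) (nat_lit 190)) (XT.lf (nat_lit 0) (nat_lit 3421401571) (nat_lit 168) (nat_lit 5046193237) (nat_lit 252) (nat_lit 33641691558) (nat_lit 6) (nat_lit 5) (nat_lit 8) (nat_lit 5) (nat_lit 9) (nat_lit 5) (nat_lit 397) (nat_lit 302) (nat_lit 189)))) (XT.nd (nat_lit 188) (nat_lit 0) (nat_lit 0) (XT.nd (nat_lit 94) (nat_lit 0) (nat_lit 0) (XT.lf (nat_lit 0) (nat_lit 8702110570) (nat_lit 168) (nat_lit 1761871736) (nat_lit 252) (nat_lit 32827552289) (nat_lit 6) (nat_lit 5) (nat_lit 8) (nat_lit 5) (nat_lit 9) (nat_lit 5) (nat_lit 398) (nat_lit 302) (nat_lit 188)) (XT.lf (nat_lit 0) (nat_lit 12532146504) (nat_lit 252) (nat_lit 30389309263) (nat_lit 84) (nat_lit 1588698056) (nat_lit 6) (nat_lit 5) (nat_lit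 9) (nat_lit 5) (nat_lit 7) (nat_lit 4) (nat_lit 399) (nat_lit 302) (nat_lit 187))) (XT.nd (nat_lit 94) (nat_lit 0) (nat_lit 0) (XT.lf (nat_lit 0) (nat_lit 14676406533) (nat_lit 252) (nat_lit 26086016946) (nat_lit 84) (nat_lit 5003782317) (nat_lit 6) (nat_lit 5) (nat_lit 9) (nat_lit 5) (nat_lit 7) (nat_lit 4) (nat_lit 400) (nat_lit 302) (nat_lit 186)) (XT.lf (nat_lit 0) (nat_lit 16881283083) (nat_lit 252) (nat_lit 21658057970) (nat_lit 84) (nat_lit 8522062051) (nat_lit 6) (nat_lit 5) (nat_lit 9) (nat_lit 5) (nat_lit 7) (nat_lit 4) (nat_lit 401) (nat_lit 302) (nat_lit 185)))))) (XT.nd (nat_lit 564) (nat_lit 0) (nat_lit 0) (XT.nd (nat_lit 282) (nat_lit 84) (nat_lit 0) (XT.nd (nat_lit 94) (nat_lit 0) (nat_lit 0) (XT.lf (nat_lit 0) (nat_lit 19148831331) (nat_lit 252) (nat_lit 17101305013) (nat_lit 84) (nat_lit 12146816664) (nat_lit 6) (nat_lit 5) (nat_lit 9) (nat_lit 5) (nat_lit 7) (nat_lit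 4) (nat_lit 402) (nat_lit 302) (nat_lit 184)) (XT.nd (nat_lit 94) (nat_lit 0) (nat_lit 0) (XT.lf (nat_lit 0) (nat_lit 21481164869) (nat_lit 252) (nat_lit 12411510704) (nat_lit 84) (nat_lit 15881424806) (nat_lit 6) (nat_lit 5) (nat_lit 9) (nat_lit 5) (nat_lit 7) (nat_lit 4) (nat_lit 403) (nat_lit 302) (nat_lit 183)) (XT.lf (nat_lit 0) (nat_lit 23880457675) (nat_lit 252) (nat_lit 7584303664) (nat_lit 84) (nat_lit 19729367523) (nat_lit 6) (nat_lit 5) (nat_lit 9) (nat_lit 5) (nat_lit 7) (nat_lit 4) (nat_lit 404) (nat_lit 302) (nat_lit 182)))) (XT.nd (nat_lit 94) (nat_lit 84) (nat_lit 0) (XT.lf (nat_lit 0) (nat_lit 26348946142) (nat_lit 252) (nat_lit 2615184431) (nat_lit 84) (nat_lit 23694231501) (nat_lit 6) (nat_lit 5) (nat_lit 9) (nat_lit 5) (nat_lit 7) (nat_lit 4) (nat_lit 405) (nat_lit 302) (nat_lit 181)) (XT.nd (nat_lit 94) (nat_lit 0) (nat_lit 0) (XT.lf (nat_lit 0) (nat_lit 2551893706)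 (nat_lit 84) (nat_lit 26362352555) (nat_lit 168) (nat_lit 25253133804) (nat_lit 5) (nat_lit 5) (nat_lit 6) (nat_lit 5) (nat_lit 7) (nat_lit 4) (nat_lit 406) (nat_lit 302) (nat_lit 180)) (XT.lf (nat_lit 0) (nat_lit 7927168958) (nat_lit 84) (nat_lit 23654249801) (nat_lit 168) (nat_lit 24141087881) (nat_lit 5) (nat_lit 5) (nat_lit 6) (nat_lit 5) (nat_lit 7) (nat_lit 4) (nat_lit 407) (nat_lit 302) (nat_lit 179))))) (XT.nd (nat_lit 282) (nat_lit 0) (nat_lit 0) (XT.nd (nat_lit 94) (nat_lit 0) (nat_lit 0) (XT.lf (nat_lit 0) (nat_lit 13461878088) (nat_lit 84) (nat_lit 20864595237) (nat_lit 168) (nat_lit 22999538784) (nat_lit 5) (nat_lit 5) (nat_lit 6) (nat_lit 5) (nat_lit 7) (nat_lit 4) (nat_lit 408) (nat_lit 302) (nat_lit 178)) (XT.nd (nat_lit 94) (nat_lit 0) (nat_lit 0) (XT.lf (nat_lit 0) (nat_lit 19161180024) (nat_lit 84) (nat_lit 17990788613) (nat_lit 168) (nat_lit 21827422469) (nat_lit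 5) (nat_lit 5) (nat_lit 6) (nat_lit 5) (nat_lit 7) (nat_lit 4) (nat_lit 409) (nat_lit 302) (nat_lit 177)) (XT.lf (nat_lit 0) (nat_lit 25030387112) (nat_lit 84) (nat_lit 15030151240) (nat_lit 168) (nat_lit 20623646401) (nat_lit 5) (nat_lit 5) (nat_lit 6) (nat_lit 5) (nat_lit 7) (nat_lit 4) (nat_lit 410) (nat_lit 302) (nat_lit 176)))) (XT.nd (nat_lit 188) (nat_lit 0) (nat_lit 0) (XT.nd (nat_lit 94) (nat_lit 0) (nat_lit 0) (XT.lf (nat_lit 0) (nat_lit 31074970069) (nat_lit 84) (nat_lit 11979923495) (nat_lit 168) (nat_lit 19387088534) (nat_lit 5) (nat_lit 5) (nat_lit 6) (nat_lit 5) (nat_lit 7) (nat_lit 4) (nat_lit 411) (nat_lit 302) (nat_lit 175)) (XT.lf (nat_lit 0) (nat_lit 37300563080) (nat_lit 84) (nat_lit 8837262245) (nat_lit 168) (nat_lit 18116596266) (nat_lit 5) (nat_lit 5) (nat_lit 6) (nat_lit 5) (nat_lit 7) (nat_lit 4) (nat_lit 412) (nat_lit 302) (nat_lit 174))) (XT.nd (nat_lit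 94) (nat_lit 0) (nat_lit 0) (XT.lf (nat_lit 0) (nat_lit 43712969048) (nat_lit 84) (nat_lit 5599238200) (nat_lit 168) (nat_lit 16810985367) (nat_lit 5) (nat_lit 5) (nat_lit 6) (nat_lit 5) (nat_lit 7) (nat_lit 4) (nat_lit 413) (nat_lit 302) (nat_lit 173)) (XT.lf (nat_lit 0) (nat_lit 50318165008) (nat_lit 84) (nat_lit 2262833184) (nat_lit 168) (nat_lit 15469038870) (nat_lit 5) (nat_lit 5) (nat_lit 6) (nat_lit 5) (nat_lit 7) (nat_lit 4) (nat_lit 414) (nat_lit 302) (nat_lit 172))))))))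
noncomputable def xc102 : XT := (XT.nd (nat_lit 46530) (nat_lit 0) (nat_lit 3696) (XT.nd (nat_lit 45308) (nat_lit 0) (nat_lit 9408) (XT.nd (nat_lit 564) (nat_lit 84) (nat_lit 0) (XT.nd (nat_lit 282) (nat_lit 84) (nat_lit 0) (XT.nd (nat_lit 94) (nat_lit 0) (nat_lit 0) (XT.lf (nat_lit 0) (nat_lit 55958901780) (nat_lit 168) (nat_lit 12926100025) (nat_lit 0) (nat_lit 1151387787) (nat_lit 5) (nat_lit 5) (nat_lit 7) (nat_lit 4) (nat_lit 5) (nat_lit 4) (nat_lit 415) (nat_lit 302) (nat_lit 171)) (XT.nd (nat_lit 94) (nat_lit 0) (nat_lit 0) (XT.lf (nat_lit 0) (nat_lit 59460885114) (nat_lit 168) (nat_lit 8000246539) (nat_lit 0) (nat_lit 4622603666) (nat_lit 5) (nat_lit 5) (nat_lit 7) (nat_lit 4) (nat_lit 5) (nat_lit 4) (nat_lit 416) (nat_lit 302) (nat_lit 170)) (XT.lf (nat_lit 0) (nat_lit 63067764824) (nat_lit 168) (nat_lit 2927272601) (nat_lit 0) (nat_lit 8199641034) (nat_lit 5) (nat_lit 5)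 (nat_lit 7) (nat_lit 4) (nat_lit 5) (nat_lit 4) (nat_lit 417) (nat_lit 302) (nat_lit 169)))) (XT.nd (nat_lit 94) (nat_lit 0) (nat_lit 0) (XT.lf (nat_lit 0) (nat_lit 2344792679) (nat_lit 84) (nat_lit 64461370854) (nat_lit 84) (nat_lit 9564302018) (nat_lit 4) (nat_lit 4) (nat_lit 5) (nat_lit 5) (nat_lit 5) (nat_lit 4) (nat_lit 418) (nat_lit 302) (nat_lit 168)) (XT.nd (nat_lit 94) (nat_lit 0) (nat_lit 0) (XT.lf (nat_lit 0) (nat_lit 7836990232) (nat_lit 84) (nat_lit 62850515920) (nat_lit 84) (nat_lit 7925372356) (nat_lit 4) (nat_lit 4) (nat_lit 5) (nat_lit 5) (nat_lit 5) (nat_lit 4) (nat_lit 419) (nat_lit 302) (nat_lit 167)) (XT.lf (nat_lit 0) (nat_lit 13494248633) (nat_lit 84) (nat_lit 61191525862) (nat_lit 84) (nat_lit 6239151716) (nat_lit 4) (nat_lit 4) (nat_lit 5) (nat_lit 5) (nat_lit 5) (nat_lit 4) (nat_lit 420) (nat_lit 302) (nat_lit 166))))) (XT.nd (nat_lit 282) (nat_lit 84) (nat_lit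 0) (XT.nd (nat_lit 94) (nat_lit 0) (nat_lit 0) (XT.lf (nat_lit 0) (nat_lit 19321841038) (nat_lit 84) (nat_lit 59482854325) (nat_lit 84) (nat_lit 4504068365) (nat_lit 4) (nat_lit 4) (nat_lit 5) (nat_lit 5) (nat_lit 5) (nat_lit 4) (nat_lit 421) (nat_lit 302) (nat_lit 165)) (XT.nd (nat_lit 94) (nat_lit 0) (nat_lit 0) (XT.lf (nat_lit 0) (nat_lit 25325199374) (nat_lit 84) (nat_lit 57722908650) (nat_lit 84) (nat_lit 2718505022) (nat_lit 4) (nat_lit 4) (nat_lit 5) (nat_lit 5) (nat_lit 5) (nat_lit 4) (nat_lit 422) (nat_lit 302) (nat_lit 164)) (XT.lf (nat_lit 0) (nat_lit 31509919400) (nat_lit 84) (nat_lit 55910048382) (nat_lit 84) (nat_lit 880797357) (nat_lit 4) (nat_lit 4) (nat_lit 5) (nat_lit 5) (nat_lit 5) (nat_lit 4) (nat_lit 423) (nat_lit 302) (nat_lit 163)))) (XT.nd (nat_lit 94) (nat_lit 0) (nat_lit 0) (XT.lf (nat_lit 0) (nat_lit 990402853) (nat_lit 168) (nat_lit 53041843118) (nat_lit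 84) (nat_lit 36881025295) (nat_lit 3) (nat_lit 5) (nat_lit 5) (nat_lit 5) (nat_lit 4) (nat_lit 4) (nat_lit 424) (nat_lit 302) (nat_lit 162)) (XT.nd (nat_lit 44274) (nat_lit 0) (nat_lit 11088) (XT.lf (nat_lit 0) (nat_lit 2898356729) (nat_lit 168) (nat_lit 49190164441) (nat_lit 84) (nat_lit 41518068542) (nat_lit 3) (nat_lit 5) (nat_lit 5) (nat_lit 5) (nat_lit 4) (nat_lit 4) (nat_lit 425) (nat_lit 302) (nat_lit 161)) (XT.lf (nat_lit 0) (nat_lit 355094793) (nat_lit 0) (nat_lit 355094793) (nat_lit 420) (nat_lit 2634905183) (nat_lit 135) (nat_lit 5) (nat_lit 135) (nat_lit 3) (nat_lit 140) (nat_lit 3) (nat_lit 303) (nat_lit 303) (nat_lit 282)))))) (XT.nd (nat_lit 564) (nat_lit 1176) (nat_lit 0) (XT.nd (nat_lit 282) (nat_lit 504) (nat_lit 0) (XT.nd (nat_lit 94) (nat_lit 0) (nat_lit 0) (XT.lf (nat_lit 0) (nat_lit 3077976901) (nat_lit 420) (nat_lit 3642077763) (nat_lit 504) (nat_lit 6590977)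 (nat_lit 135) (nat_lit 5) (nat_lit 140) (nat_lit 3) (nat_lit 141) (nat_lit 5) (nat_lit 304) (nat_lit 303) (nat_lit 281)) (XT.nd (nat_lit 94) (nat_lit 0) (nat_lit 0) (XT.lf (nat_lit 0) (nat_lit 4728646646) (nat_lit 420) (nat_lit 1274931890) (nat_lit 504) (nat_lit 763127506) (nat_lit 135) (nat_lit 5) (nat_lit 140) (nat_lit 3) (nat_lit 141) (nat_lit 5) (nat_lit 305) (nat_lit 303) (nat_lit 280)) (XT.lf (nat_lit 84) (nat_lit 1153938553) (nat_lit 0) (nat_lit 5224390496) (nat_lit 504) (nat_lit 431942569) (nat_lit 136) (nat_lit 5) (nat_lit 135) (nat_lit 5) (nat_lit 141) (nat_lit 5) (nat_lit 306) (nat_lit 303) (nat_lit 279)))) (XT.nd (nat_lit 94) (nat_lit 0) (nat_lit 0) (XT.lf (nat_lit 0) (nat_lit 1149463096) (nat_lit 504) (nat_lit 3218383521) (nat_lit 588) (nat_lit 2489117885) (nat_lit 129) (nat_lit 5) (nat_lit 135) (nat_lit 5) (nat_lit 136) (nat_lit 5) (nat_lit 307) (nat_lit 303) (nat_lit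 278)) (XT.nd (nat_lit 94) (nat_lit 0) (nat_lit 0) (XT.lf (nat_lit 0) (nat_lit 2709538283) (nat_lit 504) (nat_lit 744641175) (nat_lit 588) (nat_lit 3453281116) (nat_lit 129) (nat_lit 5) (nat_lit 135) (nat_lit 5) (nat_lit 136) (nat_lit 5) (nat_lit 308) (nat_lit 303) (nat_lit 277)) (XT.lf (nat_lit 84) (nat_lit 1807910042) (nat_lit 0) (nat_lit 2468464475) (nat_lit 588) (nat_lit 2685009241) (nat_lit 130) (nat_lit 5) (nat_lit 129) (nat_lit 5) (nat_lit 136) (nat_lit 5) (nat_lit 309) (nat_lit 303) (nat_lit 276))))) (XT.nd (nat_lit 282) (nat_lit 588) (nat_lit 0) (XT.nd (nat_lit 94) (nat_lit 588) (nat_lit 0) (XT.lf (nat_lit 84) (nat_lit 4421421133) (nat_lit 0) (nat_lit 1420051376) (nat_lit 588) (nat_lit 1177620560) (nat_lit 130) (nat_lit 5) (nat_lit 129) (nat_lit 5) (nat_lit 136) (nat_lit 5) (nat_lit 310) (nat_lit 303) (nat_lit 275)) (XT.nd (nat_lit 94) (nat_lit 0) (nat_lit 84) (XT.lf (nat_lit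 0) (nat_lit 311471768) (nat_lit 588) (nat_lit 1012562) (nat_lit 672) (nat_lit 6768293916) (nat_lit 122) (nat_lit 5) (nat_lit 129) (nat_lit 5) (nat_lit 130) (nat_lit 5) (nat_lit 311) (nat_lit 303) (nat_lit 274)) (XT.lf (nat_lit 0) (nat_lit 1802025651) (nat_lit 588) (nat_lit 4469661411) (nat_lit 672) (nat_lit 873448947) (nat_lit 123) (nat_lit 5) (nat_lit 130) (nat_lit 5) (nat_lit 131) (nat_lit 5) (nat_lit 312) (nat_lit 303) (nat_lit 273)))) (XT.nd (nat_lit 188) (nat_lit 672) (nat_lit 0) (XT.nd (nat_lit 94) (nat_lit 0) (nat_lit 0) (XT.lf (nat_lit 0) (nat_lit 3287835329) (nat_lit 588) (nat_lit 1815371984) (nat_lit 672) (nat_lit 2110352148) (nat_lit 123) (nat_lit 5) (nat_lit 130) (nat_lit 5) (nat_lit 131) (nat_lit 5) (nat_lit 313) (nat_lit 303) (nat_lit 272)) (XT.lf (nat_lit 84) (nat_lit 904861337) (nat_lit 0) (nat_lit 3871290491) (nat_lit 672) (nat_lit 2509778702) (nat_lit 124) (nat_lit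 5) (nat_lit 123) (nat_lit 5) (nat_lit 131) (nat_lit 5) (nat_lit 314) (nat_lit 303) (nat_lit 271))) (XT.nd (nat_lit 94) (nat_lit 672) (nat_lit 0) (XT.lf (nat_lit 84) (nat_lit 3713686797) (nat_lit 0) (nat_lit 2564578475) (nat_lit 672) (nat_lit 1083744412) (nat_lit 124) (nat_lit 5) (nat_lit 123) (nat_lit 5) (nat_lit 131) (nat_lit 5) (nat_lit 315) (nat_lit 303) (nat_lit 270)) (XT.lf (nat_lit 0) (nat_lit 328014538) (nat_lit 672) (nat_lit 869363696) (nat_lit 756) (nat_lit 6244956406) (nat_lit 115) (nat_lit 5) (nat_lit 123) (nat_lit 5) (nat_lit 124) (nat_lit 5) (nat_lit 316) (nat_lit 303) (nat_lit 269))))))) (XT.nd (nat_lit 1222) (nat_lit 2436) (nat_lit 0) (XT.nd (nat_lit 564) (nat_lit 1848) (nat_lit 0) (XT.nd (nat_lit 282) (nat_lit 840) (nat_lit 0) (XT.nd (nat_lit 94) (nat_lit 672) (nat_lit 0) (XT.lf (nat_lit 0) (nat_lit 1734182206) (nat_lit 672) (nat_lit 5537563754) (nat_lit 84) (nat_lit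 254313843) (nat_lit 116) (nat_lit 5) (nat_lit 124) (nat_lit 5) (nat_lit 117) (nat_lit 5) (nat_lit 317) (nat_lit 303) (nat_lit 268)) (XT.nd (nat_lit 94) (nat_lit 672) (nat_lit 0) (XT.lf (nat_lit 0) (nat_lit 3157478044) (nat_lit 672) (nat_lit 2706387944) (nat_lit 84) (nat_lit 1749743718) (nat_lit 116) (nat_lit 5) (nat_lit 124) (nat_lit 5) (nat_lit 117) (nat_lit 5) (nat_lit 318) (nat_lit 303) (nat_lit 267)) (XT.lf (nat_lit 0) (nat_lit 181953412) (nat_lit 672) (nat_lit 4398310612) (nat_lit 756) (nat_lit 3125389833) (nat_lit 108) (nat_lit 5) (nat_lit 116) (nat_lit 5) (nat_lit 117) (nat_lit 5) (nat_lit 319) (nat_lit 303) (nat_lit 266)))) (XT.nd (nat_lit 94) (nat_lit 840) (nat_lit 0) (XT.lf (nat_lit 0) (nat_lit 3183287415) (nat_lit 672) (nat_lit 2846740842) (nat_lit 756) (nat_lit 1771438777) (nat_lit 108) (nat_lit 5) (nat_lit 116) (nat_lit 5) (nat_lit 117) (nat_lit 5) (nat_lit 320) (nat_lit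 303) (nat_lit 265)) (XT.nd (nat_lit 94) (nat_lit 840) (nat_lit 0) (XT.lf (nat_lit 0) (nat_lit 6244762735) (nat_lit 672) (nat_lit 1235959591) (nat_lit 756) (nat_lit 421265611) (nat_lit 108) (nat_lit 5) (nat_lit 116) (nat_lit 5) (nat_lit 117) (nat_lit 5) (nat_lit 321) (nat_lit 303) (nat_lit 264)) (XT.lf (nat_lit 0) (nat_lit 925973334) (nat_lit 840) (nat_lit 6630607636) (nat_lit 84) (nat_lit 449878658) (nat_lit 98) (nat_lit 5) (nat_lit 108) (nat_lit 5) (nat_lit 99) (nat_lit 5) (nat_lit 322) (nat_lit 303) (nat_lit 263))))) (XT.nd (nat_lit 282) (nat_lit 1008) (nat_lit 0) (XT.nd (nat_lit 94) (nat_lit 840) (nat_lit 0) (XT.lf (nat_lit 0) (nat_lit 2293939024) (nat_lit 840) (nat_lit 3627247396) (nat_lit 84) (nat_lit 2193571318) (nat_lit 98) (nat_lit 5) (nat_lit 108) (nat_lit 5) (nat_lit 99) (nat_lit 5) (nat_lit 323) (nat_lit 303) (nat_lit 262)) (XT.nd (nat_lit 94) (nat_lit 840) (nat_lit 0)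 (XT.lf (nat_lit 0) (nat_lit 3663183721) (nat_lit 840) (nat_lit 564317559) (nat_lit 84) (nat_lit 4000517000) (nat_lit 98) (nat_lit 5) (nat_lit 108) (nat_lit 5) (nat_lit 99) (nat_lit 5) (nat_lit 324) (nat_lit 303) (nat_lit 261)) (XT.lf (nat_lit 0) (nat_lit 2613697016) (nat_lit 840) (nat_lit 2447214886) (nat_lit 924) (nat_lit 3284631151) (nat_lit 88) (nat_lit 5) (nat_lit 98) (nat_lit 5) (nat_lit 99) (nat_lit 5) (nat_lit 325) (nat_lit 303) (nat_lit 260)))) (XT.nd (nat_lit 188) (nat_lit 84) (nat_lit 0) (XT.nd (nat_lit 94) (nat_lit 924) (nat_lit 0) (XT.lf (nat_lit 0) (nat_lit 5869996321) (nat_lit 840) (nat_lit 598852404) (nat_lit 924) (nat_lit 1999199784) (nat_lit 88) (nat_lit 5) (nat_lit 98) (nat_lit 5) (nat_lit 99) (nat_lit 5) (nat_lit 326) (nat_lit 303) (nat_lit 259)) (XT.lf (nat_lit 0) (nat_lit 599229967) (nat_lit 924) (nat_lit 7302337071) (nat_lit 1008) (nat_lit 693670722) (nat_lit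 77) (nat_lit 5) (nat_lit 88) (nat_lit 5) (nat_lit 89) (nat_lit 5) (nat_lit 327) (nat_lit 303) (nat_lit 258))) (XT.nd (nat_lit 94) (nat_lit 0) (nat_lit 0) (XT.lf (nat_lit 0) (nat_lit 635084186) (nat_lit 1008) (nat_lit 4821191470) (nat_lit 84) (nat_lit 3270304272) (nat_lit 76) (nat_lit 5) (nat_lit 88) (nat_lit 5) (nat_lit 77) (nat_lit 5) (nat_lit 328) (nat_lit 303) (nat_lit 257)) (XT.lf (nat_lit 0) (nat_lit 1954129463) (nat_lit 1008) (nat_lit 1587537437) (nat_lit 84) (nat_lit 5321513072) (nat_lit 76) (nat_lit 5) (nat_lit 88) (nat_lit 5) (nat_lit 77) (nat_lit 5) (nat_lit 329) (nat_lit 303) (nat_lit 256)))))) (XT.nd (nat_lit 564) (nat_lit 756) (nat_lit 0) (XT.nd (nat_lit 282) (nat_lit 1008) (nat_lit 0) (XT.nd (nat_lit 94) (nat_lit 0) (nat_lit 0) (XT.lf (nat_lit 0) (nat_lit 1750110537) (nat_lit 672) (nat_lit 1545921293) (nat_lit 756) (nat_lit 5708808506) (nat_lit 68) (nat_lit 5) (nat_lit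 76) (nat_lit 5) (nat_lit 77) (nat_lit 5) (nat_lit 330) (nat_lit 303) (nat_lit 255)) (XT.nd (nat_lit 94) (nat_lit 0) (nat_lit 0) (XT.lf (nat_lit 0) (nat_lit 4666743743) (nat_lit 756) (nat_lit 3963301316) (nat_lit 84) (nat_lit 521502253) (nat_lit 68) (nat_lit 5) (nat_lit 77) (nat_lit 5) (nat_lit 69) (nat_lit 5) (nat_lit 331) (nat_lit 303) (nat_lit 254)) (XT.lf (nat_lit 0) (nat_lit 6062193786) (nat_lit 756) (nat_lit 617228603) (nat_lit 84) (nat_lit 2624181077) (nat_lit 68) (nat_lit 5) (nat_lit 77) (nat_lit 5) (nat_lit 69) (nat_lit 5) (nat_lit 332) (nat_lit 303) (nat_lit 253)))) (XT.nd (nat_lit 94) (nat_lit 504) (nat_lit 0) (XT.lf (nat_lit 0) (nat_lit 2859556654) (nat_lit 504) (nat_lit 4637157436) (nat_lit 588) (nat_lit 1964032466) (nat_lit 62) (nat_lit 5) (nat_lit 68) (nat_lit 5) (nat_lit 69) (nat_lit 5) (nat_lit 333) (nat_lit 303) (nat_lit 252)) (XT.nd (nat_lit 94) (nat_lit 504) (nat_lit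 0) (XT.lf (nat_lit 0) (nat_lit 6426887868) (nat_lit 504) (nat_lit 2523381526) (nat_lit 588) (nat_lit 673516207) (nat_lit 62) (nat_lit 5) (nat_lit 68) (nat_lit 5) (nat_lit 69) (nat_lit 5) (nat_lit 334) (nat_lit 303) (nat_lit 251)) (XT.lf (nat_lit 0) (nat_lit 281811180) (nat_lit 420) (nat_lit 333293482) (nat_lit 504) (nat_lit 9177682787) (nat_lit 56) (nat_lit 5) (nat_lit 61) (nat_lit 5) (nat_lit 62) (nat_lit 5) (nat_lit 335) (nat_lit 303) (nat_lit 250))))) (XT.nd (nat_lit 282) (nat_lit 336) (nat_lit 0) (XT.nd (nat_lit 94) (nat_lit 420) (nat_lit 0) (XT.lf (nat_lit 0) (nat_lit 1951682925) (nat_lit 504) (nat_lit 6087333138) (nat_lit 84) (nat_lit 1927332102) (nat_lit 56) (nat_lit 5) (nat_lit 62) (nat_lit 5) (nat_lit 57) (nat_lit 5) (nat_lit 336) (nat_lit 303) (nat_lit 249)) (XT.nd (nat_lit 94) (nat_lit 420) (nat_lit 0) (XT.lf (nat_lit 0) (nat_lit 3303227277) (nat_lit 504) (nat_lit 2591178231)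 (nat_lit 84) (nat_lit 4251913155) (nat_lit 56) (nat_lit 5) (nat_lit 62) (nat_lit 5) (nat_lit 57) (nat_lit 5) (nat_lit 337) (nat_lit 303) (nat_lit 248)) (XT.lf (nat_lit 0) (nat_lit 1004287705) (nat_lit 420) (nat_lit 3673366141) (nat_lit 504) (nat_lit 5655006500) (nat_lit 51) (nat_lit 5) (nat_lit 56) (nat_lit 5) (nat_lit 57) (nat_lit 5) (nat_lit 338) (nat_lit 303) (nat_lit 247)))) (XT.nd (nat_lit 188) (nat_lit 336) (nat_lit 0) (XT.nd (nat_lit 94) (nat_lit 0) (nat_lit 0) (XT.lf (nat_lit 0) (nat_lit 4737137447) (nat_lit 420) (nat_lit 1356202025) (nat_lit 504) (nat_lit 4431677467) (nat_lit 51) (nat_lit 5) (nat_lit 56) (nat_lit 5) (nat_lit 57) (nat_lit 5) (nat_lit 339) (nat_lit 303) (nat_lit 246)) (XT.lf (nat_lit 0) (nat_lit 7535609921) (nat_lit 504) (nat_lit 2177050061) (nat_lit 84) (nat_lit 1011403563) (nat_lit 51) (nat_lit 5) (nat_lit 57) (nat_lit 5) (nat_lit 52) (nat_lit 5) (nat_lit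 340) (nat_lit 303) (nat_lit 245))) (XT.nd (nat_lit 94) (nat_lit 0) (nat_lit 0) (XT.lf (nat_lit 0) (nat_lit 1534463983) (nat_lit 336) (nat_lit 7490500998) (nat_lit 420) (nat_lit 1904426895) (nat_lit 47) (nat_lit 5) (nat_lit 51) (nat_lit 5) (nat_lit 52) (nat_lit 5) (nat_lit 341) (nat_lit 303) (nat_lit 244)) (XT.lf (nat_lit 0) (nat_lit 5379177384) (nat_lit 336) (nat_lit 5177843513) (nat_lit 420) (nat_lit 584351358) (nat_lit 47) (nat_lit 5) (nat_lit 51) (nat_lit 5) (nat_lit 52) (nat_lit 5) (nat_lit 342) (nat_lit 303) (nat_lit 243))))))))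
noncomputable def xc103 : XT := (XT.nd (nat_lit 2444) (nat_lit 924) (nat_lit 0) (XT.nd (nat_lit 1222) (nat_lit 840) (nat_lit 0) (XT.nd (nat_lit 564) (nat_lit 672) (nat_lit 0) (XT.nd (nat_lit 282) (nat_lit 336) (nat_lit 0) (XT.nd (nat_lit 94) (nat_lit 420) (nat_lit 0) (XT.lf (nat_lit 0) (nat_lit 735163037) (nat_lit 420) (nat_lit 2052419194) (nat_lit 84) (nat_lit 8573072569) (nat_lit 46) (nat_lit 5) (nat_lit 51) (nat_lit 5) (nat_lit 47) (nat_lit 5) (nat_lit 343) (nat_lit 303) (nat_lit 242)) (XT.nd (nat_lit 94) (nat_lit 0) (nat_lit 0) (XT.lf (nat_lit 0) (nat_lit 1775117945) (nat_lit 420) (nat_lit 300876514) (nat_lit 504) (nat_lit 9510949937) (nat_lit 41) (nat_lit 5) (nat_lit 46) (nat_lit 5) (nat_lit 47) (nat_lit 5) (nat_lit 344) (nat_lit 303) (nat_lit 241)) (XT.lf (nat_lit 0) (nat_lit 3477889640) (nat_lit 504) (nat_lit 6105088234) (nat_lit 84) (nat_lit 2236825370) (nat_lit 41) (nat_lit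 5) (nat_lit 47) (nat_lit 5) (nat_lit 42) (nat_lit 5) (nat_lit 345) (nat_lit 303) (nat_lit 240)))) (XT.nd (nat_lit 94) (nat_lit 336) (nat_lit 0) (XT.lf (nat_lit 0) (nat_lit 4902467689) (nat_lit 504) (nat_lit 2313341663) (nat_lit 84) (nat_lit 4844869352) (nat_lit 41) (nat_lit 5) (nat_lit 47) (nat_lit 5) (nat_lit 42) (nat_lit 5) (nat_lit 346) (nat_lit 303) (nat_lit 239)) (XT.nd (nat_lit 94) (nat_lit 0) (nat_lit 0) (XT.lf (nat_lit 0) (nat_lit 1602213323) (nat_lit 336) (nat_lit 4761752562) (nat_lit 420) (nat_lit 5945429224) (nat_lit 37) (nat_lit 5) (nat_lit 41) (nat_lit 5) (nat_lit 42) (nat_lit 5) (nat_lit 347) (nat_lit 303) (nat_lit 238)) (XT.lf (nat_lit 0) (nat_lit 5662438784) (nat_lit 336) (nat_lit 2209782528) (nat_lit 420) (nat_lit 4693700255) (nat_lit 37) (nat_lit 5) (nat_lit 41) (nat_lit 5) (nat_lit 42) (nat_lit 5) (nat_lit 348) (nat_lit 303) (nat_lit 237))))) (XT.nd (nat_lit 282)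 (nat_lit 336) (nat_lit 0) (XT.nd (nat_lit 94) (nat_lit 336) (nat_lit 0) (XT.lf (nat_lit 0) (nat_lit 9409369231) (nat_lit 420) (nat_lit 3011820914) (nat_lit 84) (nat_lit 409904432) (nat_lit 37) (nat_lit 5) (nat_lit 42) (nat_lit 5) (nat_lit 38) (nat_lit 5) (nat_lit 349) (nat_lit 303) (nat_lit 236)) (XT.nd (nat_lit 94) (nat_lit 0) (nat_lit 0) (XT.lf (nat_lit 0) (nat_lit 972477301) (nat_lit 336) (nat_lit 10032559424) (nat_lit 420) (nat_lit 2099250559) (nat_lit 33) (nat_lit 5) (nat_lit 37) (nat_lit 5) (nat_lit 38) (nat_lit 5) (nat_lit 350) (nat_lit 303) (nat_lit 235)) (XT.lf (nat_lit 0) (nat_lit 5119393317) (nat_lit 336) (nat_lit 7541231230) (nat_lit 420) (nat_lit 725132471) (nat_lit 33) (nat_lit 5) (nat_lit 37) (nat_lit 5) (nat_lit 38) (nat_lit 5) (nat_lit 351) (nat_lit 303) (nat_lit 234)))) (XT.nd (nat_lit 188) (nat_lit 252) (nat_lit 0) (XT.nd (nat_lit 94) (nat_lit 0) (nat_lit 0) (XT.lf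 (nat_lit 0) (nat_lit 656963980) (nat_lit 420) (nat_lit 4312499281) (nat_lit 84) (nat_lit 8707041939) (nat_lit 32) (nat_lit 5) (nat_lit 37) (nat_lit 5) (nat_lit 33) (nat_lit 5) (nat_lit 352) (nat_lit 303) (nat_lit 233)) (XT.lf (nat_lit 0) (nat_lit 2046779246) (nat_lit 420) (nat_lit 267293400) (nat_lit 84) (nat_lit 11662706570) (nat_lit 32) (nat_lit 5) (nat_lit 37) (nat_lit 5) (nat_lit 33) (nat_lit 5) (nat_lit 353) (nat_lit 303) (nat_lit 232))) (XT.nd (nat_lit 94) (nat_lit 0) (nat_lit 0) (XT.lf (nat_lit 0) (nat_lit 3504070530) (nat_lit 336) (nat_lit 10330429237) (nat_lit 84) (nat_lit 451222770) (nat_lit 29) (nat_lit 5) (nat_lit 33) (nat_lit 5) (nat_lit 30) (nat_lit 5) (nat_lit 354) (nat_lit 303) (nat_lit 231)) (XT.lf (nat_lit 0) (nat_lit 5013884721) (nat_lit 336) (nat_lit 6336936426) (nat_lit 84) (nat_lit 3253307638) (nat_lit 29) (nat_lit 5) (nat_lit 33) (nat_lit 5) (nat_lit 30) (nat_lit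 5) (nat_lit 355) (nat_lit 303) (nat_lit 230)))))) (XT.nd (nat_lit 564) (nat_lit 336) (nat_lit 0) (XT.nd (nat_lit 282) (nat_lit 252) (nat_lit 0) (XT.nd (nat_lit 94) (nat_lit 252) (nat_lit 0) (XT.lf (nat_lit 0) (nat_lit 6551939454) (nat_lit 336) (nat_lit 2242468256) (nat_lit 84) (nat_lit 6138683418) (nat_lit 29) (nat_lit 5) (nat_lit 33) (nat_lit 5) (nat_lit 30) (nat_lit 5) (nat_lit 356) (nat_lit 303) (nat_lit 229)) (XT.nd (nat_lit 94) (nat_lit 0) (nat_lit 0) (XT.lf (nat_lit 0) (nat_lit 1997027396) (nat_lit 252) (nat_lit 6142451720) (nat_lit 336) (nat_lit 7132822945) (nat_lit 26) (nat_lit 5) (nat_lit 29) (nat_lit 5) (nat_lit 30) (nat_lit 5) (nat_lit 357) (nat_lit 303) (nat_lit 228)) (XT.lf (nat_lit 0) (nat_lit 6393573997) (nat_lit 252) (nat_lit 3388383768) (nat_lit 336) (nat_lit 5839996796) (nat_lit 26) (nat_lit 5) (nat_lit 29) (nat_lit 5) (nat_lit 30) (nat_lit 5) (nat_lit 358) (nat_lit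 303) (nat_lit 227)))) (XT.nd (nat_lit 94) (nat_lit 252) (nat_lit 0) (XT.lf (nat_lit 0) (nat_lit 10905159839) (nat_lit 252) (nat_lit 553043545) (nat_lit 336) (nat_lit 4524874947) (nat_lit 26) (nat_lit 5) (nat_lit 29) (nat_lit 5) (nat_lit 30) (nat_lit 5) (nat_lit 359) (nat_lit 303) (nat_lit 226)) (XT.nd (nat_lit 94) (nat_lit 252) (nat_lit 0) (XT.lf (nat_lit 0) (nat_lit 13193251525) (nat_lit 336) (nat_lit 843492897) (nat_lit 84) (nat_lit 2318537890) (nat_lit 26) (nat_lit 5) (nat_lit 30) (nat_lit 5) (nat_lit 27) (nat_lit 5) (nat_lit 360) (nat_lit 303) (nat_lit 225)) (XT.lf (nat_lit 0) (nat_lit 3567877215) (nat_lit 252) (nat_lit 11439086709) (nat_lit 336) (nat_lit 1731383930) (nat_lit 23) (nat_lit 5) (nat_lit 26) (nat_lit 5) (nat_lit 27) (nat_lit 5) (nat_lit 361) (nat_lit 303) (nat_lit 224))))) (XT.nd (nat_lit 282) (nat_lit 252) (nat_lit 0) (XT.nd (nat_lit 94) (nat_lit 84) (nat_lit 0)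 (XT.lf (nat_lit 0) (nat_lit 8113538352) (nat_lit 252) (nat_lit 8756279504) (nat_lit 336) (nat_lit 263781774) (nat_lit 23) (nat_lit 5) (nat_lit 26) (nat_lit 5) (nat_lit 27) (nat_lit 5) (nat_lit 362) (nat_lit 303) (nat_lit 223)) (XT.nd (nat_lit 94) (nat_lit 0) (nat_lit 0) (XT.lf (nat_lit 0) (nat_lit 1208490265) (nat_lit 336) (nat_lit 4773522061) (nat_lit 84) (nat_lit 11559279177) (nat_lit 22) (nat_lit 5) (nat_lit 26) (nat_lit 5) (nat_lit 23) (nat_lit 5) (nat_lit 363) (nat_lit 303) (nat_lit 222)) (XT.lf (nat_lit 0) (nat_lit 2705739230) (nat_lit 336) (nat_lit 417571905) (nat_lit 84) (nat_lit 14838781356) (nat_lit 22) (nat_lit 5) (nat_lit 26) (nat_lit 5) (nat_lit 23) (nat_lit 5) (nat_lit 364) (nat_lit 303) (nat_lit 221)))) (XT.nd (nat_lit 188) (nat_lit 0) (nat_lit 0) (XT.nd (nat_lit 94) (nat_lit 0) (nat_lit 0) (XT.lf (nat_lit 0) (nat_lit 4137834277) (nat_lit 252) (nat_lit 137888879) (nat_lit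 336) (nat_lit 14119480305) (nat_lit 19) (nat_lit 5) (nat_lit 22) (nat_lit 5) (nat_lit 23) (nat_lit 5) (nat_lit 365) (nat_lit 303) (nat_lit 220)) (XT.lf (nat_lit 0) (nat_lit 5913432425) (nat_lit 336) (nat_lit 10046745441) (nat_lit 84) (nat_lit 2881050916) (nat_lit 19) (nat_lit 5) (nat_lit 23) (nat_lit 5) (nat_lit 20) (nat_lit 5) (nat_lit 366) (nat_lit 303) (nat_lit 219))) (XT.nd (nat_lit 94) (nat_lit 0) (nat_lit 0) (XT.lf (nat_lit 0) (nat_lit 7589244041) (nat_lit 336) (nat_lit 5725663640) (nat_lit 84) (nat_lit 5986642152) (nat_lit 19) (nat_lit 5) (nat_lit 23) (nat_lit 5) (nat_lit 20) (nat_lit 5) (nat_lit 367) (nat_lit 303) (nat_lit 218)) (XT.lf (nat_lit 0) (nat_lit 9303352160) (nat_lit 336) (nat_lit 1288728205) (nat_lit 84) (nat_lit 9184557718) (nat_lit 19) (nat_lit 5) (nat_lit 23) (nat_lit 5) (nat_lit 20) (nat_lit 5) (nat_lit 368) (nat_lit 303) (nat_lit 217))))))) (XT.nd (nat_lit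 1222) (nat_lit 336) (nat_lit 0) (XT.nd (nat_lit 564) (nat_lit 252) (nat_lit 0) (XT.nd (nat_lit 282) (nat_lit 168) (nat_lit 0) (XT.nd (nat_lit 94) (nat_lit 0) (nat_lit 0) (XT.lf (nat_lit 0) (nat_lit 3335397374) (nat_lit 168) (nat_lit 7755044691) (nat_lit 252) (nat_lit 9175468585) (nat_lit 17) (nat_lit 5) (nat_lit 19) (nat_lit 5) (nat_lit 20) (nat_lit 5) (nat_lit 369) (nat_lit 303) (nat_lit 216)) (XT.nd (nat_lit 94) (nat_lit 0) (nat_lit 0) (XT.lf (nat_lit 0) (nat_lit 8112813267) (nat_lit 168) (nat_lit 4820552852) (nat_lit 252) (nat_lit 7837040684) (nat_lit 17) (nat_lit 5) (nat_lit 19) (nat_lit 5) (nat_lit 20) (nat_lit 5) (nat_lit 370) (nat_lit 303) (nat_lit 215)) (XT.lf (nat_lit 0) (nat_lit 13021473630) (nat_lit 168) (nat_lit 1799321274) (nat_lit 252) (nat_lit 6470206346) (nat_lit 17) (nat_lit 5) (nat_lit 19) (nat_lit 5) (nat_lit 20) (nat_lit 5) (nat_lit 371) (nat_lit 303) (nat_lit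 214)))) (XT.nd (nat_lit 94) (nat_lit 168) (nat_lit 0) (XT.lf (nat_lit 0) (nat_lit 16767497608) (nat_lit 252) (nat_lit 3775235297) (nat_lit 84) (nat_lit 1285043026) (nat_lit 17) (nat_lit 5) (nat_lit 20) (nat_lit 5) (nat_lit 18) (nat_lit 5) (nat_lit 372) (nat_lit 303) (nat_lit 213)) (XT.nd (nat_lit 94) (nat_lit 0) (nat_lit 0) (XT.lf (nat_lit 0) (nat_lit 840665495) (nat_lit 168) (nat_lit 17948707398) (nat_lit 252) (nat_lit 3591421676) (nat_lit 15) (nat_lit 5) (nat_lit 17) (nat_lit 5) (nat_lit 18) (nat_lit 5) (nat_lit 373) (nat_lit 303) (nat_lit 212)) (XT.lf (nat_lit 0) (nat_lit 5663607421) (nat_lit 168) (nat_lit 15238005844) (nat_lit 252) (nat_lit 2048546824) (nat_lit 15) (nat_lit 5) (nat_lit 17) (nat_lit 5) (nat_lit 18) (nat_lit 5) (nat_lit 374) (nat_lit 303) (nat_lit 211))))) (XT.nd (nat_lit 282) (nat_lit 168) (nat_lit 0) (XT.nd (nat_lit 94) (nat_lit 84) (nat_lit 0) (XT.lf (nat_lit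 0) (nat_lit 10620459386) (nat_lit 168) (nat_lit 12447507300) (nat_lit 252) (nat_lit 469621361) (nat_lit 15) (nat_lit 5) (nat_lit 17) (nat_lit 5) (nat_lit 18) (nat_lit 5) (nat_lit 375) (nat_lit 303) (nat_lit 210)) (XT.nd (nat_lit 94) (nat_lit 0) (nat_lit 0) (XT.lf (nat_lit 0) (nat_lit 1123720440) (nat_lit 252) (nat_lit 8439160952) (nat_lit 84) (nat_lit 14580391920) (nat_lit 14) (nat_lit 5) (nat_lit 17) (nat_lit 5) (nat_lit 15) (nat_lit 5) (nat_lit 376) (nat_lit 303) (nat_lit 209)) (XT.lf (nat_lit 0) (nat_lit 2745843104) (nat_lit 252) (nat_lit 3842134215) (nat_lit 84) (nat_lit 18179999707) (nat_lit 14) (nat_lit 5) (nat_lit 17) (nat_lit 5) (nat_lit 15) (nat_lit 5) (nat_lit 377) (nat_lit 303) (nat_lit 208)))) (XT.nd (nat_lit 188) (nat_lit 0) (nat_lit 0) (XT.nd (nat_lit 94) (nat_lit 0) (nat_lit 0) (XT.lf (nat_lit 0) (nat_lit 901049295) (nat_lit 168) (nat_lit 3515609668) (nat_lit 252)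 (nat_lit 20995489846) (nat_lit 12) (nat_lit 5) (nat_lit 14) (nat_lit 5) (nat_lit 15) (nat_lit 5) (nat_lit 378) (nat_lit 303) (nat_lit 207)) (XT.lf (nat_lit 0) (nat_lit 5858364384) (nat_lit 168) (nat_lit 310652814) (nat_lit 252) (nat_lit 19906401847) (nat_lit 12) (nat_lit 5) (nat_lit 14) (nat_lit 5) (nat_lit 15) (nat_lit 5) (nat_lit 379) (nat_lit 303) (nat_lit 206))) (XT.nd (nat_lit 94) (nat_lit 0) (nat_lit 0) (XT.lf (nat_lit 0) (nat_lit 7995311989) (nat_lit 252) (nat_lit 15833841144) (nat_lit 84) (nat_lit 2929539258) (nat_lit 12) (nat_lit 5) (nat_lit 15) (nat_lit 5) (nat_lit 13) (nat_lit 5) (nat_lit 380) (nat_lit 303) (nat_lit 205)) (XT.lf (nat_lit 0) (nat_lit 9871618364) (nat_lit 252) (nat_lit 11331746079) (nat_lit 84) (nat_lit 6260035729) (nat_lit 12) (nat_lit 5) (nat_lit 15) (nat_lit 5) (nat_lit 13) (nat_lit 5) (nat_lit 381) (nat_lit 303) (nat_lit 204)))))) (XT.nd (nat_lit 564)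 (nat_lit 168) (nat_lit 0) (XT.nd (nat_lit 282) (nat_lit 0) (nat_lit 0) (XT.nd (nat_lit 94) (nat_lit 168) (nat_lit 0) (XT.lf (nat_lit 0) (nat_lit 11796603523) (nat_lit 252) (nat_lit 6703491328) (nat_lit 84) (nat_lit 9690199933) (nat_lit 12) (nat_lit 5) (nat_lit 15) (nat_lit 5) (nat_lit 13) (nat_lit 5) (nat_lit 382) (nat_lit 303) (nat_lit 203)) (XT.nd (nat_lit 94) (nat_lit 168) (nat_lit 0) (XT.lf (nat_lit 0) (nat_lit 13772061755) (nat_lit 252) (nat_lit 1944762873) (nat_lit 84) (nat_lit 13223229141) (nat_lit 12) (nat_lit 5) (nat_lit 15) (nat_lit 5) (nat_lit 13) (nat_lit 5) (nat_lit 383) (nat_lit 303) (nat_lit 202)) (XT.lf (nat_lit 0) (nat_lit 3009509836) (nat_lit 168) (nat_lit 12820179266) (nat_lit 252) (nat_lit 13882761381) (nat_lit 10) (nat_lit 5) (nat_lit 12) (nat_lit 5) (nat_lit 13) (nat_lit 5) (nat_lit 384) (nat_lit 303) (nat_lit 201)))) (XT.nd (nat_lit 94) (nat_lit 0) (nat_lit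 0) (XT.lf (nat_lit 0) (nat_lit 8146109383) (nat_lit 168) (nat_lit 9816512563) (nat_lit 252) (nat_lit 12545855165) (nat_lit 10) (nat_lit 5) (nat_lit 12) (nat_lit 5) (nat_lit 13) (nat_lit 5) (nat_lit 385) (nat_lit 303) (nat_lit 200)) (XT.nd (nat_lit 94) (nat_lit 0) (nat_lit 0) (XT.lf (nat_lit 0) (nat_lit 13429835303) (nat_lit 168) (nat_lit 6723324121) (nat_lit 252) (nat_lit 11176326566) (nat_lit 10) (nat_lit 5) (nat_lit 12) (nat_lit 5) (nat_lit 13) (nat_lit 5) (nat_lit 386) (nat_lit 303) (nat_lit 199)) (XT.lf (nat_lit 0) (nat_lit 18865612583) (nat_lit 168) (nat_lit 3537730766) (nat_lit 252) (nat_lit 9772899038) (nat_lit 10) (nat_lit 5) (nat_lit 12) (nat_lit 5) (nat_lit 13) (nat_lit 5) (nat_lit 387) (nat_lit 303) (nat_lit 198))))) (XT.nd (nat_lit 282) (nat_lit 84) (nat_lit 0) (XT.nd (nat_lit 94) (nat_lit 84) (nat_lit 0) (XT.lf (nat_lit 0) (nat_lit 24458507937) (nat_lit 168) (nat_lit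 256763190) (nat_lit 252) (nat_lit 8334264440) (nat_lit 10) (nat_lit 5) (nat_lit 12) (nat_lit 5) (nat_lit 13) (nat_lit 5) (nat_lit 388) (nat_lit 303) (nat_lit 197)) (XT.nd (nat_lit 94) (nat_lit 84) (nat_lit 0) (XT.lf (nat_lit 0) (nat_lit 27122074660) (nat_lit 252) (nat_lit 3767421947) (nat_lit 84) (nat_lit 3059722639) (nat_lit 10) (nat_lit 5) (nat_lit 13) (nat_lit 5) (nat_lit 11) (nat_lit 4) (nat_lit 389) (nat_lit 303) (nat_lit 196)) (XT.lf (nat_lit 0) (nat_lit 1216647063) (nat_lit 84) (nat_lit 28393968582) (nat_lit 168) (nat_lit 5265993210) (nat_lit 9) (nat_lit 5) (nat_lit 10) (nat_lit 5) (nat_lit 11) (nat_lit 4) (nat_lit 390) (nat_lit 303) (nat_lit 195)))) (XT.nd (nat_lit 188) (nat_lit 84) (nat_lit 0) (XT.nd (nat_lit 94) (nat_lit 0) (nat_lit 0) (XT.lf (nat_lit 0) (nat_lit 6424245397) (nat_lit 84) (nat_lit 25783931335) (nat_lit 168) (nat_lit 3623618232) (nat_lit 9) (nat_lit 5) (nat_lit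 10) (nat_lit 5) (nat_lit 11) (nat_lit 4) (nat_lit 391) (nat_lit 303) (nat_lit 194)) (XT.lf (nat_lit 0) (nat_lit 11782761161) (nat_lit 84) (nat_lit 23096276198) (nat_lit 168) (nat_lit 1937812943) (nat_lit 9) (nat_lit 5) (nat_lit 10) (nat_lit 5) (nat_lit 11) (nat_lit 4) (nat_lit 392) (nat_lit 303) (nat_lit 193))) (XT.nd (nat_lit 94) (nat_lit 84) (nat_lit 0) (XT.lf (nat_lit 0) (nat_lit 17297189050) (nat_lit 84) (nat_lit 20328497994) (nat_lit 168) (nat_lit 207005998) (nat_lit 9) (nat_lit 5) (nat_lit 10) (nat_lit 5) (nat_lit 11) (nat_lit 4) (nat_lit 393) (nat_lit 303) (nat_lit 192)) (XT.lf (nat_lit 0) (nat_lit 1538775516) (nat_lit 168) (nat_lit 15923179687) (nat_lit 84) (nat_lit 21417831914) (nat_lit 8) (nat_lit 5) (nat_lit 10) (nat_lit 5) (nat_lit 9) (nat_lit 5) (nat_lit 394) (nat_lit 303) (nat_lit 191))))))))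
noncomputable def xc104 : XT := (XT.nd (nat_lit 2350) (nat_lit 84) (nat_lit 0) (XT.nd (nat_lit 1128) (nat_lit 168) (nat_lit 0) (XT.nd (nat_lit 564) (nat_lit 0) (nat_lit 0) (XT.nd (nat_lit 282) (nat_lit 168) (nat_lit 0) (XT.nd (nat_lit 94) (nat_lit 0) (nat_lit 0) (XT.lf (nat_lit 0) (nat_lit 3327685448) (nat_lit 168) (nat_lit 11179756202) (nat_lit 84) (nat_lit 25452071765) (nat_lit 8) (nat_lit 5) (nat_lit 10) (nat_lit 5) (nat_lit 9) (nat_lit 5) (nat_lit 395) (nat_lit 303) (nat_lit 190)) (XT.nd (nat_lit 94) (nat_lit 0) (nat_lit 0) (XT.lf (nat_lit 0) (nat_lit 5165561958) (nat_lit 168) (nat_lit 6298758643) (nat_lit 84) (nat_lit 29608621411) (nat_lit 8) (nat_lit 5) (nat_lit 10) (nat_lit 5) (nat_lit 9) (nat_lit 5) (nat_lit 396) (nat_lit 303) (nat_lit 189)) (XT.lf (nat_lit 0) (nat_lit 7054118139) (nat_lit 168) (nat_lit 1275637410) (nat_lit 84) (nat_lit 33891355191) (nat_lit 8) (nat_lit 5)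 (nat_lit 10) (nat_lit 5) (nat_lit 9) (nat_lit 5) (nat_lit 397) (nat_lit 303) (nat_lit 188)))) (XT.nd (nat_lit 94) (nat_lit 0) (nat_lit 0) (XT.lf (nat_lit 0) (nat_lit 3974364152) (nat_lit 168) (nat_lit 5060176356) (nat_lit 252) (nat_lit 34369327094) (nat_lit 6) (nat_lit 5) (nat_lit 8) (nat_lit 5) (nat_lit 9) (nat_lit 5) (nat_lit 398) (nat_lit 303) (nat_lit 187)) (XT.nd (nat_lit 94) (nat_lit 0) (nat_lit 0) (XT.lf (nat_lit 0) (nat_lit 9405337813) (nat_lit 168) (nat_lit 1678324027) (nat_lit 252) (nat_lit 33539428619) (nat_lit 6) (nat_lit 5) (nat_lit 8) (nat_lit 5) (nat_lit 9) (nat_lit 5) (nat_lit 399) (nat_lit 303) (nat_lit 186)) (XT.lf (nat_lit 0) (nat_lit 13208389605) (nat_lit 252) (nat_lit 30902112183) (nat_lit 84) (nat_lit 1769259046) (nat_lit 6) (nat_lit 5) (nat_lit 9) (nat_lit 5) (nat_lit 7) (nat_lit 4) (nat_lit 400) (nat_lit 303) (nat_lit 185))))) (XT.nd (nat_lit 282) (nat_lit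 0) (nat_lit 0) (XT.nd (nat_lit 94) (nat_lit 0) (nat_lit 0) (XT.lf (nat_lit 0) (nat_lit 15410469762) (nat_lit 252) (nat_lit 26478324919) (nat_lit 84) (nat_lit 5286262663) (nat_lit 6) (nat_lit 5) (nat_lit 9) (nat_lit 5) (nat_lit 7) (nat_lit 4) (nat_lit 401) (nat_lit 303) (nat_lit 184)) (XT.nd (nat_lit 94) (nat_lit 0) (nat_lit 0) (XT.lf (nat_lit 0) (nat_lit 17675305698) (nat_lit 252) (nat_lit 21925618240) (nat_lit 84) (nat_lit 8909779529) (nat_lit 6) (nat_lit 5) (nat_lit 9) (nat_lit 5) (nat_lit 7) (nat_lit 4) (nat_lit 402) (nat_lit 303) (nat_lit 183)) (XT.lf (nat_lit 0) (nat_lit 20005008477) (nat_lit 252) (nat_lit 17239748546) (nat_lit 84) (nat_lit 12643187141) (nat_lit 6) (nat_lit 5) (nat_lit 9) (nat_lit 5) (nat_lit 7) (nat_lit 4) (nat_lit 403) (nat_lit 303) (nat_lit 182)))) (XT.nd (nat_lit 94) (nat_lit 0) (nat_lit 0) (XT.lf (nat_lit 0) (nat_lit 22401749626) (nat_lit 252) (nat_lit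 12416348116) (nat_lit 84) (nat_lit 16489965425) (nat_lit 6) (nat_lit 5) (nat_lit 9) (nat_lit 5) (nat_lit 7) (nat_lit 4) (nat_lit 404) (nat_lit 303) (nat_lit 181)) (XT.nd (nat_lit 94) (nat_lit 0) (nat_lit 0) (XT.lf (nat_lit 0) (nat_lit 24867763159) (nat_lit 252) (nat_lit 7450921035) (nat_lit 84) (nat_lit 20453699982) (nat_lit 6) (nat_lit 5) (nat_lit 9) (nat_lit 5) (nat_lit 7) (nat_lit 4) (nat_lit 405) (nat_lit 303) (nat_lit 180)) (XT.lf (nat_lit 0) (nat_lit 27405347659) (nat_lit 252) (nat_lit 2338839006) (nat_lit 84) (nat_lit 24538085429) (nat_lit 6) (nat_lit 5) (nat_lit 9) (nat_lit 5) (nat_lit 7) (nat_lit 4) (nat_lit 406) (nat_lit 303) (nat_lit 179)))))) (XT.nd (nat_lit 564) (nat_lit 84) (nat_lit 0) (XT.nd (nat_lit 282) (nat_lit 0) (nat_lit 0) (XT.nd (nat_lit 94) (nat_lit 0) (nat_lit 0) (XT.lf (nat_lit 0) (nat_lit 2984800037) (nat_lit 84) (nat_lit 27061677970) (nat_lit 168) (nat_lit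 25791738388) (nat_lit 5) (nat_lit 5) (nat_lit 6) (nat_lit 5) (nat_lit 7) (nat_lit 4) (nat_lit 407) (nat_lit 303) (nat_lit 178)) (XT.nd (nat_lit 94) (nat_lit 0) (nat_lit 0) (XT.lf (nat_lit 0) (nat_lit 8516070871) (nat_lit 84) (nat_lit 24273169261) (nat_lit 168) (nat_lit 24652562902) (nat_lit 5) (nat_lit 5) (nat_lit 6) (nat_lit 5) (nat_lit 7) (nat_lit 4) (nat_lit 408) (nat_lit 303) (nat_lit 177)) (XT.lf (nat_lit 0) (nat_lit 14212037895) (nat_lit 84) (nat_lit 21400474038) (nat_lit 168) (nat_lit 23482748828) (nat_lit 5) (nat_lit 5) (nat_lit 6) (nat_lit 5) (nat_lit 7) (nat_lit 4) (nat_lit 409) (nat_lit 303) (nat_lit 176)))) (XT.nd (nat_lit 94) (nat_lit 0) (nat_lit 0) (XT.lf (nat_lit 0) (nat_lit 20078010345) (nat_lit 84) (nat_lit 18440914650) (nat_lit 168) (nat_lit 22281205777) (nat_lit 5) (nat_lit 5) (nat_lit 6) (nat_lit 5) (nat_lit 7) (nat_lit 4) (nat_lit 410) (nat_lit 303) (nat_lit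 175)) (XT.nd (nat_lit 94) (nat_lit 0) (nat_lit 0) (XT.lf (nat_lit 0) (nat_lit 26119455922) (nat_lit 84) (nat_lit 15391732475) (nat_lit 168) (nat_lit 21046813786) (nat_lit 5) (nat_lit 5) (nat_lit 6) (nat_lit 5) (nat_lit 7) (nat_lit 4) (nat_lit 411) (nat_lit 303) (nat_lit 174)) (XT.lf (nat_lit 0) (nat_lit 32342005887) (nat_lit 84) (nat_lit 12250085359) (nat_lit 168) (nat_lit 19778422271) (nat_lit 5) (nat_lit 5) (nat_lit 6) (nat_lit 5) (nat_lit 7) (nat_lit 4) (nat_lit 412) (nat_lit 303) (nat_lit 173))))) (XT.nd (nat_lit 282) (nat_lit 84) (nat_lit 0) (XT.nd (nat_lit 94) (nat_lit 0) (nat_lit 0) (XT.lf (nat_lit 0) (nat_lit 38751460307) (nat_lit 84) (nat_lit 9013044955) (nat_lit 168) (nat_lit 18474848959) (nat_lit 5) (nat_lit 5) (nat_lit 6) (nat_lit 5) (nat_lit 7) (nat_lit 4) (nat_lit 413) (nat_lit 303) (nat_lit 172)) (XT.nd (nat_lit 94) (nat_lit 0) (nat_lit 0) (XT.lf (nat_lit 0) (nat_lit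 45353793467) (nat_lit 84) (nat_lit 5677594003) (nat_lit 168) (nat_lit 17134878783) (nat_lit 5) (nat_lit 5) (nat_lit 6) (nat_lit 5) (nat_lit 7) (nat_lit 4) (nat_lit 414) (nat_lit 303) (nat_lit 171)) (XT.lf (nat_lit 0) (nat_lit 52155159431) (nat_lit 84) (nat_lit 2240623514) (nat_lit 168) (nat_lit 15757262751) (nat_lit 5) (nat_lit 5) (nat_lit 6) (nat_lit 5) (nat_lit 7) (nat_lit 4) (nat_lit 415) (nat_lit 303) (nat_lit 170)))) (XT.nd (nat_lit 188) (nat_lit 84) (nat_lit 0) (XT.nd (nat_lit 94) (nat_lit 0) (nat_lit 0) (XT.lf (nat_lit 0) (nat_lit 57873734434) (nat_lit 168) (nat_lit 13052553427) (nat_lit 0) (nat_lit 1274856465) (nat_lit 5) (nat_lit 5) (nat_lit 7) (nat_lit 4) (nat_lit 5) (nat_lit 4) (nat_lit 416) (nat_lit 303) (nat_lit 169)) (XT.lf (nat_lit 0) (nat_lit 61478863822) (nat_lit 168) (nat_lit 7982244775) (nat_lit 0) (nat_lit 4851040806) (nat_lit 5) (nat_lit 5) (nat_lit 7) (nat_lit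 4) (nat_lit 5) (nat_lit 4) (nat_lit 417) (nat_lit 303) (nat_lit 168))) (XT.nd (nat_lit 94) (nat_lit 84) (nat_lit 0) (XT.lf (nat_lit 0) (nat_lit 65192304204) (nat_lit 168) (nat_lit 2760006987) (nat_lit 0) (nat_lit 8536406460) (nat_lit 5) (nat_lit 5) (nat_lit 7) (nat_lit 4) (nat_lit 5) (nat_lit 4) (nat_lit 418) (nat_lit 303) (nat_lit 167)) (XT.lf (nat_lit 0) (nat_lit 2672880186) (nat_lit 84) (nat_lit 66371152012) (nat_lit 84) (nat_lit 9688023686) (nat_lit 4) (nat_lit 4) (nat_lit 5) (nat_lit 5) (nat_lit 5) (nat_lit 4) (nat_lit 419) (nat_lit 303) (nat_lit 166))))))) (XT.nd (nat_lit 45496) (nat_lit 0) (nat_lit 7980) (XT.nd (nat_lit 44838) (nat_lit 0) (nat_lit 9996) (XT.nd (nat_lit 282) (nat_lit 84) (nat_lit 0) (XT.nd (nat_lit 94) (nat_lit 0) (nat_lit 0) (XT.lf (nat_lit 0) (nat_lit 8327656555) (nat_lit 84) (nat_lit 64713022226) (nat_lit 84) (nat_lit 8003482086) (nat_lit 4) (nat_lit 4)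 (nat_lit 5) (nat_lit 5) (nat_lit 5) (nat_lit 4) (nat_lit 420) (nat_lit 303) (nat_lit 165)) (XT.nd (nat_lit 94) (nat_lit 0) (nat_lit 0) (XT.lf (nat_lit 0) (nat_lit 14152841558) (nat_lit 84) (nat_lit 63005185096) (nat_lit 84) (nat_lit 6270027288) (nat_lit 4) (nat_lit 4) (nat_lit 5) (nat_lit 5) (nat_lit 5) (nat_lit 4) (nat_lit 421) (nat_lit 303) (nat_lit 164)) (XT.lf (nat_lit 0) (nat_lit 20153864878) (nat_lit 84) (nat_lit 61246048738) (nat_lit 84) (nat_lit 4486043532) (nat_lit 4) (nat_lit 4) (nat_lit 5) (nat_lit 5) (nat_lit 5) (nat_lit 4) (nat_lit 422) (nat_lit 303) (nat_lit 163)))) (XT.nd (nat_lit 94) (nat_lit 84) (nat_lit 0) (XT.lf (nat_lit 0) (nat_lit 26336320096) (nat_lit 84) (nat_lit 59433973453) (nat_lit 84) (nat_lit 2649867959) (nat_lit 4) (nat_lit 4) (nat_lit 5) (nat_lit 5) (nat_lit 5) (nat_lit 4) (nat_lit 423) (nat_lit 303) (nat_lit 162)) (XT.nd (nat_lit 94) (nat_lit 84) (nat_lit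 0) (XT.lf (nat_lit 0) (nat_lit 32705969910) (nat_lit 84) (nat_lit 57567270197) (nat_lit 84) (nat_lit 759789059) (nat_lit 4) (nat_lit 4) (nat_lit 5) (nat_lit 5) (nat_lit 5) (nat_lit 4) (nat_lit 424) (nat_lit 303) (nat_lit 161)) (XT.lf (nat_lit 0) (nat_lit 1162060569) (nat_lit 168) (nat_lit 54470008909) (nat_lit 84) (nat_lit 38094561401) (nat_lit 3) (nat_lit 5) (nat_lit 5) (nat_lit 5) (nat_lit 4) (nat_lit 4) (nat_lit 425) (nat_lit 303) (nat_lit 160))))) (XT.nd (nat_lit 282) (nat_lit 504) (nat_lit 0) (XT.nd (nat_lit 94) (nat_lit 588) (nat_lit 0) (XT.lf (nat_lit 0) (nat_lit 1175748037) (nat_lit 0) (nat_lit 1175748037) (nat_lit 420) (nat_lit 1030723893) (nat_lit 135) (nat_lit 5) (nat_lit 135) (nat_lit 3) (nat_lit 140) (nat_lit 3) (nat_lit 304) (nat_lit 304) (nat_lit 280)) (XT.nd (nat_lit 94) (nat_lit 588) (nat_lit 0) (XT.lf (nat_lit 0) (nat_lit 4750862363) (nat_lit 0) (nat_lit 1563666927)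 (nat_lit 420) (nat_lit 491502424) (nat_lit 135) (nat_lit 5) (nat_lit 135) (nat_lit 3) (nat_lit 140) (nat_lit 3) (nat_lit 305) (nat_lit 304) (nat_lit 279)) (XT.lf (nat_lit 84) (nat_lit 338424766) (nat_lit 0) (nat_lit 706086096) (nat_lit 588) (nat_lit 5806520115) (nat_lit 129) (nat_lit 5) (nat_lit 128) (nat_lit 3) (nat_lit 135) (nat_lit 5) (nat_lit 306) (nat_lit 304) (nat_lit 278)))) (XT.nd (nat_lit 188) (nat_lit 588) (nat_lit 0) (XT.nd (nat_lit 94) (nat_lit 0) (nat_lit 0) (XT.lf (nat_lit 0) (nat_lit 2579987038) (nat_lit 504) (nat_lit 4089350167) (nat_lit 588) (nat_lit 229698269) (nat_lit 129) (nat_lit 5) (nat_lit 135) (nat_lit 5) (nat_lit 136) (nat_lit 5) (nat_lit 307) (nat_lit 304) (nat_lit 277)) (XT.lf (nat_lit 0) (nat_lit 4110748599) (nat_lit 504) (nat_lit 1632497283) (nat_lit 588) (nat_lit 1207476067) (nat_lit 129) (nat_lit 5) (nat_lit 135) (nat_lit 5) (nat_lit 136) (nat_lit 5)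 (nat_lit 308) (nat_lit 304) (nat_lit 276))) (XT.nd (nat_lit 94) (nat_lit 588) (nat_lit 0) (XT.lf (nat_lit 84) (nat_lit 885079319) (nat_lit 0) (nat_lit 4754918692) (nat_lit 588) (nat_lit 1366085526) (nat_lit 130) (nat_lit 5) (nat_lit 129) (nat_lit 5) (nat_lit 136) (nat_lit 5) (nat_lit 309) (nat_lit 304) (nat_lit 275)) (XT.lf (nat_lit 0) (nat_lit 110174664) (nat_lit 588) (nat_lit 3583658521) (nat_lit 672) (nat_lit 3371049965) (nat_lit 122) (nat_lit 5) (nat_lit 129) (nat_lit 5) (nat_lit 130) (nat_lit 5) (nat_lit 310) (nat_lit 304) (nat_lit 274)))))) (XT.nd (nat_lit 564) (nat_lit 1428) (nat_lit 0) (XT.nd (nat_lit 282) (nat_lit 588) (nat_lit 0) (XT.nd (nat_lit 94) (nat_lit 0) (nat_lit 0) (XT.lf (nat_lit 0) (nat_lit 1548109383) (nat_lit 588) (nat_lit 1015222839) (nat_lit 672) (nat_lit 4563973626) (nat_lit 122) (nat_lit 5) (nat_lit 129) (nat_lit 5) (nat_lit 130) (nat_lit 5) (nat_lit 311)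 (nat_lit 304) (nat_lit 273)) (XT.nd (nat_lit 94) (nat_lit 0) (nat_lit 0) (XT.lf (nat_lit 84) (nat_lit 1633153011) (nat_lit 0) (nat_lit 1359630585) (nat_lit 672) (nat_lit 4200544089) (nat_lit 123) (nat_lit 5) (nat_lit 122) (nat_lit 5) (nat_lit 130) (nat_lit 5) (nat_lit 312) (nat_lit 304) (nat_lit 272)) (XT.lf (nat_lit 84) (nat_lit 4352894875) (nat_lit 0) (nat_lit 87211932) (nat_lit 672) (nat_lit 2823071944) (nat_lit 123) (nat_lit 5) (nat_lit 122) (nat_lit 5) (nat_lit 130) (nat_lit 5) (nat_lit 313) (nat_lit 304) (nat_lit 271)))) (XT.nd (nat_lit 94) (nat_lit 672) (nat_lit 0) (XT.lf (nat_lit 0) (nat_lit 5893495573) (nat_lit 588) (nat_lit 223925730) (nat_lit 672) (nat_lit 1219438757) (nat_lit 123) (nat_lit 5) (nat_lit 130) (nat_lit 5) (nat_lit 131) (nat_lit 5) (nat_lit 314) (nat_lit 304) (nat_lit 270)) (XT.nd (nat_lit 94) (nat_lit 672) (nat_lit 0) (XT.lf (nat_lit 84) (nat_lit 2563953110)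 (nat_lit 0) (nat_lit 4804894790) (nat_lit 672) (nat_lit 45141552) (nat_lit 124) (nat_lit 5) (nat_lit 123) (nat_lit 5) (nat_lit 131) (nat_lit 5) (nat_lit 315) (nat_lit 304) (nat_lit 269)) (XT.lf (nat_lit 0) (nat_lit 1321481600) (nat_lit 672) (nat_lit 2097936476) (nat_lit 756) (nat_lit 4075535029) (nat_lit 115) (nat_lit 5) (nat_lit 123) (nat_lit 5) (nat_lit 124) (nat_lit 5) (nat_lit 316) (nat_lit 304) (nat_lit 268))))) (XT.nd (nat_lit 282) (nat_lit 1428) (nat_lit 0) (XT.nd (nat_lit 94) (nat_lit 0) (nat_lit 0) (XT.lf (nat_lit 84) (nat_lit 720927171) (nat_lit 0) (nat_lit 1968064312) (nat_lit 756) (nat_lit 4891086509) (nat_lit 116) (nat_lit 5) (nat_lit 115) (nat_lit 5) (nat_lit 124) (nat_lit 5) (nat_lit 317) (nat_lit 304) (nat_lit 267)) (XT.nd (nat_lit 94) (nat_lit 0) (nat_lit 84) (XT.lf (nat_lit 84) (nat_lit 3639366238) (nat_lit 0) (nat_lit 434847259) (nat_lit 756) (nat_lit 3594789963)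 (nat_lit 116) (nat_lit 5) (nat_lit 115) (nat_lit 5) (nat_lit 124) (nat_lit 5) (nat_lit 318) (nat_lit 304) (nat_lit 266)) (XT.lf (nat_lit 0) (nat_lit 5468704096) (nat_lit 672) (nat_lit 1157012695) (nat_lit 84) (nat_lit 1136397384) (nat_lit 116) (nat_lit 5) (nat_lit 124) (nat_lit 5) (nat_lit 117) (nat_lit 5) (nat_lit 319) (nat_lit 304) (nat_lit 265)))) (XT.nd (nat_lit 188) (nat_lit 756) (nat_lit 0) (XT.nd (nat_lit 94) (nat_lit 84) (nat_lit 0) (XT.lf (nat_lit 0) (nat_lit 1804331818) (nat_lit 672) (nat_lit 5080752262) (nat_lit 756) (nat_lit 974061896) (nat_lit 108) (nat_lit 5) (nat_lit 116) (nat_lit 5) (nat_lit 117) (nat_lit 5) (nat_lit 320) (nat_lit 304) (nat_lit 264)) (XT.lf (nat_lit 0) (nat_lit 347124946) (nat_lit 756) (nat_lit 3113915711) (nat_lit 84) (nat_lit 4499347051) (nat_lit 107) (nat_lit 5) (nat_lit 116) (nat_lit 5) (nat_lit 108) (nat_lit 5) (nat_lit 321) (nat_lit 304) (nat_lit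 263))) (XT.nd (nat_lit 94) (nat_lit 756) (nat_lit 0) (XT.lf (nat_lit 0) (nat_lit 1646861697) (nat_lit 756) (nat_lit 123970719) (nat_lit 84) (nat_lit 6295274523) (nat_lit 107) (nat_lit 5) (nat_lit 116) (nat_lit 5) (nat_lit 108) (nat_lit 5) (nat_lit 322) (nat_lit 304) (nat_lit 262)) (XT.lf (nat_lit 0) (nat_lit 2975742492) (nat_lit 840) (nat_lit 5188237064) (nat_lit 84) (nat_lit 11799716) (nat_lit 98) (nat_lit 5) (nat_lit 108) (nat_lit 5) (nat_lit 99) (nat_lit 5) (nat_lit 323) (nat_lit 304) (nat_lit 261))))))))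
noncomputable def xc105 : XT := (XT.nd (nat_lit 2350) (nat_lit 1848) (nat_lit 0) (XT.nd (nat_lit 1128) (nat_lit 2016) (nat_lit 0) (XT.nd (nat_lit 564) (nat_lit 1260) (nat_lit 0) (XT.nd (nat_lit 282) (nat_lit 1008) (nat_lit 0) (XT.nd (nat_lit 94) (nat_lit 840) (nat_lit 0) (XT.lf (nat_lit 0) (nat_lit 4325345979) (nat_lit 840) (nat_lit 2141322125) (nat_lit 84) (nat_lit 1823138293) (nat_lit 98) (nat_lit 5) (nat_lit 108) (nat_lit 5) (nat_lit 99) (nat_lit 5) (nat_lit 324) (nat_lit 304) (nat_lit 260)) (XT.nd (nat_lit 94) (nat_lit 0) (nat_lit 0) (XT.lf (nat_lit 0) (nat_lit 988413241) (nat_lit 840) (nat_lit 4699487262) (nat_lit 924) (nat_lit 2720674013) (nat_lit 88) (nat_lit 5) (nat_lit 98) (nat_lit 5) (nat_lit 99) (nat_lit 5) (nat_lit 325) (nat_lit 304) (nat_lit 259)) (XT.lf (nat_lit 0) (nat_lit 4229336444) (nat_lit 840) (nat_lit 2847870520) (nat_lit 924) (nat_lit 1454598911) (nat_lit 88)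 (nat_lit 5) (nat_lit 98) (nat_lit 5) (nat_lit 99) (nat_lit 5) (nat_lit 326) (nat_lit 304) (nat_lit 258)))) (XT.nd (nat_lit 94) (nat_lit 1008) (nat_lit 0) (XT.lf (nat_lit 0) (nat_lit 7540438390) (nat_lit 840) (nat_lit 932442990) (nat_lit 924) (nat_lit 187406009) (nat_lit 88) (nat_lit 5) (nat_lit 98) (nat_lit 5) (nat_lit 99) (nat_lit 5) (nat_lit 327) (nat_lit 304) (nat_lit 257)) (XT.nd (nat_lit 94) (nat_lit 0) (nat_lit 0) (XT.lf (nat_lit 0) (nat_lit 1092477987) (nat_lit 1008) (nat_lit 6640349781) (nat_lit 84) (nat_lit 1059980274) (nat_lit 76) (nat_lit 5) (nat_lit 88) (nat_lit 5) (nat_lit 77) (nat_lit 5) (nat_lit 328) (nat_lit 304) (nat_lit 256)) (XT.lf (nat_lit 0) (nat_lit 2394096073) (nat_lit 1008) (nat_lit 3422210352) (nat_lit 84) (nat_lit 3113773213) (nat_lit 76) (nat_lit 5) (nat_lit 88) (nat_lit 5) (nat_lit 77) (nat_lit 5) (nat_lit 329) (nat_lit 304) (nat_lit 255))))) (XT.nd (nat_lit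 282) (nat_lit 588) (nat_lit 0) (XT.nd (nat_lit 94) (nat_lit 672) (nat_lit 0) (XT.lf (nat_lit 0) (nat_lit 3701733933) (nat_lit 1008) (nat_lit 134871316) (nat_lit 84) (nat_lit 5236324311) (nat_lit 76) (nat_lit 5) (nat_lit 88) (nat_lit 5) (nat_lit 77) (nat_lit 5) (nat_lit 330) (nat_lit 304) (nat_lit 254)) (XT.nd (nat_lit 94) (nat_lit 0) (nat_lit 0) (XT.lf (nat_lit 0) (nat_lit 3291038561) (nat_lit 672) (nat_lit 1758219374) (nat_lit 756) (nat_lit 4171220957) (nat_lit 68) (nat_lit 5) (nat_lit 76) (nat_lit 5) (nat_lit 77) (nat_lit 5) (nat_lit 331) (nat_lit 304) (nat_lit 253)) (XT.lf (nat_lit 0) (nat_lit 6411236758) (nat_lit 756) (nat_lit 2581006811) (nat_lit 84) (nat_lit 381448900) (nat_lit 68) (nat_lit 5) (nat_lit 77) (nat_lit 5) (nat_lit 69) (nat_lit 5) (nat_lit 332) (nat_lit 304) (nat_lit 252)))) (XT.nd (nat_lit 94) (nat_lit 84) (nat_lit 0) (XT.lf (nat_lit 0) (nat_lit 840470872) (nat_lit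 504) (nat_lit 6969709117) (nat_lit 588) (nat_lit 1721874675) (nat_lit 62) (nat_lit 5) (nat_lit 68) (nat_lit 5) (nat_lit 69) (nat_lit 5) (nat_lit 333) (nat_lit 304) (nat_lit 251)) (XT.nd (nat_lit 94) (nat_lit 84) (nat_lit 0) (XT.lf (nat_lit 0) (nat_lit 4393322681) (nat_lit 504) (nat_lit 4855188960) (nat_lit 588) (nat_lit 447166719) (nat_lit 62) (nat_lit 5) (nat_lit 68) (nat_lit 5) (nat_lit 69) (nat_lit 5) (nat_lit 334) (nat_lit 304) (nat_lit 250)) (XT.lf (nat_lit 0) (nat_lit 819074057) (nat_lit 588) (nat_lit 1846029054) (nat_lit 84) (nat_lit 7200165943) (nat_lit 61) (nat_lit 5) (nat_lit 68) (nat_lit 5) (nat_lit 62) (nat_lit 5) (nat_lit 335) (nat_lit 304) (nat_lit 249)))))) (XT.nd (nat_lit 564) (nat_lit 1176) (nat_lit 0) (XT.nd (nat_lit 282) (nat_lit 420) (nat_lit 0) (XT.nd (nat_lit 94) (nat_lit 0) (nat_lit 0) (XT.lf (nat_lit 0) (nat_lit 1719021420) (nat_lit 420) (nat_lit 383714708)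 (nat_lit 504) (nat_lit 7937836897) (nat_lit 56) (nat_lit 5) (nat_lit 61) (nat_lit 5) (nat_lit 62) (nat_lit 5) (nat_lit 336) (nat_lit 304) (nat_lit 248)) (XT.nd (nat_lit 94) (nat_lit 0) (nat_lit 0) (XT.lf (nat_lit 0) (nat_lit 3436205980) (nat_lit 504) (nat_lit 4836018527) (nat_lit 84) (nat_lit 1948979086) (nat_lit 56) (nat_lit 5) (nat_lit 62) (nat_lit 5) (nat_lit 57) (nat_lit 5) (nat_lit 337) (nat_lit 304) (nat_lit 247)) (XT.lf (nat_lit 0) (nat_lit 4786830896) (nat_lit 504) (nat_lit 1274781246) (nat_lit 84) (nat_lit 4346767747) (nat_lit 56) (nat_lit 5) (nat_lit 62) (nat_lit 5) (nat_lit 57) (nat_lit 5) (nat_lit 338) (nat_lit 304) (nat_lit 246)))) (XT.nd (nat_lit 94) (nat_lit 0) (nat_lit 0) (XT.lf (nat_lit 0) (nat_lit 2418003562) (nat_lit 420) (nat_lit 3758046636) (nat_lit 504) (nat_lit 4425600592) (nat_lit 51) (nat_lit 5) (nat_lit 56) (nat_lit 5) (nat_lit 57) (nat_lit 5) (nat_lit 339)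 (nat_lit 304) (nat_lit 245)) (XT.nd (nat_lit 94) (nat_lit 0) (nat_lit 0) (XT.lf (nat_lit 0) (nat_lit 6225000288) (nat_lit 420) (nat_lit 1369928229) (nat_lit 504) (nat_lit 3206585066) (nat_lit 51) (nat_lit 5) (nat_lit 56) (nat_lit 5) (nat_lit 57) (nat_lit 5) (nat_lit 340) (nat_lit 304) (nat_lit 244)) (XT.lf (nat_lit 0) (nat_lit 9042711812) (nat_lit 504) (nat_lit 895838746) (nat_lit 84) (nat_lit 1069668375) (nat_lit 51) (nat_lit 5) (nat_lit 57) (nat_lit 5) (nat_lit 52) (nat_lit 5) (nat_lit 341) (nat_lit 304) (nat_lit 243))))) (XT.nd (nat_lit 282) (nat_lit 756) (nat_lit 0) (XT.nd (nat_lit 94) (nat_lit 84) (nat_lit 0) (XT.lf (nat_lit 0) (nat_lit 2917077858) (nat_lit 336) (nat_lit 7636111434) (nat_lit 420) (nat_lit 667764590) (nat_lit 47) (nat_lit 5) (nat_lit 51) (nat_lit 5) (nat_lit 52) (nat_lit 5) (nat_lit 342) (nat_lit 304) (nat_lit 242)) (XT.nd (nat_lit 94) (nat_lit 0) (nat_lit 0)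 (XT.lf (nat_lit 0) (nat_lit 641092160) (nat_lit 420) (nat_lit 4606581452) (nat_lit 84) (nat_lit 6193051518) (nat_lit 46) (nat_lit 5) (nat_lit 51) (nat_lit 5) (nat_lit 47) (nat_lit 5) (nat_lit 343) (nat_lit 304) (nat_lit 241)) (XT.lf (nat_lit 0) (nat_lit 1952346941) (nat_lit 420) (nat_lit 827717397) (nat_lit 84) (nat_lit 8887945408) (nat_lit 46) (nat_lit 5) (nat_lit 51) (nat_lit 5) (nat_lit 47) (nat_lit 5) (nat_lit 344) (nat_lit 304) (nat_lit 240)))) (XT.nd (nat_lit 188) (nat_lit 336) (nat_lit 0) (XT.nd (nat_lit 94) (nat_lit 0) (nat_lit 0) (XT.lf (nat_lit 0) (nat_lit 3105430241) (nat_lit 420) (nat_lit 206051959) (nat_lit 504) (nat_lit 8590787745) (nat_lit 41) (nat_lit 5) (nat_lit 46) (nat_lit 5) (nat_lit 47) (nat_lit 5) (nat_lit 345) (nat_lit 304) (nat_lit 239)) (XT.lf (nat_lit 0) (nat_lit 4722624791) (nat_lit 504) (nat_lit 5015858898) (nat_lit 84) (nat_lit 2405151731) (nat_lit 41)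 (nat_lit 5) (nat_lit 47) (nat_lit 5) (nat_lit 42) (nat_lit 5) (nat_lit 346) (nat_lit 304) (nat_lit 238))) (XT.nd (nat_lit 94) (nat_lit 336) (nat_lit 0) (XT.lf (nat_lit 0) (nat_lit 6157179951) (nat_lit 504) (nat_lit 1145009599) (nat_lit 84) (nat_lit 5091068813) (nat_lit 41) (nat_lit 5) (nat_lit 47) (nat_lit 5) (nat_lit 42) (nat_lit 5) (nat_lit 347) (nat_lit 304) (nat_lit 237)) (XT.lf (nat_lit 0) (nat_lit 2879373243) (nat_lit 336) (nat_lit 4763631270) (nat_lit 420) (nat_lit 5007544826) (nat_lit 37) (nat_lit 5) (nat_lit 41) (nat_lit 5) (nat_lit 42) (nat_lit 5) (nat_lit 348) (nat_lit 304) (nat_lit 236))))))) (XT.nd (nat_lit 1222) (nat_lit 672) (nat_lit 0) (XT.nd (nat_lit 564) (nat_lit 504) (nat_lit 0) (XT.nd (nat_lit 282) (nat_lit 336) (nat_lit 0) (XT.nd (nat_lit 94) (nat_lit 336) (nat_lit 0) (XT.lf (nat_lit 0) (nat_lit 7028557613) (nat_lit 336) (nat_lit 2136932129) (nat_lit 420) (nat_lit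 3750754231) (nat_lit 37) (nat_lit 5) (nat_lit 41) (nat_lit 5) (nat_lit 42) (nat_lit 5) (nat_lit 349) (nat_lit 304) (nat_lit 235)) (XT.nd (nat_lit 94) (nat_lit 336) (nat_lit 0) (XT.lf (nat_lit 0) (nat_lit 10720101205) (nat_lit 420) (nat_lit 1913720686) (nat_lit 84) (nat_lit 556952591) (nat_lit 37) (nat_lit 5) (nat_lit 42) (nat_lit 5) (nat_lit 38) (nat_lit 5) (nat_lit 350) (nat_lit 304) (nat_lit 234)) (XT.lf (nat_lit 0) (nat_lit 2182028245) (nat_lit 336) (nat_lit 10164265548) (nat_lit 420) (nat_lit 1126924782) (nat_lit 33) (nat_lit 5) (nat_lit 37) (nat_lit 5) (nat_lit 38) (nat_lit 5) (nat_lit 351) (nat_lit 304) (nat_lit 233)))) (XT.nd (nat_lit 94) (nat_lit 252) (nat_lit 0) (XT.lf (nat_lit 0) (nat_lit 253388273) (nat_lit 420) (nat_lit 7345064323) (nat_lit 84) (nat_lit 6166003329) (nat_lit 32) (nat_lit 5) (nat_lit 37) (nat_lit 5) (nat_lit 33) (nat_lit 5) (nat_lit 352) (nat_lit 304) (nat_lit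 232)) (XT.nd (nat_lit 94) (nat_lit 252) (nat_lit 0) (XT.lf (nat_lit 0) (nat_lit 1633621952) (nat_lit 420) (nat_lit 3311230160) (nat_lit 84) (nat_lit 9120232442) (nat_lit 32) (nat_lit 5) (nat_lit 37) (nat_lit 5) (nat_lit 33) (nat_lit 5) (nat_lit 353) (nat_lit 304) (nat_lit 231)) (XT.lf (nat_lit 0) (nat_lit 842220206) (nat_lit 252) (nat_lit 2203902523) (nat_lit 336) (nat_lit 11329349504) (nat_lit 29) (nat_lit 5) (nat_lit 32) (nat_lit 5) (nat_lit 33) (nat_lit 5) (nat_lit 354) (nat_lit 304) (nat_lit 230))))) (XT.nd (nat_lit 282) (nat_lit 504) (nat_lit 0) (XT.nd (nat_lit 94) (nat_lit 0) (nat_lit 0) (XT.lf (nat_lit 0) (nat_lit 4524933759) (nat_lit 336) (nat_lit 9529133512) (nat_lit 84) (nat_lit 640826483) (nat_lit 29) (nat_lit 5) (nat_lit 33) (nat_lit 5) (nat_lit 30) (nat_lit 5) (nat_lit 355) (nat_lit 304) (nat_lit 229)) (XT.nd (nat_lit 94) (nat_lit 0) (nat_lit 0) (XT.lf (nat_lit 0) (nat_lit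 6054123142) (nat_lit 336) (nat_lit 5445564742) (nat_lit 84) (nat_lit 3524495584) (nat_lit 29) (nat_lit 5) (nat_lit 33) (nat_lit 5) (nat_lit 30) (nat_lit 5) (nat_lit 356) (nat_lit 304) (nat_lit 228)) (XT.lf (nat_lit 0) (nat_lit 7613253258) (nat_lit 336) (nat_lit 1256876418) (nat_lit 84) (nat_lit 6494196386) (nat_lit 29) (nat_lit 5) (nat_lit 33) (nat_lit 5) (nat_lit 30) (nat_lit 5) (nat_lit 357) (nat_lit 304) (nat_lit 227)))) (XT.nd (nat_lit 188) (nat_lit 252) (nat_lit 0) (XT.nd (nat_lit 94) (nat_lit 0) (nat_lit 0) (XT.lf (nat_lit 0) (nat_lit 3103361575) (nat_lit 252) (nat_lit 6131201535) (nat_lit 336) (nat_lit 6480121117) (nat_lit 26) (nat_lit 5) (nat_lit 29) (nat_lit 5) (nat_lit 30) (nat_lit 5) (nat_lit 358) (nat_lit 304) (nat_lit 226)) (XT.lf (nat_lit 0) (nat_lit 7604797418) (nat_lit 252) (nat_lit 3297821155) (nat_lit 336) (nat_lit 5173491265) (nat_lit 26) (nat_lit 5) (nat_lit 29)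 (nat_lit 5) (nat_lit 30) (nat_lit 5) (nat_lit 359) (nat_lit 304) (nat_lit 225))) (XT.nd (nat_lit 94) (nat_lit 252) (nat_lit 0) (XT.lf (nat_lit 0) (nat_lit 12225782964) (nat_lit 252) (nat_lit 380466740) (nat_lit 336) (nat_lit 3843084547) (nat_lit 26) (nat_lit 5) (nat_lit 29) (nat_lit 5) (nat_lit 30) (nat_lit 5) (nat_lit 360) (nat_lit 304) (nat_lit 224)) (XT.lf (nat_lit 0) (nat_lit 112153500) (nat_lit 252) (nat_lit 14262029790) (nat_lit 336) (nat_lit 2459680753) (nat_lit 23) (nat_lit 5) (nat_lit 26) (nat_lit 5) (nat_lit 27) (nat_lit 5) (nat_lit 361) (nat_lit 304) (nat_lit 223)))))) (XT.nd (nat_lit 564) (nat_lit 336) (nat_lit 0) (XT.nd (nat_lit 282) (nat_lit 252) (nat_lit 0) (XT.nd (nat_lit 94) (nat_lit 84) (nat_lit 0) (XT.lf (nat_lit 0) (nat_lit 4648099531) (nat_lit 252) (nat_lit 11581350211) (nat_lit 336) (nat_lit 999945040) (nat_lit 23) (nat_lit 5) (nat_lit 26) (nat_lit 5) (nat_lit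 27) (nat_lit 5) (nat_lit 362) (nat_lit 304) (nat_lit 222)) (XT.nd (nat_lit 94) (nat_lit 0) (nat_lit 0) (XT.lf (nat_lit 0) (nat_lit 479682859) (nat_lit 336) (nat_lit 8337071081) (nat_lit 84) (nat_lit 8820832022) (nat_lit 22) (nat_lit 5) (nat_lit 26) (nat_lit 5) (nat_lit 23) (nat_lit 5) (nat_lit 363) (nat_lit 304) (nat_lit 221)) (XT.lf (nat_lit 0) (nat_lit 1969680429) (nat_lit 336) (nat_lit 3990449614) (nat_lit 84) (nat_lit 12098521621) (nat_lit 22) (nat_lit 5) (nat_lit 26) (nat_lit 5) (nat_lit 23) (nat_lit 5) (nat_lit 364) (nat_lit 304) (nat_lit 220)))) (XT.nd (nat_lit 94) (nat_lit 0) (nat_lit 0) (XT.lf (nat_lit 0) (nat_lit 482256629) (nat_lit 252) (nat_lit 3014110582) (nat_lit 336) (nat_lit 14996776357) (nat_lit 19) (nat_lit 5) (nat_lit 22) (nat_lit 5) (nat_lit 23) (nat_lit 5) (nat_lit 365) (nat_lit 304) (nat_lit 219)) (XT.nd (nat_lit 94) (nat_lit 0) (nat_lit 0) (XT.lf (nat_lit 0)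 (nat_lit 5098612975) (nat_lit 336) (nat_lit 13780918804) (nat_lit 84) (nat_lit 60774035) (nat_lit 19) (nat_lit 5) (nat_lit 23) (nat_lit 5) (nat_lit 20) (nat_lit 5) (nat_lit 366) (nat_lit 304) (nat_lit 218)) (XT.lf (nat_lit 0) (nat_lit 6767701963) (nat_lit 336) (nat_lit 9468748821) (nat_lit 84) (nat_lit 3164420909) (nat_lit 19) (nat_lit 5) (nat_lit 23) (nat_lit 5) (nat_lit 20) (nat_lit 5) (nat_lit 367) (nat_lit 304) (nat_lit 217))))) (XT.nd (nat_lit 282) (nat_lit 168) (nat_lit 0) (XT.nd (nat_lit 94) (nat_lit 168) (nat_lit 0) (XT.lf (nat_lit 0) (nat_lit 8475289590) (nat_lit 336) (nat_lit 5040457245) (nat_lit 84) (nat_lit 6360450575) (nat_lit 19) (nat_lit 5) (nat_lit 23) (nat_lit 5) (nat_lit 20) (nat_lit 5) (nat_lit 368) (nat_lit 304) (nat_lit 216)) (XT.nd (nat_lit 94) (nat_lit 168) (nat_lit 0) (XT.lf (nat_lit 0) (nat_lit 10222967506) (nat_lit 336) (nat_lit 491916444) (nat_lit 84) (nat_lit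 9651842068) (nat_lit 19) (nat_lit 5) (nat_lit 23) (nat_lit 5) (nat_lit 20) (nat_lit 5) (nat_lit 369) (nat_lit 304) (nat_lit 215)) (XT.lf (nat_lit 0) (nat_lit 4267085561) (nat_lit 168) (nat_lit 7787609187) (nat_lit 252) (nat_lit 8816907765) (nat_lit 17) (nat_lit 5) (nat_lit 19) (nat_lit 5) (nat_lit 20) (nat_lit 5) (nat_lit 370) (nat_lit 304) (nat_lit 214)))) (XT.nd (nat_lit 188) (nat_lit 168) (nat_lit 0) (XT.nd (nat_lit 94) (nat_lit 0) (nat_lit 0) (XT.lf (nat_lit 0) (nat_lit 9167696384) (nat_lit 168) (nat_lit 4768397469) (nat_lit 252) (nat_lit 7456322267) (nat_lit 17) (nat_lit 5) (nat_lit 19) (nat_lit 5) (nat_lit 20) (nat_lit 5) (nat_lit 371) (nat_lit 304) (nat_lit 213)) (XT.lf (nat_lit 0) (nat_lit 14204369095) (nat_lit 168) (nat_lit 1659569175) (nat_lit 252) (nat_lit 6065868408) (nat_lit 17) (nat_lit 5) (nat_lit 19) (nat_lit 5) (nat_lit 20) (nat_lit 5) (nat_lit 372) (nat_lit 304)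 (nat_lit 212))) (XT.nd (nat_lit 94) (nat_lit 168) (nat_lit 0) (XT.lf (nat_lit 0) (nat_lit 17855319535) (nat_lit 252) (nat_lit 3117771276) (nat_lit 84) (nat_lit 1510710149) (nat_lit 17) (nat_lit 5) (nat_lit 20) (nat_lit 5) (nat_lit 18) (nat_lit 5) (nat_lit 373) (nat_lit 304) (nat_lit 211)) (XT.lf (nat_lit 0) (nat_lit 1633381361) (nat_lit 168) (nat_lit 18297017456) (nat_lit 252) (nat_lit 3123949075) (nat_lit 15) (nat_lit 5) (nat_lit 17) (nat_lit 5) (nat_lit 18) (nat_lit 5) (nat_lit 374) (nat_lit 304) (nat_lit 210))))))))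
noncomputable def xc106 : XT := (XT.nd (nat_lit 2350) (nat_lit 168) (nat_lit 0) (XT.nd (nat_lit 1128) (nat_lit 336) (nat_lit 0) (XT.nd (nat_lit 564) (nat_lit 168) (nat_lit 0) (XT.nd (nat_lit 282) (nat_lit 168) (nat_lit 0) (XT.nd (nat_lit 94) (nat_lit 84) (nat_lit 0) (XT.lf (nat_lit 0) (nat_lit 6582782777) (nat_lit 168) (nat_lit 15508541279) (nat_lit 252) (nat_lit 1550648602) (nat_lit 15) (nat_lit 5) (nat_lit 17) (nat_lit 5) (nat_lit 18) (nat_lit 5) (nat_lit 375) (nat_lit 304) (nat_lit 209)) (XT.nd (nat_lit 94) (nat_lit 0) (nat_lit 0) (XT.lf (nat_lit 0) (nat_lit 59127554) (nat_lit 252) (nat_lit 12577861542) (nat_lit 84) (nat_lit 11611193835) (nat_lit 14) (nat_lit 5) (nat_lit 17) (nat_lit 5) (nat_lit 15) (nat_lit 5) (nat_lit 376) (nat_lit 304) (nat_lit 208)) (XT.lf (nat_lit 0) (nat_lit 1676065025) (nat_lit 252) (nat_lit 7987976701) (nat_lit 84) (nat_lit 15209031699) (nat_lit 14) (nat_lit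 5) (nat_lit 17) (nat_lit 5) (nat_lit 15) (nat_lit 5) (nat_lit 377) (nat_lit 304) (nat_lit 207)))) (XT.nd (nat_lit 94) (nat_lit 168) (nat_lit 0) (XT.lf (nat_lit 0) (nat_lit 3332913078) (nat_lit 252) (nat_lit 3269874478) (nat_lit 84) (nat_lit 18914915906) (nat_lit 14) (nat_lit 5) (nat_lit 17) (nat_lit 5) (nat_lit 15) (nat_lit 5) (nat_lit 378) (nat_lit 304) (nat_lit 206)) (XT.nd (nat_lit 94) (nat_lit 0) (nat_lit 0) (XT.lf (nat_lit 0) (nat_lit 1613348262) (nat_lit 168) (nat_lit 3433872420) (nat_lit 252) (nat_lit 21134957080) (nat_lit 12) (nat_lit 5) (nat_lit 14) (nat_lit 5) (nat_lit 15) (nat_lit 5) (nat_lit 379) (nat_lit 304) (nat_lit 205)) (XT.lf (nat_lit 0) (nat_lit 6703762661) (nat_lit 168) (nat_lit 135296488) (nat_lit 252) (nat_lit 20027483863) (nat_lit 12) (nat_lit 5) (nat_lit 14) (nat_lit 5) (nat_lit 15) (nat_lit 5) (nat_lit 380) (nat_lit 304) (nat_lit 204))))) (XT.nd (nat_lit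 282) (nat_lit 168) (nat_lit 0) (XT.nd (nat_lit 94) (nat_lit 0) (nat_lit 0) (XT.lf (nat_lit 0) (nat_lit 8709352410) (nat_lit 252) (nat_lit 15665943453) (nat_lit 84) (nat_lit 3196164380) (nat_lit 12) (nat_lit 5) (nat_lit 15) (nat_lit 5) (nat_lit 13) (nat_lit 5) (nat_lit 381) (nat_lit 304) (nat_lit 203)) (XT.nd (nat_lit 94) (nat_lit 0) (nat_lit 0) (XT.lf (nat_lit 0) (nat_lit 10629807058) (nat_lit 252) (nat_lit 11044090570) (nat_lit 84) (nat_lit 6624620023) (nat_lit 12) (nat_lit 5) (nat_lit 15) (nat_lit 5) (nat_lit 13) (nat_lit 5) (nat_lit 382) (nat_lit 304) (nat_lit 202)) (XT.lf (nat_lit 0) (nat_lit 12600871001) (nat_lit 252) (nat_lit 6291571492) (nat_lit 84) (nat_lit 10155992044) (nat_lit 12) (nat_lit 5) (nat_lit 15) (nat_lit 5) (nat_lit 13) (nat_lit 5) (nat_lit 383) (nat_lit 304) (nat_lit 201)))) (XT.nd (nat_lit 94) (nat_lit 168) (nat_lit 0) (XT.lf (nat_lit 0) (nat_lit 14624381477)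 (nat_lit 252) (nat_lit 1403956373) (nat_lit 84) (nat_lit 13793572051) (nat_lit 12) (nat_lit 5) (nat_lit 15) (nat_lit 5) (nat_lit 13) (nat_lit 5) (nat_lit 384) (nat_lit 304) (nat_lit 200)) (XT.nd (nat_lit 94) (nat_lit 0) (nat_lit 0) (XT.lf (nat_lit 0) (nat_lit 3697813251) (nat_lit 168) (nat_lit 13041094125) (nat_lit 252) (nat_lit 13879620163) (nat_lit 10) (nat_lit 5) (nat_lit 12) (nat_lit 5) (nat_lit 13) (nat_lit 5) (nat_lit 385) (nat_lit 304) (nat_lit 199)) (XT.lf (nat_lit 0) (nat_lit 8975756727) (nat_lit 168) (nat_lit 9949621059) (nat_lit 252) (nat_lit 12514304492) (nat_lit 10) (nat_lit 5) (nat_lit 12) (nat_lit 5) (nat_lit 13) (nat_lit 5) (nat_lit 386) (nat_lit 304) (nat_lit 198)))))) (XT.nd (nat_lit 564) (nat_lit 252) (nat_lit 0) (XT.nd (nat_lit 282) (nat_lit 84) (nat_lit 0) (XT.nd (nat_lit 94) (nat_lit 0) (nat_lit 0) (XT.lf (nat_lit 0) (nat_lit 14405925429) (nat_lit 168) (nat_lit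 6765691501) (nat_lit 252) (nat_lit 11114963219) (nat_lit 10) (nat_lit 5) (nat_lit 12) (nat_lit 5) (nat_lit 13) (nat_lit 5) (nat_lit 387) (nat_lit 304) (nat_lit 197)) (XT.nd (nat_lit 94) (nat_lit 0) (nat_lit 0) (XT.lf (nat_lit 0) (nat_lit 19993380842) (nat_lit 168) (nat_lit 3486337696) (nat_lit 252) (nat_lit 9680292012) (nat_lit 10) (nat_lit 5) (nat_lit 12) (nat_lit 5) (nat_lit 13) (nat_lit 5) (nat_lit 388) (nat_lit 304) (nat_lit 196)) (XT.lf (nat_lit 0) (nat_lit 25743331061) (nat_lit 168) (nat_lit 108502942) (nat_lit 252) (nat_lit 8208953606) (nat_lit 10) (nat_lit 5) (nat_lit 12) (nat_lit 5) (nat_lit 13) (nat_lit 5) (nat_lit 389) (nat_lit 304) (nat_lit 195)))) (XT.nd (nat_lit 94) (nat_lit 84) (nat_lit 0) (XT.lf (nat_lit 0) (nat_lit 28323614738) (nat_lit 252) (nat_lit 3362055657) (nat_lit 84) (nat_lit 3303043898) (nat_lit 10) (nat_lit 5) (nat_lit 13) (nat_lit 5) (nat_lit 11) (nat_lit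 4) (nat_lit 390) (nat_lit 304) (nat_lit 194)) (XT.nd (nat_lit 94) (nat_lit 0) (nat_lit 0) (XT.lf (nat_lit 0) (nat_lit 1771233128) (nat_lit 84) (nat_lit 29112347614) (nat_lit 168) (nat_lit 5061502090) (nat_lit 9) (nat_lit 5) (nat_lit 10) (nat_lit 5) (nat_lit 11) (nat_lit 4) (nat_lit 391) (nat_lit 304) (nat_lit 193)) (XT.lf (nat_lit 0) (nat_lit 7124725817) (nat_lit 84) (nat_lit 26426265221) (nat_lit 168) (nat_lit 3379270562) (nat_lit 9) (nat_lit 5) (nat_lit 10) (nat_lit 5) (nat_lit 11) (nat_lit 4) (nat_lit 392) (nat_lit 304) (nat_lit 192))))) (XT.nd (nat_lit 282) (nat_lit 168) (nat_lit 0) (XT.nd (nat_lit 94) (nat_lit 84) (nat_lit 0) (XT.lf (nat_lit 0) (nat_lit 12634281667) (nat_lit 84) (nat_lit 23660012471) (nat_lit 168) (nat_lit 1651929921) (nat_lit 9) (nat_lit 5) (nat_lit 10) (nat_lit 5) (nat_lit 11) (nat_lit 4) (nat_lit 393) (nat_lit 304) (nat_lit 191)) (XT.nd (nat_lit 94) (nat_lit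 0) (nat_lit 0) (XT.lf (nat_lit 0) (nat_lit 119669247) (nat_lit 168) (nat_lit 20690092579) (nat_lit 84) (nat_lit 18184117810) (nat_lit 8) (nat_lit 5) (nat_lit 10) (nat_lit 5) (nat_lit 9) (nat_lit 5) (nat_lit 394) (nat_lit 304) (nat_lit 190)) (XT.lf (nat_lit 0) (nat_lit 1905383891) (nat_lit 168) (nat_lit 15951332833) (nat_lit 84) (nat_lit 22217002840) (nat_lit 8) (nat_lit 5) (nat_lit 10) (nat_lit 5) (nat_lit 9) (nat_lit 5) (nat_lit 395) (nat_lit 304) (nat_lit 189)))) (XT.nd (nat_lit 188) (nat_lit 168) (nat_lit 0) (XT.nd (nat_lit 94) (nat_lit 0) (nat_lit 0) (XT.lf (nat_lit 0) (nat_lit 3740161189) (nat_lit 168) (nat_lit 11074858785) (nat_lit 84) (nat_lit 26372238402) (nat_lit 8) (nat_lit 5) (nat_lit 10) (nat_lit 5) (nat_lit 9) (nat_lit 5) (nat_lit 396) (nat_lit 304) (nat_lit 188)) (XT.lf (nat_lit 0) (nat_lit 5625711345) (nat_lit 168) (nat_lit 6056125050) (nat_lit 84) (nat_lit 30653697610)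 (nat_lit 8) (nat_lit 5) (nat_lit 10) (nat_lit 5) (nat_lit 9) (nat_lit 5) (nat_lit 397) (nat_lit 304) (nat_lit 187))) (XT.nd (nat_lit 94) (nat_lit 168) (nat_lit 0) (XT.lf (nat_lit 0) (nat_lit 7563791889) (nat_lit 168) (nat_lit 890453643) (nat_lit 84) (nat_lit 35065371232) (nat_lit 8) (nat_lit 5) (nat_lit 10) (nat_lit 5) (nat_lit 9) (nat_lit 5) (nat_lit 398) (nat_lit 304) (nat_lit 186)) (XT.lf (nat_lit 0) (nat_lit 4517997972) (nat_lit 168) (nat_lit 5083030443) (nat_lit 252) (nat_lit 35138192537) (nat_lit 6) (nat_lit 5) (nat_lit 8) (nat_lit 5) (nat_lit 9) (nat_lit 5) (nat_lit 399) (nat_lit 304) (nat_lit 185))))))) (XT.nd (nat_lit 1222) (nat_lit 84) (nat_lit 0) (XT.nd (nat_lit 564) (nat_lit 84) (nat_lit 0) (XT.nd (nat_lit 282) (nat_lit 0) (nat_lit 0) (XT.nd (nat_lit 94) (nat_lit 0) (nat_lit 0) (XT.lf (nat_lit 0) (nat_lit 10104690416) (nat_lit 168) (nat_lit 1600370131) (nat_lit 252) (nat_lit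 34291484858) (nat_lit 6) (nat_lit 5) (nat_lit 8) (nat_lit 5) (nat_lit 9) (nat_lit 5) (nat_lit 400) (nat_lit 304) (nat_lit 184)) (XT.nd (nat_lit 94) (nat_lit 0) (nat_lit 0) (XT.lf (nat_lit 0) (nat_lit 13888552522) (nat_lit 252) (nat_lit 31456238133) (nat_lit 84) (nat_lit 1947639630) (nat_lit 6) (nat_lit 5) (nat_lit 9) (nat_lit 5) (nat_lit 7) (nat_lit 4) (nat_lit 401) (nat_lit 304) (nat_lit 183)) (XT.lf (nat_lit 0) (nat_lit 16150757699) (nat_lit 252) (nat_lit 26907456069) (nat_lit 84) (nat_lit 5569955966) (nat_lit 6) (nat_lit 5) (nat_lit 9) (nat_lit 5) (nat_lit 7) (nat_lit 4) (nat_lit 402) (nat_lit 304) (nat_lit 182)))) (XT.nd (nat_lit 94) (nat_lit 0) (nat_lit 0) (XT.lf (nat_lit 0) (nat_lit 18477908820) (nat_lit 252) (nat_lit 22225392985) (nat_lit 84) (nat_lit 9302199144) (nat_lit 6) (nat_lit 5) (nat_lit 9) (nat_lit 5) (nat_lit 7) (nat_lit 4) (nat_lit 403) (nat_lit 304) (nat_lit 181))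 (XT.nd (nat_lit 94) (nat_lit 0) (nat_lit 0) (XT.lf (nat_lit 0) (nat_lit 20872175035) (nat_lit 252) (nat_lit 17405684708) (nat_lit 84) (nat_lit 13147848008) (nat_lit 6) (nat_lit 5) (nat_lit 9) (nat_lit 5) (nat_lit 7) (nat_lit 4) (nat_lit 404) (nat_lit 304) (nat_lit 180)) (XT.lf (nat_lit 0) (nat_lit 23335788050) (nat_lit 252) (nat_lit 12443838765) (nat_lit 84) (nat_lit 17110487104) (nat_lit 6) (nat_lit 5) (nat_lit 9) (nat_lit 5) (nat_lit 7) (nat_lit 4) (nat_lit 405) (nat_lit 304) (nat_lit 179))))) (XT.nd (nat_lit 282) (nat_lit 0) (nat_lit 0) (XT.nd (nat_lit 94) (nat_lit 84) (nat_lit 0) (XT.lf (nat_lit 0) (nat_lit 25871044211) (nat_lit 252) (nat_lit 7335230196) (nat_lit 84) (nat_lit 21193810027) (nat_lit 6) (nat_lit 5) (nat_lit 9) (nat_lit 5) (nat_lit 7) (nat_lit 4) (nat_lit 406) (nat_lit 304) (nat_lit 178)) (XT.nd (nat_lit 94) (nat_lit 84) (nat_lit 0) (XT.lf (nat_lit 0) (nat_lit 28480306641)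 (nat_lit 252) (nat_lit 2075097242) (nat_lit 84) (nat_lit 25401622862) (nat_lit 6) (nat_lit 5) (nat_lit 9) (nat_lit 5) (nat_lit 7) (nat_lit 4) (nat_lit 407) (nat_lit 304) (nat_lit 177)) (XT.lf (nat_lit 0) (nat_lit 3410170424) (nat_lit 84) (nat_lit 27789666336) (nat_lit 168) (nat_lit 26361506619) (nat_lit 5) (nat_lit 5) (nat_lit 6) (nat_lit 5) (nat_lit 7) (nat_lit 4) (nat_lit 408) (nat_lit 304) (nat_lit 176)))) (XT.nd (nat_lit 188) (nat_lit 0) (nat_lit 0) (XT.nd (nat_lit 94) (nat_lit 0) (nat_lit 0) (XT.lf (nat_lit 0) (nat_lit 9102902808) (nat_lit 84) (nat_lit 24918049097) (nat_lit 168) (nat_lit 25193925563) (nat_lit 5) (nat_lit 5) (nat_lit 6) (nat_lit 5) (nat_lit 7) (nat_lit 4) (nat_lit 409) (nat_lit 304) (nat_lit 175)) (XT.lf (nat_lit 0) (nat_lit 14965737878) (nat_lit 84) (nat_lit 21959535280) (nat_lit 168) (nat_lit 23994548389) (nat_lit 5) (nat_lit 5) (nat_lit 6) (nat_lit 5) (nat_lit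 7) (nat_lit 4) (nat_lit 410) (nat_lit 304) (nat_lit 174))) (XT.nd (nat_lit 94) (nat_lit 0) (nat_lit 0) (XT.lf (nat_lit 0) (nat_lit 21004140410) (nat_lit 84) (nat_lit 18911367239) (nat_lit 168) (nat_lit 22762257150) (nat_lit 5) (nat_lit 5) (nat_lit 6) (nat_lit 5) (nat_lit 7) (nat_lit 4) (nat_lit 411) (nat_lit 304) (nat_lit 173)) (XT.lf (nat_lit 0) (nat_lit 27223738827) (nat_lit 84) (nat_lit 15770703763) (nat_lit 168) (nat_lit 21495903222) (nat_lit 5) (nat_lit 5) (nat_lit 6) (nat_lit 5) (nat_lit 7) (nat_lit 4) (nat_lit 412) (nat_lit 304) (nat_lit 172)))))) (XT.nd (nat_lit 564) (nat_lit 84) (nat_lit 0) (XT.nd (nat_lit 282) (nat_lit 0) (nat_lit 0) (XT.nd (nat_lit 94) (nat_lit 0) (nat_lit 0) (XT.lf (nat_lit 0) (nat_lit 33630330447) (nat_lit 84) (nat_lit 12534617423) (nat_lit 168) (nat_lit 20194306232) (nat_lit 5) (nat_lit 5) (nat_lit 6) (nat_lit 5) (nat_lit 7) (nat_lit 4) (nat_lit 413)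 (nat_lit 304) (nat_lit 171)) (XT.nd (nat_lit 94) (nat_lit 0) (nat_lit 0) (XT.lf (nat_lit 0) (nat_lit 40229886885) (nat_lit 84) (nat_lit 9200091849) (nat_lit 168) (nat_lit 18856252953) (nat_lit 5) (nat_lit 5) (nat_lit 6) (nat_lit 5) (nat_lit 7) (nat_lit 4) (nat_lit 414) (nat_lit 304) (nat_lit 170)) (XT.lf (nat_lit 0) (nat_lit 47028559617) (nat_lit 84) (nat_lit 5764018914) (nat_lit 168) (nat_lit 17480496181) (nat_lit 5) (nat_lit 5) (nat_lit 6) (nat_lit 5) (nat_lit 7) (nat_lit 4) (nat_lit 415) (nat_lit 304) (nat_lit 169)))) (XT.nd (nat_lit 94) (nat_lit 0) (nat_lit 0) (XT.lf (nat_lit 0) (nat_lit 54032685719) (nat_lit 84) (nat_lit 2223195837) (nat_lit 168) (nat_lit 16065753565) (nat_lit 5) (nat_lit 5) (nat_lit 6) (nat_lit 5) (nat_lit 7) (nat_lit 4) (nat_lit 416) (nat_lit 304) (nat_lit 168)) (XT.nd (nat_lit 94) (nat_lit 0) (nat_lit 0) (XT.lf (nat_lit 0) (nat_lit 59837258872) (nat_lit 168)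 (nat_lit 13199171519) (nat_lit 0) (nat_lit 1396953569) (nat_lit 5) (nat_lit 5) (nat_lit 7) (nat_lit 4) (nat_lit 5) (nat_lit 4) (nat_lit 417) (nat_lit 304) (nat_lit 167)) (XT.lf (nat_lit 0) (nat_lit 63549052607) (nat_lit 168) (nat_lit 7979441148) (nat_lit 0) (nat_lit 5081516722) (nat_lit 5) (nat_lit 5) (nat_lit 7) (nat_lit 4) (nat_lit 5) (nat_lit 4) (nat_lit 418) (nat_lit 304) (nat_lit 166))))) (XT.nd (nat_lit 282) (nat_lit 0) (nat_lit 0) (XT.nd (nat_lit 94) (nat_lit 84) (nat_lit 0) (XT.lf (nat_lit 0) (nat_lit 67372668162) (nat_lit 168) (nat_lit 2602838577) (nat_lit 0) (nat_lit 8878720463) (nat_lit 5) (nat_lit 5) (nat_lit 7) (nat_lit 4) (nat_lit 5) (nat_lit 4) (nat_lit 419) (nat_lit 304) (nat_lit 165)) (XT.nd (nat_lit 94) (nat_lit 0) (nat_lit 0) (XT.lf (nat_lit 0) (nat_lit 2996010690) (nat_lit 84) (nat_lit 68345379657) (nat_lit 84) (nat_lit 9825814290) (nat_lit 4) (nat_lit 4) (nat_lit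 5) (nat_lit 5) (nat_lit 5) (nat_lit 4) (nat_lit 420) (nat_lit 304) (nat_lit 164)) (XT.lf (nat_lit 0) (nat_lit 8818860676) (nat_lit 84) (nat_lit 66638351844) (nat_lit 84) (nat_lit 8093939079) (nat_lit 4) (nat_lit 4) (nat_lit 5) (nat_lit 5) (nat_lit 5) (nat_lit 4) (nat_lit 421) (nat_lit 304) (nat_lit 163)))) (XT.nd (nat_lit 188) (nat_lit 0) (nat_lit 0) (XT.nd (nat_lit 94) (nat_lit 0) (nat_lit 0) (XT.lf (nat_lit 0) (nat_lit 14817619188) (nat_lit 84) (nat_lit 64880000469) (nat_lit 84) (nat_lit 6311487415) (nat_lit 4) (nat_lit 4) (nat_lit 5) (nat_lit 5) (nat_lit 5) (nat_lit 4) (nat_lit 422) (nat_lit 304) (nat_lit 162)) (XT.lf (nat_lit 0) (nat_lit 20997877698) (nat_lit 84) (nat_lit 63068686564) (nat_lit 84) (nat_lit 4476797866) (nat_lit 4) (nat_lit 4) (nat_lit 5) (nat_lit 5) (nat_lit 5) (nat_lit 4) (nat_lit 423) (nat_lit 304) (nat_lit 161))) (XT.nd (nat_lit 94) (nat_lit 0) (nat_lit 0)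 (XT.lf (nat_lit 0) (nat_lit 27365396852) (nat_lit 84) (nat_lit 61202721795) (nat_lit 84) (nat_lit 2588160310) (nat_lit 4) (nat_lit 4) (nat_lit 5) (nat_lit 5) (nat_lit 5) (nat_lit 4) (nat_lit 424) (nat_lit 304) (nat_lit 160)) (XT.lf (nat_lit 0) (nat_lit 33926111847) (nat_lit 84) (nat_lit 59280366888) (nat_lit 84) (nat_lit 643814338) (nat_lit 4) (nat_lit 4) (nat_lit 5) (nat_lit 5) (nat_lit 5) (nat_lit 4) (nat_lit 425) (nat_lit 304) (nat_lit 159))))))))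
noncomputable def xc107 : XT := (XT.nd (nat_lit 46718) (nat_lit 0) (nat_lit 2184) (XT.nd (nat_lit 45496) (nat_lit 0) (nat_lit 6132) (XT.nd (nat_lit 44838) (nat_lit 0) (nat_lit 9408) (XT.nd (nat_lit 44556) (nat_lit 0) (nat_lit 10500) (XT.nd (nat_lit 44368) (nat_lit 0) (nat_lit 10500) (XT.lf (nat_lit 0) (nat_lit 1330690654) (nat_lit 168) (nat_lit 55955249670) (nat_lit 84) (nat_lit 39341557620) (nat_lit 3) (nat_lit 5) (nat_lit 5) (nat_lit 5) (nat_lit 4) (nat_lit 4) (nat_lit 426) (nat_lit 304) (nat_lit 158)) (XT.nd (nat_lit 94) (nat_lit 0) (nat_lit 0) (XT.lf (nat_lit 0) (nat_lit 512786502) (nat_lit 588) (nat_lit 1455745913) (nat_lit 588) (nat_lit 1455745913) (nat_lit 128) (nat_lit 3) (nat_lit 135) (nat_lit 3) (nat_lit 135) (nat_lit 5) (nat_lit 305) (nat_lit 305) (nat_lit 278)) (XT.lf (nat_lit 0) (nat_lit 2518121052) (nat_lit 588) (nat_lit 545308039) (nat_lit 588) (nat_lit 3831306533)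 (nat_lit 128) (nat_lit 3) (nat_lit 135) (nat_lit 3) (nat_lit 135) (nat_lit 5) (nat_lit 306) (nat_lit 305) (nat_lit 277)))) (XT.nd (nat_lit 94) (nat_lit 0) (nat_lit 0) (XT.lf (nat_lit 84) (nat_lit 1901580477) (nat_lit 0) (nat_lit 2114719044) (nat_lit 588) (nat_lit 2927878507) (nat_lit 129) (nat_lit 5) (nat_lit 128) (nat_lit 3) (nat_lit 135) (nat_lit 5) (nat_lit 307) (nat_lit 305) (nat_lit 276)) (XT.nd (nat_lit 94) (nat_lit 0) (nat_lit 0) (XT.lf (nat_lit 84) (nat_lit 4405236644) (nat_lit 0) (nat_lit 1103359398) (nat_lit 588) (nat_lit 1488734090) (nat_lit 129) (nat_lit 5) (nat_lit 128) (nat_lit 3) (nat_lit 135) (nat_lit 5) (nat_lit 308) (nat_lit 305) (nat_lit 275)) (XT.lf (nat_lit 84) (nat_lit 6956781480) (nat_lit 0) (nat_lit 34099357) (nat_lit 588) (nat_lit 63531783) (nat_lit 129) (nat_lit 5) (nat_lit 128) (nat_lit 3) (nat_lit 135) (nat_lit 5) (nat_lit 309) (nat_lit 305) (nat_lit 274)))))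 (XT.nd (nat_lit 282) (nat_lit 588) (nat_lit 0) (XT.nd (nat_lit 94) (nat_lit 0) (nat_lit 0) (XT.lf (nat_lit 0) (nat_lit 1357716865) (nat_lit 588) (nat_lit 4645850868) (nat_lit 672) (nat_lit 1110385042) (nat_lit 122) (nat_lit 5) (nat_lit 129) (nat_lit 5) (nat_lit 130) (nat_lit 5) (nat_lit 310) (nat_lit 305) (nat_lit 273)) (XT.nd (nat_lit 94) (nat_lit 0) (nat_lit 0) (XT.lf (nat_lit 0) (nat_lit 2769045202) (nat_lit 588) (nat_lit 2093459366) (nat_lit 672) (nat_lit 2314937507) (nat_lit 122) (nat_lit 5) (nat_lit 129) (nat_lit 5) (nat_lit 130) (nat_lit 5) (nat_lit 311) (nat_lit 305) (nat_lit 272)) (XT.lf (nat_lit 84) (nat_lit 516863982) (nat_lit 0) (nat_lit 3659975323) (nat_lit 672) (nat_lit 3068002424) (nat_lit 123) (nat_lit 5) (nat_lit 122) (nat_lit 5) (nat_lit 130) (nat_lit 5) (nat_lit 312) (nat_lit 305) (nat_lit 271)))) (XT.nd (nat_lit 188) (nat_lit 588) (nat_lit 0) (XT.nd (nat_lit 94)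 (nat_lit 0) (nat_lit 0) (XT.lf (nat_lit 84) (nat_lit 3221201628) (nat_lit 0) (nat_lit 2377777635) (nat_lit 672) (nat_lit 1716721694) (nat_lit 123) (nat_lit 5) (nat_lit 122) (nat_lit 5) (nat_lit 130) (nat_lit 5) (nat_lit 313) (nat_lit 305) (nat_lit 270)) (XT.lf (nat_lit 84) (nat_lit 5979028480) (nat_lit 0) (nat_lit 1036567783) (nat_lit 672) (nat_lit 375146572) (nat_lit 123) (nat_lit 5) (nat_lit 122) (nat_lit 5) (nat_lit 130) (nat_lit 5) (nat_lit 314) (nat_lit 305) (nat_lit 269))) (XT.nd (nat_lit 94) (nat_lit 0) (nat_lit 0) (XT.lf (nat_lit 0) (nat_lit 955822225) (nat_lit 672) (nat_lit 6132803324) (nat_lit 756) (nat_lit 380585513) (nat_lit 115) (nat_lit 5) (nat_lit 123) (nat_lit 5) (nat_lit 124) (nat_lit 5) (nat_lit 315) (nat_lit 305) (nat_lit 268)) (XT.lf (nat_lit 0) (nat_lit 2298053563) (nat_lit 672) (nat_lit 3397209711) (nat_lit 756) (nat_lit 1855826843) (nat_lit 115) (nat_lit 5)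 (nat_lit 123) (nat_lit 5) (nat_lit 124) (nat_lit 5) (nat_lit 316) (nat_lit 305) (nat_lit 267)))))) (XT.nd (nat_lit 564) (nat_lit 2604) (nat_lit 0) (XT.nd (nat_lit 282) (nat_lit 672) (nat_lit 0) (XT.nd (nat_lit 94) (nat_lit 0) (nat_lit 0) (XT.lf (nat_lit 0) (nat_lit 3635635510) (nat_lit 672) (nat_lit 608446739) (nat_lit 756) (nat_lit 3393255799) (nat_lit 115) (nat_lit 5) (nat_lit 123) (nat_lit 5) (nat_lit 124) (nat_lit 5) (nat_lit 317) (nat_lit 305) (nat_lit 266)) (XT.nd (nat_lit 94) (nat_lit 0) (nat_lit 0) (XT.lf (nat_lit 84) (nat_lit 2282063503) (nat_lit 0) (nat_lit 2710389681) (nat_lit 756) (nat_lit 2734880274) (nat_lit 116) (nat_lit 5) (nat_lit 115) (nat_lit 5) (nat_lit 124) (nat_lit 5) (nat_lit 318) (nat_lit 305) (nat_lit 265)) (XT.lf (nat_lit 84) (nat_lit 5244706077) (nat_lit 0) (nat_lit 1109157180) (nat_lit 756) (nat_lit 1467790123) (nat_lit 116) (nat_lit 5) (nat_lit 115) (nat_lit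 5) (nat_lit 124) (nat_lit 5) (nat_lit 319) (nat_lit 305) (nat_lit 264)))) (XT.nd (nat_lit 94) (nat_lit 84) (nat_lit 0) (XT.lf (nat_lit 0) (nat_lit 350717794) (nat_lit 672) (nat_lit 7373239356) (nat_lit 756) (nat_lit 196341087) (nat_lit 108) (nat_lit 5) (nat_lit 116) (nat_lit 5) (nat_lit 117) (nat_lit 5) (nat_lit 320) (nat_lit 305) (nat_lit 263)) (XT.nd (nat_lit 94) (nat_lit 0) (nat_lit 0) (XT.lf (nat_lit 0) (nat_lit 1088411605) (nat_lit 756) (nat_lit 4652231128) (nat_lit 84) (nat_lit 2281469412) (nat_lit 107) (nat_lit 5) (nat_lit 116) (nat_lit 5) (nat_lit 108) (nat_lit 5) (nat_lit 321) (nat_lit 305) (nat_lit 262)) (XT.lf (nat_lit 0) (nat_lit 2368007900) (nat_lit 756) (nat_lit 1677644084) (nat_lit 84) (nat_lit 4082966339) (nat_lit 107) (nat_lit 5) (nat_lit 116) (nat_lit 5) (nat_lit 108) (nat_lit 5) (nat_lit 322) (nat_lit 305) (nat_lit 261))))) (XT.nd (nat_lit 282) (nat_lit 1848) (nat_lit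 0) (XT.nd (nat_lit 94) (nat_lit 0) (nat_lit 0) (XT.lf (nat_lit 0) (nat_lit 1386842835) (nat_lit 756) (nat_lit 2274511167) (nat_lit 840) (nat_lit 4578195934) (nat_lit 98) (nat_lit 5) (nat_lit 107) (nat_lit 5) (nat_lit 108) (nat_lit 5) (nat_lit 323) (nat_lit 305) (nat_lit 260)) (XT.nd (nat_lit 94) (nat_lit 0) (nat_lit 0) (XT.lf (nat_lit 0) (nat_lit 4551946201) (nat_lit 756) (nat_lit 421579332) (nat_lit 840) (nat_lit 3381364880) (nat_lit 98) (nat_lit 5) (nat_lit 107) (nat_lit 5) (nat_lit 108) (nat_lit 5) (nat_lit 324) (nat_lit 305) (nat_lit 259)) (XT.lf (nat_lit 0) (nat_lit 6303614929) (nat_lit 840) (nat_lit 704007358) (nat_lit 84) (nat_lit 1467191026) (nat_lit 98) (nat_lit 5) (nat_lit 108) (nat_lit 5) (nat_lit 99) (nat_lit 5) (nat_lit 325) (nat_lit 305) (nat_lit 258)))) (XT.nd (nat_lit 188) (nat_lit 924) (nat_lit 0) (XT.nd (nat_lit 94) (nat_lit 84) (nat_lit 0) (XT.lf (nat_lit 0) (nat_lit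 2507526234) (nat_lit 840) (nat_lit 5160197528) (nat_lit 924) (nat_lit 931245939) (nat_lit 88) (nat_lit 5) (nat_lit 98) (nat_lit 5) (nat_lit 99) (nat_lit 5) (nat_lit 326) (nat_lit 305) (nat_lit 257)) (XT.lf (nat_lit 0) (nat_lit 311335505) (nat_lit 924) (nat_lit 2927123285) (nat_lit 84) (nat_lit 5489577622) (nat_lit 87) (nat_lit 5) (nat_lit 98) (nat_lit 5) (nat_lit 88) (nat_lit 5) (nat_lit 327) (nat_lit 305) (nat_lit 256))) (XT.nd (nat_lit 94) (nat_lit 0) (nat_lit 0) (XT.lf (nat_lit 0) (nat_lit 302373333) (nat_lit 924) (nat_lit 1238569801) (nat_lit 1008) (nat_lit 7321129124) (nat_lit 76) (nat_lit 5) (nat_lit 87) (nat_lit 5) (nat_lit 88) (nat_lit 5) (nat_lit 328) (nat_lit 305) (nat_lit 255)) (XT.lf (nat_lit 0) (nat_lit 2813371262) (nat_lit 1008) (nat_lit 5344320843) (nat_lit 84) (nat_lit 842683997) (nat_lit 76) (nat_lit 5) (nat_lit 88) (nat_lit 5) (nat_lit 77) (nat_lit 5) (nat_lit 329)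 (nat_lit 305) (nat_lit 254))))))) (XT.nd (nat_lit 1222) (nat_lit 1512) (nat_lit 0) (XT.nd (nat_lit 564) (nat_lit 1176) (nat_lit 0) (XT.nd (nat_lit 282) (nat_lit 588) (nat_lit 0) (XT.nd (nat_lit 94) (nat_lit 672) (nat_lit 0) (XT.lf (nat_lit 0) (nat_lit 4104614173) (nat_lit 1008) (nat_lit 2071577455) (nat_lit 84) (nat_lit 2967666171) (nat_lit 76) (nat_lit 5) (nat_lit 88) (nat_lit 5) (nat_lit 77) (nat_lit 5) (nat_lit 330) (nat_lit 305) (nat_lit 253)) (XT.nd (nat_lit 94) (nat_lit 0) (nat_lit 0) (XT.lf (nat_lit 0) (nat_lit 1300061892) (nat_lit 672) (nat_lit 4116423559) (nat_lit 756) (nat_lit 3876146729) (nat_lit 68) (nat_lit 5) (nat_lit 76) (nat_lit 5) (nat_lit 77) (nat_lit 5) (nat_lit 331) (nat_lit 305) (nat_lit 252)) (XT.lf (nat_lit 0) (nat_lit 4791677072) (nat_lit 672) (nat_lit 1967362511) (nat_lit 756) (nat_lit 2687524554) (nat_lit 68) (nat_lit 5) (nat_lit 76) (nat_lit 5) (nat_lit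 77) (nat_lit 5) (nat_lit 332) (nat_lit 305) (nat_lit 251)))) (XT.nd (nat_lit 94) (nat_lit 588) (nat_lit 0) (XT.lf (nat_lit 0) (nat_lit 8115048745) (nat_lit 756) (nat_lit 1245014194) (nat_lit 84) (nat_lit 246307066) (nat_lit 68) (nat_lit 5) (nat_lit 77) (nat_lit 5) (nat_lit 69) (nat_lit 5) (nat_lit 333) (nat_lit 305) (nat_lit 250)) (XT.nd (nat_lit 94) (nat_lit 84) (nat_lit 0) (XT.lf (nat_lit 0) (nat_lit 2268193530) (nat_lit 504) (nat_lit 7257816310) (nat_lit 588) (nat_lit 244941680) (nat_lit 62) (nat_lit 5) (nat_lit 68) (nat_lit 5) (nat_lit 69) (nat_lit 5) (nat_lit 334) (nat_lit 305) (nat_lit 249)) (XT.lf (nat_lit 0) (nat_lit 1002652398) (nat_lit 588) (nat_lit 4062461718) (nat_lit 84) (nat_lit 4875920505) (nat_lit 61) (nat_lit 5) (nat_lit 68) (nat_lit 5) (nat_lit 62) (nat_lit 5) (nat_lit 335) (nat_lit 305) (nat_lit 248))))) (XT.nd (nat_lit 282) (nat_lit 756) (nat_lit 0) (XT.nd (nat_lit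 94) (nat_lit 420) (nat_lit 0) (XT.lf (nat_lit 0) (nat_lit 2255127409) (nat_lit 588) (nat_lit 545648269) (nat_lit 84) (nat_lit 7316629474) (nat_lit 61) (nat_lit 5) (nat_lit 68) (nat_lit 5) (nat_lit 62) (nat_lit 5) (nat_lit 336) (nat_lit 305) (nat_lit 247)) (XT.nd (nat_lit 94) (nat_lit 0) (nat_lit 0) (XT.lf (nat_lit 0) (nat_lit 3116174211) (nat_lit 420) (nat_lit 433324443) (nat_lit 504) (nat_lit 6749845884) (nat_lit 56) (nat_lit 5) (nat_lit 61) (nat_lit 5) (nat_lit 62) (nat_lit 5) (nat_lit 337) (nat_lit 305) (nat_lit 246)) (XT.lf (nat_lit 0) (nat_lit 4882402054) (nat_lit 504) (nat_lit 3631208128) (nat_lit 84) (nat_lit 1973553874) (nat_lit 56) (nat_lit 5) (nat_lit 62) (nat_lit 5) (nat_lit 57) (nat_lit 5) (nat_lit 338) (nat_lit 305) (nat_lit 245)))) (XT.nd (nat_lit 188) (nat_lit 336) (nat_lit 0) (XT.nd (nat_lit 94) (nat_lit 420) (nat_lit 0) (XT.lf (nat_lit 0) (nat_lit 6234615175) (nat_lit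 504) (nat_lit 306280) (nat_lit 84) (nat_lit 4446751724) (nat_lit 56) (nat_lit 5) (nat_lit 62) (nat_lit 5) (nat_lit 57) (nat_lit 5) (nat_lit 339) (nat_lit 305) (nat_lit 244)) (XT.lf (nat_lit 0) (nat_lit 3793651857) (nat_lit 420) (nat_lit 3847081428) (nat_lit 504) (nat_lit 3241286545) (nat_lit 51) (nat_lit 5) (nat_lit 56) (nat_lit 5) (nat_lit 57) (nat_lit 5) (nat_lit 340) (nat_lit 305) (nat_lit 243))) (XT.nd (nat_lit 94) (nat_lit 336) (nat_lit 0) (XT.lf (nat_lit 0) (nat_lit 7679556465) (nat_lit 420) (nat_lit 1385757155) (nat_lit 504) (nat_lit 2024216492) (nat_lit 51) (nat_lit 5) (nat_lit 56) (nat_lit 5) (nat_lit 57) (nat_lit 5) (nat_lit 341) (nat_lit 305) (nat_lit 242)) (XT.lf (nat_lit 0) (nat_lit 352302424) (nat_lit 336) (nat_lit 10172294854) (nat_lit 420) (nat_lit 779337854) (nat_lit 47) (nat_lit 5) (nat_lit 51) (nat_lit 5) (nat_lit 52) (nat_lit 5) (nat_lit 342) (nat_lit 305) (nat_lit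 241)))))) (XT.nd (nat_lit 564) (nat_lit 1008) (nat_lit 0) (XT.nd (nat_lit 282) (nat_lit 0) (nat_lit 0) (XT.nd (nat_lit 94) (nat_lit 420) (nat_lit 0) (XT.lf (nat_lit 0) (nat_lit 519799597) (nat_lit 420) (nat_lit 7266139729) (nat_lit 84) (nat_lit 3738250493) (nat_lit 46) (nat_lit 5) (nat_lit 51) (nat_lit 5) (nat_lit 47) (nat_lit 5) (nat_lit 343) (nat_lit 305) (nat_lit 240)) (XT.nd (nat_lit 94) (nat_lit 420) (nat_lit 0) (XT.lf (nat_lit 0) (nat_lit 1819446957) (nat_lit 420) (nat_lit 3499795960) (nat_lit 84) (nat_lit 6432667143) (nat_lit 46) (nat_lit 5) (nat_lit 51) (nat_lit 5) (nat_lit 47) (nat_lit 5) (nat_lit 344) (nat_lit 305) (nat_lit 239)) (XT.lf (nat_lit 0) (nat_lit 366014733) (nat_lit 420) (nat_lit 2774133731) (nat_lit 504) (nat_lit 8847286756) (nat_lit 41) (nat_lit 5) (nat_lit 46) (nat_lit 5) (nat_lit 47) (nat_lit 5) (nat_lit 345) (nat_lit 305) (nat_lit 238)))) (XT.nd (nat_lit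 94) (nat_lit 0) (nat_lit 0) (XT.lf (nat_lit 0) (nat_lit 4401444984) (nat_lit 420) (nat_lit 114456927) (nat_lit 504) (nat_lit 7714067152) (nat_lit 41) (nat_lit 5) (nat_lit 46) (nat_lit 5) (nat_lit 47) (nat_lit 5) (nat_lit 346) (nat_lit 305) (nat_lit 237)) (XT.nd (nat_lit 94) (nat_lit 0) (nat_lit 0) (XT.lf (nat_lit 0) (nat_lit 5938604980) (nat_lit 504) (nat_lit 3968590431) (nat_lit 84) (nat_lit 2572833171) (nat_lit 41) (nat_lit 5) (nat_lit 47) (nat_lit 5) (nat_lit 42) (nat_lit 5) (nat_lit 347) (nat_lit 305) (nat_lit 236)) (XT.lf (nat_lit 0) (nat_lit 7385471366) (nat_lit 504) (nat_lit 13909269) (nat_lit 84) (nat_lit 5339213708) (nat_lit 41) (nat_lit 5) (nat_lit 47) (nat_lit 5) (nat_lit 42) (nat_lit 5) (nat_lit 348) (nat_lit 305) (nat_lit 235))))) (XT.nd (nat_lit 282) (nat_lit 672) (nat_lit 0) (XT.nd (nat_lit 94) (nat_lit 0) (nat_lit 0) (XT.lf (nat_lit 0) (nat_lit 4123418709) (nat_lit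 336) (nat_lit 4774200388) (nat_lit 420) (nat_lit 4107055406) (nat_lit 37) (nat_lit 5) (nat_lit 41) (nat_lit 5) (nat_lit 42) (nat_lit 5) (nat_lit 349) (nat_lit 305) (nat_lit 234)) (XT.nd (nat_lit 94) (nat_lit 0) (nat_lit 0) (XT.lf (nat_lit 0) (nat_lit 8366505843) (nat_lit 336) (nat_lit 2070195986) (nat_lit 420) (nat_lit 2843047681) (nat_lit 37) (nat_lit 5) (nat_lit 41) (nat_lit 5) (nat_lit 42) (nat_lit 5) (nat_lit 350) (nat_lit 305) (nat_lit 233)) (XT.lf (nat_lit 0) (nat_lit 12011106295) (nat_lit 420) (nat_lit 852151961) (nat_lit 84) (nat_lit 700601989) (nat_lit 37) (nat_lit 5) (nat_lit 42) (nat_lit 5) (nat_lit 38) (nat_lit 5) (nat_lit 351) (nat_lit 305) (nat_lit 232)))) (XT.nd (nat_lit 188) (nat_lit 252) (nat_lit 0) (XT.nd (nat_lit 94) (nat_lit 84) (nat_lit 0) (XT.lf (nat_lit 0) (nat_lit 3359217140) (nat_lit 336) (nat_lit 10310674998) (nat_lit 420) (nat_lit 185904034) (nat_lit 33)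 (nat_lit 5) (nat_lit 37) (nat_lit 5) (nat_lit 38) (nat_lit 5) (nat_lit 352) (nat_lit 305) (nat_lit 231)) (XT.lf (nat_lit 0) (nat_lit 1188781708) (nat_lit 420) (nat_lit 6471930475) (nat_lit 84) (nat_lit 6496113741) (nat_lit 32) (nat_lit 5) (nat_lit 37) (nat_lit 5) (nat_lit 33) (nat_lit 5) (nat_lit 353) (nat_lit 305) (nat_lit 230))) (XT.nd (nat_lit 94) (nat_lit 252) (nat_lit 0) (XT.lf (nat_lit 0) (nat_lit 2583913504) (nat_lit 420) (nat_lit 2346147119) (nat_lit 84) (nat_lit 9537745592) (nat_lit 32) (nat_lit 5) (nat_lit 37) (nat_lit 5) (nat_lit 33) (nat_lit 5) (nat_lit 354) (nat_lit 305) (nat_lit 229)) (XT.lf (nat_lit 0) (nat_lit 1925250390) (nat_lit 252) (nat_lit 2098385646) (nat_lit 336) (nat_lit 10764855988) (nat_lit 29) (nat_lit 5) (nat_lit 32) (nat_lit 5) (nat_lit 33) (nat_lit 5) (nat_lit 355) (nat_lit 305) (nat_lit 228))))))))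
noncomputable def xc108 : XT := (XT.nd (nat_lit 2350) (nat_lit 504) (nat_lit 0) (XT.nd (nat_lit 1128) (nat_lit 588) (nat_lit 0) (XT.nd (nat_lit 564) (nat_lit 588) (nat_lit 0) (XT.nd (nat_lit 282) (nat_lit 252) (nat_lit 0) (XT.nd (nat_lit 94) (nat_lit 0) (nat_lit 0) (XT.lf (nat_lit 0) (nat_lit 5523410387) (nat_lit 336) (nat_lit 8769428298) (nat_lit 84) (nat_lit 825905886) (nat_lit 29) (nat_lit 5) (nat_lit 33) (nat_lit 5) (nat_lit 30) (nat_lit 5) (nat_lit 356) (nat_lit 305) (nat_lit 227)) (XT.nd (nat_lit 94) (nat_lit 0) (nat_lit 0) (XT.lf (nat_lit 0) (nat_lit 7074200262) (nat_lit 336) (nat_lit 4590993783) (nat_lit 84) (nat_lit 3794001099) (nat_lit 29) (nat_lit 5) (nat_lit 33) (nat_lit 5) (nat_lit 30) (nat_lit 5) (nat_lit 357) (nat_lit 305) (nat_lit 226)) (XT.lf (nat_lit 0) (nat_lit 8656634917) (nat_lit 336) (nat_lit 303227108) (nat_lit 84) (nat_lit 6850944361) (nat_lit 29) (nat_lit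 5) (nat_lit 33) (nat_lit 5) (nat_lit 30) (nat_lit 5) (nat_lit 358) (nat_lit 305) (nat_lit 225)))) (XT.nd (nat_lit 94) (nat_lit 0) (nat_lit 0) (XT.lf (nat_lit 0) (nat_lit 4182128953) (nat_lit 252) (nat_lit 6131547628) (nat_lit 336) (nat_lit 5858943348) (nat_lit 26) (nat_lit 5) (nat_lit 29) (nat_lit 5) (nat_lit 30) (nat_lit 5) (nat_lit 359) (nat_lit 305) (nat_lit 224)) (XT.nd (nat_lit 94) (nat_lit 0) (nat_lit 0) (XT.lf (nat_lit 0) (nat_lit 8793565701) (nat_lit 252) (nat_lit 3216036972) (nat_lit 336) (nat_lit 4536525631) (nat_lit 26) (nat_lit 5) (nat_lit 29) (nat_lit 5) (nat_lit 30) (nat_lit 5) (nat_lit 360) (nat_lit 305) (nat_lit 223)) (XT.lf (nat_lit 0) (nat_lit 13529146507) (nat_lit 252) (nat_lit 213777563) (nat_lit 336) (nat_lit 3188850755) (nat_lit 26) (nat_lit 5) (nat_lit 29) (nat_lit 5) (nat_lit 30) (nat_lit 5) (nat_lit 361) (nat_lit 305) (nat_lit 222))))) (XT.nd (nat_lit 282)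 (nat_lit 252) (nat_lit 0) (XT.nd (nat_lit 94) (nat_lit 84) (nat_lit 0) (XT.lf (nat_lit 0) (nat_lit 1056094005) (nat_lit 252) (nat_lit 14498189390) (nat_lit 336) (nat_lit 1774425724) (nat_lit 23) (nat_lit 5) (nat_lit 26) (nat_lit 5) (nat_lit 27) (nat_lit 5) (nat_lit 362) (nat_lit 305) (nat_lit 221)) (XT.nd (nat_lit 94) (nat_lit 84) (nat_lit 0) (XT.lf (nat_lit 0) (nat_lit 5704376597) (nat_lit 252) (nat_lit 11740601629) (nat_lit 336) (nat_lit 292335059) (nat_lit 23) (nat_lit 5) (nat_lit 26) (nat_lit 5) (nat_lit 27) (nat_lit 5) (nat_lit 363) (nat_lit 305) (nat_lit 220)) (XT.lf (nat_lit 0) (nat_lit 1196519047) (nat_lit 336) (nat_lit 7692463417) (nat_lit 84) (nat_lit 9269743178) (nat_lit 22) (nat_lit 5) (nat_lit 26) (nat_lit 5) (nat_lit 23) (nat_lit 5) (nat_lit 364) (nat_lit 305) (nat_lit 219)))) (XT.nd (nat_lit 94) (nat_lit 252) (nat_lit 0) (XT.lf (nat_lit 0) (nat_lit 2711599901) (nat_lit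 336) (nat_lit 3238249704) (nat_lit 84) (nat_lit 12643765281) (nat_lit 22) (nat_lit 5) (nat_lit 26) (nat_lit 5) (nat_lit 23) (nat_lit 5) (nat_lit 365) (nat_lit 305) (nat_lit 218)) (XT.nd (nat_lit 94) (nat_lit 0) (nat_lit 0) (XT.lf (nat_lit 0) (nat_lit 1364242693) (nat_lit 252) (nat_lit 2909500377) (nat_lit 336) (nat_lit 14768313671) (nat_lit 19) (nat_lit 5) (nat_lit 22) (nat_lit 5) (nat_lit 23) (nat_lit 5) (nat_lit 366) (nat_lit 305) (nat_lit 217)) (XT.lf (nat_lit 0) (nat_lit 5907448962) (nat_lit 336) (nat_lit 13345425320) (nat_lit 84) (nat_lit 250880546) (nat_lit 19) (nat_lit 5) (nat_lit 23) (nat_lit 5) (nat_lit 20) (nat_lit 5) (nat_lit 367) (nat_lit 305) (nat_lit 216)))))) (XT.nd (nat_lit 564) (nat_lit 420) (nat_lit 0) (XT.nd (nat_lit 282) (nat_lit 0) (nat_lit 0) (XT.nd (nat_lit 94) (nat_lit 168) (nat_lit 0) (XT.lf (nat_lit 0) (nat_lit 7608712154) (nat_lit 336) (nat_lit 8925517699)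 (nat_lit 84) (nat_lit 3445081018) (nat_lit 19) (nat_lit 5) (nat_lit 23) (nat_lit 5) (nat_lit 20) (nat_lit 5) (nat_lit 368) (nat_lit 305) (nat_lit 215)) (XT.nd (nat_lit 94) (nat_lit 168) (nat_lit 0) (XT.lf (nat_lit 0) (nat_lit 9350255798) (nat_lit 336) (nat_lit 4385108766) (nat_lit 84) (nat_lit 6734698317) (nat_lit 19) (nat_lit 5) (nat_lit 23) (nat_lit 5) (nat_lit 20) (nat_lit 5) (nat_lit 369) (nat_lit 305) (nat_lit 214)) (XT.lf (nat_lit 0) (nat_lit 285791680) (nat_lit 168) (nat_lit 10850746604) (nat_lit 252) (nat_lit 9839842119) (nat_lit 17) (nat_lit 5) (nat_lit 19) (nat_lit 5) (nat_lit 20) (nat_lit 5) (nat_lit 370) (nat_lit 305) (nat_lit 213)))) (XT.nd (nat_lit 94) (nat_lit 0) (nat_lit 0) (XT.lf (nat_lit 0) (nat_lit 5178594995) (nat_lit 168) (nat_lit 7833494013) (nat_lit 252) (nat_lit 8485317571) (nat_lit 17) (nat_lit 5) (nat_lit 19) (nat_lit 5) (nat_lit 20) (nat_lit 5) (nat_lit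 371) (nat_lit 305) (nat_lit 212)) (XT.nd (nat_lit 94) (nat_lit 0) (nat_lit 0) (XT.lf (nat_lit 0) (nat_lit 10207694954) (nat_lit 168) (nat_lit 4726565939) (nat_lit 252) (nat_lit 7100742423) (nat_lit 17) (nat_lit 5) (nat_lit 19) (nat_lit 5) (nat_lit 20) (nat_lit 5) (nat_lit 372) (nat_lit 305) (nat_lit 211)) (XT.lf (nat_lit 0) (nat_lit 15377779205) (nat_lit 168) (nat_lit 1527066400) (nat_lit 252) (nat_lit 5684826106) (nat_lit 17) (nat_lit 5) (nat_lit 19) (nat_lit 5) (nat_lit 20) (nat_lit 5) (nat_lit 373) (nat_lit 305) (nat_lit 210))))) (XT.nd (nat_lit 282) (nat_lit 252) (nat_lit 0) (XT.nd (nat_lit 94) (nat_lit 168) (nat_lit 0) (XT.lf (nat_lit 0) (nat_lit 18943218582) (nat_lit 252) (nat_lit 2485800613) (nat_lit 84) (nat_lit 1732365877) (nat_lit 17) (nat_lit 5) (nat_lit 20) (nat_lit 5) (nat_lit 18) (nat_lit 5) (nat_lit 374) (nat_lit 305) (nat_lit 209)) (XT.nd (nat_lit 94) (nat_lit 0)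 (nat_lit 0) (XT.lf (nat_lit 0) (nat_lit 2405261116) (nat_lit 168) (nat_lit 18668451238) (nat_lit 252) (nat_lit 2676268535) (nat_lit 15) (nat_lit 5) (nat_lit 17) (nat_lit 5) (nat_lit 18) (nat_lit 5) (nat_lit 375) (nat_lit 305) (nat_lit 208)) (XT.lf (nat_lit 0) (nat_lit 7486407659) (nat_lit 168) (nat_lit 15799418804) (nat_lit 252) (nat_lit 1070568406) (nat_lit 15) (nat_lit 5) (nat_lit 17) (nat_lit 5) (nat_lit 18) (nat_lit 5) (nat_lit 376) (nat_lit 305) (nat_lit 207)))) (XT.nd (nat_lit 188) (nat_lit 168) (nat_lit 0) (XT.nd (nat_lit 94) (nat_lit 0) (nat_lit 0) (XT.lf (nat_lit 0) (nat_lit 562909346) (nat_lit 252) (nat_lit 12276409352) (nat_lit 84) (nat_lit 12142477052) (nat_lit 14) (nat_lit 5) (nat_lit 17) (nat_lit 5) (nat_lit 15) (nat_lit 5) (nat_lit 377) (nat_lit 305) (nat_lit 206)) (XT.lf (nat_lit 0) (nat_lit 2214879333) (nat_lit 252) (nat_lit 7565025998) (nat_lit 84) (nat_lit 15846696170)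 (nat_lit 14) (nat_lit 5) (nat_lit 17) (nat_lit 5) (nat_lit 15) (nat_lit 5) (nat_lit 378) (nat_lit 305) (nat_lit 205))) (XT.nd (nat_lit 94) (nat_lit 168) (nat_lit 0) (XT.lf (nat_lit 0) (nat_lit 3908450931) (nat_lit 252) (nat_lit 2720825475) (nat_lit 84) (nat_lit 19662465970) (nat_lit 14) (nat_lit 5) (nat_lit 17) (nat_lit 5) (nat_lit 15) (nat_lit 5) (nat_lit 379) (nat_lit 305) (nat_lit 204)) (XT.lf (nat_lit 0) (nat_lit 2307192302) (nat_lit 168) (nat_lit 3360898058) (nat_lit 252) (nat_lit 21309038478) (nat_lit 12) (nat_lit 5) (nat_lit 14) (nat_lit 5) (nat_lit 15) (nat_lit 5) (nat_lit 380) (nat_lit 305) (nat_lit 203))))))) (XT.nd (nat_lit 1222) (nat_lit 252) (nat_lit 0) (XT.nd (nat_lit 564) (nat_lit 84) (nat_lit 0) (XT.nd (nat_lit 282) (nat_lit 168) (nat_lit 0) (XT.nd (nat_lit 94) (nat_lit 0) (nat_lit 0) (XT.lf (nat_lit 0) (nat_lit 7501854743) (nat_lit 252) (nat_lit 20147503140) (nat_lit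 84) (nat_lit 33842933) (nat_lit 12) (nat_lit 5) (nat_lit 15) (nat_lit 5) (nat_lit 13) (nat_lit 5) (nat_lit 381) (nat_lit 305) (nat_lit 202)) (XT.nd (nat_lit 94) (nat_lit 0) (nat_lit 0) (XT.lf (nat_lit 0) (nat_lit 9417915103) (nat_lit 252) (nat_lit 15531859633) (nat_lit 84) (nat_lit 3460641389) (nat_lit 12) (nat_lit 5) (nat_lit 15) (nat_lit 5) (nat_lit 13) (nat_lit 5) (nat_lit 382) (nat_lit 305) (nat_lit 201)) (XT.lf (nat_lit 0) (nat_lit 11384716885) (nat_lit 252) (nat_lit 10785363229) (nat_lit 84) (nat_lit 6990406050) (nat_lit 12) (nat_lit 5) (nat_lit 15) (nat_lit 5) (nat_lit 13) (nat_lit 5) (nat_lit 383) (nat_lit 305) (nat_lit 200)))) (XT.nd (nat_lit 94) (nat_lit 168) (nat_lit 0) (XT.lf (nat_lit 0) (nat_lit 13404093354) (nat_lit 252) (nat_lit 5903589695) (nat_lit 84) (nat_lit 10626427028) (nat_lit 12) (nat_lit 5) (nat_lit 15) (nat_lit 5) (nat_lit 13) (nat_lit 5) (nat_lit 384) (nat_lit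 305) (nat_lit 199)) (XT.nd (nat_lit 94) (nat_lit 168) (nat_lit 0) (XT.lf (nat_lit 0) (nat_lit 15477926782) (nat_lit 252) (nat_lit 881988708) (nat_lit 84) (nat_lit 14372093473) (nat_lit 12) (nat_lit 5) (nat_lit 15) (nat_lit 5) (nat_lit 13) (nat_lit 5) (nat_lit 385) (nat_lit 305) (nat_lit 198)) (XT.lf (nat_lit 0) (nat_lit 4372210693) (nat_lit 168) (nat_lit 13279312375) (nat_lit 252) (nat_lit 13902058919) (nat_lit 10) (nat_lit 5) (nat_lit 12) (nat_lit 5) (nat_lit 13) (nat_lit 5) (nat_lit 386) (nat_lit 305) (nat_lit 197))))) (XT.nd (nat_lit 282) (nat_lit 84) (nat_lit 0) (XT.nd (nat_lit 94) (nat_lit 0) (nat_lit 0) (XT.lf (nat_lit 0) (nat_lit 9796939455) (nat_lit 168) (nat_lit 10096996588) (nat_lit 252) (nat_lit 12506681036) (nat_lit 10) (nat_lit 5) (nat_lit 12) (nat_lit 5) (nat_lit 13) (nat_lit 5) (nat_lit 387) (nat_lit 305) (nat_lit 196)) (XT.nd (nat_lit 94) (nat_lit 0) (nat_lit 0) (XT.lf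 (nat_lit 0) (nat_lit 15379118496) (nat_lit 168) (nat_lit 6819208031) (nat_lit 252) (nat_lit 11075854047) (nat_lit 10) (nat_lit 5) (nat_lit 12) (nat_lit 5) (nat_lit 13) (nat_lit 5) (nat_lit 388) (nat_lit 305) (nat_lit 195)) (XT.lf (nat_lit 0) (nat_lit 21123950991) (nat_lit 168) (nat_lit 3442891462) (nat_lit 252) (nat_lit 9608244273) (nat_lit 10) (nat_lit 5) (nat_lit 12) (nat_lit 5) (nat_lit 13) (nat_lit 5) (nat_lit 389) (nat_lit 305) (nat_lit 194)))) (XT.nd (nat_lit 188) (nat_lit 84) (nat_lit 0) (XT.nd (nat_lit 94) (nat_lit 0) (nat_lit 0) (XT.lf (nat_lit 0) (nat_lit 27002039726) (nat_lit 252) (nat_lit 8067731745) (nat_lit 84) (nat_lit 34393009) (nat_lit 10) (nat_lit 5) (nat_lit 13) (nat_lit 5) (nat_lit 11) (nat_lit 4) (nat_lit 390) (nat_lit 305) (nat_lit 193)) (XT.lf (nat_lit 0) (nat_lit 29541034378) (nat_lit 252) (nat_lit 2975051229) (nat_lit 84) (nat_lit 3545113993) (nat_lit 10)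 (nat_lit 5) (nat_lit 13) (nat_lit 5) (nat_lit 11) (nat_lit 4) (nat_lit 391) (nat_lit 305) (nat_lit 192))) (XT.nd (nat_lit 94) (nat_lit 0) (nat_lit 0) (XT.lf (nat_lit 0) (nat_lit 2312396265) (nat_lit 84) (nat_lit 29862582101) (nat_lit 168) (nat_lit 4872453432) (nat_lit 9) (nat_lit 5) (nat_lit 10) (nat_lit 5) (nat_lit 11) (nat_lit 4) (nat_lit 392) (nat_lit 305) (nat_lit 191)) (XT.lf (nat_lit 0) (nat_lit 7817226566) (nat_lit 84) (nat_lit 27097808939) (nat_lit 168) (nat_lit 3148474872) (nat_lit 9) (nat_lit 5) (nat_lit 10) (nat_lit 5) (nat_lit 11) (nat_lit 4) (nat_lit 393) (nat_lit 305) (nat_lit 190)))))) (XT.nd (nat_lit 564) (nat_lit 168) (nat_lit 0) (XT.nd (nat_lit 282) (nat_lit 0) (nat_lit 0) (XT.nd (nat_lit 94) (nat_lit 84) (nat_lit 0) (XT.lf (nat_lit 0) (nat_lit 13483397598) (nat_lit 84) (nat_lit 24250242496) (nat_lit 168) (nat_lit 1377676046) (nat_lit 9) (nat_lit 5) (nat_lit 10)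 (nat_lit 5) (nat_lit 11) (nat_lit 4) (nat_lit 394) (nat_lit 305) (nat_lit 189)) (XT.nd (nat_lit 94) (nat_lit 0) (nat_lit 0) (XT.lf (nat_lit 0) (nat_lit 432696486) (nat_lit 168) (nat_lit 20880015590) (nat_lit 84) (nat_lit 18878977874) (nat_lit 8) (nat_lit 5) (nat_lit 10) (nat_lit 5) (nat_lit 9) (nat_lit 5) (nat_lit 395) (nat_lit 305) (nat_lit 188)) (XT.lf (nat_lit 0) (nat_lit 2264467758) (nat_lit 168) (nat_lit 16007929040) (nat_lit 84) (nat_lit 23032938864) (nat_lit 8) (nat_lit 5) (nat_lit 10) (nat_lit 5) (nat_lit 9) (nat_lit 5) (nat_lit 396) (nat_lit 305) (nat_lit 187)))) (XT.nd (nat_lit 94) (nat_lit 0) (nat_lit 0) (XT.lf (nat_lit 0) (nat_lit 4147102273) (nat_lit 168) (nat_lit 10993450881) (nat_lit 84) (nat_lit 27313161823) (nat_lit 8) (nat_lit 5) (nat_lit 10) (nat_lit 5) (nat_lit 9) (nat_lit 5) (nat_lit 397) (nat_lit 305) (nat_lit 186)) (XT.nd (nat_lit 94) (nat_lit 0) (nat_lit 0)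 (XT.lf (nat_lit 0) (nat_lit 6082354844) (nat_lit 168) (nat_lit 5831907093) (nat_lit 84) (nat_lit 31723636368) (nat_lit 8) (nat_lit 5) (nat_lit 10) (nat_lit 5) (nat_lit 9) (nat_lit 5) (nat_lit 398) (nat_lit 305) (nat_lit 185)) (XT.lf (nat_lit 0) (nat_lit 8072029329) (nat_lit 168) (nat_lit 518486578) (nat_lit 84) (nat_lit 36268473523) (nat_lit 8) (nat_lit 5) (nat_lit 10) (nat_lit 5) (nat_lit 9) (nat_lit 5) (nat_lit 399) (nat_lit 305) (nat_lit 184))))) (XT.nd (nat_lit 282) (nat_lit 0) (nat_lit 0) (XT.nd (nat_lit 94) (nat_lit 0) (nat_lit 0) (XT.lf (nat_lit 0) (nat_lit 5053581739) (nat_lit 168) (nat_lit 5114530729) (nat_lit 252) (nat_lit 35948459970) (nat_lit 6) (nat_lit 5) (nat_lit 8) (nat_lit 5) (nat_lit 9) (nat_lit 5) (nat_lit 400) (nat_lit 305) (nat_lit 183)) (XT.nd (nat_lit 94) (nat_lit 0) (nat_lit 0) (XT.lf (nat_lit 0) (nat_lit 10801569019) (nat_lit 168) (nat_lit 1527698717) (nat_lit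 252) (nat_lit 35083893792) (nat_lit 6) (nat_lit 5) (nat_lit 8) (nat_lit 5) (nat_lit 9) (nat_lit 5) (nat_lit 401) (nat_lit 305) (nat_lit 182)) (XT.lf (nat_lit 0) (nat_lit 14573766296) (nat_lit 252) (nat_lit 32051462095) (nat_lit 84) (nat_lit 2124232909) (nat_lit 6) (nat_lit 5) (nat_lit 9) (nat_lit 5) (nat_lit 7) (nat_lit 4) (nat_lit 402) (nat_lit 305) (nat_lit 181)))) (XT.nd (nat_lit 188) (nat_lit 0) (nat_lit 0) (XT.nd (nat_lit 94) (nat_lit 0) (nat_lit 0) (XT.lf (nat_lit 0) (nat_lit 16898442483) (nat_lit 252) (nat_lit 27373091164) (nat_lit 84) (nat_lit 5855346667) (nat_lit 6) (nat_lit 5) (nat_lit 9) (nat_lit 5) (nat_lit 7) (nat_lit 4) (nat_lit 403) (nat_lit 305) (nat_lit 180)) (XT.lf (nat_lit 0) (nat_lit 19290308180) (nat_lit 252) (nat_lit 22556964025) (nat_lit 84) (nat_lit 9699900069) (nat_lit 6) (nat_lit 5) (nat_lit 9) (nat_lit 5) (nat_lit 7) (nat_lit 4) (nat_lit 404) (nat_lit 305)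 (nat_lit 179))) (XT.nd (nat_lit 94) (nat_lit 0) (nat_lit 0) (XT.lf (nat_lit 0) (nat_lit 21751592855) (nat_lit 252) (nat_lit 17598591542) (nat_lit 84) (nat_lit 13661476641) (nat_lit 6) (nat_lit 5) (nat_lit 9) (nat_lit 5) (nat_lit 7) (nat_lit 4) (nat_lit 405) (nat_lit 305) (nat_lit 178)) (XT.lf (nat_lit 0) (nat_lit 24284590684) (nat_lit 252) (nat_lit 12493351994) (nat_lit 84) (nat_lit 17743768989) (nat_lit 6) (nat_lit 5) (nat_lit 9) (nat_lit 5) (nat_lit 7) (nat_lit 4) (nat_lit 406) (nat_lit 305) (nat_lit 177))))))))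
noncomputable def xc109 : XT := (XT.nd (nat_lit 46718) (nat_lit 0) (nat_lit 4788) (XT.nd (nat_lit 1128) (nat_lit 84) (nat_lit 0) (XT.nd (nat_lit 564) (nat_lit 0) (nat_lit 0) (XT.nd (nat_lit 282) (nat_lit 0) (nat_lit 0) (XT.nd (nat_lit 94) (nat_lit 84) (nat_lit 0) (XT.lf (nat_lit 0) (nat_lit 26891662687) (nat_lit 252) (nat_lit 7236486762) (nat_lit 84) (nat_lit 21950582235) (nat_lit 6) (nat_lit 5) (nat_lit 9) (nat_lit 5) (nat_lit 7) (nat_lit 4) (nat_lit 407) (nat_lit 305) (nat_lit 176)) (XT.nd (nat_lit 94) (nat_lit 84) (nat_lit 0) (XT.lf (nat_lit 0) (nat_lit 29575238926) (nat_lit 252) (nat_lit 1823095897) (nat_lit 84) (nat_lit 26285837572) (nat_lit 6) (nat_lit 5) (nat_lit 9) (nat_lit 5) (nat_lit 7) (nat_lit 4) (nat_lit 408) (nat_lit 305) (nat_lit 175)) (XT.lf (nat_lit 0) (nat_lit 3829012516) (nat_lit 84) (nat_lit 28546792539) (nat_lit 168) (nat_lit 26962547671) (nat_lit 5) (nat_lit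 5) (nat_lit 6) (nat_lit 5) (nat_lit 7) (nat_lit 4) (nat_lit 409) (nat_lit 305) (nat_lit 174)))) (XT.nd (nat_lit 94) (nat_lit 0) (nat_lit 0) (XT.lf (nat_lit 0) (nat_lit 9688804541) (nat_lit 84) (nat_lit 25589292855) (nat_lit 168) (nat_lit 25765271249) (nat_lit 5) (nat_lit 5) (nat_lit 6) (nat_lit 5) (nat_lit 7) (nat_lit 4) (nat_lit 410) (nat_lit 305) (nat_lit 173)) (XT.nd (nat_lit 94) (nat_lit 0) (nat_lit 0) (XT.lf (nat_lit 0) (nat_lit 15724255525) (nat_lit 84) (nat_lit 22542108454) (nat_lit 168) (nat_lit 24535017598) (nat_lit 5) (nat_lit 5) (nat_lit 6) (nat_lit 5) (nat_lit 7) (nat_lit 4) (nat_lit 411) (nat_lit 305) (nat_lit 172)) (XT.lf (nat_lit 0) (nat_lit 21940991141) (nat_lit 84) (nat_lit 19402399042) (nat_lit 168) (nat_lit 23270639991) (nat_lit 5) (nat_lit 5) (nat_lit 6) (nat_lit 5) (nat_lit 7) (nat_lit 4) (nat_lit 412) (nat_lit 305) (nat_lit 171))))) (XT.nd (nat_lit 282) (nat_lit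 0) (nat_lit 0) (XT.nd (nat_lit 94) (nat_lit 0) (nat_lit 0) (XT.lf (nat_lit 0) (nat_lit 28344806039) (nat_lit 84) (nat_lit 16167238080) (nat_lit 168) (nat_lit 21970959898) (nat_lit 5) (nat_lit 5) (nat_lit 6) (nat_lit 5) (nat_lit 7) (nat_lit 4) (nat_lit 413) (nat_lit 305) (nat_lit 170)) (XT.nd (nat_lit 94) (nat_lit 0) (nat_lit 0) (XT.lf (nat_lit 0) (nat_lit 34941669244) (nat_lit 84) (nat_lit 12833610060) (nat_lit 168) (nat_lit 20634765880) (nat_lit 5) (nat_lit 5) (nat_lit 6) (nat_lit 5) (nat_lit 7) (nat_lit 4) (nat_lit 414) (nat_lit 305) (nat_lit 169)) (XT.lf (nat_lit 0) (nat_lit 41737729724) (nat_lit 84) (nat_lit 9398407690) (nat_lit 168) (nat_lit 19260812464) (nat_lit 5) (nat_lit 5) (nat_lit 6) (nat_lit 5) (nat_lit 7) (nat_lit 4) (nat_lit 415) (nat_lit 305) (nat_lit 168)))) (XT.nd (nat_lit 94) (nat_lit 0) (nat_lit 0) (XT.lf (nat_lit 0) (nat_lit 48739322119) (nat_lit 84) (nat_lit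 5858429003) (nat_lit 168) (nat_lit 17847818982) (nat_lit 5) (nat_lit 5) (nat_lit 6) (nat_lit 5) (nat_lit 7) (nat_lit 4) (nat_lit 416) (nat_lit 305) (nat_lit 167)) (XT.nd (nat_lit 94) (nat_lit 0) (nat_lit 0) (XT.lf (nat_lit 0) (nat_lit 55952972647) (nat_lit 84) (nat_lit 2210374367) (nat_lit 168) (nat_lit 16394468375) (nat_lit 5) (nat_lit 5) (nat_lit 6) (nat_lit 5) (nat_lit 7) (nat_lit 4) (nat_lit 417) (nat_lit 305) (nat_lit 166)) (XT.lf (nat_lit 0) (nat_lit 61851616425) (nat_lit 168) (nat_lit 13365617209) (nat_lit 0) (nat_lit 1517944532) (nat_lit 5) (nat_lit 5) (nat_lit 7) (nat_lit 4) (nat_lit 5) (nat_lit 4) (nat_lit 418) (nat_lit 305) (nat_lit 165)))))) (XT.nd (nat_lit 564) (nat_lit 0) (nat_lit 0) (XT.nd (nat_lit 282) (nat_lit 0) (nat_lit 0) (XT.nd (nat_lit 94) (nat_lit 84) (nat_lit 0) (XT.lf (nat_lit 0) (nat_lit 65673682867) (nat_lit 168) (nat_lit 7991373536) (nat_lit 0) (nat_lit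 5314393307) (nat_lit 5) (nat_lit 5) (nat_lit 7) (nat_lit 4) (nat_lit 5) (nat_lit 4) (nat_lit 419) (nat_lit 305) (nat_lit 164)) (XT.nd (nat_lit 94) (nat_lit 84) (nat_lit 0) (XT.lf (nat_lit 0) (nat_lit 69611181719) (nat_lit 168) (nat_lit 2455175178) (nat_lit 0) (nat_lit 9227044760) (nat_lit 5) (nat_lit 5) (nat_lit 7) (nat_lit 4) (nat_lit 5) (nat_lit 4) (nat_lit 420) (nat_lit 305) (nat_lit 163)) (XT.lf (nat_lit 0) (nat_lit 3314926563) (nat_lit 84) (nat_lit 70385741061) (nat_lit 84) (nat_lit 9977503813) (nat_lit 4) (nat_lit 4) (nat_lit 5) (nat_lit 5) (nat_lit 5) (nat_lit 4) (nat_lit 421) (nat_lit 305) (nat_lit 162)))) (XT.nd (nat_lit 94) (nat_lit 0) (nat_lit 0) (XT.lf (nat_lit 0) (nat_lit 9311488366) (nat_lit 84) (nat_lit 68628151066) (nat_lit 84) (nat_lit 8196538174) (nat_lit 4) (nat_lit 4) (nat_lit 5) (nat_lit 5) (nat_lit 5) (nat_lit 4) (nat_lit 422) (nat_lit 305) (nat_lit 161)) (XT.nd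 (nat_lit 94) (nat_lit 0) (nat_lit 0) (XT.lf (nat_lit 0) (nat_lit 15489616216) (nat_lit 84) (nat_lit 66817575648) (nat_lit 84) (nat_lit 6363289969) (nat_lit 4) (nat_lit 4) (nat_lit 5) (nat_lit 5) (nat_lit 5) (nat_lit 4) (nat_lit 423) (nat_lit 305) (nat_lit 160)) (XT.lf (nat_lit 0) (nat_lit 21855068776) (nat_lit 84) (nat_lit 64952327161) (nat_lit 84) (nat_lit 4476050418) (nat_lit 4) (nat_lit 4) (nat_lit 5) (nat_lit 5) (nat_lit 5) (nat_lit 4) (nat_lit 424) (nat_lit 305) (nat_lit 159))))) (XT.nd (nat_lit 44650) (nat_lit 0) (nat_lit 9828) (XT.nd (nat_lit 94) (nat_lit 0) (nat_lit 0) (XT.lf (nat_lit 0) (nat_lit 28413779315) (nat_lit 84) (nat_lit 63030666999) (nat_lit 84) (nat_lit 2533060416) (nat_lit 4) (nat_lit 4) (nat_lit 5) (nat_lit 5) (nat_lit 5) (nat_lit 4) (nat_lit 425) (nat_lit 305) (nat_lit 158)) (XT.nd (nat_lit 44462) (nat_lit 0) (nat_lit 10416) (XT.lf (nat_lit 0) (nat_lit 35171861237)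 (nat_lit 84) (nat_lit 61050803973) (nat_lit 84) (nat_lit 532508893) (nat_lit 4) (nat_lit 4) (nat_lit 5) (nat_lit 5) (nat_lit 5) (nat_lit 4) (nat_lit 426) (nat_lit 305) (nat_lit 157)) (XT.lf (nat_lit 0) (nat_lit 1990685982) (nat_lit 588) (nat_lit 740183129) (nat_lit 588) (nat_lit 740183129) (nat_lit 128) (nat_lit 3) (nat_lit 135) (nat_lit 3) (nat_lit 135) (nat_lit 5) (nat_lit 306) (nat_lit 306) (nat_lit 276)))) (XT.nd (nat_lit 188) (nat_lit 588) (nat_lit 0) (XT.nd (nat_lit 94) (nat_lit 0) (nat_lit 0) (XT.lf (nat_lit 84) (nat_lit 932206355) (nat_lit 0) (nat_lit 4509311536) (nat_lit 588) (nat_lit 1551481218) (nat_lit 129) (nat_lit 5) (nat_lit 128) (nat_lit 3) (nat_lit 135) (nat_lit 5) (nat_lit 307) (nat_lit 306) (nat_lit 275)) (XT.lf (nat_lit 84) (nat_lit 3421227036) (nat_lit 0) (nat_lit 3484880376) (nat_lit 588) (nat_lit 141167715) (nat_lit 129) (nat_lit 5) (nat_lit 128) (nat_lit 3)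 (nat_lit 135) (nat_lit 5) (nat_lit 308) (nat_lit 306) (nat_lit 274))) (XT.nd (nat_lit 94) (nat_lit 0) (nat_lit 0) (XT.lf (nat_lit 0) (nat_lit 1230763539) (nat_lit 588) (nat_lit 1159331666) (nat_lit 672) (nat_lit 4714966257) (nat_lit 121) (nat_lit 5) (nat_lit 128) (nat_lit 3) (nat_lit 129) (nat_lit 5) (nat_lit 309) (nat_lit 306) (nat_lit 273)) (XT.lf (nat_lit 84) (nat_lit 1380661383) (nat_lit 0) (nat_lit 1221349870) (nat_lit 672) (nat_lit 4564322979) (nat_lit 122) (nat_lit 5) (nat_lit 121) (nat_lit 5) (nat_lit 129) (nat_lit 5) (nat_lit 310) (nat_lit 306) (nat_lit 272))))))) (XT.nd (nat_lit 1222) (nat_lit 3780) (nat_lit 0) (XT.nd (nat_lit 564) (nat_lit 672) (nat_lit 0) (XT.nd (nat_lit 282) (nat_lit 672) (nat_lit 0) (XT.nd (nat_lit 94) (nat_lit 0) (nat_lit 0) (XT.lf (nat_lit 0) (nat_lit 3975417265) (nat_lit 588) (nat_lit 3236727172) (nat_lit 672) (nat_lit 19089222) (nat_lit 122) (nat_lit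 5) (nat_lit 129) (nat_lit 5) (nat_lit 130) (nat_lit 5) (nat_lit 311) (nat_lit 306) (nat_lit 271)) (XT.nd (nat_lit 94) (nat_lit 0) (nat_lit 0) (XT.lf (nat_lit 0) (nat_lit 5353053573) (nat_lit 588) (nat_lit 651911337) (nat_lit 672) (nat_lit 1294830776) (nat_lit 122) (nat_lit 5) (nat_lit 129) (nat_lit 5) (nat_lit 130) (nat_lit 5) (nat_lit 312) (nat_lit 306) (nat_lit 270)) (XT.lf (nat_lit 84) (nat_lit 2024080629) (nat_lit 0) (nat_lit 4720086839) (nat_lit 672) (nat_lit 627669896) (nat_lit 123) (nat_lit 5) (nat_lit 122) (nat_lit 5) (nat_lit 130) (nat_lit 5) (nat_lit 313) (nat_lit 306) (nat_lit 269)))) (XT.nd (nat_lit 94) (nat_lit 0) (nat_lit 0) (XT.lf (nat_lit 0) (nat_lit 675378015) (nat_lit 672) (nat_lit 2687249604) (nat_lit 756) (nat_lit 4084988105) (nat_lit 114) (nat_lit 5) (nat_lit 122) (nat_lit 5) (nat_lit 123) (nat_lit 5) (nat_lit 314) (nat_lit 306) (nat_lit 268)) (XT.nd (nat_lit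 94) (nat_lit 0) (nat_lit 0) (XT.lf (nat_lit 84) (nat_lit 19777409) (nat_lit 0) (nat_lit 1938639743) (nat_lit 756) (nat_lit 5569004276) (nat_lit 115) (nat_lit 5) (nat_lit 114) (nat_lit 5) (nat_lit 123) (nat_lit 5) (nat_lit 315) (nat_lit 306) (nat_lit 267)) (XT.lf (nat_lit 84) (nat_lit 2838058881) (nat_lit 0) (nat_lit 424795841) (nat_lit 756) (nat_lit 4347812646) (nat_lit 115) (nat_lit 5) (nat_lit 114) (nat_lit 5) (nat_lit 123) (nat_lit 5) (nat_lit 316) (nat_lit 306) (nat_lit 266))))) (XT.nd (nat_lit 282) (nat_lit 756) (nat_lit 0) (XT.nd (nat_lit 94) (nat_lit 0) (nat_lit 0) (XT.lf (nat_lit 0) (nat_lit 4574131226) (nat_lit 672) (nat_lit 1994738762) (nat_lit 756) (nat_lit 1129050185) (nat_lit 115) (nat_lit 5) (nat_lit 123) (nat_lit 5) (nat_lit 124) (nat_lit 5) (nat_lit 317) (nat_lit 306) (nat_lit 265)) (XT.nd (nat_lit 94) (nat_lit 0) (nat_lit 0) (XT.lf (nat_lit 84) (nat_lit 852312146)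 (nat_lit 0) (nat_lit 5043026270) (nat_lit 756) (nat_lit 1893864803) (nat_lit 116) (nat_lit 5) (nat_lit 115) (nat_lit 5) (nat_lit 124) (nat_lit 5) (nat_lit 318) (nat_lit 306) (nat_lit 264)) (XT.lf (nat_lit 84) (nat_lit 3800450039) (nat_lit 0) (nat_lit 3435371660) (nat_lit 756) (nat_lit 648528362) (nat_lit 116) (nat_lit 5) (nat_lit 115) (nat_lit 5) (nat_lit 124) (nat_lit 5) (nat_lit 319) (nat_lit 306) (nat_lit 263)))) (XT.nd (nat_lit 188) (nat_lit 0) (nat_lit 84) (XT.nd (nat_lit 94) (nat_lit 0) (nat_lit 84) (XT.lf (nat_lit 0) (nat_lit 580621409) (nat_lit 756) (nat_lit 1178546730) (nat_lit 840) (nat_lit 6224725061) (nat_lit 106) (nat_lit 5) (nat_lit 115) (nat_lit 5) (nat_lit 116) (nat_lit 5) (nat_lit 320) (nat_lit 306) (nat_lit 262)) (XT.lf (nat_lit 0) (nat_lit 1811772885) (nat_lit 756) (nat_lit 6269426315) (nat_lit 84) (nat_lit 6149129) (nat_lit 107) (nat_lit 5) (nat_lit 116) (nat_lit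 5) (nat_lit 108) (nat_lit 5) (nat_lit 321) (nat_lit 306) (nat_lit 261))) (XT.nd (nat_lit 94) (nat_lit 0) (nat_lit 0) (XT.lf (nat_lit 0) (nat_lit 3071834305) (nat_lit 756) (nat_lit 3309735439) (nat_lit 84) (nat_lit 1813048048) (nat_lit 107) (nat_lit 5) (nat_lit 116) (nat_lit 5) (nat_lit 108) (nat_lit 5) (nat_lit 322) (nat_lit 306) (nat_lit 260)) (XT.lf (nat_lit 0) (nat_lit 4332475252) (nat_lit 756) (nat_lit 287638583) (nat_lit 84) (nat_lit 3686602392) (nat_lit 107) (nat_lit 5) (nat_lit 116) (nat_lit 5) (nat_lit 108) (nat_lit 5) (nat_lit 323) (nat_lit 306) (nat_lit 259)))))) (XT.nd (nat_lit 564) (nat_lit 1260) (nat_lit 0) (XT.nd (nat_lit 282) (nat_lit 1008) (nat_lit 0) (XT.nd (nat_lit 94) (nat_lit 840) (nat_lit 0) (XT.lf (nat_lit 0) (nat_lit 2857248349) (nat_lit 756) (nat_lit 2765966684) (nat_lit 840) (nat_lit 2799654418) (nat_lit 98) (nat_lit 5) (nat_lit 107) (nat_lit 5) (nat_lit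 108) (nat_lit 5) (nat_lit 324) (nat_lit 306) (nat_lit 258)) (XT.nd (nat_lit 94) (nat_lit 840) (nat_lit 0) (XT.lf (nat_lit 0) (nat_lit 6077550604) (nat_lit 756) (nat_lit 842937012) (nat_lit 840) (nat_lit 1623465959) (nat_lit 98) (nat_lit 5) (nat_lit 107) (nat_lit 5) (nat_lit 108) (nat_lit 5) (nat_lit 325) (nat_lit 306) (nat_lit 257)) (XT.lf (nat_lit 0) (nat_lit 702960784) (nat_lit 840) (nat_lit 7537988759) (nat_lit 924) (nat_lit 428653049) (nat_lit 88) (nat_lit 5) (nat_lit 98) (nat_lit 5) (nat_lit 99) (nat_lit 5) (nat_lit 326) (nat_lit 306) (nat_lit 256)))) (XT.nd (nat_lit 94) (nat_lit 924) (nat_lit 0) (XT.lf (nat_lit 0) (nat_lit 786495891) (nat_lit 924) (nat_lit 4821824979) (nat_lit 84) (nat_lit 3190861679) (nat_lit 87) (nat_lit 5) (nat_lit 98) (nat_lit 5) (nat_lit 88) (nat_lit 5) (nat_lit 327) (nat_lit 306) (nat_lit 255)) (XT.nd (nat_lit 94) (nat_lit 924) (nat_lit 0) (XT.lf (nat_lit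 0) (nat_lit 1996317930) (nat_lit 924) (nat_lit 1612501565) (nat_lit 84) (nat_lit 5325139614) (nat_lit 87) (nat_lit 5) (nat_lit 98) (nat_lit 5) (nat_lit 88) (nat_lit 5) (nat_lit 328) (nat_lit 306) (nat_lit 254)) (XT.lf (nat_lit 0) (nat_lit 1702881415) (nat_lit 924) (nat_lit 1524588530) (nat_lit 1008) (nat_lit 5846196096) (nat_lit 76) (nat_lit 5) (nat_lit 87) (nat_lit 5) (nat_lit 88) (nat_lit 5) (nat_lit 329) (nat_lit 306) (nat_lit 253))))) (XT.nd (nat_lit 282) (nat_lit 588) (nat_lit 0) (XT.nd (nat_lit 94) (nat_lit 672) (nat_lit 0) (XT.lf (nat_lit 0) (nat_lit 4487686762) (nat_lit 1008) (nat_lit 4097073919) (nat_lit 84) (nat_lit 633468683) (nat_lit 76) (nat_lit 5) (nat_lit 88) (nat_lit 5) (nat_lit 77) (nat_lit 5) (nat_lit 330) (nat_lit 306) (nat_lit 252)) (XT.nd (nat_lit 94) (nat_lit 672) (nat_lit 0) (XT.lf (nat_lit 0) (nat_lit 5771237417) (nat_lit 1008) (nat_lit 765359043) (nat_lit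 84) (nat_lit 2831401438) (nat_lit 76) (nat_lit 5) (nat_lit 88) (nat_lit 5) (nat_lit 77) (nat_lit 5) (nat_lit 331) (nat_lit 306) (nat_lit 251)) (XT.lf (nat_lit 0) (nat_lit 2696926677) (nat_lit 672) (nat_lit 4394021377) (nat_lit 756) (nat_lit 2431802668) (nat_lit 68) (nat_lit 5) (nat_lit 76) (nat_lit 5) (nat_lit 77) (nat_lit 5) (nat_lit 332) (nat_lit 306) (nat_lit 250)))) (XT.nd (nat_lit 188) (nat_lit 84) (nat_lit 0) (XT.nd (nat_lit 94) (nat_lit 504) (nat_lit 0) (XT.lf (nat_lit 0) (nat_lit 6255992937) (nat_lit 672) (nat_lit 2173829592) (nat_lit 756) (nat_lit 1253374567) (nat_lit 68) (nat_lit 5) (nat_lit 76) (nat_lit 5) (nat_lit 77) (nat_lit 5) (nat_lit 333) (nat_lit 306) (nat_lit 249)) (XT.lf (nat_lit 0) (nat_lit 49519571) (nat_lit 504) (nat_lit 9733503076) (nat_lit 588) (nat_lit 66652597) (nat_lit 62) (nat_lit 5) (nat_lit 68) (nat_lit 5) (nat_lit 69) (nat_lit 5) (nat_lit 334) (nat_lit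 306) (nat_lit 248))) (XT.nd (nat_lit 94) (nat_lit 0) (nat_lit 0) (XT.lf (nat_lit 0) (nat_lit 1163215199) (nat_lit 588) (nat_lit 6375230626) (nat_lit 84) (nat_lit 2481795612) (nat_lit 61) (nat_lit 5) (nat_lit 68) (nat_lit 5) (nat_lit 62) (nat_lit 5) (nat_lit 335) (nat_lit 306) (nat_lit 247)) (XT.lf (nat_lit 0) (nat_lit 2401981040) (nat_lit 588) (nat_lit 2871610751) (nat_lit 84) (nat_lit 4923541922) (nat_lit 61) (nat_lit 5) (nat_lit 68) (nat_lit 5) (nat_lit 62) (nat_lit 5) (nat_lit 336) (nat_lit 306) (nat_lit 246))))))))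
noncomputable def xc110 : XT := (XT.nd (nat_lit 2350) (nat_lit 1344) (nat_lit 0) (XT.nd (nat_lit 1128) (nat_lit 1260) (nat_lit 0) (XT.nd (nat_lit 564) (nat_lit 840) (nat_lit 0) (XT.nd (nat_lit 282) (nat_lit 420) (nat_lit 0) (XT.nd (nat_lit 94) (nat_lit 0) (nat_lit 0) (XT.lf (nat_lit 0) (nat_lit 729325168) (nat_lit 420) (nat_lit 2930052315) (nat_lit 504) (nat_lit 6720935690) (nat_lit 56) (nat_lit 5) (nat_lit 61) (nat_lit 5) (nat_lit 62) (nat_lit 5) (nat_lit 337) (nat_lit 306) (nat_lit 245)) (XT.nd (nat_lit 94) (nat_lit 0) (nat_lit 0) (XT.lf (nat_lit 0) (nat_lit 4477039425) (nat_lit 420) (nat_lit 482238182) (nat_lit 504) (nat_lit 5609969214) (nat_lit 56) (nat_lit 5) (nat_lit 61) (nat_lit 5) (nat_lit 62) (nat_lit 5) (nat_lit 338) (nat_lit 306) (nat_lit 244)) (XT.lf (nat_lit 0) (nat_lit 6294079041) (nat_lit 504) (nat_lit 2469291404) (nat_lit 84) (nat_lit 2001013555) (nat_lit 56) (nat_lit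 5) (nat_lit 62) (nat_lit 5) (nat_lit 57) (nat_lit 5) (nat_lit 339) (nat_lit 306) (nat_lit 243)))) (XT.nd (nat_lit 94) (nat_lit 0) (nat_lit 0) (XT.lf (nat_lit 0) (nat_lit 1261258899) (nat_lit 420) (nat_lit 6401568467) (nat_lit 504) (nat_lit 3303147387) (nat_lit 51) (nat_lit 5) (nat_lit 56) (nat_lit 5) (nat_lit 57) (nat_lit 5) (nat_lit 340) (nat_lit 306) (nat_lit 242)) (XT.nd (nat_lit 94) (nat_lit 0) (nat_lit 0) (XT.lf (nat_lit 0) (nat_lit 5134903142) (nat_lit 420) (nat_lit 3940503077) (nat_lit 504) (nat_lit 2098533925) (nat_lit 51) (nat_lit 5) (nat_lit 56) (nat_lit 5) (nat_lit 57) (nat_lit 5) (nat_lit 341) (nat_lit 306) (nat_lit 241)) (XT.lf (nat_lit 0) (nat_lit 9104478270) (nat_lit 420) (nat_lit 1403654642) (nat_lit 504) (nat_lit 881116084) (nat_lit 51) (nat_lit 5) (nat_lit 56) (nat_lit 5) (nat_lit 57) (nat_lit 5) (nat_lit 342) (nat_lit 306) (nat_lit 240))))) (XT.nd (nat_lit 282)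 (nat_lit 420) (nat_lit 0) (XT.nd (nat_lit 94) (nat_lit 0) (nat_lit 0) (XT.lf (nat_lit 0) (nat_lit 371172292) (nat_lit 420) (nat_lit 10033573014) (nat_lit 84) (nat_lit 1206381361) (nat_lit 46) (nat_lit 5) (nat_lit 51) (nat_lit 5) (nat_lit 47) (nat_lit 5) (nat_lit 343) (nat_lit 306) (nat_lit 239)) (XT.nd (nat_lit 94) (nat_lit 0) (nat_lit 0) (XT.lf (nat_lit 0) (nat_lit 1659561241) (nat_lit 420) (nat_lit 6279373071) (nat_lit 84) (nat_lit 3900335121) (nat_lit 46) (nat_lit 5) (nat_lit 51) (nat_lit 5) (nat_lit 47) (nat_lit 5) (nat_lit 344) (nat_lit 306) (nat_lit 238)) (XT.lf (nat_lit 0) (nat_lit 2965711943) (nat_lit 420) (nat_lit 2432715446) (nat_lit 84) (nat_lit 6676889584) (nat_lit 46) (nat_lit 5) (nat_lit 51) (nat_lit 5) (nat_lit 47) (nat_lit 5) (nat_lit 345) (nat_lit 306) (nat_lit 237)))) (XT.nd (nat_lit 94) (nat_lit 0) (nat_lit 0) (XT.lf (nat_lit 0) (nat_lit 1541033747) (nat_lit 420)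 (nat_lit 2765095366) (nat_lit 504) (nat_lit 8012886289) (nat_lit 41) (nat_lit 5) (nat_lit 46) (nat_lit 5) (nat_lit 47) (nat_lit 5) (nat_lit 346) (nat_lit 306) (nat_lit 236)) (XT.nd (nat_lit 94) (nat_lit 0) (nat_lit 0) (XT.lf (nat_lit 0) (nat_lit 5666573151) (nat_lit 420) (nat_lit 25826129) (nat_lit 504) (nat_lit 6877872142) (nat_lit 41) (nat_lit 5) (nat_lit 46) (nat_lit 5) (nat_lit 47) (nat_lit 5) (nat_lit 347) (nat_lit 306) (nat_lit 235)) (XT.lf (nat_lit 0) (nat_lit 7128927569) (nat_lit 504) (nat_lit 2960098181) (nat_lit 84) (nat_lit 2740196976) (nat_lit 41) (nat_lit 5) (nat_lit 47) (nat_lit 5) (nat_lit 42) (nat_lit 5) (nat_lit 348) (nat_lit 306) (nat_lit 234)))))) (XT.nd (nat_lit 564) (nat_lit 504) (nat_lit 0) (XT.nd (nat_lit 282) (nat_lit 420) (nat_lit 0) (XT.nd (nat_lit 94) (nat_lit 0) (nat_lit 0) (XT.lf (nat_lit 0) (nat_lit 1105427618) (nat_lit 336) (nat_lit 7495930081) (nat_lit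 420) (nat_lit 4495239543) (nat_lit 37) (nat_lit 5) (nat_lit 41) (nat_lit 5) (nat_lit 42) (nat_lit 5) (nat_lit 349) (nat_lit 306) (nat_lit 233)) (XT.nd (nat_lit 94) (nat_lit 0) (nat_lit 0) (XT.lf (nat_lit 0) (nat_lit 5337629697) (nat_lit 336) (nat_lit 4793218022) (nat_lit 420) (nat_lit 3241183114) (nat_lit 37) (nat_lit 5) (nat_lit 41) (nat_lit 5) (nat_lit 42) (nat_lit 5) (nat_lit 350) (nat_lit 306) (nat_lit 232)) (XT.lf (nat_lit 0) (nat_lit 9679587222) (nat_lit 336) (nat_lit 2009267718) (nat_lit 420) (nat_lit 1967854312) (nat_lit 37) (nat_lit 5) (nat_lit 41) (nat_lit 5) (nat_lit 42) (nat_lit 5) (nat_lit 351) (nat_lit 306) (nat_lit 231)))) (XT.nd (nat_lit 94) (nat_lit 84) (nat_lit 0) (XT.lf (nat_lit 0) (nat_lit 179550460) (nat_lit 336) (nat_lit 13107578873) (nat_lit 420) (nat_lit 663449287) (nat_lit 33) (nat_lit 5) (nat_lit 37) (nat_lit 5) (nat_lit 38) (nat_lit 5) (nat_lit 352) (nat_lit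 306) (nat_lit 230)) (XT.nd (nat_lit 94) (nat_lit 0) (nat_lit 0) (XT.lf (nat_lit 0) (nat_lit 711843875) (nat_lit 420) (nat_lit 9752340446) (nat_lit 84) (nat_lit 3787904515) (nat_lit 32) (nat_lit 5) (nat_lit 37) (nat_lit 5) (nat_lit 33) (nat_lit 5) (nat_lit 353) (nat_lit 306) (nat_lit 229)) (XT.lf (nat_lit 0) (nat_lit 2098232652) (nat_lit 420) (nat_lit 5636933573) (nat_lit 84) (nat_lit 6828226482) (nat_lit 32) (nat_lit 5) (nat_lit 37) (nat_lit 5) (nat_lit 33) (nat_lit 5) (nat_lit 354) (nat_lit 306) (nat_lit 228))))) (XT.nd (nat_lit 282) (nat_lit 252) (nat_lit 0) (XT.nd (nat_lit 94) (nat_lit 252) (nat_lit 0) (XT.lf (nat_lit 0) (nat_lit 3510376327) (nat_lit 420) (nat_lit 1414390050) (nat_lit 84) (nat_lit 9960218048) (nat_lit 32) (nat_lit 5) (nat_lit 37) (nat_lit 5) (nat_lit 33) (nat_lit 5) (nat_lit 355) (nat_lit 306) (nat_lit 227)) (XT.nd (nat_lit 94) (nat_lit 0) (nat_lit 0) (XT.lf (nat_lit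 0) (nat_lit 2979251247) (nat_lit 252) (nat_lit 1999894460) (nat_lit 336) (nat_lit 10237101850) (nat_lit 29) (nat_lit 5) (nat_lit 32) (nat_lit 5) (nat_lit 33) (nat_lit 5) (nat_lit 356) (nat_lit 306) (nat_lit 226)) (XT.lf (nat_lit 0) (nat_lit 6502006916) (nat_lit 336) (nat_lit 8048668096) (nat_lit 84) (nat_lit 1006936855) (nat_lit 29) (nat_lit 5) (nat_lit 33) (nat_lit 5) (nat_lit 30) (nat_lit 5) (nat_lit 357) (nat_lit 306) (nat_lit 225)))) (XT.nd (nat_lit 188) (nat_lit 0) (nat_lit 0) (XT.nd (nat_lit 94) (nat_lit 252) (nat_lit 0) (XT.lf (nat_lit 0) (nat_lit 8076595337) (nat_lit 336) (nat_lit 3770547879) (nat_lit 84) (nat_lit 4062369630) (nat_lit 29) (nat_lit 5) (nat_lit 33) (nat_lit 5) (nat_lit 30) (nat_lit 5) (nat_lit 358) (nat_lit 306) (nat_lit 224)) (XT.lf (nat_lit 0) (nat_lit 633964158) (nat_lit 252) (nat_lit 9056864296) (nat_lit 336) (nat_lit 6581870108) (nat_lit 26) (nat_lit 5)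 (nat_lit 29) (nat_lit 5) (nat_lit 30) (nat_lit 5) (nat_lit 359) (nat_lit 306) (nat_lit 223))) (XT.nd (nat_lit 94) (nat_lit 0) (nat_lit 0) (XT.lf (nat_lit 0) (nat_lit 5236139221) (nat_lit 252) (nat_lit 6143141959) (nat_lit 336) (nat_lit 5267201180) (nat_lit 26) (nat_lit 5) (nat_lit 29) (nat_lit 5) (nat_lit 30) (nat_lit 5) (nat_lit 360) (nat_lit 306) (nat_lit 222)) (XT.lf (nat_lit 0) (nat_lit 9962736821) (nat_lit 252) (nat_lit 3142617100) (nat_lit 336) (nat_lit 3927042104) (nat_lit 26) (nat_lit 5) (nat_lit 29) (nat_lit 5) (nat_lit 30) (nat_lit 5) (nat_lit 361) (nat_lit 306) (nat_lit 221))))))) (XT.nd (nat_lit 1222) (nat_lit 588) (nat_lit 0) (XT.nd (nat_lit 564) (nat_lit 168) (nat_lit 0) (XT.nd (nat_lit 282) (nat_lit 252) (nat_lit 0) (XT.nd (nat_lit 94) (nat_lit 336) (nat_lit 0) (XT.lf (nat_lit 0) (nat_lit 14818162640) (nat_lit 252) (nat_lit 52492914) (nat_lit 336) (nat_lit 2560143711)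 (nat_lit 26) (nat_lit 5) (nat_lit 29) (nat_lit 5) (nat_lit 30) (nat_lit 5) (nat_lit 362) (nat_lit 306) (nat_lit 220)) (XT.nd (nat_lit 94) (nat_lit 84) (nat_lit 0) (XT.lf (nat_lit 0) (nat_lit 1973591387) (nat_lit 252) (nat_lit 14753869499) (nat_lit 336) (nat_lit 1113033041) (nat_lit 23) (nat_lit 5) (nat_lit 26) (nat_lit 5) (nat_lit 27) (nat_lit 5) (nat_lit 363) (nat_lit 306) (nat_lit 219)) (XT.lf (nat_lit 0) (nat_lit 385534418) (nat_lit 336) (nat_lit 11527063978) (nat_lit 84) (nat_lit 6349809307) (nat_lit 22) (nat_lit 5) (nat_lit 26) (nat_lit 5) (nat_lit 23) (nat_lit 5) (nat_lit 364) (nat_lit 306) (nat_lit 218)))) (XT.nd (nat_lit 94) (nat_lit 252) (nat_lit 0) (XT.lf (nat_lit 0) (nat_lit 1893998508) (nat_lit 336) (nat_lit 7081362520) (nat_lit 84) (nat_lit 9722177466) (nat_lit 22) (nat_lit 5) (nat_lit 26) (nat_lit 5) (nat_lit 23) (nat_lit 5) (nat_lit 365) (nat_lit 306) (nat_lit 217))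 (XT.nd (nat_lit 94) (nat_lit 252) (nat_lit 0) (XT.lf (nat_lit 0) (nat_lit 3436190410) (nat_lit 336) (nat_lit 2514612882) (nat_lit 84) (nat_lit 13195830879) (nat_lit 22) (nat_lit 5) (nat_lit 26) (nat_lit 5) (nat_lit 23) (nat_lit 5) (nat_lit 366) (nat_lit 306) (nat_lit 216)) (XT.lf (nat_lit 0) (nat_lit 2222214291) (nat_lit 252) (nat_lit 2813377956) (nat_lit 336) (nat_lit 14573837704) (nat_lit 19) (nat_lit 5) (nat_lit 22) (nat_lit 5) (nat_lit 23) (nat_lit 5) (nat_lit 367) (nat_lit 306) (nat_lit 215))))) (XT.nd (nat_lit 282) (nat_lit 168) (nat_lit 0) (XT.nd (nat_lit 94) (nat_lit 0) (nat_lit 0) (XT.lf (nat_lit 0) (nat_lit 6702812110) (nat_lit 336) (nat_lit 12947530851) (nat_lit 84) (nat_lit 435731617) (nat_lit 19) (nat_lit 5) (nat_lit 23) (nat_lit 5) (nat_lit 20) (nat_lit 5) (nat_lit 368) (nat_lit 306) (nat_lit 214)) (XT.nd (nat_lit 94) (nat_lit 0) (nat_lit 0) (XT.lf (nat_lit 0) (nat_lit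 8438405927) (nat_lit 336) (nat_lit 8415009278) (nat_lit 84) (nat_lit 3723628068) (nat_lit 19) (nat_lit 5) (nat_lit 23) (nat_lit 5) (nat_lit 20) (nat_lit 5) (nat_lit 369) (nat_lit 306) (nat_lit 213)) (XT.lf (nat_lit 0) (nat_lit 10216082395) (nat_lit 336) (nat_lit 3757517100) (nat_lit 84) (nat_lit 7110059357) (nat_lit 19) (nat_lit 5) (nat_lit 23) (nat_lit 5) (nat_lit 20) (nat_lit 5) (nat_lit 370) (nat_lit 306) (nat_lit 212)))) (XT.nd (nat_lit 188) (nat_lit 0) (nat_lit 0) (XT.nd (nat_lit 94) (nat_lit 0) (nat_lit 0) (XT.lf (nat_lit 0) (nat_lit 1050451205) (nat_lit 168) (nat_lit 10997467897) (nat_lit 252) (nat_lit 9558151391) (nat_lit 17) (nat_lit 5) (nat_lit 19) (nat_lit 5) (nat_lit 20) (nat_lit 5) (nat_lit 371) (nat_lit 306) (nat_lit 211)) (XT.lf (nat_lit 0) (nat_lit 6072206108) (nat_lit 168) (nat_lit 7892382908) (nat_lit 252) (nat_lit 8179278193) (nat_lit 17) (nat_lit 5) (nat_lit 19)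 (nat_lit 5) (nat_lit 20) (nat_lit 5) (nat_lit 372) (nat_lit 306) (nat_lit 210))) (XT.nd (nat_lit 94) (nat_lit 0) (nat_lit 0) (XT.lf (nat_lit 0) (nat_lit 11235166153) (nat_lit 168) (nat_lit 4694671036) (nat_lit 252) (nat_lit 6768892380) (nat_lit 17) (nat_lit 5) (nat_lit 19) (nat_lit 5) (nat_lit 20) (nat_lit 5) (nat_lit 373) (nat_lit 306) (nat_lit 209)) (XT.lf (nat_lit 0) (nat_lit 16544143760) (nat_lit 168) (nat_lit 1401351678) (nat_lit 252) (nat_lit 5325679325) (nat_lit 17) (nat_lit 5) (nat_lit 19) (nat_lit 5) (nat_lit 20) (nat_lit 5) (nat_lit 374) (nat_lit 306) (nat_lit 208)))))) (XT.nd (nat_lit 564) (nat_lit 336) (nat_lit 0) (XT.nd (nat_lit 282) (nat_lit 84) (nat_lit 0) (XT.nd (nat_lit 94) (nat_lit 168) (nat_lit 0) (XT.lf (nat_lit 0) (nat_lit 20033190012) (nat_lit 252) (nat_lit 1877396363) (nat_lit 84) (nat_lit 1950537825) (nat_lit 17) (nat_lit 5) (nat_lit 20) (nat_lit 5) (nat_lit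 18) (nat_lit 5) (nat_lit 375) (nat_lit 306) (nat_lit 207)) (XT.nd (nat_lit 94) (nat_lit 0) (nat_lit 0) (XT.lf (nat_lit 0) (nat_lit 3158348572) (nat_lit 168) (nat_lit 19062995481) (nat_lit 252) (nat_lit 2246962924) (nat_lit 15) (nat_lit 5) (nat_lit 17) (nat_lit 5) (nat_lit 18) (nat_lit 5) (nat_lit 376) (nat_lit 306) (nat_lit 206)) (XT.lf (nat_lit 0) (nat_lit 8376608858) (nat_lit 168) (nat_lit 16110560880) (nat_lit 252) (nat_lit 606888970) (nat_lit 15) (nat_lit 5) (nat_lit 17) (nat_lit 5) (nat_lit 18) (nat_lit 5) (nat_lit 377) (nat_lit 306) (nat_lit 205)))) (XT.nd (nat_lit 94) (nat_lit 0) (nat_lit 0) (XT.lf (nat_lit 0) (nat_lit 1052577084) (nat_lit 252) (nat_lit 12006562929) (nat_lit 84) (nat_lit 12680081511) (nat_lit 14) (nat_lit 5) (nat_lit 17) (nat_lit 5) (nat_lit 15) (nat_lit 5) (nat_lit 378) (nat_lit 306) (nat_lit 204)) (XT.nd (nat_lit 94) (nat_lit 0) (nat_lit 0) (XT.lf (nat_lit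 0) (nat_lit 2741559552) (nat_lit 252) (nat_lit 7168683305) (nat_lit 84) (nat_lit 16494284848) (nat_lit 14) (nat_lit 5) (nat_lit 17) (nat_lit 5) (nat_lit 15) (nat_lit 5) (nat_lit 379) (nat_lit 306) (nat_lit 203)) (XT.lf (nat_lit 0) (nat_lit 4473860204) (nat_lit 252) (nat_lit 2193281153) (nat_lit 84) (nat_lit 20423642663) (nat_lit 14) (nat_lit 5) (nat_lit 17) (nat_lit 5) (nat_lit 15) (nat_lit 5) (nat_lit 380) (nat_lit 306) (nat_lit 202))))) (XT.nd (nat_lit 282) (nat_lit 168) (nat_lit 0) (XT.nd (nat_lit 94) (nat_lit 0) (nat_lit 0) (XT.lf (nat_lit 0) (nat_lit 2984410339) (nat_lit 168) (nat_lit 3296289105) (nat_lit 252) (nat_lit 21517012911) (nat_lit 12) (nat_lit 5) (nat_lit 14) (nat_lit 5) (nat_lit 15) (nat_lit 5) (nat_lit 381) (nat_lit 306) (nat_lit 201)) (XT.nd (nat_lit 94) (nat_lit 0) (nat_lit 0) (XT.lf (nat_lit 0) (nat_lit 8159798048) (nat_lit 252) (nat_lit 20170981589) (nat_lit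 84) (nat_lit 195314870) (nat_lit 12) (nat_lit 5) (nat_lit 15) (nat_lit 5) (nat_lit 13) (nat_lit 5) (nat_lit 382) (nat_lit 306) (nat_lit 200)) (XT.lf (nat_lit 0) (nat_lit 10122465823) (nat_lit 252) (nat_lit 15430326769) (nat_lit 84) (nat_lit 3723520502) (nat_lit 12) (nat_lit 5) (nat_lit 15) (nat_lit 5) (nat_lit 13) (nat_lit 5) (nat_lit 383) (nat_lit 306) (nat_lit 199)))) (XT.nd (nat_lit 188) (nat_lit 168) (nat_lit 0) (XT.nd (nat_lit 94) (nat_lit 0) (nat_lit 0) (XT.lf (nat_lit 0) (nat_lit 12137832587) (nat_lit 252) (nat_lit 10554219176) (nat_lit 84) (nat_lit 7358029327) (nat_lit 12) (nat_lit 5) (nat_lit 15) (nat_lit 5) (nat_lit 13) (nat_lit 5) (nat_lit 384) (nat_lit 306) (nat_lit 198)) (XT.lf (nat_lit 0) (nat_lit 14207776872) (nat_lit 252) (nat_lit 5538113766) (nat_lit 84) (nat_lit 11102229087) (nat_lit 12) (nat_lit 5) (nat_lit 15) (nat_lit 5) (nat_lit 13) (nat_lit 5) (nat_lit 385)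 (nat_lit 306) (nat_lit 197))) (XT.nd (nat_lit 94) (nat_lit 168) (nat_lit 0) (XT.lf (nat_lit 0) (nat_lit 16334228083) (nat_lit 252) (nat_lit 377335004) (nat_lit 84) (nat_lit 14959609769) (nat_lit 12) (nat_lit 5) (nat_lit 15) (nat_lit 5) (nat_lit 13) (nat_lit 5) (nat_lit 386) (nat_lit 306) (nat_lit 196)) (XT.lf (nat_lit 0) (nat_lit 5034358603) (nat_lit 168) (nat_lit 13534751152) (nat_lit 252) (nat_lit 13949349713) (nat_lit 10) (nat_lit 5) (nat_lit 12) (nat_lit 5) (nat_lit 13) (nat_lit 5) (nat_lit 387) (nat_lit 306) (nat_lit 195))))))))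
noncomputable def xc111 : XT := (XT.nd (nat_lit 2444) (nat_lit 84) (nat_lit 0) (XT.nd (nat_lit 1222) (nat_lit 252) (nat_lit 0) (XT.nd (nat_lit 564) (nat_lit 84) (nat_lit 0) (XT.nd (nat_lit 282) (nat_lit 84) (nat_lit 0) (XT.nd (nat_lit 94) (nat_lit 0) (nat_lit 0) (XT.lf (nat_lit 0) (nat_lit 10611419921) (nat_lit 168) (nat_lit 10258480780) (nat_lit 252) (nat_lit 12522251356) (nat_lit 10) (nat_lit 5) (nat_lit 12) (nat_lit 5) (nat_lit 13) (nat_lit 5) (nat_lit 388) (nat_lit 306) (nat_lit 194)) (XT.nd (nat_lit 94) (nat_lit 0) (nat_lit 0) (XT.lf (nat_lit 0) (nat_lit 16351288572) (nat_lit 168) (nat_lit 6883636747) (nat_lit 252) (nat_lit 11058258101) (nat_lit 10) (nat_lit 5) (nat_lit 12) (nat_lit 5) (nat_lit 13) (nat_lit 5) (nat_lit 389) (nat_lit 306) (nat_lit 193)) (XT.lf (nat_lit 0) (nat_lit 22259314717) (nat_lit 168) (nat_lit 3407073344) (nat_lit 252) (nat_lit 9556005353) (nat_lit 10)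 (nat_lit 5) (nat_lit 12) (nat_lit 5) (nat_lit 13) (nat_lit 5) (nat_lit 390) (nat_lit 306) (nat_lit 192)))) (XT.nd (nat_lit 94) (nat_lit 84) (nat_lit 0) (XT.lf (nat_lit 0) (nat_lit 28168285869) (nat_lit 252) (nat_lit 7841373472) (nat_lit 84) (nat_lit 170935170) (nat_lit 10) (nat_lit 5) (nat_lit 13) (nat_lit 5) (nat_lit 11) (nat_lit 4) (nat_lit 391) (nat_lit 306) (nat_lit 191)) (XT.nd (nat_lit 94) (nat_lit 84) (nat_lit 0) (XT.lf (nat_lit 0) (nat_lit 30776091518) (nat_lit 252) (nat_lit 2605145947) (nat_lit 84) (nat_lit 3786415028) (nat_lit 10) (nat_lit 5) (nat_lit 13) (nat_lit 5) (nat_lit 11) (nat_lit 4) (nat_lit 392) (nat_lit 306) (nat_lit 190)) (XT.lf (nat_lit 0) (nat_lit 2841533749) (nat_lit 84) (nat_lit 30645091784) (nat_lit 168) (nat_lit 4698035786) (nat_lit 9) (nat_lit 5) (nat_lit 10) (nat_lit 5) (nat_lit 11) (nat_lit 4) (nat_lit 393) (nat_lit 306) (nat_lit 189))))) (XT.nd (nat_lit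 282) (nat_lit 0) (nat_lit 0) (XT.nd (nat_lit 94) (nat_lit 84) (nat_lit 0) (XT.lf (nat_lit 0) (nat_lit 8503259134) (nat_lit 84) (nat_lit 27798917290) (nat_lit 168) (nat_lit 2930399899) (nat_lit 9) (nat_lit 5) (nat_lit 10) (nat_lit 5) (nat_lit 11) (nat_lit 4) (nat_lit 394) (nat_lit 306) (nat_lit 188)) (XT.nd (nat_lit 94) (nat_lit 84) (nat_lit 0) (XT.lf (nat_lit 0) (nat_lit 14331740387) (nat_lit 84) (nat_lit 24867253431) (nat_lit 168) (nat_lit 1114198074) (nat_lit 9) (nat_lit 5) (nat_lit 10) (nat_lit 5) (nat_lit 11) (nat_lit 4) (nat_lit 395) (nat_lit 306) (nat_lit 187)) (XT.lf (nat_lit 0) (nat_lit 737106165) (nat_lit 168) (nat_lit 21102567547) (nat_lit 84) (nat_lit 19587610219) (nat_lit 8) (nat_lit 5) (nat_lit 10) (nat_lit 5) (nat_lit 9) (nat_lit 5) (nat_lit 396) (nat_lit 306) (nat_lit 186)))) (XT.nd (nat_lit 188) (nat_lit 0) (nat_lit 0) (XT.nd (nat_lit 94) (nat_lit 0) (nat_lit 0) (XT.lf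 (nat_lit 0) (nat_lit 2616912706) (nat_lit 168) (nat_lit 16092217007) (nat_lit 84) (nat_lit 23866634101) (nat_lit 8) (nat_lit 5) (nat_lit 10) (nat_lit 5) (nat_lit 9) (nat_lit 5) (nat_lit 397) (nat_lit 306) (nat_lit 185)) (XT.lf (nat_lit 0) (nat_lit 4549422335) (nat_lit 168) (nat_lit 10934676730) (nat_lit 84) (nat_lit 28275945622) (nat_lit 8) (nat_lit 5) (nat_lit 10) (nat_lit 5) (nat_lit 9) (nat_lit 5) (nat_lit 398) (nat_lit 306) (nat_lit 184))) (XT.nd (nat_lit 94) (nat_lit 0) (nat_lit 0) (XT.lf (nat_lit 0) (nat_lit 6536436351) (nat_lit 168) (nat_lit 5625139348) (nat_lit 84) (nat_lit 32819654724) (nat_lit 8) (nat_lit 5) (nat_lit 10) (nat_lit 5) (nat_lit 9) (nat_lit 5) (nat_lit 399) (nat_lit 306) (nat_lit 183)) (XT.lf (nat_lit 0) (nat_lit 8579806862) (nat_lit 168) (nat_lit 158655815) (nat_lit 84) (nat_lit 37501996618) (nat_lit 8) (nat_lit 5) (nat_lit 10) (nat_lit 5) (nat_lit 9) (nat_lit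 5) (nat_lit 400) (nat_lit 306) (nat_lit 182)))))) (XT.nd (nat_lit 564) (nat_lit 84) (nat_lit 0) (XT.nd (nat_lit 282) (nat_lit 0) (nat_lit 0) (XT.nd (nat_lit 94) (nat_lit 0) (nat_lit 0) (XT.lf (nat_lit 0) (nat_lit 5582340931) (nat_lit 168) (nat_lit 5154475083) (nat_lit 252) (nat_lit 36800372320) (nat_lit 6) (nat_lit 5) (nat_lit 8) (nat_lit 5) (nat_lit 9) (nat_lit 5) (nat_lit 401) (nat_lit 306) (nat_lit 181)) (XT.nd (nat_lit 94) (nat_lit 0) (nat_lit 0) (XT.lf (nat_lit 0) (nat_lit 11497327608) (nat_lit 168) (nat_lit 1460017515) (nat_lit 252) (nat_lit 35916897110) (nat_lit 6) (nat_lit 5) (nat_lit 8) (nat_lit 5) (nat_lit 9) (nat_lit 5) (nat_lit 402) (nat_lit 306) (nat_lit 180)) (XT.lf (nat_lit 0) (nat_lit 15265137238) (nat_lit 252) (nat_lit 32687641277) (nat_lit 84) (nat_lit 2299416880) (nat_lit 6) (nat_lit 5) (nat_lit 9) (nat_lit 5) (nat_lit 7) (nat_lit 4) (nat_lit 403) (nat_lit 306)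 (nat_lit 179)))) (XT.nd (nat_lit 94) (nat_lit 0) (nat_lit 0) (XT.lf (nat_lit 0) (nat_lit 17654674594) (nat_lit 252) (nat_lit 27874987598) (nat_lit 84) (nat_lit 6142907759) (nat_lit 6) (nat_lit 5) (nat_lit 9) (nat_lit 5) (nat_lit 7) (nat_lit 4) (nat_lit 404) (nat_lit 306) (nat_lit 178)) (XT.nd (nat_lit 94) (nat_lit 0) (nat_lit 0) (XT.lf (nat_lit 0) (nat_lit 20113700938) (nat_lit 252) (nat_lit 22919984137) (nat_lit 84) (nat_lit 10103453756) (nat_lit 6) (nat_lit 5) (nat_lit 9) (nat_lit 5) (nat_lit 7) (nat_lit 4) (nat_lit 405) (nat_lit 306) (nat_lit 177)) (XT.lf (nat_lit 0) (nat_lit 22644508339) (nat_lit 252) (nat_lit 17818012310) (nat_lit 84) (nat_lit 14184746515) (nat_lit 6) (nat_lit 5) (nat_lit 9) (nat_lit 5) (nat_lit 7) (nat_lit 4) (nat_lit 406) (nat_lit 306) (nat_lit 176))))) (XT.nd (nat_lit 282) (nat_lit 84) (nat_lit 0) (XT.nd (nat_lit 94) (nat_lit 0) (nat_lit 0) (XT.lf (nat_lit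 0) (nat_lit 25249455775) (nat_lit 252) (nat_lit 12564316546) (nat_lit 84) (nat_lit 18390590229) (nat_lit 6) (nat_lit 5) (nat_lit 9) (nat_lit 5) (nat_lit 7) (nat_lit 4) (nat_lit 407) (nat_lit 306) (nat_lit 175)) (XT.nd (nat_lit 94) (nat_lit 0) (nat_lit 0) (XT.lf (nat_lit 0) (nat_lit 27930971329) (nat_lit 252) (nat_lit 7153999850) (nat_lit 84) (nat_lit 22724905184) (nat_lit 6) (nat_lit 5) (nat_lit 9) (nat_lit 5) (nat_lit 7) (nat_lit 4) (nat_lit 408) (nat_lit 306) (nat_lit 174)) (XT.lf (nat_lit 0) (nat_lit 30691554455) (nat_lit 252) (nat_lit 1582019240) (nat_lit 84) (nat_lit 27191731416) (nat_lit 6) (nat_lit 5) (nat_lit 9) (nat_lit 5) (nat_lit 7) (nat_lit 4) (nat_lit 409) (nat_lit 306) (nat_lit 173)))) (XT.nd (nat_lit 188) (nat_lit 0) (nat_lit 0) (XT.nd (nat_lit 94) (nat_lit 0) (nat_lit 0) (XT.lf (nat_lit 0) (nat_lit 4242291676) (nat_lit 84) (nat_lit 29333570688) (nat_lit 168) (nat_lit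 27595024858) (nat_lit 5) (nat_lit 5) (nat_lit 6) (nat_lit 5) (nat_lit 7) (nat_lit 4) (nat_lit 410) (nat_lit 306) (nat_lit 172)) (XT.lf (nat_lit 0) (nat_lit 10274879860) (nat_lit 84) (nat_lit 26287340352) (nat_lit 168) (nat_lit 26366747528) (nat_lit 5) (nat_lit 5) (nat_lit 6) (nat_lit 5) (nat_lit 7) (nat_lit 4) (nat_lit 411) (nat_lit 306) (nat_lit 171))) (XT.nd (nat_lit 94) (nat_lit 0) (nat_lit 0) (XT.lf (nat_lit 0) (nat_lit 16488838754) (nat_lit 84) (nat_lit 23148556317) (nat_lit 168) (nat_lit 25104286819) (nat_lit 5) (nat_lit 5) (nat_lit 6) (nat_lit 5) (nat_lit 7) (nat_lit 4) (nat_lit 412) (nat_lit 306) (nat_lit 170)) (XT.lf (nat_lit 0) (nat_lit 22889960419) (nat_lit 84) (nat_lit 19914292909) (nat_lit 168) (nat_lit 23806465986) (nat_lit 5) (nat_lit 5) (nat_lit 6) (nat_lit 5) (nat_lit 7) (nat_lit 4) (nat_lit 413) (nat_lit 306) (nat_lit 169))))))) (XT.nd (nat_lit 45778) (nat_lit 0)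 (nat_lit 8568) (XT.nd (nat_lit 564) (nat_lit 84) (nat_lit 0) (XT.nd (nat_lit 282) (nat_lit 0) (nat_lit 0) (XT.nd (nat_lit 94) (nat_lit 0) (nat_lit 0) (XT.lf (nat_lit 0) (nat_lit 29484211372) (nat_lit 84) (nat_lit 16581535455) (nat_lit 168) (nat_lit 22472075324) (nat_lit 5) (nat_lit 5) (nat_lit 6) (nat_lit 5) (nat_lit 7) (nat_lit 4) (nat_lit 414) (nat_lit 306) (nat_lit 168)) (XT.nd (nat_lit 94) (nat_lit 0) (nat_lit 0) (XT.lf (nat_lit 0) (nat_lit 36277738145) (nat_lit 84) (nat_lit 13147177475) (nat_lit 168) (nat_lit 21099871041) (nat_lit 5) (nat_lit 5) (nat_lit 6) (nat_lit 5) (nat_lit 7) (nat_lit 4) (nat_lit 415) (nat_lit 306) (nat_lit 167)) (XT.lf (nat_lit 0) (nat_lit 43276873016) (nat_lit 84) (nat_lit 9608017789) (nat_lit 168) (nat_lit 19688574100) (nat_lit 5) (nat_lit 5) (nat_lit 6) (nat_lit 5) (nat_lit 7) (nat_lit 4) (nat_lit 416) (nat_lit 306) (nat_lit 166)))) (XT.nd (nat_lit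 94) (nat_lit 0) (nat_lit 0) (XT.lf (nat_lit 0) (nat_lit 50488139912) (nat_lit 84) (nat_lit 5960757528) (nat_lit 168) (nat_lit 18236869022) (nat_lit 5) (nat_lit 5) (nat_lit 6) (nat_lit 5) (nat_lit 7) (nat_lit 4) (nat_lit 417) (nat_lit 306) (nat_lit 165)) (XT.nd (nat_lit 94) (nat_lit 0) (nat_lit 0) (XT.lf (nat_lit 0) (nat_lit 57918260490) (nat_lit 84) (nat_lit 2201997065) (nat_lit 168) (nat_lit 16743402668) (nat_lit 5) (nat_lit 5) (nat_lit 6) (nat_lit 5) (nat_lit 7) (nat_lit 4) (nat_lit 418) (nat_lit 306) (nat_lit 164)) (XT.lf (nat_lit 0) (nat_lit 63918977378) (nat_lit 168) (nat_lit 13551599948) (nat_lit 0) (nat_lit 1638084776) (nat_lit 5) (nat_lit 5) (nat_lit 7) (nat_lit 4) (nat_lit 5) (nat_lit 4) (nat_lit 419) (nat_lit 306) (nat_lit 163))))) (XT.nd (nat_lit 282) (nat_lit 0) (nat_lit 0) (XT.nd (nat_lit 94) (nat_lit 84) (nat_lit 0) (XT.lf (nat_lit 0) (nat_lit 67855018873) (nat_lit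 168) (nat_lit 8017620766) (nat_lit 0) (nat_lit 5550025982) (nat_lit 5) (nat_lit 5) (nat_lit 7) (nat_lit 4) (nat_lit 5) (nat_lit 4) (nat_lit 420) (nat_lit 306) (nat_lit 162)) (XT.nd (nat_lit 94) (nat_lit 84) (nat_lit 0) (XT.lf (nat_lit 0) (nat_lit 71910206758) (nat_lit 168) (nat_lit 2316459858) (nat_lit 0) (nat_lit 9581838223) (nat_lit 5) (nat_lit 5) (nat_lit 7) (nat_lit 4) (nat_lit 5) (nat_lit 4) (nat_lit 421) (nat_lit 306) (nat_lit 161)) (XT.lf (nat_lit 0) (nat_lit 3630340119) (nat_lit 84) (nat_lit 72493994198) (nat_lit 84) (nat_lit 10142952876) (nat_lit 4) (nat_lit 4) (nat_lit 5) (nat_lit 5) (nat_lit 5) (nat_lit 4) (nat_lit 422) (nat_lit 306) (nat_lit 160)))) (XT.nd (nat_lit 188) (nat_lit 0) (nat_lit 0) (XT.nd (nat_lit 94) (nat_lit 0) (nat_lit 0) (XT.lf (nat_lit 0) (nat_lit 9806401375) (nat_lit 84) (nat_lit 70684135063) (nat_lit 84) (nat_lit 8311102676) (nat_lit 4) (nat_lit 4)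 (nat_lit 5) (nat_lit 5) (nat_lit 5) (nat_lit 4) (nat_lit 423) (nat_lit 306) (nat_lit 159)) (XT.lf (nat_lit 0) (nat_lit 16169849479) (nat_lit 84) (nat_lit 68819581322) (nat_lit 84) (nat_lit 6425219095) (nat_lit 4) (nat_lit 4) (nat_lit 5) (nat_lit 5) (nat_lit 5) (nat_lit 4) (nat_lit 424) (nat_lit 306) (nat_lit 158))) (XT.nd (nat_lit 44650) (nat_lit 0) (nat_lit 10416) (XT.lf (nat_lit 0) (nat_lit 22726615831) (nat_lit 84) (nat_lit 66898595015) (nat_lit 84) (nat_lit 4483544292) (nat_lit 4) (nat_lit 4) (nat_lit 5) (nat_lit 5) (nat_lit 5) (nat_lit 4) (nat_lit 425) (nat_lit 306) (nat_lit 157)) (XT.lf (nat_lit 0) (nat_lit 3427803400) (nat_lit 588) (nat_lit 47494925) (nat_lit 588) (nat_lit 47494925) (nat_lit 128) (nat_lit 3) (nat_lit 135) (nat_lit 3) (nat_lit 135) (nat_lit 5) (nat_lit 307) (nat_lit 307) (nat_lit 274)))))) (XT.nd (nat_lit 564) (nat_lit 672) (nat_lit 0) (XT.nd (nat_lit 282)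 (nat_lit 588) (nat_lit 0) (XT.nd (nat_lit 94) (nat_lit 0) (nat_lit 0) (XT.lf (nat_lit 0) (nat_lit 1167374655) (nat_lit 588) (nat_lit 4734918855) (nat_lit 672) (nat_lit 1198322562) (nat_lit 121) (nat_lit 5) (nat_lit 128) (nat_lit 3) (nat_lit 129) (nat_lit 5) (nat_lit 308) (nat_lit 307) (nat_lit 273)) (XT.nd (nat_lit 94) (nat_lit 0) (nat_lit 0) (XT.lf (nat_lit 0) (nat_lit 2509884957) (nat_lit 588) (nat_lit 2284159710) (nat_lit 672) (nat_lit 2365380012) (nat_lit 121) (nat_lit 5) (nat_lit 128) (nat_lit 3) (nat_lit 129) (nat_lit 5) (nat_lit 309) (nat_lit 307) (nat_lit 272)) (XT.lf (nat_lit 84) (nat_lit 218295065) (nat_lit 0) (nat_lit 3625529157) (nat_lit 672) (nat_lit 3378264323) (nat_lit 122) (nat_lit 5) (nat_lit 121) (nat_lit 5) (nat_lit 129) (nat_lit 5) (nat_lit 310) (nat_lit 307) (nat_lit 271)))) (XT.nd (nat_lit 94) (nat_lit 588) (nat_lit 0) (XT.lf (nat_lit 84) (nat_lit 2818363182)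 (nat_lit 0) (nat_lit 2373532591) (nat_lit 672) (nat_lit 2096105048) (nat_lit 122) (nat_lit 5) (nat_lit 121) (nat_lit 5) (nat_lit 129) (nat_lit 5) (nat_lit 311) (nat_lit 307) (nat_lit 270)) (XT.nd (nat_lit 94) (nat_lit 588) (nat_lit 0) (XT.lf (nat_lit 84) (nat_lit 5471501167) (nat_lit 0) (nat_lit 1060729922) (nat_lit 672) (nat_lit 825708733) (nat_lit 122) (nat_lit 5) (nat_lit 121) (nat_lit 5) (nat_lit 129) (nat_lit 5) (nat_lit 312) (nat_lit 307) (nat_lit 269)) (XT.lf (nat_lit 0) (nat_lit 436130815) (nat_lit 672) (nat_lit 6675639696) (nat_lit 756) (nat_lit 319732909) (nat_lit 114) (nat_lit 5) (nat_lit 122) (nat_lit 5) (nat_lit 123) (nat_lit 5) (nat_lit 313) (nat_lit 307) (nat_lit 268))))) (XT.nd (nat_lit 282) (nat_lit 672) (nat_lit 0) (XT.nd (nat_lit 94) (nat_lit 0) (nat_lit 0) (XT.lf (nat_lit 0) (nat_lit 1703114915) (nat_lit 672) (nat_lit 4036098035) (nat_lit 756) (nat_lit 1768803085)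 (nat_lit 114) (nat_lit 5) (nat_lit 122) (nat_lit 5) (nat_lit 123) (nat_lit 5) (nat_lit 314) (nat_lit 307) (nat_lit 267)) (XT.nd (nat_lit 94) (nat_lit 0) (nat_lit 0) (XT.lf (nat_lit 0) (nat_lit 2963244315) (nat_lit 672) (nat_lit 1343765231) (nat_lit 756) (nat_lit 3281717672) (nat_lit 114) (nat_lit 5) (nat_lit 122) (nat_lit 5) (nat_lit 123) (nat_lit 5) (nat_lit 315) (nat_lit 307) (nat_lit 266)) (XT.lf (nat_lit 84) (nat_lit 1432734661) (nat_lit 0) (nat_lit 2799171832) (nat_lit 756) (nat_lit 3441365109) (nat_lit 115) (nat_lit 5) (nat_lit 114) (nat_lit 5) (nat_lit 123) (nat_lit 5) (nat_lit 316) (nat_lit 307) (nat_lit 265)))) (XT.nd (nat_lit 188) (nat_lit 672) (nat_lit 0) (XT.nd (nat_lit 94) (nat_lit 0) (nat_lit 84) (XT.lf (nat_lit 84) (nat_lit 4295916643) (nat_lit 0) (nat_lit 1214331395) (nat_lit 756) (nat_lit 2251481065) (nat_lit 115) (nat_lit 5) (nat_lit 114) (nat_lit 5) (nat_lit 123)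 (nat_lit 5) (nat_lit 317) (nat_lit 307) (nat_lit 264)) (XT.lf (nat_lit 0) (nat_lit 6790170966) (nat_lit 672) (nat_lit 638099869) (nat_lit 756) (nat_lit 426199314) (nat_lit 115) (nat_lit 5) (nat_lit 123) (nat_lit 5) (nat_lit 124) (nat_lit 5) (nat_lit 318) (nat_lit 307) (nat_lit 263))) (XT.nd (nat_lit 94) (nat_lit 0) (nat_lit 0) (XT.lf (nat_lit 0) (nat_lit 150188988) (nat_lit 756) (nat_lit 5669291016) (nat_lit 840) (nat_lit 2131092171) (nat_lit 106) (nat_lit 5) (nat_lit 115) (nat_lit 5) (nat_lit 116) (nat_lit 5) (nat_lit 319) (nat_lit 307) (nat_lit 262)) (XT.lf (nat_lit 0) (nat_lit 1346219487) (nat_lit 756) (nat_lit 2784591671) (nat_lit 840) (nat_lit 3919888951) (nat_lit 106) (nat_lit 5) (nat_lit 115) (nat_lit 5) (nat_lit 116) (nat_lit 5) (nat_lit 320) (nat_lit 307) (nat_lit 261))))))))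
noncomputable def xc112 : XT := (XT.nd (nat_lit 2350) (nat_lit 2268) (nat_lit 0) (XT.nd (nat_lit 1128) (nat_lit 1848) (nat_lit 0) (XT.nd (nat_lit 564) (nat_lit 2436) (nat_lit 0) (XT.nd (nat_lit 282) (nat_lit 756) (nat_lit 0) (XT.nd (nat_lit 94) (nat_lit 0) (nat_lit 0) (XT.lf (nat_lit 84) (nat_lit 164841184) (nat_lit 0) (nat_lit 2376618196) (nat_lit 840) (nat_lit 5613966820) (nat_lit 107) (nat_lit 5) (nat_lit 106) (nat_lit 5) (nat_lit 116) (nat_lit 5) (nat_lit 321) (nat_lit 307) (nat_lit 260)) (XT.nd (nat_lit 94) (nat_lit 0) (nat_lit 84) (XT.lf (nat_lit 84) (nat_lit 3237008596) (nat_lit 0) (nat_lit 527218427) (nat_lit 840) (nat_lit 4499777708) (nat_lit 107) (nat_lit 5) (nat_lit 106) (nat_lit 5) (nat_lit 116) (nat_lit 5) (nat_lit 322) (nat_lit 307) (nat_lit 259)) (XT.lf (nat_lit 0) (nat_lit 5001260108) (nat_lit 756) (nat_lit 2013683050) (nat_lit 84) (nat_lit 1362040216) (nat_lit 107)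 (nat_lit 5) (nat_lit 116) (nat_lit 5) (nat_lit 108) (nat_lit 5) (nat_lit 323) (nat_lit 307) (nat_lit 258)))) (XT.nd (nat_lit 94) (nat_lit 84) (nat_lit 0) (XT.lf (nat_lit 0) (nat_lit 1081840904) (nat_lit 756) (nat_lit 5174721515) (nat_lit 840) (nat_lit 2237816643) (nat_lit 98) (nat_lit 5) (nat_lit 107) (nat_lit 5) (nat_lit 108) (nat_lit 5) (nat_lit 324) (nat_lit 307) (nat_lit 257)) (XT.nd (nat_lit 94) (nat_lit 84) (nat_lit 0) (XT.lf (nat_lit 0) (nat_lit 4288688295) (nat_lit 756) (nat_lit 3247723990) (nat_lit 840) (nat_lit 1079730579) (nat_lit 98) (nat_lit 5) (nat_lit 107) (nat_lit 5) (nat_lit 108) (nat_lit 5) (nat_lit 325) (nat_lit 307) (nat_lit 256)) (XT.lf (nat_lit 0) (nat_lit 77012133) (nat_lit 840) (nat_lit 1175357159) (nat_lit 84) (nat_lit 7490626807) (nat_lit 97) (nat_lit 5) (nat_lit 107) (nat_lit 5) (nat_lit 98) (nat_lit 5) (nat_lit 326) (nat_lit 307) (nat_lit 255))))) (XT.nd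 (nat_lit 282) (nat_lit 1596) (nat_lit 0) (XT.nd (nat_lit 94) (nat_lit 0) (nat_lit 0) (XT.lf (nat_lit 0) (nat_lit 1242293862) (nat_lit 924) (nat_lit 6803861050) (nat_lit 84) (nat_lit 827694836) (nat_lit 87) (nat_lit 5) (nat_lit 98) (nat_lit 5) (nat_lit 88) (nat_lit 5) (nat_lit 327) (nat_lit 307) (nat_lit 254)) (XT.nd (nat_lit 94) (nat_lit 0) (nat_lit 0) (XT.lf (nat_lit 0) (nat_lit 2435834611) (nat_lit 924) (nat_lit 3608195304) (nat_lit 84) (nat_lit 2965224643) (nat_lit 87) (nat_lit 5) (nat_lit 98) (nat_lit 5) (nat_lit 88) (nat_lit 5) (nat_lit 328) (nat_lit 307) (nat_lit 253)) (XT.lf (nat_lit 0) (nat_lit 3634302086) (nat_lit 924) (nat_lit 340368600) (nat_lit 84) (nat_lit 5175423842) (nat_lit 87) (nat_lit 5) (nat_lit 98) (nat_lit 5) (nat_lit 88) (nat_lit 5) (nat_lit 329) (nat_lit 307) (nat_lit 252)))) (XT.nd (nat_lit 94) (nat_lit 672) (nat_lit 0) (XT.lf (nat_lit 0) (nat_lit 3064405969)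 (nat_lit 924) (nat_lit 1804806701) (nat_lit 1008) (nat_lit 4426345887) (nat_lit 76) (nat_lit 5) (nat_lit 87) (nat_lit 5) (nat_lit 88) (nat_lit 5) (nat_lit 330) (nat_lit 307) (nat_lit 251)) (XT.nd (nat_lit 94) (nat_lit 672) (nat_lit 0) (XT.lf (nat_lit 0) (nat_lit 6119899334) (nat_lit 1008) (nat_lit 2894852062) (nat_lit 84) (nat_lit 431707198) (nat_lit 76) (nat_lit 5) (nat_lit 88) (nat_lit 5) (nat_lit 77) (nat_lit 5) (nat_lit 331) (nat_lit 307) (nat_lit 250)) (XT.lf (nat_lit 0) (nat_lit 510463493) (nat_lit 672) (nat_lit 6892946225) (nat_lit 756) (nat_lit 2199033239) (nat_lit 68) (nat_lit 5) (nat_lit 76) (nat_lit 5) (nat_lit 77) (nat_lit 5) (nat_lit 332) (nat_lit 307) (nat_lit 249)))))) (XT.nd (nat_lit 564) (nat_lit 840) (nat_lit 0) (XT.nd (nat_lit 282) (nat_lit 420) (nat_lit 0) (XT.nd (nat_lit 94) (nat_lit 588) (nat_lit 0) (XT.lf (nat_lit 0) (nat_lit 4056742730) (nat_lit 672) (nat_lit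 4671340640) (nat_lit 756) (nat_lit 1035352229) (nat_lit 68) (nat_lit 5) (nat_lit 76) (nat_lit 5) (nat_lit 77) (nat_lit 5) (nat_lit 333) (nat_lit 307) (nat_lit 248)) (XT.nd (nat_lit 94) (nat_lit 504) (nat_lit 0) (XT.lf (nat_lit 0) (nat_lit 132625079) (nat_lit 756) (nat_lit 2244070778) (nat_lit 84) (nat_lit 7553757642) (nat_lit 67) (nat_lit 5) (nat_lit 76) (nat_lit 5) (nat_lit 68) (nat_lit 5) (nat_lit 334) (nat_lit 307) (nat_lit 247)) (XT.lf (nat_lit 0) (nat_lit 1300912121) (nat_lit 588) (nat_lit 8786491520) (nat_lit 84) (nat_lit 15559688) (nat_lit 61) (nat_lit 5) (nat_lit 68) (nat_lit 5) (nat_lit 62) (nat_lit 5) (nat_lit 335) (nat_lit 307) (nat_lit 246)))) (XT.nd (nat_lit 94) (nat_lit 420) (nat_lit 0) (XT.lf (nat_lit 0) (nat_lit 2526380998) (nat_lit 588) (nat_lit 5295668517) (nat_lit 84) (nat_lit 2458312151) (nat_lit 61) (nat_lit 5) (nat_lit 68) (nat_lit 5) (nat_lit 62) (nat_lit 5)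 (nat_lit 336) (nat_lit 307) (nat_lit 245)) (XT.nd (nat_lit 94) (nat_lit 420) (nat_lit 0) (XT.lf (nat_lit 0) (nat_lit 3763645292) (nat_lit 588) (nat_lit 1721838970) (nat_lit 84) (nat_lit 4978771989) (nat_lit 61) (nat_lit 5) (nat_lit 68) (nat_lit 5) (nat_lit 62) (nat_lit 5) (nat_lit 337) (nat_lit 307) (nat_lit 244)) (XT.lf (nat_lit 0) (nat_lit 1978184310) (nat_lit 420) (nat_lit 3055297788) (nat_lit 504) (nat_lit 5620728059) (nat_lit 56) (nat_lit 5) (nat_lit 61) (nat_lit 5) (nat_lit 62) (nat_lit 5) (nat_lit 338) (nat_lit 307) (nat_lit 243))))) (XT.nd (nat_lit 282) (nat_lit 420) (nat_lit 0) (XT.nd (nat_lit 94) (nat_lit 420) (nat_lit 0) (XT.lf (nat_lit 0) (nat_lit 5805206950) (nat_lit 420) (nat_lit 530566665) (nat_lit 504) (nat_lit 4514667166) (nat_lit 56) (nat_lit 5) (nat_lit 61) (nat_lit 5) (nat_lit 62) (nat_lit 5) (nat_lit 339) (nat_lit 307) (nat_lit 242)) (XT.nd (nat_lit 94) (nat_lit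 420) (nat_lit 0) (XT.lf (nat_lit 0) (nat_lit 7674866953) (nat_lit 504) (nat_lit 1346845142) (nat_lit 84) (nat_lit 2031321809) (nat_lit 56) (nat_lit 5) (nat_lit 62) (nat_lit 5) (nat_lit 57) (nat_lit 5) (nat_lit 340) (nat_lit 307) (nat_lit 241)) (XT.lf (nat_lit 0) (nat_lit 2487213480) (nat_lit 420) (nat_lit 6574956105) (nat_lit 504) (nat_lit 2199693838) (nat_lit 51) (nat_lit 5) (nat_lit 56) (nat_lit 5) (nat_lit 57) (nat_lit 5) (nat_lit 341) (nat_lit 307) (nat_lit 240)))) (XT.nd (nat_lit 188) (nat_lit 336) (nat_lit 0) (XT.nd (nat_lit 94) (nat_lit 84) (nat_lit 0) (XT.lf (nat_lit 0) (nat_lit 6445254446) (nat_lit 420) (nat_lit 4038351219) (nat_lit 504) (nat_lit 993994763) (nat_lit 51) (nat_lit 5) (nat_lit 56) (nat_lit 5) (nat_lit 57) (nat_lit 5) (nat_lit 342) (nat_lit 307) (nat_lit 239)) (XT.lf (nat_lit 0) (nat_lit 221442497) (nat_lit 504) (nat_lit 1199837454) (nat_lit 84) (nat_lit 10279519262)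 (nat_lit 50) (nat_lit 5) (nat_lit 56) (nat_lit 5) (nat_lit 51) (nat_lit 5) (nat_lit 343) (nat_lit 307) (nat_lit 238))) (XT.nd (nat_lit 94) (nat_lit 0) (nat_lit 0) (XT.lf (nat_lit 0) (nat_lit 1472540764) (nat_lit 420) (nat_lit 9169039587) (nat_lit 84) (nat_lit 1288588944) (nat_lit 46) (nat_lit 5) (nat_lit 51) (nat_lit 5) (nat_lit 47) (nat_lit 5) (nat_lit 344) (nat_lit 307) (nat_lit 237)) (XT.lf (nat_lit 0) (nat_lit 2768099910) (nat_lit 420) (nat_lit 5333806489) (nat_lit 84) (nat_lit 4064707935) (nat_lit 46) (nat_lit 5) (nat_lit 51) (nat_lit 5) (nat_lit 47) (nat_lit 5) (nat_lit 345) (nat_lit 307) (nat_lit 236))))))) (XT.nd (nat_lit 1222) (nat_lit 840) (nat_lit 0) (XT.nd (nat_lit 564) (nat_lit 672) (nat_lit 0) (XT.nd (nat_lit 282) (nat_lit 336) (nat_lit 0) (XT.nd (nat_lit 94) (nat_lit 420) (nat_lit 0) (XT.lf (nat_lit 0) (nat_lit 4082956744) (nat_lit 420) (nat_lit 1402186707) (nat_lit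 84) (nat_lit 6926028763) (nat_lit 46) (nat_lit 5) (nat_lit 51) (nat_lit 5) (nat_lit 47) (nat_lit 5) (nat_lit 346) (nat_lit 307) (nat_lit 235)) (XT.nd (nat_lit 94) (nat_lit 0) (nat_lit 0) (XT.lf (nat_lit 0) (nat_lit 2683552032) (nat_lit 420) (nat_lit 2761405986) (nat_lit 504) (nat_lit 7218287615) (nat_lit 41) (nat_lit 5) (nat_lit 46) (nat_lit 5) (nat_lit 47) (nat_lit 5) (nat_lit 347) (nat_lit 307) (nat_lit 234)) (XT.lf (nat_lit 0) (nat_lit 6844570260) (nat_lit 504) (nat_lit 6019952605) (nat_lit 84) (nat_lit 58881579) (nat_lit 41) (nat_lit 5) (nat_lit 47) (nat_lit 5) (nat_lit 42) (nat_lit 5) (nat_lit 348) (nat_lit 307) (nat_lit 233)))) (XT.nd (nat_lit 94) (nat_lit 336) (nat_lit 0) (XT.lf (nat_lit 0) (nat_lit 8296549680) (nat_lit 504) (nat_lit 1987364453) (nat_lit 84) (nat_lit 2907560008) (nat_lit 41) (nat_lit 5) (nat_lit 47) (nat_lit 5) (nat_lit 42) (nat_lit 5) (nat_lit 349) (nat_lit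 307) (nat_lit 232)) (XT.nd (nat_lit 94) (nat_lit 0) (nat_lit 0) (XT.lf (nat_lit 0) (nat_lit 2193415572) (nat_lit 336) (nat_lit 7603199569) (nat_lit 420) (nat_lit 3671264122) (nat_lit 37) (nat_lit 5) (nat_lit 41) (nat_lit 5) (nat_lit 42) (nat_lit 5) (nat_lit 350) (nat_lit 307) (nat_lit 231)) (XT.lf (nat_lit 0) (nat_lit 6525132783) (nat_lit 336) (nat_lit 4820465061) (nat_lit 420) (nat_lit 2407297184) (nat_lit 37) (nat_lit 5) (nat_lit 41) (nat_lit 5) (nat_lit 42) (nat_lit 5) (nat_lit 351) (nat_lit 307) (nat_lit 230))))) (XT.nd (nat_lit 282) (nat_lit 252) (nat_lit 0) (XT.nd (nat_lit 94) (nat_lit 420) (nat_lit 0) (XT.lf (nat_lit 0) (nat_lit 10970960502) (nat_lit 336) (nat_lit 1953860817) (nat_lit 420) (nat_lit 1122589507) (nat_lit 37) (nat_lit 5) (nat_lit 41) (nat_lit 5) (nat_lit 42) (nat_lit 5) (nat_lit 352) (nat_lit 307) (nat_lit 229)) (XT.nd (nat_lit 94) (nat_lit 0) (nat_lit 0) (XT.lf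 (nat_lit 0) (nat_lit 202363897) (nat_lit 420) (nat_lit 13155517761) (nat_lit 84) (nat_lit 993080429) (nat_lit 32) (nat_lit 5) (nat_lit 37) (nat_lit 5) (nat_lit 33) (nat_lit 5) (nat_lit 353) (nat_lit 307) (nat_lit 228)) (XT.lf (nat_lit 0) (nat_lit 1580272540) (nat_lit 420) (nat_lit 9050175370) (nat_lit 84) (nat_lit 4032131898) (nat_lit 32) (nat_lit 5) (nat_lit 37) (nat_lit 5) (nat_lit 33) (nat_lit 5) (nat_lit 354) (nat_lit 307) (nat_lit 227)))) (XT.nd (nat_lit 188) (nat_lit 252) (nat_lit 0) (XT.nd (nat_lit 94) (nat_lit 0) (nat_lit 0) (XT.lf (nat_lit 0) (nat_lit 2984191060) (nat_lit 420) (nat_lit 4837393712) (nat_lit 84) (nat_lit 7162891166) (nat_lit 32) (nat_lit 5) (nat_lit 37) (nat_lit 5) (nat_lit 33) (nat_lit 5) (nat_lit 355) (nat_lit 307) (nat_lit 226)) (XT.lf (nat_lit 0) (nat_lit 4415428057) (nat_lit 420) (nat_lit 513246033) (nat_lit 84) (nat_lit 10388276430) (nat_lit 32) (nat_lit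 5) (nat_lit 37) (nat_lit 5) (nat_lit 33) (nat_lit 5) (nat_lit 356) (nat_lit 307) (nat_lit 225))) (XT.nd (nat_lit 94) (nat_lit 0) (nat_lit 0) (XT.lf (nat_lit 0) (nat_lit 4007030968) (nat_lit 252) (nat_lit 1908036869) (nat_lit 336) (nat_lit 9744013362) (nat_lit 29) (nat_lit 5) (nat_lit 32) (nat_lit 5) (nat_lit 33) (nat_lit 5) (nat_lit 357) (nat_lit 307) (nat_lit 224)) (XT.lf (nat_lit 0) (nat_lit 7463117983) (nat_lit 336) (nat_lit 7364358464) (nat_lit 84) (nat_lit 1184373525) (nat_lit 29) (nat_lit 5) (nat_lit 33) (nat_lit 5) (nat_lit 30) (nat_lit 5) (nat_lit 358) (nat_lit 307) (nat_lit 223)))))) (XT.nd (nat_lit 564) (nat_lit 336) (nat_lit 0) (XT.nd (nat_lit 282) (nat_lit 252) (nat_lit 0) (XT.nd (nat_lit 94) (nat_lit 252) (nat_lit 0) (XT.lf (nat_lit 0) (nat_lit 9063680609) (nat_lit 336) (nat_lit 2981694473) (nat_lit 84) (nat_lit 4330128140) (nat_lit 29) (nat_lit 5) (nat_lit 33) (nat_lit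 5) (nat_lit 30) (nat_lit 5) (nat_lit 359) (nat_lit 307) (nat_lit 222)) (XT.nd (nat_lit 94) (nat_lit 0) (nat_lit 0) (XT.lf (nat_lit 0) (nat_lit 1550187630) (nat_lit 252) (nat_lit 9164510071) (nat_lit 336) (nat_lit 6035792260) (nat_lit 26) (nat_lit 5) (nat_lit 29) (nat_lit 5) (nat_lit 30) (nat_lit 5) (nat_lit 360) (nat_lit 307) (nat_lit 221)) (XT.lf (nat_lit 0) (nat_lit 6268072130) (nat_lit 252) (nat_lit 6165667606) (nat_lit 336) (nat_lit 4702922999) (nat_lit 26) (nat_lit 5) (nat_lit 29) (nat_lit 5) (nat_lit 30) (nat_lit 5) (nat_lit 361) (nat_lit 307) (nat_lit 220)))) (XT.nd (nat_lit 94) (nat_lit 252) (nat_lit 0) (XT.lf (nat_lit 0) (nat_lit 11115046834) (nat_lit 252) (nat_lit 3077175229) (nat_lit 336) (nat_lit 3343095232) (nat_lit 26) (nat_lit 5) (nat_lit 29) (nat_lit 5) (nat_lit 30) (nat_lit 5) (nat_lit 362) (nat_lit 307) (nat_lit 219)) (XT.nd (nat_lit 94) (nat_lit 252) (nat_lit 0)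 (XT.lf (nat_lit 0) (nat_lit 15992813937) (nat_lit 336) (nat_lit 1852225762) (nat_lit 84) (nat_lit 101753595) (nat_lit 26) (nat_lit 5) (nat_lit 30) (nat_lit 5) (nat_lit 27) (nat_lit 5) (nat_lit 363) (nat_lit 307) (nat_lit 218)) (XT.lf (nat_lit 0) (nat_lit 2867125430) (nat_lit 252) (nat_lit 15028952650) (nat_lit 336) (nat_lit 473570776) (nat_lit 23) (nat_lit 5) (nat_lit 26) (nat_lit 5) (nat_lit 27) (nat_lit 5) (nat_lit 364) (nat_lit 307) (nat_lit 217))))) (XT.nd (nat_lit 282) (nat_lit 252) (nat_lit 0) (XT.nd (nat_lit 94) (nat_lit 0) (nat_lit 0) (XT.lf (nat_lit 0) (nat_lit 1038016897) (nat_lit 336) (nat_lit 11060380398) (nat_lit 84) (nat_lit 6706762270) (nat_lit 22) (nat_lit 5) (nat_lit 26) (nat_lit 5) (nat_lit 23) (nat_lit 5) (nat_lit 365) (nat_lit 307) (nat_lit 216)) (XT.nd (nat_lit 94) (nat_lit 0) (nat_lit 0) (XT.lf (nat_lit 0) (nat_lit 2573983957) (nat_lit 336) (nat_lit 6501638819)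 (nat_lit 84) (nat_lit 10178859705) (nat_lit 22) (nat_lit 5) (nat_lit 26) (nat_lit 5) (nat_lit 23) (nat_lit 5) (nat_lit 366) (nat_lit 307) (nat_lit 215)) (XT.lf (nat_lit 0) (nat_lit 4145303482) (nat_lit 336) (nat_lit 1817351585) (nat_lit 84) (nat_lit 13755526988) (nat_lit 22) (nat_lit 5) (nat_lit 26) (nat_lit 5) (nat_lit 23) (nat_lit 5) (nat_lit 367) (nat_lit 307) (nat_lit 214)))) (XT.nd (nat_lit 188) (nat_lit 0) (nat_lit 0) (XT.nd (nat_lit 94) (nat_lit 0) (nat_lit 0) (XT.lf (nat_lit 0) (nat_lit 3058468882) (nat_lit 252) (nat_lit 2725311612) (nat_lit 336) (nat_lit 14411969455) (nat_lit 19) (nat_lit 5) (nat_lit 22) (nat_lit 5) (nat_lit 23) (nat_lit 5) (nat_lit 368) (nat_lit 307) (nat_lit 213)) (XT.lf (nat_lit 0) (nat_lit 7486567953) (nat_lit 336) (nat_lit 12585374269) (nat_lit 84) (nat_lit 615824689) (nat_lit 19) (nat_lit 5) (nat_lit 23) (nat_lit 5) (nat_lit 20) (nat_lit 5) (nat_lit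 369) (nat_lit 307) (nat_lit 212))) (XT.nd (nat_lit 94) (nat_lit 0) (nat_lit 0) (XT.lf (nat_lit 0) (nat_lit 9258647013) (nat_lit 336) (nat_lit 7935302269) (nat_lit 84) (nat_lit 4000637058) (nat_lit 19) (nat_lit 5) (nat_lit 23) (nat_lit 5) (nat_lit 20) (nat_lit 5) (nat_lit 370) (nat_lit 307) (nat_lit 211)) (XT.lf (nat_lit 0) (nat_lit 11074634007) (nat_lit 336) (nat_lit 3155695283) (nat_lit 84) (nat_lit 7487189450) (nat_lit 19) (nat_lit 5) (nat_lit 23) (nat_lit 5) (nat_lit 20) (nat_lit 5) (nat_lit 371) (nat_lit 307) (nat_lit 210))))))))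
noncomputable def xc113 : XT := (XT.nd (nat_lit 2350) (nat_lit 336) (nat_lit 0) (XT.nd (nat_lit 1128) (nat_lit 252) (nat_lit 0) (XT.nd (nat_lit 564) (nat_lit 252) (nat_lit 0) (XT.nd (nat_lit 282) (nat_lit 168) (nat_lit 0) (XT.nd (nat_lit 94) (nat_lit 0) (nat_lit 0) (XT.lf (nat_lit 0) (nat_lit 1794047847) (nat_lit 168) (nat_lit 11159970954) (nat_lit 252) (nat_lit 9302481026) (nat_lit 17) (nat_lit 5) (nat_lit 19) (nat_lit 5) (nat_lit 20) (nat_lit 5) (nat_lit 372) (nat_lit 307) (nat_lit 209)) (XT.nd (nat_lit 94) (nat_lit 0) (nat_lit 0) (XT.lf (nat_lit 0) (nat_lit 6950097898) (nat_lit 168) (nat_lit 7963992998) (nat_lit 252) (nat_lit 7897459427) (nat_lit 17) (nat_lit 5) (nat_lit 19) (nat_lit 5) (nat_lit 20) (nat_lit 5) (nat_lit 373) (nat_lit 307) (nat_lit 208)) (XT.lf (nat_lit 0) (nat_lit 12252373278) (nat_lit 168) (nat_lit 4672355421) (nat_lit 252) (nat_lit 6459449295) (nat_lit 17) (nat_lit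 5) (nat_lit 19) (nat_lit 5) (nat_lit 20) (nat_lit 5) (nat_lit 374) (nat_lit 307) (nat_lit 207)))) (XT.nd (nat_lit 94) (nat_lit 168) (nat_lit 0) (XT.lf (nat_lit 0) (nat_lit 17705816265) (nat_lit 168) (nat_lit 1281990072) (nat_lit 252) (nat_lit 4987110254) (nat_lit 17) (nat_lit 5) (nat_lit 19) (nat_lit 5) (nat_lit 20) (nat_lit 5) (nat_lit 375) (nat_lit 307) (nat_lit 206)) (XT.nd (nat_lit 94) (nat_lit 168) (nat_lit 0) (XT.lf (nat_lit 0) (nat_lit 21127172899) (nat_lit 252) (nat_lit 1290732791) (nat_lit 84) (nat_lit 2165731345) (nat_lit 17) (nat_lit 5) (nat_lit 20) (nat_lit 5) (nat_lit 18) (nat_lit 5) (nat_lit 376) (nat_lit 307) (nat_lit 205)) (XT.lf (nat_lit 0) (nat_lit 3894591579) (nat_lit 168) (nat_lit 19480679760) (nat_lit 252) (nat_lit 1834691466) (nat_lit 15) (nat_lit 5) (nat_lit 17) (nat_lit 5) (nat_lit 18) (nat_lit 5) (nat_lit 377) (nat_lit 307) (nat_lit 204))))) (XT.nd (nat_lit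 282) (nat_lit 168) (nat_lit 0) (XT.nd (nat_lit 94) (nat_lit 84) (nat_lit 0) (XT.lf (nat_lit 0) (nat_lit 9255424569) (nat_lit 168) (nat_lit 16441929507) (nat_lit 252) (nat_lit 158265759) (nat_lit 15) (nat_lit 5) (nat_lit 17) (nat_lit 5) (nat_lit 18) (nat_lit 5) (nat_lit 378) (nat_lit 307) (nat_lit 203)) (XT.nd (nat_lit 94) (nat_lit 0) (nat_lit 0) (XT.lf (nat_lit 0) (nat_lit 1529454267) (nat_lit 252) (nat_lit 11766876469) (nat_lit 84) (nat_lit 13224804287) (nat_lit 14) (nat_lit 5) (nat_lit 17) (nat_lit 5) (nat_lit 15) (nat_lit 5) (nat_lit 379) (nat_lit 307) (nat_lit 202)) (XT.lf (nat_lit 0) (nat_lit 3257437612) (nat_lit 252) (nat_lit 6797420817) (nat_lit 84) (nat_lit 17152688424) (nat_lit 14) (nat_lit 5) (nat_lit 17) (nat_lit 5) (nat_lit 15) (nat_lit 5) (nat_lit 380) (nat_lit 307) (nat_lit 201)))) (XT.nd (nat_lit 94) (nat_lit 168) (nat_lit 0) (XT.lf (nat_lit 0) (nat_lit 5030483637)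 (nat_lit 252) (nat_lit 1685626244) (nat_lit 84) (nat_lit 21199433923) (nat_lit 14) (nat_lit 5) (nat_lit 17) (nat_lit 5) (nat_lit 15) (nat_lit 5) (nat_lit 381) (nat_lit 307) (nat_lit 200)) (XT.nd (nat_lit 94) (nat_lit 0) (nat_lit 0) (XT.lf (nat_lit 0) (nat_lit 3646745779) (nat_lit 168) (nat_lit 3239675398) (nat_lit 252) (nat_lit 21758243166) (nat_lit 12) (nat_lit 5) (nat_lit 14) (nat_lit 5) (nat_lit 15) (nat_lit 5) (nat_lit 382) (nat_lit 307) (nat_lit 199)) (XT.lf (nat_lit 0) (nat_lit 8812941266) (nat_lit 252) (nat_lit 20230791705) (nat_lit 84) (nat_lit 352290320) (nat_lit 12) (nat_lit 5) (nat_lit 15) (nat_lit 5) (nat_lit 13) (nat_lit 5) (nat_lit 383) (nat_lit 307) (nat_lit 198)))))) (XT.nd (nat_lit 564) (nat_lit 84) (nat_lit 0) (XT.nd (nat_lit 282) (nat_lit 168) (nat_lit 0) (XT.nd (nat_lit 94) (nat_lit 0) (nat_lit 0) (XT.lf (nat_lit 0) (nat_lit 10824418887) (nat_lit 252) (nat_lit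 15360179690) (nat_lit 84) (nat_lit 3985332459) (nat_lit 12) (nat_lit 5) (nat_lit 15) (nat_lit 5) (nat_lit 13) (nat_lit 5) (nat_lit 384) (nat_lit 307) (nat_lit 197)) (XT.nd (nat_lit 94) (nat_lit 0) (nat_lit 0) (XT.lf (nat_lit 0) (nat_lit 12890590968) (nat_lit 252) (nat_lit 10349404617) (nat_lit 84) (nat_lit 7728109634) (nat_lit 12) (nat_lit 5) (nat_lit 15) (nat_lit 5) (nat_lit 13) (nat_lit 5) (nat_lit 385) (nat_lit 307) (nat_lit 196)) (XT.lf (nat_lit 0) (nat_lit 15013383397) (nat_lit 252) (nat_lit 5193795920) (nat_lit 84) (nat_lit 11584110505) (nat_lit 12) (nat_lit 5) (nat_lit 15) (nat_lit 5) (nat_lit 13) (nat_lit 5) (nat_lit 386) (nat_lit 307) (nat_lit 195)))) (XT.nd (nat_lit 94) (nat_lit 0) (nat_lit 0) (XT.lf (nat_lit 0) (nat_lit 113743649) (nat_lit 168) (nat_lit 17082159541) (nat_lit 252) (nat_lit 15444313970) (nat_lit 10) (nat_lit 5) (nat_lit 12) (nat_lit 5) (nat_lit 13) (nat_lit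 5) (nat_lit 387) (nat_lit 307) (nat_lit 194)) (XT.nd (nat_lit 94) (nat_lit 0) (nat_lit 0) (XT.lf (nat_lit 0) (nat_lit 5685841123) (nat_lit 168) (nat_lit 13807361704) (nat_lit 252) (nat_lit 14020832133) (nat_lit 10) (nat_lit 5) (nat_lit 12) (nat_lit 5) (nat_lit 13) (nat_lit 5) (nat_lit 388) (nat_lit 307) (nat_lit 193)) (XT.lf (nat_lit 0) (nat_lit 11420895183) (nat_lit 168) (nat_lit 10433945931) (nat_lit 252) (nat_lit 12560346656) (nat_lit 10) (nat_lit 5) (nat_lit 12) (nat_lit 5) (nat_lit 13) (nat_lit 5) (nat_lit 389) (nat_lit 307) (nat_lit 192))))) (XT.nd (nat_lit 282) (nat_lit 84) (nat_lit 0) (XT.nd (nat_lit 94) (nat_lit 0) (nat_lit 0) (XT.lf (nat_lit 0) (nat_lit 17324251500) (nat_lit 168) (nat_lit 6958767843) (nat_lit 252) (nat_lit 11061496215) (nat_lit 10) (nat_lit 5) (nat_lit 12) (nat_lit 5) (nat_lit 13) (nat_lit 5) (nat_lit 390) (nat_lit 307) (nat_lit 191)) (XT.nd (nat_lit 94)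 (nat_lit 0) (nat_lit 0) (XT.lf (nat_lit 0) (nat_lit 23401412621) (nat_lit 168) (nat_lit 3378588212) (nat_lit 252) (nat_lit 9522883723) (nat_lit 10) (nat_lit 5) (nat_lit 12) (nat_lit 5) (nat_lit 13) (nat_lit 5) (nat_lit 391) (nat_lit 307) (nat_lit 190)) (XT.lf (nat_lit 0) (nat_lit 29351187576) (nat_lit 252) (nat_lit 7636219512) (nat_lit 84) (nat_lit 303685665) (nat_lit 10) (nat_lit 5) (nat_lit 13) (nat_lit 5) (nat_lit 11) (nat_lit 4) (nat_lit 392) (nat_lit 307) (nat_lit 189)))) (XT.nd (nat_lit 188) (nat_lit 0) (nat_lit 0) (XT.nd (nat_lit 94) (nat_lit 84) (nat_lit 0) (XT.lf (nat_lit 0) (nat_lit 32030523629) (nat_lit 252) (nat_lit 2251146464) (nat_lit 84) (nat_lit 4027413199) (nat_lit 10) (nat_lit 5) (nat_lit 13) (nat_lit 5) (nat_lit 11) (nat_lit 4) (nat_lit 393) (nat_lit 307) (nat_lit 188)) (XT.lf (nat_lit 0) (nat_lit 3359978758) (nat_lit 84) (nat_lit 31460343047) (nat_lit 168) (nat_lit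 4537488965) (nat_lit 9) (nat_lit 5) (nat_lit 10) (nat_lit 5) (nat_lit 11) (nat_lit 4) (nat_lit 394) (nat_lit 307) (nat_lit 187))) (XT.nd (nat_lit 94) (nat_lit 0) (nat_lit 0) (XT.lf (nat_lit 0) (nat_lit 9184277688) (nat_lit 84) (nat_lit 28529988689) (nat_lit 168) (nat_lit 2724262732) (nat_lit 9) (nat_lit 5) (nat_lit 10) (nat_lit 5) (nat_lit 11) (nat_lit 4) (nat_lit 395) (nat_lit 307) (nat_lit 186)) (XT.lf (nat_lit 0) (nat_lit 15180890993) (nat_lit 84) (nat_lit 25511372975) (nat_lit 168) (nat_lit 860688200) (nat_lit 9) (nat_lit 5) (nat_lit 10) (nat_lit 5) (nat_lit 11) (nat_lit 4) (nat_lit 396) (nat_lit 307) (nat_lit 185))))))) (XT.nd (nat_lit 1222) (nat_lit 84) (nat_lit 0) (XT.nd (nat_lit 564) (nat_lit 0) (nat_lit 0) (XT.nd (nat_lit 282) (nat_lit 168) (nat_lit 0) (XT.nd (nat_lit 94) (nat_lit 0) (nat_lit 0) (XT.lf (nat_lit 0) (nat_lit 1033716347) (nat_lit 168) (nat_lit 21357176013)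 (nat_lit 84) (nat_lit 20310901918) (nat_lit 8) (nat_lit 5) (nat_lit 10) (nat_lit 5) (nat_lit 9) (nat_lit 5) (nat_lit 397) (nat_lit 307) (nat_lit 184)) (XT.nd (nat_lit 94) (nat_lit 0) (nat_lit 0) (XT.lf (nat_lit 0) (nat_lit 2963565508) (nat_lit 168) (nat_lit 16203518869) (nat_lit 84) (nat_lit 24719085386) (nat_lit 8) (nat_lit 5) (nat_lit 10) (nat_lit 5) (nat_lit 9) (nat_lit 5) (nat_lit 398) (nat_lit 307) (nat_lit 183)) (XT.lf (nat_lit 0) (nat_lit 4947999051) (nat_lit 168) (nat_lit 10897747862) (nat_lit 84) (nat_lit 29261700352) (nat_lit 8) (nat_lit 5) (nat_lit 10) (nat_lit 5) (nat_lit 9) (nat_lit 5) (nat_lit 399) (nat_lit 307) (nat_lit 182)))) (XT.nd (nat_lit 94) (nat_lit 168) (nat_lit 0) (XT.lf (nat_lit 0) (nat_lit 6988866678) (nat_lit 168) (nat_lit 5434917458) (nat_lit 84) (nat_lit 33942981009) (nat_lit 8) (nat_lit 5) (nat_lit 10) (nat_lit 5) (nat_lit 9) (nat_lit 5) (nat_lit 400)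 (nat_lit 307) (nat_lit 181)) (XT.nd (nat_lit 94) (nat_lit 0) (nat_lit 0) (XT.lf (nat_lit 0) (nat_lit 193972383) (nat_lit 168) (nat_lit 8896022536) (nat_lit 252) (nat_lit 38575242648) (nat_lit 6) (nat_lit 5) (nat_lit 8) (nat_lit 5) (nat_lit 9) (nat_lit 5) (nat_lit 401) (nat_lit 307) (nat_lit 180)) (XT.lf (nat_lit 0) (nat_lit 6105451646) (nat_lit 168) (nat_lit 5202682954) (nat_lit 252) (nat_lit 37694241680) (nat_lit 6) (nat_lit 5) (nat_lit 8) (nat_lit 5) (nat_lit 9) (nat_lit 5) (nat_lit 402) (nat_lit 307) (nat_lit 179))))) (XT.nd (nat_lit 282) (nat_lit 0) (nat_lit 0) (XT.nd (nat_lit 94) (nat_lit 0) (nat_lit 0) (XT.lf (nat_lit 0) (nat_lit 12193277399) (nat_lit 168) (nat_lit 1397052203) (nat_lit 252) (nat_lit 36790803770) (nat_lit 6) (nat_lit 5) (nat_lit 8) (nat_lit 5) (nat_lit 9) (nat_lit 5) (nat_lit 403) (nat_lit 307) (nat_lit 178)) (XT.nd (nat_lit 94) (nat_lit 0) (nat_lit 0) (XT.lf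 (nat_lit 0) (nat_lit 15963749697) (nat_lit 252) (nat_lit 33364712384) (nat_lit 84) (nat_lit 2473555588) (nat_lit 6) (nat_lit 5) (nat_lit 9) (nat_lit 5) (nat_lit 7) (nat_lit 4) (nat_lit 404) (nat_lit 307) (nat_lit 177)) (XT.lf (nat_lit 0) (nat_lit 18420585612) (nat_lit 252) (nat_lit 28412976644) (nat_lit 84) (nat_lit 6433101997) (nat_lit 6) (nat_lit 5) (nat_lit 9) (nat_lit 5) (nat_lit 7) (nat_lit 4) (nat_lit 405) (nat_lit 307) (nat_lit 176)))) (XT.nd (nat_lit 188) (nat_lit 0) (nat_lit 0) (XT.nd (nat_lit 94) (nat_lit 0) (nat_lit 0) (XT.lf (nat_lit 0) (nat_lit 20949268447) (nat_lit 252) (nat_lit 23314174285) (nat_lit 84) (nat_lit 10513425223) (nat_lit 6) (nat_lit 5) (nat_lit 9) (nat_lit 5) (nat_lit 7) (nat_lit 4) (nat_lit 406) (nat_lit 307) (nat_lit 175)) (XT.lf (nat_lit 0) (nat_lit 23552155197) (nat_lit 252) (nat_lit 18063552690) (nat_lit 84) (nat_lit 14718328556) (nat_lit 6) (nat_lit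 5) (nat_lit 9) (nat_lit 5) (nat_lit 7) (nat_lit 4) (nat_lit 407) (nat_lit 307) (nat_lit 174))) (XT.nd (nat_lit 94) (nat_lit 0) (nat_lit 0) (XT.lf (nat_lit 0) (nat_lit 26231672026) (nat_lit 252) (nat_lit 12656217729) (nat_lit 84) (nat_lit 19051731406) (nat_lit 6) (nat_lit 5) (nat_lit 9) (nat_lit 5) (nat_lit 7) (nat_lit 4) (nat_lit 408) (nat_lit 307) (nat_lit 173)) (XT.lf (nat_lit 0) (nat_lit 28990316525) (nat_lit 252) (nat_lit 7087129199) (nat_lit 84) (nat_lit 23517672958) (nat_lit 6) (nat_lit 5) (nat_lit 9) (nat_lit 5) (nat_lit 7) (nat_lit 4) (nat_lit 409) (nat_lit 307) (nat_lit 172)))))) (XT.nd (nat_lit 564) (nat_lit 0) (nat_lit 0) (XT.nd (nat_lit 282) (nat_lit 0) (nat_lit 0) (XT.nd (nat_lit 94) (nat_lit 84) (nat_lit 0) (XT.lf (nat_lit 0) (nat_lit 31830660039) (nat_lit 252) (nat_lit 1351096127) (nat_lit 84) (nat_lit 28120315937) (nat_lit 6) (nat_lit 5) (nat_lit 9) (nat_lit 5) (nat_lit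 7) (nat_lit 4) (nat_lit 410) (nat_lit 307) (nat_lit 171)) (XT.nd (nat_lit 94) (nat_lit 0) (nat_lit 0) (XT.lf (nat_lit 0) (nat_lit 4650934026) (nat_lit 84) (nat_lit 30150553880) (nat_lit 168) (nat_lit 28259154304) (nat_lit 5) (nat_lit 5) (nat_lit 6) (nat_lit 5) (nat_lit 7) (nat_lit 4) (nat_lit 411) (nat_lit 307) (nat_lit 170)) (XT.lf (nat_lit 0) (nat_lit 10862199688) (nat_lit 84) (nat_lit 27012667399) (nat_lit 168) (nat_lit 26998552856) (nat_lit 5) (nat_lit 5) (nat_lit 6) (nat_lit 5) (nat_lit 7) (nat_lit 4) (nat_lit 412) (nat_lit 307) (nat_lit 169)))) (XT.nd (nat_lit 94) (nat_lit 0) (nat_lit 0) (XT.lf (nat_lit 0) (nat_lit 17260709101) (nat_lit 84) (nat_lit 23779274557) (nat_lit 168) (nat_lit 25702535380) (nat_lit 5) (nat_lit 5) (nat_lit 6) (nat_lit 5) (nat_lit 7) (nat_lit 4) (nat_lit 413) (nat_lit 307) (nat_lit 168)) (XT.nd (nat_lit 94) (nat_lit 0) (nat_lit 0) (XT.lf (nat_lit 0) (nat_lit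 23852426346) (nat_lit 84) (nat_lit 20447361492) (nat_lit 168) (nat_lit 24369893851) (nat_lit 5) (nat_lit 5) (nat_lit 6) (nat_lit 5) (nat_lit 7) (nat_lit 4) (nat_lit 414) (nat_lit 307) (nat_lit 167)) (XT.lf (nat_lit 0) (nat_lit 30643495595) (nat_lit 84) (nat_lit 17013822514) (nat_lit 168) (nat_lit 22999386109) (nat_lit 5) (nat_lit 5) (nat_lit 6) (nat_lit 5) (nat_lit 7) (nat_lit 4) (nat_lit 415) (nat_lit 307) (nat_lit 166))))) (XT.nd (nat_lit 282) (nat_lit 0) (nat_lit 0) (XT.nd (nat_lit 94) (nat_lit 0) (nat_lit 0) (XT.lf (nat_lit 0) (nat_lit 37640246834) (nat_lit 84) (nat_lit 13475457203) (nat_lit 168) (nat_lit 21589734696) (nat_lit 5) (nat_lit 5) (nat_lit 6) (nat_lit 5) (nat_lit 7) (nat_lit 4) (nat_lit 416) (nat_lit 307) (nat_lit 165)) (XT.nd (nat_lit 94) (nat_lit 0) (nat_lit 0) (XT.lf (nat_lit 0) (nat_lit 44849201770) (nat_lit 84) (nat_lit 9828967432) (nat_lit 168) (nat_lit 20139625670)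 (nat_lit 5) (nat_lit 5) (nat_lit 6) (nat_lit 5) (nat_lit 7) (nat_lit 4) (nat_lit 417) (nat_lit 307) (nat_lit 164)) (XT.lf (nat_lit 0) (nat_lit 52277079903) (nat_lit 84) (nat_lit 6070954292) (nat_lit 168) (nat_lit 18647707377) (nat_lit 5) (nat_lit 5) (nat_lit 6) (nat_lit 5) (nat_lit 7) (nat_lit 4) (nat_lit 418) (nat_lit 307) (nat_lit 163)))) (XT.nd (nat_lit 188) (nat_lit 0) (nat_lit 0) (XT.nd (nat_lit 94) (nat_lit 0) (nat_lit 0) (XT.lf (nat_lit 0) (nat_lit 59930804794) (nat_lit 84) (nat_lit 2197914920) (nat_lit 168) (nat_lit 17112589194) (nat_lit 5) (nat_lit 5) (nat_lit 6) (nat_lit 5) (nat_lit 7) (nat_lit 4) (nat_lit 419) (nat_lit 307) (nat_lit 162)) (XT.lf (nat_lit 0) (nat_lit 66041544083) (nat_lit 168) (nat_lit 13756873795) (nat_lit 0) (nat_lit 1757620479) (nat_lit 5) (nat_lit 5) (nat_lit 7) (nat_lit 4) (nat_lit 5) (nat_lit 4) (nat_lit 420) (nat_lit 307) (nat_lit 161))) (XT.nd (nat_lit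 94) (nat_lit 0) (nat_lit 0) (XT.lf (nat_lit 0) (nat_lit 70095360933) (nat_lit 168) (nat_lit 8057800618) (nat_lit 0) (nat_lit 5788764542) (nat_lit 5) (nat_lit 5) (nat_lit 7) (nat_lit 4) (nat_lit 5) (nat_lit 4) (nat_lit 421) (nat_lit 307) (nat_lit 160)) (XT.lf (nat_lit 0) (nat_lit 74272145258) (nat_lit 168) (nat_lit 2186168860) (nat_lit 0) (nat_lit 9943557803) (nat_lit 5) (nat_lit 5) (nat_lit 7) (nat_lit 4) (nat_lit 5) (nat_lit 4) (nat_lit 422) (nat_lit 307) (nat_lit 159))))))))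
noncomputable def xc114 : XT := (XT.nd (nat_lit 47000) (nat_lit 0) (nat_lit 2352) (XT.nd (nat_lit 45778) (nat_lit 0) (nat_lit 6972) (XT.nd (nat_lit 45214) (nat_lit 0) (nat_lit 9156) (XT.nd (nat_lit 44932) (nat_lit 0) (nat_lit 9828) (XT.nd (nat_lit 94) (nat_lit 0) (nat_lit 0) (XT.lf (nat_lit 0) (nat_lit 3942935823) (nat_lit 84) (nat_lit 74671968847) (nat_lit 84) (nat_lit 10322051552) (nat_lit 4) (nat_lit 4) (nat_lit 5) (nat_lit 5) (nat_lit 5) (nat_lit 4) (nat_lit 423) (nat_lit 307) (nat_lit 158)) (XT.nd (nat_lit 94) (nat_lit 0) (nat_lit 0) (XT.lf (nat_lit 0) (nat_lit 10304439740) (nat_lit 84) (nat_lit 72808088961) (nat_lit 84) (nat_lit 8437483170) (nat_lit 4) (nat_lit 4) (nat_lit 5) (nat_lit 5) (nat_lit 5) (nat_lit 4) (nat_lit 424) (nat_lit 307) (nat_lit 157)) (XT.lf (nat_lit 0) (nat_lit 16859320363) (nat_lit 84) (nat_lit 70887756249) (nat_lit 84) (nat_lit 6497084021) (nat_lit 4)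 (nat_lit 4) (nat_lit 5) (nat_lit 5) (nat_lit 5) (nat_lit 4) (nat_lit 425) (nat_lit 307) (nat_lit 156)))) (XT.nd (nat_lit 94) (nat_lit 0) (nat_lit 0) (XT.lf (nat_lit 0) (nat_lit 617958135) (nat_lit 0) (nat_lit 617958135) (nat_lit 588) (nat_lit 2342758808) (nat_lit 121) (nat_lit 5) (nat_lit 121) (nat_lit 3) (nat_lit 128) (nat_lit 3) (nat_lit 308) (nat_lit 308) (nat_lit 272)) (XT.nd (nat_lit 94) (nat_lit 0) (nat_lit 0) (XT.lf (nat_lit 0) (nat_lit 3744712644) (nat_lit 0) (nat_lit 31908662) (nat_lit 588) (nat_lit 3440941360) (nat_lit 121) (nat_lit 5) (nat_lit 121) (nat_lit 3) (nat_lit 128) (nat_lit 3) (nat_lit 309) (nat_lit 308) (nat_lit 271)) (XT.lf (nat_lit 0) (nat_lit 5083075968) (nat_lit 588) (nat_lit 988171517) (nat_lit 672) (nat_lit 1210058551) (nat_lit 121) (nat_lit 5) (nat_lit 128) (nat_lit 3) (nat_lit 129) (nat_lit 5) (nat_lit 310) (nat_lit 308) (nat_lit 270))))) (XT.nd (nat_lit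 282) (nat_lit 0) (nat_lit 0) (XT.nd (nat_lit 94) (nat_lit 672) (nat_lit 0) (XT.lf (nat_lit 84) (nat_lit 1578021762) (nat_lit 0) (nat_lit 4818736152) (nat_lit 672) (nat_lit 951747119) (nat_lit 122) (nat_lit 5) (nat_lit 121) (nat_lit 5) (nat_lit 129) (nat_lit 5) (nat_lit 311) (nat_lit 308) (nat_lit 269)) (XT.nd (nat_lit 94) (nat_lit 0) (nat_lit 0) (XT.lf (nat_lit 0) (nat_lit 288125481) (nat_lit 672) (nat_lit 3204296923) (nat_lit 756) (nat_lit 3926878424) (nat_lit 113) (nat_lit 5) (nat_lit 121) (nat_lit 5) (nat_lit 122) (nat_lit 5) (nat_lit 312) (nat_lit 308) (nat_lit 268)) (XT.lf (nat_lit 0) (nat_lit 1499181565) (nat_lit 672) (nat_lit 595579637) (nat_lit 756) (nat_lit 5399109196) (nat_lit 113) (nat_lit 5) (nat_lit 121) (nat_lit 5) (nat_lit 122) (nat_lit 5) (nat_lit 313) (nat_lit 308) (nat_lit 267)))) (XT.nd (nat_lit 94) (nat_lit 0) (nat_lit 84) (XT.lf (nat_lit 84) (nat_lit 2110054530)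 (nat_lit 0) (nat_lit 612603019) (nat_lit 756) (nat_lit 4849269494) (nat_lit 114) (nat_lit 5) (nat_lit 113) (nat_lit 5) (nat_lit 122) (nat_lit 5) (nat_lit 314) (nat_lit 308) (nat_lit 266)) (XT.nd (nat_lit 94) (nat_lit 0) (nat_lit 0) (XT.lf (nat_lit 0) (nat_lit 3954679257) (nat_lit 672) (nat_lit 2777328509) (nat_lit 756) (nat_lit 921691205) (nat_lit 114) (nat_lit 5) (nat_lit 122) (nat_lit 5) (nat_lit 123) (nat_lit 5) (nat_lit 315) (nat_lit 308) (nat_lit 265)) (XT.lf (nat_lit 0) (nat_lit 5187760350) (nat_lit 672) (nat_lit 43144005) (nat_lit 756) (nat_lit 2508625725) (nat_lit 114) (nat_lit 5) (nat_lit 122) (nat_lit 5) (nat_lit 123) (nat_lit 5) (nat_lit 316) (nat_lit 308) (nat_lit 264)))))) (XT.nd (nat_lit 564) (nat_lit 1512) (nat_lit 0) (XT.nd (nat_lit 282) (nat_lit 0) (nat_lit 84) (XT.nd (nat_lit 94) (nat_lit 756) (nat_lit 0) (XT.lf (nat_lit 84) (nat_lit 2805838026) (nat_lit 0) (nat_lit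 3638969324) (nat_lit 756) (nat_lit 1384018550) (nat_lit 115) (nat_lit 5) (nat_lit 114) (nat_lit 5) (nat_lit 123) (nat_lit 5) (nat_lit 317) (nat_lit 308) (nat_lit 263)) (XT.nd (nat_lit 94) (nat_lit 756) (nat_lit 0) (XT.lf (nat_lit 84) (nat_lit 5717827780) (nat_lit 0) (nat_lit 1982357012) (nat_lit 756) (nat_lit 222315895) (nat_lit 115) (nat_lit 5) (nat_lit 114) (nat_lit 5) (nat_lit 123) (nat_lit 5) (nat_lit 318) (nat_lit 308) (nat_lit 262)) (XT.lf (nat_lit 84) (nat_lit 678400257) (nat_lit 0) (nat_lit 243482856) (nat_lit 840) (nat_lit 7098276338) (nat_lit 106) (nat_lit 5) (nat_lit 105) (nat_lit 5) (nat_lit 115) (nat_lit 5) (nat_lit 319) (nat_lit 308) (nat_lit 261)))) (XT.nd (nat_lit 94) (nat_lit 0) (nat_lit 0) (XT.lf (nat_lit 0) (nat_lit 2096048308) (nat_lit 756) (nat_lit 4468437356) (nat_lit 840) (nat_lit 1556637249) (nat_lit 106) (nat_lit 5) (nat_lit 115) (nat_lit 5) (nat_lit 116)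 (nat_lit 5) (nat_lit 320) (nat_lit 308) (nat_lit 260)) (XT.nd (nat_lit 94) (nat_lit 0) (nat_lit 0) (XT.lf (nat_lit 0) (nat_lit 3270787851) (nat_lit 756) (nat_lit 1535703846) (nat_lit 840) (nat_lit 3420145781) (nat_lit 106) (nat_lit 5) (nat_lit 115) (nat_lit 5) (nat_lit 116) (nat_lit 5) (nat_lit 321) (nat_lit 308) (nat_lit 259)) (XT.lf (nat_lit 84) (nat_lit 1491643623) (nat_lit 0) (nat_lit 2967935007) (nat_lit 840) (nat_lit 3876839025) (nat_lit 107) (nat_lit 5) (nat_lit 106) (nat_lit 5) (nat_lit 116) (nat_lit 5) (nat_lit 322) (nat_lit 308) (nat_lit 258))))) (XT.nd (nat_lit 282) (nat_lit 924) (nat_lit 0) (XT.nd (nat_lit 94) (nat_lit 672) (nat_lit 0) (XT.lf (nat_lit 84) (nat_lit 4619307717) (nat_lit 0) (nat_lit 1045639451) (nat_lit 840) (nat_lit 2785574633) (nat_lit 107) (nat_lit 5) (nat_lit 106) (nat_lit 5) (nat_lit 116) (nat_lit 5) (nat_lit 323) (nat_lit 308) (nat_lit 257)) (XT.nd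 (nat_lit 94) (nat_lit 756) (nat_lit 0) (XT.lf (nat_lit 0) (nat_lit 6881855368) (nat_lit 756) (nat_lit 760297719) (nat_lit 84) (nat_lit 927094195) (nat_lit 107) (nat_lit 5) (nat_lit 116) (nat_lit 5) (nat_lit 108) (nat_lit 5) (nat_lit 324) (nat_lit 308) (nat_lit 256)) (XT.lf (nat_lit 0) (nat_lit 2417866088) (nat_lit 756) (nat_lit 5719242963) (nat_lit 840) (nat_lit 554799894) (nat_lit 98) (nat_lit 5) (nat_lit 107) (nat_lit 5) (nat_lit 108) (nat_lit 5) (nat_lit 325) (nat_lit 308) (nat_lit 255)))) (XT.nd (nat_lit 188) (nat_lit 0) (nat_lit 0) (XT.nd (nat_lit 94) (nat_lit 840) (nat_lit 0) (XT.lf (nat_lit 0) (nat_lit 574679594) (nat_lit 840) (nat_lit 3140281212) (nat_lit 84) (nat_lit 5104284601) (nat_lit 97) (nat_lit 5) (nat_lit 107) (nat_lit 5) (nat_lit 98) (nat_lit 5) (nat_lit 326) (nat_lit 308) (nat_lit 254)) (XT.lf (nat_lit 0) (nat_lit 60305738) (nat_lit 840) (nat_lit 1635068615) (nat_lit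 924) (nat_lit 7256230432) (nat_lit 87) (nat_lit 5) (nat_lit 97) (nat_lit 5) (nat_lit 98) (nat_lit 5) (nat_lit 327) (nat_lit 308) (nat_lit 253))) (XT.nd (nat_lit 94) (nat_lit 0) (nat_lit 0) (XT.lf (nat_lit 0) (nat_lit 2856903272) (nat_lit 924) (nat_lit 5692660230) (nat_lit 84) (nat_lit 538558276) (nat_lit 87) (nat_lit 5) (nat_lit 98) (nat_lit 5) (nat_lit 88) (nat_lit 5) (nat_lit 328) (nat_lit 308) (nat_lit 252)) (XT.lf (nat_lit 0) (nat_lit 4040053825) (nat_lit 924) (nat_lit 2437682227) (nat_lit 84) (nat_lit 2751816733) (nat_lit 87) (nat_lit 5) (nat_lit 98) (nat_lit 5) (nat_lit 88) (nat_lit 5) (nat_lit 329) (nat_lit 308) (nat_lit 251))))))) (XT.nd (nat_lit 1222) (nat_lit 1596) (nat_lit 0) (XT.nd (nat_lit 564) (nat_lit 1344) (nat_lit 0) (XT.nd (nat_lit 282) (nat_lit 756) (nat_lit 0) (XT.nd (nat_lit 94) (nat_lit 0) (nat_lit 0) (XT.lf (nat_lit 0) (nat_lit 911248653) (nat_lit 924) (nat_lit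 4327499795) (nat_lit 1008) (nat_lit 4137503780) (nat_lit 76) (nat_lit 5) (nat_lit 87) (nat_lit 5) (nat_lit 88) (nat_lit 5) (nat_lit 330) (nat_lit 308) (nat_lit 250)) (XT.nd (nat_lit 94) (nat_lit 0) (nat_lit 0) (XT.lf (nat_lit 0) (nat_lit 4390619156) (nat_lit 924) (nat_lit 2079913257) (nat_lit 1008) (nat_lit 3057315166) (nat_lit 76) (nat_lit 5) (nat_lit 87) (nat_lit 5) (nat_lit 88) (nat_lit 5) (nat_lit 331) (nat_lit 308) (nat_lit 249)) (XT.lf (nat_lit 0) (nat_lit 7714271965) (nat_lit 1008) (nat_lit 1734093965) (nat_lit 84) (nat_lit 236804949) (nat_lit 76) (nat_lit 5) (nat_lit 88) (nat_lit 5) (nat_lit 77) (nat_lit 5) (nat_lit 332) (nat_lit 308) (nat_lit 248)))) (XT.nd (nat_lit 94) (nat_lit 84) (nat_lit 0) (XT.lf (nat_lit 0) (nat_lit 1764126198) (nat_lit 672) (nat_lit 7243489440) (nat_lit 756) (nat_lit 839621967) (nat_lit 68) (nat_lit 5) (nat_lit 76) (nat_lit 5) (nat_lit 77) (nat_lit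 5) (nat_lit 333) (nat_lit 308) (nat_lit 247)) (XT.nd (nat_lit 94) (nat_lit 0) (nat_lit 0) (XT.lf (nat_lit 0) (nat_lit 310817738) (nat_lit 756) (nat_lit 4634836895) (nat_lit 84) (nat_lit 5069058859) (nat_lit 67) (nat_lit 5) (nat_lit 76) (nat_lit 5) (nat_lit 68) (nat_lit 5) (nat_lit 334) (nat_lit 308) (nat_lit 246)) (XT.lf (nat_lit 0) (nat_lit 1452700749) (nat_lit 756) (nat_lit 1112692030) (nat_lit 84) (nat_lit 7622742921) (nat_lit 67) (nat_lit 5) (nat_lit 76) (nat_lit 5) (nat_lit 68) (nat_lit 5) (nat_lit 335) (nat_lit 308) (nat_lit 245))))) (XT.nd (nat_lit 282) (nat_lit 840) (nat_lit 0) (XT.nd (nat_lit 94) (nat_lit 0) (nat_lit 0) (XT.lf (nat_lit 0) (nat_lit 2546236336) (nat_lit 504) (nat_lit 83030575) (nat_lit 588) (nat_lit 7737874141) (nat_lit 61) (nat_lit 5) (nat_lit 67) (nat_lit 5) (nat_lit 68) (nat_lit 5) (nat_lit 336) (nat_lit 308) (nat_lit 244)) (XT.nd (nat_lit 94) (nat_lit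 0) (nat_lit 0) (XT.lf (nat_lit 0) (nat_lit 3853198169) (nat_lit 588) (nat_lit 4258290386) (nat_lit 84) (nat_lit 2440048699) (nat_lit 61) (nat_lit 5) (nat_lit 68) (nat_lit 5) (nat_lit 62) (nat_lit 5) (nat_lit 337) (nat_lit 308) (nat_lit 243)) (XT.lf (nat_lit 0) (nat_lit 5091277908) (nat_lit 588) (nat_lit 609800018) (nat_lit 84) (nat_lit 5041483340) (nat_lit 61) (nat_lit 5) (nat_lit 68) (nat_lit 5) (nat_lit 62) (nat_lit 5) (nat_lit 338) (nat_lit 308) (nat_lit 242)))) (XT.nd (nat_lit 188) (nat_lit 420) (nat_lit 0) (XT.nd (nat_lit 94) (nat_lit 0) (nat_lit 0) (XT.lf (nat_lit 0) (nat_lit 3193125194) (nat_lit 420) (nat_lit 3182387479) (nat_lit 504) (nat_lit 4563922042) (nat_lit 56) (nat_lit 5) (nat_lit 61) (nat_lit 5) (nat_lit 62) (nat_lit 5) (nat_lit 339) (nat_lit 308) (nat_lit 241)) (XT.lf (nat_lit 0) (nat_lit 7104098696) (nat_lit 420) (nat_lit 578416229) (nat_lit 504) (nat_lit 3460588302)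 (nat_lit 56) (nat_lit 5) (nat_lit 61) (nat_lit 5) (nat_lit 62) (nat_lit 5) (nat_lit 340) (nat_lit 308) (nat_lit 240))) (XT.nd (nat_lit 94) (nat_lit 420) (nat_lit 0) (XT.lf (nat_lit 0) (nat_lit 9028229939) (nat_lit 504) (nat_lit 260621531) (nat_lit 84) (nat_lit 2064448636) (nat_lit 56) (nat_lit 5) (nat_lit 62) (nat_lit 5) (nat_lit 57) (nat_lit 5) (nat_lit 341) (nat_lit 308) (nat_lit 239)) (XT.lf (nat_lit 0) (nat_lit 3680873166) (nat_lit 420) (nat_lit 6755203165) (nat_lit 504) (nat_lit 1133457854) (nat_lit 51) (nat_lit 5) (nat_lit 56) (nat_lit 5) (nat_lit 57) (nat_lit 5) (nat_lit 342) (nat_lit 308) (nat_lit 238)))))) (XT.nd (nat_lit 564) (nat_lit 756) (nat_lit 0) (XT.nd (nat_lit 282) (nat_lit 420) (nat_lit 0) (XT.nd (nat_lit 94) (nat_lit 336) (nat_lit 0) (XT.lf (nat_lit 0) (nat_lit 73986755) (nat_lit 504) (nat_lit 4065913401) (nat_lit 84) (nat_lit 7653281886) (nat_lit 50) (nat_lit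 5) (nat_lit 56) (nat_lit 5) (nat_lit 51) (nat_lit 5) (nat_lit 343) (nat_lit 308) (nat_lit 237)) (XT.nd (nat_lit 94) (nat_lit 336) (nat_lit 0) (XT.lf (nat_lit 0) (nat_lit 1274037327) (nat_lit 504) (nat_lit 158206926) (nat_lit 84) (nat_lit 10591959510) (nat_lit 50) (nat_lit 5) (nat_lit 56) (nat_lit 5) (nat_lit 51) (nat_lit 5) (nat_lit 344) (nat_lit 308) (nat_lit 236)) (XT.lf (nat_lit 0) (nat_lit 2543497258) (nat_lit 420) (nat_lit 8347336897) (nat_lit 84) (nat_lit 1370690802) (nat_lit 46) (nat_lit 5) (nat_lit 51) (nat_lit 5) (nat_lit 47) (nat_lit 5) (nat_lit 345) (nat_lit 308) (nat_lit 235)))) (XT.nd (nat_lit 94) (nat_lit 420) (nat_lit 0) (XT.lf (nat_lit 0) (nat_lit 3848389893) (nat_lit 420) (nat_lit 4426464948) (nat_lit 84) (nat_lit 4231601952) (nat_lit 46) (nat_lit 5) (nat_lit 51) (nat_lit 5) (nat_lit 47) (nat_lit 5) (nat_lit 346) (nat_lit 308) (nat_lit 234)) (XT.nd (nat_lit 94) (nat_lit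 420) (nat_lit 0) (XT.lf (nat_lit 0) (nat_lit 5174105402) (nat_lit 420) (nat_lit 405218470) (nat_lit 84) (nat_lit 7180394307) (nat_lit 46) (nat_lit 5) (nat_lit 51) (nat_lit 5) (nat_lit 47) (nat_lit 5) (nat_lit 347) (nat_lit 308) (nat_lit 233)) (XT.lf (nat_lit 0) (nat_lit 3796644690) (nat_lit 420) (nat_lit 2762897986) (nat_lit 504) (nat_lit 6460834948) (nat_lit 41) (nat_lit 5) (nat_lit 46) (nat_lit 5) (nat_lit 47) (nat_lit 5) (nat_lit 348) (nat_lit 308) (nat_lit 232))))) (XT.nd (nat_lit 282) (nat_lit 420) (nat_lit 0) (XT.nd (nat_lit 94) (nat_lit 336) (nat_lit 0) (XT.lf (nat_lit 0) (nat_lit 7974914262) (nat_lit 504) (nat_lit 5174081541) (nat_lit 84) (nat_lit 140645730) (nat_lit 41) (nat_lit 5) (nat_lit 47) (nat_lit 5) (nat_lit 42) (nat_lit 5) (nat_lit 349) (nat_lit 308) (nat_lit 231)) (XT.nd (nat_lit 94) (nat_lit 336) (nat_lit 0) (XT.lf (nat_lit 0) (nat_lit 9444297836) (nat_lit 504)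 (nat_lit 1047527946) (nat_lit 84) (nat_lit 3075229597) (nat_lit 41) (nat_lit 5) (nat_lit 47) (nat_lit 5) (nat_lit 42) (nat_lit 5) (nat_lit 350) (nat_lit 308) (nat_lit 230)) (XT.lf (nat_lit 0) (nat_lit 3252717531) (nat_lit 336) (nat_lit 7721204556) (nat_lit 420) (nat_lit 2878805021) (nat_lit 37) (nat_lit 5) (nat_lit 41) (nat_lit 5) (nat_lit 42) (nat_lit 5) (nat_lit 351) (nat_lit 308) (nat_lit 229)))) (XT.nd (nat_lit 188) (nat_lit 420) (nat_lit 0) (XT.nd (nat_lit 94) (nat_lit 0) (nat_lit 0) (XT.lf (nat_lit 0) (nat_lit 7688911488) (nat_lit 336) (nat_lit 4855744095) (nat_lit 420) (nat_lit 1602904688) (nat_lit 37) (nat_lit 5) (nat_lit 41) (nat_lit 5) (nat_lit 42) (nat_lit 5) (nat_lit 352) (nat_lit 308) (nat_lit 228)) (XT.lf (nat_lit 0) (nat_lit 12243649598) (nat_lit 336) (nat_lit 1903707532) (nat_lit 420) (nat_lit 304801315) (nat_lit 37) (nat_lit 5) (nat_lit 41) (nat_lit 5) (nat_lit 42)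 (nat_lit 5) (nat_lit 353) (nat_lit 308) (nat_lit 227))) (XT.nd (nat_lit 94) (nat_lit 0) (nat_lit 0) (XT.lf (nat_lit 0) (nat_lit 1029550374) (nat_lit 420) (nat_lit 12589054010) (nat_lit 84) (nat_lit 1146855586) (nat_lit 32) (nat_lit 5) (nat_lit 37) (nat_lit 5) (nat_lit 33) (nat_lit 5) (nat_lit 354) (nat_lit 308) (nat_lit 226)) (XT.lf (nat_lit 0) (nat_lit 2425491052) (nat_lit 420) (nat_lit 8385740698) (nat_lit 84) (nat_lit 4276419609) (nat_lit 32) (nat_lit 5) (nat_lit 37) (nat_lit 5) (nat_lit 33) (nat_lit 5) (nat_lit 355) (nat_lit 308) (nat_lit 225))))))))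
noncomputable def xc115 : XT := (XT.nd (nat_lit 2444) (nat_lit 672) (nat_lit 0) (XT.nd (nat_lit 1222) (nat_lit 672) (nat_lit 0) (XT.nd (nat_lit 564) (nat_lit 336) (nat_lit 0) (XT.nd (nat_lit 282) (nat_lit 252) (nat_lit 0) (XT.nd (nat_lit 94) (nat_lit 252) (nat_lit 0) (XT.lf (nat_lit 0) (nat_lit 3848990084) (nat_lit 420) (nat_lit 4070776673) (nat_lit 84) (nat_lit 7500645567) (nat_lit 32) (nat_lit 5) (nat_lit 37) (nat_lit 5) (nat_lit 33) (nat_lit 5) (nat_lit 356) (nat_lit 308) (nat_lit 224)) (XT.nd (nat_lit 94) (nat_lit 0) (nat_lit 0) (XT.lf (nat_lit 0) (nat_lit 367259526) (nat_lit 252) (nat_lit 4937758054) (nat_lit 336) (nat_lit 10458922509) (nat_lit 29) (nat_lit 5) (nat_lit 32) (nat_lit 5) (nat_lit 33) (nat_lit 5) (nat_lit 357) (nat_lit 308) (nat_lit 223)) (XT.lf (nat_lit 0) (nat_lit 5011265158) (nat_lit 252) (nat_lit 1822444748) (nat_lit 336) (nat_lit 9283642799) (nat_lit 29) (nat_lit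 5) (nat_lit 32) (nat_lit 5) (nat_lit 33) (nat_lit 5) (nat_lit 358) (nat_lit 308) (nat_lit 222)))) (XT.nd (nat_lit 94) (nat_lit 252) (nat_lit 0) (XT.lf (nat_lit 0) (nat_lit 8409034113) (nat_lit 336) (nat_lit 6714146893) (nat_lit 84) (nat_lit 1358649774) (nat_lit 29) (nat_lit 5) (nat_lit 33) (nat_lit 5) (nat_lit 30) (nat_lit 5) (nat_lit 359) (nat_lit 308) (nat_lit 221)) (XT.nd (nat_lit 94) (nat_lit 252) (nat_lit 0) (XT.lf (nat_lit 0) (nat_lit 10037728882) (nat_lit 336) (nat_lit 2222035165) (nat_lit 84) (nat_lit 4597786622) (nat_lit 29) (nat_lit 5) (nat_lit 33) (nat_lit 5) (nat_lit 30) (nat_lit 5) (nat_lit 360) (nat_lit 308) (nat_lit 220)) (XT.lf (nat_lit 0) (nat_lit 2441708618) (nat_lit 252) (nat_lit 9285746882) (nat_lit 336) (nat_lit 5517216643) (nat_lit 26) (nat_lit 5) (nat_lit 29) (nat_lit 5) (nat_lit 30) (nat_lit 5) (nat_lit 361) (nat_lit 308) (nat_lit 219))))) (XT.nd (nat_lit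 282) (nat_lit 336) (nat_lit 0) (XT.nd (nat_lit 94) (nat_lit 0) (nat_lit 0) (XT.lf (nat_lit 0) (nat_lit 7280486315) (nat_lit 252) (nat_lit 6198837249) (nat_lit 336) (nat_lit 4164246903) (nat_lit 26) (nat_lit 5) (nat_lit 29) (nat_lit 5) (nat_lit 30) (nat_lit 5) (nat_lit 362) (nat_lit 308) (nat_lit 218)) (XT.nd (nat_lit 94) (nat_lit 0) (nat_lit 0) (XT.lf (nat_lit 0) (nat_lit 12253118572) (nat_lit 252) (nat_lit 3019351315) (nat_lit 336) (nat_lit 2782844948) (nat_lit 26) (nat_lit 5) (nat_lit 29) (nat_lit 5) (nat_lit 30) (nat_lit 5) (nat_lit 363) (nat_lit 308) (nat_lit 217)) (XT.lf (nat_lit 0) (nat_lit 17111102192) (nat_lit 336) (nat_lit 1118584958) (nat_lit 84) (nat_lit 250523261) (nat_lit 26) (nat_lit 5) (nat_lit 30) (nat_lit 5) (nat_lit 27) (nat_lit 5) (nat_lit 364) (nat_lit 308) (nat_lit 216)))) (XT.nd (nat_lit 188) (nat_lit 0) (nat_lit 0) (XT.nd (nat_lit 94) (nat_lit 0) (nat_lit 0)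 (XT.lf (nat_lit 0) (nat_lit 142857203) (nat_lit 336) (nat_lit 15179012199) (nat_lit 84) (nat_lit 3594709011) (nat_lit 22) (nat_lit 5) (nat_lit 26) (nat_lit 5) (nat_lit 23) (nat_lit 5) (nat_lit 365) (nat_lit 308) (nat_lit 215)) (XT.lf (nat_lit 0) (nat_lit 1672786590) (nat_lit 336) (nat_lit 10628037894) (nat_lit 84) (nat_lit 7065297252) (nat_lit 22) (nat_lit 5) (nat_lit 26) (nat_lit 5) (nat_lit 23) (nat_lit 5) (nat_lit 366) (nat_lit 308) (nat_lit 214))) (XT.nd (nat_lit 94) (nat_lit 0) (nat_lit 0) (XT.lf (nat_lit 0) (nat_lit 3238249981) (nat_lit 336) (nat_lit 5951284388) (nat_lit 84) (nat_lit 10640500720) (nat_lit 22) (nat_lit 5) (nat_lit 26) (nat_lit 5) (nat_lit 23) (nat_lit 5) (nat_lit 367) (nat_lit 308) (nat_lit 213)) (XT.lf (nat_lit 0) (nat_lit 4840706552) (nat_lit 336) (nat_lit 1144392458) (nat_lit 84) (nat_lit 14323651878) (nat_lit 22) (nat_lit 5) (nat_lit 26) (nat_lit 5) (nat_lit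 23) (nat_lit 5) (nat_lit 368) (nat_lit 308) (nat_lit 212)))))) (XT.nd (nat_lit 564) (nat_lit 252) (nat_lit 0) (XT.nd (nat_lit 282) (nat_lit 168) (nat_lit 0) (XT.nd (nat_lit 94) (nat_lit 0) (nat_lit 0) (XT.lf (nat_lit 0) (nat_lit 3875194966) (nat_lit 252) (nat_lit 2644897408) (nat_lit 336) (nat_lit 14281431258) (nat_lit 19) (nat_lit 5) (nat_lit 22) (nat_lit 5) (nat_lit 23) (nat_lit 5) (nat_lit 369) (nat_lit 308) (nat_lit 211)) (XT.nd (nat_lit 94) (nat_lit 0) (nat_lit 0) (XT.lf (nat_lit 0) (nat_lit 8260504617) (nat_lit 336) (nat_lit 12257216025) (nat_lit 84) (nat_lit 791633507) (nat_lit 19) (nat_lit 5) (nat_lit 23) (nat_lit 5) (nat_lit 20) (nat_lit 5) (nat_lit 370) (nat_lit 308) (nat_lit 210)) (XT.lf (nat_lit 0) (nat_lit 10071225746) (nat_lit 336) (nat_lit 7484589707) (nat_lit 84) (nat_lit 4276662872) (nat_lit 19) (nat_lit 5) (nat_lit 23) (nat_lit 5) (nat_lit 20) (nat_lit 5) (nat_lit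 371) (nat_lit 308) (nat_lit 209)))) (XT.nd (nat_lit 94) (nat_lit 168) (nat_lit 0) (XT.lf (nat_lit 0) (nat_lit 11927705834) (nat_lit 336) (nat_lit 2577763416) (nat_lit 84) (nat_lit 7866727886) (nat_lit 19) (nat_lit 5) (nat_lit 23) (nat_lit 5) (nat_lit 20) (nat_lit 5) (nat_lit 372) (nat_lit 308) (nat_lit 208)) (XT.nd (nat_lit 94) (nat_lit 0) (nat_lit 0) (XT.lf (nat_lit 0) (nat_lit 2518580305) (nat_lit 168) (nat_lit 11338079637) (nat_lit 252) (nat_lit 9071579189) (nat_lit 17) (nat_lit 5) (nat_lit 19) (nat_lit 5) (nat_lit 20) (nat_lit 5) (nat_lit 373) (nat_lit 308) (nat_lit 207)) (XT.lf (nat_lit 0) (nat_lit 7814354981) (nat_lit 168) (nat_lit 8048073272) (nat_lit 252) (nat_lit 7638615540) (nat_lit 17) (nat_lit 5) (nat_lit 19) (nat_lit 5) (nat_lit 20) (nat_lit 5) (nat_lit 374) (nat_lit 308) (nat_lit 206))))) (XT.nd (nat_lit 282) (nat_lit 252) (nat_lit 0) (XT.nd (nat_lit 94) (nat_lit 0)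 (nat_lit 0) (XT.lf (nat_lit 0) (nat_lit 13261492726) (nat_lit 168) (nat_lit 4659290089) (nat_lit 252) (nat_lit 6171171244) (nat_lit 17) (nat_lit 5) (nat_lit 19) (nat_lit 5) (nat_lit 20) (nat_lit 5) (nat_lit 375) (nat_lit 308) (nat_lit 205)) (XT.nd (nat_lit 94) (nat_lit 0) (nat_lit 0) (XT.lf (nat_lit 0) (nat_lit 18865070843) (nat_lit 168) (nat_lit 1168571386) (nat_lit 252) (nat_lit 4667878491) (nat_lit 17) (nat_lit 5) (nat_lit 19) (nat_lit 5) (nat_lit 20) (nat_lit 5) (nat_lit 376) (nat_lit 308) (nat_lit 204)) (XT.lf (nat_lit 0) (nat_lit 22227055381) (nat_lit 252) (nat_lit 724078980) (nat_lit 84) (nat_lit 2378431129) (nat_lit 17) (nat_lit 5) (nat_lit 20) (nat_lit 5) (nat_lit 18) (nat_lit 5) (nat_lit 377) (nat_lit 308) (nat_lit 203)))) (XT.nd (nat_lit 188) (nat_lit 0) (nat_lit 0) (XT.nd (nat_lit 94) (nat_lit 84) (nat_lit 0) (XT.lf (nat_lit 0) (nat_lit 4615848492) (nat_lit 168) (nat_lit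 19921575246) (nat_lit 252) (nat_lit 1438184971) (nat_lit 15) (nat_lit 5) (nat_lit 17) (nat_lit 5) (nat_lit 18) (nat_lit 5) (nat_lit 378) (nat_lit 308) (nat_lit 202)) (XT.lf (nat_lit 0) (nat_lit 271005267) (nat_lit 252) (nat_lit 16519690964) (nat_lit 84) (nat_lit 9850976787) (nat_lit 14) (nat_lit 5) (nat_lit 17) (nat_lit 5) (nat_lit 15) (nat_lit 5) (nat_lit 379) (nat_lit 308) (nat_lit 201))) (XT.nd (nat_lit 94) (nat_lit 0) (nat_lit 0) (XT.lf (nat_lit 0) (nat_lit 1994801116) (nat_lit 252) (nat_lit 11556003015) (nat_lit 84) (nat_lit 13777431557) (nat_lit 14) (nat_lit 5) (nat_lit 17) (nat_lit 5) (nat_lit 15) (nat_lit 5) (nat_lit 380) (nat_lit 308) (nat_lit 200)) (XT.lf (nat_lit 0) (nat_lit 3763785555) (nat_lit 252) (nat_lit 6449802721) (nat_lit 84) (nat_lit 17822790666) (nat_lit 14) (nat_lit 5) (nat_lit 17) (nat_lit 5) (nat_lit 15) (nat_lit 5) (nat_lit 381) (nat_lit 308) (nat_lit 199)))))))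 (XT.nd (nat_lit 1222) (nat_lit 336) (nat_lit 0) (XT.nd (nat_lit 564) (nat_lit 168) (nat_lit 0) (XT.nd (nat_lit 282) (nat_lit 0) (nat_lit 0) (XT.nd (nat_lit 94) (nat_lit 168) (nat_lit 0) (XT.lf (nat_lit 0) (nat_lit 5579607464) (nat_lit 252) (nat_lit 1196330568) (nat_lit 84) (nat_lit 21990824815) (nat_lit 14) (nat_lit 5) (nat_lit 17) (nat_lit 5) (nat_lit 15) (nat_lit 5) (nat_lit 382) (nat_lit 308) (nat_lit 198)) (XT.nd (nat_lit 94) (nat_lit 0) (nat_lit 0) (XT.lf (nat_lit 0) (nat_lit 4295862279) (nat_lit 168) (nat_lit 3190712583) (nat_lit 252) (nat_lit 22032172252) (nat_lit 12) (nat_lit 5) (nat_lit 14) (nat_lit 5) (nat_lit 15) (nat_lit 5) (nat_lit 383) (nat_lit 308) (nat_lit 197)) (XT.lf (nat_lit 0) (nat_lit 9462628016) (nat_lit 252) (nat_lit 20325950894) (nat_lit 84) (nat_lit 505192718) (nat_lit 12) (nat_lit 5) (nat_lit 15) (nat_lit 5) (nat_lit 13) (nat_lit 5) (nat_lit 384) (nat_lit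 308) (nat_lit 196)))) (XT.nd (nat_lit 94) (nat_lit 0) (nat_lit 0) (XT.lf (nat_lit 0) (nat_lit 11525141314) (nat_lit 252) (nat_lit 15320345887) (nat_lit 84) (nat_lit 4246590081) (nat_lit 12) (nat_lit 5) (nat_lit 15) (nat_lit 5) (nat_lit 13) (nat_lit 5) (nat_lit 385) (nat_lit 308) (nat_lit 195)) (XT.nd (nat_lit 94) (nat_lit 0) (nat_lit 0) (XT.lf (nat_lit 0) (nat_lit 13644384973) (nat_lit 252) (nat_lit 10169751802) (nat_lit 84) (nat_lit 8101252629) (nat_lit 12) (nat_lit 5) (nat_lit 15) (nat_lit 5) (nat_lit 13) (nat_lit 5) (nat_lit 386) (nat_lit 308) (nat_lit 194)) (XT.lf (nat_lit 0) (nat_lit 15822334349) (nat_lit 252) (nat_lit 4869367747) (nat_lit 84) (nat_lit 12072773310) (nat_lit 12) (nat_lit 5) (nat_lit 15) (nat_lit 5) (nat_lit 13) (nat_lit 5) (nat_lit 387) (nat_lit 308) (nat_lit 193))))) (XT.nd (nat_lit 282) (nat_lit 0) (nat_lit 0) (XT.nd (nat_lit 94) (nat_lit 0) (nat_lit 0) (XT.lf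 (nat_lit 0) (nat_lit 597790947) (nat_lit 168) (nat_lit 17469158733) (nat_lit 252) (nat_lit 15572993211) (nat_lit 10) (nat_lit 5) (nat_lit 12) (nat_lit 5) (nat_lit 13) (nat_lit 5) (nat_lit 388) (nat_lit 308) (nat_lit 192)) (XT.nd (nat_lit 94) (nat_lit 0) (nat_lit 0) (XT.lf (nat_lit 0) (nat_lit 6328175180) (nat_lit 168) (nat_lit 14097128275) (nat_lit 252) (nat_lit 14115910041) (nat_lit 10) (nat_lit 5) (nat_lit 12) (nat_lit 5) (nat_lit 13) (nat_lit 5) (nat_lit 389) (nat_lit 308) (nat_lit 191)) (XT.lf (nat_lit 0) (nat_lit 12227002082) (nat_lit 168) (nat_lit 10623293849) (nat_lit 252) (nat_lit 12620359607) (nat_lit 10) (nat_lit 5) (nat_lit 12) (nat_lit 5) (nat_lit 13) (nat_lit 5) (nat_lit 390) (nat_lit 308) (nat_lit 190)))) (XT.nd (nat_lit 188) (nat_lit 0) (nat_lit 0) (XT.nd (nat_lit 94) (nat_lit 0) (nat_lit 0) (XT.lf (nat_lit 0) (nat_lit 18299769978) (nat_lit 168) (nat_lit 7044417478)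 (nat_lit 252) (nat_lit 11084947897) (nat_lit 10) (nat_lit 5) (nat_lit 12) (nat_lit 5) (nat_lit 13) (nat_lit 5) (nat_lit 391) (nat_lit 308) (nat_lit 189)) (XT.lf (nat_lit 0) (nat_lit 24552139324) (nat_lit 168) (nat_lit 3357163274) (nat_lit 252) (nat_lit 9508243749) (nat_lit 10) (nat_lit 5) (nat_lit 12) (nat_lit 5) (nat_lit 13) (nat_lit 5) (nat_lit 392) (nat_lit 308) (nat_lit 188))) (XT.nd (nat_lit 94) (nat_lit 0) (nat_lit 0) (XT.lf (nat_lit 0) (nat_lit 30552416072) (nat_lit 252) (nat_lit 7451255598) (nat_lit 84) (nat_lit 433002254) (nat_lit 10) (nat_lit 5) (nat_lit 13) (nat_lit 5) (nat_lit 11) (nat_lit 4) (nat_lit 393) (nat_lit 308) (nat_lit 187)) (XT.lf (nat_lit 0) (nat_lit 33306051511) (nat_lit 252) (nat_lit 1911924517) (nat_lit 84) (nat_lit 4268560131) (nat_lit 10) (nat_lit 5) (nat_lit 13) (nat_lit 5) (nat_lit 11) (nat_lit 4) (nat_lit 394) (nat_lit 308) (nat_lit 186)))))) (XT.nd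 (nat_lit 564) (nat_lit 168) (nat_lit 0) (XT.nd (nat_lit 282) (nat_lit 84) (nat_lit 0) (XT.nd (nat_lit 94) (nat_lit 0) (nat_lit 0) (XT.lf (nat_lit 0) (nat_lit 3869004753) (nat_lit 84) (nat_lit 32308848369) (nat_lit 168) (nat_lit 4390101109) (nat_lit 9) (nat_lit 5) (nat_lit 10) (nat_lit 5) (nat_lit 11) (nat_lit 4) (nat_lit 395) (nat_lit 308) (nat_lit 185)) (XT.nd (nat_lit 94) (nat_lit 0) (nat_lit 0) (XT.lf (nat_lit 0) (nat_lit 9861683462) (nat_lit 84) (nat_lit 29291464593) (nat_lit 168) (nat_lit 2529325921) (nat_lit 9) (nat_lit 5) (nat_lit 10) (nat_lit 5) (nat_lit 11) (nat_lit 4) (nat_lit 396) (nat_lit 308) (nat_lit 184)) (XT.lf (nat_lit 0) (nat_lit 16032384322) (nat_lit 84) (nat_lit 26182968752) (nat_lit 168) (nat_lit 616381217) (nat_lit 9) (nat_lit 5) (nat_lit 10) (nat_lit 5) (nat_lit 11) (nat_lit 4) (nat_lit 397) (nat_lit 308) (nat_lit 183)))) (XT.nd (nat_lit 94) (nat_lit 0) (nat_lit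 0) (XT.lf (nat_lit 0) (nat_lit 1323306178) (nat_lit 168) (nat_lit 21643344623) (nat_lit 84) (nat_lit 21049740293) (nat_lit 8) (nat_lit 5) (nat_lit 10) (nat_lit 5) (nat_lit 9) (nat_lit 5) (nat_lit 398) (nat_lit 308) (nat_lit 182)) (XT.nd (nat_lit 94) (nat_lit 0) (nat_lit 0) (XT.lf (nat_lit 0) (nat_lit 3305236837) (nat_lit 168) (nat_lit 16341226745) (nat_lit 84) (nat_lit 25591294022) (nat_lit 8) (nat_lit 5) (nat_lit 10) (nat_lit 5) (nat_lit 9) (nat_lit 5) (nat_lit 399) (nat_lit 308) (nat_lit 181)) (XT.lf (nat_lit 0) (nat_lit 5343676837) (nat_lit 168) (nat_lit 10881939628) (nat_lit 84) (nat_lit 30271545351) (nat_lit 8) (nat_lit 5) (nat_lit 10) (nat_lit 5) (nat_lit 9) (nat_lit 5) (nat_lit 400) (nat_lit 308) (nat_lit 180))))) (XT.nd (nat_lit 282) (nat_lit 0) (nat_lit 0) (XT.nd (nat_lit 94) (nat_lit 168) (nat_lit 0) (XT.lf (nat_lit 0) (nat_lit 7440526215) (nat_lit 168) (nat_lit 5260394644)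 (nat_lit 84) (nat_lit 35094856764) (nat_lit 8) (nat_lit 5) (nat_lit 10) (nat_lit 5) (nat_lit 9) (nat_lit 5) (nat_lit 401) (nat_lit 308) (nat_lit 179)) (XT.nd (nat_lit 94) (nat_lit 0) (nat_lit 0) (XT.lf (nat_lit 0) (nat_lit 539518162) (nat_lit 168) (nat_lit 9063573380) (nat_lit 252) (nat_lit 39531558019) (nat_lit 6) (nat_lit 5) (nat_lit 8) (nat_lit 5) (nat_lit 9) (nat_lit 5) (nat_lit 402) (nat_lit 308) (nat_lit 178)) (XT.lf (nat_lit 0) (nat_lit 6624044250) (nat_lit 168) (nat_lit 5258994395) (nat_lit 252) (nat_lit 38630447798) (nat_lit 6) (nat_lit 5) (nat_lit 8) (nat_lit 5) (nat_lit 9) (nat_lit 5) (nat_lit 403) (nat_lit 308) (nat_lit 177)))) (XT.nd (nat_lit 188) (nat_lit 0) (nat_lit 0) (XT.nd (nat_lit 94) (nat_lit 0) (nat_lit 0) (XT.lf (nat_lit 0) (nat_lit 12890690534) (nat_lit 168) (nat_lit 1338545369) (nat_lit 252) (nat_lit 37705988547) (nat_lit 6) (nat_lit 5) (nat_lit 8) (nat_lit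 5) (nat_lit 9) (nat_lit 5) (nat_lit 404) (nat_lit 308) (nat_lit 176)) (XT.lf (nat_lit 0) (nat_lit 16670668716) (nat_lit 252) (nat_lit 34082689109) (nat_lit 84) (nat_lit 2647000212) (nat_lit 6) (nat_lit 5) (nat_lit 9) (nat_lit 5) (nat_lit 7) (nat_lit 4) (nat_lit 405) (nat_lit 308) (nat_lit 175))) (XT.nd (nat_lit 94) (nat_lit 0) (nat_lit 0) (XT.lf (nat_lit 0) (nat_lit 19197290865) (nat_lit 252) (nat_lit 28986960918) (nat_lit 84) (nat_lit 6726383058) (nat_lit 6) (nat_lit 5) (nat_lit 9) (nat_lit 5) (nat_lit 7) (nat_lit 4) (nat_lit 406) (nat_lit 308) (nat_lit 174)) (XT.lf (nat_lit 0) (nat_lit 21798178891) (nat_lit 252) (nat_lit 23739321058) (nat_lit 84) (nat_lit 10930374285) (nat_lit 6) (nat_lit 5) (nat_lit 9) (nat_lit 5) (nat_lit 7) (nat_lit 4) (nat_lit 407) (nat_lit 308) (nat_lit 173))))))))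
noncomputable def xc116 : XT := (XT.nd (nat_lit 47094) (nat_lit 0) (nat_lit 4368) (XT.nd (nat_lit 1128) (nat_lit 84) (nat_lit 0) (XT.nd (nat_lit 564) (nat_lit 0) (nat_lit 0) (XT.nd (nat_lit 282) (nat_lit 84) (nat_lit 0) (XT.nd (nat_lit 94) (nat_lit 0) (nat_lit 0) (XT.lf (nat_lit 0) (nat_lit 24475757093) (nat_lit 252) (nat_lit 18334878177) (nat_lit 84) (nat_lit 15262892455) (nat_lit 6) (nat_lit 5) (nat_lit 9) (nat_lit 5) (nat_lit 7) (nat_lit 4) (nat_lit 408) (nat_lit 308) (nat_lit 172)) (XT.nd (nat_lit 94) (nat_lit 0) (nat_lit 0) (XT.lf (nat_lit 0) (nat_lit 27232521254) (nat_lit 252) (nat_lit 12768594769) (nat_lit 84) (nat_lit 19727975926) (nat_lit 6) (nat_lit 5) (nat_lit 9) (nat_lit 5) (nat_lit 7) (nat_lit 4) (nat_lit 409) (nat_lit 308) (nat_lit 171)) (XT.lf (nat_lit 0) (nat_lit 30071040969) (nat_lit 252) (nat_lit 7035282475) (nat_lit 84) (nat_lit 24329786626) (nat_lit 6) (nat_lit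 5) (nat_lit 9) (nat_lit 5) (nat_lit 7) (nat_lit 4) (nat_lit 410) (nat_lit 308) (nat_lit 170)))) (XT.nd (nat_lit 94) (nat_lit 84) (nat_lit 0) (XT.lf (nat_lit 0) (nat_lit 32993962034) (nat_lit 252) (nat_lit 1129597246) (nat_lit 84) (nat_lit 29072613924) (nat_lit 6) (nat_lit 5) (nat_lit 9) (nat_lit 5) (nat_lit 7) (nat_lit 4) (nat_lit 411) (nat_lit 308) (nat_lit 169)) (XT.nd (nat_lit 94) (nat_lit 0) (nat_lit 0) (XT.lf (nat_lit 0) (nat_lit 5055829327) (nat_lit 84) (nat_lit 30998334044) (nat_lit 168) (nat_lit 28955203757) (nat_lit 5) (nat_lit 5) (nat_lit 6) (nat_lit 5) (nat_lit 7) (nat_lit 4) (nat_lit 412) (nat_lit 308) (nat_lit 168)) (XT.lf (nat_lit 0) (nat_lit 11451805032) (nat_lit 84) (nat_lit 27765785592) (nat_lit 168) (nat_lit 27660935414) (nat_lit 5) (nat_lit 5) (nat_lit 6) (nat_lit 5) (nat_lit 7) (nat_lit 4) (nat_lit 413) (nat_lit 308) (nat_lit 167))))) (XT.nd (nat_lit 282) (nat_lit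 0) (nat_lit 0) (XT.nd (nat_lit 94) (nat_lit 0) (nat_lit 0) (XT.lf (nat_lit 0) (nat_lit 18041064754) (nat_lit 84) (nat_lit 24434691528) (nat_lit 168) (nat_lit 26329990426) (nat_lit 5) (nat_lit 5) (nat_lit 6) (nat_lit 5) (nat_lit 7) (nat_lit 4) (nat_lit 414) (nat_lit 308) (nat_lit 166)) (XT.nd (nat_lit 94) (nat_lit 0) (nat_lit 0) (XT.lf (nat_lit 0) (nat_lit 24829750371) (nat_lit 84) (nat_lit 21001946925) (nat_lit 168) (nat_lit 24961128213) (nat_lit 5) (nat_lit 5) (nat_lit 6) (nat_lit 5) (nat_lit 7) (nat_lit 4) (nat_lit 415) (nat_lit 308) (nat_lit 165)) (XT.lf (nat_lit 0) (nat_lit 31824189649) (nat_lit 84) (nat_lit 17464352104) (nat_lit 168) (nat_lit 23553072851) (nat_lit 5) (nat_lit 5) (nat_lit 6) (nat_lit 5) (nat_lit 7) (nat_lit 4) (nat_lit 416) (nat_lit 308) (nat_lit 164)))) (XT.nd (nat_lit 94) (nat_lit 0) (nat_lit 0) (XT.lf (nat_lit 0) (nat_lit 39030902140) (nat_lit 84) (nat_lit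 13818609656) (nat_lit 168) (nat_lit 22104511887) (nat_lit 5) (nat_lit 5) (nat_lit 6) (nat_lit 5) (nat_lit 7) (nat_lit 4) (nat_lit 417) (nat_lit 308) (nat_lit 163)) (XT.nd (nat_lit 94) (nat_lit 0) (nat_lit 0) (XT.lf (nat_lit 0) (nat_lit 46456605254) (nat_lit 84) (nat_lit 10061321369) (nat_lit 168) (nat_lit 20614095109) (nat_lit 5) (nat_lit 5) (nat_lit 6) (nat_lit 5) (nat_lit 7) (nat_lit 4) (nat_lit 418) (nat_lit 308) (nat_lit 162)) (XT.lf (nat_lit 0) (nat_lit 54108220523) (nat_lit 84) (nat_lit 6188985054) (nat_lit 168) (nat_lit 19080433292) (nat_lit 5) (nat_lit 5) (nat_lit 6) (nat_lit 5) (nat_lit 7) (nat_lit 4) (nat_lit 419) (nat_lit 308) (nat_lit 161)))))) (XT.nd (nat_lit 45308) (nat_lit 0) (nat_lit 9156) (XT.nd (nat_lit 282) (nat_lit 84) (nat_lit 0) (XT.nd (nat_lit 94) (nat_lit 0) (nat_lit 0) (XT.lf (nat_lit 0) (nat_lit 61992880056) (nat_lit 84) (nat_lit 2197991291) (nat_lit 168)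 (nat_lit 17502096904) (nat_lit 5) (nat_lit 5) (nat_lit 6) (nat_lit 5) (nat_lit 7) (nat_lit 4) (nat_lit 420) (nat_lit 308) (nat_lit 160)) (XT.nd (nat_lit 94) (nat_lit 0) (nat_lit 0) (XT.lf (nat_lit 0) (nat_lit 68221554040) (nat_lit 168) (nat_lit 13981235629) (nat_lit 0) (nat_lit 1876789308) (nat_lit 5) (nat_lit 5) (nat_lit 7) (nat_lit 4) (nat_lit 5) (nat_lit 4) (nat_lit 421) (nat_lit 308) (nat_lit 159)) (XT.lf (nat_lit 0) (nat_lit 72397048538) (nat_lit 168) (nat_lit 8111567942) (nat_lit 0) (nat_lit 6030953967) (nat_lit 5) (nat_lit 5) (nat_lit 7) (nat_lit 4) (nat_lit 5) (nat_lit 4) (nat_lit 422) (nat_lit 308) (nat_lit 158)))) (XT.nd (nat_lit 94) (nat_lit 84) (nat_lit 0) (XT.lf (nat_lit 0) (nat_lit 76699442495) (nat_lit 168) (nat_lit 2063809644) (nat_lit 0) (nat_lit 10312659428) (nat_lit 5) (nat_lit 5) (nat_lit 7) (nat_lit 4) (nat_lit 5) (nat_lit 4) (nat_lit 423) (nat_lit 308) (nat_lit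 157)) (XT.nd (nat_lit 94) (nat_lit 0) (nat_lit 0) (XT.lf (nat_lit 0) (nat_lit 4253372384) (nat_lit 84) (nat_lit 76921567788) (nat_lit 84) (nat_lit 10514718284) (nat_lit 4) (nat_lit 4) (nat_lit 5) (nat_lit 5) (nat_lit 5) (nat_lit 4) (nat_lit 424) (nat_lit 308) (nat_lit 156)) (XT.lf (nat_lit 0) (nat_lit 10806423978) (nat_lit 84) (nat_lit 75001869017) (nat_lit 84) (nat_lit 8575556432) (nat_lit 4) (nat_lit 4) (nat_lit 5) (nat_lit 5) (nat_lit 5) (nat_lit 4) (nat_lit 425) (nat_lit 308) (nat_lit 155))))) (XT.nd (nat_lit 282) (nat_lit 0) (nat_lit 0) (XT.nd (nat_lit 94) (nat_lit 672) (nat_lit 0) (XT.lf (nat_lit 0) (nat_lit 1264070722) (nat_lit 0) (nat_lit 1264070722) (nat_lit 588) (nat_lit 1111249355) (nat_lit 121) (nat_lit 5) (nat_lit 121) (nat_lit 3) (nat_lit 128) (nat_lit 3) (nat_lit 309) (nat_lit 309) (nat_lit 270)) (XT.nd (nat_lit 94) (nat_lit 672) (nat_lit 0) (XT.lf (nat_lit 0) (nat_lit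 5077008017) (nat_lit 0) (nat_lit 1249107112) (nat_lit 588) (nat_lit 1017765777) (nat_lit 121) (nat_lit 5) (nat_lit 121) (nat_lit 3) (nat_lit 128) (nat_lit 3) (nat_lit 310) (nat_lit 309) (nat_lit 269)) (XT.lf (nat_lit 0) (nat_lit 174535984) (nat_lit 672) (nat_lit 7142050351) (nat_lit 756) (nat_lit 96167570) (nat_lit 113) (nat_lit 5) (nat_lit 121) (nat_lit 5) (nat_lit 122) (nat_lit 5) (nat_lit 311) (nat_lit 309) (nat_lit 268)))) (XT.nd (nat_lit 188) (nat_lit 0) (nat_lit 0) (XT.nd (nat_lit 94) (nat_lit 0) (nat_lit 0) (XT.lf (nat_lit 0) (nat_lit 1371854103) (nat_lit 672) (nat_lit 4598740560) (nat_lit 756) (nat_lit 1513588429) (nat_lit 113) (nat_lit 5) (nat_lit 121) (nat_lit 5) (nat_lit 122) (nat_lit 5) (nat_lit 312) (nat_lit 309) (nat_lit 267)) (XT.lf (nat_lit 0) (nat_lit 2560234245) (nat_lit 672) (nat_lit 2003054416) (nat_lit 756) (nat_lit 2996362234) (nat_lit 113) (nat_lit 5) (nat_lit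 121) (nat_lit 5) (nat_lit 122) (nat_lit 5) (nat_lit 313) (nat_lit 309) (nat_lit 266))) (XT.nd (nat_lit 94) (nat_lit 0) (nat_lit 0) (XT.lf (nat_lit 84) (nat_lit 660739969) (nat_lit 0) (nat_lit 3086598755) (nat_lit 756) (nat_lit 3891685738) (nat_lit 114) (nat_lit 5) (nat_lit 113) (nat_lit 5) (nat_lit 122) (nat_lit 5) (nat_lit 314) (nat_lit 309) (nat_lit 265)) (XT.lf (nat_lit 84) (nat_lit 3424165106) (nat_lit 0) (nat_lit 1524407108) (nat_lit 756) (nat_lit 2773362324) (nat_lit 114) (nat_lit 5) (nat_lit 113) (nat_lit 5) (nat_lit 122) (nat_lit 5) (nat_lit 315) (nat_lit 309) (nat_lit 264))))))) (XT.nd (nat_lit 1222) (nat_lit 2604) (nat_lit 0) (XT.nd (nat_lit 564) (nat_lit 1512) (nat_lit 0) (XT.nd (nat_lit 282) (nat_lit 0) (nat_lit 0) (XT.nd (nat_lit 94) (nat_lit 756) (nat_lit 0) (XT.lf (nat_lit 0) (nat_lit 6145805314) (nat_lit 672) (nat_lit 1561507217) (nat_lit 756) (nat_lit 101742590)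 (nat_lit 114) (nat_lit 5) (nat_lit 122) (nat_lit 5) (nat_lit 123) (nat_lit 5) (nat_lit 316) (nat_lit 309) (nat_lit 263)) (XT.nd (nat_lit 94) (nat_lit 756) (nat_lit 0) (XT.lf (nat_lit 84) (nat_lit 1243341621) (nat_lit 0) (nat_lit 6123908029) (nat_lit 756) (nat_lit 532377804) (nat_lit 115) (nat_lit 5) (nat_lit 114) (nat_lit 5) (nat_lit 123) (nat_lit 5) (nat_lit 317) (nat_lit 309) (nat_lit 262)) (XT.lf (nat_lit 0) (nat_lit 596658102) (nat_lit 756) (nat_lit 3857311698) (nat_lit 840) (nat_lit 3539921106) (nat_lit 105) (nat_lit 5) (nat_lit 114) (nat_lit 5) (nat_lit 115) (nat_lit 5) (nat_lit 318) (nat_lit 309) (nat_lit 261)))) (XT.nd (nat_lit 94) (nat_lit 0) (nat_lit 0) (XT.lf (nat_lit 0) (nat_lit 1710261845) (nat_lit 756) (nat_lit 1002816213) (nat_lit 840) (nat_lit 5379370548) (nat_lit 105) (nat_lit 5) (nat_lit 114) (nat_lit 5) (nat_lit 115) (nat_lit 5) (nat_lit 319) (nat_lit 309) (nat_lit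 260)) (XT.nd (nat_lit 94) (nat_lit 0) (nat_lit 84) (XT.lf (nat_lit 84) (nat_lit 1954521820) (nat_lit 0) (nat_lit 885064926) (nat_lit 840) (nat_lit 5355368334) (nat_lit 106) (nat_lit 5) (nat_lit 105) (nat_lit 5) (nat_lit 115) (nat_lit 5) (nat_lit 320) (nat_lit 309) (nat_lit 259)) (XT.lf (nat_lit 0) (nat_lit 3987248464) (nat_lit 756) (nat_lit 3311895707) (nat_lit 840) (nat_lit 1002313249) (nat_lit 106) (nat_lit 5) (nat_lit 115) (nat_lit 5) (nat_lit 116) (nat_lit 5) (nat_lit 321) (nat_lit 309) (nat_lit 258))))) (XT.nd (nat_lit 282) (nat_lit 1596) (nat_lit 0) (XT.nd (nat_lit 94) (nat_lit 0) (nat_lit 0) (XT.lf (nat_lit 0) (nat_lit 5143494260) (nat_lit 756) (nat_lit 327187284) (nat_lit 840) (nat_lit 2941708850) (nat_lit 106) (nat_lit 5) (nat_lit 115) (nat_lit 5) (nat_lit 116) (nat_lit 5) (nat_lit 322) (nat_lit 309) (nat_lit 257)) (XT.nd (nat_lit 94) (nat_lit 0) (nat_lit 0) (XT.lf (nat_lit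 84) (nat_lit 2781290836) (nat_lit 0) (nat_lit 3546921839) (nat_lit 840) (nat_lit 2199061594) (nat_lit 107) (nat_lit 5) (nat_lit 106) (nat_lit 5) (nat_lit 116) (nat_lit 5) (nat_lit 323) (nat_lit 309) (nat_lit 256)) (XT.lf (nat_lit 84) (nat_lit 5968525908) (nat_lit 0) (nat_lit 1550392631) (nat_lit 840) (nat_lit 1128028861) (nat_lit 107) (nat_lit 5) (nat_lit 106) (nat_lit 5) (nat_lit 116) (nat_lit 5) (nat_lit 324) (nat_lit 309) (nat_lit 255)))) (XT.nd (nat_lit 188) (nat_lit 840) (nat_lit 0) (XT.nd (nat_lit 94) (nat_lit 84) (nat_lit 0) (XT.lf (nat_lit 0) (nat_lit 463340179) (nat_lit 756) (nat_lit 8259797646) (nat_lit 840) (nat_lit 48184613) (nat_lit 98) (nat_lit 5) (nat_lit 107) (nat_lit 5) (nat_lit 108) (nat_lit 5) (nat_lit 325) (nat_lit 309) (nat_lit 254)) (XT.lf (nat_lit 0) (nat_lit 1054902410) (nat_lit 840) (nat_lit 5191979946) (nat_lit 84) (nat_lit 2652246023) (nat_lit 97) (nat_lit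 5) (nat_lit 107) (nat_lit 5) (nat_lit 98) (nat_lit 5) (nat_lit 326) (nat_lit 309) (nat_lit 253))) (XT.nd (nat_lit 94) (nat_lit 840) (nat_lit 0) (XT.lf (nat_lit 0) (nat_lit 2159300291) (nat_lit 840) (nat_lit 2004958792) (nat_lit 84) (nat_lit 4867853692) (nat_lit 97) (nat_lit 5) (nat_lit 107) (nat_lit 5) (nat_lit 98) (nat_lit 5) (nat_lit 327) (nat_lit 309) (nat_lit 252)) (XT.lf (nat_lit 0) (nat_lit 1282366665) (nat_lit 840) (nat_lit 1997363824) (nat_lit 924) (nat_lit 5890289552) (nat_lit 87) (nat_lit 5) (nat_lit 97) (nat_lit 5) (nat_lit 98) (nat_lit 5) (nat_lit 328) (nat_lit 309) (nat_lit 251)))))) (XT.nd (nat_lit 564) (nat_lit 924) (nat_lit 0) (XT.nd (nat_lit 282) (nat_lit 756) (nat_lit 0) (XT.nd (nat_lit 94) (nat_lit 924) (nat_lit 0) (XT.lf (nat_lit 0) (nat_lit 4428210572) (nat_lit 924) (nat_lit 4625323646) (nat_lit 84) (nat_lit 259104335) (nat_lit 87) (nat_lit 5) (nat_lit 98) (nat_lit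 5) (nat_lit 88) (nat_lit 5) (nat_lit 329) (nat_lit 309) (nat_lit 250)) (XT.nd (nat_lit 94) (nat_lit 924) (nat_lit 0) (XT.lf (nat_lit 0) (nat_lit 5603455822) (nat_lit 924) (nat_lit 1306840045) (nat_lit 84) (nat_lit 2549878389) (nat_lit 87) (nat_lit 5) (nat_lit 98) (nat_lit 5) (nat_lit 88) (nat_lit 5) (nat_lit 330) (nat_lit 309) (nat_lit 249)) (XT.lf (nat_lit 0) (nat_lit 2133693871) (nat_lit 924) (nat_lit 4674220231) (nat_lit 1008) (nat_lit 2804808644) (nat_lit 76) (nat_lit 5) (nat_lit 87) (nat_lit 5) (nat_lit 88) (nat_lit 5) (nat_lit 331) (nat_lit 309) (nat_lit 248)))) (XT.nd (nat_lit 94) (nat_lit 756) (nat_lit 0) (XT.lf (nat_lit 0) (nat_lit 5685017884) (nat_lit 924) (nat_lit 2350567039) (nat_lit 1008) (nat_lit 1735062108) (nat_lit 76) (nat_lit 5) (nat_lit 87) (nat_lit 5) (nat_lit 88) (nat_lit 5) (nat_lit 332) (nat_lit 309) (nat_lit 247)) (XT.nd (nat_lit 94) (nat_lit 756) (nat_lit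 0) (XT.lf (nat_lit 0) (nat_lit 9274869982) (nat_lit 1008) (nat_lit 611421535) (nat_lit 84) (nat_lit 48197818) (nat_lit 76) (nat_lit 5) (nat_lit 88) (nat_lit 5) (nat_lit 77) (nat_lit 5) (nat_lit 333) (nat_lit 309) (nat_lit 246)) (XT.lf (nat_lit 0) (nat_lit 467754967) (nat_lit 756) (nat_lit 7124155561) (nat_lit 84) (nat_lit 2510695793) (nat_lit 67) (nat_lit 5) (nat_lit 76) (nat_lit 5) (nat_lit 68) (nat_lit 5) (nat_lit 334) (nat_lit 309) (nat_lit 245))))) (XT.nd (nat_lit 282) (nat_lit 420) (nat_lit 0) (XT.nd (nat_lit 94) (nat_lit 504) (nat_lit 0) (XT.lf (nat_lit 0) (nat_lit 1596849104) (nat_lit 756) (nat_lit 3613681783) (nat_lit 84) (nat_lit 5065985127) (nat_lit 67) (nat_lit 5) (nat_lit 76) (nat_lit 5) (nat_lit 68) (nat_lit 5) (nat_lit 335) (nat_lit 309) (nat_lit 244)) (XT.nd (nat_lit 94) (nat_lit 504) (nat_lit 0) (XT.lf (nat_lit 0) (nat_lit 2735751947) (nat_lit 756) (nat_lit 17374566)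 (nat_lit 84) (nat_lit 7703650709) (nat_lit 67) (nat_lit 5) (nat_lit 76) (nat_lit 5) (nat_lit 68) (nat_lit 5) (nat_lit 336) (nat_lit 309) (nat_lit 243)) (XT.lf (nat_lit 0) (nat_lit 3743542258) (nat_lit 504) (nat_lit 179119215) (nat_lit 588) (nat_lit 6719745263) (nat_lit 61) (nat_lit 5) (nat_lit 67) (nat_lit 5) (nat_lit 68) (nat_lit 5) (nat_lit 337) (nat_lit 309) (nat_lit 242)))) (XT.nd (nat_lit 188) (nat_lit 0) (nat_lit 0) (XT.nd (nat_lit 94) (nat_lit 420) (nat_lit 0) (XT.lf (nat_lit 0) (nat_lit 5147195917) (nat_lit 588) (nat_lit 3259923033) (nat_lit 84) (nat_lit 2426814767) (nat_lit 61) (nat_lit 5) (nat_lit 68) (nat_lit 5) (nat_lit 62) (nat_lit 5) (nat_lit 338) (nat_lit 309) (nat_lit 241)) (XT.lf (nat_lit 0) (nat_lit 477299071) (nat_lit 420) (nat_lit 5915775719) (nat_lit 504) (nat_lit 4639001974) (nat_lit 56) (nat_lit 5) (nat_lit 61) (nat_lit 5) (nat_lit 62) (nat_lit 5) (nat_lit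 339) (nat_lit 309) (nat_lit 240))) (XT.nd (nat_lit 94) (nat_lit 0) (nat_lit 0) (XT.lf (nat_lit 0) (nat_lit 4377398525) (nat_lit 420) (nat_lit 3311499297) (nat_lit 504) (nat_lit 3547272154) (nat_lit 56) (nat_lit 5) (nat_lit 61) (nat_lit 5) (nat_lit 62) (nat_lit 5) (nat_lit 340) (nat_lit 309) (nat_lit 239)) (XT.lf (nat_lit 0) (nat_lit 8376979926) (nat_lit 420) (nat_lit 625889136) (nat_lit 504) (nat_lit 2444557643) (nat_lit 56) (nat_lit 5) (nat_lit 61) (nat_lit 5) (nat_lit 62) (nat_lit 5) (nat_lit 341) (nat_lit 309) (nat_lit 238))))))))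
noncomputable def xc117 : XT := (XT.nd (nat_lit 2350) (nat_lit 1008) (nat_lit 0) (XT.nd (nat_lit 1128) (nat_lit 1260) (nat_lit 0) (XT.nd (nat_lit 564) (nat_lit 756) (nat_lit 0) (XT.nd (nat_lit 282) (nat_lit 336) (nat_lit 0) (XT.nd (nat_lit 94) (nat_lit 84) (nat_lit 0) (XT.lf (nat_lit 0) (nat_lit 808757739) (nat_lit 420) (nat_lit 9556742870) (nat_lit 504) (nat_lit 1299635352) (nat_lit 51) (nat_lit 5) (nat_lit 56) (nat_lit 5) (nat_lit 57) (nat_lit 5) (nat_lit 342) (nat_lit 309) (nat_lit 237)) (XT.nd (nat_lit 94) (nat_lit 84) (nat_lit 0) (XT.lf (nat_lit 0) (nat_lit 4845400776) (nat_lit 420) (nat_lit 6942434365) (nat_lit 504) (nat_lit 101362579) (nat_lit 51) (nat_lit 5) (nat_lit 56) (nat_lit 5) (nat_lit 57) (nat_lit 5) (nat_lit 343) (nat_lit 309) (nat_lit 236)) (XT.lf (nat_lit 0) (nat_lit 1090567554) (nat_lit 504) (nat_lit 3145569239) (nat_lit 84) (nat_lit 7884495943) (nat_lit 50) (nat_lit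 5) (nat_lit 56) (nat_lit 5) (nat_lit 51) (nat_lit 5) (nat_lit 344) (nat_lit 309) (nat_lit 235)))) (XT.nd (nat_lit 94) (nat_lit 0) (nat_lit 0) (XT.lf (nat_lit 0) (nat_lit 869328499) (nat_lit 336) (nat_lit 1436617560) (nat_lit 420) (nat_lit 10053749460) (nat_lit 46) (nat_lit 5) (nat_lit 50) (nat_lit 5) (nat_lit 51) (nat_lit 5) (nat_lit 345) (nat_lit 309) (nat_lit 234)) (XT.nd (nat_lit 94) (nat_lit 0) (nat_lit 0) (XT.lf (nat_lit 0) (nat_lit 3586922672) (nat_lit 420) (nat_lit 7565668316) (nat_lit 84) (nat_lit 1452840870) (nat_lit 46) (nat_lit 5) (nat_lit 51) (nat_lit 5) (nat_lit 47) (nat_lit 5) (nat_lit 346) (nat_lit 309) (nat_lit 233)) (XT.lf (nat_lit 0) (nat_lit 4903264178) (nat_lit 420) (nat_lit 3554533058) (nat_lit 84) (nat_lit 4401247813) (nat_lit 46) (nat_lit 5) (nat_lit 51) (nat_lit 5) (nat_lit 47) (nat_lit 5) (nat_lit 347) (nat_lit 309) (nat_lit 232))))) (XT.nd (nat_lit 282)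 (nat_lit 336) (nat_lit 0) (XT.nd (nat_lit 94) (nat_lit 0) (nat_lit 0) (XT.lf (nat_lit 0) (nat_lit 572564881) (nat_lit 420) (nat_lit 5675061153) (nat_lit 504) (nat_lit 6873411167) (nat_lit 41) (nat_lit 5) (nat_lit 46) (nat_lit 5) (nat_lit 47) (nat_lit 5) (nat_lit 348) (nat_lit 309) (nat_lit 231)) (XT.nd (nat_lit 94) (nat_lit 0) (nat_lit 0) (XT.lf (nat_lit 0) (nat_lit 4883240329) (nat_lit 420) (nat_lit 2769418311) (nat_lit 504) (nat_lit 5738020564) (nat_lit 41) (nat_lit 5) (nat_lit 46) (nat_lit 5) (nat_lit 47) (nat_lit 5) (nat_lit 349) (nat_lit 309) (nat_lit 230)) (XT.lf (nat_lit 0) (nat_lit 9085914602) (nat_lit 504) (nat_lit 4363144601) (nat_lit 84) (nat_lit 220209655) (nat_lit 41) (nat_lit 5) (nat_lit 47) (nat_lit 5) (nat_lit 42) (nat_lit 5) (nat_lit 350) (nat_lit 309) (nat_lit 229)))) (XT.nd (nat_lit 94) (nat_lit 336) (nat_lit 0) (XT.lf (nat_lit 0) (nat_lit 10574877080) (nat_lit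 504) (nat_lit 137873797) (nat_lit 84) (nat_lit 3243504400) (nat_lit 41) (nat_lit 5) (nat_lit 47) (nat_lit 5) (nat_lit 42) (nat_lit 5) (nat_lit 351) (nat_lit 309) (nat_lit 228)) (XT.nd (nat_lit 94) (nat_lit 0) (nat_lit 0) (XT.lf (nat_lit 0) (nat_lit 4286141095) (nat_lit 336) (nat_lit 7849838927) (nat_lit 420) (nat_lit 2115459510) (nat_lit 37) (nat_lit 5) (nat_lit 41) (nat_lit 5) (nat_lit 42) (nat_lit 5) (nat_lit 352) (nat_lit 309) (nat_lit 227)) (XT.lf (nat_lit 0) (nat_lit 8831816066) (nat_lit 336) (nat_lit 4898878398) (nat_lit 420) (nat_lit 825641807) (nat_lit 37) (nat_lit 5) (nat_lit 41) (nat_lit 5) (nat_lit 42) (nat_lit 5) (nat_lit 353) (nat_lit 309) (nat_lit 226)))))) (XT.nd (nat_lit 564) (nat_lit 588) (nat_lit 0) (XT.nd (nat_lit 282) (nat_lit 252) (nat_lit 0) (XT.nd (nat_lit 94) (nat_lit 336) (nat_lit 0) (XT.lf (nat_lit 0) (nat_lit 478009186) (nat_lit 420) (nat_lit 1375559184)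 (nat_lit 84) (nat_lit 13017554571) (nat_lit 36) (nat_lit 5) (nat_lit 41) (nat_lit 5) (nat_lit 37) (nat_lit 5) (nat_lit 354) (nat_lit 309) (nat_lit 225)) (XT.nd (nat_lit 94) (nat_lit 0) (nat_lit 0) (XT.lf (nat_lit 0) (nat_lit 1833755537) (nat_lit 420) (nat_lit 12062738440) (nat_lit 84) (nat_lit 1298112883) (nat_lit 32) (nat_lit 5) (nat_lit 37) (nat_lit 5) (nat_lit 33) (nat_lit 5) (nat_lit 355) (nat_lit 309) (nat_lit 224)) (XT.lf (nat_lit 0) (nat_lit 3249749268) (nat_lit 420) (nat_lit 7756681934) (nat_lit 84) (nat_lit 4521214393) (nat_lit 32) (nat_lit 5) (nat_lit 37) (nat_lit 5) (nat_lit 33) (nat_lit 5) (nat_lit 356) (nat_lit 309) (nat_lit 223)))) (XT.nd (nat_lit 94) (nat_lit 252) (nat_lit 0) (XT.lf (nat_lit 0) (nat_lit 4694853872) (nat_lit 420) (nat_lit 3334684885) (nat_lit 84) (nat_lit 7842016963) (nat_lit 32) (nat_lit 5) (nat_lit 37) (nat_lit 5) (nat_lit 33) (nat_lit 5) (nat_lit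 357) (nat_lit 309) (nat_lit 222)) (XT.nd (nat_lit 94) (nat_lit 0) (nat_lit 0) (XT.lf (nat_lit 0) (nat_lit 1232200565) (nat_lit 252) (nat_lit 4950439355) (nat_lit 336) (nat_lit 10043638945) (nat_lit 29) (nat_lit 5) (nat_lit 32) (nat_lit 5) (nat_lit 33) (nat_lit 5) (nat_lit 358) (nat_lit 309) (nat_lit 221)) (XT.lf (nat_lit 0) (nat_lit 5994505740) (nat_lit 252) (nat_lit 1742772544) (nat_lit 336) (nat_lit 8854161077) (nat_lit 29) (nat_lit 5) (nat_lit 32) (nat_lit 5) (nat_lit 33) (nat_lit 5) (nat_lit 359) (nat_lit 309) (nat_lit 220))))) (XT.nd (nat_lit 282) (nat_lit 336) (nat_lit 0) (XT.nd (nat_lit 94) (nat_lit 252) (nat_lit 0) (XT.lf (nat_lit 0) (nat_lit 9341949063) (nat_lit 336) (nat_lit 6095814218) (nat_lit 84) (nat_lit 1530180633) (nat_lit 29) (nat_lit 5) (nat_lit 33) (nat_lit 5) (nat_lit 30) (nat_lit 5) (nat_lit 360) (nat_lit 309) (nat_lit 219)) (XT.nd (nat_lit 94) (nat_lit 252)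 (nat_lit 0) (XT.lf (nat_lit 0) (nat_lit 11000920681) (nat_lit 336) (nat_lit 1489297277) (nat_lit 84) (nat_lit 4865839555) (nat_lit 29) (nat_lit 5) (nat_lit 33) (nat_lit 5) (nat_lit 30) (nat_lit 5) (nat_lit 361) (nat_lit 309) (nat_lit 218)) (XT.lf (nat_lit 0) (nat_lit 3310906871) (nat_lit 252) (nat_lit 9420388689) (nat_lit 336) (nat_lit 5024364123) (nat_lit 26) (nat_lit 5) (nat_lit 29) (nat_lit 5) (nat_lit 30) (nat_lit 5) (nat_lit 362) (nat_lit 309) (nat_lit 217)))) (XT.nd (nat_lit 188) (nat_lit 336) (nat_lit 0) (XT.nd (nat_lit 94) (nat_lit 0) (nat_lit 0) (XT.lf (nat_lit 0) (nat_lit 8275827643) (nat_lit 252) (nat_lit 6242391750) (nat_lit 336) (nat_lit 3649413983) (nat_lit 26) (nat_lit 5) (nat_lit 29) (nat_lit 5) (nat_lit 30) (nat_lit 5) (nat_lit 363) (nat_lit 309) (nat_lit 216)) (XT.lf (nat_lit 0) (nat_lit 13379469856) (nat_lit 252) (nat_lit 2968810126) (nat_lit 336) (nat_lit 2244550024)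 (nat_lit 26) (nat_lit 5) (nat_lit 29) (nat_lit 5) (nat_lit 30) (nat_lit 5) (nat_lit 364) (nat_lit 309) (nat_lit 215))) (XT.nd (nat_lit 94) (nat_lit 336) (nat_lit 0) (XT.lf (nat_lit 0) (nat_lit 18227184989) (nat_lit 336) (nat_lit 409057115) (nat_lit 84) (nat_lit 395279742) (nat_lit 26) (nat_lit 5) (nat_lit 30) (nat_lit 5) (nat_lit 27) (nat_lit 5) (nat_lit 365) (nat_lit 309) (nat_lit 214)) (XT.lf (nat_lit 0) (nat_lit 731758298) (nat_lit 336) (nat_lit 14897656343) (nat_lit 84) (nat_lit 3852241355) (nat_lit 22) (nat_lit 5) (nat_lit 26) (nat_lit 5) (nat_lit 23) (nat_lit 5) (nat_lit 366) (nat_lit 309) (nat_lit 213))))))) (XT.nd (nat_lit 1222) (nat_lit 420) (nat_lit 0) (XT.nd (nat_lit 564) (nat_lit 336) (nat_lit 0) (XT.nd (nat_lit 282) (nat_lit 252) (nat_lit 0) (XT.nd (nat_lit 94) (nat_lit 0) (nat_lit 0) (XT.lf (nat_lit 0) (nat_lit 2291541637) (nat_lit 336) (nat_lit 10228210043) (nat_lit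 84) (nat_lit 7426025021) (nat_lit 22) (nat_lit 5) (nat_lit 26) (nat_lit 5) (nat_lit 23) (nat_lit 5) (nat_lit 367) (nat_lit 309) (nat_lit 212)) (XT.nd (nat_lit 94) (nat_lit 0) (nat_lit 0) (XT.lf (nat_lit 0) (nat_lit 3888488943) (nat_lit 336) (nat_lit 5428405605) (nat_lit 84) (nat_lit 11107799069) (nat_lit 22) (nat_lit 5) (nat_lit 26) (nat_lit 5) (nat_lit 23) (nat_lit 5) (nat_lit 368) (nat_lit 309) (nat_lit 211)) (XT.lf (nat_lit 0) (nat_lit 5524088739) (nat_lit 336) (nat_lit 493769109) (nat_lit 84) (nat_lit 14900995297) (nat_lit 22) (nat_lit 5) (nat_lit 26) (nat_lit 5) (nat_lit 23) (nat_lit 5) (nat_lit 369) (nat_lit 309) (nat_lit 210)))) (XT.nd (nat_lit 94) (nat_lit 0) (nat_lit 0) (XT.lf (nat_lit 0) (nat_lit 4674479383) (nat_lit 252) (nat_lit 2571757606) (nat_lit 336) (nat_lit 14181041392) (nat_lit 19) (nat_lit 5) (nat_lit 22) (nat_lit 5) (nat_lit 23) (nat_lit 5) (nat_lit 370) (nat_lit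 309) (nat_lit 209)) (XT.nd (nat_lit 94) (nat_lit 0) (nat_lit 0) (XT.lf (nat_lit 0) (nat_lit 9026338433) (nat_lit 336) (nat_lit 11961431300) (nat_lit 84) (nat_lit 963609709) (nat_lit 19) (nat_lit 5) (nat_lit 23) (nat_lit 5) (nat_lit 20) (nat_lit 5) (nat_lit 371) (nat_lit 309) (nat_lit 208)) (XT.lf (nat_lit 0) (nat_lit 10877864562) (nat_lit 336) (nat_lit 7061172200) (nat_lit 84) (nat_lit 4552241907) (nat_lit 19) (nat_lit 5) (nat_lit 23) (nat_lit 5) (nat_lit 20) (nat_lit 5) (nat_lit 372) (nat_lit 309) (nat_lit 207))))) (XT.nd (nat_lit 282) (nat_lit 168) (nat_lit 0) (XT.nd (nat_lit 94) (nat_lit 168) (nat_lit 0) (XT.lf (nat_lit 0) (nat_lit 12777029038) (nat_lit 336) (nat_lit 2021941989) (nat_lit 84) (nat_lit 8249299153) (nat_lit 19) (nat_lit 5) (nat_lit 23) (nat_lit 5) (nat_lit 20) (nat_lit 5) (nat_lit 373) (nat_lit 309) (nat_lit 206)) (XT.nd (nat_lit 94) (nat_lit 0) (nat_lit 0) (XT.lf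 (nat_lit 0) (nat_lit 3225952170) (nat_lit 168) (nat_lit 11531651756) (nat_lit 252) (nat_lit 8864277165) (nat_lit 17) (nat_lit 5) (nat_lit 19) (nat_lit 5) (nat_lit 20) (nat_lit 5) (nat_lit 374) (nat_lit 309) (nat_lit 205)) (XT.lf (nat_lit 0) (nat_lit 8666974259) (nat_lit 168) (nat_lit 8144403166) (nat_lit 252) (nat_lit 7401580440) (nat_lit 17) (nat_lit 5) (nat_lit 19) (nat_lit 5) (nat_lit 20) (nat_lit 5) (nat_lit 375) (nat_lit 309) (nat_lit 204)))) (XT.nd (nat_lit 188) (nat_lit 168) (nat_lit 0) (XT.nd (nat_lit 94) (nat_lit 0) (nat_lit 0) (XT.lf (nat_lit 0) (nat_lit 14264620605) (nat_lit 168) (nat_lit 4655172914) (nat_lit 252) (nat_lit 5902892507) (nat_lit 17) (nat_lit 5) (nat_lit 19) (nat_lit 5) (nat_lit 20) (nat_lit 5) (nat_lit 376) (nat_lit 309) (nat_lit 203)) (XT.lf (nat_lit 0) (nat_lit 20024108800) (nat_lit 168) (nat_lit 1060708672) (nat_lit 252) (nat_lit 4366816433) (nat_lit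 17) (nat_lit 5) (nat_lit 19) (nat_lit 5) (nat_lit 20) (nat_lit 5) (nat_lit 377) (nat_lit 309) (nat_lit 202))) (XT.nd (nat_lit 94) (nat_lit 168) (nat_lit 0) (XT.lf (nat_lit 0) (nat_lit 23334679654) (nat_lit 252) (nat_lit 175792798) (nat_lit 84) (nat_lit 2589102713) (nat_lit 17) (nat_lit 5) (nat_lit 20) (nat_lit 5) (nat_lit 18) (nat_lit 5) (nat_lit 378) (nat_lit 309) (nat_lit 201)) (XT.lf (nat_lit 0) (nat_lit 5323894270) (nat_lit 168) (nat_lit 20385793592) (nat_lit 252) (nat_lit 1056241364) (nat_lit 15) (nat_lit 5) (nat_lit 17) (nat_lit 5) (nat_lit 18) (nat_lit 5) (nat_lit 379) (nat_lit 309) (nat_lit 200)))))) (XT.nd (nat_lit 564) (nat_lit 168) (nat_lit 0) (XT.nd (nat_lit 282) (nat_lit 168) (nat_lit 0) (XT.nd (nat_lit 94) (nat_lit 0) (nat_lit 0) (XT.lf (nat_lit 0) (nat_lit 684773808) (nat_lit 252) (nat_lit 16473463242) (nat_lit 84) (nat_lit 10294725969) (nat_lit 14) (nat_lit 5) (nat_lit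 17) (nat_lit 5) (nat_lit 15) (nat_lit 5) (nat_lit 380) (nat_lit 309) (nat_lit 199)) (XT.nd (nat_lit 94) (nat_lit 0) (nat_lit 0) (XT.lf (nat_lit 0) (nat_lit 2449818785) (nat_lit 252) (nat_lit 11372689019) (nat_lit 84) (nat_lit 14338740375) (nat_lit 14) (nat_lit 5) (nat_lit 17) (nat_lit 5) (nat_lit 15) (nat_lit 5) (nat_lit 381) (nat_lit 309) (nat_lit 198)) (XT.lf (nat_lit 0) (nat_lit 4261819682) (nat_lit 252) (nat_lit 6124479787) (nat_lit 84) (nat_lit 18505470251) (nat_lit 14) (nat_lit 5) (nat_lit 17) (nat_lit 5) (nat_lit 15) (nat_lit 5) (nat_lit 382) (nat_lit 309) (nat_lit 197)))) (XT.nd (nat_lit 94) (nat_lit 168) (nat_lit 0) (XT.lf (nat_lit 0) (nat_lit 6122465473) (nat_lit 252) (nat_lit 723943666) (nat_lit 84) (nat_lit 22798799428) (nat_lit 14) (nat_lit 5) (nat_lit 17) (nat_lit 5) (nat_lit 15) (nat_lit 5) (nat_lit 383) (nat_lit 309) (nat_lit 196)) (XT.nd (nat_lit 94) (nat_lit 0)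 (nat_lit 0) (XT.lf (nat_lit 0) (nat_lit 4933349202) (nat_lit 168) (nat_lit 3149080709) (nat_lit 252) (nat_lit 22338319969) (nat_lit 12) (nat_lit 5) (nat_lit 14) (nat_lit 5) (nat_lit 15) (nat_lit 5) (nat_lit 384) (nat_lit 309) (nat_lit 195)) (XT.lf (nat_lit 0) (nat_lit 10110155170) (nat_lit 252) (nat_lit 20455571014) (nat_lit 84) (nat_lit 654425289) (nat_lit 12) (nat_lit 5) (nat_lit 15) (nat_lit 5) (nat_lit 13) (nat_lit 5) (nat_lit 385) (nat_lit 309) (nat_lit 194))))) (XT.nd (nat_lit 282) (nat_lit 168) (nat_lit 0) (XT.nd (nat_lit 94) (nat_lit 0) (nat_lit 0) (XT.lf (nat_lit 0) (nat_lit 12225956763) (nat_lit 252) (nat_lit 15309840763) (nat_lit 84) (nat_lit 4507789754) (nat_lit 12) (nat_lit 5) (nat_lit 15) (nat_lit 5) (nat_lit 13) (nat_lit 5) (nat_lit 386) (nat_lit 309) (nat_lit 193)) (XT.nd (nat_lit 94) (nat_lit 0) (nat_lit 0) (XT.lf (nat_lit 0) (nat_lit 14400567568) (nat_lit 252) (nat_lit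 10014174296) (nat_lit 84) (nat_lit 8478051383) (nat_lit 12) (nat_lit 5) (nat_lit 15) (nat_lit 5) (nat_lit 13) (nat_lit 5) (nat_lit 387) (nat_lit 309) (nat_lit 192)) (XT.lf (nat_lit 0) (nat_lit 16636014552) (nat_lit 252) (nat_lit 4563635497) (nat_lit 84) (nat_lit 12568910876) (nat_lit 12) (nat_lit 5) (nat_lit 15) (nat_lit 5) (nat_lit 13) (nat_lit 5) (nat_lit 388) (nat_lit 309) (nat_lit 191)))) (XT.nd (nat_lit 188) (nat_lit 0) (nat_lit 0) (XT.nd (nat_lit 94) (nat_lit 0) (nat_lit 0) (XT.lf (nat_lit 0) (nat_lit 1068381615) (nat_lit 168) (nat_lit 17876598248) (nat_lit 252) (nat_lit 15726398205) (nat_lit 10) (nat_lit 5) (nat_lit 12) (nat_lit 5) (nat_lit 13) (nat_lit 5) (nat_lit 389) (nat_lit 309) (nat_lit 190)) (XT.lf (nat_lit 0) (nat_lit 6962815292) (nat_lit 168) (nat_lit 14404067082) (nat_lit 252) (nat_lit 14234048552) (nat_lit 10) (nat_lit 5) (nat_lit 12) (nat_lit 5) (nat_lit 13) (nat_lit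 5) (nat_lit 390) (nat_lit 309) (nat_lit 189))) (XT.nd (nat_lit 94) (nat_lit 0) (nat_lit 0) (XT.lf (nat_lit 0) (nat_lit 13031322058) (nat_lit 168) (nat_lit 10826454786) (nat_lit 252) (nat_lit 12701741385) (nat_lit 10) (nat_lit 5) (nat_lit 12) (nat_lit 5) (nat_lit 13) (nat_lit 5) (nat_lit 391) (nat_lit 309) (nat_lit 188)) (XT.lf (nat_lit 0) (nat_lit 19279558397) (nat_lit 168) (nat_lit 7140426648) (nat_lit 252) (nat_lit 11128048431) (nat_lit 10) (nat_lit 5) (nat_lit 12) (nat_lit 5) (nat_lit 13) (nat_lit 5) (nat_lit 392) (nat_lit 309) (nat_lit 187))))))))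
noncomputable def xc118 : XT := (XT.nd (nat_lit 2350) (nat_lit 0) (nat_lit 0) (XT.nd (nat_lit 1128) (nat_lit 84) (nat_lit 0) (XT.nd (nat_lit 564) (nat_lit 252) (nat_lit 0) (XT.nd (nat_lit 282) (nat_lit 84) (nat_lit 0) (XT.nd (nat_lit 94) (nat_lit 0) (nat_lit 0) (XT.lf (nat_lit 0) (nat_lit 25713348319) (nat_lit 168) (nat_lit 3342546905) (nat_lit 252) (nat_lit 9511502844) (nat_lit 10) (nat_lit 5) (nat_lit 12) (nat_lit 5) (nat_lit 13) (nat_lit 5) (nat_lit 393) (nat_lit 309) (nat_lit 186)) (XT.nd (nat_lit 94) (nat_lit 0) (nat_lit 0) (XT.lf (nat_lit 0) (nat_lit 31773625985) (nat_lit 252) (nat_lit 7285535028) (nat_lit 84) (nat_lit 559225637) (nat_lit 10) (nat_lit 5) (nat_lit 13) (nat_lit 5) (nat_lit 11) (nat_lit 4) (nat_lit 394) (nat_lit 309) (nat_lit 185)) (XT.lf (nat_lit 0) (nat_lit 34604382963) (nat_lit 252) (nat_lit 1586412904) (nat_lit 84) (nat_lit 4510294141) (nat_lit 10) (nat_lit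 5) (nat_lit 13) (nat_lit 5) (nat_lit 11) (nat_lit 4) (nat_lit 395) (nat_lit 309) (nat_lit 184)))) (XT.nd (nat_lit 94) (nat_lit 0) (nat_lit 0) (XT.lf (nat_lit 0) (nat_lit 4369829609) (nat_lit 84) (nat_lit 33191165884) (nat_lit 168) (nat_lit 4255205926) (nat_lit 9) (nat_lit 5) (nat_lit 10) (nat_lit 5) (nat_lit 11) (nat_lit 4) (nat_lit 396) (nat_lit 309) (nat_lit 183)) (XT.nd (nat_lit 94) (nat_lit 0) (nat_lit 0) (XT.lf (nat_lit 0) (nat_lit 10536828926) (nat_lit 84) (nat_lit 30083829010) (nat_lit 168) (nat_lit 2344894755) (nat_lit 9) (nat_lit 5) (nat_lit 10) (nat_lit 5) (nat_lit 11) (nat_lit 4) (nat_lit 397) (nat_lit 309) (nat_lit 182)) (XT.lf (nat_lit 0) (nat_lit 16887713432) (nat_lit 84) (nat_lit 26882447782) (nat_lit 168) (nat_lit 380551819) (nat_lit 9) (nat_lit 5) (nat_lit 10) (nat_lit 5) (nat_lit 11) (nat_lit 4) (nat_lit 398) (nat_lit 309) (nat_lit 181))))) (XT.nd (nat_lit 282)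 (nat_lit 168) (nat_lit 0) (XT.nd (nat_lit 94) (nat_lit 0) (nat_lit 0) (XT.lf (nat_lit 0) (nat_lit 1606618484) (nat_lit 168) (nat_lit 21960649888) (nat_lit 84) (nat_lit 21805014530) (nat_lit 8) (nat_lit 5) (nat_lit 10) (nat_lit 5) (nat_lit 9) (nat_lit 5) (nat_lit 399) (nat_lit 309) (nat_lit 180)) (XT.nd (nat_lit 94) (nat_lit 0) (nat_lit 0) (XT.lf (nat_lit 0) (nat_lit 3642703849) (nat_lit 168) (nat_lit 16504799519) (nat_lit 84) (nat_lit 26484267481) (nat_lit 8) (nat_lit 5) (nat_lit 10) (nat_lit 5) (nat_lit 9) (nat_lit 5) (nat_lit 400) (nat_lit 309) (nat_lit 179)) (XT.lf (nat_lit 0) (nat_lit 5737269393) (nat_lit 168) (nat_lit 10886587947) (nat_lit 84) (nat_lit 31306610535) (nat_lit 8) (nat_lit 5) (nat_lit 10) (nat_lit 5) (nat_lit 9) (nat_lit 5) (nat_lit 401) (nat_lit 309) (nat_lit 178)))) (XT.nd (nat_lit 94) (nat_lit 168) (nat_lit 0) (XT.lf (nat_lit 0) (nat_lit 7892267468) (nat_lit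 168) (nat_lit 5100778412) (nat_lit 84) (nat_lit 36276538623) (nat_lit 8) (nat_lit 5) (nat_lit 10) (nat_lit 5) (nat_lit 9) (nat_lit 5) (nat_lit 402) (nat_lit 309) (nat_lit 177)) (XT.nd (nat_lit 94) (nat_lit 0) (nat_lit 0) (XT.lf (nat_lit 0) (nat_lit 875664760) (nat_lit 168) (nat_lit 9242728703) (nat_lit 252) (nat_lit 40531706178) (nat_lit 6) (nat_lit 5) (nat_lit 8) (nat_lit 5) (nat_lit 9) (nat_lit 5) (nat_lit 403) (nat_lit 309) (nat_lit 176)) (XT.lf (nat_lit 0) (nat_lit 7139206824) (nat_lit 168) (nat_lit 5323269145) (nat_lit 252) (nat_lit 39609436743) (nat_lit 6) (nat_lit 5) (nat_lit 8) (nat_lit 5) (nat_lit 9) (nat_lit 5) (nat_lit 404) (nat_lit 309) (nat_lit 175)))))) (XT.nd (nat_lit 564) (nat_lit 84) (nat_lit 0) (XT.nd (nat_lit 282) (nat_lit 0) (nat_lit 0) (XT.nd (nat_lit 94) (nat_lit 0) (nat_lit 0) (XT.lf (nat_lit 0) (nat_lit 13590803591) (nat_lit 168) (nat_lit 1284255527) (nat_lit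 252) (nat_lit 38662890743) (nat_lit 6) (nat_lit 5) (nat_lit 8) (nat_lit 5) (nat_lit 9) (nat_lit 5) (nat_lit 405) (nat_lit 309) (nat_lit 174)) (XT.nd (nat_lit 94) (nat_lit 0) (nat_lit 0) (XT.lf (nat_lit 0) (nat_lit 17386942569) (nat_lit 252) (nat_lit 34841659841) (nat_lit 84) (nat_lit 2820090099) (nat_lit 6) (nat_lit 5) (nat_lit 9) (nat_lit 5) (nat_lit 7) (nat_lit 4) (nat_lit 406) (nat_lit 309) (nat_lit 173)) (XT.lf (nat_lit 0) (nat_lit 19985891967) (nat_lit 252) (nat_lit 29596912061) (nat_lit 84) (nat_lit 7023196646) (nat_lit 6) (nat_lit 5) (nat_lit 9) (nat_lit 5) (nat_lit 7) (nat_lit 4) (nat_lit 407) (nat_lit 309) (nat_lit 172)))) (XT.nd (nat_lit 94) (nat_lit 0) (nat_lit 0) (XT.lf (nat_lit 0) (nat_lit 22661589832) (nat_lit 252) (nat_lit 24195274302) (nat_lit 84) (nat_lit 11354856735) (nat_lit 6) (nat_lit 5) (nat_lit 9) (nat_lit 5) (nat_lit 7) (nat_lit 4) (nat_lit 408) (nat_lit 309)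 (nat_lit 171)) (XT.nd (nat_lit 94) (nat_lit 0) (nat_lit 0) (XT.lf (nat_lit 0) (nat_lit 25416530194) (nat_lit 252) (nat_lit 18631711671) (nat_lit 84) (nat_lit 15819107927) (nat_lit 6) (nat_lit 5) (nat_lit 9) (nat_lit 5) (nat_lit 7) (nat_lit 4) (nat_lit 409) (nat_lit 309) (nat_lit 170)) (XT.lf (nat_lit 0) (nat_lit 28253280948) (nat_lit 252) (nat_lit 12901038346) (nat_lit 84) (nat_lit 20420111373) (nat_lit 6) (nat_lit 5) (nat_lit 9) (nat_lit 5) (nat_lit 7) (nat_lit 4) (nat_lit 410) (nat_lit 309) (nat_lit 169))))) (XT.nd (nat_lit 282) (nat_lit 0) (nat_lit 0) (XT.nd (nat_lit 94) (nat_lit 84) (nat_lit 0) (XT.lf (nat_lit 0) (nat_lit 31174486240) (nat_lit 252) (nat_lit 6997912739) (nat_lit 84) (nat_lit 25162155688) (nat_lit 6) (nat_lit 5) (nat_lit 9) (nat_lit 5) (nat_lit 7) (nat_lit 4) (nat_lit 411) (nat_lit 309) (nat_lit 168)) (XT.nd (nat_lit 94) (nat_lit 84) (nat_lit 0) (XT.lf (nat_lit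 0) (nat_lit 34182868942) (nat_lit 252) (nat_lit 916832518) (nat_lit 84) (nat_lit 30049660956) (nat_lit 6) (nat_lit 5) (nat_lit 9) (nat_lit 5) (nat_lit 7) (nat_lit 4) (nat_lit 412) (nat_lit 309) (nat_lit 167)) (XT.lf (nat_lit 0) (nat_lit 5457833706) (nat_lit 84) (nat_lit 31877541860) (nat_lit 168) (nat_lit 29683491523) (nat_lit 5) (nat_lit 5) (nat_lit 6) (nat_lit 5) (nat_lit 7) (nat_lit 4) (nat_lit 413) (nat_lit 309) (nat_lit 166)))) (XT.nd (nat_lit 188) (nat_lit 0) (nat_lit 0) (XT.nd (nat_lit 94) (nat_lit 0) (nat_lit 0) (XT.lf (nat_lit 0) (nat_lit 12044709796) (nat_lit 84) (nat_lit 28547242171) (nat_lit 168) (nat_lit 28354192064) (nat_lit 5) (nat_lit 5) (nat_lit 6) (nat_lit 5) (nat_lit 7) (nat_lit 4) (nat_lit 414) (nat_lit 309) (nat_lit 165)) (XT.lf (nat_lit 0) (nat_lit 18831083452) (nat_lit 84) (nat_lit 25115268058) (nat_lit 168) (nat_lit 26986925902) (nat_lit 5) (nat_lit 5) (nat_lit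 6) (nat_lit 5) (nat_lit 7) (nat_lit 4) (nat_lit 415) (nat_lit 309) (nat_lit 164))) (XT.nd (nat_lit 94) (nat_lit 0) (nat_lit 0) (XT.lf (nat_lit 0) (nat_lit 25823280286) (nat_lit 84) (nat_lit 21578420560) (nat_lit 168) (nat_lit 25580418603) (nat_lit 5) (nat_lit 5) (nat_lit 6) (nat_lit 5) (nat_lit 7) (nat_lit 4) (nat_lit 416) (nat_lit 309) (nat_lit 163)) (XT.lf (nat_lit 0) (nat_lit 33027817757) (nat_lit 84) (nat_lit 17933402965) (nat_lit 168) (nat_lit 24133359153) (nat_lit 5) (nat_lit 5) (nat_lit 6) (nat_lit 5) (nat_lit 7) (nat_lit 4) (nat_lit 417) (nat_lit 309) (nat_lit 162))))))) (XT.nd (nat_lit 46154) (nat_lit 0) (nat_lit 7644) (XT.nd (nat_lit 564) (nat_lit 0) (nat_lit 0) (XT.nd (nat_lit 282) (nat_lit 0) (nat_lit 0) (XT.nd (nat_lit 94) (nat_lit 0) (nat_lit 0) (XT.lf (nat_lit 0) (nat_lit 40451411249) (nat_lit 84) (nat_lit 14176817735) (nat_lit 168) (nat_lit 22644398742) (nat_lit 5)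 (nat_lit 5) (nat_lit 6) (nat_lit 5) (nat_lit 7) (nat_lit 4) (nat_lit 418) (nat_lit 309) (nat_lit 161)) (XT.nd (nat_lit 94) (nat_lit 0) (nat_lit 0) (XT.lf (nat_lit 0) (nat_lit 48100980330) (nat_lit 84) (nat_lit 10305163339) (nat_lit 168) (nat_lit 21112149503) (nat_lit 5) (nat_lit 5) (nat_lit 6) (nat_lit 5) (nat_lit 7) (nat_lit 4) (nat_lit 419) (nat_lit 309) (nat_lit 160)) (XT.lf (nat_lit 0) (nat_lit 55983655198) (nat_lit 84) (nat_lit 6314830990) (nat_lit 168) (nat_lit 19535183219) (nat_lit 5) (nat_lit 5) (nat_lit 6) (nat_lit 5) (nat_lit 7) (nat_lit 4) (nat_lit 420) (nat_lit 309) (nat_lit 159)))) (XT.nd (nat_lit 94) (nat_lit 0) (nat_lit 0) (XT.lf (nat_lit 0) (nat_lit 64106783332) (nat_lit 84) (nat_lit 2202101280) (nat_lit 168) (nat_lit 17912029992) (nat_lit 5) (nat_lit 5) (nat_lit 6) (nat_lit 5) (nat_lit 7) (nat_lit 4) (nat_lit 421) (nat_lit 309) (nat_lit 158)) (XT.nd (nat_lit 94)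 (nat_lit 0) (nat_lit 0) (XT.lf (nat_lit 0) (nat_lit 70461282949) (nat_lit 168) (nat_lit 14224523483) (nat_lit 0) (nat_lit 1995821111) (nat_lit 5) (nat_lit 5) (nat_lit 7) (nat_lit 4) (nat_lit 5) (nat_lit 4) (nat_lit 422) (nat_lit 309) (nat_lit 157)) (XT.lf (nat_lit 0) (nat_lit 74762463477) (nat_lit 168) (nat_lit 8178612921) (nat_lit 0) (nat_lit 6276935202) (nat_lit 5) (nat_lit 5) (nat_lit 7) (nat_lit 4) (nat_lit 5) (nat_lit 4) (nat_lit 423) (nat_lit 309) (nat_lit 156))))) (XT.nd (nat_lit 45214) (nat_lit 0) (nat_lit 8988) (XT.nd (nat_lit 45026) (nat_lit 0) (nat_lit 8988) (XT.lf (nat_lit 0) (nat_lit 79194590231) (nat_lit 168) (nat_lit 1948919045) (nat_lit 0) (nat_lit 10689598875) (nat_lit 5) (nat_lit 5) (nat_lit 7) (nat_lit 4) (nat_lit 5) (nat_lit 4) (nat_lit 424) (nat_lit 309) (nat_lit 155)) (XT.nd (nat_lit 94) (nat_lit 0) (nat_lit 0) (XT.lf (nat_lit 0) (nat_lit 79554930) (nat_lit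 756) (nat_lit 1812691807) (nat_lit 756) (nat_lit 1812691807) (nat_lit 112) (nat_lit 3) (nat_lit 121) (nat_lit 3) (nat_lit 121) (nat_lit 5) (nat_lit 310) (nat_lit 310) (nat_lit 268)) (XT.lf (nat_lit 0) (nat_lit 1303870949) (nat_lit 756) (nat_lit 1114519867) (nat_lit 756) (nat_lit 5061085700) (nat_lit 112) (nat_lit 3) (nat_lit 121) (nat_lit 3) (nat_lit 121) (nat_lit 5) (nat_lit 311) (nat_lit 310) (nat_lit 267)))) (XT.nd (nat_lit 188) (nat_lit 0) (nat_lit 84) (XT.nd (nat_lit 94) (nat_lit 0) (nat_lit 84) (XT.lf (nat_lit 84) (nat_lit 1480074401) (nat_lit 0) (nat_lit 972698360) (nat_lit 756) (nat_lit 5099829127) (nat_lit 113) (nat_lit 5) (nat_lit 112) (nat_lit 3) (nat_lit 121) (nat_lit 5) (nat_lit 312) (nat_lit 310) (nat_lit 266)) (XT.lf (nat_lit 0) (nat_lit 3609509490) (nat_lit 672) (nat_lit 3479831380) (nat_lit 756) (nat_lit 539899174) (nat_lit 113) (nat_lit 5) (nat_lit 121) (nat_lit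 5) (nat_lit 122) (nat_lit 5) (nat_lit 313) (nat_lit 310) (nat_lit 265))) (XT.nd (nat_lit 94) (nat_lit 0) (nat_lit 0) (XT.lf (nat_lit 0) (nat_lit 4768726539) (nat_lit 672) (nat_lit 841608717) (nat_lit 756) (nat_lit 2099326576) (nat_lit 113) (nat_lit 5) (nat_lit 121) (nat_lit 5) (nat_lit 122) (nat_lit 5) (nat_lit 314) (nat_lit 310) (nat_lit 264)) (XT.lf (nat_lit 84) (nat_lit 1892376046) (nat_lit 0) (nat_lit 4048251692) (nat_lit 756) (nat_lit 1853031658) (nat_lit 114) (nat_lit 5) (nat_lit 113) (nat_lit 5) (nat_lit 122) (nat_lit 5) (nat_lit 315) (nat_lit 310) (nat_lit 263)))))) (XT.nd (nat_lit 564) (nat_lit 672) (nat_lit 0) (XT.nd (nat_lit 282) (nat_lit 0) (nat_lit 84) (XT.nd (nat_lit 94) (nat_lit 756) (nat_lit 0) (XT.lf (nat_lit 84) (nat_lit 4705050536) (nat_lit 0) (nat_lit 2411594257) (nat_lit 756) (nat_lit 764965714) (nat_lit 114) (nat_lit 5) (nat_lit 113) (nat_lit 5) (nat_lit 122)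 (nat_lit 5) (nat_lit 316) (nat_lit 310) (nat_lit 262)) (XT.nd (nat_lit 94) (nat_lit 0) (nat_lit 84) (XT.lf (nat_lit 0) (nat_lit 309135599) (nat_lit 756) (nat_lit 395259744) (nat_lit 840) (nat_lit 7269368918) (nat_lit 104) (nat_lit 5) (nat_lit 113) (nat_lit 5) (nat_lit 114) (nat_lit 5) (nat_lit 317) (nat_lit 310) (nat_lit 261)) (XT.lf (nat_lit 0) (nat_lit 1397028732) (nat_lit 756) (nat_lit 5589257936) (nat_lit 840) (nat_lit 1082677943) (nat_lit 105) (nat_lit 5) (nat_lit 114) (nat_lit 5) (nat_lit 115) (nat_lit 5) (nat_lit 318) (nat_lit 310) (nat_lit 260)))) (XT.nd (nat_lit 94) (nat_lit 0) (nat_lit 0) (XT.lf (nat_lit 0) (nat_lit 2491829100) (nat_lit 756) (nat_lit 2747084495) (nat_lit 840) (nat_lit 2929344585) (nat_lit 105) (nat_lit 5) (nat_lit 114) (nat_lit 5) (nat_lit 115) (nat_lit 5) (nat_lit 319) (nat_lit 310) (nat_lit 259)) (XT.nd (nat_lit 94) (nat_lit 0) (nat_lit 0) (XT.lf (nat_lit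 84) (nat_lit 162190512) (nat_lit 0) (nat_lit 3422945342) (nat_lit 840) (nat_lit 4686893725) (nat_lit 106) (nat_lit 5) (nat_lit 105) (nat_lit 5) (nat_lit 115) (nat_lit 5) (nat_lit 320) (nat_lit 310) (nat_lit 258)) (XT.lf (nat_lit 84) (nat_lit 3195861953) (nat_lit 0) (nat_lit 1508981116) (nat_lit 840) (nat_lit 3674699341) (nat_lit 106) (nat_lit 5) (nat_lit 105) (nat_lit 5) (nat_lit 115) (nat_lit 5) (nat_lit 321) (nat_lit 310) (nat_lit 257))))) (XT.nd (nat_lit 282) (nat_lit 840) (nat_lit 0) (XT.nd (nat_lit 94) (nat_lit 0) (nat_lit 0) (XT.lf (nat_lit 0) (nat_lit 5828905529) (nat_lit 756) (nat_lit 2196210079) (nat_lit 840) (nat_lit 466497035) (nat_lit 106) (nat_lit 5) (nat_lit 115) (nat_lit 5) (nat_lit 116) (nat_lit 5) (nat_lit 322) (nat_lit 310) (nat_lit 256)) (XT.nd (nat_lit 94) (nat_lit 0) (nat_lit 0) (XT.lf (nat_lit 84) (nat_lit 861753362) (nat_lit 0) (nat_lit 6116132064) (nat_lit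 840) (nat_lit 1629854363) (nat_lit 107) (nat_lit 5) (nat_lit 106) (nat_lit 5) (nat_lit 116) (nat_lit 5) (nat_lit 323) (nat_lit 310) (nat_lit 255)) (XT.lf (nat_lit 84) (nat_lit 4037268031) (nat_lit 0) (nat_lit 4115012553) (nat_lit 840) (nat_lit 575769278) (nat_lit 107) (nat_lit 5) (nat_lit 106) (nat_lit 5) (nat_lit 116) (nat_lit 5) (nat_lit 324) (nat_lit 310) (nat_lit 254)))) (XT.nd (nat_lit 188) (nat_lit 0) (nat_lit 84) (XT.nd (nat_lit 94) (nat_lit 0) (nat_lit 84) (XT.lf (nat_lit 0) (nat_lit 467984018) (nat_lit 840) (nat_lit 1569946938) (nat_lit 924) (nat_lit 6815266442) (nat_lit 96) (nat_lit 5) (nat_lit 106) (nat_lit 5) (nat_lit 107) (nat_lit 5) (nat_lit 325) (nat_lit 310) (nat_lit 253)) (XT.lf (nat_lit 0) (nat_lit 1518128200) (nat_lit 840) (nat_lit 7332365757) (nat_lit 84) (nat_lit 132225514) (nat_lit 97) (nat_lit 5) (nat_lit 107) (nat_lit 5) (nat_lit 98) (nat_lit 5) (nat_lit 326)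 (nat_lit 310) (nat_lit 252))) (XT.nd (nat_lit 94) (nat_lit 0) (nat_lit 0) (XT.lf (nat_lit 0) (nat_lit 2607299467) (nat_lit 840) (nat_lit 4157324013) (nat_lit 84) (nat_lit 2351668625) (nat_lit 97) (nat_lit 5) (nat_lit 107) (nat_lit 5) (nat_lit 98) (nat_lit 5) (nat_lit 327) (nat_lit 310) (nat_lit 251)) (XT.lf (nat_lit 0) (nat_lit 3700239649) (nat_lit 840) (nat_lit 907454599) (nat_lit 84) (nat_lit 4647470033) (nat_lit 97) (nat_lit 5) (nat_lit 107) (nat_lit 5) (nat_lit 98) (nat_lit 5) (nat_lit 328) (nat_lit 310) (nat_lit 250))))))))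
noncomputable def xc119 : XT := (XT.nd (nat_lit 2444) (nat_lit 1848) (nat_lit 0) (XT.nd (nat_lit 1222) (nat_lit 1596) (nat_lit 0) (XT.nd (nat_lit 564) (nat_lit 924) (nat_lit 0) (XT.nd (nat_lit 282) (nat_lit 1680) (nat_lit 0) (XT.nd (nat_lit 94) (nat_lit 0) (nat_lit 0) (XT.lf (nat_lit 0) (nat_lit 2470037452) (nat_lit 840) (nat_lit 2352433105) (nat_lit 924) (nat_lit 4576235290) (nat_lit 87) (nat_lit 5) (nat_lit 97) (nat_lit 5) (nat_lit 98) (nat_lit 5) (nat_lit 329) (nat_lit 310) (nat_lit 249)) (XT.nd (nat_lit 94) (nat_lit 0) (nat_lit 0) (XT.lf (nat_lit 0) (nat_lit 5948811988) (nat_lit 840) (nat_lit 11707122) (nat_lit 924) (nat_lit 3586981581) (nat_lit 87) (nat_lit 5) (nat_lit 97) (nat_lit 5) (nat_lit 98) (nat_lit 5) (nat_lit 330) (nat_lit 310) (nat_lit 248)) (XT.lf (nat_lit 0) (nat_lit 7130138583) (nat_lit 924) (nat_lit 212399505) (nat_lit 84) (nat_lit 2358693950) (nat_lit 87) (nat_lit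 5) (nat_lit 98) (nat_lit 5) (nat_lit 88) (nat_lit 5) (nat_lit 331) (nat_lit 310) (nat_lit 247)))) (XT.nd (nat_lit 94) (nat_lit 756) (nat_lit 0) (XT.lf (nat_lit 0) (nat_lit 3323300587) (nat_lit 924) (nat_lit 5019098237) (nat_lit 1008) (nat_lit 1517334988) (nat_lit 76) (nat_lit 5) (nat_lit 87) (nat_lit 5) (nat_lit 88) (nat_lit 5) (nat_lit 332) (nat_lit 310) (nat_lit 246)) (XT.nd (nat_lit 94) (nat_lit 756) (nat_lit 0) (XT.lf (nat_lit 0) (nat_lit 6950935500) (nat_lit 924) (nat_lit 2617398903) (nat_lit 1008) (nat_lit 455752308) (nat_lit 76) (nat_lit 5) (nat_lit 87) (nat_lit 5) (nat_lit 88) (nat_lit 5) (nat_lit 333) (nat_lit 310) (nat_lit 245)) (XT.lf (nat_lit 0) (nat_lit 478575485) (nat_lit 672) (nat_lit 126260078) (nat_lit 756) (nat_lit 9589339520) (nat_lit 67) (nat_lit 5) (nat_lit 75) (nat_lit 5) (nat_lit 76) (nat_lit 5) (nat_lit 334) (nat_lit 310) (nat_lit 244))))) (XT.nd (nat_lit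 282) (nat_lit 420) (nat_lit 0) (XT.nd (nat_lit 94) (nat_lit 504) (nat_lit 0) (XT.lf (nat_lit 0) (nat_lit 1720272846) (nat_lit 756) (nat_lit 6215193466) (nat_lit 84) (nat_lit 2433130120) (nat_lit 67) (nat_lit 5) (nat_lit 76) (nat_lit 5) (nat_lit 68) (nat_lit 5) (nat_lit 335) (nat_lit 310) (nat_lit 243)) (XT.nd (nat_lit 94) (nat_lit 504) (nat_lit 0) (XT.lf (nat_lit 0) (nat_lit 2847144321) (nat_lit 756) (nat_lit 2629866037) (nat_lit 84) (nat_lit 5072305892) (nat_lit 67) (nat_lit 5) (nat_lit 76) (nat_lit 5) (nat_lit 68) (nat_lit 5) (nat_lit 336) (nat_lit 310) (nat_lit 242)) (XT.lf (nat_lit 0) (nat_lit 1066463976) (nat_lit 504) (nat_lit 2929363315) (nat_lit 588) (nat_lit 6740386561) (nat_lit 61) (nat_lit 5) (nat_lit 67) (nat_lit 5) (nat_lit 68) (nat_lit 5) (nat_lit 337) (nat_lit 310) (nat_lit 241)))) (XT.nd (nat_lit 188) (nat_lit 420) (nat_lit 0) (XT.nd (nat_lit 94) (nat_lit 0) (nat_lit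 0) (XT.lf (nat_lit 0) (nat_lit 4911721541) (nat_lit 504) (nat_lit 272647569) (nat_lit 588) (nat_lit 5744568060) (nat_lit 61) (nat_lit 5) (nat_lit 67) (nat_lit 5) (nat_lit 68) (nat_lit 5) (nat_lit 338) (nat_lit 310) (nat_lit 240)) (XT.lf (nat_lit 0) (nat_lit 6411737071) (nat_lit 588) (nat_lit 2297560300) (nat_lit 84) (nat_lit 2418434828) (nat_lit 61) (nat_lit 5) (nat_lit 68) (nat_lit 5) (nat_lit 62) (nat_lit 5) (nat_lit 339) (nat_lit 310) (nat_lit 239))) (XT.nd (nat_lit 94) (nat_lit 0) (nat_lit 0) (XT.lf (nat_lit 0) (nat_lit 1544749513) (nat_lit 420) (nat_lit 6128706770) (nat_lit 504) (nat_lit 3659502140) (nat_lit 56) (nat_lit 5) (nat_lit 61) (nat_lit 5) (nat_lit 62) (nat_lit 5) (nat_lit 340) (nat_lit 310) (nat_lit 238)) (XT.lf (nat_lit 0) (nat_lit 5534100955) (nat_lit 420) (nat_lit 3442809513) (nat_lit 504) (nat_lit 2567704229) (nat_lit 56) (nat_lit 5) (nat_lit 61) (nat_lit 5) (nat_lit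 62) (nat_lit 5) (nat_lit 341) (nat_lit 310) (nat_lit 237)))))) (XT.nd (nat_lit 564) (nat_lit 756) (nat_lit 0) (XT.nd (nat_lit 282) (nat_lit 336) (nat_lit 0) (XT.nd (nat_lit 94) (nat_lit 504) (nat_lit 0) (XT.lf (nat_lit 0) (nat_lit 9626969966) (nat_lit 420) (nat_lit 673083880) (nat_lit 504) (nat_lit 1463565544) (nat_lit 56) (nat_lit 5) (nat_lit 61) (nat_lit 5) (nat_lit 62) (nat_lit 5) (nat_lit 342) (nat_lit 310) (nat_lit 236)) (XT.nd (nat_lit 94) (nat_lit 84) (nat_lit 0) (XT.lf (nat_lit 0) (nat_lit 1852665835) (nat_lit 420) (nat_lit 9831488709) (nat_lit 504) (nat_lit 304781013) (nat_lit 51) (nat_lit 5) (nat_lit 56) (nat_lit 5) (nat_lit 57) (nat_lit 5) (nat_lit 343) (nat_lit 310) (nat_lit 235)) (XT.lf (nat_lit 0) (nat_lit 881390448) (nat_lit 504) (nat_lit 6246193140) (nat_lit 84) (nat_lit 5093220177) (nat_lit 50) (nat_lit 5) (nat_lit 56) (nat_lit 5) (nat_lit 51) (nat_lit 5) (nat_lit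 344) (nat_lit 310) (nat_lit 234)))) (XT.nd (nat_lit 94) (nat_lit 336) (nat_lit 0) (XT.lf (nat_lit 0) (nat_lit 2078584389) (nat_lit 504) (nat_lit 2258673729) (nat_lit 84) (nat_lit 8123235258) (nat_lit 50) (nat_lit 5) (nat_lit 56) (nat_lit 5) (nat_lit 51) (nat_lit 5) (nat_lit 345) (nat_lit 310) (nat_lit 233)) (XT.nd (nat_lit 94) (nat_lit 0) (nat_lit 0) (XT.lf (nat_lit 0) (nat_lit 1870719589) (nat_lit 336) (nat_lit 1441895559) (nat_lit 420) (nat_lit 9395131099) (nat_lit 46) (nat_lit 5) (nat_lit 50) (nat_lit 5) (nat_lit 51) (nat_lit 5) (nat_lit 346) (nat_lit 310) (nat_lit 232)) (XT.lf (nat_lit 0) (nat_lit 4605560726) (nat_lit 420) (nat_lit 6821394816) (nat_lit 84) (nat_lit 1535188540) (nat_lit 46) (nat_lit 5) (nat_lit 51) (nat_lit 5) (nat_lit 47) (nat_lit 5) (nat_lit 347) (nat_lit 310) (nat_lit 231))))) (XT.nd (nat_lit 282) (nat_lit 336) (nat_lit 0) (XT.nd (nat_lit 94) (nat_lit 420)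 (nat_lit 0) (XT.lf (nat_lit 0) (nat_lit 5935423904) (nat_lit 420) (nat_lit 2715345098) (nat_lit 84) (nat_lit 4573874277) (nat_lit 46) (nat_lit 5) (nat_lit 51) (nat_lit 5) (nat_lit 47) (nat_lit 5) (nat_lit 348) (nat_lit 310) (nat_lit 230)) (XT.nd (nat_lit 94) (nat_lit 0) (nat_lit 0) (XT.lf (nat_lit 0) (nat_lit 1530081273) (nat_lit 420) (nat_lit 5774237794) (nat_lit 504) (nat_lit 6191142328) (nat_lit 41) (nat_lit 5) (nat_lit 46) (nat_lit 5) (nat_lit 47) (nat_lit 5) (nat_lit 349) (nat_lit 310) (nat_lit 229)) (XT.lf (nat_lit 0) (nat_lit 5946130847) (nat_lit 420) (nat_lit 2780827743) (nat_lit 504) (nat_lit 5047475743) (nat_lit 41) (nat_lit 5) (nat_lit 46) (nat_lit 5) (nat_lit 47) (nat_lit 5) (nat_lit 350) (nat_lit 310) (nat_lit 228)))) (XT.nd (nat_lit 188) (nat_lit 0) (nat_lit 0) (XT.nd (nat_lit 94) (nat_lit 336) (nat_lit 0) (XT.lf (nat_lit 0) (nat_lit 10180192902) (nat_lit 504) (nat_lit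 3584602360) (nat_lit 84) (nat_lit 297785607) (nat_lit 41) (nat_lit 5) (nat_lit 47) (nat_lit 5) (nat_lit 42) (nat_lit 5) (nat_lit 351) (nat_lit 310) (nat_lit 227)) (XT.lf (nat_lit 0) (nat_lit 759477584) (nat_lit 336) (nat_lit 10938936123) (nat_lit 420) (nat_lit 2660731727) (nat_lit 37) (nat_lit 5) (nat_lit 41) (nat_lit 5) (nat_lit 42) (nat_lit 5) (nat_lit 352) (nat_lit 310) (nat_lit 226))) (XT.nd (nat_lit 94) (nat_lit 0) (nat_lit 0) (XT.lf (nat_lit 0) (nat_lit 5296361926) (nat_lit 336) (nat_lit 7989019274) (nat_lit 420) (nat_lit 1378950563) (nat_lit 37) (nat_lit 5) (nat_lit 41) (nat_lit 5) (nat_lit 42) (nat_lit 5) (nat_lit 353) (nat_lit 310) (nat_lit 225)) (XT.lf (nat_lit 0) (nat_lit 9956572740) (nat_lit 336) (nat_lit 4949710981) (nat_lit 420) (nat_lit 73265615) (nat_lit 37) (nat_lit 5) (nat_lit 41) (nat_lit 5) (nat_lit 42) (nat_lit 5) (nat_lit 354) (nat_lit 310) (nat_lit 224)))))))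 (XT.nd (nat_lit 1222) (nat_lit 588) (nat_lit 0) (XT.nd (nat_lit 564) (nat_lit 588) (nat_lit 0) (XT.nd (nat_lit 282) (nat_lit 252) (nat_lit 0) (XT.nd (nat_lit 94) (nat_lit 336) (nat_lit 0) (XT.lf (nat_lit 0) (nat_lit 1232203518) (nat_lit 420) (nat_lit 573113094) (nat_lit 84) (nat_lit 13499388635) (nat_lit 36) (nat_lit 5) (nat_lit 41) (nat_lit 5) (nat_lit 37) (nat_lit 5) (nat_lit 355) (nat_lit 310) (nat_lit 223)) (XT.nd (nat_lit 94) (nat_lit 0) (nat_lit 0) (XT.lf (nat_lit 0) (nat_lit 2617147054) (nat_lit 420) (nat_lit 11574397467) (nat_lit 84) (nat_lit 1447205766) (nat_lit 32) (nat_lit 5) (nat_lit 37) (nat_lit 5) (nat_lit 33) (nat_lit 5) (nat_lit 356) (nat_lit 310) (nat_lit 222)) (XT.lf (nat_lit 0) (nat_lit 4055190909) (nat_lit 420) (nat_lit 7160780331) (nat_lit 84) (nat_lit 4766950490) (nat_lit 32) (nat_lit 5) (nat_lit 37) (nat_lit 5) (nat_lit 33) (nat_lit 5) (nat_lit 357) (nat_lit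 310) (nat_lit 221)))) (XT.nd (nat_lit 94) (nat_lit 252) (nat_lit 0) (XT.lf (nat_lit 0) (nat_lit 5523904928) (nat_lit 420) (nat_lit 2626848921) (nat_lit 84) (nat_lit 8187523417) (nat_lit 32) (nat_lit 5) (nat_lit 37) (nat_lit 5) (nat_lit 33) (nat_lit 5) (nat_lit 358) (nat_lit 310) (nat_lit 220)) (XT.nd (nat_lit 94) (nat_lit 0) (nat_lit 0) (XT.lf (nat_lit 0) (nat_lit 2073397194) (nat_lit 252) (nat_lit 4971829268) (nat_lit 336) (nat_lit 9659284043) (nat_lit 29) (nat_lit 5) (nat_lit 32) (nat_lit 5) (nat_lit 33) (nat_lit 5) (nat_lit 359) (nat_lit 310) (nat_lit 219)) (XT.lf (nat_lit 0) (nat_lit 6959189357) (nat_lit 252) (nat_lit 1668695964) (nat_lit 336) (nat_lit 8453850828) (nat_lit 29) (nat_lit 5) (nat_lit 32) (nat_lit 5) (nat_lit 33) (nat_lit 5) (nat_lit 360) (nat_lit 310) (nat_lit 218))))) (XT.nd (nat_lit 282) (nat_lit 336) (nat_lit 0) (XT.nd (nat_lit 94) (nat_lit 252) (nat_lit 0) (XT.lf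 (nat_lit 0) (nat_lit 10263966752) (nat_lit 336) (nat_lit 5507266537) (nat_lit 84) (nat_lit 1699363612) (nat_lit 29) (nat_lit 5) (nat_lit 33) (nat_lit 5) (nat_lit 30) (nat_lit 5) (nat_lit 361) (nat_lit 310) (nat_lit 217)) (XT.nd (nat_lit 94) (nat_lit 252) (nat_lit 0) (XT.lf (nat_lit 0) (nat_lit 11955351035) (nat_lit 336) (nat_lit 781325898) (nat_lit 84) (nat_lit 5134767273) (nat_lit 29) (nat_lit 5) (nat_lit 33) (nat_lit 5) (nat_lit 30) (nat_lit 5) (nat_lit 362) (nat_lit 310) (nat_lit 216)) (XT.lf (nat_lit 0) (nat_lit 4160049593) (nat_lit 252) (nat_lit 9568279658) (nat_lit 336) (nat_lit 4555556293) (nat_lit 26) (nat_lit 5) (nat_lit 29) (nat_lit 5) (nat_lit 30) (nat_lit 5) (nat_lit 363) (nat_lit 310) (nat_lit 215)))) (XT.nd (nat_lit 188) (nat_lit 336) (nat_lit 0) (XT.nd (nat_lit 94) (nat_lit 0) (nat_lit 0) (XT.lf (nat_lit 0) (nat_lit 9256437086) (nat_lit 252) (nat_lit 6296098833) (nat_lit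 336) (nat_lit 3156761997) (nat_lit 26) (nat_lit 5) (nat_lit 29) (nat_lit 5) (nat_lit 30) (nat_lit 5) (nat_lit 364) (nat_lit 310) (nat_lit 214)) (XT.lf (nat_lit 0) (nat_lit 14496521285) (nat_lit 252) (nat_lit 2925239883) (nat_lit 336) (nat_lit 1726561901) (nat_lit 26) (nat_lit 5) (nat_lit 29) (nat_lit 5) (nat_lit 30) (nat_lit 5) (nat_lit 365) (nat_lit 310) (nat_lit 213))) (XT.nd (nat_lit 94) (nat_lit 84) (nat_lit 0) (XT.lf (nat_lit 0) (nat_lit 284109794) (nat_lit 252) (nat_lit 19061886584) (nat_lit 336) (nat_lit 255118117) (nat_lit 23) (nat_lit 5) (nat_lit 26) (nat_lit 5) (nat_lit 27) (nat_lit 5) (nat_lit 366) (nat_lit 310) (nat_lit 212)) (XT.lf (nat_lit 0) (nat_lit 1304296018) (nat_lit 336) (nat_lit 14652115090) (nat_lit 84) (nat_lit 4109103663) (nat_lit 22) (nat_lit 5) (nat_lit 26) (nat_lit 5) (nat_lit 23) (nat_lit 5) (nat_lit 367) (nat_lit 310) (nat_lit 211)))))) (XT.nd (nat_lit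 564) (nat_lit 336) (nat_lit 0) (XT.nd (nat_lit 282) (nat_lit 0) (nat_lit 0) (XT.nd (nat_lit 94) (nat_lit 252) (nat_lit 0) (XT.lf (nat_lit 0) (nat_lit 2895899712) (nat_lit 336) (nat_lit 9859185040) (nat_lit 84) (nat_lit 7789542007) (nat_lit 22) (nat_lit 5) (nat_lit 26) (nat_lit 5) (nat_lit 23) (nat_lit 5) (nat_lit 368) (nat_lit 310) (nat_lit 210)) (XT.nd (nat_lit 94) (nat_lit 252) (nat_lit 0) (XT.lf (nat_lit 0) (nat_lit 4526316566) (nat_lit 336) (nat_lit 4931216233) (nat_lit 84) (nat_lit 11581442692) (nat_lit 22) (nat_lit 5) (nat_lit 26) (nat_lit 5) (nat_lit 23) (nat_lit 5) (nat_lit 369) (nat_lit 310) (nat_lit 209)) (XT.lf (nat_lit 0) (nat_lit 139189062) (nat_lit 252) (nat_lit 6059258011) (nat_lit 336) (nat_lit 15350531879) (nat_lit 19) (nat_lit 5) (nat_lit 22) (nat_lit 5) (nat_lit 23) (nat_lit 5) (nat_lit 370) (nat_lit 310) (nat_lit 208)))) (XT.nd (nat_lit 94) (nat_lit 0) (nat_lit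 0) (XT.lf (nat_lit 0) (nat_lit 5458314200) (nat_lit 252) (nat_lit 2505539181) (nat_lit 336) (nat_lit 14109709026) (nat_lit 19) (nat_lit 5) (nat_lit 22) (nat_lit 5) (nat_lit 23) (nat_lit 5) (nat_lit 371) (nat_lit 310) (nat_lit 207)) (XT.nd (nat_lit 94) (nat_lit 0) (nat_lit 0) (XT.lf (nat_lit 0) (nat_lit 9785719248) (nat_lit 336) (nat_lit 11696503578) (nat_lit 84) (nat_lit 1132184312) (nat_lit 19) (nat_lit 5) (nat_lit 23) (nat_lit 5) (nat_lit 20) (nat_lit 5) (nat_lit 372) (nat_lit 310) (nat_lit 206)) (XT.lf (nat_lit 0) (nat_lit 11680223197) (nat_lit 336) (nat_lit 6663451572) (nat_lit 84) (nat_lit 4827893610) (nat_lit 19) (nat_lit 5) (nat_lit 23) (nat_lit 5) (nat_lit 20) (nat_lit 5) (nat_lit 373) (nat_lit 310) (nat_lit 205))))) (XT.nd (nat_lit 282) (nat_lit 168) (nat_lit 0) (XT.nd (nat_lit 94) (nat_lit 168) (nat_lit 0) (XT.lf (nat_lit 0) (nat_lit 13624275846) (nat_lit 336) (nat_lit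 1486545598) (nat_lit 84) (nat_lit 8635514530) (nat_lit 19) (nat_lit 5) (nat_lit 23) (nat_lit 5) (nat_lit 20) (nat_lit 5) (nat_lit 374) (nat_lit 310) (nat_lit 204)) (XT.nd (nat_lit 94) (nat_lit 0) (nat_lit 0) (XT.lf (nat_lit 0) (nat_lit 3917978292) (nat_lit 168) (nat_lit 11740577793) (nat_lit 252) (nat_lit 8679484712) (nat_lit 17) (nat_lit 5) (nat_lit 19) (nat_lit 5) (nat_lit 20) (nat_lit 5) (nat_lit 375) (nat_lit 310) (nat_lit 203)) (XT.lf (nat_lit 0) (nat_lit 9509871222) (nat_lit 168) (nat_lit 8252791237) (nat_lit 252) (nat_lit 7185263143) (nat_lit 17) (nat_lit 5) (nat_lit 19) (nat_lit 5) (nat_lit 20) (nat_lit 5) (nat_lit 376) (nat_lit 310) (nat_lit 202)))) (XT.nd (nat_lit 188) (nat_lit 168) (nat_lit 0) (XT.nd (nat_lit 94) (nat_lit 0) (nat_lit 0) (XT.lf (nat_lit 0) (nat_lit 15263778994) (nat_lit 168) (nat_lit 4659727284) (nat_lit 252) (nat_lit 5653519139) (nat_lit 17) (nat_lit 5)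 (nat_lit 19) (nat_lit 5) (nat_lit 20) (nat_lit 5) (nat_lit 377) (nat_lit 310) (nat_lit 201)) (XT.lf (nat_lit 0) (nat_lit 21185064854) (nat_lit 168) (nat_lit 958036819) (nat_lit 252) (nat_lit 4082824953) (nat_lit 17) (nat_lit 5) (nat_lit 19) (nat_lit 5) (nat_lit 20) (nat_lit 5) (nat_lit 378) (nat_lit 310) (nat_lit 200))) (XT.nd (nat_lit 94) (nat_lit 0) (nat_lit 0) (XT.lf (nat_lit 0) (nat_lit 362998392) (nat_lit 168) (nat_lit 24092449338) (nat_lit 252) (nat_lit 2438796510) (nat_lit 15) (nat_lit 5) (nat_lit 17) (nat_lit 5) (nat_lit 18) (nat_lit 5) (nat_lit 379) (nat_lit 310) (nat_lit 199)) (XT.lf (nat_lit 0) (nat_lit 6020426247) (nat_lit 168) (nat_lit 20873485919) (nat_lit 252) (nat_lit 687721449) (nat_lit 15) (nat_lit 5) (nat_lit 17) (nat_lit 5) (nat_lit 18) (nat_lit 5) (nat_lit 380) (nat_lit 310) (nat_lit 198))))))))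
noncomputable def xc120 : XT := (XT.nd (nat_lit 2350) (nat_lit 84) (nat_lit 0) (XT.nd (nat_lit 1128) (nat_lit 336) (nat_lit 0) (XT.nd (nat_lit 564) (nat_lit 168) (nat_lit 0) (XT.nd (nat_lit 282) (nat_lit 168) (nat_lit 0) (XT.nd (nat_lit 94) (nat_lit 0) (nat_lit 0) (XT.lf (nat_lit 0) (nat_lit 1087358570) (nat_lit 252) (nat_lit 16458873784) (nat_lit 84) (nat_lit 10744035548) (nat_lit 14) (nat_lit 5) (nat_lit 17) (nat_lit 5) (nat_lit 15) (nat_lit 5) (nat_lit 381) (nat_lit 310) (nat_lit 197)) (XT.nd (nat_lit 94) (nat_lit 0) (nat_lit 0) (XT.lf (nat_lit 0) (nat_lit 2895653345) (nat_lit 252) (nat_lit 11215769228) (nat_lit 84) (nat_lit 14909500370) (nat_lit 14) (nat_lit 5) (nat_lit 17) (nat_lit 5) (nat_lit 15) (nat_lit 5) (nat_lit 382) (nat_lit 310) (nat_lit 196)) (XT.lf (nat_lit 0) (nat_lit 4752704451) (nat_lit 252) (nat_lit 5820184296) (nat_lit 84) (nat_lit 19201602530) (nat_lit 14) (nat_lit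 5) (nat_lit 17) (nat_lit 5) (nat_lit 15) (nat_lit 5) (nat_lit 383) (nat_lit 310) (nat_lit 195)))) (XT.nd (nat_lit 94) (nat_lit 168) (nat_lit 0) (XT.lf (nat_lit 0) (nat_lit 6660242853) (nat_lit 252) (nat_lit 267089736) (nat_lit 84) (nat_lit 23624342715) (nat_lit 14) (nat_lit 5) (nat_lit 17) (nat_lit 5) (nat_lit 15) (nat_lit 5) (nat_lit 384) (nat_lit 310) (nat_lit 194)) (XT.nd (nat_lit 94) (nat_lit 0) (nat_lit 0) (XT.lf (nat_lit 0) (nat_lit 5560726767) (nat_lit 168) (nat_lit 3114482907) (nat_lit 252) (nat_lit 22676279714) (nat_lit 12) (nat_lit 5) (nat_lit 14) (nat_lit 5) (nat_lit 15) (nat_lit 5) (nat_lit 385) (nat_lit 310) (nat_lit 193)) (XT.lf (nat_lit 0) (nat_lit 10756776641) (nat_lit 252) (nat_lit 20618853903) (nat_lit 84) (nat_lit 800372395) (nat_lit 12) (nat_lit 5) (nat_lit 15) (nat_lit 5) (nat_lit 13) (nat_lit 5) (nat_lit 386) (nat_lit 310) (nat_lit 192))))) (XT.nd (nat_lit 282)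 (nat_lit 168) (nat_lit 0) (XT.nd (nat_lit 94) (nat_lit 0) (nat_lit 0) (XT.lf (nat_lit 0) (nat_lit 12928149260) (nat_lit 252) (nat_lit 15327763176) (nat_lit 84) (nat_lit 4769412829) (nat_lit 12) (nat_lit 5) (nat_lit 15) (nat_lit 5) (nat_lit 13) (nat_lit 5) (nat_lit 387) (nat_lit 310) (nat_lit 191)) (XT.nd (nat_lit 94) (nat_lit 0) (nat_lit 0) (XT.lf (nat_lit 0) (nat_lit 15160455423) (nat_lit 252) (nat_lit 9881662535) (nat_lit 84) (nat_lit 8859087846) (nat_lit 12) (nat_lit 5) (nat_lit 15) (nat_lit 5) (nat_lit 13) (nat_lit 5) (nat_lit 388) (nat_lit 310) (nat_lit 190)) (XT.lf (nat_lit 0) (nat_lit 17455775872) (nat_lit 252) (nat_lit 4275475642) (nat_lit 84) (nat_lit 13073209451) (nat_lit 12) (nat_lit 5) (nat_lit 15) (nat_lit 5) (nat_lit 13) (nat_lit 5) (nat_lit 389) (nat_lit 310) (nat_lit 189)))) (XT.nd (nat_lit 94) (nat_lit 0) (nat_lit 0) (XT.lf (nat_lit 0) (nat_lit 1526784356) (nat_lit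 168) (nat_lit 18304611621) (nat_lit 252) (nat_lit 15904067179) (nat_lit 10) (nat_lit 5) (nat_lit 12) (nat_lit 5) (nat_lit 13) (nat_lit 5) (nat_lit 390) (nat_lit 310) (nat_lit 188)) (XT.nd (nat_lit 94) (nat_lit 0) (nat_lit 0) (XT.lf (nat_lit 0) (nat_lit 7591158115) (nat_lit 168) (nat_lit 14728225391) (nat_lit 252) (nat_lit 14374771206) (nat_lit 10) (nat_lit 5) (nat_lit 12) (nat_lit 5) (nat_lit 13) (nat_lit 5) (nat_lit 391) (nat_lit 310) (nat_lit 187)) (XT.lf (nat_lit 0) (nat_lit 13835385718) (nat_lit 168) (nat_lit 11043386454) (nat_lit 252) (nat_lit 12803998906) (nat_lit 10) (nat_lit 5) (nat_lit 12) (nat_lit 5) (nat_lit 13) (nat_lit 5) (nat_lit 392) (nat_lit 310) (nat_lit 186)))))) (XT.nd (nat_lit 564) (nat_lit 252) (nat_lit 0) (XT.nd (nat_lit 282) (nat_lit 84) (nat_lit 0) (XT.nd (nat_lit 94) (nat_lit 0) (nat_lit 0) (XT.lf (nat_lit 0) (nat_lit 20265287439) (nat_lit 168) (nat_lit 7246660155)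 (nat_lit 252) (nat_lit 11190286156) (nat_lit 10) (nat_lit 5) (nat_lit 12) (nat_lit 5) (nat_lit 13) (nat_lit 5) (nat_lit 393) (nat_lit 310) (nat_lit 185)) (XT.nd (nat_lit 94) (nat_lit 0) (nat_lit 0) (XT.lf (nat_lit 0) (nat_lit 26886856619) (nat_lit 168) (nat_lit 3334507548) (nat_lit 252) (nat_lit 9532128806) (nat_lit 10) (nat_lit 5) (nat_lit 12) (nat_lit 5) (nat_lit 13) (nat_lit 5) (nat_lit 394) (nat_lit 310) (nat_lit 184)) (XT.lf (nat_lit 0) (nat_lit 33016458881) (nat_lit 252) (nat_lit 7138174904) (nat_lit 84) (nat_lit 682680589) (nat_lit 10) (nat_lit 5) (nat_lit 13) (nat_lit 5) (nat_lit 11) (nat_lit 4) (nat_lit 395) (nat_lit 310) (nat_lit 183)))) (XT.nd (nat_lit 94) (nat_lit 84) (nat_lit 0) (XT.lf (nat_lit 0) (nat_lit 35927216304) (nat_lit 252) (nat_lit 1273601684) (nat_lit 84) (nat_lit 4753041443) (nat_lit 10) (nat_lit 5) (nat_lit 13) (nat_lit 5) (nat_lit 11) (nat_lit 4) (nat_lit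 396) (nat_lit 310) (nat_lit 182)) (XT.nd (nat_lit 94) (nat_lit 0) (nat_lit 0) (XT.lf (nat_lit 0) (nat_lit 4863619523) (nat_lit 84) (nat_lit 34107899024) (nat_lit 168) (nat_lit 4132180094) (nat_lit 9) (nat_lit 5) (nat_lit 10) (nat_lit 5) (nat_lit 11) (nat_lit 4) (nat_lit 397) (nat_lit 310) (nat_lit 181)) (XT.lf (nat_lit 0) (nat_lit 11211021734) (nat_lit 84) (nat_lit 30907608115) (nat_lit 168) (nat_lit 2170314702) (nat_lit 9) (nat_lit 5) (nat_lit 10) (nat_lit 5) (nat_lit 11) (nat_lit 4) (nat_lit 398) (nat_lit 310) (nat_lit 180))))) (XT.nd (nat_lit 282) (nat_lit 168) (nat_lit 0) (XT.nd (nat_lit 94) (nat_lit 84) (nat_lit 0) (XT.lf (nat_lit 0) (nat_lit 17748333530) (nat_lit 84) (nat_lit 27610256045) (nat_lit 168) (nat_lit 152512077) (nat_lit 9) (nat_lit 5) (nat_lit 10) (nat_lit 5) (nat_lit 11) (nat_lit 4) (nat_lit 399) (nat_lit 310) (nat_lit 179)) (XT.nd (nat_lit 94) (nat_lit 0) (nat_lit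 0) (XT.lf (nat_lit 0) (nat_lit 1884362231) (nat_lit 168) (nat_lit 22308738226) (nat_lit 84) (nat_lit 22577617259) (nat_lit 8) (nat_lit 5) (nat_lit 10) (nat_lit 5) (nat_lit 9) (nat_lit 5) (nat_lit 400) (nat_lit 310) (nat_lit 178)) (XT.lf (nat_lit 0) (nat_lit 3976712610) (nat_lit 168) (nat_lit 16693759837) (nat_lit 84) (nat_lit 27399021071) (nat_lit 8) (nat_lit 5) (nat_lit 10) (nat_lit 5) (nat_lit 9) (nat_lit 5) (nat_lit 401) (nat_lit 310) (nat_lit 177)))) (XT.nd (nat_lit 188) (nat_lit 168) (nat_lit 0) (XT.nd (nat_lit 94) (nat_lit 0) (nat_lit 0) (XT.lf (nat_lit 0) (nat_lit 6129562126) (nat_lit 168) (nat_lit 10911086270) (nat_lit 84) (nat_lit 32368038157) (nat_lit 8) (nat_lit 5) (nat_lit 10) (nat_lit 5) (nat_lit 9) (nat_lit 5) (nat_lit 402) (nat_lit 310) (nat_lit 176)) (XT.lf (nat_lit 0) (nat_lit 8344917462) (nat_lit 168) (nat_lit 4955327467) (nat_lit 84) (nat_lit 37489300161) (nat_lit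 8) (nat_lit 5) (nat_lit 10) (nat_lit 5) (nat_lit 9) (nat_lit 5) (nat_lit 403) (nat_lit 310) (nat_lit 175))) (XT.nd (nat_lit 94) (nat_lit 0) (nat_lit 0) (XT.lf (nat_lit 0) (nat_lit 1203312019) (nat_lit 168) (nat_lit 9433468544) (nat_lit 252) (nat_lit 41576205620) (nat_lit 6) (nat_lit 5) (nat_lit 8) (nat_lit 5) (nat_lit 9) (nat_lit 5) (nat_lit 404) (nat_lit 310) (nat_lit 174)) (XT.lf (nat_lit 0) (nat_lit 7651988435) (nat_lit 168) (nat_lit 5395385786) (nat_lit 252) (nat_lit 40631719729) (nat_lit 6) (nat_lit 5) (nat_lit 8) (nat_lit 5) (nat_lit 9) (nat_lit 5) (nat_lit 405) (nat_lit 310) (nat_lit 173))))))) (XT.nd (nat_lit 1222) (nat_lit 0) (nat_lit 0) (XT.nd (nat_lit 564) (nat_lit 84) (nat_lit 0) (XT.nd (nat_lit 282) (nat_lit 0) (nat_lit 0) (XT.nd (nat_lit 94) (nat_lit 0) (nat_lit 0) (XT.lf (nat_lit 0) (nat_lit 14294820927) (nat_lit 168) (nat_lit 1233956194) (nat_lit 252) (nat_lit 39662013049)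 (nat_lit 6) (nat_lit 5) (nat_lit 8) (nat_lit 5) (nat_lit 9) (nat_lit 5) (nat_lit 406) (nat_lit 310) (nat_lit 172)) (XT.nd (nat_lit 94) (nat_lit 0) (nat_lit 0) (XT.lf (nat_lit 0) (nat_lit 18113605184) (nat_lit 252) (nat_lit 35641785587) (nat_lit 84) (nat_lit 2993153739) (nat_lit 6) (nat_lit 5) (nat_lit 9) (nat_lit 5) (nat_lit 7) (nat_lit 4) (nat_lit 407) (nat_lit 310) (nat_lit 171)) (XT.lf (nat_lit 0) (nat_lit 20787479250) (nat_lit 252) (nat_lit 30242868605) (nat_lit 84) (nat_lit 7323981549) (nat_lit 6) (nat_lit 5) (nat_lit 9) (nat_lit 5) (nat_lit 7) (nat_lit 4) (nat_lit 408) (nat_lit 310) (nat_lit 170)))) (XT.nd (nat_lit 94) (nat_lit 0) (nat_lit 0) (XT.lf (nat_lit 0) (nat_lit 23540650651) (nat_lit 252) (nat_lit 24681944944) (nat_lit 84) (nat_lit 11787425487) (nat_lit 6) (nat_lit 5) (nat_lit 9) (nat_lit 5) (nat_lit 7) (nat_lit 4) (nat_lit 409) (nat_lit 310) (nat_lit 169)) (XT.nd (nat_lit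 94) (nat_lit 0) (nat_lit 0) (XT.lf (nat_lit 0) (nat_lit 26375685632) (nat_lit 252) (nat_lit 18953831240) (nat_lit 84) (nat_lit 16387645950) (nat_lit 6) (nat_lit 5) (nat_lit 9) (nat_lit 5) (nat_lit 7) (nat_lit 4) (nat_lit 410) (nat_lit 310) (nat_lit 168)) (XT.lf (nat_lit 0) (nat_lit 29295226742) (nat_lit 252) (nat_lit 13053188292) (nat_lit 84) (nat_lit 21128930826) (nat_lit 6) (nat_lit 5) (nat_lit 9) (nat_lit 5) (nat_lit 7) (nat_lit 4) (nat_lit 411) (nat_lit 310) (nat_lit 167))))) (XT.nd (nat_lit 282) (nat_lit 0) (nat_lit 0) (XT.nd (nat_lit 94) (nat_lit 84) (nat_lit 0) (XT.lf (nat_lit 0) (nat_lit 32301995299) (nat_lit 252) (nat_lit 6974516081) (nat_lit 84) (nat_lit 26015699489) (nat_lit 6) (nat_lit 5) (nat_lit 9) (nat_lit 5) (nat_lit 7) (nat_lit 4) (nat_lit 412) (nat_lit 310) (nat_lit 166)) (XT.nd (nat_lit 94) (nat_lit 84) (nat_lit 0) (XT.lf (nat_lit 0) (nat_lit 35398793927) (nat_lit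 252) (nat_lit 712148649) (nat_lit 84) (nat_lit 31052506920) (nat_lit 6) (nat_lit 5) (nat_lit 9) (nat_lit 5) (nat_lit 7) (nat_lit 4) (nat_lit 413) (nat_lit 310) (nat_lit 165)) (XT.lf (nat_lit 0) (nat_lit 5857772242) (nat_lit 84) (nat_lit 32788846749) (nat_lit 168) (nat_lit 30444385533) (nat_lit 5) (nat_lit 5) (nat_lit 6) (nat_lit 5) (nat_lit 7) (nat_lit 4) (nat_lit 414) (nat_lit 310) (nat_lit 164)))) (XT.nd (nat_lit 188) (nat_lit 0) (nat_lit 0) (XT.nd (nat_lit 94) (nat_lit 0) (nat_lit 0) (XT.lf (nat_lit 0) (nat_lit 12641903453) (nat_lit 84) (nat_lit 29357619959) (nat_lit 168) (nat_lit 29078667433) (nat_lit 5) (nat_lit 5) (nat_lit 6) (nat_lit 5) (nat_lit 7) (nat_lit 4) (nat_lit 415) (nat_lit 310) (nat_lit 163)) (XT.lf (nat_lit 0) (nat_lit 19631925267) (nat_lit 84) (nat_lit 25821497314) (nat_lit 168) (nat_lit 27673661648) (nat_lit 5) (nat_lit 5) (nat_lit 6) (nat_lit 5) (nat_lit 7) (nat_lit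 4) (nat_lit 416) (nat_lit 310) (nat_lit 162))) (XT.nd (nat_lit 94) (nat_lit 0) (nat_lit 0) (XT.lf (nat_lit 0) (nat_lit 26834353118) (nat_lit 84) (nat_lit 22177182777) (nat_lit 168) (nat_lit 26228058566) (nat_lit 5) (nat_lit 5) (nat_lit 6) (nat_lit 5) (nat_lit 7) (nat_lit 4) (nat_lit 417) (nat_lit 310) (nat_lit 161)) (XT.lf (nat_lit 0) (nat_lit 34255900421) (nat_lit 84) (nat_lit 18421279465) (nat_lit 168) (nat_lit 24740510732) (nat_lit 5) (nat_lit 5) (nat_lit 6) (nat_lit 5) (nat_lit 7) (nat_lit 4) (nat_lit 418) (nat_lit 310) (nat_lit 160)))))) (XT.nd (nat_lit 45590) (nat_lit 0) (nat_lit 8316) (XT.nd (nat_lit 282) (nat_lit 0) (nat_lit 0) (XT.nd (nat_lit 94) (nat_lit 0) (nat_lit 0) (XT.lf (nat_lit 0) (nat_lit 41903484837) (nat_lit 84) (nat_lit 14550286484) (nat_lit 168) (nat_lit 23209631597) (nat_lit 5) (nat_lit 5) (nat_lit 6) (nat_lit 5) (nat_lit 7) (nat_lit 4) (nat_lit 419) (nat_lit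 310) (nat_lit 159)) (XT.nd (nat_lit 94) (nat_lit 0) (nat_lit 0) (XT.lf (nat_lit 0) (nat_lit 49784234715) (nat_lit 84) (nat_lit 10560595662) (nat_lit 168) (nat_lit 21633994221) (nat_lit 5) (nat_lit 5) (nat_lit 6) (nat_lit 5) (nat_lit 7) (nat_lit 4) (nat_lit 420) (nat_lit 310) (nat_lit 158)) (XT.lf (nat_lit 0) (nat_lit 57905495739) (nat_lit 84) (nat_lit 6448488189) (nat_lit 168) (nat_lit 20012129945) (nat_lit 5) (nat_lit 5) (nat_lit 6) (nat_lit 5) (nat_lit 7) (nat_lit 4) (nat_lit 421) (nat_lit 310) (nat_lit 157)))) (XT.nd (nat_lit 94) (nat_lit 0) (nat_lit 0) (XT.lf (nat_lit 0) (nat_lit 66274837777) (nat_lit 84) (nat_lit 2210131151) (nat_lit 168) (nat_lit 18342527021) (nat_lit 5) (nat_lit 5) (nat_lit 6) (nat_lit 5) (nat_lit 7) (nat_lit 4) (nat_lit 422) (nat_lit 310) (nat_lit 156)) (XT.nd (nat_lit 94) (nat_lit 0) (nat_lit 0) (XT.lf (nat_lit 0) (nat_lit 72763047739) (nat_lit 168) (nat_lit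 14486615013) (nat_lit 0) (nat_lit 2114938570) (nat_lit 5) (nat_lit 5) (nat_lit 7) (nat_lit 4) (nat_lit 5) (nat_lit 4) (nat_lit 423) (nat_lit 310) (nat_lit 155)) (XT.lf (nat_lit 0) (nat_lit 77194032938) (nat_lit 168) (nat_lit 8258659428) (nat_lit 0) (nat_lit 6527045902) (nat_lit 5) (nat_lit 5) (nat_lit 7) (nat_lit 4) (nat_lit 5) (nat_lit 4) (nat_lit 424) (nat_lit 310) (nat_lit 154))))) (XT.nd (nat_lit 282) (nat_lit 672) (nat_lit 0) (XT.nd (nat_lit 94) (nat_lit 0) (nat_lit 0) (XT.lf (nat_lit 0) (nat_lit 1212984313) (nat_lit 756) (nat_lit 1281001290) (nat_lit 756) (nat_lit 1281001290) (nat_lit 112) (nat_lit 3) (nat_lit 121) (nat_lit 3) (nat_lit 121) (nat_lit 5) (nat_lit 311) (nat_lit 311) (nat_lit 266)) (XT.nd (nat_lit 94) (nat_lit 0) (nat_lit 0) (XT.lf (nat_lit 0) (nat_lit 3538205944) (nat_lit 756) (nat_lit 8654923) (nat_lit 756) (nat_lit 4077564297) (nat_lit 112) (nat_lit 3) (nat_lit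 121) (nat_lit 3) (nat_lit 121) (nat_lit 5) (nat_lit 312) (nat_lit 311) (nat_lit 265)) (XT.lf (nat_lit 84) (nat_lit 2654826089) (nat_lit 0) (nat_lit 2013129741) (nat_lit 756) (nat_lit 3034127793) (nat_lit 113) (nat_lit 5) (nat_lit 112) (nat_lit 3) (nat_lit 121) (nat_lit 5) (nat_lit 313) (nat_lit 311) (nat_lit 264)))) (XT.nd (nat_lit 188) (nat_lit 672) (nat_lit 0) (XT.nd (nat_lit 94) (nat_lit 0) (nat_lit 84) (XT.lf (nat_lit 84) (nat_lit 5378777126) (nat_lit 0) (nat_lit 411819179) (nat_lit 756) (nat_lit 1993221169) (nat_lit 113) (nat_lit 5) (nat_lit 112) (nat_lit 3) (nat_lit 121) (nat_lit 5) (nat_lit 314) (nat_lit 311) (nat_lit 263)) (XT.lf (nat_lit 84) (nat_lit 289196061) (nat_lit 0) (nat_lit 6633243173) (nat_lit 756) (nat_lit 946790440) (nat_lit 114) (nat_lit 5) (nat_lit 113) (nat_lit 5) (nat_lit 122) (nat_lit 5) (nat_lit 315) (nat_lit 311) (nat_lit 262))) (XT.nd (nat_lit 94) (nat_lit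 0) (nat_lit 0) (XT.lf (nat_lit 0) (nat_lit 118485572) (nat_lit 756) (nat_lit 4868700762) (nat_lit 840) (nat_lit 2970731849) (nat_lit 104) (nat_lit 5) (nat_lit 113) (nat_lit 5) (nat_lit 114) (nat_lit 5) (nat_lit 316) (nat_lit 311) (nat_lit 261)) (XT.lf (nat_lit 0) (nat_lit 1157830647) (nat_lit 756) (nat_lit 2106617661) (nat_lit 840) (nat_lit 4786145748) (nat_lit 104) (nat_lit 5) (nat_lit 113) (nat_lit 5) (nat_lit 114) (nat_lit 5) (nat_lit 317) (nat_lit 311) (nat_lit 260))))))))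
noncomputable def xc121 : XT := (XT.nd (nat_lit 2350) (nat_lit 2856) (nat_lit 0) (XT.nd (nat_lit 1128) (nat_lit 2604) (nat_lit 0) (XT.nd (nat_lit 564) (nat_lit 1428) (nat_lit 0) (XT.nd (nat_lit 282) (nat_lit 0) (nat_lit 84) (XT.nd (nat_lit 94) (nat_lit 0) (nat_lit 84) (XT.lf (nat_lit 84) (nat_lit 732949824) (nat_lit 0) (nat_lit 1465610408) (nat_lit 840) (nat_lit 5948849206) (nat_lit 105) (nat_lit 5) (nat_lit 104) (nat_lit 5) (nat_lit 114) (nat_lit 5) (nat_lit 318) (nat_lit 311) (nat_lit 259)) (XT.nd (nat_lit 94) (nat_lit 0) (nat_lit 0) (XT.lf (nat_lit 0) (nat_lit 3260583565) (nat_lit 756) (nat_lit 4569698681) (nat_lit 840) (nat_lit 417585211) (nat_lit 105) (nat_lit 5) (nat_lit 114) (nat_lit 5) (nat_lit 115) (nat_lit 5) (nat_lit 319) (nat_lit 311) (nat_lit 258)) (XT.lf (nat_lit 0) (nat_lit 4334591750) (nat_lit 756) (nat_lit 1675283638) (nat_lit 840) (nat_lit 2342505627) (nat_lit 105)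 (nat_lit 5) (nat_lit 114) (nat_lit 5) (nat_lit 115) (nat_lit 5) (nat_lit 320) (nat_lit 311) (nat_lit 257)))) (XT.nd (nat_lit 94) (nat_lit 0) (nat_lit 0) (XT.lf (nat_lit 84) (nat_lit 1312465709) (nat_lit 0) (nat_lit 4107600951) (nat_lit 840) (nat_lit 3041027963) (nat_lit 106) (nat_lit 5) (nat_lit 105) (nat_lit 5) (nat_lit 115) (nat_lit 5) (nat_lit 321) (nat_lit 311) (nat_lit 256)) (XT.nd (nat_lit 94) (nat_lit 0) (nat_lit 0) (XT.lf (nat_lit 84) (nat_lit 4405745789) (nat_lit 0) (nat_lit 2116908224) (nat_lit 840) (nat_lit 2051311949) (nat_lit 106) (nat_lit 5) (nat_lit 105) (nat_lit 5) (nat_lit 115) (nat_lit 5) (nat_lit 322) (nat_lit 311) (nat_lit 255)) (XT.lf (nat_lit 84) (nat_lit 7572992597) (nat_lit 0) (nat_lit 53428197) (nat_lit 840) (nat_lit 1065205229) (nat_lit 106) (nat_lit 5) (nat_lit 105) (nat_lit 5) (nat_lit 115) (nat_lit 5) (nat_lit 323) (nat_lit 311) (nat_lit 254))))) (XT.nd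 (nat_lit 282) (nat_lit 756) (nat_lit 0) (XT.nd (nat_lit 94) (nat_lit 840) (nat_lit 0) (XT.lf (nat_lit 84) (nat_lit 2023052759) (nat_lit 0) (nat_lit 6750093105) (nat_lit 840) (nat_lit 39775363) (nat_lit 107) (nat_lit 5) (nat_lit 106) (nat_lit 5) (nat_lit 116) (nat_lit 5) (nat_lit 324) (nat_lit 311) (nat_lit 253)) (XT.nd (nat_lit 94) (nat_lit 0) (nat_lit 0) (XT.lf (nat_lit 0) (nat_lit 977556273) (nat_lit 840) (nat_lit 3685817934) (nat_lit 924) (nat_lit 4275133841) (nat_lit 96) (nat_lit 5) (nat_lit 106) (nat_lit 5) (nat_lit 107) (nat_lit 5) (nat_lit 325) (nat_lit 311) (nat_lit 252)) (XT.lf (nat_lit 0) (nat_lit 1994823547) (nat_lit 840) (nat_lit 508538311) (nat_lit 924) (nat_lit 6565803660) (nat_lit 96) (nat_lit 5) (nat_lit 106) (nat_lit 5) (nat_lit 107) (nat_lit 5) (nat_lit 326) (nat_lit 311) (nat_lit 251)))) (XT.nd (nat_lit 94) (nat_lit 756) (nat_lit 0) (XT.lf (nat_lit 84) (nat_lit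 2801776077) (nat_lit 0) (nat_lit 239793931) (nat_lit 924) (nat_lit 6162596033) (nat_lit 97) (nat_lit 5) (nat_lit 96) (nat_lit 5) (nat_lit 107) (nat_lit 5) (nat_lit 327) (nat_lit 311) (nat_lit 250)) (XT.nd (nat_lit 94) (nat_lit 840) (nat_lit 0) (XT.lf (nat_lit 0) (nat_lit 4117806690) (nat_lit 840) (nat_lit 3161411615) (nat_lit 84) (nat_lit 2064447051) (nat_lit 97) (nat_lit 5) (nat_lit 107) (nat_lit 5) (nat_lit 98) (nat_lit 5) (nat_lit 328) (nat_lit 311) (nat_lit 249)) (XT.lf (nat_lit 0) (nat_lit 158578706) (nat_lit 840) (nat_lit 5044634934) (nat_lit 924) (nat_lit 4285240866) (nat_lit 87) (nat_lit 5) (nat_lit 97) (nat_lit 5) (nat_lit 98) (nat_lit 5) (nat_lit 329) (nat_lit 311) (nat_lit 248)))))) (XT.nd (nat_lit 564) (nat_lit 924) (nat_lit 0) (XT.nd (nat_lit 282) (nat_lit 756) (nat_lit 0) (XT.nd (nat_lit 94) (nat_lit 924) (nat_lit 0) (XT.lf (nat_lit 0) (nat_lit 3626532920) (nat_lit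 840) (nat_lit 2701145697) (nat_lit 924) (nat_lit 3310094679) (nat_lit 87) (nat_lit 5) (nat_lit 97) (nat_lit 5) (nat_lit 98) (nat_lit 5) (nat_lit 330) (nat_lit 311) (nat_lit 247)) (XT.nd (nat_lit 94) (nat_lit 924) (nat_lit 0) (XT.lf (nat_lit 0) (nat_lit 7180678415) (nat_lit 840) (nat_lit 279564870) (nat_lit 924) (nat_lit 2332509818) (nat_lit 87) (nat_lit 5) (nat_lit 97) (nat_lit 5) (nat_lit 98) (nat_lit 5) (nat_lit 331) (nat_lit 311) (nat_lit 246)) (XT.lf (nat_lit 0) (nat_lit 866195413) (nat_lit 924) (nat_lit 7766406798) (nat_lit 1008) (nat_lit 1319986370) (nat_lit 76) (nat_lit 5) (nat_lit 87) (nat_lit 5) (nat_lit 88) (nat_lit 5) (nat_lit 332) (nat_lit 311) (nat_lit 245)))) (XT.nd (nat_lit 94) (nat_lit 756) (nat_lit 0) (XT.lf (nat_lit 0) (nat_lit 4483240521) (nat_lit 924) (nat_lit 5362822470) (nat_lit 1008) (nat_lit 271359060) (nat_lit 76) (nat_lit 5) (nat_lit 87) (nat_lit 5) (nat_lit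 88) (nat_lit 5) (nat_lit 333) (nat_lit 311) (nat_lit 244)) (XT.nd (nat_lit 94) (nat_lit 672) (nat_lit 0) (XT.lf (nat_lit 0) (nat_lit 768453513) (nat_lit 1008) (nat_lit 2104539127) (nat_lit 84) (nat_lit 7415078237) (nat_lit 75) (nat_lit 5) (nat_lit 87) (nat_lit 5) (nat_lit 76) (nat_lit 5) (nat_lit 334) (nat_lit 311) (nat_lit 243)) (XT.lf (nat_lit 0) (nat_lit 1541906188) (nat_lit 672) (nat_lit 283998125) (nat_lit 756) (nat_lit 8638471132) (nat_lit 67) (nat_lit 5) (nat_lit 75) (nat_lit 5) (nat_lit 76) (nat_lit 5) (nat_lit 335) (nat_lit 311) (nat_lit 242))))) (XT.nd (nat_lit 282) (nat_lit 420) (nat_lit 0) (XT.nd (nat_lit 94) (nat_lit 504) (nat_lit 0) (XT.lf (nat_lit 0) (nat_lit 2938288884) (nat_lit 756) (nat_lit 5344974181) (nat_lit 84) (nat_lit 2362364356) (nat_lit 67) (nat_lit 5) (nat_lit 76) (nat_lit 5) (nat_lit 68) (nat_lit 5) (nat_lit 336) (nat_lit 311) (nat_lit 241)) (XT.nd (nat_lit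 94) (nat_lit 504) (nat_lit 0) (XT.lf (nat_lit 0) (nat_lit 4065073671) (nat_lit 756) (nat_lit 1680460476) (nat_lit 84) (nat_lit 5087750286) (nat_lit 67) (nat_lit 5) (nat_lit 76) (nat_lit 5) (nat_lit 68) (nat_lit 5) (nat_lit 337) (nat_lit 311) (nat_lit 240)) (XT.lf (nat_lit 0) (nat_lit 2120018514) (nat_lit 504) (nat_lit 3105503992) (nat_lit 588) (nat_lit 5801434271) (nat_lit 61) (nat_lit 5) (nat_lit 67) (nat_lit 5) (nat_lit 68) (nat_lit 5) (nat_lit 338) (nat_lit 311) (nat_lit 239)))) (XT.nd (nat_lit 188) (nat_lit 420) (nat_lit 0) (XT.nd (nat_lit 94) (nat_lit 0) (nat_lit 0) (XT.lf (nat_lit 0) (nat_lit 6053794951) (nat_lit 504) (nat_lit 363864352) (nat_lit 588) (nat_lit 4809260462) (nat_lit 61) (nat_lit 5) (nat_lit 67) (nat_lit 5) (nat_lit 68) (nat_lit 5) (nat_lit 339) (nat_lit 311) (nat_lit 238)) (XT.lf (nat_lit 0) (nat_lit 7650029257) (nat_lit 588) (nat_lit 1368352530) (nat_lit 84)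 (nat_lit 2414747545) (nat_lit 61) (nat_lit 5) (nat_lit 68) (nat_lit 5) (nat_lit 62) (nat_lit 5) (nat_lit 340) (nat_lit 311) (nat_lit 237))) (XT.nd (nat_lit 94) (nat_lit 0) (nat_lit 0) (XT.lf (nat_lit 0) (nat_lit 2582940410) (nat_lit 420) (nat_lit 6346488860) (nat_lit 504) (nat_lit 2716173320) (nat_lit 56) (nat_lit 5) (nat_lit 61) (nat_lit 5) (nat_lit 62) (nat_lit 5) (nat_lit 341) (nat_lit 311) (nat_lit 236)) (XT.lf (nat_lit 0) (nat_lit 6666185400) (nat_lit 420) (nat_lit 3576493136) (nat_lit 504) (nat_lit 1622304625) (nat_lit 56) (nat_lit 5) (nat_lit 61) (nat_lit 5) (nat_lit 62) (nat_lit 5) (nat_lit 342) (nat_lit 311) (nat_lit 235))))))) (XT.nd (nat_lit 1222) (nat_lit 1176) (nat_lit 0) (XT.nd (nat_lit 564) (nat_lit 840) (nat_lit 0) (XT.nd (nat_lit 282) (nat_lit 336) (nat_lit 0) (XT.nd (nat_lit 94) (nat_lit 504) (nat_lit 0) (XT.lf (nat_lit 0) (nat_lit 10857052316) (nat_lit 420) (nat_lit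 720095482) (nat_lit 504) (nat_lit 514757186) (nat_lit 56) (nat_lit 5) (nat_lit 61) (nat_lit 5) (nat_lit 62) (nat_lit 5) (nat_lit 343) (nat_lit 311) (nat_lit 234)) (XT.nd (nat_lit 94) (nat_lit 0) (nat_lit 0) (XT.lf (nat_lit 0) (nat_lit 646311035) (nat_lit 504) (nat_lit 9462968736) (nat_lit 84) (nat_lit 2215530448) (nat_lit 50) (nat_lit 5) (nat_lit 56) (nat_lit 5) (nat_lit 51) (nat_lit 5) (nat_lit 344) (nat_lit 311) (nat_lit 233)) (XT.lf (nat_lit 0) (nat_lit 1834231730) (nat_lit 504) (nat_lit 5485016053) (nat_lit 84) (nat_lit 5245600730) (nat_lit 50) (nat_lit 5) (nat_lit 56) (nat_lit 5) (nat_lit 51) (nat_lit 5) (nat_lit 345) (nat_lit 311) (nat_lit 232)))) (XT.nd (nat_lit 94) (nat_lit 336) (nat_lit 0) (XT.lf (nat_lit 0) (nat_lit 3040710300) (nat_lit 504) (nat_lit 1402592640) (nat_lit 84) (nat_lit 8369711931) (nat_lit 50) (nat_lit 5) (nat_lit 56) (nat_lit 5) (nat_lit 51) (nat_lit 5)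 (nat_lit 346) (nat_lit 311) (nat_lit 231)) (XT.nd (nat_lit 94) (nat_lit 0) (nat_lit 0) (XT.lf (nat_lit 0) (nat_lit 2845435941) (nat_lit 336) (nat_lit 1449662445) (nat_lit 420) (nat_lit 8773567186) (nat_lit 46) (nat_lit 5) (nat_lit 50) (nat_lit 5) (nat_lit 51) (nat_lit 5) (nat_lit 347) (nat_lit 311) (nat_lit 230)) (XT.lf (nat_lit 0) (nat_lit 5602027130) (nat_lit 420) (nat_lit 6112025383) (nat_lit 84) (nat_lit 1617879076) (nat_lit 46) (nat_lit 5) (nat_lit 51) (nat_lit 5) (nat_lit 47) (nat_lit 5) (nat_lit 348) (nat_lit 311) (nat_lit 229))))) (XT.nd (nat_lit 282) (nat_lit 420) (nat_lit 0) (XT.nd (nat_lit 94) (nat_lit 420) (nat_lit 0) (XT.lf (nat_lit 0) (nat_lit 6947447284) (nat_lit 420) (nat_lit 1906375624) (nat_lit 84) (nat_lit 4749708697) (nat_lit 46) (nat_lit 5) (nat_lit 51) (nat_lit 5) (nat_lit 47) (nat_lit 5) (nat_lit 349) (nat_lit 311) (nat_lit 228)) (XT.nd (nat_lit 94) (nat_lit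 0) (nat_lit 0) (XT.lf (nat_lit 0) (nat_lit 2461616671) (nat_lit 420) (nat_lit 5881034960) (nat_lit 504) (nat_lit 5540755947) (nat_lit 41) (nat_lit 5) (nat_lit 46) (nat_lit 5) (nat_lit 47) (nat_lit 5) (nat_lit 350) (nat_lit 311) (nat_lit 227)) (XT.lf (nat_lit 0) (nat_lit 6987980670) (nat_lit 420) (nat_lit 2797000225) (nat_lit 504) (nat_lit 4386962241) (nat_lit 41) (nat_lit 5) (nat_lit 46) (nat_lit 5) (nat_lit 47) (nat_lit 5) (nat_lit 351) (nat_lit 311) (nat_lit 226)))) (XT.nd (nat_lit 188) (nat_lit 84) (nat_lit 0) (XT.nd (nat_lit 94) (nat_lit 336) (nat_lit 0) (XT.lf (nat_lit 0) (nat_lit 11260261256) (nat_lit 504) (nat_lit 2836051232) (nat_lit 84) (nat_lit 373575801) (nat_lit 41) (nat_lit 5) (nat_lit 47) (nat_lit 5) (nat_lit 42) (nat_lit 5) (nat_lit 352) (nat_lit 311) (nat_lit 225)) (XT.lf (nat_lit 0) (nat_lit 1633991766) (nat_lit 336) (nat_lit 11177010496) (nat_lit 420) (nat_lit 1965243323)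 (nat_lit 37) (nat_lit 5) (nat_lit 41) (nat_lit 5) (nat_lit 42) (nat_lit 5) (nat_lit 353) (nat_lit 311) (nat_lit 224))) (XT.nd (nat_lit 94) (nat_lit 84) (nat_lit 0) (XT.lf (nat_lit 0) (nat_lit 6285932634) (nat_lit 336) (nat_lit 8138684063) (nat_lit 420) (nat_lit 667118895) (nat_lit 37) (nat_lit 5) (nat_lit 41) (nat_lit 5) (nat_lit 42) (nat_lit 5) (nat_lit 354) (nat_lit 311) (nat_lit 223)) (XT.lf (nat_lit 0) (nat_lit 643129615) (nat_lit 420) (nat_lit 4358261141) (nat_lit 84) (nat_lit 10415949870) (nat_lit 36) (nat_lit 5) (nat_lit 41) (nat_lit 5) (nat_lit 37) (nat_lit 5) (nat_lit 355) (nat_lit 311) (nat_lit 222)))))) (XT.nd (nat_lit 564) (nat_lit 588) (nat_lit 0) (XT.nd (nat_lit 282) (nat_lit 252) (nat_lit 0) (XT.nd (nat_lit 94) (nat_lit 0) (nat_lit 0) (XT.lf (nat_lit 0) (nat_lit 208350590) (nat_lit 336) (nat_lit 1759699638) (nat_lit 420) (nat_lit 13785238584) (nat_lit 32) (nat_lit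 5) (nat_lit 36) (nat_lit 5) (nat_lit 37) (nat_lit 5) (nat_lit 356) (nat_lit 311) (nat_lit 221)) (XT.nd (nat_lit 94) (nat_lit 0) (nat_lit 0) (XT.lf (nat_lit 0) (nat_lit 3381789198) (nat_lit 420) (nat_lit 11121992593) (nat_lit 84) (nat_lit 1594473073) (nat_lit 32) (nat_lit 5) (nat_lit 37) (nat_lit 5) (nat_lit 33) (nat_lit 5) (nat_lit 357) (nat_lit 311) (nat_lit 220)) (XT.lf (nat_lit 0) (nat_lit 4843860689) (nat_lit 420) (nat_lit 6595944738) (nat_lit 84) (nat_lit 5014050814) (nat_lit 32) (nat_lit 5) (nat_lit 37) (nat_lit 5) (nat_lit 33) (nat_lit 5) (nat_lit 358) (nat_lit 311) (nat_lit 219)))) (XT.nd (nat_lit 94) (nat_lit 252) (nat_lit 0) (XT.lf (nat_lit 0) (nat_lit 6338171064) (nat_lit 420) (nat_lit 1945119469) (nat_lit 84) (nat_lit 8537675012) (nat_lit 32) (nat_lit 5) (nat_lit 37) (nat_lit 5) (nat_lit 33) (nat_lit 5) (nat_lit 359) (nat_lit 311) (nat_lit 218)) (XT.nd (nat_lit 94) (nat_lit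 0) (nat_lit 0) (XT.lf (nat_lit 0) (nat_lit 2893107948) (nat_lit 252) (nat_lit 5001705221) (nat_lit 336) (nat_lit 9304222098) (nat_lit 29) (nat_lit 5) (nat_lit 32) (nat_lit 5) (nat_lit 33) (nat_lit 5) (nat_lit 360) (nat_lit 311) (nat_lit 217)) (XT.lf (nat_lit 0) (nat_lit 7907645314) (nat_lit 252) (nat_lit 1599910743) (nat_lit 336) (nat_lit 8081099883) (nat_lit 29) (nat_lit 5) (nat_lit 32) (nat_lit 5) (nat_lit 33) (nat_lit 5) (nat_lit 361) (nat_lit 311) (nat_lit 216))))) (XT.nd (nat_lit 282) (nat_lit 336) (nat_lit 0) (XT.nd (nat_lit 94) (nat_lit 252) (nat_lit 0) (XT.lf (nat_lit 0) (nat_lit 11177107833) (nat_lit 336) (nat_lit 4946527595) (nat_lit 84) (nat_lit 1866579957) (nat_lit 29) (nat_lit 5) (nat_lit 33) (nat_lit 5) (nat_lit 30) (nat_lit 5) (nat_lit 362) (nat_lit 311) (nat_lit 215)) (XT.nd (nat_lit 94) (nat_lit 252) (nat_lit 0) (XT.lf (nat_lit 0) (nat_lit 12903035889) (nat_lit 336)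 (nat_lit 96076385) (nat_lit 84) (nat_lit 5405037273) (nat_lit 29) (nat_lit 5) (nat_lit 33) (nat_lit 5) (nat_lit 30) (nat_lit 5) (nat_lit 363) (nat_lit 311) (nat_lit 214)) (XT.lf (nat_lit 0) (nat_lit 4991298993) (nat_lit 252) (nat_lit 9729292971) (nat_lit 336) (nat_lit 4109209364) (nat_lit 26) (nat_lit 5) (nat_lit 29) (nat_lit 5) (nat_lit 30) (nat_lit 5) (nat_lit 364) (nat_lit 311) (nat_lit 213)))) (XT.nd (nat_lit 188) (nat_lit 336) (nat_lit 0) (XT.nd (nat_lit 94) (nat_lit 0) (nat_lit 0) (XT.lf (nat_lit 0) (nat_lit 10224558181) (nat_lit 252) (nat_lit 6359751848) (nat_lit 336) (nat_lit 2684719413) (nat_lit 26) (nat_lit 5) (nat_lit 29) (nat_lit 5) (nat_lit 30) (nat_lit 5) (nat_lit 365) (nat_lit 311) (nat_lit 212)) (XT.lf (nat_lit 0) (nat_lit 15606603595) (nat_lit 252) (nat_lit 2888350981) (nat_lit 336) (nat_lit 1227318873) (nat_lit 26) (nat_lit 5) (nat_lit 29) (nat_lit 5) (nat_lit 30)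 (nat_lit 5) (nat_lit 366) (nat_lit 311) (nat_lit 211))) (XT.nd (nat_lit 94) (nat_lit 0) (nat_lit 0) (XT.lf (nat_lit 0) (nat_lit 275592908) (nat_lit 336) (nat_lit 19227123074) (nat_lit 84) (nat_lit 686644928) (nat_lit 22) (nat_lit 5) (nat_lit 26) (nat_lit 5) (nat_lit 23) (nat_lit 5) (nat_lit 367) (nat_lit 311) (nat_lit 210)) (XT.lf (nat_lit 0) (nat_lit 1862013660) (nat_lit 336) (nat_lit 14440860712) (nat_lit 84) (nat_lit 4365787729) (nat_lit 22) (nat_lit 5) (nat_lit 26) (nat_lit 5) (nat_lit 23) (nat_lit 5) (nat_lit 368) (nat_lit 311) (nat_lit 209))))))))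
noncomputable def xc122 : XT := (XT.nd (nat_lit 2350) (nat_lit 420) (nat_lit 0) (XT.nd (nat_lit 1128) (nat_lit 420) (nat_lit 0) (XT.nd (nat_lit 564) (nat_lit 336) (nat_lit 0) (XT.nd (nat_lit 282) (nat_lit 0) (nat_lit 0) (XT.nd (nat_lit 94) (nat_lit 252) (nat_lit 0) (XT.lf (nat_lit 0) (nat_lit 3487403414) (nat_lit 336) (nat_lit 9519359110) (nat_lit 84) (nat_lit 8156431827) (nat_lit 22) (nat_lit 5) (nat_lit 26) (nat_lit 5) (nat_lit 23) (nat_lit 5) (nat_lit 369) (nat_lit 311) (nat_lit 208)) (XT.nd (nat_lit 94) (nat_lit 252) (nat_lit 0) (XT.lf (nat_lit 0) (nat_lit 5153277201) (nat_lit 336) (nat_lit 4458030914) (nat_lit 84) (nat_lit 12062110498) (nat_lit 22) (nat_lit 5) (nat_lit 26) (nat_lit 5) (nat_lit 23) (nat_lit 5) (nat_lit 370) (nat_lit 311) (nat_lit 207)) (XT.lf (nat_lit 0) (nat_lit 763218720) (nat_lit 252) (nat_lit 6105540295) (nat_lit 336) (nat_lit 15330816748) (nat_lit 19) (nat_lit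 5) (nat_lit 22) (nat_lit 5) (nat_lit 23) (nat_lit 5) (nat_lit 371) (nat_lit 311) (nat_lit 206)))) (XT.nd (nat_lit 94) (nat_lit 0) (nat_lit 0) (XT.lf (nat_lit 0) (nat_lit 6228603218) (nat_lit 252) (nat_lit 2445912434) (nat_lit 336) (nat_lit 14066429483) (nat_lit 19) (nat_lit 5) (nat_lit 22) (nat_lit 5) (nat_lit 23) (nat_lit 5) (nat_lit 372) (nat_lit 311) (nat_lit 205)) (XT.nd (nat_lit 94) (nat_lit 0) (nat_lit 0) (XT.lf (nat_lit 0) (nat_lit 10540235452) (nat_lit 336) (nat_lit 11461018597) (nat_lit 84) (nat_lit 1297769130) (nat_lit 19) (nat_lit 5) (nat_lit 23) (nat_lit 5) (nat_lit 20) (nat_lit 5) (nat_lit 373) (nat_lit 311) (nat_lit 204)) (XT.lf (nat_lit 0) (nat_lit 12479903624) (nat_lit 336) (nat_lit 6289924882) (nat_lit 84) (nat_lit 5104121943) (nat_lit 19) (nat_lit 5) (nat_lit 23) (nat_lit 5) (nat_lit 20) (nat_lit 5) (nat_lit 374) (nat_lit 311) (nat_lit 203))))) (XT.nd (nat_lit 282)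 (nat_lit 168) (nat_lit 0) (XT.nd (nat_lit 94) (nat_lit 168) (nat_lit 0) (XT.lf (nat_lit 0) (nat_lit 14471064390) (nat_lit 336) (nat_lit 969977020) (nat_lit 84) (nat_lit 9025973610) (nat_lit 19) (nat_lit 5) (nat_lit 23) (nat_lit 5) (nat_lit 20) (nat_lit 5) (nat_lit 375) (nat_lit 311) (nat_lit 202)) (XT.nd (nat_lit 94) (nat_lit 0) (nat_lit 0) (XT.lf (nat_lit 0) (nat_lit 4596390770) (nat_lit 168) (nat_lit 11964779713) (nat_lit 252) (nat_lit 8516185702) (nat_lit 17) (nat_lit 5) (nat_lit 19) (nat_lit 5) (nat_lit 20) (nat_lit 5) (nat_lit 376) (nat_lit 311) (nat_lit 201)) (XT.lf (nat_lit 0) (nat_lit 10344885911) (nat_lit 168) (nat_lit 8373073944) (nat_lit 252) (nat_lit 6988643511) (nat_lit 17) (nat_lit 5) (nat_lit 19) (nat_lit 5) (nat_lit 20) (nat_lit 5) (nat_lit 377) (nat_lit 311) (nat_lit 200)))) (XT.nd (nat_lit 94) (nat_lit 168) (nat_lit 0) (XT.lf (nat_lit 0) (nat_lit 16260921887) (nat_lit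 168) (nat_lit 4672700825) (nat_lit 252) (nat_lit 5422024799) (nat_lit 17) (nat_lit 5) (nat_lit 19) (nat_lit 5) (nat_lit 20) (nat_lit 5) (nat_lit 378) (nat_lit 311) (nat_lit 199)) (XT.nd (nat_lit 94) (nat_lit 168) (nat_lit 0) (XT.lf (nat_lit 0) (nat_lit 22350013061) (nat_lit 168) (nat_lit 860211223) (nat_lit 252) (nat_lit 3814869313) (nat_lit 17) (nat_lit 5) (nat_lit 19) (nat_lit 5) (nat_lit 20) (nat_lit 5) (nat_lit 379) (nat_lit 311) (nat_lit 198)) (XT.lf (nat_lit 0) (nat_lit 889761773) (nat_lit 168) (nat_lit 24699385806) (nat_lit 252) (nat_lit 2125200950) (nat_lit 15) (nat_lit 5) (nat_lit 17) (nat_lit 5) (nat_lit 18) (nat_lit 5) (nat_lit 380) (nat_lit 311) (nat_lit 197)))))) (XT.nd (nat_lit 564) (nat_lit 168) (nat_lit 0) (XT.nd (nat_lit 282) (nat_lit 168) (nat_lit 0) (XT.nd (nat_lit 94) (nat_lit 84) (nat_lit 0) (XT.lf (nat_lit 0) (nat_lit 6707069578) (nat_lit 168) (nat_lit 21384841905)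 (nat_lit 252) (nat_lit 331544935) (nat_lit 15) (nat_lit 5) (nat_lit 17) (nat_lit 5) (nat_lit 18) (nat_lit 5) (nat_lit 381) (nat_lit 311) (nat_lit 196)) (XT.nd (nat_lit 94) (nat_lit 0) (nat_lit 0) (XT.lf (nat_lit 0) (nat_lit 1479835045) (nat_lit 252) (nat_lit 16474944507) (nat_lit 84) (nat_lit 11199563351) (nat_lit 14) (nat_lit 5) (nat_lit 17) (nat_lit 5) (nat_lit 15) (nat_lit 5) (nat_lit 382) (nat_lit 311) (nat_lit 195)) (XT.lf (nat_lit 0) (nat_lit 3333399549) (nat_lit 252) (nat_lit 11084161891) (nat_lit 84) (nat_lit 15490475387) (nat_lit 14) (nat_lit 5) (nat_lit 17) (nat_lit 5) (nat_lit 15) (nat_lit 5) (nat_lit 383) (nat_lit 311) (nat_lit 194)))) (XT.nd (nat_lit 94) (nat_lit 168) (nat_lit 0) (XT.lf (nat_lit 0) (nat_lit 5237556184) (nat_lit 252) (nat_lit 5535725253) (nat_lit 84) (nat_lit 19912061233) (nat_lit 14) (nat_lit 5) (nat_lit 17) (nat_lit 5) (nat_lit 15) (nat_lit 5) (nat_lit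 384) (nat_lit 311) (nat_lit 193)) (XT.nd (nat_lit 94) (nat_lit 0) (nat_lit 0) (XT.lf (nat_lit 0) (nat_lit 179146534) (nat_lit 168) (nat_lit 7016710445) (nat_lit 252) (nat_lit 24291072892) (nat_lit 12) (nat_lit 5) (nat_lit 14) (nat_lit 5) (nat_lit 15) (nat_lit 5) (nat_lit 385) (nat_lit 311) (nat_lit 192)) (XT.lf (nat_lit 0) (nat_lit 6179450922) (nat_lit 168) (nat_lit 3086644149) (nat_lit 252) (nat_lit 23045715522) (nat_lit 12) (nat_lit 5) (nat_lit 14) (nat_lit 5) (nat_lit 15) (nat_lit 5) (nat_lit 386) (nat_lit 311) (nat_lit 191))))) (XT.nd (nat_lit 282) (nat_lit 168) (nat_lit 0) (XT.nd (nat_lit 94) (nat_lit 0) (nat_lit 0) (XT.lf (nat_lit 0) (nat_lit 11403706977) (nat_lit 252) (nat_lit 20815087210) (nat_lit 84) (nat_lit 943400809) (nat_lit 12) (nat_lit 5) (nat_lit 15) (nat_lit 5) (nat_lit 13) (nat_lit 5) (nat_lit 387) (nat_lit 311) (nat_lit 190)) (XT.nd (nat_lit 94) (nat_lit 0) (nat_lit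 0) (XT.lf (nat_lit 0) (nat_lit 13632966756) (nat_lit 252) (nat_lit 15373291280) (nat_lit 84) (nat_lit 5031926964) (nat_lit 12) (nat_lit 5) (nat_lit 15) (nat_lit 5) (nat_lit 13) (nat_lit 5) (nat_lit 388) (nat_lit 311) (nat_lit 189)) (XT.lf (nat_lit 0) (nat_lit 15925332421) (nat_lit 252) (nat_lit 9771279665) (nat_lit 84) (nat_lit 9244934251) (nat_lit 12) (nat_lit 5) (nat_lit 15) (nat_lit 5) (nat_lit 13) (nat_lit 5) (nat_lit 389) (nat_lit 311) (nat_lit 188)))) (XT.nd (nat_lit 188) (nat_lit 0) (nat_lit 0) (XT.nd (nat_lit 94) (nat_lit 168) (nat_lit 0) (XT.lf (nat_lit 0) (nat_lit 18282940695) (nat_lit 252) (nat_lit 4003830704) (nat_lit 84) (nat_lit 13586349634) (nat_lit 12) (nat_lit 5) (nat_lit 15) (nat_lit 5) (nat_lit 13) (nat_lit 5) (nat_lit 390) (nat_lit 311) (nat_lit 187)) (XT.lf (nat_lit 0) (nat_lit 1974207347) (nat_lit 168) (nat_lit 18753366151) (nat_lit 252) (nat_lit 16105596801)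 (nat_lit 10) (nat_lit 5) (nat_lit 12) (nat_lit 5) (nat_lit 13) (nat_lit 5) (nat_lit 391) (nat_lit 311) (nat_lit 186))) (XT.nd (nat_lit 94) (nat_lit 0) (nat_lit 0) (XT.lf (nat_lit 0) (nat_lit 8214546748) (nat_lit 168) (nat_lit 15069680659) (nat_lit 252) (nat_lit 14537657338) (nat_lit 10) (nat_lit 5) (nat_lit 12) (nat_lit 5) (nat_lit 13) (nat_lit 5) (nat_lit 392) (nat_lit 311) (nat_lit 185)) (XT.lf (nat_lit 0) (nat_lit 14640677177) (nat_lit 168) (nat_lit 11274073123) (nat_lit 252) (nat_lit 12926692246) (nat_lit 10) (nat_lit 5) (nat_lit 12) (nat_lit 5) (nat_lit 13) (nat_lit 5) (nat_lit 393) (nat_lit 311) (nat_lit 184))))))) (XT.nd (nat_lit 1222) (nat_lit 84) (nat_lit 0) (XT.nd (nat_lit 564) (nat_lit 252) (nat_lit 0) (XT.nd (nat_lit 282) (nat_lit 84) (nat_lit 0) (XT.nd (nat_lit 94) (nat_lit 0) (nat_lit 0) (XT.lf (nat_lit 0) (nat_lit 21258588461) (nat_lit 168) (nat_lit 7363005640) (nat_lit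 252) (nat_lit 11271199938) (nat_lit 10) (nat_lit 5) (nat_lit 12) (nat_lit 5) (nat_lit 13) (nat_lit 5) (nat_lit 394) (nat_lit 311) (nat_lit 183)) (XT.nd (nat_lit 94) (nat_lit 0) (nat_lit 0) (XT.lf (nat_lit 0) (nat_lit 28074449186) (nat_lit 168) (nat_lit 3332832684) (nat_lit 252) (nat_lit 9569637321) (nat_lit 10) (nat_lit 5) (nat_lit 12) (nat_lit 5) (nat_lit 13) (nat_lit 5) (nat_lit 395) (nat_lit 311) (nat_lit 182)) (XT.lf (nat_lit 0) (nat_lit 34282546670) (nat_lit 252) (nat_lit 7008352584) (nat_lit 84) (nat_lit 803677037) (nat_lit 10) (nat_lit 5) (nat_lit 13) (nat_lit 5) (nat_lit 11) (nat_lit 4) (nat_lit 396) (nat_lit 311) (nat_lit 181)))) (XT.nd (nat_lit 94) (nat_lit 84) (nat_lit 0) (XT.lf (nat_lit 0) (nat_lit 37276243776) (nat_lit 252) (nat_lit 972534605) (nat_lit 84) (nat_lit 4997217298) (nat_lit 10) (nat_lit 5) (nat_lit 13) (nat_lit 5) (nat_lit 11) (nat_lit 4) (nat_lit 397) (nat_lit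 311) (nat_lit 180)) (XT.nd (nat_lit 94) (nat_lit 0) (nat_lit 0) (XT.lf (nat_lit 0) (nat_lit 5351492710) (nat_lit 84) (nat_lit 35059696276) (nat_lit 168) (nat_lit 4020440828) (nat_lit 9) (nat_lit 5) (nat_lit 10) (nat_lit 5) (nat_lit 11) (nat_lit 4) (nat_lit 398) (nat_lit 311) (nat_lit 179)) (XT.lf (nat_lit 0) (nat_lit 11885528472) (nat_lit 84) (nat_lit 31763369943) (nat_lit 168) (nat_lit 2004968999) (nat_lit 9) (nat_lit 5) (nat_lit 10) (nat_lit 5) (nat_lit 11) (nat_lit 4) (nat_lit 399) (nat_lit 311) (nat_lit 178))))) (XT.nd (nat_lit 282) (nat_lit 168) (nat_lit 0) (XT.nd (nat_lit 94) (nat_lit 0) (nat_lit 0) (XT.lf (nat_lit 0) (nat_lit 67013024) (nat_lit 168) (nat_lit 28299165627) (nat_lit 84) (nat_lit 18547953279) (nat_lit 8) (nat_lit 5) (nat_lit 10) (nat_lit 5) (nat_lit 9) (nat_lit 5) (nat_lit 400) (nat_lit 311) (nat_lit 177)) (XT.nd (nat_lit 94) (nat_lit 0) (nat_lit 0) (XT.lf (nat_lit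 0) (nat_lit 2157214843) (nat_lit 168) (nat_lit 22687323207) (nat_lit 84) (nat_lit 23368446089) (nat_lit 8) (nat_lit 5) (nat_lit 10) (nat_lit 5) (nat_lit 9) (nat_lit 5) (nat_lit 401) (nat_lit 311) (nat_lit 176)) (XT.lf (nat_lit 0) (nat_lit 4307980402) (nat_lit 168) (nat_lit 16907691316) (nat_lit 84) (nat_lit 28336579565) (nat_lit 8) (nat_lit 5) (nat_lit 10) (nat_lit 5) (nat_lit 9) (nat_lit 5) (nat_lit 402) (nat_lit 311) (nat_lit 175)))) (XT.nd (nat_lit 188) (nat_lit 168) (nat_lit 0) (XT.nd (nat_lit 94) (nat_lit 0) (nat_lit 0) (XT.lf (nat_lit 0) (nat_lit 6521314441) (nat_lit 168) (nat_lit 10954882732) (nat_lit 84) (nat_lit 33456984528) (nat_lit 8) (nat_lit 5) (nat_lit 10) (nat_lit 5) (nat_lit 9) (nat_lit 5) (nat_lit 403) (nat_lit 311) (nat_lit 174)) (XT.lf (nat_lit 0) (nat_lit 8799280018) (nat_lit 168) (nat_lit 4823348813) (nat_lit 84) (nat_lit 38734433730) (nat_lit 8) (nat_lit 5)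 (nat_lit 10) (nat_lit 5) (nat_lit 9) (nat_lit 5) (nat_lit 404) (nat_lit 311) (nat_lit 173))) (XT.nd (nat_lit 94) (nat_lit 0) (nat_lit 0) (XT.lf (nat_lit 0) (nat_lit 1523317115) (nat_lit 168) (nat_lit 9635794815) (nat_lit 252) (nat_lit 42665640688) (nat_lit 6) (nat_lit 5) (nat_lit 8) (nat_lit 5) (nat_lit 9) (nat_lit 5) (nat_lit 405) (nat_lit 311) (nat_lit 172)) (XT.lf (nat_lit 0) (nat_lit 8163402233) (nat_lit 168) (nat_lit 5475240947) (nat_lit 252) (nat_lit 41697872093) (nat_lit 6) (nat_lit 5) (nat_lit 8) (nat_lit 5) (nat_lit 9) (nat_lit 5) (nat_lit 406) (nat_lit 311) (nat_lit 171)))))) (XT.nd (nat_lit 564) (nat_lit 84) (nat_lit 0) (XT.nd (nat_lit 282) (nat_lit 0) (nat_lit 0) (XT.nd (nat_lit 94) (nat_lit 0) (nat_lit 0) (XT.lf (nat_lit 0) (nat_lit 15003917851) (nat_lit 168) (nat_lit 1187435026) (nat_lit 252) (nat_lit 40703920567) (nat_lit 6) (nat_lit 5) (nat_lit 8) (nat_lit 5) (nat_lit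 9) (nat_lit 5) (nat_lit 407) (nat_lit 311) (nat_lit 170)) (XT.nd (nat_lit 94) (nat_lit 0) (nat_lit 0) (XT.lf (nat_lit 0) (nat_lit 18851678479) (nat_lit 252) (nat_lit 36483298079) (nat_lit 84) (nat_lit 3166509698) (nat_lit 6) (nat_lit 5) (nat_lit 9) (nat_lit 5) (nat_lit 7) (nat_lit 4) (nat_lit 408) (nat_lit 311) (nat_lit 169)) (XT.lf (nat_lit 0) (nat_lit 21603134108) (nat_lit 252) (nat_lit 30924934039) (nat_lit 84) (nat_lit 7629170654) (nat_lit 6) (nat_lit 5) (nat_lit 9) (nat_lit 5) (nat_lit 7) (nat_lit 4) (nat_lit 409) (nat_lit 311) (nat_lit 168)))) (XT.nd (nat_lit 94) (nat_lit 0) (nat_lit 0) (XT.lf (nat_lit 0) (nat_lit 24436504906) (nat_lit 252) (nat_lit 25199302994) (nat_lit 84) (nat_lit 12228631677) (nat_lit 6) (nat_lit 5) (nat_lit 9) (nat_lit 5) (nat_lit 7) (nat_lit 4) (nat_lit 410) (nat_lit 311) (nat_lit 167)) (XT.nd (nat_lit 94) (nat_lit 0) (nat_lit 0) (XT.lf (nat_lit 0) (nat_lit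 27354431871) (nat_lit 252) (nat_lit 19301068056) (nat_lit 84) (nat_lit 16969179949) (nat_lit 6) (nat_lit 5) (nat_lit 9) (nat_lit 5) (nat_lit 7) (nat_lit 4) (nat_lit 411) (nat_lit 311) (nat_lit 166)) (XT.lf (nat_lit 0) (nat_lit 30359634818) (nat_lit 252) (nat_lit 13224731452) (nat_lit 84) (nat_lit 21855234156) (nat_lit 6) (nat_lit 5) (nat_lit 9) (nat_lit 5) (nat_lit 7) (nat_lit 4) (nat_lit 412) (nat_lit 311) (nat_lit 165))))) (XT.nd (nat_lit 282) (nat_lit 0) (nat_lit 0) (XT.nd (nat_lit 94) (nat_lit 84) (nat_lit 0) (XT.lf (nat_lit 0) (nat_lit 33454914910) (nat_lit 252) (nat_lit 6964629400) (nat_lit 84) (nat_lit 26891348612) (nat_lit 6) (nat_lit 5) (nat_lit 9) (nat_lit 5) (nat_lit 7) (nat_lit 4) (nat_lit 413) (nat_lit 311) (nat_lit 164)) (XT.nd (nat_lit 94) (nat_lit 84) (nat_lit 0) (XT.lf (nat_lit 0) (nat_lit 36643157273) (nat_lit 252) (nat_lit 514926829) (nat_lit 84) (nat_lit 32082217504)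 (nat_lit 6) (nat_lit 5) (nat_lit 9) (nat_lit 5) (nat_lit 7) (nat_lit 4) (nat_lit 414) (nat_lit 311) (nat_lit 163)) (XT.lf (nat_lit 0) (nat_lit 6256441410) (nat_lit 84) (nat_lit 33732956945) (nat_lit 168) (nat_lit 31238302528) (nat_lit 5) (nat_lit 5) (nat_lit 6) (nat_lit 5) (nat_lit 7) (nat_lit 4) (nat_lit 415) (nat_lit 311) (nat_lit 162)))) (XT.nd (nat_lit 188) (nat_lit 0) (nat_lit 0) (XT.nd (nat_lit 94) (nat_lit 0) (nat_lit 0) (XT.lf (nat_lit 0) (nat_lit 13244353603) (nat_lit 84) (nat_lit 30197537357) (nat_lit 168) (nat_lit 29834753110) (nat_lit 5) (nat_lit 5) (nat_lit 6) (nat_lit 5) (nat_lit 7) (nat_lit 4) (nat_lit 416) (nat_lit 311) (nat_lit 161)) (XT.lf (nat_lit 0) (nat_lit 20444735264) (nat_lit 84) (nat_lit 26553904738) (nat_lit 168) (nat_lit 28390562605) (nat_lit 5) (nat_lit 5) (nat_lit 6) (nat_lit 5) (nat_lit 7) (nat_lit 4) (nat_lit 417) (nat_lit 311) (nat_lit 160))) (XT.nd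 (nat_lit 94) (nat_lit 0) (nat_lit 0) (XT.lf (nat_lit 0) (nat_lit 27864297903) (nat_lit 84) (nat_lit 22798662841) (nat_lit 168) (nat_lit 26904384875) (nat_lit 5) (nat_lit 5) (nat_lit 6) (nat_lit 5) (nat_lit 7) (nat_lit 4) (nat_lit 418) (nat_lit 311) (nat_lit 159)) (XT.lf (nat_lit 0) (nat_lit 35509957329) (nat_lit 84) (nat_lit 18928311387) (nat_lit 168) (nat_lit 25374834648) (nat_lit 5) (nat_lit 5) (nat_lit 6) (nat_lit 5) (nat_lit 7) (nat_lit 4) (nat_lit 419) (nat_lit 311) (nat_lit 158))))))))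
noncomputable def xc123 : XT := (XT.nd (nat_lit 47564) (nat_lit 0) (nat_lit 2268) (XT.nd (nat_lit 46342) (nat_lit 0) (nat_lit 6888) (XT.nd (nat_lit 45684) (nat_lit 0) (nat_lit 8316) (XT.nd (nat_lit 282) (nat_lit 0) (nat_lit 0) (XT.nd (nat_lit 94) (nat_lit 0) (nat_lit 0) (XT.lf (nat_lit 0) (nat_lit 43388840097) (nat_lit 84) (nat_lit 14939242803) (nat_lit 168) (nat_lit 23800486223) (nat_lit 5) (nat_lit 5) (nat_lit 6) (nat_lit 5) (nat_lit 7) (nat_lit 4) (nat_lit 420) (nat_lit 311) (nat_lit 157)) (XT.nd (nat_lit 94) (nat_lit 0) (nat_lit 0) (XT.lf (nat_lit 0) (nat_lit 51508290152) (nat_lit 84) (nat_lit 10827738859) (nat_lit 168) (nat_lit 22179872141) (nat_lit 5) (nat_lit 5) (nat_lit 6) (nat_lit 5) (nat_lit 7) (nat_lit 4) (nat_lit 421) (nat_lit 311) (nat_lit 156)) (XT.lf (nat_lit 0) (nat_lit 59875875672) (nat_lit 84) (nat_lit 6589967202) (nat_lit 168) (nat_lit 20511481821) (nat_lit 5)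 (nat_lit 5) (nat_lit 6) (nat_lit 5) (nat_lit 7) (nat_lit 4) (nat_lit 422) (nat_lit 311) (nat_lit 155)))) (XT.nd (nat_lit 94) (nat_lit 0) (nat_lit 0) (XT.lf (nat_lit 0) (nat_lit 68499396123) (nat_lit 84) (nat_lit 2221977786) (nat_lit 168) (nat_lit 18793760148) (nat_lit 5) (nat_lit 5) (nat_lit 6) (nat_lit 5) (nat_lit 7) (nat_lit 4) (nat_lit 423) (nat_lit 311) (nat_lit 154)) (XT.nd (nat_lit 45214) (nat_lit 0) (nat_lit 8988) (XT.lf (nat_lit 0) (nat_lit 75129209584) (nat_lit 168) (nat_lit 14767426079) (nat_lit 0) (nat_lit 2234357832) (nat_lit 5) (nat_lit 5) (nat_lit 7) (nat_lit 4) (nat_lit 5) (nat_lit 4) (nat_lit 424) (nat_lit 311) (nat_lit 153)) (XT.lf (nat_lit 0) (nat_lit 2314561121) (nat_lit 756) (nat_lit 767649740) (nat_lit 756) (nat_lit 767649740) (nat_lit 112) (nat_lit 3) (nat_lit 121) (nat_lit 3) (nat_lit 121) (nat_lit 5) (nat_lit 312) (nat_lit 312) (nat_lit 264))))) (XT.nd (nat_lit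 282) (nat_lit 672) (nat_lit 0) (XT.nd (nat_lit 94) (nat_lit 0) (nat_lit 0) (XT.lf (nat_lit 84) (nat_lit 1085819949) (nat_lit 0) (nat_lit 4636807501) (nat_lit 756) (nat_lit 2056053986) (nat_lit 113) (nat_lit 5) (nat_lit 112) (nat_lit 3) (nat_lit 121) (nat_lit 5) (nat_lit 313) (nat_lit 312) (nat_lit 263)) (XT.nd (nat_lit 94) (nat_lit 0) (nat_lit 0) (XT.lf (nat_lit 84) (nat_lit 3799130213) (nat_lit 0) (nat_lit 3025974015) (nat_lit 756) (nat_lit 1036108964) (nat_lit 113) (nat_lit 5) (nat_lit 112) (nat_lit 3) (nat_lit 121) (nat_lit 5) (nat_lit 314) (nat_lit 312) (nat_lit 262)) (XT.lf (nat_lit 84) (nat_lit 6575591492) (nat_lit 0) (nat_lit 1346445177) (nat_lit 756) (nat_lit 25838581) (nat_lit 113) (nat_lit 5) (nat_lit 112) (nat_lit 3) (nat_lit 121) (nat_lit 5) (nat_lit 315) (nat_lit 312) (nat_lit 261)))) (XT.nd (nat_lit 188) (nat_lit 0) (nat_lit 0) (XT.nd (nat_lit 94) (nat_lit 0) (nat_lit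 0) (XT.lf (nat_lit 0) (nat_lit 974146281) (nat_lit 756) (nat_lit 6644739346) (nat_lit 840) (nat_lit 419001438) (nat_lit 104) (nat_lit 5) (nat_lit 113) (nat_lit 5) (nat_lit 114) (nat_lit 5) (nat_lit 316) (nat_lit 312) (nat_lit 260)) (XT.lf (nat_lit 0) (nat_lit 1994729101) (nat_lit 756) (nat_lit 3893935170) (nat_lit 840) (nat_lit 2242633259) (nat_lit 104) (nat_lit 5) (nat_lit 113) (nat_lit 5) (nat_lit 114) (nat_lit 5) (nat_lit 317) (nat_lit 312) (nat_lit 259))) (XT.nd (nat_lit 94) (nat_lit 0) (nat_lit 0) (XT.lf (nat_lit 0) (nat_lit 3009989620) (nat_lit 756) (nat_lit 1080074782) (nat_lit 840) (nat_lit 4138986415) (nat_lit 104) (nat_lit 5) (nat_lit 113) (nat_lit 5) (nat_lit 114) (nat_lit 5) (nat_lit 318) (nat_lit 312) (nat_lit 258)) (XT.lf (nat_lit 84) (nat_lit 1836465314) (nat_lit 0) (nat_lit 2202626816) (nat_lit 840) (nat_lit 4291581153) (nat_lit 105) (nat_lit 5) (nat_lit 104) (nat_lit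 5) (nat_lit 114) (nat_lit 5) (nat_lit 319) (nat_lit 312) (nat_lit 257)))))) (XT.nd (nat_lit 564) (nat_lit 672) (nat_lit 0) (XT.nd (nat_lit 282) (nat_lit 756) (nat_lit 0) (XT.nd (nat_lit 94) (nat_lit 0) (nat_lit 84) (XT.lf (nat_lit 84) (nat_lit 4844982706) (nat_lit 0) (nat_lit 231405115) (nat_lit 840) (nat_lit 3360076682) (nat_lit 105) (nat_lit 5) (nat_lit 104) (nat_lit 5) (nat_lit 114) (nat_lit 5) (nat_lit 320) (nat_lit 312) (nat_lit 256)) (XT.nd (nat_lit 94) (nat_lit 0) (nat_lit 0) (XT.lf (nat_lit 0) (nat_lit 6129905509) (nat_lit 756) (nat_lit 638785704) (nat_lit 840) (nat_lit 1777612951) (nat_lit 105) (nat_lit 5) (nat_lit 114) (nat_lit 5) (nat_lit 115) (nat_lit 5) (nat_lit 321) (nat_lit 312) (nat_lit 255)) (XT.lf (nat_lit 84) (nat_lit 2430564479) (nat_lit 0) (nat_lit 4779212714) (nat_lit 840) (nat_lit 1450233804) (nat_lit 106) (nat_lit 5) (nat_lit 105) (nat_lit 5) (nat_lit 115)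 (nat_lit 5) (nat_lit 322) (nat_lit 312) (nat_lit 254)))) (XT.nd (nat_lit 94) (nat_lit 840) (nat_lit 0) (XT.lf (nat_lit 84) (nat_lit 5587340721) (nat_lit 0) (nat_lit 2710443274) (nat_lit 840) (nat_lit 480502982) (nat_lit 106) (nat_lit 5) (nat_lit 105) (nat_lit 5) (nat_lit 115) (nat_lit 5) (nat_lit 323) (nat_lit 312) (nat_lit 253)) (XT.nd (nat_lit 94) (nat_lit 0) (nat_lit 84) (XT.lf (nat_lit 0) (nat_lit 477217516) (nat_lit 840) (nat_lit 84923508) (nat_lit 924) (nat_lit 8339152034) (nat_lit 95) (nat_lit 5) (nat_lit 105) (nat_lit 5) (nat_lit 106) (nat_lit 5) (nat_lit 324) (nat_lit 312) (nat_lit 252)) (XT.lf (nat_lit 0) (nat_lit 1472149853) (nat_lit 840) (nat_lit 5889870600) (nat_lit 924) (nat_lit 1665632944) (nat_lit 96) (nat_lit 5) (nat_lit 106) (nat_lit 5) (nat_lit 107) (nat_lit 5) (nat_lit 325) (nat_lit 312) (nat_lit 251))))) (XT.nd (nat_lit 282) (nat_lit 756) (nat_lit 0) (XT.nd (nat_lit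 94) (nat_lit 0) (nat_lit 0) (XT.lf (nat_lit 0) (nat_lit 2474719902) (nat_lit 840) (nat_lit 2723378986) (nat_lit 924) (nat_lit 3960780312) (nat_lit 96) (nat_lit 5) (nat_lit 106) (nat_lit 5) (nat_lit 107) (nat_lit 5) (nat_lit 326) (nat_lit 312) (nat_lit 250)) (XT.nd (nat_lit 94) (nat_lit 0) (nat_lit 0) (XT.lf (nat_lit 84) (nat_lit 530714945) (nat_lit 0) (nat_lit 2953966900) (nat_lit 924) (nat_lit 5810447528) (nat_lit 97) (nat_lit 5) (nat_lit 96) (nat_lit 5) (nat_lit 107) (nat_lit 5) (nat_lit 327) (nat_lit 312) (nat_lit 249)) (XT.lf (nat_lit 84) (nat_lit 3922383502) (nat_lit 0) (nat_lit 603704919) (nat_lit 924) (nat_lit 4909726042) (nat_lit 97) (nat_lit 5) (nat_lit 96) (nat_lit 5) (nat_lit 107) (nat_lit 5) (nat_lit 328) (nat_lit 312) (nat_lit 248)))) (XT.nd (nat_lit 188) (nat_lit 0) (nat_lit 0) (XT.nd (nat_lit 94) (nat_lit 840) (nat_lit 0) (XT.lf (nat_lit 0) (nat_lit 5590457188) (nat_lit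 840) (nat_lit 2201249136) (nat_lit 84) (nat_lit 1789652329) (nat_lit 97) (nat_lit 5) (nat_lit 107) (nat_lit 5) (nat_lit 98) (nat_lit 5) (nat_lit 329) (nat_lit 312) (nat_lit 247)) (XT.lf (nat_lit 0) (nat_lit 1210947902) (nat_lit 840) (nat_lit 5468513444) (nat_lit 924) (nat_lit 3052415142) (nat_lit 87) (nat_lit 5) (nat_lit 97) (nat_lit 5) (nat_lit 98) (nat_lit 5) (nat_lit 330) (nat_lit 312) (nat_lit 246))) (XT.nd (nat_lit 94) (nat_lit 0) (nat_lit 0) (XT.lf (nat_lit 0) (nat_lit 4754913981) (nat_lit 840) (nat_lit 3044333034) (nat_lit 924) (nat_lit 2088102191) (nat_lit 87) (nat_lit 5) (nat_lit 97) (nat_lit 5) (nat_lit 98) (nat_lit 5) (nat_lit 331) (nat_lit 312) (nat_lit 245)) (XT.lf (nat_lit 0) (nat_lit 8388690252) (nat_lit 840) (nat_lit 539882031) (nat_lit 924) (nat_lit 1120040297) (nat_lit 87) (nat_lit 5) (nat_lit 97) (nat_lit 5) (nat_lit 98) (nat_lit 5) (nat_lit 332) (nat_lit 312)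 (nat_lit 244))))))) (XT.nd (nat_lit 1222) (nat_lit 1512) (nat_lit 0) (XT.nd (nat_lit 564) (nat_lit 1428) (nat_lit 0) (XT.nd (nat_lit 282) (nat_lit 672) (nat_lit 0) (XT.nd (nat_lit 94) (nat_lit 84) (nat_lit 0) (XT.lf (nat_lit 0) (nat_lit 1918185799) (nat_lit 924) (nat_lit 8189640858) (nat_lit 1008) (nat_lit 106770823) (nat_lit 76) (nat_lit 5) (nat_lit 87) (nat_lit 5) (nat_lit 88) (nat_lit 5) (nat_lit 333) (nat_lit 312) (nat_lit 243)) (XT.nd (nat_lit 94) (nat_lit 0) (nat_lit 0) (XT.lf (nat_lit 0) (nat_lit 917783223) (nat_lit 1008) (nat_lit 4778695766) (nat_lit 84) (nat_lit 4689172555) (nat_lit 75) (nat_lit 5) (nat_lit 87) (nat_lit 5) (nat_lit 76) (nat_lit 5) (nat_lit 334) (nat_lit 312) (nat_lit 242)) (XT.lf (nat_lit 0) (nat_lit 1948354766) (nat_lit 1008) (nat_lit 1173300666) (nat_lit 84) (nat_lit 7441217002) (nat_lit 75) (nat_lit 5) (nat_lit 87) (nat_lit 5) (nat_lit 76) (nat_lit 5)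 (nat_lit 335) (nat_lit 312) (nat_lit 241)))) (XT.nd (nat_lit 94) (nat_lit 0) (nat_lit 0) (XT.lf (nat_lit 0) (nat_lit 2576095996) (nat_lit 672) (nat_lit 437514794) (nat_lit 756) (nat_lit 7732055170) (nat_lit 67) (nat_lit 5) (nat_lit 75) (nat_lit 5) (nat_lit 76) (nat_lit 5) (nat_lit 336) (nat_lit 312) (nat_lit 240)) (XT.nd (nat_lit 94) (nat_lit 0) (nat_lit 0) (XT.lf (nat_lit 0) (nat_lit 4125076979) (nat_lit 756) (nat_lit 4510734910) (nat_lit 84) (nat_lit 2298064103) (nat_lit 67) (nat_lit 5) (nat_lit 76) (nat_lit 5) (nat_lit 68) (nat_lit 5) (nat_lit 337) (nat_lit 312) (nat_lit 239)) (XT.lf (nat_lit 0) (nat_lit 5253846668) (nat_lit 756) (nat_lit 762687175) (nat_lit 84) (nat_lit 5112072342) (nat_lit 67) (nat_lit 5) (nat_lit 76) (nat_lit 5) (nat_lit 68) (nat_lit 5) (nat_lit 338) (nat_lit 312) (nat_lit 238))))) (XT.nd (nat_lit 282) (nat_lit 924) (nat_lit 0) (XT.nd (nat_lit 94) (nat_lit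 0) (nat_lit 0) (XT.lf (nat_lit 0) (nat_lit 3145787625) (nat_lit 504) (nat_lit 3282050764) (nat_lit 588) (nat_lit 4901366796) (nat_lit 61) (nat_lit 5) (nat_lit 67) (nat_lit 5) (nat_lit 68) (nat_lit 5) (nat_lit 339) (nat_lit 312) (nat_lit 237)) (XT.nd (nat_lit 94) (nat_lit 0) (nat_lit 0) (XT.lf (nat_lit 0) (nat_lit 7172644494) (nat_lit 504) (nat_lit 453006560) (nat_lit 588) (nat_lit 3910906278) (nat_lit 61) (nat_lit 5) (nat_lit 67) (nat_lit 5) (nat_lit 68) (nat_lit 5) (nat_lit 340) (nat_lit 312) (nat_lit 236)) (XT.lf (nat_lit 0) (nat_lit 8865135458) (nat_lit 588) (nat_lit 469596628) (nat_lit 84) (nat_lit 2415605049) (nat_lit 61) (nat_lit 5) (nat_lit 68) (nat_lit 5) (nat_lit 62) (nat_lit 5) (nat_lit 341) (nat_lit 312) (nat_lit 235)))) (XT.nd (nat_lit 188) (nat_lit 504) (nat_lit 0) (XT.nd (nat_lit 94) (nat_lit 0) (nat_lit 0) (XT.lf (nat_lit 0) (nat_lit 3594657843) (nat_lit 420) (nat_lit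 6569376017) (nat_lit 504) (nat_lit 1806195803) (nat_lit 56) (nat_lit 5) (nat_lit 61) (nat_lit 5) (nat_lit 62) (nat_lit 5) (nat_lit 342) (nat_lit 312) (nat_lit 234)) (XT.lf (nat_lit 0) (nat_lit 7776470785) (nat_lit 420) (nat_lit 3712724270) (nat_lit 504) (nat_lit 708310046) (nat_lit 56) (nat_lit 5) (nat_lit 61) (nat_lit 5) (nat_lit 62) (nat_lit 5) (nat_lit 343) (nat_lit 312) (nat_lit 233))) (XT.nd (nat_lit 94) (nat_lit 420) (nat_lit 0) (XT.lf (nat_lit 0) (nat_lit 396425980) (nat_lit 504) (nat_lit 366451917) (nat_lit 84) (nat_lit 11669520359) (nat_lit 55) (nat_lit 5) (nat_lit 61) (nat_lit 5) (nat_lit 56) (nat_lit 5) (nat_lit 344) (nat_lit 312) (nat_lit 232)) (XT.lf (nat_lit 0) (nat_lit 1564036471) (nat_lit 504) (nat_lit 8830220792) (nat_lit 84) (nat_lit 2278868272) (nat_lit 50) (nat_lit 5) (nat_lit 56) (nat_lit 5) (nat_lit 51) (nat_lit 5) (nat_lit 345) (nat_lit 312) (nat_lit 231))))))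 (XT.nd (nat_lit 564) (nat_lit 756) (nat_lit 0) (XT.nd (nat_lit 282) (nat_lit 420) (nat_lit 0) (XT.nd (nat_lit 94) (nat_lit 336) (nat_lit 0) (XT.lf (nat_lit 0) (nat_lit 2761791065) (nat_lit 504) (nat_lit 4756797453) (nat_lit 84) (nat_lit 5403031404) (nat_lit 50) (nat_lit 5) (nat_lit 56) (nat_lit 5) (nat_lit 51) (nat_lit 5) (nat_lit 346) (nat_lit 312) (nat_lit 230)) (XT.nd (nat_lit 94) (nat_lit 336) (nat_lit 0) (XT.lf (nat_lit 0) (nat_lit 3979490410) (nat_lit 504) (nat_lit 574827524) (nat_lit 84) (nat_lit 8624145893) (nat_lit 50) (nat_lit 5) (nat_lit 56) (nat_lit 5) (nat_lit 51) (nat_lit 5) (nat_lit 347) (nat_lit 312) (nat_lit 229)) (XT.lf (nat_lit 0) (nat_lit 3796069365) (nat_lit 336) (nat_lit 1459857642) (nat_lit 420) (nat_lit 8186802267) (nat_lit 46) (nat_lit 5) (nat_lit 50) (nat_lit 5) (nat_lit 51) (nat_lit 5) (nat_lit 348) (nat_lit 312) (nat_lit 228)))) (XT.nd (nat_lit 94) (nat_lit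 420) (nat_lit 0) (XT.lf (nat_lit 0) (nat_lit 6578818234) (nat_lit 420) (nat_lit 5435207993) (nat_lit 84) (nat_lit 1701054004) (nat_lit 46) (nat_lit 5) (nat_lit 51) (nat_lit 5) (nat_lit 47) (nat_lit 5) (nat_lit 349) (nat_lit 312) (nat_lit 227)) (XT.nd (nat_lit 94) (nat_lit 420) (nat_lit 0) (XT.lf (nat_lit 0) (nat_lit 7941798037) (nat_lit 420) (nat_lit 1125230614) (nat_lit 84) (nat_lit 4928977481) (nat_lit 46) (nat_lit 5) (nat_lit 51) (nat_lit 5) (nat_lit 47) (nat_lit 5) (nat_lit 350) (nat_lit 312) (nat_lit 226)) (XT.lf (nat_lit 0) (nat_lit 3369662740) (nat_lit 420) (nat_lit 5995419617) (nat_lit 504) (nat_lit 4920099159) (nat_lit 41) (nat_lit 5) (nat_lit 46) (nat_lit 5) (nat_lit 47) (nat_lit 5) (nat_lit 351) (nat_lit 312) (nat_lit 225))))) (XT.nd (nat_lit 282) (nat_lit 420) (nat_lit 0) (XT.nd (nat_lit 94) (nat_lit 336) (nat_lit 0) (XT.lf (nat_lit 0) (nat_lit 8011335473) (nat_lit 420)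 (nat_lit 2817822240) (nat_lit 504) (nat_lit 3754364256) (nat_lit 41) (nat_lit 5) (nat_lit 46) (nat_lit 5) (nat_lit 47) (nat_lit 5) (nat_lit 352) (nat_lit 312) (nat_lit 224)) (XT.nd (nat_lit 94) (nat_lit 336) (nat_lit 0) (XT.lf (nat_lit 0) (nat_lit 12328530128) (nat_lit 504) (nat_lit 2115214970) (nat_lit 84) (nat_lit 447773098) (nat_lit 41) (nat_lit 5) (nat_lit 47) (nat_lit 5) (nat_lit 42) (nat_lit 5) (nat_lit 353) (nat_lit 312) (nat_lit 223)) (XT.lf (nat_lit 0) (nat_lit 2485211454) (nat_lit 336) (nat_lit 11428449510) (nat_lit 420) (nat_lit 1294275337) (nat_lit 37) (nat_lit 5) (nat_lit 41) (nat_lit 5) (nat_lit 42) (nat_lit 5) (nat_lit 354) (nat_lit 312) (nat_lit 222)))) (XT.nd (nat_lit 188) (nat_lit 336) (nat_lit 0) (XT.nd (nat_lit 94) (nat_lit 0) (nat_lit 0) (XT.lf (nat_lit 0) (nat_lit 21639585) (nat_lit 420) (nat_lit 8276927403) (nat_lit 84) (nat_lit 7235425699) (nat_lit 36) (nat_lit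 5) (nat_lit 41) (nat_lit 5) (nat_lit 37) (nat_lit 5) (nat_lit 355) (nat_lit 312) (nat_lit 221)) (XT.lf (nat_lit 0) (nat_lit 1337733498) (nat_lit 420) (nat_lit 3722239796) (nat_lit 84) (nat_lit 10810282365) (nat_lit 36) (nat_lit 5) (nat_lit 41) (nat_lit 5) (nat_lit 37) (nat_lit 5) (nat_lit 356) (nat_lit 312) (nat_lit 220))) (XT.nd (nat_lit 94) (nat_lit 0) (nat_lit 0) (XT.lf (nat_lit 0) (nat_lit 978129926) (nat_lit 336) (nat_lit 1712883146) (nat_lit 420) (nat_lit 13526122803) (nat_lit 32) (nat_lit 5) (nat_lit 36) (nat_lit 5) (nat_lit 37) (nat_lit 5) (nat_lit 357) (nat_lit 312) (nat_lit 219)) (XT.lf (nat_lit 0) (nat_lit 4129649747) (nat_lit 420) (nat_lit 10703612595) (nat_lit 84) (nat_lit 1740240108) (nat_lit 32) (nat_lit 5) (nat_lit 37) (nat_lit 5) (nat_lit 33) (nat_lit 5) (nat_lit 358) (nat_lit 312) (nat_lit 218))))))))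
noncomputable def xc124 : XT := (XT.nd (nat_lit 2350) (nat_lit 672) (nat_lit 0) (XT.nd (nat_lit 1128) (nat_lit 672) (nat_lit 0) (XT.nd (nat_lit 564) (nat_lit 336) (nat_lit 0) (XT.nd (nat_lit 282) (nat_lit 252) (nat_lit 0) (XT.nd (nat_lit 94) (nat_lit 252) (nat_lit 0) (XT.lf (nat_lit 0) (nat_lit 5617711042) (nat_lit 420) (nat_lit 6060203925) (nat_lit 84) (nat_lit 5262928066) (nat_lit 32) (nat_lit 5) (nat_lit 37) (nat_lit 5) (nat_lit 33) (nat_lit 5) (nat_lit 359) (nat_lit 312) (nat_lit 217)) (XT.nd (nat_lit 94) (nat_lit 252) (nat_lit 0) (XT.lf (nat_lit 0) (nat_lit 7139591974) (nat_lit 420) (nat_lit 1287459783) (nat_lit 84) (nat_lit 8892975020) (nat_lit 32) (nat_lit 5) (nat_lit 37) (nat_lit 5) (nat_lit 33) (nat_lit 5) (nat_lit 360) (nat_lit 312) (nat_lit 216)) (XT.lf (nat_lit 0) (nat_lit 3693484000) (nat_lit 252) (nat_lit 5039866912) (nat_lit 336) (nat_lit 8976920373) (nat_lit 29) (nat_lit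 5) (nat_lit 32) (nat_lit 5) (nat_lit 33) (nat_lit 5) (nat_lit 361) (nat_lit 312) (nat_lit 215)))) (XT.nd (nat_lit 94) (nat_lit 252) (nat_lit 0) (XT.lf (nat_lit 0) (nat_lit 8842103081) (nat_lit 252) (nat_lit 1536131477) (nat_lit 336) (nat_lit 7734395154) (nat_lit 29) (nat_lit 5) (nat_lit 32) (nat_lit 5) (nat_lit 33) (nat_lit 5) (nat_lit 362) (nat_lit 312) (nat_lit 214)) (XT.nd (nat_lit 94) (nat_lit 252) (nat_lit 0) (XT.lf (nat_lit 0) (nat_lit 12083315899) (nat_lit 336) (nat_lit 4411731623) (nat_lit 84) (nat_lit 2032195841) (nat_lit 29) (nat_lit 5) (nat_lit 33) (nat_lit 5) (nat_lit 30) (nat_lit 5) (nat_lit 363) (nat_lit 312) (nat_lit 213)) (XT.lf (nat_lit 0) (nat_lit 580080022) (nat_lit 252) (nat_lit 13271592635) (nat_lit 336) (nat_lit 5102779904) (nat_lit 26) (nat_lit 5) (nat_lit 29) (nat_lit 5) (nat_lit 30) (nat_lit 5) (nat_lit 364) (nat_lit 312) (nat_lit 212))))) (XT.nd (nat_lit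 282) (nat_lit 336) (nat_lit 0) (XT.nd (nat_lit 94) (nat_lit 0) (nat_lit 0) (XT.lf (nat_lit 0) (nat_lit 5806719412) (nat_lit 252) (nat_lit 9903329715) (nat_lit 336) (nat_lit 3683828407) (nat_lit 26) (nat_lit 5) (nat_lit 29) (nat_lit 5) (nat_lit 30) (nat_lit 5) (nat_lit 365) (nat_lit 312) (nat_lit 211)) (XT.nd (nat_lit 94) (nat_lit 0) (nat_lit 0) (XT.lf (nat_lit 0) (nat_lit 11182344072) (nat_lit 252) (nat_lit 6433168619) (nat_lit 336) (nat_lit 2231799792) (nat_lit 26) (nat_lit 5) (nat_lit 29) (nat_lit 5) (nat_lit 30) (nat_lit 5) (nat_lit 366) (nat_lit 312) (nat_lit 210)) (XT.lf (nat_lit 0) (nat_lit 16711964648) (nat_lit 252) (nat_lit 2857874792) (nat_lit 336) (nat_lit 745340615) (nat_lit 26) (nat_lit 5) (nat_lit 29) (nat_lit 5) (nat_lit 30) (nat_lit 5) (nat_lit 367) (nat_lit 312) (nat_lit 209)))) (XT.nd (nat_lit 94) (nat_lit 0) (nat_lit 0) (XT.lf (nat_lit 0) (nat_lit 785867098) (nat_lit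 336) (nat_lit 19177703224) (nat_lit 84) (nat_lit 833344939) (nat_lit 22) (nat_lit 5) (nat_lit 26) (nat_lit 5) (nat_lit 23) (nat_lit 5) (nat_lit 368) (nat_lit 312) (nat_lit 208)) (XT.nd (nat_lit 94) (nat_lit 0) (nat_lit 0) (XT.lf (nat_lit 0) (nat_lit 2406380905) (nat_lit 336) (nat_lit 14262474372) (nat_lit 84) (nat_lit 4622770232) (nat_lit 22) (nat_lit 5) (nat_lit 26) (nat_lit 5) (nat_lit 23) (nat_lit 5) (nat_lit 369) (nat_lit 312) (nat_lit 207)) (XT.lf (nat_lit 0) (nat_lit 4067525355) (nat_lit 336) (nat_lit 9207230317) (nat_lit 84) (nat_lit 8527266745) (nat_lit 22) (nat_lit 5) (nat_lit 26) (nat_lit 5) (nat_lit 23) (nat_lit 5) (nat_lit 370) (nat_lit 312) (nat_lit 206)))))) (XT.nd (nat_lit 564) (nat_lit 420) (nat_lit 0) (XT.nd (nat_lit 282) (nat_lit 0) (nat_lit 0) (XT.nd (nat_lit 94) (nat_lit 252) (nat_lit 0) (XT.lf (nat_lit 0) (nat_lit 5770848810) (nat_lit 336) (nat_lit 4007259043)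 (nat_lit 84) (nat_lit 12550473878) (nat_lit 22) (nat_lit 5) (nat_lit 26) (nat_lit 5) (nat_lit 23) (nat_lit 5) (nat_lit 371) (nat_lit 312) (nat_lit 205)) (XT.nd (nat_lit 94) (nat_lit 0) (nat_lit 0) (XT.lf (nat_lit 0) (nat_lit 1369886530) (nat_lit 252) (nat_lit 6161641858) (nat_lit 336) (nat_lit 15339844597) (nat_lit 19) (nat_lit 5) (nat_lit 22) (nat_lit 5) (nat_lit 23) (nat_lit 5) (nat_lit 372) (nat_lit 312) (nat_lit 204)) (XT.lf (nat_lit 0) (nat_lit 6987168122) (nat_lit 252) (nat_lit 2392569680) (nat_lit 336) (nat_lit 14050279805) (nat_lit 19) (nat_lit 5) (nat_lit 22) (nat_lit 5) (nat_lit 23) (nat_lit 5) (nat_lit 373) (nat_lit 312) (nat_lit 203)))) (XT.nd (nat_lit 94) (nat_lit 0) (nat_lit 0) (XT.lf (nat_lit 0) (nat_lit 11291418744) (nat_lit 336) (nat_lit 11253658681) (nat_lit 84) (nat_lit 1460758102) (nat_lit 19) (nat_lit 5) (nat_lit 23) (nat_lit 5) (nat_lit 20) (nat_lit 5) (nat_lit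 374) (nat_lit 312) (nat_lit 202)) (XT.nd (nat_lit 94) (nat_lit 0) (nat_lit 0) (XT.lf (nat_lit 0) (nat_lit 13278454733) (nat_lit 336) (nat_lit 5939178808) (nat_lit 84) (nat_lit 5381416774) (nat_lit 19) (nat_lit 5) (nat_lit 23) (nat_lit 5) (nat_lit 20) (nat_lit 5) (nat_lit 375) (nat_lit 312) (nat_lit 201)) (XT.lf (nat_lit 0) (nat_lit 15318963308) (nat_lit 336) (nat_lit 470721627) (nat_lit 84) (nat_lit 9421265747) (nat_lit 19) (nat_lit 5) (nat_lit 23) (nat_lit 5) (nat_lit 20) (nat_lit 5) (nat_lit 376) (nat_lit 312) (nat_lit 200))))) (XT.nd (nat_lit 282) (nat_lit 252) (nat_lit 0) (XT.nd (nat_lit 94) (nat_lit 0) (nat_lit 0) (XT.lf (nat_lit 0) (nat_lit 5262844627) (nat_lit 168) (nat_lit 12204209880) (nat_lit 252) (nat_lit 8373434025) (nat_lit 17) (nat_lit 5) (nat_lit 19) (nat_lit 5) (nat_lit 20) (nat_lit 5) (nat_lit 377) (nat_lit 312) (nat_lit 199)) (XT.nd (nat_lit 94) (nat_lit 0) (nat_lit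 0) (XT.lf (nat_lit 0) (nat_lit 11173788571) (nat_lit 168) (nat_lit 8505114498) (nat_lit 252) (nat_lit 6810768246) (nat_lit 17) (nat_lit 5) (nat_lit 19) (nat_lit 5) (nat_lit 20) (nat_lit 5) (nat_lit 378) (nat_lit 312) (nat_lit 198)) (XT.lf (nat_lit 0) (nat_lit 17257940821) (nat_lit 168) (nat_lit 4693864214) (nat_lit 252) (nat_lit 5207446836) (nat_lit 17) (nat_lit 5) (nat_lit 19) (nat_lit 5) (nat_lit 20) (nat_lit 5) (nat_lit 379) (nat_lit 312) (nat_lit 197)))) (XT.nd (nat_lit 188) (nat_lit 84) (nat_lit 0) (XT.nd (nat_lit 94) (nat_lit 168) (nat_lit 0) (XT.lf (nat_lit 0) (nat_lit 23520972443) (nat_lit 168) (nat_lit 766906542) (nat_lit 252) (nat_lit 3561975333) (nat_lit 17) (nat_lit 5) (nat_lit 19) (nat_lit 5) (nat_lit 20) (nat_lit 5) (nat_lit 380) (nat_lit 312) (nat_lit 196)) (XT.lf (nat_lit 0) (nat_lit 1402320253) (nat_lit 168) (nat_lit 25333425566) (nat_lit 252) (nat_lit 1824936807)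 (nat_lit 15) (nat_lit 5) (nat_lit 17) (nat_lit 5) (nat_lit 18) (nat_lit 5) (nat_lit 381) (nat_lit 312) (nat_lit 195))) (XT.nd (nat_lit 94) (nat_lit 0) (nat_lit 0) (XT.lf (nat_lit 0) (nat_lit 13045089) (nat_lit 252) (nat_lit 21906907724) (nat_lit 84) (nat_lit 7372201143) (nat_lit 14) (nat_lit 5) (nat_lit 17) (nat_lit 5) (nat_lit 15) (nat_lit 5) (nat_lit 382) (nat_lit 312) (nat_lit 194)) (XT.lf (nat_lit 0) (nat_lit 1863227826) (nat_lit 252) (nat_lit 16520783030) (nat_lit 84) (nat_lit 11661958840) (nat_lit 14) (nat_lit 5) (nat_lit 17) (nat_lit 5) (nat_lit 15) (nat_lit 5) (nat_lit 383) (nat_lit 312) (nat_lit 193))))))) (XT.nd (nat_lit 1222) (nat_lit 336) (nat_lit 0) (XT.nd (nat_lit 564) (nat_lit 168) (nat_lit 0) (XT.nd (nat_lit 282) (nat_lit 0) (nat_lit 0) (XT.nd (nat_lit 94) (nat_lit 168) (nat_lit 0) (XT.lf (nat_lit 0) (nat_lit 3764104377) (nat_lit 252) (nat_lit 10976864260) (nat_lit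 84) (nat_lit 16082425056) (nat_lit 14) (nat_lit 5) (nat_lit 17) (nat_lit 5) (nat_lit 15) (nat_lit 5) (nat_lit 384) (nat_lit 312) (nat_lit 192)) (XT.nd (nat_lit 94) (nat_lit 168) (nat_lit 0) (XT.lf (nat_lit 0) (nat_lit 5717446558) (nat_lit 252) (nat_lit 5269983900) (nat_lit 84) (nat_lit 20637720128) (nat_lit 14) (nat_lit 5) (nat_lit 17) (nat_lit 5) (nat_lit 15) (nat_lit 5) (nat_lit 385) (nat_lit 312) (nat_lit 191)) (XT.lf (nat_lit 0) (nat_lit 617621148) (nat_lit 168) (nat_lit 7113580817) (nat_lit 252) (nat_lit 24720595799) (nat_lit 12) (nat_lit 5) (nat_lit 14) (nat_lit 5) (nat_lit 15) (nat_lit 5) (nat_lit 386) (nat_lit 312) (nat_lit 190)))) (XT.nd (nat_lit 94) (nat_lit 0) (nat_lit 0) (XT.lf (nat_lit 0) (nat_lit 6790917946) (nat_lit 168) (nat_lit 3065310087) (nat_lit 252) (nat_lit 23446359325) (nat_lit 12) (nat_lit 5) (nat_lit 14) (nat_lit 5) (nat_lit 15) (nat_lit 5) (nat_lit 387)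 (nat_lit 312) (nat_lit 189)) (XT.nd (nat_lit 94) (nat_lit 0) (nat_lit 0) (XT.lf (nat_lit 0) (nat_lit 12052124773) (nat_lit 252) (nat_lit 21043640505) (nat_lit 84) (nat_lit 1083860916) (nat_lit 12) (nat_lit 5) (nat_lit 15) (nat_lit 5) (nat_lit 13) (nat_lit 5) (nat_lit 388) (nat_lit 312) (nat_lit 188)) (XT.lf (nat_lit 0) (nat_lit 14341624497) (nat_lit 252) (nat_lit 15445678626) (nat_lit 84) (nat_lit 5295787391) (nat_lit 12) (nat_lit 5) (nat_lit 15) (nat_lit 5) (nat_lit 13) (nat_lit 5) (nat_lit 389) (nat_lit 312) (nat_lit 187))))) (XT.nd (nat_lit 282) (nat_lit 0) (nat_lit 0) (XT.nd (nat_lit 94) (nat_lit 168) (nat_lit 0) (XT.lf (nat_lit 0) (nat_lit 16696453003) (nat_lit 252) (nat_lit 9682157634) (nat_lit 84) (nat_lit 9636154459) (nat_lit 12) (nat_lit 5) (nat_lit 15) (nat_lit 5) (nat_lit 13) (nat_lit 5) (nat_lit 390) (nat_lit 312) (nat_lit 186)) (XT.nd (nat_lit 94) (nat_lit 168) (nat_lit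 0) (XT.lf (nat_lit 0) (nat_lit 19118805239) (nat_lit 252) (nat_lit 3747705324) (nat_lit 84) (nat_lit 14109007798) (nat_lit 12) (nat_lit 5) (nat_lit 15) (nat_lit 5) (nat_lit 13) (nat_lit 5) (nat_lit 391) (nat_lit 312) (nat_lit 185)) (XT.lf (nat_lit 0) (nat_lit 2411802277) (nat_lit 168) (nat_lit 19223062191) (nat_lit 252) (nat_lit 16330639675) (nat_lit 10) (nat_lit 5) (nat_lit 12) (nat_lit 5) (nat_lit 13) (nat_lit 5) (nat_lit 392) (nat_lit 312) (nat_lit 184)))) (XT.nd (nat_lit 188) (nat_lit 0) (nat_lit 0) (XT.nd (nat_lit 94) (nat_lit 0) (nat_lit 0) (XT.lf (nat_lit 0) (nat_lit 8834274809) (nat_lit 168) (nat_lit 15428539779) (nat_lit 252) (nat_lit 14722339626) (nat_lit 10) (nat_lit 5) (nat_lit 12) (nat_lit 5) (nat_lit 13) (nat_lit 5) (nat_lit 393) (nat_lit 312) (nat_lit 183)) (XT.lf (nat_lit 0) (nat_lit 15448638181) (nat_lit 168) (nat_lit 11518524791) (nat_lit 252) (nat_lit 13069432229)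 (nat_lit 10) (nat_lit 5) (nat_lit 12) (nat_lit 5) (nat_lit 13) (nat_lit 5) (nat_lit 394) (nat_lit 312) (nat_lit 182))) (XT.nd (nat_lit 94) (nat_lit 0) (nat_lit 0) (XT.lf (nat_lit 0) (nat_lit 22261057672) (nat_lit 168) (nat_lit 7489372686) (nat_lit 252) (nat_lit 11370376800) (nat_lit 10) (nat_lit 5) (nat_lit 12) (nat_lit 5) (nat_lit 13) (nat_lit 5) (nat_lit 395) (nat_lit 312) (nat_lit 181)) (XT.lf (nat_lit 0) (nat_lit 29277883172) (nat_lit 168) (nat_lit 3337327871) (nat_lit 252) (nat_lit 9623589641) (nat_lit 10) (nat_lit 5) (nat_lit 12) (nat_lit 5) (nat_lit 13) (nat_lit 5) (nat_lit 396) (nat_lit 312) (nat_lit 180)))))) (XT.nd (nat_lit 564) (nat_lit 168) (nat_lit 0) (XT.nd (nat_lit 282) (nat_lit 84) (nat_lit 0) (XT.nd (nat_lit 94) (nat_lit 84) (nat_lit 0) (XT.lf (nat_lit 0) (nat_lit 35573514896) (nat_lit 252) (nat_lit 6895302366) (nat_lit 84) (nat_lit 922511075) (nat_lit 10) (nat_lit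 5) (nat_lit 13) (nat_lit 5) (nat_lit 11) (nat_lit 4) (nat_lit 397) (nat_lit 312) (nat_lit 179)) (XT.nd (nat_lit 94) (nat_lit 84) (nat_lit 0) (XT.lf (nat_lit 0) (nat_lit 38653154840) (nat_lit 252) (nat_lit 682305731) (nat_lit 84) (nat_lit 5243227106) (nat_lit 10) (nat_lit 5) (nat_lit 13) (nat_lit 5) (nat_lit 11) (nat_lit 4) (nat_lit 398) (nat_lit 312) (nat_lit 178)) (XT.lf (nat_lit 0) (nat_lit 5834522897) (nat_lit 84) (nat_lit 36047251008) (nat_lit 168) (nat_lit 3919443593) (nat_lit 9) (nat_lit 5) (nat_lit 10) (nat_lit 5) (nat_lit 11) (nat_lit 4) (nat_lit 399) (nat_lit 312) (nat_lit 177)))) (XT.nd (nat_lit 94) (nat_lit 84) (nat_lit 0) (XT.lf (nat_lit 0) (nat_lit 12561578219) (nat_lit 84) (nat_lit 32651724177) (nat_lit 168) (nat_lit 1848276383) (nat_lit 9) (nat_lit 5) (nat_lit 10) (nat_lit 5) (nat_lit 11) (nat_lit 4) (nat_lit 400) (nat_lit 312) (nat_lit 176)) (XT.nd (nat_lit 94) (nat_lit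 0) (nat_lit 0) (XT.lf (nat_lit 0) (nat_lit 277080129) (nat_lit 168) (nat_lit 28872864686) (nat_lit 84) (nat_lit 19211128672) (nat_lit 8) (nat_lit 5) (nat_lit 10) (nat_lit 5) (nat_lit 9) (nat_lit 5) (nat_lit 401) (nat_lit 312) (nat_lit 175)) (XT.lf (nat_lit 0) (nat_lit 2425824392) (nat_lit 168) (nat_lit 23096183014) (nat_lit 84) (nat_lit 24178405106) (nat_lit 8) (nat_lit 5) (nat_lit 10) (nat_lit 5) (nat_lit 9) (nat_lit 5) (nat_lit 402) (nat_lit 312) (nat_lit 174))))) (XT.nd (nat_lit 282) (nat_lit 168) (nat_lit 0) (XT.nd (nat_lit 94) (nat_lit 0) (nat_lit 0) (XT.lf (nat_lit 0) (nat_lit 4637197910) (nat_lit 168) (nat_lit 17146235942) (nat_lit 84) (nat_lit 29297978797) (nat_lit 8) (nat_lit 5) (nat_lit 10) (nat_lit 5) (nat_lit 9) (nat_lit 5) (nat_lit 403) (nat_lit 312) (nat_lit 173)) (XT.nd (nat_lit 94) (nat_lit 0) (nat_lit 0) (XT.lf (nat_lit 0) (nat_lit 6913261916) (nat_lit 168) (nat_lit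 11017477497) (nat_lit 84) (nat_lit 34574621722) (nat_lit 8) (nat_lit 5) (nat_lit 10) (nat_lit 5) (nat_lit 9) (nat_lit 5) (nat_lit 404) (nat_lit 312) (nat_lit 172)) (XT.lf (nat_lit 0) (nat_lit 9256137938) (nat_lit 168) (nat_lit 4704195032) (nat_lit 84) (nat_lit 40013252266) (nat_lit 8) (nat_lit 5) (nat_lit 10) (nat_lit 5) (nat_lit 9) (nat_lit 5) (nat_lit 405) (nat_lit 312) (nat_lit 171)))) (XT.nd (nat_lit 188) (nat_lit 0) (nat_lit 0) (XT.nd (nat_lit 94) (nat_lit 0) (nat_lit 0) (XT.lf (nat_lit 0) (nat_lit 1836497421) (nat_lit 168) (nat_lit 9849730644) (nat_lit 252) (nat_lit 43800660663) (nat_lit 6) (nat_lit 5) (nat_lit 8) (nat_lit 5) (nat_lit 9) (nat_lit 5) (nat_lit 406) (nat_lit 312) (nat_lit 170)) (XT.lf (nat_lit 0) (nat_lit 8674428396) (nat_lit 168) (nat_lit 5562748576) (nat_lit 252) (nat_lit 42808532426) (nat_lit 6) (nat_lit 5) (nat_lit 8) (nat_lit 5) (nat_lit 9) (nat_lit 5) (nat_lit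 407) (nat_lit 312) (nat_lit 169))) (XT.nd (nat_lit 94) (nat_lit 0) (nat_lit 0) (XT.lf (nat_lit 0) (nat_lit 15719243663) (nat_lit 168) (nat_lit 1144493000) (nat_lit 252) (nat_lit 41789239970) (nat_lit 6) (nat_lit 5) (nat_lit 8) (nat_lit 5) (nat_lit 9) (nat_lit 5) (nat_lit 408) (nat_lit 312) (nat_lit 168)) (XT.lf (nat_lit 0) (nat_lit 19602174596) (nat_lit 252) (nat_lit 37366498077) (nat_lit 84) (nat_lit 3340467499) (nat_lit 6) (nat_lit 5) (nat_lit 9) (nat_lit 5) (nat_lit 7) (nat_lit 4) (nat_lit 409) (nat_lit 312) (nat_lit 167))))))))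
noncomputable def xc125 : XT := (XT.nd (nat_lit 47470) (nat_lit 0) (nat_lit 3780) (XT.nd (nat_lit 1128) (nat_lit 0) (nat_lit 0) (XT.nd (nat_lit 564) (nat_lit 84) (nat_lit 0) (XT.nd (nat_lit 282) (nat_lit 0) (nat_lit 0) (XT.nd (nat_lit 94) (nat_lit 0) (nat_lit 0) (XT.lf (nat_lit 0) (nat_lit 22433931250) (nat_lit 252) (nat_lit 31643275042) (nat_lit 84) (nat_lit 7939191918) (nat_lit 6) (nat_lit 5) (nat_lit 9) (nat_lit 5) (nat_lit 7) (nat_lit 4) (nat_lit 410) (nat_lit 312) (nat_lit 166)) (XT.nd (nat_lit 94) (nat_lit 0) (nat_lit 0) (XT.lf (nat_lit 0) (nat_lit 25350292605) (nat_lit 252) (nat_lit 25747375711) (nat_lit 84) (nat_lit 12679025733) (nat_lit 6) (nat_lit 5) (nat_lit 9) (nat_lit 5) (nat_lit 7) (nat_lit 4) (nat_lit 411) (nat_lit 312) (nat_lit 165)) (XT.lf (nat_lit 0) (nat_lit 28353977017) (nat_lit 252) (nat_lit 19673304487) (nat_lit 84) (nat_lit 17564386966) (nat_lit 6) (nat_lit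 5) (nat_lit 9) (nat_lit 5) (nat_lit 7) (nat_lit 4) (nat_lit 412) (nat_lit 312) (nat_lit 164)))) (XT.nd (nat_lit 94) (nat_lit 0) (nat_lit 0) (XT.lf (nat_lit 0) (nat_lit 31447784232) (nat_lit 252) (nat_lit 13415399699) (nat_lit 84) (nat_lit 22599829284) (nat_lit 6) (nat_lit 5) (nat_lit 9) (nat_lit 5) (nat_lit 7) (nat_lit 4) (nat_lit 413) (nat_lit 312) (nat_lit 163)) (XT.nd (nat_lit 94) (nat_lit 0) (nat_lit 0) (XT.lf (nat_lit 0) (nat_lit 34634598004) (nat_lit 252) (nat_lit 6967828326) (nat_lit 84) (nat_lit 27790046247) (nat_lit 6) (nat_lit 5) (nat_lit 9) (nat_lit 5) (nat_lit 7) (nat_lit 4) (nat_lit 414) (nat_lit 312) (nat_lit 162)) (XT.lf (nat_lit 0) (nat_lit 37917388778) (nat_lit 252) (nat_lit 324580554) (nat_lit 84) (nat_lit 33139875683) (nat_lit 6) (nat_lit 5) (nat_lit 9) (nat_lit 5) (nat_lit 7) (nat_lit 4) (nat_lit 415) (nat_lit 312) (nat_lit 161))))) (XT.nd (nat_lit 282) (nat_lit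 0) (nat_lit 0) (XT.nd (nat_lit 94) (nat_lit 0) (nat_lit 0) (XT.lf (nat_lit 0) (nat_lit 6654611407) (nat_lit 84) (nat_lit 34710619618) (nat_lit 168) (nat_lit 32065707352) (nat_lit 5) (nat_lit 5) (nat_lit 6) (nat_lit 5) (nat_lit 7) (nat_lit 4) (nat_lit 416) (nat_lit 312) (nat_lit 160)) (XT.nd (nat_lit 94) (nat_lit 0) (nat_lit 0) (XT.lf (nat_lit 0) (nat_lit 13853008403) (nat_lit 84) (nat_lit 31067648414) (nat_lit 168) (nat_lit 30622886951) (nat_lit 5) (nat_lit 5) (nat_lit 6) (nat_lit 5) (nat_lit 7) (nat_lit 4) (nat_lit 417) (nat_lit 312) (nat_lit 159)) (XT.lf (nat_lit 0) (nat_lit 21270646052) (nat_lit 84) (nat_lit 27313048044) (nat_lit 168) (nat_lit 29138038129) (nat_lit 5) (nat_lit 5) (nat_lit 6) (nat_lit 5) (nat_lit 7) (nat_lit 4) (nat_lit 418) (nat_lit 312) (nat_lit 158)))) (XT.nd (nat_lit 94) (nat_lit 0) (nat_lit 0) (XT.lf (nat_lit 0) (nat_lit 28914438368) (nat_lit 84) (nat_lit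 23443318828) (nat_lit 168) (nat_lit 27609776853) (nat_lit 5) (nat_lit 5) (nat_lit 6) (nat_lit 5) (nat_lit 7) (nat_lit 4) (nat_lit 419) (nat_lit 312) (nat_lit 157)) (XT.nd (nat_lit 94) (nat_lit 0) (nat_lit 0) (XT.lf (nat_lit 0) (nat_lit 36791510167) (nat_lit 84) (nat_lit 19454853772) (nat_lit 168) (nat_lit 26036678622) (nat_lit 5) (nat_lit 5) (nat_lit 6) (nat_lit 5) (nat_lit 7) (nat_lit 4) (nat_lit 420) (nat_lit 312) (nat_lit 156)) (XT.lf (nat_lit 0) (nat_lit 44909203705) (nat_lit 84) (nat_lit 15343935209) (nat_lit 168) (nat_lit 24417277144) (nat_lit 5) (nat_lit 5) (nat_lit 6) (nat_lit 5) (nat_lit 7) (nat_lit 4) (nat_lit 421) (nat_lit 312) (nat_lit 155)))))) (XT.nd (nat_lit 45684) (nat_lit 0) (nat_lit 8232) (XT.nd (nat_lit 282) (nat_lit 0) (nat_lit 0) (XT.nd (nat_lit 94) (nat_lit 0) (nat_lit 0) (XT.lf (nat_lit 0) (nat_lit 53275085522) (nat_lit 84) (nat_lit 11106731333) (nat_lit 168)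 (nat_lit 22750062967) (nat_lit 5) (nat_lit 5) (nat_lit 6) (nat_lit 5) (nat_lit 7) (nat_lit 4) (nat_lit 422) (nat_lit 312) (nat_lit 154)) (XT.nd (nat_lit 94) (nat_lit 0) (nat_lit 0) (XT.lf (nat_lit 0) (nat_lit 61896953497) (nat_lit 84) (nat_lit 6739292625) (nat_lit 168) (nat_lit 21033482073) (nat_lit 5) (nat_lit 5) (nat_lit 6) (nat_lit 5) (nat_lit 7) (nat_lit 4) (nat_lit 423) (nat_lit 312) (nat_lit 153)) (XT.lf (nat_lit 0) (nat_lit 70782844114) (nat_lit 84) (nat_lit 2237548176) (nat_lit 168) (nat_lit 19265934429) (nat_lit 5) (nat_lit 5) (nat_lit 6) (nat_lit 5) (nat_lit 7) (nat_lit 4) (nat_lit 424) (nat_lit 312) (nat_lit 152)))) (XT.nd (nat_lit 45214) (nat_lit 0) (nat_lit 8988) (XT.lf (nat_lit 0) (nat_lit 77562176905) (nat_lit 168) (nat_lit 15066909446) (nat_lit 0) (nat_lit 2354289099) (nat_lit 5) (nat_lit 5) (nat_lit 7) (nat_lit 4) (nat_lit 5) (nat_lit 4) (nat_lit 425) (nat_lit 312)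 (nat_lit 151)) (XT.nd (nat_lit 94) (nat_lit 0) (nat_lit 0) (XT.lf (nat_lit 0) (nat_lit 3387265791) (nat_lit 756) (nat_lit 271143137) (nat_lit 756) (nat_lit 271143137) (nat_lit 112) (nat_lit 3) (nat_lit 121) (nat_lit 3) (nat_lit 121) (nat_lit 5) (nat_lit 313) (nat_lit 313) (nat_lit 262)) (XT.lf (nat_lit 84) (nat_lit 2149552642) (nat_lit 0) (nat_lit 5702408138) (nat_lit 756) (nat_lit 90619215) (nat_lit 113) (nat_lit 5) (nat_lit 112) (nat_lit 3) (nat_lit 121) (nat_lit 5) (nat_lit 314) (nat_lit 313) (nat_lit 261))))) (XT.nd (nat_lit 282) (nat_lit 0) (nat_lit 84) (XT.nd (nat_lit 94) (nat_lit 0) (nat_lit 0) (XT.lf (nat_lit 0) (nat_lit 881799549) (nat_lit 756) (nat_lit 3122916707) (nat_lit 840) (nat_lit 4024999690) (nat_lit 103) (nat_lit 5) (nat_lit 112) (nat_lit 3) (nat_lit 113) (nat_lit 5) (nat_lit 315) (nat_lit 313) (nat_lit 260)) (XT.nd (nat_lit 94) (nat_lit 0) (nat_lit 0) (XT.lf (nat_lit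 0) (nat_lit 1844416522) (nat_lit 756) (nat_lit 391772811) (nat_lit 840) (nat_lit 5884825711) (nat_lit 103) (nat_lit 5) (nat_lit 112) (nat_lit 3) (nat_lit 113) (nat_lit 5) (nat_lit 316) (nat_lit 313) (nat_lit 259)) (XT.lf (nat_lit 84) (nat_lit 2453277065) (nat_lit 0) (nat_lit 371014483) (nat_lit 840) (nat_lit 5391544265) (nat_lit 104) (nat_lit 5) (nat_lit 103) (nat_lit 5) (nat_lit 113) (nat_lit 5) (nat_lit 317) (nat_lit 313) (nat_lit 258)))) (XT.nd (nat_lit 188) (nat_lit 0) (nat_lit 0) (XT.nd (nat_lit 94) (nat_lit 0) (nat_lit 0) (XT.lf (nat_lit 0) (nat_lit 3818220624) (nat_lit 756) (nat_lit 2955628706) (nat_lit 840) (nat_lit 1540544947) (nat_lit 104) (nat_lit 5) (nat_lit 113) (nat_lit 5) (nat_lit 114) (nat_lit 5) (nat_lit 318) (nat_lit 313) (nat_lit 257)) (XT.lf (nat_lit 0) (nat_lit 4811984963) (nat_lit 756) (nat_lit 86381102) (nat_lit 840) (nat_lit 3518885737) (nat_lit 104) (nat_lit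 5) (nat_lit 113) (nat_lit 5) (nat_lit 114) (nat_lit 5) (nat_lit 319) (nat_lit 313) (nat_lit 256))) (XT.nd (nat_lit 94) (nat_lit 0) (nat_lit 0) (XT.lf (nat_lit 84) (nat_lit 2910172503) (nat_lit 0) (nat_lit 2921527118) (nat_lit 840) (nat_lit 2692023791) (nat_lit 105) (nat_lit 5) (nat_lit 104) (nat_lit 5) (nat_lit 114) (nat_lit 5) (nat_lit 320) (nat_lit 313) (nat_lit 255)) (XT.lf (nat_lit 84) (nat_lit 5981381597) (nat_lit 0) (nat_lit 869634804) (nat_lit 840) (nat_lit 1783738208) (nat_lit 105) (nat_lit 5) (nat_lit 104) (nat_lit 5) (nat_lit 114) (nat_lit 5) (nat_lit 321) (nat_lit 313) (nat_lit 254))))))) (XT.nd (nat_lit 1222) (nat_lit 2100) (nat_lit 0) (XT.nd (nat_lit 564) (nat_lit 1680) (nat_lit 0) (XT.nd (nat_lit 282) (nat_lit 0) (nat_lit 0) (XT.nd (nat_lit 94) (nat_lit 840) (nat_lit 0) (XT.lf (nat_lit 84) (nat_lit 372886829) (nat_lit 0) (nat_lit 7513305845) (nat_lit 840) (nat_lit 863781685)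 (nat_lit 106) (nat_lit 5) (nat_lit 105) (nat_lit 5) (nat_lit 115) (nat_lit 5) (nat_lit 322) (nat_lit 313) (nat_lit 253)) (XT.nd (nat_lit 94) (nat_lit 0) (nat_lit 0) (XT.lf (nat_lit 0) (nat_lit 88251005) (nat_lit 840) (nat_lit 5350233869) (nat_lit 924) (nat_lit 3430335169) (nat_lit 95) (nat_lit 5) (nat_lit 105) (nat_lit 5) (nat_lit 106) (nat_lit 5) (nat_lit 323) (nat_lit 313) (nat_lit 252)) (XT.lf (nat_lit 0) (nat_lit 1021194910) (nat_lit 840) (nat_lit 2259254754) (nat_lit 924) (nat_lit 5711812869) (nat_lit 95) (nat_lit 5) (nat_lit 105) (nat_lit 5) (nat_lit 106) (nat_lit 5) (nat_lit 324) (nat_lit 313) (nat_lit 251)))) (XT.nd (nat_lit 94) (nat_lit 0) (nat_lit 84) (XT.lf (nat_lit 84) (nat_lit 925955695) (nat_lit 0) (nat_lit 1036552807) (nat_lit 924) (nat_lit 7157889270) (nat_lit 96) (nat_lit 5) (nat_lit 95) (nat_lit 5) (nat_lit 106) (nat_lit 5) (nat_lit 325) (nat_lit 313) (nat_lit 250))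 (XT.nd (nat_lit 94) (nat_lit 0) (nat_lit 0) (XT.lf (nat_lit 0) (nat_lit 2940540509) (nat_lit 840) (nat_lit 5028131367) (nat_lit 924) (nat_lit 1283821708) (nat_lit 96) (nat_lit 5) (nat_lit 106) (nat_lit 5) (nat_lit 107) (nat_lit 5) (nat_lit 326) (nat_lit 313) (nat_lit 249)) (XT.lf (nat_lit 0) (nat_lit 3931411011) (nat_lit 840) (nat_lit 1794879174) (nat_lit 924) (nat_lit 3663151449) (nat_lit 96) (nat_lit 5) (nat_lit 106) (nat_lit 5) (nat_lit 107) (nat_lit 5) (nat_lit 327) (nat_lit 313) (nat_lit 248))))) (XT.nd (nat_lit 282) (nat_lit 1764) (nat_lit 0) (XT.nd (nat_lit 94) (nat_lit 0) (nat_lit 0) (XT.lf (nat_lit 84) (nat_lit 1549836718) (nat_lit 0) (nat_lit 3391298725) (nat_lit 924) (nat_lit 4590076282) (nat_lit 97) (nat_lit 5) (nat_lit 96) (nat_lit 5) (nat_lit 107) (nat_lit 5) (nat_lit 328) (nat_lit 313) (nat_lit 247)) (XT.nd (nat_lit 94) (nat_lit 0) (nat_lit 84) (XT.lf (nat_lit 84)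 (nat_lit 5016498835) (nat_lit 0) (nat_lit 957782382) (nat_lit 924) (nat_lit 3703542371) (nat_lit 97) (nat_lit 5) (nat_lit 96) (nat_lit 5) (nat_lit 107) (nat_lit 5) (nat_lit 329) (nat_lit 313) (nat_lit 246)) (XT.lf (nat_lit 0) (nat_lit 7029093287) (nat_lit 840) (nat_lit 1273998619) (nat_lit 84) (nat_lit 1526406234) (nat_lit 97) (nat_lit 5) (nat_lit 107) (nat_lit 5) (nat_lit 98) (nat_lit 5) (nat_lit 330) (nat_lit 313) (nat_lit 245)))) (XT.nd (nat_lit 188) (nat_lit 1008) (nat_lit 0) (XT.nd (nat_lit 94) (nat_lit 0) (nat_lit 0) (XT.lf (nat_lit 0) (nat_lit 2233898093) (nat_lit 840) (nat_lit 5889688011) (nat_lit 924) (nat_lit 1862262686) (nat_lit 87) (nat_lit 5) (nat_lit 97) (nat_lit 5) (nat_lit 98) (nat_lit 5) (nat_lit 331) (nat_lit 313) (nat_lit 244)) (XT.lf (nat_lit 0) (nat_lit 5858097892) (nat_lit 840) (nat_lit 3382791403) (nat_lit 924) (nat_lit 906686583) (nat_lit 87) (nat_lit 5) (nat_lit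 97) (nat_lit 5) (nat_lit 98) (nat_lit 5) (nat_lit 332) (nat_lit 313) (nat_lit 243))) (XT.nd (nat_lit 94) (nat_lit 924) (nat_lit 0) (XT.lf (nat_lit 0) (nat_lit 52829926) (nat_lit 924) (nat_lit 739981963) (nat_lit 84) (nat_lit 9522401523) (nat_lit 86) (nat_lit 5) (nat_lit 97) (nat_lit 5) (nat_lit 87) (nat_lit 5) (nat_lit 333) (nat_lit 313) (nat_lit 242)) (XT.lf (nat_lit 0) (nat_lit 1048216355) (nat_lit 1008) (nat_lit 7556029256) (nat_lit 84) (nat_lit 1882909603) (nat_lit 75) (nat_lit 5) (nat_lit 87) (nat_lit 5) (nat_lit 76) (nat_lit 5) (nat_lit 334) (nat_lit 313) (nat_lit 241)))))) (XT.nd (nat_lit 564) (nat_lit 924) (nat_lit 0) (XT.nd (nat_lit 282) (nat_lit 504) (nat_lit 0) (XT.nd (nat_lit 94) (nat_lit 672) (nat_lit 0) (XT.lf (nat_lit 0) (nat_lit 2067552828) (nat_lit 1008) (nat_lit 3960318192) (nat_lit 84) (nat_lit 4636933936) (nat_lit 75) (nat_lit 5) (nat_lit 87) (nat_lit 5) (nat_lit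 76) (nat_lit 5) (nat_lit 335) (nat_lit 313) (nat_lit 240)) (XT.nd (nat_lit 94) (nat_lit 672) (nat_lit 0) (XT.lf (nat_lit 0) (nat_lit 3096356407) (nat_lit 1008) (nat_lit 272216980) (nat_lit 84) (nat_lit 7480233266) (nat_lit 75) (nat_lit 5) (nat_lit 87) (nat_lit 5) (nat_lit 76) (nat_lit 5) (nat_lit 336) (nat_lit 313) (nat_lit 239)) (XT.lf (nat_lit 0) (nat_lit 3583920078) (nat_lit 672) (nat_lit 587218897) (nat_lit 756) (nat_lit 6867090697) (nat_lit 67) (nat_lit 5) (nat_lit 75) (nat_lit 5) (nat_lit 76) (nat_lit 5) (nat_lit 337) (nat_lit 313) (nat_lit 238)))) (XT.nd (nat_lit 94) (nat_lit 504) (nat_lit 0) (XT.lf (nat_lit 0) (nat_lit 5283755251) (nat_lit 756) (nat_lit 3709861993) (nat_lit 84) (nat_lit 2239916890) (nat_lit 67) (nat_lit 5) (nat_lit 76) (nat_lit 5) (nat_lit 68) (nat_lit 5) (nat_lit 338) (nat_lit 313) (nat_lit 237)) (XT.nd (nat_lit 94) (nat_lit 0) (nat_lit 0) (XT.lf (nat_lit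 0) (nat_lit 128682854) (nat_lit 504) (nat_lit 6289116483) (nat_lit 588) (nat_lit 5017643480) (nat_lit 61) (nat_lit 5) (nat_lit 67) (nat_lit 5) (nat_lit 68) (nat_lit 5) (nat_lit 339) (nat_lit 313) (nat_lit 236)) (XT.lf (nat_lit 0) (nat_lit 4146490261) (nat_lit 504) (nat_lit 3459315592) (nat_lit 588) (nat_lit 4037362262) (nat_lit 61) (nat_lit 5) (nat_lit 67) (nat_lit 5) (nat_lit 68) (nat_lit 5) (nat_lit 340) (nat_lit 313) (nat_lit 235))))) (XT.nd (nat_lit 282) (nat_lit 504) (nat_lit 0) (XT.nd (nat_lit 94) (nat_lit 420) (nat_lit 0) (XT.lf (nat_lit 0) (nat_lit 8271022874) (nat_lit 504) (nat_lit 540300253) (nat_lit 588) (nat_lit 3046744853) (nat_lit 61) (nat_lit 5) (nat_lit 67) (nat_lit 5) (nat_lit 68) (nat_lit 5) (nat_lit 341) (nat_lit 313) (nat_lit 234)) (XT.nd (nat_lit 94) (nat_lit 0) (nat_lit 0) (XT.lf (nat_lit 0) (nat_lit 409524311) (nat_lit 420) (nat_lit 9654522204) (nat_lit 504)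 (nat_lit 2015410483) (nat_lit 56) (nat_lit 5) (nat_lit 61) (nat_lit 5) (nat_lit 62) (nat_lit 5) (nat_lit 342) (nat_lit 313) (nat_lit 233)) (XT.lf (nat_lit 0) (nat_lit 4582555513) (nat_lit 420) (nat_lit 6797624003) (nat_lit 504) (nat_lit 926895901) (nat_lit 56) (nat_lit 5) (nat_lit 61) (nat_lit 5) (nat_lit 62) (nat_lit 5) (nat_lit 343) (nat_lit 313) (nat_lit 232)))) (XT.nd (nat_lit 188) (nat_lit 0) (nat_lit 0) (XT.nd (nat_lit 94) (nat_lit 420) (nat_lit 0) (XT.lf (nat_lit 0) (nat_lit 173337870) (nat_lit 504) (nat_lit 3676529299) (nat_lit 84) (nat_lit 8692504087) (nat_lit 55) (nat_lit 5) (nat_lit 61) (nat_lit 5) (nat_lit 56) (nat_lit 5) (nat_lit 344) (nat_lit 313) (nat_lit 231)) (XT.lf (nat_lit 0) (nat_lit 479880589) (nat_lit 420) (nat_lit 795760214) (nat_lit 504) (nat_lit 11509539852) (nat_lit 50) (nat_lit 5) (nat_lit 55) (nat_lit 5) (nat_lit 56) (nat_lit 5) (nat_lit 345) (nat_lit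 313) (nat_lit 230))) (XT.nd (nat_lit 94) (nat_lit 0) (nat_lit 0) (XT.lf (nat_lit 0) (nat_lit 2457039693) (nat_lit 504) (nat_lit 8232712149) (nat_lit 84) (nat_lit 2344486081) (nat_lit 50) (nat_lit 5) (nat_lit 56) (nat_lit 5) (nat_lit 51) (nat_lit 5) (nat_lit 346) (nat_lit 313) (nat_lit 229)) (XT.lf (nat_lit 0) (nat_lit 3666531797) (nat_lit 504) (nat_lit 4059209204) (nat_lit 84) (nat_lit 5565649424) (nat_lit 50) (nat_lit 5) (nat_lit 56) (nat_lit 5) (nat_lit 51) (nat_lit 5) (nat_lit 347) (nat_lit 313) (nat_lit 228))))))))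
noncomputable def xc126 : XT := (XT.nd (nat_lit 2350) (nat_lit 1008) (nat_lit 0) (XT.nd (nat_lit 1128) (nat_lit 840) (nat_lit 0) (XT.nd (nat_lit 564) (nat_lit 756) (nat_lit 0) (XT.nd (nat_lit 282) (nat_lit 420) (nat_lit 0) (XT.nd (nat_lit 94) (nat_lit 0) (nat_lit 0) (XT.lf (nat_lit 0) (nat_lit 231660388) (nat_lit 336) (nat_lit 4667988162) (nat_lit 420) (nat_lit 8657402783) (nat_lit 46) (nat_lit 5) (nat_lit 50) (nat_lit 5) (nat_lit 51) (nat_lit 5) (nat_lit 348) (nat_lit 313) (nat_lit 227)) (XT.nd (nat_lit 94) (nat_lit 0) (nat_lit 0) (XT.lf (nat_lit 0) (nat_lit 4725089521) (nat_lit 336) (nat_lit 1472426857) (nat_lit 420) (nat_lit 7632712603) (nat_lit 46) (nat_lit 5) (nat_lit 50) (nat_lit 5) (nat_lit 51) (nat_lit 5) (nat_lit 349) (nat_lit 313) (nat_lit 226)) (XT.lf (nat_lit 0) (nat_lit 7538319201) (nat_lit 420) (nat_lit 4788721115) (nat_lit 84) (nat_lit 1784851484) (nat_lit 46) (nat_lit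 5) (nat_lit 51) (nat_lit 5) (nat_lit 47) (nat_lit 5) (nat_lit 350) (nat_lit 313) (nat_lit 225)))) (XT.nd (nat_lit 94) (nat_lit 420) (nat_lit 0) (XT.lf (nat_lit 0) (nat_lit 8920833350) (nat_lit 420) (nat_lit 369639120) (nat_lit 84) (nat_lit 5111906535) (nat_lit 46) (nat_lit 5) (nat_lit 51) (nat_lit 5) (nat_lit 47) (nat_lit 5) (nat_lit 351) (nat_lit 313) (nat_lit 224)) (XT.nd (nat_lit 94) (nat_lit 0) (nat_lit 0) (XT.lf (nat_lit 0) (nat_lit 4256593092) (nat_lit 420) (nat_lit 6117373656) (nat_lit 504) (nat_lit 4327138416) (nat_lit 41) (nat_lit 5) (nat_lit 46) (nat_lit 5) (nat_lit 47) (nat_lit 5) (nat_lit 352) (nat_lit 313) (nat_lit 223)) (XT.lf (nat_lit 0) (nat_lit 9018630429) (nat_lit 420) (nat_lit 2843192218) (nat_lit 504) (nat_lit 3147680861) (nat_lit 41) (nat_lit 5) (nat_lit 46) (nat_lit 5) (nat_lit 47) (nat_lit 5) (nat_lit 353) (nat_lit 313) (nat_lit 222))))) (XT.nd (nat_lit 282)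 (nat_lit 336) (nat_lit 0) (XT.nd (nat_lit 94) (nat_lit 420) (nat_lit 0) (XT.lf (nat_lit 0) (nat_lit 13387315842) (nat_lit 504) (nat_lit 1419936659) (nat_lit 84) (nat_lit 520561631) (nat_lit 41) (nat_lit 5) (nat_lit 47) (nat_lit 5) (nat_lit 42) (nat_lit 5) (nat_lit 354) (nat_lit 313) (nat_lit 221)) (XT.nd (nat_lit 94) (nat_lit 84) (nat_lit 0) (XT.lf (nat_lit 0) (nat_lit 3315400062) (nat_lit 336) (nat_lit 11693313009) (nat_lit 420) (nat_lit 645858473) (nat_lit 37) (nat_lit 5) (nat_lit 41) (nat_lit 5) (nat_lit 42) (nat_lit 5) (nat_lit 355) (nat_lit 313) (nat_lit 220)) (XT.lf (nat_lit 0) (nat_lit 676691465) (nat_lit 420) (nat_lit 7785570891) (nat_lit 84) (nat_lit 7529013952) (nat_lit 36) (nat_lit 5) (nat_lit 41) (nat_lit 5) (nat_lit 37) (nat_lit 5) (nat_lit 356) (nat_lit 313) (nat_lit 219)))) (XT.nd (nat_lit 94) (nat_lit 336) (nat_lit 0) (XT.lf (nat_lit 0) (nat_lit 2013908428) (nat_lit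 420) (nat_lit 3112176989) (nat_lit 84) (nat_lit 11212607769) (nat_lit 36) (nat_lit 5) (nat_lit 41) (nat_lit 5) (nat_lit 37) (nat_lit 5) (nat_lit 357) (nat_lit 313) (nat_lit 218)) (XT.nd (nat_lit 94) (nat_lit 0) (nat_lit 0) (XT.lf (nat_lit 0) (nat_lit 1726559642) (nat_lit 336) (nat_lit 1670619494) (nat_lit 420) (nat_lit 13299634527) (nat_lit 32) (nat_lit 5) (nat_lit 36) (nat_lit 5) (nat_lit 37) (nat_lit 5) (nat_lit 358) (nat_lit 313) (nat_lit 217)) (XT.lf (nat_lit 0) (nat_lit 4862606496) (nat_lit 420) (nat_lit 10317466196) (nat_lit 84) (nat_lit 1884819633) (nat_lit 32) (nat_lit 5) (nat_lit 37) (nat_lit 5) (nat_lit 33) (nat_lit 5) (nat_lit 359) (nat_lit 313) (nat_lit 216)))))) (XT.nd (nat_lit 564) (nat_lit 336) (nat_lit 0) (XT.nd (nat_lit 282) (nat_lit 252) (nat_lit 0) (XT.nd (nat_lit 94) (nat_lit 252) (nat_lit 0) (XT.lf (nat_lit 0) (nat_lit 6378608491) (nat_lit 420) (nat_lit 5551699355)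 (nat_lit 84) (nat_lit 5513985802) (nat_lit 32) (nat_lit 5) (nat_lit 37) (nat_lit 5) (nat_lit 33) (nat_lit 5) (nat_lit 360) (nat_lit 313) (nat_lit 215)) (XT.nd (nat_lit 94) (nat_lit 252) (nat_lit 0) (XT.lf (nat_lit 0) (nat_lit 7930025442) (nat_lit 420) (nat_lit 651938551) (nat_lit 84) (nat_lit 9253921035) (nat_lit 32) (nat_lit 5) (nat_lit 37) (nat_lit 5) (nat_lit 33) (nat_lit 5) (nat_lit 361) (nat_lit 313) (nat_lit 214)) (XT.lf (nat_lit 0) (nat_lit 4476576342) (nat_lit 252) (nat_lit 5086135281) (nat_lit 336) (nat_lit 8675943192) (nat_lit 29) (nat_lit 5) (nat_lit 32) (nat_lit 5) (nat_lit 33) (nat_lit 5) (nat_lit 362) (nat_lit 313) (nat_lit 213)))) (XT.nd (nat_lit 94) (nat_lit 252) (nat_lit 0) (XT.lf (nat_lit 0) (nat_lit 9764699390) (nat_lit 252) (nat_lit 1477090539) (nat_lit 336) (nat_lit 7412316871) (nat_lit 29) (nat_lit 5) (nat_lit 32) (nat_lit 5) (nat_lit 33) (nat_lit 5) (nat_lit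 363) (nat_lit 313) (nat_lit 212)) (XT.nd (nat_lit 94) (nat_lit 252) (nat_lit 0) (XT.lf (nat_lit 0) (nat_lit 12984463376) (nat_lit 336) (nat_lit 3901116587) (nat_lit 84) (nat_lit 2196563488) (nat_lit 29) (nat_lit 5) (nat_lit 33) (nat_lit 5) (nat_lit 30) (nat_lit 5) (nat_lit 364) (nat_lit 313) (nat_lit 211)) (XT.lf (nat_lit 0) (nat_lit 1238887091) (nat_lit 252) (nat_lit 13559276470) (nat_lit 336) (nat_lit 4724820159) (nat_lit 26) (nat_lit 5) (nat_lit 29) (nat_lit 5) (nat_lit 30) (nat_lit 5) (nat_lit 365) (nat_lit 313) (nat_lit 210))))) (XT.nd (nat_lit 282) (nat_lit 336) (nat_lit 0) (XT.nd (nat_lit 94) (nat_lit 0) (nat_lit 0) (XT.lf (nat_lit 0) (nat_lit 6608284055) (nat_lit 252) (nat_lit 10090317867) (nat_lit 336) (nat_lit 3278001945) (nat_lit 26) (nat_lit 5) (nat_lit 29) (nat_lit 5) (nat_lit 30) (nat_lit 5) (nat_lit 366) (nat_lit 313) (nat_lit 209)) (XT.nd (nat_lit 94) (nat_lit 0)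 (nat_lit 0) (XT.lf (nat_lit 0) (nat_lit 12131864189) (nat_lit 252) (nat_lit 6516190377) (nat_lit 336) (nat_lit 1796596504) (nat_lit 26) (nat_lit 5) (nat_lit 29) (nat_lit 5) (nat_lit 30) (nat_lit 5) (nat_lit 367) (nat_lit 313) (nat_lit 208)) (XT.lf (nat_lit 0) (nat_lit 17814776047) (nat_lit 252) (nat_lit 2833562540) (nat_lit 336) (nat_lit 279223010) (nat_lit 26) (nat_lit 5) (nat_lit 29) (nat_lit 5) (nat_lit 30) (nat_lit 5) (nat_lit 368) (nat_lit 313) (nat_lit 207)))) (XT.nd (nat_lit 188) (nat_lit 0) (nat_lit 0) (XT.nd (nat_lit 94) (nat_lit 0) (nat_lit 0) (XT.lf (nat_lit 0) (nat_lit 1282241414) (nat_lit 336) (nat_lit 19164983099) (nat_lit 84) (nat_lit 977164163) (nat_lit 22) (nat_lit 5) (nat_lit 26) (nat_lit 5) (nat_lit 23) (nat_lit 5) (nat_lit 369) (nat_lit 313) (nat_lit 206)) (XT.lf (nat_lit 0) (nat_lit 2938798728) (nat_lit 336) (nat_lit 14115640248) (nat_lit 84) (nat_lit 4880514063)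 (nat_lit 22) (nat_lit 5) (nat_lit 26) (nat_lit 5) (nat_lit 23) (nat_lit 5) (nat_lit 370) (nat_lit 313) (nat_lit 205))) (XT.nd (nat_lit 94) (nat_lit 0) (nat_lit 0) (XT.lf (nat_lit 0) (nat_lit 4637672972) (nat_lit 336) (nat_lit 8921392741) (nat_lit 84) (nat_lit 8902609060) (nat_lit 22) (nat_lit 5) (nat_lit 26) (nat_lit 5) (nat_lit 23) (nat_lit 5) (nat_lit 371) (nat_lit 313) (nat_lit 204)) (XT.lf (nat_lit 0) (nat_lit 6380447674) (nat_lit 336) (nat_lit 3577398994) (nat_lit 84) (nat_lit 13047198167) (nat_lit 22) (nat_lit 5) (nat_lit 26) (nat_lit 5) (nat_lit 23) (nat_lit 5) (nat_lit 372) (nat_lit 313) (nat_lit 203))))))) (XT.nd (nat_lit 1222) (nat_lit 336) (nat_lit 0) (XT.nd (nat_lit 564) (nat_lit 252) (nat_lit 0) (XT.nd (nat_lit 282) (nat_lit 168) (nat_lit 0) (XT.nd (nat_lit 94) (nat_lit 0) (nat_lit 0) (XT.lf (nat_lit 0) (nat_lit 1960828477) (nat_lit 252) (nat_lit 6227370468) (nat_lit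 336) (nat_lit 15376767759) (nat_lit 19) (nat_lit 5) (nat_lit 22) (nat_lit 5) (nat_lit 23) (nat_lit 5) (nat_lit 373) (nat_lit 313) (nat_lit 202)) (XT.nd (nat_lit 94) (nat_lit 0) (nat_lit 0) (XT.lf (nat_lit 0) (nat_lit 7735754296) (nat_lit 252) (nat_lit 2345224027) (nat_lit 336) (nat_lit 14060414599) (nat_lit 19) (nat_lit 5) (nat_lit 22) (nat_lit 5) (nat_lit 23) (nat_lit 5) (nat_lit 374) (nat_lit 313) (nat_lit 201)) (XT.lf (nat_lit 0) (nat_lit 12040748647) (nat_lit 336) (nat_lit 11073197420) (nat_lit 84) (nat_lit 1621528558) (nat_lit 19) (nat_lit 5) (nat_lit 23) (nat_lit 5) (nat_lit 20) (nat_lit 5) (nat_lit 375) (nat_lit 313) (nat_lit 200)))) (XT.nd (nat_lit 94) (nat_lit 168) (nat_lit 0) (XT.lf (nat_lit 0) (nat_lit 14077376764) (nat_lit 336) (nat_lit 5609884350) (nat_lit 84) (nat_lit 5660255199) (nat_lit 19) (nat_lit 5) (nat_lit 23) (nat_lit 5) (nat_lit 20) (nat_lit 5) (nat_lit 376)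 (nat_lit 313) (nat_lit 199)) (XT.nd (nat_lit 94) (nat_lit 0) (nat_lit 0) (XT.lf (nat_lit 0) (nat_lit 12918147) (nat_lit 168) (nat_lit 16156706114) (nat_lit 252) (nat_lit 9809181452) (nat_lit 17) (nat_lit 5) (nat_lit 19) (nat_lit 5) (nat_lit 20) (nat_lit 5) (nat_lit 377) (nat_lit 313) (nat_lit 198)) (XT.lf (nat_lit 0) (nat_lit 5918923166) (nat_lit 168) (nat_lit 12458850050) (nat_lit 252) (nat_lit 8250349749) (nat_lit 17) (nat_lit 5) (nat_lit 19) (nat_lit 5) (nat_lit 20) (nat_lit 5) (nat_lit 378) (nat_lit 313) (nat_lit 197))))) (XT.nd (nat_lit 282) (nat_lit 252) (nat_lit 0) (XT.nd (nat_lit 94) (nat_lit 0) (nat_lit 0) (XT.lf (nat_lit 0) (nat_lit 11998284994) (nat_lit 168) (nat_lit 8648801819) (nat_lit 252) (nat_lit 6650747133) (nat_lit 17) (nat_lit 5) (nat_lit 19) (nat_lit 5) (nat_lit 20) (nat_lit 5) (nat_lit 379) (nat_lit 313) (nat_lit 196)) (XT.nd (nat_lit 94) (nat_lit 0) (nat_lit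 0) (XT.lf (nat_lit 0) (nat_lit 18256670233) (nat_lit 168) (nat_lit 4723010058) (nat_lit 252) (nat_lit 5008882608) (nat_lit 17) (nat_lit 5) (nat_lit 19) (nat_lit 5) (nat_lit 20) (nat_lit 5) (nat_lit 380) (nat_lit 313) (nat_lit 195)) (XT.lf (nat_lit 0) (nat_lit 24699912353) (nat_lit 168) (nat_lit 677815517) (nat_lit 252) (nat_lit 3323225782) (nat_lit 17) (nat_lit 5) (nat_lit 19) (nat_lit 5) (nat_lit 20) (nat_lit 5) (nat_lit 381) (nat_lit 313) (nat_lit 194)))) (XT.nd (nat_lit 188) (nat_lit 0) (nat_lit 0) (XT.nd (nat_lit 94) (nat_lit 84) (nat_lit 0) (XT.lf (nat_lit 0) (nat_lit 1902042096) (nat_lit 168) (nat_lit 25994917892) (nat_lit 252) (nat_lit 1537051893) (nat_lit 15) (nat_lit 5) (nat_lit 17) (nat_lit 5) (nat_lit 18) (nat_lit 5) (nat_lit 382) (nat_lit 313) (nat_lit 193)) (XT.lf (nat_lit 0) (nat_lit 340818929) (nat_lit 252) (nat_lit 22135115214) (nat_lit 84) (nat_lit 7712484310) (nat_lit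 14) (nat_lit 5) (nat_lit 17) (nat_lit 5) (nat_lit 15) (nat_lit 5) (nat_lit 383) (nat_lit 313) (nat_lit 192))) (XT.nd (nat_lit 94) (nat_lit 0) (nat_lit 0) (XT.lf (nat_lit 0) (nat_lit 2238514021) (nat_lit 252) (nat_lit 16595578469) (nat_lit 84) (nat_lit 12131864561) (nat_lit 14) (nat_lit 5) (nat_lit 17) (nat_lit 5) (nat_lit 15) (nat_lit 5) (nat_lit 384) (nat_lit 313) (nat_lit 191)) (XT.lf (nat_lit 0) (nat_lit 4188770402) (nat_lit 252) (nat_lit 10892948375) (nat_lit 84) (nat_lit 16686106321) (nat_lit 14) (nat_lit 5) (nat_lit 17) (nat_lit 5) (nat_lit 15) (nat_lit 5) (nat_lit 385) (nat_lit 313) (nat_lit 190)))))) (XT.nd (nat_lit 564) (nat_lit 168) (nat_lit 0) (XT.nd (nat_lit 282) (nat_lit 0) (nat_lit 0) (XT.nd (nat_lit 94) (nat_lit 168) (nat_lit 0) (XT.lf (nat_lit 0) (nat_lit 6193405917) (nat_lit 252) (nat_lit 5021909486) (nat_lit 84) (nat_lit 21379454620) (nat_lit 14) (nat_lit 5) (nat_lit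 17) (nat_lit 5) (nat_lit 15) (nat_lit 5) (nat_lit 386) (nat_lit 313) (nat_lit 189)) (XT.nd (nat_lit 94) (nat_lit 0) (nat_lit 0) (XT.lf (nat_lit 0) (nat_lit 1044045819) (nat_lit 168) (nat_lit 7220600339) (nat_lit 252) (nat_lit 25182595396) (nat_lit 12) (nat_lit 5) (nat_lit 14) (nat_lit 5) (nat_lit 15) (nat_lit 5) (nat_lit 387) (nat_lit 313) (nat_lit 188)) (XT.lf (nat_lit 0) (nat_lit 7396468813) (nat_lit 168) (nat_lit 3050245966) (nat_lit 252) (nat_lit 23878008421) (nat_lit 12) (nat_lit 5) (nat_lit 14) (nat_lit 5) (nat_lit 15) (nat_lit 5) (nat_lit 388) (nat_lit 313) (nat_lit 187)))) (XT.nd (nat_lit 94) (nat_lit 0) (nat_lit 0) (XT.lf (nat_lit 0) (nat_lit 12703175918) (nat_lit 252) (nat_lit 21303961660) (nat_lit 84) (nat_lit 1222087851) (nat_lit 12) (nat_lit 5) (nat_lit 15) (nat_lit 5) (nat_lit 13) (nat_lit 5) (nat_lit 389) (nat_lit 313) (nat_lit 186)) (XT.nd (nat_lit 94) (nat_lit 0)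 (nat_lit 0) (XT.lf (nat_lit 0) (nat_lit 15055308239) (nat_lit 252) (nat_lit 15544250531) (nat_lit 84) (nat_lit 5561438125) (nat_lit 12) (nat_lit 5) (nat_lit 15) (nat_lit 5) (nat_lit 13) (nat_lit 5) (nat_lit 390) (nat_lit 313) (nat_lit 185)) (XT.lf (nat_lit 0) (nat_lit 17475045357) (nat_lit 252) (nat_lit 9613493529) (nat_lit 84) (nat_lit 10033305243) (nat_lit 12) (nat_lit 5) (nat_lit 15) (nat_lit 5) (nat_lit 13) (nat_lit 5) (nat_lit 391) (nat_lit 313) (nat_lit 184))))) (XT.nd (nat_lit 282) (nat_lit 0) (nat_lit 0) (XT.nd (nat_lit 94) (nat_lit 168) (nat_lit 0) (XT.lf (nat_lit 0) (nat_lit 19964642722) (nat_lit 252) (nat_lit 3506162567) (nat_lit 84) (nat_lit 14641857453) (nat_lit 12) (nat_lit 5) (nat_lit 15) (nat_lit 5) (nat_lit 13) (nat_lit 5) (nat_lit 392) (nat_lit 313) (nat_lit 183)) (XT.nd (nat_lit 94) (nat_lit 0) (nat_lit 0) (XT.lf (nat_lit 0) (nat_lit 2840668159) (nat_lit 168) (nat_lit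 19713932521) (nat_lit 252) (nat_lit 16578902028) (nat_lit 10) (nat_lit 5) (nat_lit 12) (nat_lit 5) (nat_lit 13) (nat_lit 5) (nat_lit 393) (nat_lit 313) (nat_lit 182)) (XT.lf (nat_lit 0) (nat_lit 9451590297) (nat_lit 168) (nat_lit 15804938383) (nat_lit 252) (nat_lit 14928501818) (nat_lit 10) (nat_lit 5) (nat_lit 12) (nat_lit 5) (nat_lit 13) (nat_lit 5) (nat_lit 394) (nat_lit 313) (nat_lit 181)))) (XT.nd (nat_lit 188) (nat_lit 0) (nat_lit 0) (XT.nd (nat_lit 94) (nat_lit 0) (nat_lit 0) (XT.lf (nat_lit 0) (nat_lit 16260672026) (nat_lit 168) (nat_lit 11776776433) (nat_lit 252) (nat_lit 13231878191) (nat_lit 10) (nat_lit 5) (nat_lit 12) (nat_lit 5) (nat_lit 13) (nat_lit 5) (nat_lit 395) (nat_lit 313) (nat_lit 180)) (XT.lf (nat_lit 0) (nat_lit 23274260122) (nat_lit 168) (nat_lit 7625692001) (nat_lit 252) (nat_lit 11487449715) (nat_lit 10) (nat_lit 5) (nat_lit 12) (nat_lit 5) (nat_lit 13)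 (nat_lit 5) (nat_lit 396) (nat_lit 313) (nat_lit 179))) (XT.nd (nat_lit 94) (nat_lit 0) (nat_lit 0) (XT.lf (nat_lit 0) (nat_lit 30498891984) (nat_lit 168) (nat_lit 3347815841) (nat_lit 252) (nat_lit 9693590401) (nat_lit 10) (nat_lit 5) (nat_lit 12) (nat_lit 5) (nat_lit 13) (nat_lit 5) (nat_lit 397) (nat_lit 313) (nat_lit 178)) (XT.lf (nat_lit 0) (nat_lit 36890985911) (nat_lit 252) (nat_lit 6798312369) (nat_lit 84) (nat_lit 1039465923) (nat_lit 10) (nat_lit 5) (nat_lit 13) (nat_lit 5) (nat_lit 11) (nat_lit 4) (nat_lit 398) (nat_lit 313) (nat_lit 177))))))))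
noncomputable def xc127 : XT := (XT.nd (nat_lit 2444) (nat_lit 0) (nat_lit 0) (XT.nd (nat_lit 1222) (nat_lit 84) (nat_lit 0) (XT.nd (nat_lit 564) (nat_lit 168) (nat_lit 0) (XT.nd (nat_lit 282) (nat_lit 84) (nat_lit 0) (XT.nd (nat_lit 94) (nat_lit 84) (nat_lit 0) (XT.lf (nat_lit 0) (nat_lit 40059639355) (nat_lit 252) (nat_lit 402056266) (nat_lit 84) (nat_lit 5491467441) (nat_lit 10) (nat_lit 5) (nat_lit 13) (nat_lit 5) (nat_lit 11) (nat_lit 4) (nat_lit 399) (nat_lit 313) (nat_lit 176)) (XT.nd (nat_lit 94) (nat_lit 0) (nat_lit 0) (XT.lf (nat_lit 0) (nat_lit 6313742635) (nat_lit 84) (nat_lit 37071301401) (nat_lit 168) (nat_lit 3828679948) (nat_lit 9) (nat_lit 5) (nat_lit 10) (nat_lit 5) (nat_lit 11) (nat_lit 4) (nat_lit 400) (nat_lit 313) (nat_lit 175)) (XT.lf (nat_lit 0) (nat_lit 13240365929) (nat_lit 84) (nat_lit 33573322012) (nat_lit 168) (nat_lit 1699688958) (nat_lit 9) (nat_lit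 5) (nat_lit 10) (nat_lit 5) (nat_lit 11) (nat_lit 4) (nat_lit 401) (nat_lit 313) (nat_lit 174)))) (XT.nd (nat_lit 94) (nat_lit 0) (nat_lit 0) (XT.lf (nat_lit 0) (nat_lit 481339728) (nat_lit 168) (nat_lit 29482329686) (nat_lit 84) (nat_lit 19889638925) (nat_lit 8) (nat_lit 5) (nat_lit 10) (nat_lit 5) (nat_lit 9) (nat_lit 5) (nat_lit 402) (nat_lit 313) (nat_lit 173)) (XT.nd (nat_lit 94) (nat_lit 0) (nat_lit 0) (XT.lf (nat_lit 0) (nat_lit 2690811675) (nat_lit 168) (nat_lit 23535158087) (nat_lit 84) (nat_lit 25008406338) (nat_lit 8) (nat_lit 5) (nat_lit 10) (nat_lit 5) (nat_lit 9) (nat_lit 5) (nat_lit 403) (nat_lit 313) (nat_lit 172)) (XT.lf (nat_lit 0) (nat_lit 4965031285) (nat_lit 168) (nat_lit 17409091662) (nat_lit 84) (nat_lit 30284267229) (nat_lit 8) (nat_lit 5) (nat_lit 10) (nat_lit 5) (nat_lit 9) (nat_lit 5) (nat_lit 404) (nat_lit 313) (nat_lit 171))))) (XT.nd (nat_lit 282) (nat_lit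 0) (nat_lit 0) (XT.nd (nat_lit 94) (nat_lit 168) (nat_lit 0) (XT.lf (nat_lit 0) (nat_lit 7306118369) (nat_lit 168) (nat_lit 11098420274) (nat_lit 84) (nat_lit 35722139253) (nat_lit 8) (nat_lit 5) (nat_lit 10) (nat_lit 5) (nat_lit 9) (nat_lit 5) (nat_lit 405) (nat_lit 313) (nat_lit 170)) (XT.nd (nat_lit 94) (nat_lit 168) (nat_lit 0) (XT.lf (nat_lit 0) (nat_lit 9716255066) (nat_lit 168) (nat_lit 4597261717) (nat_lit 84) (nat_lit 41327091077) (nat_lit 8) (nat_lit 5) (nat_lit 10) (nat_lit 5) (nat_lit 9) (nat_lit 5) (nat_lit 406) (nat_lit 313) (nat_lit 169)) (XT.lf (nat_lit 0) (nat_lit 2143633200) (nat_lit 168) (nat_lit 10075319782) (nat_lit 252) (nat_lit 44981979008) (nat_lit 6) (nat_lit 5) (nat_lit 8) (nat_lit 5) (nat_lit 9) (nat_lit 5) (nat_lit 407) (nat_lit 313) (nat_lit 168)))) (XT.nd (nat_lit 188) (nat_lit 0) (nat_lit 0) (XT.nd (nat_lit 94) (nat_lit 0) (nat_lit 0) (XT.lf (nat_lit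 0) (nat_lit 9186016917) (nat_lit 168) (nat_lit 5657839260) (nat_lit 252) (nat_lit 43964401844) (nat_lit 6) (nat_lit 5) (nat_lit 8) (nat_lit 5) (nat_lit 9) (nat_lit 5) (nat_lit 408) (nat_lit 313) (nat_lit 167)) (XT.lf (nat_lit 0) (nat_lit 16441924542) (nat_lit 168) (nat_lit 1104943648) (nat_lit 252) (nat_lit 42918658797) (nat_lit 6) (nat_lit 5) (nat_lit 8) (nat_lit 5) (nat_lit 9) (nat_lit 5) (nat_lit 409) (nat_lit 313) (nat_lit 166))) (XT.nd (nat_lit 94) (nat_lit 0) (nat_lit 0) (XT.lf (nat_lit 0) (nat_lit 20366098057) (nat_lit 252) (nat_lit 38291753840) (nat_lit 84) (nat_lit 3515328465) (nat_lit 6) (nat_lit 5) (nat_lit 9) (nat_lit 5) (nat_lit 7) (nat_lit 4) (nat_lit 410) (nat_lit 313) (nat_lit 165)) (XT.lf (nat_lit 0) (nat_lit 23280940876) (nat_lit 252) (nat_lit 32398119889) (nat_lit 84) (nat_lit 8254469306) (nat_lit 6) (nat_lit 5) (nat_lit 9) (nat_lit 5) (nat_lit 7) (nat_lit 4) (nat_lit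 411) (nat_lit 313) (nat_lit 164)))))) (XT.nd (nat_lit 564) (nat_lit 0) (nat_lit 0) (XT.nd (nat_lit 282) (nat_lit 84) (nat_lit 0) (XT.nd (nat_lit 94) (nat_lit 0) (nat_lit 0) (XT.lf (nat_lit 0) (nat_lit 26283152411) (nat_lit 252) (nat_lit 26326245930) (nat_lit 84) (nat_lit 13139158400) (nat_lit 6) (nat_lit 5) (nat_lit 9) (nat_lit 5) (nat_lit 7) (nat_lit 4) (nat_lit 412) (nat_lit 313) (nat_lit 163)) (XT.nd (nat_lit 94) (nat_lit 0) (nat_lit 0) (XT.lf (nat_lit 0) (nat_lit 29375531036) (nat_lit 252) (nat_lit 20070472340) (nat_lit 84) (nat_lit 18173948790) (nat_lit 6) (nat_lit 5) (nat_lit 9) (nat_lit 5) (nat_lit 7) (nat_lit 4) (nat_lit 413) (nat_lit 313) (nat_lit 162)) (XT.lf (nat_lit 0) (nat_lit 32560959172) (nat_lit 252) (nat_lit 13624968083) (nat_lit 84) (nat_lit 23363533428) (nat_lit 6) (nat_lit 5) (nat_lit 9) (nat_lit 5) (nat_lit 7) (nat_lit 4) (nat_lit 414) (nat_lit 313) (nat_lit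 161)))) (XT.nd (nat_lit 94) (nat_lit 84) (nat_lit 0) (XT.lf (nat_lit 0) (nat_lit 35842405973) (nat_lit 252) (nat_lit 6983725275) (nat_lit 84) (nat_lit 28712749549) (nat_lit 6) (nat_lit 5) (nat_lit 9) (nat_lit 5) (nat_lit 7) (nat_lit 4) (nat_lit 415) (nat_lit 313) (nat_lit 160)) (XT.nd (nat_lit 94) (nat_lit 84) (nat_lit 0) (XT.lf (nat_lit 0) (nat_lit 39222930090) (nat_lit 252) (nat_lit 140553580) (nat_lit 84) (nat_lit 34226583185) (nat_lit 6) (nat_lit 5) (nat_lit 9) (nat_lit 5) (nat_lit 7) (nat_lit 4) (nat_lit 416) (nat_lit 313) (nat_lit 159)) (XT.lf (nat_lit 0) (nat_lit 7053028355) (nat_lit 84) (nat_lit 35722621085) (nat_lit 168) (nat_lit 32927112364) (nat_lit 5) (nat_lit 5) (nat_lit 6) (nat_lit 5) (nat_lit 7) (nat_lit 4) (nat_lit 417) (nat_lit 313) (nat_lit 158))))) (XT.nd (nat_lit 282) (nat_lit 0) (nat_lit 0) (XT.nd (nat_lit 94) (nat_lit 0) (nat_lit 0) (XT.lf (nat_lit 0) (nat_lit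 14468798894) (nat_lit 84) (nat_lit 31968642953) (nat_lit 168) (nat_lit 31443552493) (nat_lit 5) (nat_lit 5) (nat_lit 6) (nat_lit 5) (nat_lit 7) (nat_lit 4) (nat_lit 418) (nat_lit 313) (nat_lit 157)) (XT.nd (nat_lit 94) (nat_lit 0) (nat_lit 0) (XT.lf (nat_lit 0) (nat_lit 22110780241) (nat_lit 84) (nat_lit 28099517265) (nat_lit 168) (nat_lit 29916541411) (nat_lit 5) (nat_lit 5) (nat_lit 6) (nat_lit 5) (nat_lit 7) (nat_lit 4) (nat_lit 419) (nat_lit 313) (nat_lit 156)) (XT.lf (nat_lit 0) (nat_lit 29986095523) (nat_lit 84) (nat_lit 24111637591) (nat_lit 168) (nat_lit 28344655783) (nat_lit 5) (nat_lit 5) (nat_lit 6) (nat_lit 5) (nat_lit 7) (nat_lit 4) (nat_lit 420) (nat_lit 313) (nat_lit 155)))) (XT.nd (nat_lit 188) (nat_lit 0) (nat_lit 0) (XT.nd (nat_lit 94) (nat_lit 0) (nat_lit 0) (XT.lf (nat_lit 0) (nat_lit 38102085358) (nat_lit 84) (nat_lit 20001286809) (nat_lit 168) (nat_lit 26726430448)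 (nat_lit 5) (nat_lit 5) (nat_lit 6) (nat_lit 5) (nat_lit 7) (nat_lit 4) (nat_lit 421) (nat_lit 313) (nat_lit 154)) (XT.lf (nat_lit 0) (nat_lit 46466314699) (nat_lit 84) (nat_lit 15764633641) (nat_lit 168) (nat_lit 25060357051) (nat_lit 5) (nat_lit 5) (nat_lit 6) (nat_lit 5) (nat_lit 7) (nat_lit 4) (nat_lit 422) (nat_lit 313) (nat_lit 153))) (XT.nd (nat_lit 94) (nat_lit 0) (nat_lit 0) (XT.lf (nat_lit 0) (nat_lit 55086579885) (nat_lit 84) (nat_lit 11397729083) (nat_lit 168) (nat_lit 23344882635) (nat_lit 5) (nat_lit 5) (nat_lit 6) (nat_lit 5) (nat_lit 7) (nat_lit 4) (nat_lit 423) (nat_lit 313) (nat_lit 152)) (XT.lf (nat_lit 0) (nat_lit 63970915905) (nat_lit 84) (nat_lit 6896502723) (nat_lit 168) (nat_lit 21578408200) (nat_lit 5) (nat_lit 5) (nat_lit 6) (nat_lit 5) (nat_lit 7) (nat_lit 4) (nat_lit 424) (nat_lit 313) (nat_lit 151))))))) (XT.nd (nat_lit 46436) (nat_lit 0) (nat_lit 5208)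 (XT.nd (nat_lit 45778) (nat_lit 0) (nat_lit 7560) (XT.nd (nat_lit 45496) (nat_lit 0) (nat_lit 8232) (XT.nd (nat_lit 45308) (nat_lit 0) (nat_lit 8232) (XT.lf (nat_lit 0) (nat_lit 73127603891) (nat_lit 84) (nat_lit 2256758945) (nat_lit 168) (nat_lit 19759287206) (nat_lit 5) (nat_lit 5) (nat_lit 6) (nat_lit 5) (nat_lit 7) (nat_lit 4) (nat_lit 425) (nat_lit 313) (nat_lit 150)) (XT.nd (nat_lit 94) (nat_lit 0) (nat_lit 0) (XT.lf (nat_lit 0) (nat_lit 207811268) (nat_lit 0) (nat_lit 207811268) (nat_lit 756) (nat_lit 3598180623) (nat_lit 103) (nat_lit 5) (nat_lit 103) (nat_lit 3) (nat_lit 112) (nat_lit 3) (nat_lit 314) (nat_lit 314) (nat_lit 260)) (XT.lf (nat_lit 0) (nat_lit 1778973334) (nat_lit 756) (nat_lit 4948896903) (nat_lit 840) (nat_lit 1387705937) (nat_lit 103) (nat_lit 5) (nat_lit 112) (nat_lit 3) (nat_lit 113) (nat_lit 5) (nat_lit 315) (nat_lit 314) (nat_lit 259)))) (XT.nd (nat_lit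 94) (nat_lit 0) (nat_lit 0) (XT.lf (nat_lit 0) (nat_lit 2723412126) (nat_lit 756) (nat_lit 2227692715) (nat_lit 840) (nat_lit 3256482317) (nat_lit 103) (nat_lit 5) (nat_lit 112) (nat_lit 3) (nat_lit 113) (nat_lit 5) (nat_lit 316) (nat_lit 314) (nat_lit 258)) (XT.nd (nat_lit 94) (nat_lit 0) (nat_lit 0) (XT.lf (nat_lit 84) (nat_lit 569767805) (nat_lit 0) (nat_lit 3097203102) (nat_lit 840) (nat_lit 4636706726) (nat_lit 104) (nat_lit 5) (nat_lit 103) (nat_lit 5) (nat_lit 113) (nat_lit 5) (nat_lit 317) (nat_lit 314) (nat_lit 257)) (XT.lf (nat_lit 84) (nat_lit 3481793205) (nat_lit 0) (nat_lit 1146314018) (nat_lit 840) (nat_lit 3775285025) (nat_lit 104) (nat_lit 5) (nat_lit 103) (nat_lit 5) (nat_lit 113) (nat_lit 5) (nat_lit 318) (nat_lit 314) (nat_lit 256))))) (XT.nd (nat_lit 282) (nat_lit 756) (nat_lit 0) (XT.nd (nat_lit 94) (nat_lit 0) (nat_lit 0) (XT.lf (nat_lit 0) (nat_lit 5593894546)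 (nat_lit 756) (nat_lit 2050962218) (nat_lit 840) (nat_lit 862395675) (nat_lit 104) (nat_lit 5) (nat_lit 113) (nat_lit 5) (nat_lit 114) (nat_lit 5) (nat_lit 319) (nat_lit 314) (nat_lit 255)) (XT.nd (nat_lit 94) (nat_lit 0) (nat_lit 0) (XT.lf (nat_lit 84) (nat_lit 895314276) (nat_lit 0) (nat_lit 5682201136) (nat_lit 840) (nat_lit 2037458852) (nat_lit 105) (nat_lit 5) (nat_lit 104) (nat_lit 5) (nat_lit 114) (nat_lit 5) (nat_lit 320) (nat_lit 314) (nat_lit 254)) (XT.lf (nat_lit 84) (nat_lit 3956939186) (nat_lit 0) (nat_lit 3624176060) (nat_lit 840) (nat_lit 1145504801) (nat_lit 105) (nat_lit 5) (nat_lit 104) (nat_lit 5) (nat_lit 114) (nat_lit 5) (nat_lit 321) (nat_lit 314) (nat_lit 253)))) (XT.nd (nat_lit 188) (nat_lit 0) (nat_lit 0) (XT.nd (nat_lit 94) (nat_lit 756) (nat_lit 0) (XT.lf (nat_lit 84) (nat_lit 7094594276) (nat_lit 0) (nat_lit 1490271079) (nat_lit 840) (nat_lit 258072183)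 (nat_lit 105) (nat_lit 5) (nat_lit 104) (nat_lit 5) (nat_lit 114) (nat_lit 5) (nat_lit 322) (nat_lit 314) (nat_lit 252)) (XT.lf (nat_lit 0) (nat_lit 633996168) (nat_lit 840) (nat_lit 7602246368) (nat_lit 924) (nat_lit 726951210) (nat_lit 95) (nat_lit 5) (nat_lit 105) (nat_lit 5) (nat_lit 106) (nat_lit 5) (nat_lit 323) (nat_lit 314) (nat_lit 251))) (XT.nd (nat_lit 94) (nat_lit 0) (nat_lit 0) (XT.lf (nat_lit 0) (nat_lit 1552298434) (nat_lit 840) (nat_lit 4521235230) (nat_lit 924) (nat_lit 3013669182) (nat_lit 95) (nat_lit 5) (nat_lit 105) (nat_lit 5) (nat_lit 106) (nat_lit 5) (nat_lit 324) (nat_lit 314) (nat_lit 250)) (XT.lf (nat_lit 0) (nat_lit 2470225035) (nat_lit 840) (nat_lit 1364348985) (nat_lit 924) (nat_lit 5381598392) (nat_lit 95) (nat_lit 5) (nat_lit 105) (nat_lit 5) (nat_lit 106) (nat_lit 5) (nat_lit 325) (nat_lit 314) (nat_lit 249)))))) (XT.nd (nat_lit 564) (nat_lit 2352)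 (nat_lit 0) (XT.nd (nat_lit 282) (nat_lit 0) (nat_lit 84) (XT.nd (nat_lit 94) (nat_lit 0) (nat_lit 84) (XT.lf (nat_lit 84) (nat_lit 1909833810) (nat_lit 0) (nat_lit 1497743551) (nat_lit 924) (nat_lit 5942057974) (nat_lit 96) (nat_lit 5) (nat_lit 95) (nat_lit 5) (nat_lit 106) (nat_lit 5) (nat_lit 326) (nat_lit 314) (nat_lit 248)) (XT.nd (nat_lit 94) (nat_lit 0) (nat_lit 0) (XT.lf (nat_lit 0) (nat_lit 4370179118) (nat_lit 840) (nat_lit 4201535389) (nat_lit 924) (nat_lit 915848064) (nat_lit 96) (nat_lit 5) (nat_lit 106) (nat_lit 5) (nat_lit 107) (nat_lit 5) (nat_lit 327) (nat_lit 314) (nat_lit 247)) (XT.lf (nat_lit 0) (nat_lit 5351521274) (nat_lit 840) (nat_lit 897593124) (nat_lit 924) (nat_lit 3381197876) (nat_lit 96) (nat_lit 5) (nat_lit 106) (nat_lit 5) (nat_lit 107) (nat_lit 5) (nat_lit 328) (nat_lit 314) (nat_lit 246)))) (XT.nd (nat_lit 94) (nat_lit 0) (nat_lit 0) (XT.lf (nat_lit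 84) (nat_lit 2541161427) (nat_lit 0) (nat_lit 3821707948) (nat_lit 924) (nat_lit 3414827251) (nat_lit 97) (nat_lit 5) (nat_lit 96) (nat_lit 5) (nat_lit 107) (nat_lit 5) (nat_lit 329) (nat_lit 314) (nat_lit 245)) (XT.nd (nat_lit 94) (nat_lit 0) (nat_lit 84) (XT.lf (nat_lit 84) (nat_lit 6086927633) (nat_lit 0) (nat_lit 1302972145) (nat_lit 924) (nat_lit 2540426485) (nat_lit 97) (nat_lit 5) (nat_lit 96) (nat_lit 5) (nat_lit 107) (nat_lit 5) (nat_lit 330) (nat_lit 314) (nat_lit 244)) (XT.lf (nat_lit 0) (nat_lit 8437379329) (nat_lit 840) (nat_lit 376967868) (nat_lit 84) (nat_lit 1273878157) (nat_lit 97) (nat_lit 5) (nat_lit 107) (nat_lit 5) (nat_lit 98) (nat_lit 5) (nat_lit 331) (nat_lit 314) (nat_lit 243))))) (XT.nd (nat_lit 282) (nat_lit 672) (nat_lit 0) (XT.nd (nat_lit 94) (nat_lit 1008) (nat_lit 0) (XT.lf (nat_lit 0) (nat_lit 3230192170) (nat_lit 840) (nat_lit 6309013291) (nat_lit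 924) (nat_lit 711315064) (nat_lit 87) (nat_lit 5) (nat_lit 97) (nat_lit 5) (nat_lit 98) (nat_lit 5) (nat_lit 332) (nat_lit 314) (nat_lit 242)) (XT.nd (nat_lit 94) (nat_lit 924) (nat_lit 0) (XT.lf (nat_lit 0) (nat_lit 232755569) (nat_lit 924) (nat_lit 3482099406) (nat_lit 84) (nat_lit 6703682864) (nat_lit 86) (nat_lit 5) (nat_lit 97) (nat_lit 5) (nat_lit 87) (nat_lit 5) (nat_lit 333) (nat_lit 314) (nat_lit 241)) (XT.lf (nat_lit 0) (nat_lit 143044155) (nat_lit 924) (nat_lit 1027018483) (nat_lit 1008) (nat_lit 9422298029) (nat_lit 75) (nat_lit 5) (nat_lit 86) (nat_lit 5) (nat_lit 87) (nat_lit 5) (nat_lit 334) (nat_lit 314) (nat_lit 240)))) (XT.nd (nat_lit 188) (nat_lit 672) (nat_lit 0) (XT.nd (nat_lit 94) (nat_lit 0) (nat_lit 0) (XT.lf (nat_lit 0) (nat_lit 2168313706) (nat_lit 1008) (nat_lit 6852810157) (nat_lit 84) (nat_lit 1749618338) (nat_lit 75) (nat_lit 5) (nat_lit 87) (nat_lit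 5) (nat_lit 76) (nat_lit 5) (nat_lit 335) (nat_lit 314) (nat_lit 239)) (XT.lf (nat_lit 0) (nat_lit 3186547687) (nat_lit 1008) (nat_lit 3173819379) (nat_lit 84) (nat_lit 4594780282) (nat_lit 75) (nat_lit 5) (nat_lit 87) (nat_lit 5) (nat_lit 76) (nat_lit 5) (nat_lit 336) (nat_lit 314) (nat_lit 238))) (XT.nd (nat_lit 94) (nat_lit 0) (nat_lit 0) (XT.lf (nat_lit 0) (nat_lit 613636583) (nat_lit 672) (nat_lit 3607976300) (nat_lit 756) (nat_lit 6924262238) (nat_lit 67) (nat_lit 5) (nat_lit 75) (nat_lit 5) (nat_lit 76) (nat_lit 5) (nat_lit 337) (nat_lit 314) (nat_lit 237)) (XT.lf (nat_lit 0) (nat_lit 4568021744) (nat_lit 672) (nat_lit 733499954) (nat_lit 756) (nat_lit 6040743121) (nat_lit 67) (nat_lit 5) (nat_lit 75) (nat_lit 5) (nat_lit 76) (nat_lit 5) (nat_lit 338) (nat_lit 314) (nat_lit 236))))))))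
noncomputable def xc128 : XT := (XT.nd (nat_lit 2350) (nat_lit 1428) (nat_lit 0) (XT.nd (nat_lit 1128) (nat_lit 1428) (nat_lit 0) (XT.nd (nat_lit 564) (nat_lit 840) (nat_lit 0) (XT.nd (nat_lit 282) (nat_lit 420) (nat_lit 0) (XT.nd (nat_lit 94) (nat_lit 504) (nat_lit 0) (XT.lf (nat_lit 0) (nat_lit 6417296448) (nat_lit 756) (nat_lit 2939881625) (nat_lit 84) (nat_lit 2187630939) (nat_lit 67) (nat_lit 5) (nat_lit 76) (nat_lit 5) (nat_lit 68) (nat_lit 5) (nat_lit 339) (nat_lit 314) (nat_lit 235)) (XT.nd (nat_lit 94) (nat_lit 0) (nat_lit 0) (XT.lf (nat_lit 0) (nat_lit 1008698423) (nat_lit 504) (nat_lit 6557329583) (nat_lit 588) (nat_lit 4187790909) (nat_lit 61) (nat_lit 5) (nat_lit 67) (nat_lit 5) (nat_lit 68) (nat_lit 5) (nat_lit 340) (nat_lit 314) (nat_lit 234)) (XT.lf (nat_lit 0) (nat_lit 5124717590) (nat_lit 504) (nat_lit 3637602377) (nat_lit 588) (nat_lit 3206749862) (nat_lit 61)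 (nat_lit 5) (nat_lit 67) (nat_lit 5) (nat_lit 68) (nat_lit 5) (nat_lit 341) (nat_lit 314) (nat_lit 233)))) (XT.nd (nat_lit 94) (nat_lit 420) (nat_lit 0) (XT.lf (nat_lit 0) (nat_lit 9351562440) (nat_lit 504) (nat_lit 625961298) (nat_lit 588) (nat_lit 2214161324) (nat_lit 61) (nat_lit 5) (nat_lit 67) (nat_lit 5) (nat_lit 68) (nat_lit 5) (nat_lit 342) (nat_lit 314) (nat_lit 232)) (XT.nd (nat_lit 94) (nat_lit 0) (nat_lit 0) (XT.lf (nat_lit 0) (nat_lit 1272329435) (nat_lit 420) (nat_lit 9977670132) (nat_lit 504) (nat_lit 1170718498) (nat_lit 56) (nat_lit 5) (nat_lit 61) (nat_lit 5) (nat_lit 62) (nat_lit 5) (nat_lit 343) (nat_lit 314) (nat_lit 231)) (XT.lf (nat_lit 0) (nat_lit 5549163590) (nat_lit 420) (nat_lit 7031490735) (nat_lit 504) (nat_lit 75736648) (nat_lit 56) (nat_lit 5) (nat_lit 61) (nat_lit 5) (nat_lit 62) (nat_lit 5) (nat_lit 344) (nat_lit 314) (nat_lit 230))))) (XT.nd (nat_lit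 282) (nat_lit 336) (nat_lit 0) (XT.nd (nat_lit 94) (nat_lit 420) (nat_lit 0) (XT.lf (nat_lit 0) (nat_lit 1014952996) (nat_lit 504) (nat_lit 2967976013) (nat_lit 84) (nat_lit 8916757822) (nat_lit 55) (nat_lit 5) (nat_lit 61) (nat_lit 5) (nat_lit 56) (nat_lit 5) (nat_lit 345) (nat_lit 314) (nat_lit 229)) (XT.nd (nat_lit 94) (nat_lit 0) (nat_lit 0) (XT.lf (nat_lit 0) (nat_lit 1308955248) (nat_lit 420) (nat_lit 825404994) (nat_lit 504) (nat_lit 11016359770) (nat_lit 50) (nat_lit 5) (nat_lit 55) (nat_lit 5) (nat_lit 56) (nat_lit 5) (nat_lit 346) (nat_lit 314) (nat_lit 228)) (XT.lf (nat_lit 0) (nat_lit 3327703762) (nat_lit 504) (nat_lit 7668286099) (nat_lit 84) (nat_lit 2412435805) (nat_lit 50) (nat_lit 5) (nat_lit 56) (nat_lit 5) (nat_lit 51) (nat_lit 5) (nat_lit 347) (nat_lit 314) (nat_lit 227)))) (XT.nd (nat_lit 94) (nat_lit 336) (nat_lit 0) (XT.lf (nat_lit 0) (nat_lit 4550801304) (nat_lit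 504) (nat_lit 3390049417) (nat_lit 84) (nat_lit 5733597414) (nat_lit 50) (nat_lit 5) (nat_lit 56) (nat_lit 5) (nat_lit 51) (nat_lit 5) (nat_lit 348) (nat_lit 314) (nat_lit 226)) (XT.nd (nat_lit 94) (nat_lit 0) (nat_lit 0) (XT.lf (nat_lit 0) (nat_lit 1025788519) (nat_lit 336) (nat_lit 4780992234) (nat_lit 420) (nat_lit 8142193001) (nat_lit 46) (nat_lit 5) (nat_lit 50) (nat_lit 5) (nat_lit 51) (nat_lit 5) (nat_lit 349) (nat_lit 314) (nat_lit 225)) (XT.lf (nat_lit 0) (nat_lit 5634852126) (nat_lit 336) (nat_lit 1487321788) (nat_lit 420) (nat_lit 7109298306) (nat_lit 46) (nat_lit 5) (nat_lit 50) (nat_lit 5) (nat_lit 51) (nat_lit 5) (nat_lit 350) (nat_lit 314) (nat_lit 224)))))) (XT.nd (nat_lit 564) (nat_lit 672) (nat_lit 0) (XT.nd (nat_lit 282) (nat_lit 336) (nat_lit 0) (XT.nd (nat_lit 94) (nat_lit 420) (nat_lit 0) (XT.lf (nat_lit 0) (nat_lit 8482811727) (nat_lit 420) (nat_lit 4170465706)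 (nat_lit 84) (nat_lit 1869406663) (nat_lit 46) (nat_lit 5) (nat_lit 51) (nat_lit 5) (nat_lit 47) (nat_lit 5) (nat_lit 351) (nat_lit 314) (nat_lit 223)) (XT.nd (nat_lit 94) (nat_lit 0) (nat_lit 0) (XT.lf (nat_lit 0) (nat_lit 370009468) (nat_lit 420) (nat_lit 9520472487) (nat_lit 504) (nat_lit 4932382765) (nat_lit 41) (nat_lit 5) (nat_lit 46) (nat_lit 5) (nat_lit 47) (nat_lit 5) (nat_lit 352) (nat_lit 314) (nat_lit 222)) (XT.lf (nat_lit 0) (nat_lit 5124671200) (nat_lit 420) (nat_lit 6246893411) (nat_lit 504) (nat_lit 3759952174) (nat_lit 41) (nat_lit 5) (nat_lit 46) (nat_lit 5) (nat_lit 47) (nat_lit 5) (nat_lit 353) (nat_lit 314) (nat_lit 221)))) (XT.nd (nat_lit 94) (nat_lit 336) (nat_lit 0) (XT.lf (nat_lit 0) (nat_lit 10012198003) (nat_lit 420) (nat_lit 2873019996) (nat_lit 504) (nat_lit 2565018877) (nat_lit 41) (nat_lit 5) (nat_lit 46) (nat_lit 5) (nat_lit 47) (nat_lit 5) (nat_lit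 354) (nat_lit 314) (nat_lit 220)) (XT.nd (nat_lit 94) (nat_lit 336) (nat_lit 0) (XT.lf (nat_lit 0) (nat_lit 14438847661) (nat_lit 504) (nat_lit 748171167) (nat_lit 84) (nat_lit 592117413) (nat_lit 41) (nat_lit 5) (nat_lit 47) (nat_lit 5) (nat_lit 42) (nat_lit 5) (nat_lit 355) (nat_lit 314) (nat_lit 219)) (XT.lf (nat_lit 0) (nat_lit 4126714326) (nat_lit 336) (nat_lit 11971683682) (nat_lit 420) (nat_lit 18124054) (nat_lit 37) (nat_lit 5) (nat_lit 41) (nat_lit 5) (nat_lit 42) (nat_lit 5) (nat_lit 356) (nat_lit 314) (nat_lit 218))))) (XT.nd (nat_lit 282) (nat_lit 252) (nat_lit 0) (XT.nd (nat_lit 94) (nat_lit 336) (nat_lit 0) (XT.lf (nat_lit 0) (nat_lit 1313289842) (nat_lit 420) (nat_lit 7323284170) (nat_lit 84) (nat_lit 7827599273) (nat_lit 36) (nat_lit 5) (nat_lit 41) (nat_lit 5) (nat_lit 37) (nat_lit 5) (nat_lit 357) (nat_lit 314) (nat_lit 217)) (XT.nd (nat_lit 94) (nat_lit 336) (nat_lit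 0) (XT.lf (nat_lit 0) (nat_lit 2673450105) (nat_lit 420) (nat_lit 2526172012) (nat_lit 84) (nat_lit 11623424495) (nat_lit 36) (nat_lit 5) (nat_lit 41) (nat_lit 5) (nat_lit 37) (nat_lit 5) (nat_lit 358) (nat_lit 314) (nat_lit 216)) (XT.lf (nat_lit 0) (nat_lit 2455655932) (nat_lit 336) (nat_lit 1632694184) (nat_lit 420) (nat_lit 13104376840) (nat_lit 32) (nat_lit 5) (nat_lit 36) (nat_lit 5) (nat_lit 37) (nat_lit 5) (nat_lit 359) (nat_lit 314) (nat_lit 215)))) (XT.nd (nat_lit 188) (nat_lit 252) (nat_lit 0) (XT.nd (nat_lit 94) (nat_lit 0) (nat_lit 0) (XT.lf (nat_lit 0) (nat_lit 5582453414) (nat_lit 420) (nat_lit 9961875163) (nat_lit 84) (nat_lit 2028512831) (nat_lit 32) (nat_lit 5) (nat_lit 37) (nat_lit 5) (nat_lit 33) (nat_lit 5) (nat_lit 360) (nat_lit 314) (nat_lit 214)) (XT.lf (nat_lit 0) (nat_lit 7128339648) (nat_lit 420) (nat_lit 5068678383) (nat_lit 84) (nat_lit 5767619449) (nat_lit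 32) (nat_lit 5) (nat_lit 37) (nat_lit 5) (nat_lit 33) (nat_lit 5) (nat_lit 361) (nat_lit 314) (nat_lit 213))) (XT.nd (nat_lit 94) (nat_lit 252) (nat_lit 0) (XT.lf (nat_lit 0) (nat_lit 8711253217) (nat_lit 420) (nat_lit 36723183) (nat_lit 84) (nat_lit 9621006056) (nat_lit 32) (nat_lit 5) (nat_lit 37) (nat_lit 5) (nat_lit 33) (nat_lit 5) (nat_lit 362) (nat_lit 314) (nat_lit 212)) (XT.lf (nat_lit 0) (nat_lit 5244342559) (nat_lit 252) (nat_lit 5140351533) (nat_lit 336) (nat_lit 8399946381) (nat_lit 29) (nat_lit 5) (nat_lit 32) (nat_lit 5) (nat_lit 33) (nat_lit 5) (nat_lit 363) (nat_lit 314) (nat_lit 211))))))) (XT.nd (nat_lit 1222) (nat_lit 588) (nat_lit 0) (XT.nd (nat_lit 564) (nat_lit 504) (nat_lit 0) (XT.nd (nat_lit 282) (nat_lit 84) (nat_lit 0) (XT.nd (nat_lit 94) (nat_lit 252) (nat_lit 0) (XT.lf (nat_lit 0) (nat_lit 10677484945) (nat_lit 252) (nat_lit 1422537046) (nat_lit 336) (nat_lit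 7113533175) (nat_lit 29) (nat_lit 5) (nat_lit 32) (nat_lit 5) (nat_lit 33) (nat_lit 5) (nat_lit 364) (nat_lit 314) (nat_lit 210)) (XT.nd (nat_lit 94) (nat_lit 252) (nat_lit 0) (XT.lf (nat_lit 0) (nat_lit 13882357097) (nat_lit 336) (nat_lit 3413017835) (nat_lit 84) (nat_lit 2360022239) (nat_lit 29) (nat_lit 5) (nat_lit 33) (nat_lit 5) (nat_lit 30) (nat_lit 5) (nat_lit 365) (nat_lit 314) (nat_lit 209)) (XT.lf (nat_lit 0) (nat_lit 1880160041) (nat_lit 252) (nat_lit 13863207572) (nat_lit 336) (nat_lit 4366900502) (nat_lit 26) (nat_lit 5) (nat_lit 29) (nat_lit 5) (nat_lit 30) (nat_lit 5) (nat_lit 366) (nat_lit 314) (nat_lit 208)))) (XT.nd (nat_lit 94) (nat_lit 84) (nat_lit 0) (XT.lf (nat_lit 0) (nat_lit 7397881356) (nat_lit 252) (nat_lit 10290211350) (nat_lit 336) (nat_lit 2890396841) (nat_lit 26) (nat_lit 5) (nat_lit 29) (nat_lit 5) (nat_lit 30) (nat_lit 5) (nat_lit 367) (nat_lit 314)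 (nat_lit 207)) (XT.nd (nat_lit 94) (nat_lit 84) (nat_lit 0) (XT.lf (nat_lit 0) (nat_lit 13075110558) (nat_lit 252) (nat_lit 6608680765) (nat_lit 336) (nat_lit 1377777742) (nat_lit 26) (nat_lit 5) (nat_lit 29) (nat_lit 5) (nat_lit 30) (nat_lit 5) (nat_lit 368) (nat_lit 314) (nat_lit 206)) (XT.lf (nat_lit 0) (nat_lit 168893908) (nat_lit 336) (nat_lit 2644527430) (nat_lit 84) (nat_lit 18746482604) (nat_lit 25) (nat_lit 5) (nat_lit 29) (nat_lit 5) (nat_lit 26) (nat_lit 5) (nat_lit 369) (nat_lit 314) (nat_lit 205))))) (XT.nd (nat_lit 282) (nat_lit 252) (nat_lit 0) (XT.nd (nat_lit 94) (nat_lit 0) (nat_lit 0) (XT.lf (nat_lit 0) (nat_lit 1766045229) (nat_lit 336) (nat_lit 19187835858) (nat_lit 84) (nat_lit 1118453298) (nat_lit 22) (nat_lit 5) (nat_lit 26) (nat_lit 5) (nat_lit 23) (nat_lit 5) (nat_lit 370) (nat_lit 314) (nat_lit 204)) (XT.nd (nat_lit 94) (nat_lit 0) (nat_lit 0) (XT.lf (nat_lit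 0) (nat_lit 3460604041) (nat_lit 336) (nat_lit 13999140017) (nat_lit 84) (nat_lit 5139469597) (nat_lit 22) (nat_lit 5) (nat_lit 26) (nat_lit 5) (nat_lit 23) (nat_lit 5) (nat_lit 371) (nat_lit 314) (nat_lit 203)) (XT.lf (nat_lit 0) (nat_lit 5199193067) (nat_lit 336) (nat_lit 8660531009) (nat_lit 84) (nat_lit 9283012441) (nat_lit 22) (nat_lit 5) (nat_lit 26) (nat_lit 5) (nat_lit 23) (nat_lit 5) (nat_lit 372) (nat_lit 314) (nat_lit 202)))) (XT.nd (nat_lit 188) (nat_lit 0) (nat_lit 0) (XT.nd (nat_lit 94) (nat_lit 252) (nat_lit 0) (XT.lf (nat_lit 0) (nat_lit 6983432855) (nat_lit 336) (nat_lit 3167032692) (nat_lit 84) (nat_lit 13552944046) (nat_lit 22) (nat_lit 5) (nat_lit 26) (nat_lit 5) (nat_lit 23) (nat_lit 5) (nat_lit 373) (nat_lit 314) (nat_lit 201)) (XT.lf (nat_lit 0) (nat_lit 2537602484) (nat_lit 252) (nat_lit 6302557349) (nat_lit 336) (nat_lit 15440815281) (nat_lit 19) (nat_lit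 5) (nat_lit 22) (nat_lit 5) (nat_lit 23) (nat_lit 5) (nat_lit 374) (nat_lit 314) (nat_lit 200))) (XT.nd (nat_lit 94) (nat_lit 0) (nat_lit 0) (XT.lf (nat_lit 0) (nat_lit 8476036321) (nat_lit 252) (nat_lit 2303608219) (nat_lit 336) (nat_lit 14096062157) (nat_lit 19) (nat_lit 5) (nat_lit 22) (nat_lit 5) (nat_lit 23) (nat_lit 5) (nat_lit 375) (nat_lit 314) (nat_lit 199)) (XT.lf (nat_lit 0) (nat_lit 12789656797) (nat_lit 336) (nat_lit 10918494666) (nat_lit 84) (nat_lit 1780442408) (nat_lit 19) (nat_lit 5) (nat_lit 23) (nat_lit 5) (nat_lit 20) (nat_lit 5) (nat_lit 376) (nat_lit 314) (nat_lit 198)))))) (XT.nd (nat_lit 564) (nat_lit 420) (nat_lit 0) (XT.nd (nat_lit 282) (nat_lit 0) (nat_lit 0) (XT.nd (nat_lit 94) (nat_lit 168) (nat_lit 0) (XT.lf (nat_lit 0) (nat_lit 14878125532) (nat_lit 336) (nat_lit 5300791857) (nat_lit 84) (nat_lit 5941102805) (nat_lit 19) (nat_lit 5) (nat_lit 23) (nat_lit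 5) (nat_lit 20) (nat_lit 5) (nat_lit 377) (nat_lit 314) (nat_lit 197)) (XT.nd (nat_lit 94) (nat_lit 0) (nat_lit 0) (XT.lf (nat_lit 0) (nat_lit 491427587) (nat_lit 168) (nat_lit 16537592775) (nat_lit 252) (nat_lit 9742111148) (nat_lit 17) (nat_lit 5) (nat_lit 19) (nat_lit 5) (nat_lit 20) (nat_lit 5) (nat_lit 378) (nat_lit 314) (nat_lit 196)) (XT.lf (nat_lit 0) (nat_lit 6566143031) (nat_lit 168) (nat_lit 12728710455) (nat_lit 252) (nat_lit 8146115510) (nat_lit 17) (nat_lit 5) (nat_lit 19) (nat_lit 5) (nat_lit 20) (nat_lit 5) (nat_lit 379) (nat_lit 314) (nat_lit 195)))) (XT.nd (nat_lit 94) (nat_lit 0) (nat_lit 0) (XT.lf (nat_lit 0) (nat_lit 12820021593) (nat_lit 168) (nat_lit 8804049548) (nat_lit 252) (nat_lit 6507749508) (nat_lit 17) (nat_lit 5) (nat_lit 19) (nat_lit 5) (nat_lit 20) (nat_lit 5) (nat_lit 380) (nat_lit 314) (nat_lit 194)) (XT.nd (nat_lit 94) (nat_lit 0) (nat_lit 0) (XT.lf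 (nat_lit 0) (nat_lit 19258892542) (nat_lit 168) (nat_lit 4759951859) (nat_lit 252) (nat_lit 4825486013) (nat_lit 17) (nat_lit 5) (nat_lit 19) (nat_lit 5) (nat_lit 20) (nat_lit 5) (nat_lit 381) (nat_lit 314) (nat_lit 193)) (XT.lf (nat_lit 0) (nat_lit 25888757582) (nat_lit 168) (nat_lit 592647866) (nat_lit 252) (nat_lit 3097756979) (nat_lit 17) (nat_lit 5) (nat_lit 19) (nat_lit 5) (nat_lit 20) (nat_lit 5) (nat_lit 382) (nat_lit 314) (nat_lit 192))))) (XT.nd (nat_lit 282) (nat_lit 168) (nat_lit 0) (XT.nd (nat_lit 94) (nat_lit 84) (nat_lit 0) (XT.lf (nat_lit 0) (nat_lit 2390230851) (nat_lit 168) (nat_lit 26684251965) (nat_lit 252) (nat_lit 1260645381) (nat_lit 15) (nat_lit 5) (nat_lit 17) (nat_lit 5) (nat_lit 18) (nat_lit 5) (nat_lit 383) (nat_lit 314) (nat_lit 191)) (XT.nd (nat_lit 94) (nat_lit 0) (nat_lit 0) (XT.lf (nat_lit 0) (nat_lit 659363106) (nat_lit 252) (nat_lit 22397105109)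 (nat_lit 84) (nat_lit 8056697412) (nat_lit 14) (nat_lit 5) (nat_lit 17) (nat_lit 5) (nat_lit 15) (nat_lit 5) (nat_lit 384) (nat_lit 314) (nat_lit 190)) (XT.lf (nat_lit 0) (nat_lit 2606626471) (nat_lit 252) (nat_lit 16698597486) (nat_lit 84) (nat_lit 12609917530) (nat_lit 14) (nat_lit 5) (nat_lit 17) (nat_lit 5) (nat_lit 15) (nat_lit 5) (nat_lit 385) (nat_lit 314) (nat_lit 189)))) (XT.nd (nat_lit 188) (nat_lit 168) (nat_lit 0) (XT.nd (nat_lit 94) (nat_lit 0) (nat_lit 0) (XT.lf (nat_lit 0) (nat_lit 4608358964) (nat_lit 252) (nat_lit 10831557112) (nat_lit 84) (nat_lit 17302274907) (nat_lit 14) (nat_lit 5) (nat_lit 17) (nat_lit 5) (nat_lit 15) (nat_lit 5) (nat_lit 386) (nat_lit 314) (nat_lit 188)) (XT.lf (nat_lit 0) (nat_lit 6666426407) (nat_lit 252) (nat_lit 4790515292) (nat_lit 84) (nat_lit 22138143310) (nat_lit 14) (nat_lit 5) (nat_lit 17) (nat_lit 5) (nat_lit 15) (nat_lit 5) (nat_lit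 387) (nat_lit 314) (nat_lit 187))) (XT.nd (nat_lit 94) (nat_lit 0) (nat_lit 0) (XT.lf (nat_lit 0) (nat_lit 1459565857) (nat_lit 168) (nat_lit 7337660352) (nat_lit 252) (nat_lit 25676943493) (nat_lit 12) (nat_lit 5) (nat_lit 14) (nat_lit 5) (nat_lit 15) (nat_lit 5) (nat_lit 388) (nat_lit 314) (nat_lit 186)) (XT.lf (nat_lit 0) (nat_lit 7997393311) (nat_lit 168) (nat_lit 3041235602) (nat_lit 252) (nat_lit 24340523131) (nat_lit 12) (nat_lit 5) (nat_lit 14) (nat_lit 5) (nat_lit 15) (nat_lit 5) (nat_lit 389) (nat_lit 314) (nat_lit 185))))))))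
noncomputable def xc129 : XT := (XT.nd (nat_lit 2350) (nat_lit 84) (nat_lit 0) (XT.nd (nat_lit 1128) (nat_lit 252) (nat_lit 0) (XT.nd (nat_lit 564) (nat_lit 84) (nat_lit 0) (XT.nd (nat_lit 282) (nat_lit 168) (nat_lit 0) (XT.nd (nat_lit 94) (nat_lit 0) (nat_lit 0) (XT.lf (nat_lit 0) (nat_lit 13357976683) (nat_lit 252) (nat_lit 21595573480) (nat_lit 84) (nat_lit 1358402570) (nat_lit 12) (nat_lit 5) (nat_lit 15) (nat_lit 5) (nat_lit 13) (nat_lit 5) (nat_lit 390) (nat_lit 314) (nat_lit 184)) (XT.nd (nat_lit 94) (nat_lit 0) (nat_lit 0) (XT.lf (nat_lit 0) (nat_lit 15775177315) (nat_lit 252) (nat_lit 15668400676) (nat_lit 84) (nat_lit 5829313120) (nat_lit 12) (nat_lit 5) (nat_lit 15) (nat_lit 5) (nat_lit 13) (nat_lit 5) (nat_lit 391) (nat_lit 314) (nat_lit 183)) (XT.lf (nat_lit 0) (nat_lit 18262314460) (nat_lit 252) (nat_lit 9564546144) (nat_lit 84) (nat_lit 10436937524) (nat_lit 12) (nat_lit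 5) (nat_lit 15) (nat_lit 5) (nat_lit 13) (nat_lit 5) (nat_lit 392) (nat_lit 314) (nat_lit 182)))) (XT.nd (nat_lit 94) (nat_lit 168) (nat_lit 0) (XT.lf (nat_lit 0) (nat_lit 20821706392) (nat_lit 252) (nat_lit 3278320450) (nat_lit 84) (nat_lit 15185570570) (nat_lit 12) (nat_lit 5) (nat_lit 15) (nat_lit 5) (nat_lit 13) (nat_lit 5) (nat_lit 393) (nat_lit 314) (nat_lit 181)) (XT.nd (nat_lit 94) (nat_lit 0) (nat_lit 0) (XT.lf (nat_lit 0) (nat_lit 3261854933) (nat_lit 168) (nat_lit 20226241802) (nat_lit 252) (nat_lit 16850141554) (nat_lit 10) (nat_lit 5) (nat_lit 12) (nat_lit 5) (nat_lit 13) (nat_lit 5) (nat_lit 394) (nat_lit 314) (nat_lit 180)) (XT.lf (nat_lit 0) (nat_lit 10067699258) (nat_lit 168) (nat_lit 16199040235) (nat_lit 252) (nat_lit 15155876609) (nat_lit 10) (nat_lit 5) (nat_lit 12) (nat_lit 5) (nat_lit 13) (nat_lit 5) (nat_lit 395) (nat_lit 314) (nat_lit 179))))) (XT.nd (nat_lit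 282) (nat_lit 84) (nat_lit 0) (XT.nd (nat_lit 94) (nat_lit 0) (nat_lit 0) (XT.lf (nat_lit 0) (nat_lit 17078147293) (nat_lit 168) (nat_lit 12048887309) (nat_lit 252) (nat_lit 13413735895) (nat_lit 10) (nat_lit 5) (nat_lit 12) (nat_lit 5) (nat_lit 13) (nat_lit 5) (nat_lit 396) (nat_lit 314) (nat_lit 178)) (XT.nd (nat_lit 94) (nat_lit 0) (nat_lit 0) (XT.lf (nat_lit 0) (nat_lit 24299733509) (nat_lit 168) (nat_lit 7771914648) (nat_lit 252) (nat_lit 11622095555) (nat_lit 10) (nat_lit 5) (nat_lit 12) (nat_lit 5) (nat_lit 13) (nat_lit 5) (nat_lit 397) (nat_lit 314) (nat_lit 177)) (XT.lf (nat_lit 0) (nat_lit 31739189181) (nat_lit 168) (nat_lit 3364135663) (nat_lit 252) (nat_lit 9779285592) (nat_lit 10) (nat_lit 5) (nat_lit 12) (nat_lit 5) (nat_lit 13) (nat_lit 5) (nat_lit 398) (nat_lit 314) (nat_lit 176)))) (XT.nd (nat_lit 94) (nat_lit 84) (nat_lit 0) (XT.lf (nat_lit 0) (nat_lit 38236581950)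 (nat_lit 252) (nat_lit 6716721602) (nat_lit 84) (nat_lit 1154812834) (nat_lit 10) (nat_lit 5) (nat_lit 13) (nat_lit 5) (nat_lit 11) (nat_lit 4) (nat_lit 399) (nat_lit 314) (nat_lit 175)) (XT.nd (nat_lit 94) (nat_lit 84) (nat_lit 0) (XT.lf (nat_lit 0) (nat_lit 41497390673) (nat_lit 252) (nat_lit 130971562) (nat_lit 84) (nat_lit 5742327052) (nat_lit 10) (nat_lit 5) (nat_lit 13) (nat_lit 5) (nat_lit 11) (nat_lit 4) (nat_lit 400) (nat_lit 314) (nat_lit 174)) (XT.lf (nat_lit 0) (nat_lit 6790146431) (nat_lit 84) (nat_lit 38132630450) (nat_lit 168) (nat_lit 3747675532) (nat_lit 9) (nat_lit 5) (nat_lit 10) (nat_lit 5) (nat_lit 11) (nat_lit 4) (nat_lit 401) (nat_lit 314) (nat_lit 173)))))) (XT.nd (nat_lit 564) (nat_lit 168) (nat_lit 0) (XT.nd (nat_lit 282) (nat_lit 0) (nat_lit 0) (XT.nd (nat_lit 94) (nat_lit 84) (nat_lit 0) (XT.lf (nat_lit 0) (nat_lit 13923055658) (nat_lit 84) (nat_lit 34528856105)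 (nat_lit 168) (nat_lit 1558690185) (nat_lit 9) (nat_lit 5) (nat_lit 10) (nat_lit 5) (nat_lit 11) (nat_lit 4) (nat_lit 402) (nat_lit 314) (nat_lit 172)) (XT.nd (nat_lit 94) (nat_lit 0) (nat_lit 0) (XT.lf (nat_lit 0) (nat_lit 680341499) (nat_lit 168) (nat_lit 30127604312) (nat_lit 84) (nat_lit 20584268822) (nat_lit 8) (nat_lit 5) (nat_lit 10) (nat_lit 5) (nat_lit 9) (nat_lit 5) (nat_lit 403) (nat_lit 314) (nat_lit 171)) (XT.lf (nat_lit 0) (nat_lit 2952772171) (nat_lit 168) (nat_lit 24004148963) (nat_lit 84) (nat_lit 25859371193) (nat_lit 8) (nat_lit 5) (nat_lit 10) (nat_lit 5) (nat_lit 9) (nat_lit 5) (nat_lit 404) (nat_lit 314) (nat_lit 170)))) (XT.nd (nat_lit 94) (nat_lit 0) (nat_lit 0) (XT.lf (nat_lit 0) (nat_lit 5292124106) (nat_lit 168) (nat_lit 17696010143) (nat_lit 84) (nat_lit 31296507504) (nat_lit 8) (nat_lit 5) (nat_lit 10) (nat_lit 5) (nat_lit 9) (nat_lit 5) (nat_lit 405)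 (nat_lit 314) (nat_lit 169)) (XT.nd (nat_lit 94) (nat_lit 0) (nat_lit 0) (XT.lf (nat_lit 0) (nat_lit 7700577827) (nat_lit 168) (nat_lit 11197308004) (nat_lit 84) (nat_lit 36900745735) (nat_lit 8) (nat_lit 5) (nat_lit 10) (nat_lit 5) (nat_lit 9) (nat_lit 5) (nat_lit 406) (nat_lit 314) (nat_lit 168)) (XT.lf (nat_lit 0) (nat_lit 10180378263) (nat_lit 168) (nat_lit 4501985077) (nat_lit 84) (nat_lit 42677309625) (nat_lit 8) (nat_lit 5) (nat_lit 10) (nat_lit 5) (nat_lit 9) (nat_lit 5) (nat_lit 407) (nat_lit 314) (nat_lit 167))))) (XT.nd (nat_lit 282) (nat_lit 0) (nat_lit 0) (XT.nd (nat_lit 94) (nat_lit 0) (nat_lit 0) (XT.lf (nat_lit 0) (nat_lit 2445470155) (nat_lit 168) (nat_lit 10312626061) (nat_lit 252) (nat_lit 46210372746) (nat_lit 6) (nat_lit 5) (nat_lit 8) (nat_lit 5) (nat_lit 9) (nat_lit 5) (nat_lit 408) (nat_lit 314) (nat_lit 166)) (XT.nd (nat_lit 94) (nat_lit 0) (nat_lit 0) (XT.lf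 (nat_lit 0) (nat_lit 9699090256) (nat_lit 168) (nat_lit 5760459596) (nat_lit 252) (nat_lit 45166243392) (nat_lit 6) (nat_lit 5) (nat_lit 8) (nat_lit 5) (nat_lit 9) (nat_lit 5) (nat_lit 409) (nat_lit 314) (nat_lit 165)) (XT.lf (nat_lit 0) (nat_lit 17173066313) (nat_lit 168) (nat_lit 1068612342) (nat_lit 252) (nat_lit 44092924893) (nat_lit 6) (nat_lit 5) (nat_lit 8) (nat_lit 5) (nat_lit 9) (nat_lit 5) (nat_lit 410) (nat_lit 314) (nat_lit 164)))) (XT.nd (nat_lit 188) (nat_lit 0) (nat_lit 0) (XT.nd (nat_lit 94) (nat_lit 0) (nat_lit 0) (XT.lf (nat_lit 0) (nat_lit 21144447831) (nat_lit 252) (nat_lit 39259499781) (nat_lit 84) (nat_lit 3691386517) (nat_lit 6) (nat_lit 5) (nat_lit 9) (nat_lit 5) (nat_lit 7) (nat_lit 4) (nat_lit 411) (nat_lit 314) (nat_lit 163)) (XT.lf (nat_lit 0) (nat_lit 24145230775) (nat_lit 252) (nat_lit 33189757020) (nat_lit 84) (nat_lit 8575423683) (nat_lit 6) (nat_lit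 5) (nat_lit 9) (nat_lit 5) (nat_lit 7) (nat_lit 4) (nat_lit 412) (nat_lit 314) (nat_lit 162))) (XT.nd (nat_lit 94) (nat_lit 0) (nat_lit 0) (XT.lf (nat_lit 0) (nat_lit 27236223764) (nat_lit 252) (nat_lit 26936050547) (nat_lit 84) (nat_lit 13609581747) (nat_lit 6) (nat_lit 5) (nat_lit 9) (nat_lit 5) (nat_lit 7) (nat_lit 4) (nat_lit 413) (nat_lit 314) (nat_lit 161)) (XT.lf (nat_lit 0) (nat_lit 30420307929) (nat_lit 252) (nat_lit 20492551253) (nat_lit 84) (nat_lit 18798553071) (nat_lit 6) (nat_lit 5) (nat_lit 9) (nat_lit 5) (nat_lit 7) (nat_lit 4) (nat_lit 414) (nat_lit 314) (nat_lit 160))))))) (XT.nd (nat_lit 46436) (nat_lit 0) (nat_lit 7476) (XT.nd (nat_lit 564) (nat_lit 0) (nat_lit 0) (XT.nd (nat_lit 282) (nat_lit 0) (nat_lit 0) (XT.nd (nat_lit 94) (nat_lit 84) (nat_lit 0) (XT.lf (nat_lit 0) (nat_lit 33700451167) (nat_lit 252) (nat_lit 13853253123) (nat_lit 84) (nat_lit 24147174320)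 (nat_lit 6) (nat_lit 5) (nat_lit 9) (nat_lit 5) (nat_lit 7) (nat_lit 4) (nat_lit 415) (nat_lit 314) (nat_lit 159)) (XT.nd (nat_lit 94) (nat_lit 84) (nat_lit 0) (XT.lf (nat_lit 0) (nat_lit 37079710918) (nat_lit 252) (nat_lit 7011967634) (nat_lit 84) (nat_lit 29660430970) (nat_lit 6) (nat_lit 5) (nat_lit 9) (nat_lit 5) (nat_lit 7) (nat_lit 4) (nat_lit 416) (nat_lit 314) (nat_lit 158)) (XT.lf (nat_lit 0) (nat_lit 38456826) (nat_lit 84) (nat_lit 40523161674) (nat_lit 168) (nat_lit 35305386623) (nat_lit 5) (nat_lit 5) (nat_lit 6) (nat_lit 5) (nat_lit 7) (nat_lit 4) (nat_lit 417) (nat_lit 314) (nat_lit 157)))) (XT.nd (nat_lit 94) (nat_lit 0) (nat_lit 0) (XT.lf (nat_lit 0) (nat_lit 7452416396) (nat_lit 84) (nat_lit 36769787070) (nat_lit 168) (nat_lit 33823076946) (nat_lit 5) (nat_lit 5) (nat_lit 6) (nat_lit 5) (nat_lit 7) (nat_lit 4) (nat_lit 418) (nat_lit 314) (nat_lit 156)) (XT.nd (nat_lit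 94) (nat_lit 0) (nat_lit 0) (XT.lf (nat_lit 0) (nat_lit 15092641225) (nat_lit 84) (nat_lit 32901246764) (nat_lit 168) (nat_lit 32297278468) (nat_lit 5) (nat_lit 5) (nat_lit 6) (nat_lit 5) (nat_lit 7) (nat_lit 4) (nat_lit 419) (nat_lit 314) (nat_lit 155)) (XT.lf (nat_lit 0) (nat_lit 22966252804) (nat_lit 84) (nat_lit 28913934870) (nat_lit 168) (nat_lit 30726568984) (nat_lit 5) (nat_lit 5) (nat_lit 6) (nat_lit 5) (nat_lit 7) (nat_lit 4) (nat_lit 420) (nat_lit 314) (nat_lit 154))))) (XT.nd (nat_lit 282) (nat_lit 0) (nat_lit 0) (XT.nd (nat_lit 94) (nat_lit 0) (nat_lit 0) (XT.lf (nat_lit 0) (nat_lit 31080590163) (nat_lit 84) (nat_lit 24804134796) (nat_lit 168) (nat_lit 29109484428) (nat_lit 5) (nat_lit 5) (nat_lit 6) (nat_lit 5) (nat_lit 7) (nat_lit 4) (nat_lit 421) (nat_lit 314) (nat_lit 153)) (XT.nd (nat_lit 94) (nat_lit 0) (nat_lit 0) (XT.lf (nat_lit 0) (nat_lit 39443216715) (nat_lit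 84) (nat_lit 20568015778) (nat_lit 168) (nat_lit 27444517509) (nat_lit 5) (nat_lit 5) (nat_lit 6) (nat_lit 5) (nat_lit 7) (nat_lit 4) (nat_lit 422) (nat_lit 314) (nat_lit 152)) (XT.lf (nat_lit 0) (nat_lit 48061927304) (nat_lit 84) (nat_lit 16201629309) (nat_lit 168) (nat_lit 25730116302) (nat_lit 5) (nat_lit 5) (nat_lit 6) (nat_lit 5) (nat_lit 7) (nat_lit 4) (nat_lit 423) (nat_lit 314) (nat_lit 151)))) (XT.nd (nat_lit 188) (nat_lit 0) (nat_lit 0) (XT.nd (nat_lit 94) (nat_lit 0) (nat_lit 0) (XT.lf (nat_lit 0) (nat_lit 56944755470) (nat_lit 84) (nat_lit 11700905460) (nat_lit 168) (nat_lit 23964682807) (nat_lit 5) (nat_lit 5) (nat_lit 6) (nat_lit 5) (nat_lit 7) (nat_lit 4) (nat_lit 424) (nat_lit 314) (nat_lit 150)) (XT.lf (nat_lit 0) (nat_lit 66099980941) (nat_lit 84) (nat_lit 7061649085) (nat_lit 168) (nat_lit 22146571453) (nat_lit 5) (nat_lit 5) (nat_lit 6) (nat_lit 5) (nat_lit 7)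 (nat_lit 4) (nat_lit 425) (nat_lit 314) (nat_lit 149))) (XT.nd (nat_lit 45308) (nat_lit 0) (nat_lit 8232) (XT.lf (nat_lit 0) (nat_lit 75536137345) (nat_lit 84) (nat_lit 2279535910) (nat_lit 168) (nat_lit 20274087572) (nat_lit 5) (nat_lit 5) (nat_lit 6) (nat_lit 5) (nat_lit 7) (nat_lit 4) (nat_lit 426) (nat_lit 314) (nat_lit 148)) (XT.lf (nat_lit 0) (nat_lit 670083561) (nat_lit 0) (nat_lit 670083561) (nat_lit 756) (nat_lit 2762398766) (nat_lit 103) (nat_lit 5) (nat_lit 103) (nat_lit 3) (nat_lit 112) (nat_lit 3) (nat_lit 315) (nat_lit 315) (nat_lit 258)))))) (XT.nd (nat_lit 564) (nat_lit 756) (nat_lit 0) (XT.nd (nat_lit 282) (nat_lit 0) (nat_lit 0) (XT.nd (nat_lit 94) (nat_lit 0) (nat_lit 0) (XT.lf (nat_lit 0) (nat_lit 3593846814) (nat_lit 756) (nat_lit 4140106684) (nat_lit 840) (nat_lit 564291878) (nat_lit 103) (nat_lit 5) (nat_lit 112) (nat_lit 3) (nat_lit 113) (nat_lit 5) (nat_lit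 316) (nat_lit 315) (nat_lit 257)) (XT.nd (nat_lit 94) (nat_lit 0) (nat_lit 0) (XT.lf (nat_lit 0) (nat_lit 4514651973) (nat_lit 756) (nat_lit 1363476676) (nat_lit 840) (nat_lit 2517052141) (nat_lit 103) (nat_lit 5) (nat_lit 112) (nat_lit 3) (nat_lit 113) (nat_lit 5) (nat_lit 317) (nat_lit 315) (nat_lit 256)) (XT.lf (nat_lit 84) (nat_lit 1511256554) (nat_lit 0) (nat_lit 3934048683) (nat_lit 840) (nat_lit 3050670520) (nat_lit 104) (nat_lit 5) (nat_lit 103) (nat_lit 5) (nat_lit 113) (nat_lit 5) (nat_lit 318) (nat_lit 315) (nat_lit 255)))) (XT.nd (nat_lit 94) (nat_lit 0) (nat_lit 84) (XT.lf (nat_lit 84) (nat_lit 4485777239) (nat_lit 0) (nat_lit 1900406770) (nat_lit 840) (nat_lit 2214555413) (nat_lit 104) (nat_lit 5) (nat_lit 103) (nat_lit 5) (nat_lit 113) (nat_lit 5) (nat_lit 319) (nat_lit 315) (nat_lit 254)) (XT.nd (nat_lit 94) (nat_lit 0) (nat_lit 0) (XT.lf (nat_lit 0) (nat_lit 7326449106)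 (nat_lit 756) (nat_lit 1177263089) (nat_lit 840) (nat_lit 206220441) (nat_lit 104) (nat_lit 5) (nat_lit 113) (nat_lit 5) (nat_lit 114) (nat_lit 5) (nat_lit 320) (nat_lit 315) (nat_lit 253)) (XT.lf (nat_lit 84) (nat_lit 1850858869) (nat_lit 0) (nat_lit 6452026967) (nat_lit 840) (nat_lit 519658168) (nat_lit 105) (nat_lit 5) (nat_lit 104) (nat_lit 5) (nat_lit 114) (nat_lit 5) (nat_lit 321) (nat_lit 315) (nat_lit 252))))) (XT.nd (nat_lit 282) (nat_lit 0) (nat_lit 84) (XT.nd (nat_lit 94) (nat_lit 0) (nat_lit 0) (XT.lf (nat_lit 0) (nat_lit 345309980) (nat_lit 840) (nat_lit 3963438170) (nat_lit 924) (nat_lit 4630583155) (nat_lit 94) (nat_lit 5) (nat_lit 104) (nat_lit 5) (nat_lit 105) (nat_lit 5) (nat_lit 322) (nat_lit 315) (nat_lit 251)) (XT.nd (nat_lit 94) (nat_lit 0) (nat_lit 84) (XT.lf (nat_lit 0) (nat_lit 1196641013) (nat_lit 840) (nat_lit 885851047) (nat_lit 924) (nat_lit 6978230477)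 (nat_lit 94) (nat_lit 5) (nat_lit 104) (nat_lit 5) (nat_lit 105) (nat_lit 5) (nat_lit 323) (nat_lit 315) (nat_lit 250)) (XT.lf (nat_lit 0) (nat_lit 2071023131) (nat_lit 840) (nat_lit 6872973338) (nat_lit 924) (nat_lit 242206022) (nat_lit 95) (nat_lit 5) (nat_lit 105) (nat_lit 5) (nat_lit 106) (nat_lit 5) (nat_lit 324) (nat_lit 315) (nat_lit 249)))) (XT.nd (nat_lit 188) (nat_lit 0) (nat_lit 0) (XT.nd (nat_lit 94) (nat_lit 0) (nat_lit 0) (XT.lf (nat_lit 0) (nat_lit 2975175342) (nat_lit 840) (nat_lit 3725464650) (nat_lit 924) (nat_lit 2615065113) (nat_lit 95) (nat_lit 5) (nat_lit 105) (nat_lit 5) (nat_lit 106) (nat_lit 5) (nat_lit 325) (nat_lit 315) (nat_lit 248)) (XT.lf (nat_lit 0) (nat_lit 3880221658) (nat_lit 840) (nat_lit 498856343) (nat_lit 924) (nat_lit 5071194369) (nat_lit 95) (nat_lit 5) (nat_lit 105) (nat_lit 5) (nat_lit 106) (nat_lit 5) (nat_lit 326) (nat_lit 315) (nat_lit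 247))) (XT.nd (nat_lit 94) (nat_lit 0) (nat_lit 84) (XT.lf (nat_lit 84) (nat_lit 2867635586) (nat_lit 0) (nat_lit 1947817392) (nat_lit 924) (nat_lit 4773694873) (nat_lit 96) (nat_lit 5) (nat_lit 95) (nat_lit 5) (nat_lit 106) (nat_lit 5) (nat_lit 327) (nat_lit 315) (nat_lit 246)) (XT.lf (nat_lit 0) (nat_lit 5764855953) (nat_lit 840) (nat_lit 3407508200) (nat_lit 924) (nat_lit 560620278) (nat_lit 96) (nat_lit 5) (nat_lit 106) (nat_lit 5) (nat_lit 107) (nat_lit 5) (nat_lit 328) (nat_lit 315) (nat_lit 245))))))))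
noncomputable def xc130 : XT := (XT.nd (nat_lit 2350) (nat_lit 2016) (nat_lit 0) (XT.nd (nat_lit 1128) (nat_lit 2184) (nat_lit 0) (XT.nd (nat_lit 564) (nat_lit 1596) (nat_lit 0) (XT.nd (nat_lit 282) (nat_lit 840) (nat_lit 0) (XT.nd (nat_lit 94) (nat_lit 0) (nat_lit 0) (XT.lf (nat_lit 0) (nat_lit 6738758183) (nat_lit 840) (nat_lit 28934723) (nat_lit 924) (nat_lit 3113930552) (nat_lit 96) (nat_lit 5) (nat_lit 106) (nat_lit 5) (nat_lit 107) (nat_lit 5) (nat_lit 329) (nat_lit 315) (nat_lit 244)) (XT.nd (nat_lit 94) (nat_lit 0) (nat_lit 0) (XT.lf (nat_lit 84) (nat_lit 3507345127) (nat_lit 0) (nat_lit 4246193028) (nat_lit 924) (nat_lit 2281185733) (nat_lit 97) (nat_lit 5) (nat_lit 96) (nat_lit 5) (nat_lit 107) (nat_lit 5) (nat_lit 330) (nat_lit 315) (nat_lit 243)) (XT.lf (nat_lit 84) (nat_lit 7136347604) (nat_lit 0) (nat_lit 1640175274) (nat_lit 924) (nat_lit 1416947735) (nat_lit 97) (nat_lit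 5) (nat_lit 96) (nat_lit 5) (nat_lit 107) (nat_lit 5) (nat_lit 331) (nat_lit 315) (nat_lit 242)))) (XT.nd (nat_lit 94) (nat_lit 84) (nat_lit 0) (XT.lf (nat_lit 0) (nat_lit 502523604) (nat_lit 840) (nat_lit 9321275239) (nat_lit 924) (nat_lit 533743633) (nat_lit 87) (nat_lit 5) (nat_lit 97) (nat_lit 5) (nat_lit 98) (nat_lit 5) (nat_lit 332) (nat_lit 315) (nat_lit 241)) (XT.nd (nat_lit 94) (nat_lit 0) (nat_lit 0) (XT.lf (nat_lit 0) (nat_lit 395585824) (nat_lit 924) (nat_lit 6327599916) (nat_lit 84) (nat_lit 3802746077) (nat_lit 86) (nat_lit 5) (nat_lit 97) (nat_lit 5) (nat_lit 87) (nat_lit 5) (nat_lit 333) (nat_lit 315) (nat_lit 240)) (XT.lf (nat_lit 0) (nat_lit 1320646034) (nat_lit 924) (nat_lit 2714114770) (nat_lit 84) (nat_lit 6665451638) (nat_lit 86) (nat_lit 5) (nat_lit 97) (nat_lit 5) (nat_lit 87) (nat_lit 5) (nat_lit 334) (nat_lit 315) (nat_lit 239))))) (XT.nd (nat_lit 282) (nat_lit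 672) (nat_lit 0) (XT.nd (nat_lit 94) (nat_lit 0) (nat_lit 0) (XT.lf (nat_lit 0) (nat_lit 1014540239) (nat_lit 924) (nat_lit 1248577119) (nat_lit 1008) (nat_lit 8617281585) (nat_lit 75) (nat_lit 5) (nat_lit 86) (nat_lit 5) (nat_lit 87) (nat_lit 5) (nat_lit 335) (nat_lit 315) (nat_lit 238)) (XT.nd (nat_lit 94) (nat_lit 0) (nat_lit 0) (XT.lf (nat_lit 0) (nat_lit 3258713508) (nat_lit 1008) (nat_lit 6183318390) (nat_lit 84) (nat_lit 1623547480) (nat_lit 75) (nat_lit 5) (nat_lit 87) (nat_lit 5) (nat_lit 76) (nat_lit 5) (nat_lit 336) (nat_lit 315) (nat_lit 237)) (XT.lf (nat_lit 0) (nat_lit 4277747811) (nat_lit 1008) (nat_lit 2416796644) (nat_lit 84) (nat_lit 4562330958) (nat_lit 75) (nat_lit 5) (nat_lit 87) (nat_lit 5) (nat_lit 76) (nat_lit 5) (nat_lit 337) (nat_lit 315) (nat_lit 236)))) (XT.nd (nat_lit 94) (nat_lit 0) (nat_lit 0) (XT.lf (nat_lit 0) (nat_lit 1479410185) (nat_lit 672) (nat_lit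 3844049822) (nat_lit 756) (nat_lit 6130934360) (nat_lit 67) (nat_lit 5) (nat_lit 75) (nat_lit 5) (nat_lit 76) (nat_lit 5) (nat_lit 338) (nat_lit 315) (nat_lit 235)) (XT.nd (nat_lit 94) (nat_lit 0) (nat_lit 0) (XT.lf (nat_lit 0) (nat_lit 5530921269) (nat_lit 672) (nat_lit 876729488) (nat_lit 756) (nat_lit 5250333988) (nat_lit 67) (nat_lit 5) (nat_lit 75) (nat_lit 5) (nat_lit 76) (nat_lit 5) (nat_lit 339) (nat_lit 315) (nat_lit 234)) (XT.lf (nat_lit 0) (nat_lit 7528537779) (nat_lit 756) (nat_lit 2198451106) (nat_lit 84) (nat_lit 2140934007) (nat_lit 67) (nat_lit 5) (nat_lit 76) (nat_lit 5) (nat_lit 68) (nat_lit 5) (nat_lit 340) (nat_lit 315) (nat_lit 233)))))) (XT.nd (nat_lit 564) (nat_lit 1176) (nat_lit 0) (XT.nd (nat_lit 282) (nat_lit 504) (nat_lit 0) (XT.nd (nat_lit 94) (nat_lit 0) (nat_lit 0) (XT.lf (nat_lit 0) (nat_lit 1864105931) (nat_lit 504) (nat_lit 6829518538) (nat_lit 588)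 (nat_lit 3390579808) (nat_lit 61) (nat_lit 5) (nat_lit 67) (nat_lit 5) (nat_lit 68) (nat_lit 5) (nat_lit 341) (nat_lit 315) (nat_lit 232)) (XT.nd (nat_lit 94) (nat_lit 0) (nat_lit 0) (XT.lf (nat_lit 0) (nat_lit 6082941601) (nat_lit 504) (nat_lit 3817207757) (nat_lit 588) (nat_lit 2407000408) (nat_lit 61) (nat_lit 5) (nat_lit 67) (nat_lit 5) (nat_lit 68) (nat_lit 5) (nat_lit 342) (nat_lit 315) (nat_lit 231)) (XT.lf (nat_lit 0) (nat_lit 10416783637) (nat_lit 504) (nat_lit 710196076) (nat_lit 588) (nat_lit 1410677436) (nat_lit 61) (nat_lit 5) (nat_lit 67) (nat_lit 5) (nat_lit 68) (nat_lit 5) (nat_lit 343) (nat_lit 315) (nat_lit 230)))) (XT.nd (nat_lit 94) (nat_lit 84) (nat_lit 0) (XT.lf (nat_lit 0) (nat_lit 2111528055) (nat_lit 420) (nat_lit 10309422510) (nat_lit 504) (nat_lit 353574276) (nat_lit 56) (nat_lit 5) (nat_lit 61) (nat_lit 5) (nat_lit 62) (nat_lit 5) (nat_lit 344) (nat_lit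 315) (nat_lit 229)) (XT.nd (nat_lit 94) (nat_lit 0) (nat_lit 0) (XT.lf (nat_lit 0) (nat_lit 734586369) (nat_lit 504) (nat_lit 6528982746) (nat_lit 84) (nat_lit 5754643132) (nat_lit 55) (nat_lit 5) (nat_lit 61) (nat_lit 5) (nat_lit 56) (nat_lit 5) (nat_lit 345) (nat_lit 315) (nat_lit 228)) (XT.lf (nat_lit 0) (nat_lit 1833126166) (nat_lit 504) (nat_lit 2286177180) (nat_lit 84) (nat_lit 9150641518) (nat_lit 55) (nat_lit 5) (nat_lit 61) (nat_lit 5) (nat_lit 56) (nat_lit 5) (nat_lit 346) (nat_lit 315) (nat_lit 227))))) (XT.nd (nat_lit 282) (nat_lit 756) (nat_lit 0) (XT.nd (nat_lit 94) (nat_lit 0) (nat_lit 0) (XT.lf (nat_lit 0) (nat_lit 2115504858) (nat_lit 420) (nat_lit 855674013) (nat_lit 504) (nat_lit 10558236627) (nat_lit 50) (nat_lit 5) (nat_lit 55) (nat_lit 5) (nat_lit 56) (nat_lit 5) (nat_lit 347) (nat_lit 315) (nat_lit 226)) (XT.nd (nat_lit 94) (nat_lit 0) (nat_lit 0) (XT.lf (nat_lit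 0) (nat_lit 4178299068) (nat_lit 504) (nat_lit 7134911531) (nat_lit 84) (nat_lit 2482772098) (nat_lit 50) (nat_lit 5) (nat_lit 56) (nat_lit 5) (nat_lit 51) (nat_lit 5) (nat_lit 348) (nat_lit 315) (nat_lit 225)) (XT.lf (nat_lit 0) (nat_lit 5416838792) (nat_lit 504) (nat_lit 2747234608) (nat_lit 84) (nat_lit 5907023495) (nat_lit 50) (nat_lit 5) (nat_lit 56) (nat_lit 5) (nat_lit 51) (nat_lit 5) (nat_lit 349) (nat_lit 315) (nat_lit 224)))) (XT.nd (nat_lit 188) (nat_lit 420) (nat_lit 0) (XT.nd (nat_lit 94) (nat_lit 0) (nat_lit 0) (XT.lf (nat_lit 0) (nat_lit 1797922425) (nat_lit 336) (nat_lit 4899377288) (nat_lit 420) (nat_lit 7657425051) (nat_lit 46) (nat_lit 5) (nat_lit 50) (nat_lit 5) (nat_lit 51) (nat_lit 5) (nat_lit 350) (nat_lit 315) (nat_lit 223)) (XT.lf (nat_lit 0) (nat_lit 6527606704) (nat_lit 336) (nat_lit 1504499854) (nat_lit 420) (nat_lit 6614675948) (nat_lit 46) (nat_lit 5)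 (nat_lit 50) (nat_lit 5) (nat_lit 51) (nat_lit 5) (nat_lit 351) (nat_lit 315) (nat_lit 222))) (XT.nd (nat_lit 94) (nat_lit 420) (nat_lit 0) (XT.lf (nat_lit 0) (nat_lit 9414481346) (nat_lit 420) (nat_lit 3578457673) (nat_lit 84) (nat_lit 1954852020) (nat_lit 46) (nat_lit 5) (nat_lit 51) (nat_lit 5) (nat_lit 47) (nat_lit 5) (nat_lit 352) (nat_lit 315) (nat_lit 221)) (XT.lf (nat_lit 0) (nat_lit 1095469792) (nat_lit 420) (nat_lit 9757295953) (nat_lit 504) (nat_lit 4405046540) (nat_lit 41) (nat_lit 5) (nat_lit 46) (nat_lit 5) (nat_lit 47) (nat_lit 5) (nat_lit 353) (nat_lit 315) (nat_lit 220))))))) (XT.nd (nat_lit 1222) (nat_lit 1008) (nat_lit 0) (XT.nd (nat_lit 564) (nat_lit 588) (nat_lit 0) (XT.nd (nat_lit 282) (nat_lit 420) (nat_lit 0) (XT.nd (nat_lit 94) (nat_lit 0) (nat_lit 0) (XT.lf (nat_lit 0) (nat_lit 5976057860) (nat_lit 420) (nat_lit 6383989220) (nat_lit 504) (nat_lit 3216723989)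 (nat_lit 41) (nat_lit 5) (nat_lit 46) (nat_lit 5) (nat_lit 47) (nat_lit 5) (nat_lit 354) (nat_lit 315) (nat_lit 219)) (XT.nd (nat_lit 94) (nat_lit 0) (nat_lit 0) (XT.lf (nat_lit 0) (nat_lit 10994275320) (nat_lit 420) (nat_lit 2907226306) (nat_lit 504) (nat_lit 2004586157) (nat_lit 41) (nat_lit 5) (nat_lit 46) (nat_lit 5) (nat_lit 47) (nat_lit 5) (nat_lit 355) (nat_lit 315) (nat_lit 218)) (XT.lf (nat_lit 0) (nat_lit 15485274499) (nat_lit 504) (nat_lit 97978029) (nat_lit 84) (nat_lit 662608899) (nat_lit 41) (nat_lit 5) (nat_lit 47) (nat_lit 5) (nat_lit 42) (nat_lit 5) (nat_lit 356) (nat_lit 315) (nat_lit 217)))) (XT.nd (nat_lit 94) (nat_lit 0) (nat_lit 0) (XT.lf (nat_lit 0) (nat_lit 578801095) (nat_lit 420) (nat_lit 11678823947) (nat_lit 84) (nat_lit 4336368890) (nat_lit 36) (nat_lit 5) (nat_lit 41) (nat_lit 5) (nat_lit 37) (nat_lit 5) (nat_lit 357) (nat_lit 315) (nat_lit 216)) (XT.nd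 (nat_lit 94) (nat_lit 0) (nat_lit 0) (XT.lf (nat_lit 0) (nat_lit 1933158487) (nat_lit 420) (nat_lit 6888344327) (nat_lit 84) (nat_lit 8131579667) (nat_lit 36) (nat_lit 5) (nat_lit 41) (nat_lit 5) (nat_lit 37) (nat_lit 5) (nat_lit 358) (nat_lit 315) (nat_lit 215)) (XT.lf (nat_lit 0) (nat_lit 3318069697) (nat_lit 420) (nat_lit 1962425487) (nat_lit 84) (nat_lit 12043231563) (nat_lit 36) (nat_lit 5) (nat_lit 41) (nat_lit 5) (nat_lit 37) (nat_lit 5) (nat_lit 359) (nat_lit 315) (nat_lit 214))))) (XT.nd (nat_lit 282) (nat_lit 252) (nat_lit 0) (XT.nd (nat_lit 94) (nat_lit 0) (nat_lit 0) (XT.lf (nat_lit 0) (nat_lit 3167338865) (nat_lit 336) (nat_lit 1598907134) (nat_lit 420) (nat_lit 12939052175) (nat_lit 32) (nat_lit 5) (nat_lit 36) (nat_lit 5) (nat_lit 37) (nat_lit 5) (nat_lit 360) (nat_lit 315) (nat_lit 213)) (XT.nd (nat_lit 94) (nat_lit 0) (nat_lit 0) (XT.lf (nat_lit 0) (nat_lit 6290906456)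 (nat_lit 420) (nat_lit 9635267830) (nat_lit 84) (nat_lit 2171610198) (nat_lit 32) (nat_lit 5) (nat_lit 37) (nat_lit 5) (nat_lit 33) (nat_lit 5) (nat_lit 361) (nat_lit 315) (nat_lit 212)) (XT.lf (nat_lit 0) (nat_lit 7868616903) (nat_lit 420) (nat_lit 4609487856) (nat_lit 84) (nat_lit 6024217270) (nat_lit 32) (nat_lit 5) (nat_lit 37) (nat_lit 5) (nat_lit 33) (nat_lit 5) (nat_lit 362) (nat_lit 315) (nat_lit 211)))) (XT.nd (nat_lit 188) (nat_lit 0) (nat_lit 0) (XT.nd (nat_lit 94) (nat_lit 0) (nat_lit 0) (XT.lf (nat_lit 0) (nat_lit 571439759) (nat_lit 252) (nat_lit 8919215567) (nat_lit 336) (nat_lit 9428948525) (nat_lit 29) (nat_lit 5) (nat_lit 32) (nat_lit 5) (nat_lit 33) (nat_lit 5) (nat_lit 363) (nat_lit 315) (nat_lit 210)) (XT.lf (nat_lit 0) (nat_lit 5998653235) (nat_lit 252) (nat_lit 5202376242) (nat_lit 336) (nat_lit 8147672053) (nat_lit 29) (nat_lit 5) (nat_lit 32) (nat_lit 5)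 (nat_lit 33) (nat_lit 5) (nat_lit 364) (nat_lit 315) (nat_lit 209))) (XT.nd (nat_lit 94) (nat_lit 0) (nat_lit 0) (XT.lf (nat_lit 0) (nat_lit 11582430777) (nat_lit 252) (nat_lit 1372235900) (nat_lit 336) (nat_lit 6836795026) (nat_lit 29) (nat_lit 5) (nat_lit 32) (nat_lit 5) (nat_lit 33) (nat_lit 5) (nat_lit 365) (nat_lit 315) (nat_lit 208)) (XT.lf (nat_lit 0) (nat_lit 14778743593) (nat_lit 336) (nat_lit 2945862110) (nat_lit 84) (nat_lit 2522899561) (nat_lit 29) (nat_lit 5) (nat_lit 33) (nat_lit 5) (nat_lit 30) (nat_lit 5) (nat_lit 366) (nat_lit 315) (nat_lit 207)))))) (XT.nd (nat_lit 564) (nat_lit 420) (nat_lit 0) (XT.nd (nat_lit 282) (nat_lit 336) (nat_lit 0) (XT.nd (nat_lit 94) (nat_lit 0) (nat_lit 0) (XT.lf (nat_lit 0) (nat_lit 2505603581) (nat_lit 252) (nat_lit 14183455493) (nat_lit 336) (nat_lit 4027761165) (nat_lit 26) (nat_lit 5) (nat_lit 29) (nat_lit 5) (nat_lit 30) (nat_lit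 5) (nat_lit 367) (nat_lit 315) (nat_lit 206)) (XT.nd (nat_lit 94) (nat_lit 0) (nat_lit 0) (XT.lf (nat_lit 0) (nat_lit 8177320993) (nat_lit 252) (nat_lit 10502989168) (nat_lit 336) (nat_lit 2519753505) (nat_lit 26) (nat_lit 5) (nat_lit 29) (nat_lit 5) (nat_lit 30) (nat_lit 5) (nat_lit 368) (nat_lit 315) (nat_lit 205)) (XT.lf (nat_lit 0) (nat_lit 14014003791) (nat_lit 252) (nat_lit 6710524909) (nat_lit 336) (nat_lit 974081832) (nat_lit 26) (nat_lit 5) (nat_lit 29) (nat_lit 5) (nat_lit 30) (nat_lit 5) (nat_lit 369) (nat_lit 315) (nat_lit 204)))) (XT.nd (nat_lit 94) (nat_lit 252) (nat_lit 0) (XT.lf (nat_lit 0) (nat_lit 598390448) (nat_lit 336) (nat_lit 2197891323) (nat_lit 84) (nat_lit 19416455958) (nat_lit 25) (nat_lit 5) (nat_lit 29) (nat_lit 5) (nat_lit 26) (nat_lit 5) (nat_lit 370) (nat_lit 315) (nat_lit 203)) (XT.nd (nat_lit 94) (nat_lit 0) (nat_lit 0) (XT.lf (nat_lit 0) (nat_lit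 2238544864) (nat_lit 336) (nat_lit 19245233863) (nat_lit 84) (nat_lit 1257547851) (nat_lit 22) (nat_lit 5) (nat_lit 26) (nat_lit 5) (nat_lit 23) (nat_lit 5) (nat_lit 371) (nat_lit 315) (nat_lit 202)) (XT.lf (nat_lit 0) (nat_lit 3973074068) (nat_lit 336) (nat_lit 13911847687) (nat_lit 84) (nat_lit 5400075891) (nat_lit 22) (nat_lit 5) (nat_lit 26) (nat_lit 5) (nat_lit 23) (nat_lit 5) (nat_lit 372) (nat_lit 315) (nat_lit 201))))) (XT.nd (nat_lit 282) (nat_lit 168) (nat_lit 0) (XT.nd (nat_lit 94) (nat_lit 252) (nat_lit 0) (XT.lf (nat_lit 0) (nat_lit 5753376104) (nat_lit 336) (nat_lit 8423415161) (nat_lit 84) (nat_lit 9669023204) (nat_lit 22) (nat_lit 5) (nat_lit 26) (nat_lit 5) (nat_lit 23) (nat_lit 5) (nat_lit 373) (nat_lit 315) (nat_lit 200)) (XT.nd (nat_lit 94) (nat_lit 252) (nat_lit 0) (XT.lf (nat_lit 0) (nat_lit 7581110401) (nat_lit 336) (nat_lit 2774820493) (nat_lit 84) (nat_lit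 14068368898) (nat_lit 22) (nat_lit 5) (nat_lit 26) (nat_lit 5) (nat_lit 23) (nat_lit 5) (nat_lit 374) (nat_lit 315) (nat_lit 199)) (XT.lf (nat_lit 0) (nat_lit 3101693613) (nat_lit 252) (nat_lit 6387056168) (nat_lit 336) (nat_lit 15531289193) (nat_lit 19) (nat_lit 5) (nat_lit 22) (nat_lit 5) (nat_lit 23) (nat_lit 5) (nat_lit 375) (nat_lit 315) (nat_lit 198)))) (XT.nd (nat_lit 188) (nat_lit 168) (nat_lit 0) (XT.nd (nat_lit 94) (nat_lit 0) (nat_lit 0) (XT.lf (nat_lit 0) (nat_lit 9209623177) (nat_lit 252) (nat_lit 2267473557) (nat_lit 336) (nat_lit 14156520819) (nat_lit 19) (nat_lit 5) (nat_lit 22) (nat_lit 5) (nat_lit 23) (nat_lit 5) (nat_lit 376) (nat_lit 315) (nat_lit 197)) (XT.lf (nat_lit 0) (nat_lit 13539531005) (nat_lit 336) (nat_lit 10788491854) (nat_lit 84) (nat_lit 1937847271) (nat_lit 19) (nat_lit 5) (nat_lit 23) (nat_lit 5) (nat_lit 20) (nat_lit 5) (nat_lit 377) (nat_lit 315)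 (nat_lit 196))) (XT.nd (nat_lit 94) (nat_lit 168) (nat_lit 0) (XT.lf (nat_lit 0) (nat_lit 15682116432) (nat_lit 336) (nat_lit 5010726350) (nat_lit 84) (nat_lit 6224414866) (nat_lit 19) (nat_lit 5) (nat_lit 23) (nat_lit 5) (nat_lit 20) (nat_lit 5) (nat_lit 378) (nat_lit 315) (nat_lit 195)) (XT.lf (nat_lit 0) (nat_lit 956451606) (nat_lit 168) (nat_lit 16937393023) (nat_lit 252) (nat_lit 9694945808) (nat_lit 17) (nat_lit 5) (nat_lit 19) (nat_lit 5) (nat_lit 20) (nat_lit 5) (nat_lit 379) (nat_lit 315) (nat_lit 194))))))))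
noncomputable def xc131 : XT := (XT.nd (nat_lit 2350) (nat_lit 252) (nat_lit 0) (XT.nd (nat_lit 1128) (nat_lit 336) (nat_lit 0) (XT.nd (nat_lit 564) (nat_lit 168) (nat_lit 0) (XT.nd (nat_lit 282) (nat_lit 252) (nat_lit 0) (XT.nd (nat_lit 94) (nat_lit 0) (nat_lit 0) (XT.lf (nat_lit 0) (nat_lit 7205958997) (nat_lit 168) (nat_lit 13013828968) (nat_lit 252) (nat_lit 8059973135) (nat_lit 17) (nat_lit 5) (nat_lit 19) (nat_lit 5) (nat_lit 20) (nat_lit 5) (nat_lit 380) (nat_lit 315) (nat_lit 193)) (XT.nd (nat_lit 94) (nat_lit 0) (nat_lit 0) (XT.lf (nat_lit 0) (nat_lit 13640590208) (nat_lit 168) (nat_lit 8970795151) (nat_lit 252) (nat_lit 6381000940) (nat_lit 17) (nat_lit 5) (nat_lit 19) (nat_lit 5) (nat_lit 20) (nat_lit 5) (nat_lit 381) (nat_lit 315) (nat_lit 192)) (XT.lf (nat_lit 0) (nat_lit 20266342989) (nat_lit 168) (nat_lit 4804523041) (nat_lit 252) (nat_lit 4656464243) (nat_lit 17)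 (nat_lit 5) (nat_lit 19) (nat_lit 5) (nat_lit 20) (nat_lit 5) (nat_lit 382) (nat_lit 315) (nat_lit 191)))) (XT.nd (nat_lit 94) (nat_lit 252) (nat_lit 0) (XT.lf (nat_lit 0) (nat_lit 27089393236) (nat_lit 168) (nat_lit 511129236) (nat_lit 252) (nat_lit 2884755597) (nat_lit 17) (nat_lit 5) (nat_lit 19) (nat_lit 5) (nat_lit 20) (nat_lit 5) (nat_lit 383) (nat_lit 315) (nat_lit 190)) (XT.nd (nat_lit 94) (nat_lit 84) (nat_lit 0) (XT.lf (nat_lit 0) (nat_lit 2868129700) (nat_lit 168) (nat_lit 27401856385) (nat_lit 252) (nat_lit 994864607) (nat_lit 15) (nat_lit 5) (nat_lit 17) (nat_lit 5) (nat_lit 18) (nat_lit 5) (nat_lit 384) (nat_lit 315) (nat_lit 189)) (XT.lf (nat_lit 0) (nat_lit 969540041) (nat_lit 252) (nat_lit 22692342705) (nat_lit 84) (nat_lit 8405354322) (nat_lit 14) (nat_lit 5) (nat_lit 17) (nat_lit 5) (nat_lit 15) (nat_lit 5) (nat_lit 385) (nat_lit 315) (nat_lit 188))))) (XT.nd (nat_lit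 282) (nat_lit 168) (nat_lit 0) (XT.nd (nat_lit 94) (nat_lit 0) (nat_lit 0) (XT.lf (nat_lit 0) (nat_lit 2968456799) (nat_lit 252) (nat_lit 16829180620) (nat_lit 84) (nat_lit 13096750570) (nat_lit 14) (nat_lit 5) (nat_lit 17) (nat_lit 5) (nat_lit 15) (nat_lit 5) (nat_lit 386) (nat_lit 315) (nat_lit 187)) (XT.nd (nat_lit 94) (nat_lit 0) (nat_lit 0) (XT.lf (nat_lit 0) (nat_lit 5023793171) (nat_lit 252) (nat_lit 10791900477) (nat_lit 84) (nat_lit 17931686745) (nat_lit 14) (nat_lit 5) (nat_lit 17) (nat_lit 5) (nat_lit 15) (nat_lit 5) (nat_lit 387) (nat_lit 315) (nat_lit 186)) (XT.lf (nat_lit 0) (nat_lit 7137464946) (nat_lit 252) (nat_lit 4574874898) (nat_lit 84) (nat_lit 22914669512) (nat_lit 14) (nat_lit 5) (nat_lit 17) (nat_lit 5) (nat_lit 15) (nat_lit 5) (nat_lit 388) (nat_lit 315) (nat_lit 185)))) (XT.nd (nat_lit 94) (nat_lit 0) (nat_lit 0) (XT.lf (nat_lit 0) (nat_lit 1865272112) (nat_lit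 168) (nat_lit 7464673905) (nat_lit 252) (nat_lit 26203575153) (nat_lit 12) (nat_lit 5) (nat_lit 14) (nat_lit 5) (nat_lit 15) (nat_lit 5) (nat_lit 389) (nat_lit 315) (nat_lit 184)) (XT.nd (nat_lit 94) (nat_lit 0) (nat_lit 0) (XT.lf (nat_lit 0) (nat_lit 8594933952) (nat_lit 168) (nat_lit 3038080426) (nat_lit 252) (nat_lit 24833824655) (nat_lit 12) (nat_lit 5) (nat_lit 14) (nat_lit 5) (nat_lit 15) (nat_lit 5) (nat_lit 390) (nat_lit 315) (nat_lit 183)) (XT.lf (nat_lit 0) (nat_lit 14017616657) (nat_lit 252) (nat_lit 21918070573) (nat_lit 84) (nat_lit 1493112868) (nat_lit 12) (nat_lit 5) (nat_lit 15) (nat_lit 5) (nat_lit 13) (nat_lit 5) (nat_lit 391) (nat_lit 315) (nat_lit 182)))))) (XT.nd (nat_lit 564) (nat_lit 168) (nat_lit 0) (XT.nd (nat_lit 282) (nat_lit 168) (nat_lit 0) (XT.nd (nat_lit 94) (nat_lit 0) (nat_lit 0) (XT.lf (nat_lit 0) (nat_lit 16502367556) (nat_lit 252) (nat_lit 15817587940)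 (nat_lit 84) (nat_lit 6099837363) (nat_lit 12) (nat_lit 5) (nat_lit 15) (nat_lit 5) (nat_lit 13) (nat_lit 5) (nat_lit 392) (nat_lit 315) (nat_lit 181)) (XT.nd (nat_lit 94) (nat_lit 0) (nat_lit 0) (XT.lf (nat_lit 0) (nat_lit 19059444991) (nat_lit 252) (nat_lit 9534632761) (nat_lit 84) (nat_lit 10847597559) (nat_lit 12) (nat_lit 5) (nat_lit 15) (nat_lit 5) (nat_lit 13) (nat_lit 5) (nat_lit 393) (nat_lit 315) (nat_lit 180)) (XT.lf (nat_lit 0) (nat_lit 21691232425) (nat_lit 252) (nat_lit 3063348662) (nat_lit 84) (nat_lit 15740818866) (nat_lit 12) (nat_lit 5) (nat_lit 15) (nat_lit 5) (nat_lit 13) (nat_lit 5) (nat_lit 394) (nat_lit 315) (nat_lit 179)))) (XT.nd (nat_lit 94) (nat_lit 0) (nat_lit 0) (XT.lf (nat_lit 0) (nat_lit 3676366870) (nat_lit 168) (nat_lit 20760286104) (nat_lit 252) (nat_lit 17144165423) (nat_lit 10) (nat_lit 5) (nat_lit 12) (nat_lit 5) (nat_lit 13) (nat_lit 5) (nat_lit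 395) (nat_lit 315) (nat_lit 178)) (XT.nd (nat_lit 94) (nat_lit 0) (nat_lit 0) (XT.lf (nat_lit 0) (nat_lit 10683769258) (nat_lit 168) (nat_lit 16611036677) (nat_lit 252) (nat_lit 15404243683) (nat_lit 10) (nat_lit 5) (nat_lit 12) (nat_lit 5) (nat_lit 13) (nat_lit 5) (nat_lit 396) (nat_lit 315) (nat_lit 177)) (XT.lf (nat_lit 0) (nat_lit 17902401404) (nat_lit 168) (nat_lit 12334940347) (nat_lit 252) (nat_lit 13614755596) (nat_lit 10) (nat_lit 5) (nat_lit 12) (nat_lit 5) (nat_lit 13) (nat_lit 5) (nat_lit 397) (nat_lit 315) (nat_lit 176))))) (XT.nd (nat_lit 282) (nat_lit 168) (nat_lit 0) (XT.nd (nat_lit 94) (nat_lit 0) (nat_lit 0) (XT.lf (nat_lit 0) (nat_lit 25338991829) (nat_lit 168) (nat_lit 7928011345) (nat_lit 252) (nat_lit 11774033173) (nat_lit 10) (nat_lit 5) (nat_lit 12) (nat_lit 5) (nat_lit 13) (nat_lit 5) (nat_lit 398) (nat_lit 315) (nat_lit 175)) (XT.nd (nat_lit 94) (nat_lit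 0) (nat_lit 0) (XT.lf (nat_lit 0) (nat_lit 33000472214) (nat_lit 168) (nat_lit 3386141952) (nat_lit 252) (nat_lit 9880360667) (nat_lit 10) (nat_lit 5) (nat_lit 12) (nat_lit 5) (nat_lit 13) (nat_lit 5) (nat_lit 399) (nat_lit 315) (nat_lit 174)) (XT.lf (nat_lit 0) (nat_lit 39611928112) (nat_lit 252) (nat_lit 6649917228) (nat_lit 84) (nat_lit 1268811954) (nat_lit 10) (nat_lit 5) (nat_lit 13) (nat_lit 5) (nat_lit 11) (nat_lit 4) (nat_lit 400) (nat_lit 315) (nat_lit 173)))) (XT.nd (nat_lit 188) (nat_lit 84) (nat_lit 0) (XT.nd (nat_lit 94) (nat_lit 0) (nat_lit 0) (XT.lf (nat_lit 0) (nat_lit 134430175) (nat_lit 84) (nat_lit 42835012030) (nat_lit 168) (nat_lit 5863091195) (nat_lit 9) (nat_lit 5) (nat_lit 10) (nat_lit 5) (nat_lit 11) (nat_lit 4) (nat_lit 401) (nat_lit 315) (nat_lit 172)) (XT.lf (nat_lit 0) (nat_lit 7264693720) (nat_lit 84) (nat_lit 39232066059) (nat_lit 168) (nat_lit 3675988167)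 (nat_lit 9) (nat_lit 5) (nat_lit 10) (nat_lit 5) (nat_lit 11) (nat_lit 4) (nat_lit 402) (nat_lit 315) (nat_lit 171))) (XT.nd (nat_lit 94) (nat_lit 84) (nat_lit 0) (XT.lf (nat_lit 0) (nat_lit 14610783623) (nat_lit 84) (nat_lit 35519060601) (nat_lit 168) (nat_lit 1424792988) (nat_lit 9) (nat_lit 5) (nat_lit 10) (nat_lit 5) (nat_lit 11) (nat_lit 4) (nat_lit 403) (nat_lit 315) (nat_lit 170)) (XT.lf (nat_lit 0) (nat_lit 874608937) (nat_lit 168) (nat_lit 30808796685) (nat_lit 84) (nat_lit 21295809146) (nat_lit 8) (nat_lit 5) (nat_lit 10) (nat_lit 5) (nat_lit 9) (nat_lit 5) (nat_lit 404) (nat_lit 315) (nat_lit 169))))))) (XT.nd (nat_lit 1222) (nat_lit 84) (nat_lit 0) (XT.nd (nat_lit 564) (nat_lit 0) (nat_lit 0) (XT.nd (nat_lit 282) (nat_lit 168) (nat_lit 0) (XT.nd (nat_lit 94) (nat_lit 0) (nat_lit 0) (XT.lf (nat_lit 0) (nat_lit 3212277897) (nat_lit 168) (nat_lit 24503114283) (nat_lit 84)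 (nat_lit 26732231865) (nat_lit 8) (nat_lit 5) (nat_lit 10) (nat_lit 5) (nat_lit 9) (nat_lit 5) (nat_lit 405) (nat_lit 315) (nat_lit 168)) (XT.nd (nat_lit 94) (nat_lit 0) (nat_lit 0) (XT.lf (nat_lit 0) (nat_lit 5619099244) (nat_lit 168) (nat_lit 18006794703) (nat_lit 84) (nat_lit 32335777961) (nat_lit 8) (nat_lit 5) (nat_lit 10) (nat_lit 5) (nat_lit 9) (nat_lit 5) (nat_lit 406) (nat_lit 315) (nat_lit 167)) (XT.lf (nat_lit 0) (nat_lit 8097316390) (nat_lit 168) (nat_lit 11313782696) (nat_lit 84) (nat_lit 38111670526) (nat_lit 8) (nat_lit 5) (nat_lit 10) (nat_lit 5) (nat_lit 9) (nat_lit 5) (nat_lit 407) (nat_lit 315) (nat_lit 166)))) (XT.nd (nat_lit 94) (nat_lit 168) (nat_lit 0) (XT.lf (nat_lit 0) (nat_lit 10649239291) (nat_lit 168) (nat_lit 4417839673) (nat_lit 84) (nat_lit 44065293297) (nat_lit 8) (nat_lit 5) (nat_lit 10) (nat_lit 5) (nat_lit 9) (nat_lit 5) (nat_lit 408) (nat_lit 315)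 (nat_lit 165)) (XT.nd (nat_lit 94) (nat_lit 0) (nat_lit 0) (XT.lf (nat_lit 0) (nat_lit 2742721839) (nat_lit 168) (nat_lit 10561732909) (nat_lit 252) (nat_lit 47486681974) (nat_lit 6) (nat_lit 5) (nat_lit 8) (nat_lit 5) (nat_lit 9) (nat_lit 5) (nat_lit 409) (nat_lit 315) (nat_lit 164)) (XT.lf (nat_lit 0) (nat_lit 10214545865) (nat_lit 168) (nat_lit 5870571613) (nat_lit 252) (nat_lit 46414881586) (nat_lit 6) (nat_lit 5) (nat_lit 8) (nat_lit 5) (nat_lit 9) (nat_lit 5) (nat_lit 410) (nat_lit 315) (nat_lit 163))))) (XT.nd (nat_lit 282) (nat_lit 0) (nat_lit 0) (XT.nd (nat_lit 94) (nat_lit 0) (nat_lit 0) (XT.lf (nat_lit 0) (nat_lit 17913757082) (nat_lit 168) (nat_lit 1035335609) (nat_lit 252) (nat_lit 45312845961) (nat_lit 6) (nat_lit 5) (nat_lit 8) (nat_lit 5) (nat_lit 9) (nat_lit 5) (nat_lit 411) (nat_lit 315) (nat_lit 162)) (XT.nd (nat_lit 94) (nat_lit 0) (nat_lit 0) (XT.lf (nat_lit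 0) (nat_lit 21938219343) (nat_lit 252) (nat_lit 40270235268) (nat_lit 84) (nat_lit 3868928935) (nat_lit 6) (nat_lit 5) (nat_lit 9) (nat_lit 5) (nat_lit 7) (nat_lit 4) (nat_lit 412) (nat_lit 315) (nat_lit 161)) (XT.lf (nat_lit 0) (nat_lit 25027868360) (nat_lit 252) (nat_lit 34018533758) (nat_lit 84) (nat_lit 8902473686) (nat_lit 6) (nat_lit 5) (nat_lit 9) (nat_lit 5) (nat_lit 7) (nat_lit 4) (nat_lit 413) (nat_lit 315) (nat_lit 160)))) (XT.nd (nat_lit 188) (nat_lit 0) (nat_lit 0) (XT.nd (nat_lit 94) (nat_lit 0) (nat_lit 0) (XT.lf (nat_lit 0) (nat_lit 28210648962) (nat_lit 252) (nat_lit 27576979143) (nat_lit 84) (nat_lit 14090850137) (nat_lit 6) (nat_lit 5) (nat_lit 9) (nat_lit 5) (nat_lit 7) (nat_lit 4) (nat_lit 414) (nat_lit 315) (nat_lit 159)) (XT.lf (nat_lit 0) (nat_lit 31489527834) (nat_lit 252) (nat_lit 20939567218) (nat_lit 84) (nat_lit 19438894401) (nat_lit 6) (nat_lit 5) (nat_lit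 9) (nat_lit 5) (nat_lit 7) (nat_lit 4) (nat_lit 415) (nat_lit 315) (nat_lit 158))) (XT.nd (nat_lit 94) (nat_lit 0) (nat_lit 0) (XT.lf (nat_lit 0) (nat_lit 34867561235) (nat_lit 252) (nat_lit 14100111220) (nat_lit 84) (nat_lit 24951591413) (nat_lit 6) (nat_lit 5) (nat_lit 9) (nat_lit 5) (nat_lit 7) (nat_lit 4) (nat_lit 416) (nat_lit 315) (nat_lit 157)) (XT.lf (nat_lit 0) (nat_lit 38347897845) (nat_lit 252) (nat_lit 7052236061) (nat_lit 84) (nat_lit 30634079586) (nat_lit 6) (nat_lit 5) (nat_lit 9) (nat_lit 5) (nat_lit 7) (nat_lit 4) (nat_lit 417) (nat_lit 315) (nat_lit 156)))))) (XT.nd (nat_lit 564) (nat_lit 0) (nat_lit 0) (XT.nd (nat_lit 282) (nat_lit 0) (nat_lit 0) (XT.nd (nat_lit 94) (nat_lit 0) (nat_lit 0) (XT.lf (nat_lit 0) (nat_lit 214958553) (nat_lit 84) (nat_lit 41720955565) (nat_lit 168) (nat_lit 36278829456) (nat_lit 5) (nat_lit 5) (nat_lit 6) (nat_lit 5) (nat_lit 7) (nat_lit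 4) (nat_lit 418) (nat_lit 315) (nat_lit 155)) (XT.nd (nat_lit 94) (nat_lit 0) (nat_lit 0) (XT.lf (nat_lit 0) (nat_lit 7853479679) (nat_lit 84) (nat_lit 37852983039) (nat_lit 168) (nat_lit 34754207121) (nat_lit 5) (nat_lit 5) (nat_lit 6) (nat_lit 5) (nat_lit 7) (nat_lit 4) (nat_lit 419) (nat_lit 315) (nat_lit 154)) (XT.lf (nat_lit 0) (nat_lit 15725438782) (nat_lit 84) (nat_lit 33866221854) (nat_lit 168) (nat_lit 33184638416) (nat_lit 5) (nat_lit 5) (nat_lit 6) (nat_lit 5) (nat_lit 7) (nat_lit 4) (nat_lit 420) (nat_lit 315) (nat_lit 153)))) (XT.nd (nat_lit 94) (nat_lit 0) (nat_lit 0) (XT.lf (nat_lit 0) (nat_lit 23838173352) (nat_lit 84) (nat_lit 29756955930) (nat_lit 168) (nat_lit 31568660339) (nat_lit 5) (nat_lit 5) (nat_lit 6) (nat_lit 5) (nat_lit 7) (nat_lit 4) (nat_lit 421) (nat_lit 315) (nat_lit 152)) (XT.nd (nat_lit 94) (nat_lit 0) (nat_lit 0) (XT.lf (nat_lit 0) (nat_lit 32199245307)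 (nat_lit 84) (nat_lit 25521355001) (nat_lit 168) (nat_lit 29904766628) (nat_lit 5) (nat_lit 5) (nat_lit 6) (nat_lit 5) (nat_lit 7) (nat_lit 4) (nat_lit 422) (nat_lit 315) (nat_lit 151)) (XT.lf (nat_lit 0) (nat_lit 40816448042) (nat_lit 84) (nat_lit 21155471043) (nat_lit 168) (nat_lit 28191406361) (nat_lit 5) (nat_lit 5) (nat_lit 6) (nat_lit 5) (nat_lit 7) (nat_lit 4) (nat_lit 423) (nat_lit 315) (nat_lit 150))))) (XT.nd (nat_lit 282) (nat_lit 0) (nat_lit 0) (XT.nd (nat_lit 94) (nat_lit 0) (nat_lit 0) (XT.lf (nat_lit 0) (nat_lit 49697813693) (nat_lit 84) (nat_lit 16655234596) (nat_lit 168) (nat_lit 26426982507) (nat_lit 5) (nat_lit 5) (nat_lit 6) (nat_lit 5) (nat_lit 7) (nat_lit 4) (nat_lit 424) (nat_lit 315) (nat_lit 149)) (XT.nd (nat_lit 94) (nat_lit 0) (nat_lit 0) (XT.lf (nat_lit 0) (nat_lit 58851620623) (nat_lit 84) (nat_lit 12016450967) (nat_lit 168) (nat_lit 24609850436) (nat_lit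 5) (nat_lit 5) (nat_lit 6) (nat_lit 5) (nat_lit 7) (nat_lit 4) (nat_lit 425) (nat_lit 315) (nat_lit 148)) (XT.lf (nat_lit 0) (nat_lit 68286401139) (nat_lit 84) (nat_lit 7234796324) (nat_lit 168) (nat_lit 22738316393) (nat_lit 5) (nat_lit 5) (nat_lit 6) (nat_lit 5) (nat_lit 7) (nat_lit 4) (nat_lit 426) (nat_lit 315) (nat_lit 147)))) (XT.nd (nat_lit 45402) (nat_lit 0) (nat_lit 8232) (XT.nd (nat_lit 45308) (nat_lit 0) (nat_lit 8232) (XT.lf (nat_lit 0) (nat_lit 78010949444) (nat_lit 84) (nat_lit 2305813664) (nat_lit 168) (nat_lit 20810635911) (nat_lit 5) (nat_lit 5) (nat_lit 6) (nat_lit 5) (nat_lit 7) (nat_lit 4) (nat_lit 427) (nat_lit 315) (nat_lit 146)) (XT.lf (nat_lit 0) (nat_lit 1119686695) (nat_lit 0) (nat_lit 1119686695) (nat_lit 756) (nat_lit 1956819379) (nat_lit 103) (nat_lit 5) (nat_lit 103) (nat_lit 3) (nat_lit 112) (nat_lit 3) (nat_lit 316) (nat_lit 316) (nat_lit 256))) (XT.nd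 (nat_lit 94) (nat_lit 0) (nat_lit 0) (XT.lf (nat_lit 0) (nat_lit 5124986657) (nat_lit 0) (nat_lit 238125405) (nat_lit 756) (nat_lit 3127473907) (nat_lit 103) (nat_lit 5) (nat_lit 103) (nat_lit 3) (nat_lit 112) (nat_lit 3) (nat_lit 317) (nat_lit 316) (nat_lit 255)) (XT.lf (nat_lit 0) (nat_lit 6260322735) (nat_lit 756) (nat_lit 527749387) (nat_lit 840) (nat_lit 1804476843) (nat_lit 103) (nat_lit 5) (nat_lit 112) (nat_lit 3) (nat_lit 113) (nat_lit 5) (nat_lit 318) (nat_lit 316) (nat_lit 254))))))))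
noncomputable def xc132 : XT := (XT.nd (nat_lit 2350) (nat_lit 2940) (nat_lit 0) (XT.nd (nat_lit 1128) (nat_lit 2688) (nat_lit 0) (XT.nd (nat_lit 564) (nat_lit 0) (nat_lit 84) (XT.nd (nat_lit 282) (nat_lit 0) (nat_lit 84) (XT.nd (nat_lit 94) (nat_lit 840) (nat_lit 0) (XT.lf (nat_lit 84) (nat_lit 2427211661) (nat_lit 0) (nat_lit 4752955712) (nat_lit 840) (nat_lit 1517924674) (nat_lit 104) (nat_lit 5) (nat_lit 103) (nat_lit 5) (nat_lit 113) (nat_lit 5) (nat_lit 319) (nat_lit 316) (nat_lit 253)) (XT.nd (nat_lit 94) (nat_lit 840) (nat_lit 0) (XT.lf (nat_lit 84) (nat_lit 5467810295) (nat_lit 0) (nat_lit 2635315034) (nat_lit 840) (nat_lit 704819984) (nat_lit 104) (nat_lit 5) (nat_lit 103) (nat_lit 5) (nat_lit 113) (nat_lit 5) (nat_lit 320) (nat_lit 316) (nat_lit 252)) (XT.lf (nat_lit 0) (nat_lit 100275250) (nat_lit 840) (nat_lit 337362929) (nat_lit 924) (nat_lit 8484707140) (nat_lit 93)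 (nat_lit 5) (nat_lit 103) (nat_lit 5) (nat_lit 104) (nat_lit 5) (nat_lit 321) (nat_lit 316) (nat_lit 251)))) (XT.nd (nat_lit 94) (nat_lit 0) (nat_lit 0) (XT.lf (nat_lit 0) (nat_lit 932379619) (nat_lit 840) (nat_lit 6268441109) (nat_lit 924) (nat_lit 1838959012) (nat_lit 94) (nat_lit 5) (nat_lit 104) (nat_lit 5) (nat_lit 105) (nat_lit 5) (nat_lit 322) (nat_lit 316) (nat_lit 250)) (XT.nd (nat_lit 94) (nat_lit 0) (nat_lit 0) (XT.lf (nat_lit 0) (nat_lit 1769547730) (nat_lit 840) (nat_lit 3199736968) (nat_lit 924) (nat_lit 4192434654) (nat_lit 94) (nat_lit 5) (nat_lit 104) (nat_lit 5) (nat_lit 105) (nat_lit 5) (nat_lit 323) (nat_lit 316) (nat_lit 249)) (XT.lf (nat_lit 0) (nat_lit 2604768058) (nat_lit 840) (nat_lit 53401872) (nat_lit 924) (nat_lit 6630349435) (nat_lit 94) (nat_lit 5) (nat_lit 104) (nat_lit 5) (nat_lit 105) (nat_lit 5) (nat_lit 324) (nat_lit 316) (nat_lit 248))))) (XT.nd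 (nat_lit 282) (nat_lit 0) (nat_lit 84) (XT.nd (nat_lit 94) (nat_lit 0) (nat_lit 84) (XT.lf (nat_lit 84) (nat_lit 3238750498) (nat_lit 0) (nat_lit 232197424) (nat_lit 924) (nat_lit 5948354054) (nat_lit 95) (nat_lit 5) (nat_lit 94) (nat_lit 5) (nat_lit 105) (nat_lit 5) (nat_lit 325) (nat_lit 316) (nat_lit 247)) (XT.nd (nat_lit 94) (nat_lit 0) (nat_lit 0) (XT.lf (nat_lit 0) (nat_lit 4360732303) (nat_lit 840) (nat_lit 2960461852) (nat_lit 924) (nat_lit 2233247968) (nat_lit 95) (nat_lit 5) (nat_lit 105) (nat_lit 5) (nat_lit 106) (nat_lit 5) (nat_lit 326) (nat_lit 316) (nat_lit 246)) (XT.lf (nat_lit 84) (nat_lit 346681627) (nat_lit 0) (nat_lit 4911704946) (nat_lit 924) (nat_lit 4436192681) (nat_lit 96) (nat_lit 5) (nat_lit 95) (nat_lit 5) (nat_lit 106) (nat_lit 5) (nat_lit 327) (nat_lit 316) (nat_lit 245)))) (XT.nd (nat_lit 94) (nat_lit 0) (nat_lit 84) (XT.lf (nat_lit 84) (nat_lit 3801903782)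 (nat_lit 0) (nat_lit 2387935008) (nat_lit 924) (nat_lit 3649227369) (nat_lit 96) (nat_lit 5) (nat_lit 95) (nat_lit 5) (nat_lit 106) (nat_lit 5) (nat_lit 328) (nat_lit 316) (nat_lit 244)) (XT.nd (nat_lit 94) (nat_lit 0) (nat_lit 0) (XT.lf (nat_lit 0) (nat_lit 7128183122) (nat_lit 840) (nat_lit 2643612546) (nat_lit 924) (nat_lit 217102845) (nat_lit 96) (nat_lit 5) (nat_lit 106) (nat_lit 5) (nat_lit 107) (nat_lit 5) (nat_lit 329) (nat_lit 316) (nat_lit 243)) (XT.lf (nat_lit 84) (nat_lit 830280113) (nat_lit 0) (nat_lit 7274613760) (nat_lit 924) (nat_lit 2038373509) (nat_lit 97) (nat_lit 5) (nat_lit 96) (nat_lit 5) (nat_lit 107) (nat_lit 5) (nat_lit 330) (nat_lit 316) (nat_lit 242)))))) (XT.nd (nat_lit 564) (nat_lit 1176) (nat_lit 0) (XT.nd (nat_lit 282) (nat_lit 924) (nat_lit 0) (XT.nd (nat_lit 94) (nat_lit 840) (nat_lit 0) (XT.lf (nat_lit 84) (nat_lit 4450917844) (nat_lit 0) (nat_lit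 4665711522) (nat_lit 924) (nat_lit 1185819104) (nat_lit 97) (nat_lit 5) (nat_lit 96) (nat_lit 5) (nat_lit 107) (nat_lit 5) (nat_lit 331) (nat_lit 316) (nat_lit 241)) (XT.nd (nat_lit 94) (nat_lit 840) (nat_lit 0) (XT.lf (nat_lit 84) (nat_lit 8167317365) (nat_lit 0) (nat_lit 1970251076) (nat_lit 924) (nat_lit 329851401) (nat_lit 97) (nat_lit 5) (nat_lit 96) (nat_lit 5) (nat_lit 107) (nat_lit 5) (nat_lit 332) (nat_lit 316) (nat_lit 240)) (XT.lf (nat_lit 0) (nat_lit 541472466) (nat_lit 924) (nat_lit 9279135799) (nat_lit 84) (nat_lit 816887185) (nat_lit 86) (nat_lit 5) (nat_lit 97) (nat_lit 5) (nat_lit 87) (nat_lit 5) (nat_lit 333) (nat_lit 316) (nat_lit 239)))) (XT.nd (nat_lit 94) (nat_lit 924) (nat_lit 0) (XT.lf (nat_lit 0) (nat_lit 1456030403) (nat_lit 924) (nat_lit 5674163160) (nat_lit 84) (nat_lit 3681983878) (nat_lit 86) (nat_lit 5) (nat_lit 97) (nat_lit 5) (nat_lit 87) (nat_lit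 5) (nat_lit 334) (nat_lit 316) (nat_lit 238)) (XT.nd (nat_lit 94) (nat_lit 924) (nat_lit 0) (XT.lf (nat_lit 0) (nat_lit 2378250870) (nat_lit 924) (nat_lit 1974205428) (nat_lit 84) (nat_lit 6640608934) (nat_lit 86) (nat_lit 5) (nat_lit 97) (nat_lit 5) (nat_lit 87) (nat_lit 5) (nat_lit 335) (nat_lit 316) (nat_lit 237)) (XT.lf (nat_lit 0) (nat_lit 1861695151) (nat_lit 924) (nat_lit 1465766569) (nat_lit 1008) (nat_lit 7852293197) (nat_lit 75) (nat_lit 5) (nat_lit 86) (nat_lit 5) (nat_lit 87) (nat_lit 5) (nat_lit 336) (nat_lit 316) (nat_lit 236))))) (XT.nd (nat_lit 282) (nat_lit 504) (nat_lit 0) (XT.nd (nat_lit 94) (nat_lit 672) (nat_lit 0) (XT.lf (nat_lit 0) (nat_lit 4322310877) (nat_lit 1008) (nat_lit 5545310536) (nat_lit 84) (nat_lit 1504248438) (nat_lit 75) (nat_lit 5) (nat_lit 87) (nat_lit 5) (nat_lit 76) (nat_lit 5) (nat_lit 337) (nat_lit 316) (nat_lit 235)) (XT.nd (nat_lit 94)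 (nat_lit 672) (nat_lit 0) (XT.lf (nat_lit 0) (nat_lit 5343992572) (nat_lit 1008) (nat_lit 1686973669) (nat_lit 84) (nat_lit 4539234591) (nat_lit 75) (nat_lit 5) (nat_lit 87) (nat_lit 5) (nat_lit 76) (nat_lit 5) (nat_lit 338) (nat_lit 316) (nat_lit 234)) (XT.lf (nat_lit 0) (nat_lit 2321868264) (nat_lit 672) (nat_lit 4080083490) (nat_lit 756) (nat_lit 5372717699) (nat_lit 67) (nat_lit 5) (nat_lit 75) (nat_lit 5) (nat_lit 76) (nat_lit 5) (nat_lit 339) (nat_lit 316) (nat_lit 233)))) (XT.nd (nat_lit 188) (nat_lit 504) (nat_lit 0) (XT.nd (nat_lit 94) (nat_lit 0) (nat_lit 0) (XT.lf (nat_lit 0) (nat_lit 6475024216) (nat_lit 672) (nat_lit 1017262247) (nat_lit 756) (nat_lit 4493331368) (nat_lit 67) (nat_lit 5) (nat_lit 75) (nat_lit 5) (nat_lit 76) (nat_lit 5) (nat_lit 340) (nat_lit 316) (nat_lit 232)) (XT.lf (nat_lit 0) (nat_lit 8620190195) (nat_lit 756) (nat_lit 1483350602) (nat_lit 84) (nat_lit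 2099572300) (nat_lit 67) (nat_lit 5) (nat_lit 76) (nat_lit 5) (nat_lit 68) (nat_lit 5) (nat_lit 341) (nat_lit 316) (nat_lit 231))) (XT.nd (nat_lit 94) (nat_lit 0) (nat_lit 0) (XT.lf (nat_lit 0) (nat_lit 2697215976) (nat_lit 504) (nat_lit 7106063590) (nat_lit 588) (nat_lit 2623564892) (nat_lit 61) (nat_lit 5) (nat_lit 67) (nat_lit 5) (nat_lit 68) (nat_lit 5) (nat_lit 342) (nat_lit 316) (nat_lit 230)) (XT.lf (nat_lit 0) (nat_lit 7023523228) (nat_lit 504) (nat_lit 3998421874) (nat_lit 588) (nat_lit 1635717431) (nat_lit 61) (nat_lit 5) (nat_lit 67) (nat_lit 5) (nat_lit 68) (nat_lit 5) (nat_lit 343) (nat_lit 316) (nat_lit 229))))))) (XT.nd (nat_lit 1222) (nat_lit 1260) (nat_lit 0) (XT.nd (nat_lit 564) (nat_lit 756) (nat_lit 0) (XT.nd (nat_lit 282) (nat_lit 420) (nat_lit 0) (XT.nd (nat_lit 94) (nat_lit 504) (nat_lit 0) (XT.lf (nat_lit 0) (nat_lit 11469102996) (nat_lit 504) (nat_lit 793202141)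 (nat_lit 588) (nat_lit 633942878) (nat_lit 61) (nat_lit 5) (nat_lit 67) (nat_lit 5) (nat_lit 68) (nat_lit 5) (nat_lit 344) (nat_lit 316) (nat_lit 228)) (XT.nd (nat_lit 94) (nat_lit 0) (nat_lit 0) (XT.lf (nat_lit 0) (nat_lit 429519117) (nat_lit 504) (nat_lit 10216127364) (nat_lit 84) (nat_lit 2495368474) (nat_lit 55) (nat_lit 5) (nat_lit 61) (nat_lit 5) (nat_lit 56) (nat_lit 5) (nat_lit 345) (nat_lit 316) (nat_lit 227)) (XT.lf (nat_lit 0) (nat_lit 1520413471) (nat_lit 504) (nat_lit 5980841842) (nat_lit 84) (nat_lit 5891780234) (nat_lit 55) (nat_lit 5) (nat_lit 61) (nat_lit 5) (nat_lit 56) (nat_lit 5) (nat_lit 346) (nat_lit 316) (nat_lit 226)))) (XT.nd (nat_lit 94) (nat_lit 420) (nat_lit 0) (XT.lf (nat_lit 0) (nat_lit 2630064546) (nat_lit 504) (nat_lit 1629076442) (nat_lit 84) (nat_lit 9394295077) (nat_lit 55) (nat_lit 5) (nat_lit 61) (nat_lit 5) (nat_lit 56) (nat_lit 5) (nat_lit 347)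 (nat_lit 316) (nat_lit 225)) (XT.nd (nat_lit 94) (nat_lit 0) (nat_lit 0) (XT.lf (nat_lit 0) (nat_lit 2901687674) (nat_lit 420) (nat_lit 886604079) (nat_lit 504) (nat_lit 10133275139) (nat_lit 50) (nat_lit 5) (nat_lit 55) (nat_lit 5) (nat_lit 56) (nat_lit 5) (nat_lit 348) (nat_lit 316) (nat_lit 224)) (XT.lf (nat_lit 0) (nat_lit 5010990885) (nat_lit 504) (nat_lit 6630675416) (nat_lit 84) (nat_lit 2555552352) (nat_lit 50) (nat_lit 5) (nat_lit 56) (nat_lit 5) (nat_lit 51) (nat_lit 5) (nat_lit 349) (nat_lit 316) (nat_lit 223))))) (XT.nd (nat_lit 282) (nat_lit 420) (nat_lit 0) (XT.nd (nat_lit 94) (nat_lit 336) (nat_lit 0) (XT.lf (nat_lit 0) (nat_lit 6266782663) (nat_lit 504) (nat_lit 2128792312) (nat_lit 84) (nat_lit 6086081396) (nat_lit 50) (nat_lit 5) (nat_lit 56) (nat_lit 5) (nat_lit 51) (nat_lit 5) (nat_lit 350) (nat_lit 316) (nat_lit 222)) (XT.nd (nat_lit 94) (nat_lit 0) (nat_lit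 0) (XT.lf (nat_lit 0) (nat_lit 2550141203) (nat_lit 336) (nat_lit 5023198906) (nat_lit 420) (nat_lit 7201293486) (nat_lit 46) (nat_lit 5) (nat_lit 50) (nat_lit 5) (nat_lit 51) (nat_lit 5) (nat_lit 351) (nat_lit 316) (nat_lit 221)) (XT.lf (nat_lit 0) (nat_lit 7405503912) (nat_lit 336) (nat_lit 1523923950) (nat_lit 420) (nat_lit 6147071600) (nat_lit 46) (nat_lit 5) (nat_lit 50) (nat_lit 5) (nat_lit 51) (nat_lit 5) (nat_lit 352) (nat_lit 316) (nat_lit 220)))) (XT.nd (nat_lit 188) (nat_lit 0) (nat_lit 0) (XT.nd (nat_lit 94) (nat_lit 420) (nat_lit 0) (XT.lf (nat_lit 0) (nat_lit 10335424332) (nat_lit 420) (nat_lit 3010820780) (nat_lit 84) (nat_lit 2041317680) (nat_lit 46) (nat_lit 5) (nat_lit 51) (nat_lit 5) (nat_lit 47) (nat_lit 5) (nat_lit 353) (nat_lit 316) (nat_lit 219)) (XT.lf (nat_lit 0) (nat_lit 1801128534) (nat_lit 420) (nat_lit 10004914818) (nat_lit 504) (nat_lit 3901654677) (nat_lit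 41) (nat_lit 5) (nat_lit 46) (nat_lit 5) (nat_lit 47) (nat_lit 5) (nat_lit 354) (nat_lit 316) (nat_lit 218))) (XT.nd (nat_lit 94) (nat_lit 0) (nat_lit 0) (XT.lf (nat_lit 0) (nat_lit 6812818252) (nat_lit 420) (nat_lit 6528685020) (nat_lit 504) (nat_lit 2695736025) (nat_lit 41) (nat_lit 5) (nat_lit 46) (nat_lit 5) (nat_lit 47) (nat_lit 5) (nat_lit 355) (nat_lit 316) (nat_lit 217)) (XT.lf (nat_lit 0) (nat_lit 11967011141) (nat_lit 420) (nat_lit 2945742304) (nat_lit 504) (nat_lit 1464685257) (nat_lit 41) (nat_lit 5) (nat_lit 46) (nat_lit 5) (nat_lit 47) (nat_lit 5) (nat_lit 356) (nat_lit 316) (nat_lit 216)))))) (XT.nd (nat_lit 564) (nat_lit 504) (nat_lit 0) (XT.nd (nat_lit 282) (nat_lit 336) (nat_lit 0) (XT.nd (nat_lit 94) (nat_lit 84) (nat_lit 0) (XT.lf (nat_lit 0) (nat_lit 543434252) (nat_lit 336) (nat_lit 15990627966) (nat_lit 420) (nat_lit 194154208) (nat_lit 37) (nat_lit 5) (nat_lit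 41) (nat_lit 5) (nat_lit 42) (nat_lit 5) (nat_lit 357) (nat_lit 316) (nat_lit 215)) (XT.nd (nat_lit 94) (nat_lit 0) (nat_lit 0) (XT.lf (nat_lit 0) (nat_lit 1158486567) (nat_lit 420) (nat_lit 11398809631) (nat_lit 84) (nat_lit 4530277234) (nat_lit 36) (nat_lit 5) (nat_lit 41) (nat_lit 5) (nat_lit 37) (nat_lit 5) (nat_lit 358) (nat_lit 316) (nat_lit 214)) (XT.lf (nat_lit 0) (nat_lit 2537938620) (nat_lit 420) (nat_lit 6479130471) (nat_lit 84) (nat_lit 8441351080) (nat_lit 36) (nat_lit 5) (nat_lit 41) (nat_lit 5) (nat_lit 37) (nat_lit 5) (nat_lit 359) (nat_lit 316) (nat_lit 213)))) (XT.nd (nat_lit 94) (nat_lit 336) (nat_lit 0) (XT.lf (nat_lit 0) (nat_lit 3949399517) (nat_lit 420) (nat_lit 1419233005) (nat_lit 84) (nat_lit 12472529494) (nat_lit 36) (nat_lit 5) (nat_lit 41) (nat_lit 5) (nat_lit 37) (nat_lit 5) (nat_lit 360) (nat_lit 316) (nat_lit 212)) (XT.nd (nat_lit 94) (nat_lit 0) (nat_lit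 0) (XT.lf (nat_lit 0) (nat_lit 3863438804) (nat_lit 336) (nat_lit 1569071876) (nat_lit 420) (nat_lit 12802456945) (nat_lit 32) (nat_lit 5) (nat_lit 36) (nat_lit 5) (nat_lit 37) (nat_lit 5) (nat_lit 361) (nat_lit 316) (nat_lit 211)) (XT.lf (nat_lit 0) (nat_lit 6989609063) (nat_lit 420) (nat_lit 9336173009) (nat_lit 84) (nat_lit 2314392402) (nat_lit 32) (nat_lit 5) (nat_lit 37) (nat_lit 5) (nat_lit 33) (nat_lit 5) (nat_lit 362) (nat_lit 316) (nat_lit 210))))) (XT.nd (nat_lit 282) (nat_lit 252) (nat_lit 0) (XT.nd (nat_lit 94) (nat_lit 252) (nat_lit 0) (XT.lf (nat_lit 0) (nat_lit 8601083801) (nat_lit 420) (nat_lit 4172568086) (nat_lit 84) (nat_lit 6284161301) (nat_lit 32) (nat_lit 5) (nat_lit 37) (nat_lit 5) (nat_lit 33) (nat_lit 5) (nat_lit 363) (nat_lit 316) (nat_lit 209)) (XT.nd (nat_lit 94) (nat_lit 0) (nat_lit 0) (XT.lf (nat_lit 0) (nat_lit 1163098190) (nat_lit 252) (nat_lit 9101311455)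 (nat_lit 336) (nat_lit 9223988251) (nat_lit 29) (nat_lit 5) (nat_lit 32) (nat_lit 5) (nat_lit 33) (nat_lit 5) (nat_lit 364) (nat_lit 316) (nat_lit 208)) (XT.lf (nat_lit 0) (nat_lit 6741298002) (nat_lit 252) (nat_lit 5272088514) (nat_lit 336) (nat_lit 7917943700) (nat_lit 29) (nat_lit 5) (nat_lit 32) (nat_lit 5) (nat_lit 33) (nat_lit 5) (nat_lit 365) (nat_lit 316) (nat_lit 207)))) (XT.nd (nat_lit 188) (nat_lit 252) (nat_lit 0) (XT.nd (nat_lit 94) (nat_lit 0) (nat_lit 0) (XT.lf (nat_lit 0) (nat_lit 12481434256) (nat_lit 252) (nat_lit 1325966880) (nat_lit 336) (nat_lit 6580931417) (nat_lit 29) (nat_lit 5) (nat_lit 32) (nat_lit 5) (nat_lit 33) (nat_lit 5) (nat_lit 366) (nat_lit 316) (nat_lit 206)) (XT.lf (nat_lit 0) (nat_lit 15675314112) (nat_lit 336) (nat_lit 2498161917) (nat_lit 84) (nat_lit 2685512011) (nat_lit 29) (nat_lit 5) (nat_lit 33) (nat_lit 5) (nat_lit 30) (nat_lit 5) (nat_lit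 367) (nat_lit 316) (nat_lit 205))) (XT.nd (nat_lit 94) (nat_lit 0) (nat_lit 0) (XT.lf (nat_lit 0) (nat_lit 3116842098) (nat_lit 252) (nat_lit 14520117653) (nat_lit 336) (nat_lit 3706214740) (nat_lit 26) (nat_lit 5) (nat_lit 29) (nat_lit 5) (nat_lit 30) (nat_lit 5) (nat_lit 368) (nat_lit 316) (nat_lit 204)) (XT.lf (nat_lit 0) (nat_lit 8948339578) (nat_lit 252) (nat_lit 10728654616) (nat_lit 336) (nat_lit 2164881363) (nat_lit 26) (nat_lit 5) (nat_lit 29) (nat_lit 5) (nat_lit 30) (nat_lit 5) (nat_lit 369) (nat_lit 316) (nat_lit 203))))))))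
noncomputable def xc133 : XT := (XT.nd (nat_lit 2350) (nat_lit 588) (nat_lit 0) (XT.nd (nat_lit 1128) (nat_lit 420) (nat_lit 0) (XT.nd (nat_lit 564) (nat_lit 420) (nat_lit 0) (XT.nd (nat_lit 282) (nat_lit 0) (nat_lit 0) (XT.nd (nat_lit 94) (nat_lit 336) (nat_lit 0) (XT.lf (nat_lit 0) (nat_lit 14950398757) (nat_lit 252) (nat_lit 6821628566) (nat_lit 336) (nat_lit 584312800) (nat_lit 26) (nat_lit 5) (nat_lit 29) (nat_lit 5) (nat_lit 30) (nat_lit 5) (nat_lit 370) (nat_lit 316) (nat_lit 202)) (XT.nd (nat_lit 94) (nat_lit 252) (nat_lit 0) (XT.lf (nat_lit 0) (nat_lit 1016071685) (nat_lit 336) (nat_lit 1768720355) (nat_lit 84) (nat_lit 20101936792) (nat_lit 25) (nat_lit 5) (nat_lit 29) (nat_lit 5) (nat_lit 26) (nat_lit 5) (nat_lit 371) (nat_lit 316) (nat_lit 201)) (XT.lf (nat_lit 0) (nat_lit 2700947807) (nat_lit 336) (nat_lit 19336243804) (nat_lit 84) (nat_lit 1394769212) (nat_lit 22) (nat_lit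 5) (nat_lit 26) (nat_lit 5) (nat_lit 23) (nat_lit 5) (nat_lit 372) (nat_lit 316) (nat_lit 200)))) (XT.nd (nat_lit 94) (nat_lit 0) (nat_lit 0) (XT.lf (nat_lit 0) (nat_lit 4477430492) (nat_lit 336) (nat_lit 13852724752) (nat_lit 84) (nat_lit 5662761830) (nat_lit 22) (nat_lit 5) (nat_lit 26) (nat_lit 5) (nat_lit 23) (nat_lit 5) (nat_lit 373) (nat_lit 316) (nat_lit 199)) (XT.nd (nat_lit 94) (nat_lit 0) (nat_lit 0) (XT.lf (nat_lit 0) (nat_lit 6301460276) (nat_lit 336) (nat_lit 8208895820) (nat_lit 84) (nat_lit 10061181533) (nat_lit 22) (nat_lit 5) (nat_lit 26) (nat_lit 5) (nat_lit 23) (nat_lit 5) (nat_lit 374) (nat_lit 316) (nat_lit 198)) (XT.lf (nat_lit 0) (nat_lit 8174737348) (nat_lit 336) (nat_lit 2399496367) (nat_lit 84) (nat_lit 14594128110) (nat_lit 22) (nat_lit 5) (nat_lit 26) (nat_lit 5) (nat_lit 23) (nat_lit 5) (nat_lit 375) (nat_lit 316) (nat_lit 197))))) (XT.nd (nat_lit 282)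 (nat_lit 168) (nat_lit 0) (XT.nd (nat_lit 94) (nat_lit 0) (nat_lit 0) (XT.lf (nat_lit 0) (nat_lit 3654518987) (nat_lit 252) (nat_lit 6480742089) (nat_lit 336) (nat_lit 15647561034) (nat_lit 19) (nat_lit 5) (nat_lit 22) (nat_lit 5) (nat_lit 23) (nat_lit 5) (nat_lit 376) (nat_lit 316) (nat_lit 196)) (XT.nd (nat_lit 94) (nat_lit 0) (nat_lit 0) (XT.lf (nat_lit 0) (nat_lit 9938063175) (nat_lit 252) (nat_lit 2236588884) (nat_lit 336) (nat_lit 14241155580) (nat_lit 19) (nat_lit 5) (nat_lit 22) (nat_lit 5) (nat_lit 23) (nat_lit 5) (nat_lit 377) (nat_lit 316) (nat_lit 195)) (XT.lf (nat_lit 0) (nat_lit 14291719133) (nat_lit 336) (nat_lit 10682207599) (nat_lit 84) (nat_lit 2094077544) (nat_lit 19) (nat_lit 5) (nat_lit 23) (nat_lit 5) (nat_lit 20) (nat_lit 5) (nat_lit 378) (nat_lit 316) (nat_lit 194)))) (XT.nd (nat_lit 94) (nat_lit 168) (nat_lit 0) (XT.lf (nat_lit 0) (nat_lit 16490728255) (nat_lit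 336) (nat_lit 4738583112) (nat_lit 84) (nat_lit 6510637496) (nat_lit 19) (nat_lit 5) (nat_lit 23) (nat_lit 5) (nat_lit 20) (nat_lit 5) (nat_lit 379) (nat_lit 316) (nat_lit 193)) (XT.nd (nat_lit 94) (nat_lit 0) (nat_lit 0) (XT.lf (nat_lit 0) (nat_lit 1409249552) (nat_lit 168) (nat_lit 17356272274) (nat_lit 252) (nat_lit 9667000325) (nat_lit 17) (nat_lit 5) (nat_lit 19) (nat_lit 5) (nat_lit 20) (nat_lit 5) (nat_lit 380) (nat_lit 316) (nat_lit 192)) (XT.lf (nat_lit 0) (nat_lit 7839768504) (nat_lit 168) (nat_lit 13314270341) (nat_lit 252) (nat_lit 7991220467) (nat_lit 17) (nat_lit 5) (nat_lit 19) (nat_lit 5) (nat_lit 20) (nat_lit 5) (nat_lit 381) (nat_lit 316) (nat_lit 191)))))) (XT.nd (nat_lit 564) (nat_lit 168) (nat_lit 0) (XT.nd (nat_lit 282) (nat_lit 252) (nat_lit 0) (XT.nd (nat_lit 94) (nat_lit 0) (nat_lit 0) (XT.lf (nat_lit 0) (nat_lit 14461532673) (nat_lit 168) (nat_lit 9148999087)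 (nat_lit 252) (nat_lit 6269780120) (nat_lit 17) (nat_lit 5) (nat_lit 19) (nat_lit 5) (nat_lit 20) (nat_lit 5) (nat_lit 382) (nat_lit 316) (nat_lit 190)) (XT.nd (nat_lit 94) (nat_lit 0) (nat_lit 0) (XT.lf (nat_lit 0) (nat_lit 21280714237) (nat_lit 168) (nat_lit 4856576045) (nat_lit 252) (nat_lit 4501074723) (nat_lit 17) (nat_lit 5) (nat_lit 19) (nat_lit 5) (nat_lit 20) (nat_lit 5) (nat_lit 383) (nat_lit 316) (nat_lit 189)) (XT.lf (nat_lit 0) (nat_lit 28303669388) (nat_lit 168) (nat_lit 433000227) (nat_lit 252) (nat_lit 2683455657) (nat_lit 17) (nat_lit 5) (nat_lit 19) (nat_lit 5) (nat_lit 20) (nat_lit 5) (nat_lit 384) (nat_lit 316) (nat_lit 188)))) (XT.nd (nat_lit 94) (nat_lit 84) (nat_lit 0) (XT.lf (nat_lit 0) (nat_lit 3336925548) (nat_lit 168) (nat_lit 28148198775) (nat_lit 252) (nat_lit 738902055) (nat_lit 15) (nat_lit 5) (nat_lit 17) (nat_lit 5) (nat_lit 18) (nat_lit 5) (nat_lit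 385) (nat_lit 316) (nat_lit 187)) (XT.nd (nat_lit 94) (nat_lit 0) (nat_lit 0) (XT.lf (nat_lit 0) (nat_lit 1272170861) (nat_lit 252) (nat_lit 23020370423) (nat_lit 84) (nat_lit 8758961622) (nat_lit 14) (nat_lit 5) (nat_lit 17) (nat_lit 5) (nat_lit 15) (nat_lit 5) (nat_lit 386) (nat_lit 316) (nat_lit 186)) (XT.lf (nat_lit 0) (nat_lit 3324858280) (nat_lit 252) (nat_lit 16986738851) (nat_lit 84) (nat_lit 13592993597) (nat_lit 14) (nat_lit 5) (nat_lit 17) (nat_lit 5) (nat_lit 15) (nat_lit 5) (nat_lit 387) (nat_lit 316) (nat_lit 185))))) (XT.nd (nat_lit 282) (nat_lit 0) (nat_lit 0) (XT.nd (nat_lit 94) (nat_lit 168) (nat_lit 0) (XT.lf (nat_lit 0) (nat_lit 5435960749) (nat_lit 252) (nat_lit 10773252138) (nat_lit 84) (nat_lit 18575099353) (nat_lit 14) (nat_lit 5) (nat_lit 17) (nat_lit 5) (nat_lit 15) (nat_lit 5) (nat_lit 388) (nat_lit 316) (nat_lit 184)) (XT.nd (nat_lit 94) (nat_lit 168)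 (nat_lit 0) (XT.lf (nat_lit 0) (nat_lit 7607446039) (nat_lit 252) (nat_lit 4374118664) (nat_lit 84) (nat_lit 23709922734) (nat_lit 14) (nat_lit 5) (nat_lit 17) (nat_lit 5) (nat_lit 15) (nat_lit 5) (nat_lit 389) (nat_lit 316) (nat_lit 183)) (XT.lf (nat_lit 0) (nat_lit 2262204615) (nat_lit 168) (nat_lit 7601574936) (nat_lit 252) (nat_lit 26762486668) (nat_lit 12) (nat_lit 5) (nat_lit 14) (nat_lit 5) (nat_lit 15) (nat_lit 5) (nat_lit 390) (nat_lit 316) (nat_lit 182)))) (XT.nd (nat_lit 188) (nat_lit 0) (nat_lit 0) (XT.nd (nat_lit 94) (nat_lit 0) (nat_lit 0) (XT.lf (nat_lit 0) (nat_lit 9190289676) (nat_lit 168) (nat_lit 3040598591) (nat_lit 252) (nat_lit 25357893089) (nat_lit 12) (nat_lit 5) (nat_lit 14) (nat_lit 5) (nat_lit 15) (nat_lit 5) (nat_lit 391) (nat_lit 316) (nat_lit 181)) (XT.lf (nat_lit 0) (nat_lit 14683161556) (nat_lit 252) (nat_lit 22271116447) (nat_lit 84) (nat_lit 1626514339)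 (nat_lit 12) (nat_lit 5) (nat_lit 15) (nat_lit 5) (nat_lit 13) (nat_lit 5) (nat_lit 392) (nat_lit 316) (nat_lit 180))) (XT.nd (nat_lit 94) (nat_lit 0) (nat_lit 0) (XT.lf (nat_lit 0) (nat_lit 17237994086) (nat_lit 252) (nat_lit 15991333444) (nat_lit 84) (nat_lit 6373427930) (nat_lit 12) (nat_lit 5) (nat_lit 15) (nat_lit 5) (nat_lit 13) (nat_lit 5) (nat_lit 393) (nat_lit 316) (nat_lit 179)) (XT.lf (nat_lit 0) (nat_lit 19867604115) (nat_lit 252) (nat_lit 9523126141) (nat_lit 84) (nat_lit 11265828087) (nat_lit 12) (nat_lit 5) (nat_lit 15) (nat_lit 5) (nat_lit 13) (nat_lit 5) (nat_lit 394) (nat_lit 316) (nat_lit 178))))))) (XT.nd (nat_lit 1222) (nat_lit 252) (nat_lit 0) (XT.nd (nat_lit 564) (nat_lit 168) (nat_lit 0) (XT.nd (nat_lit 282) (nat_lit 0) (nat_lit 0) (XT.nd (nat_lit 94) (nat_lit 168) (nat_lit 0) (XT.lf (nat_lit 0) (nat_lit 22574442715) (nat_lit 252) (nat_lit 2860465492) (nat_lit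 84) (nat_lit 16308275040) (nat_lit 12) (nat_lit 5) (nat_lit 15) (nat_lit 5) (nat_lit 13) (nat_lit 5) (nat_lit 395) (nat_lit 316) (nat_lit 177)) (XT.nd (nat_lit 94) (nat_lit 0) (nat_lit 0) (XT.lf (nat_lit 0) (nat_lit 4085165788) (nat_lit 168) (nat_lit 21316392505) (nat_lit 252) (nat_lit 17460828439) (nat_lit 10) (nat_lit 5) (nat_lit 12) (nat_lit 5) (nat_lit 13) (nat_lit 5) (nat_lit 396) (nat_lit 316) (nat_lit 176)) (XT.lf (nat_lit 0) (nat_lit 11300932687) (nat_lit 168) (nat_lit 17041146157) (nat_lit 252) (nat_lit 15673427893) (nat_lit 10) (nat_lit 5) (nat_lit 12) (nat_lit 5) (nat_lit 13) (nat_lit 5) (nat_lit 397) (nat_lit 316) (nat_lit 175)))) (XT.nd (nat_lit 94) (nat_lit 0) (nat_lit 0) (XT.lf (nat_lit 0) (nat_lit 18734744016) (nat_lit 168) (nat_lit 12635041581) (nat_lit 252) (nat_lit 13834730242) (nat_lit 10) (nat_lit 5) (nat_lit 12) (nat_lit 5) (nat_lit 13) (nat_lit 5) (nat_lit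 398) (nat_lit 316) (nat_lit 174)) (XT.nd (nat_lit 94) (nat_lit 0) (nat_lit 0) (XT.lf (nat_lit 0) (nat_lit 26393528867) (nat_lit 168) (nat_lit 8093971824) (nat_lit 252) (nat_lit 11943021628) (nat_lit 10) (nat_lit 5) (nat_lit 12) (nat_lit 5) (nat_lit 13) (nat_lit 5) (nat_lit 399) (nat_lit 316) (nat_lit 173)) (XT.lf (nat_lit 0) (nat_lit 34284426029) (nat_lit 168) (nat_lit 3413704134) (nat_lit 252) (nat_lit 9996538779) (nat_lit 10) (nat_lit 5) (nat_lit 12) (nat_lit 5) (nat_lit 13) (nat_lit 5) (nat_lit 400) (nat_lit 316) (nat_lit 172))))) (XT.nd (nat_lit 282) (nat_lit 84) (nat_lit 0) (XT.nd (nat_lit 94) (nat_lit 84) (nat_lit 0) (XT.lf (nat_lit 0) (nat_lit 41018655262) (nat_lit 252) (nat_lit 6597331987) (nat_lit 84) (nat_lit 1381713132) (nat_lit 10) (nat_lit 5) (nat_lit 13) (nat_lit 5) (nat_lit 11) (nat_lit 4) (nat_lit 401) (nat_lit 316) (nat_lit 171)) (XT.nd (nat_lit 94) (nat_lit 0) (nat_lit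 0) (XT.lf (nat_lit 0) (nat_lit 394710749) (nat_lit 84) (nat_lit 44082707359) (nat_lit 168) (nat_lit 5862630429) (nat_lit 9) (nat_lit 5) (nat_lit 10) (nat_lit 5) (nat_lit 11) (nat_lit 4) (nat_lit 402) (nat_lit 316) (nat_lit 170)) (XT.lf (nat_lit 0) (nat_lit 7738311679) (nat_lit 84) (nat_lit 40370481209) (nat_lit 168) (nat_lit 3613206077) (nat_lit 9) (nat_lit 5) (nat_lit 10) (nat_lit 5) (nat_lit 11) (nat_lit 4) (nat_lit 403) (nat_lit 316) (nat_lit 169)))) (XT.nd (nat_lit 188) (nat_lit 0) (nat_lit 0) (XT.nd (nat_lit 94) (nat_lit 84) (nat_lit 0) (XT.lf (nat_lit 0) (nat_lit 15304661128) (nat_lit 84) (nat_lit 36544711229) (nat_lit 168) (nat_lit 1297537979) (nat_lit 9) (nat_lit 5) (nat_lit 10) (nat_lit 5) (nat_lit 11) (nat_lit 4) (nat_lit 404) (nat_lit 316) (nat_lit 168)) (XT.lf (nat_lit 0) (nat_lit 1064641105) (nat_lit 168) (nat_lit 31526077628) (nat_lit 84) (nat_lit 22025057954) (nat_lit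 8) (nat_lit 5) (nat_lit 10) (nat_lit 5) (nat_lit 9) (nat_lit 5) (nat_lit 405) (nat_lit 316) (nat_lit 167))) (XT.nd (nat_lit 94) (nat_lit 0) (nat_lit 0) (XT.lf (nat_lit 0) (nat_lit 3469879161) (nat_lit 168) (nat_lit 25032068969) (nat_lit 84) (nat_lit 27627932726) (nat_lit 8) (nat_lit 5) (nat_lit 10) (nat_lit 5) (nat_lit 9) (nat_lit 5) (nat_lit 406) (nat_lit 316) (nat_lit 166)) (XT.lf (nat_lit 0) (nat_lit 5946560622) (nat_lit 168) (nat_lit 18341298398) (nat_lit 84) (nat_lit 33403174152) (nat_lit 8) (nat_lit 5) (nat_lit 10) (nat_lit 5) (nat_lit 9) (nat_lit 5) (nat_lit 407) (nat_lit 316) (nat_lit 165)))))) (XT.nd (nat_lit 564) (nat_lit 84) (nat_lit 0) (XT.nd (nat_lit 282) (nat_lit 0) (nat_lit 0) (XT.nd (nat_lit 94) (nat_lit 168) (nat_lit 0) (XT.lf (nat_lit 0) (nat_lit 8496994014) (nat_lit 168) (nat_lit 11447529415) (nat_lit 84) (nat_lit 39356165362) (nat_lit 8) (nat_lit 5) (nat_lit 10)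 (nat_lit 5) (nat_lit 9) (nat_lit 5) (nat_lit 408) (nat_lit 316) (nat_lit 164)) (XT.nd (nat_lit 94) (nat_lit 168) (nat_lit 0) (XT.lf (nat_lit 0) (nat_lit 11123556608) (nat_lit 168) (nat_lit 4344336306) (nat_lit 84) (nat_lit 45492455167) (nat_lit 8) (nat_lit 5) (nat_lit 10) (nat_lit 5) (nat_lit 9) (nat_lit 5) (nat_lit 409) (nat_lit 316) (nat_lit 163)) (XT.lf (nat_lit 0) (nat_lit 3036071931) (nat_lit 168) (nat_lit 10822742913) (nat_lit 252) (nat_lit 48811809511) (nat_lit 6) (nat_lit 5) (nat_lit 8) (nat_lit 5) (nat_lit 9) (nat_lit 5) (nat_lit 410) (nat_lit 316) (nat_lit 162)))) (XT.nd (nat_lit 94) (nat_lit 0) (nat_lit 0) (XT.lf (nat_lit 0) (nat_lit 10733258586) (nat_lit 168) (nat_lit 5988152237) (nat_lit 252) (nat_lit 47711202077) (nat_lit 6) (nat_lit 5) (nat_lit 8) (nat_lit 5) (nat_lit 9) (nat_lit 5) (nat_lit 411) (nat_lit 316) (nat_lit 161)) (XT.nd (nat_lit 94) (nat_lit 0) (nat_lit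 0) (XT.lf (nat_lit 0) (nat_lit 18665069777) (nat_lit 168) (nat_lit 1004960503) (nat_lit 252) (nat_lit 46579289251) (nat_lit 6) (nat_lit 5) (nat_lit 8) (nat_lit 5) (nat_lit 9) (nat_lit 5) (nat_lit 412) (nat_lit 316) (nat_lit 160)) (XT.lf (nat_lit 0) (nat_lit 22748406403) (nat_lit 252) (nat_lit 41324523590) (nat_lit 84) (nat_lit 4048237089) (nat_lit 6) (nat_lit 5) (nat_lit 9) (nat_lit 5) (nat_lit 7) (nat_lit 4) (nat_lit 413) (nat_lit 316) (nat_lit 159))))) (XT.nd (nat_lit 282) (nat_lit 84) (nat_lit 0) (XT.nd (nat_lit 94) (nat_lit 0) (nat_lit 0) (XT.lf (nat_lit 0) (nat_lit 25929922639) (nat_lit 252) (nat_lit 34884855180) (nat_lit 84) (nat_lit 9236036554) (nat_lit 6) (nat_lit 5) (nat_lit 9) (nat_lit 5) (nat_lit 7) (nat_lit 4) (nat_lit 414) (nat_lit 316) (nat_lit 158)) (XT.nd (nat_lit 94) (nat_lit 0) (nat_lit 0) (XT.lf (nat_lit 0) (nat_lit 29207575161) (nat_lit 252) (nat_lit 28249272747)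 (nat_lit 84) (nat_lit 14583521181) (nat_lit 6) (nat_lit 5) (nat_lit 9) (nat_lit 5) (nat_lit 7) (nat_lit 4) (nat_lit 415) (nat_lit 316) (nat_lit 157)) (XT.lf (nat_lit 0) (nat_lit 32584419086) (nat_lit 252) (nat_lit 21411591232) (nat_lit 84) (nat_lit 20095675383) (nat_lit 6) (nat_lit 5) (nat_lit 9) (nat_lit 5) (nat_lit 7) (nat_lit 4) (nat_lit 416) (nat_lit 316) (nat_lit 156)))) (XT.nd (nat_lit 188) (nat_lit 84) (nat_lit 0) (XT.nd (nat_lit 94) (nat_lit 0) (nat_lit 0) (XT.lf (nat_lit 0) (nat_lit 36063601985) (nat_lit 252) (nat_lit 14365437200) (nat_lit 84) (nat_lit 25777637067) (nat_lit 6) (nat_lit 5) (nat_lit 9) (nat_lit 5) (nat_lit 7) (nat_lit 4) (nat_lit 417) (nat_lit 316) (nat_lit 155)) (XT.lf (nat_lit 0) (nat_lit 39648366821) (nat_lit 252) (nat_lit 7104242898) (nat_lit 84) (nat_lit 31634702416) (nat_lit 6) (nat_lit 5) (nat_lit 9) (nat_lit 5) (nat_lit 7) (nat_lit 4) (nat_lit 418)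 (nat_lit 316) (nat_lit 154))) (XT.nd (nat_lit 94) (nat_lit 0) (nat_lit 0) (XT.lf (nat_lit 0) (nat_lit 386547947) (nat_lit 84) (nat_lit 42959341628) (nat_lit 168) (nat_lit 37289617485) (nat_lit 5) (nat_lit 5) (nat_lit 6) (nat_lit 5) (nat_lit 7) (nat_lit 4) (nat_lit 419) (nat_lit 316) (nat_lit 153)) (XT.lf (nat_lit 0) (nat_lit 8256904261) (nat_lit 84) (nat_lit 38973114592) (nat_lit 168) (nat_lit 35721155258) (nat_lit 5) (nat_lit 5) (nat_lit 6) (nat_lit 5) (nat_lit 7) (nat_lit 4) (nat_lit 420) (nat_lit 316) (nat_lit 152))))))))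
noncomputable def xc134 : XT := (XT.nd (nat_lit 47658) (nat_lit 0) (nat_lit 2604) (XT.nd (nat_lit 46436) (nat_lit 0) (nat_lit 6720) (XT.nd (nat_lit 564) (nat_lit 0) (nat_lit 0) (XT.nd (nat_lit 282) (nat_lit 0) (nat_lit 0) (XT.nd (nat_lit 94) (nat_lit 0) (nat_lit 0) (XT.lf (nat_lit 0) (nat_lit 16368084233) (nat_lit 84) (nat_lit 34864366757) (nat_lit 168) (nat_lit 34106250390) (nat_lit 5) (nat_lit 5) (nat_lit 6) (nat_lit 5) (nat_lit 7) (nat_lit 4) (nat_lit 421) (nat_lit 316) (nat_lit 151)) (XT.nd (nat_lit 94) (nat_lit 0) (nat_lit 0) (XT.lf (nat_lit 0) (nat_lit 24727648335) (nat_lit 84) (nat_lit 30629268339) (nat_lit 168) (nat_lit 32443397619) (nat_lit 5) (nat_lit 5) (nat_lit 6) (nat_lit 5) (nat_lit 7) (nat_lit 4) (nat_lit 422) (nat_lit 316) (nat_lit 150)) (XT.lf (nat_lit 0) (nat_lit 33343388555) (nat_lit 84) (nat_lit 26263871783) (nat_lit 168) (nat_lit 30731046993) (nat_lit 5) (nat_lit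 5) (nat_lit 6) (nat_lit 5) (nat_lit 7) (nat_lit 4) (nat_lit 423) (nat_lit 316) (nat_lit 149)))) (XT.nd (nat_lit 94) (nat_lit 0) (nat_lit 0) (XT.lf (nat_lit 0) (nat_lit 42223335665) (nat_lit 84) (nat_lit 21764108082) (nat_lit 168) (nat_lit 28967602421) (nat_lit 5) (nat_lit 5) (nat_lit 6) (nat_lit 5) (nat_lit 7) (nat_lit 4) (nat_lit 424) (nat_lit 316) (nat_lit 148)) (XT.nd (nat_lit 94) (nat_lit 0) (nat_lit 0) (XT.lf (nat_lit 0) (nat_lit 51375766706) (nat_lit 84) (nat_lit 17125782986) (nat_lit 168) (nat_lit 27151420189) (nat_lit 5) (nat_lit 5) (nat_lit 6) (nat_lit 5) (nat_lit 7) (nat_lit 4) (nat_lit 425) (nat_lit 316) (nat_lit 147)) (XT.lf (nat_lit 0) (nat_lit 60809212704) (nat_lit 84) (nat_lit 12344573088) (nat_lit 168) (nat_lit 25280807424) (nat_lit 5) (nat_lit 5) (nat_lit 6) (nat_lit 5) (nat_lit 7) (nat_lit 4) (nat_lit 426) (nat_lit 316) (nat_lit 146))))) (XT.nd (nat_lit 45590) (nat_lit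 0) (nat_lit 7392) (XT.nd (nat_lit 45402) (nat_lit 0) (nat_lit 8232) (XT.lf (nat_lit 0) (nat_lit 70532466618) (nat_lit 84) (nat_lit 7416021800) (nat_lit 168) (nat_lit 23354020520) (nat_lit 5) (nat_lit 5) (nat_lit 6) (nat_lit 5) (nat_lit 7) (nat_lit 4) (nat_lit 427) (nat_lit 316) (nat_lit 145)) (XT.nd (nat_lit 94) (nat_lit 0) (nat_lit 0) (XT.lf (nat_lit 0) (nat_lit 1557827159) (nat_lit 0) (nat_lit 1557827159) (nat_lit 756) (nat_lit 1179055148) (nat_lit 103) (nat_lit 5) (nat_lit 103) (nat_lit 3) (nat_lit 112) (nat_lit 3) (nat_lit 317) (nat_lit 317) (nat_lit 254)) (XT.lf (nat_lit 0) (nat_lit 6066461004) (nat_lit 0) (nat_lit 1028107053) (nat_lit 756) (nat_lit 1597993723) (nat_lit 103) (nat_lit 5) (nat_lit 103) (nat_lit 3) (nat_lit 112) (nat_lit 3) (nat_lit 318) (nat_lit 317) (nat_lit 253)))) (XT.nd (nat_lit 94) (nat_lit 840) (nat_lit 0) (XT.lf (nat_lit 84) (nat_lit 287676332) (nat_lit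 0) (nat_lit 7680177402) (nat_lit 840) (nat_lit 831817986) (nat_lit 104) (nat_lit 5) (nat_lit 103) (nat_lit 5) (nat_lit 113) (nat_lit 5) (nat_lit 319) (nat_lit 317) (nat_lit 252)) (XT.nd (nat_lit 94) (nat_lit 840) (nat_lit 0) (XT.lf (nat_lit 84) (nat_lit 3320082732) (nat_lit 0) (nat_lit 5555967227) (nat_lit 840) (nat_lit 34052457) (nat_lit 104) (nat_lit 5) (nat_lit 103) (nat_lit 5) (nat_lit 113) (nat_lit 5) (nat_lit 320) (nat_lit 317) (nat_lit 251)) (XT.lf (nat_lit 0) (nat_lit 742950120) (nat_lit 840) (nat_lit 2602260079) (nat_lit 924) (nat_lit 5679650588) (nat_lit 93) (nat_lit 5) (nat_lit 103) (nat_lit 5) (nat_lit 104) (nat_lit 5) (nat_lit 321) (nat_lit 317) (nat_lit 250)))))) (XT.nd (nat_lit 564) (nat_lit 672) (nat_lit 0) (XT.nd (nat_lit 282) (nat_lit 0) (nat_lit 84) (XT.nd (nat_lit 94) (nat_lit 0) (nat_lit 84) (XT.lf (nat_lit 84) (nat_lit 470791745) (nat_lit 0) (nat_lit 1048492957)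 (nat_lit 924) (nat_lit 7624848699) (nat_lit 94) (nat_lit 5) (nat_lit 93) (nat_lit 5) (nat_lit 104) (nat_lit 5) (nat_lit 322) (nat_lit 317) (nat_lit 249)) (XT.nd (nat_lit 94) (nat_lit 0) (nat_lit 0) (XT.lf (nat_lit 0) (nat_lit 2332314561) (nat_lit 840) (nat_lit 5602852226) (nat_lit 924) (nat_lit 1331760555) (nat_lit 94) (nat_lit 5) (nat_lit 104) (nat_lit 5) (nat_lit 105) (nat_lit 5) (nat_lit 323) (nat_lit 317) (nat_lit 248)) (XT.lf (nat_lit 0) (nat_lit 3154210862) (nat_lit 840) (nat_lit 2464873958) (nat_lit 924) (nat_lit 3775158434) (nat_lit 94) (nat_lit 5) (nat_lit 104) (nat_lit 5) (nat_lit 105) (nat_lit 5) (nat_lit 324) (nat_lit 317) (nat_lit 247)))) (XT.nd (nat_lit 94) (nat_lit 0) (nat_lit 0) (XT.lf (nat_lit 84) (nat_lit 769421378) (nat_lit 0) (nat_lit 3213549896) (nat_lit 924) (nat_lit 5543314356) (nat_lit 95) (nat_lit 5) (nat_lit 94) (nat_lit 5) (nat_lit 105) (nat_lit 5) (nat_lit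 325) (nat_lit 317) (nat_lit 246)) (XT.nd (nat_lit 94) (nat_lit 0) (nat_lit 84) (XT.lf (nat_lit 84) (nat_lit 4139938185) (nat_lit 0) (nat_lit 697593422) (nat_lit 924) (nat_lit 4825082877) (nat_lit 95) (nat_lit 5) (nat_lit 94) (nat_lit 5) (nat_lit 105) (nat_lit 5) (nat_lit 326) (nat_lit 317) (nat_lit 245)) (XT.lf (nat_lit 0) (nat_lit 5712635585) (nat_lit 840) (nat_lit 2223897028) (nat_lit 924) (nat_lit 1867011913) (nat_lit 95) (nat_lit 5) (nat_lit 105) (nat_lit 5) (nat_lit 106) (nat_lit 5) (nat_lit 327) (nat_lit 317) (nat_lit 244))))) (XT.nd (nat_lit 282) (nat_lit 840) (nat_lit 0) (XT.nd (nat_lit 94) (nat_lit 0) (nat_lit 0) (XT.lf (nat_lit 84) (nat_lit 1177381709) (nat_lit 0) (nat_lit 5432285237) (nat_lit 924) (nat_lit 3339522564) (nat_lit 96) (nat_lit 5) (nat_lit 95) (nat_lit 5) (nat_lit 106) (nat_lit 5) (nat_lit 328) (nat_lit 317) (nat_lit 243)) (XT.nd (nat_lit 94) (nat_lit 0) (nat_lit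 0) (XT.lf (nat_lit 84) (nat_lit 4715061492) (nat_lit 0) (nat_lit 2819203901) (nat_lit 924) (nat_lit 2565270885) (nat_lit 96) (nat_lit 5) (nat_lit 95) (nat_lit 5) (nat_lit 106) (nat_lit 5) (nat_lit 329) (nat_lit 317) (nat_lit 242)) (XT.lf (nat_lit 84) (nat_lit 8346711924) (nat_lit 0) (nat_lit 118065865) (nat_lit 924) (nat_lit 1790645146) (nat_lit 96) (nat_lit 5) (nat_lit 95) (nat_lit 5) (nat_lit 106) (nat_lit 5) (nat_lit 330) (nat_lit 317) (nat_lit 241)))) (XT.nd (nat_lit 188) (nat_lit 924) (nat_lit 0) (XT.nd (nat_lit 94) (nat_lit 0) (nat_lit 0) (XT.lf (nat_lit 84) (nat_lit 1665761782) (nat_lit 0) (nat_lit 7779357156) (nat_lit 924) (nat_lit 970541374) (nat_lit 97) (nat_lit 5) (nat_lit 96) (nat_lit 5) (nat_lit 107) (nat_lit 5) (nat_lit 331) (nat_lit 317) (nat_lit 240)) (XT.lf (nat_lit 84) (nat_lit 5374292016) (nat_lit 0) (nat_lit 5081183079) (nat_lit 924) (nat_lit 125565225) (nat_lit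 97) (nat_lit 5) (nat_lit 96) (nat_lit 5) (nat_lit 107) (nat_lit 5) (nat_lit 332) (nat_lit 317) (nat_lit 239))) (XT.nd (nat_lit 94) (nat_lit 0) (nat_lit 84) (XT.lf (nat_lit 0) (nat_lit 709366535) (nat_lit 924) (nat_lit 1577249069) (nat_lit 1008) (nat_lit 8465513859) (nat_lit 85) (nat_lit 5) (nat_lit 96) (nat_lit 5) (nat_lit 97) (nat_lit 5) (nat_lit 333) (nat_lit 317) (nat_lit 238)) (XT.lf (nat_lit 0) (nat_lit 1574922922) (nat_lit 924) (nat_lit 8742742109) (nat_lit 84) (nat_lit 610738983) (nat_lit 86) (nat_lit 5) (nat_lit 97) (nat_lit 5) (nat_lit 87) (nat_lit 5) (nat_lit 334) (nat_lit 317) (nat_lit 237))))))) (XT.nd (nat_lit 1222) (nat_lit 1596) (nat_lit 0) (XT.nd (nat_lit 564) (nat_lit 1008) (nat_lit 0) (XT.nd (nat_lit 282) (nat_lit 672) (nat_lit 0) (XT.nd (nat_lit 94) (nat_lit 924) (nat_lit 0) (XT.lf (nat_lit 0) (nat_lit 2487263183) (nat_lit 924) (nat_lit 5050792674) (nat_lit 84)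 (nat_lit 3571613540) (nat_lit 86) (nat_lit 5) (nat_lit 97) (nat_lit 5) (nat_lit 87) (nat_lit 5) (nat_lit 335) (nat_lit 317) (nat_lit 236)) (XT.nd (nat_lit 94) (nat_lit 924) (nat_lit 0) (XT.lf (nat_lit 0) (nat_lit 3408422659) (nat_lit 924) (nat_lit 1260168605) (nat_lit 84) (nat_lit 6628706571) (nat_lit 86) (nat_lit 5) (nat_lit 97) (nat_lit 5) (nat_lit 87) (nat_lit 5) (nat_lit 336) (nat_lit 317) (nat_lit 235)) (XT.lf (nat_lit 0) (nat_lit 2686796312) (nat_lit 924) (nat_lit 1679117005) (nat_lit 1008) (nat_lit 7124724648) (nat_lit 75) (nat_lit 5) (nat_lit 86) (nat_lit 5) (nat_lit 87) (nat_lit 5) (nat_lit 337) (nat_lit 317) (nat_lit 234)))) (XT.nd (nat_lit 94) (nat_lit 672) (nat_lit 0) (XT.lf (nat_lit 0) (nat_lit 5361864667) (nat_lit 1008) (nat_lit 4936668441) (nat_lit 84) (nat_lit 1391298543) (nat_lit 75) (nat_lit 5) (nat_lit 87) (nat_lit 5) (nat_lit 76) (nat_lit 5) (nat_lit 338) (nat_lit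 317) (nat_lit 233)) (XT.nd (nat_lit 94) (nat_lit 672) (nat_lit 0) (XT.lf (nat_lit 0) (nat_lit 6387990146) (nat_lit 1008) (nat_lit 982192528) (nat_lit 84) (nat_lit 4525167549) (nat_lit 75) (nat_lit 5) (nat_lit 87) (nat_lit 5) (nat_lit 76) (nat_lit 5) (nat_lit 339) (nat_lit 317) (nat_lit 232)) (XT.lf (nat_lit 0) (nat_lit 3143258777) (nat_lit 672) (nat_lit 4316511903) (nat_lit 756) (nat_lit 4647164311) (nat_lit 67) (nat_lit 5) (nat_lit 75) (nat_lit 5) (nat_lit 76) (nat_lit 5) (nat_lit 340) (nat_lit 317) (nat_lit 231))))) (XT.nd (nat_lit 282) (nat_lit 504) (nat_lit 0) (XT.nd (nat_lit 94) (nat_lit 504) (nat_lit 0) (XT.lf (nat_lit 0) (nat_lit 7402629304) (nat_lit 672) (nat_lit 1155437361) (nat_lit 756) (nat_lit 3767340802) (nat_lit 67) (nat_lit 5) (nat_lit 75) (nat_lit 5) (nat_lit 76) (nat_lit 5) (nat_lit 341) (nat_lit 317) (nat_lit 230)) (XT.nd (nat_lit 94) (nat_lit 504) (nat_lit 0) (XT.lf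 (nat_lit 0) (nat_lit 9694847168) (nat_lit 756) (nat_lit 792475368) (nat_lit 84) (nat_lit 2063309452) (nat_lit 67) (nat_lit 5) (nat_lit 76) (nat_lit 5) (nat_lit 68) (nat_lit 5) (nat_lit 342) (nat_lit 317) (nat_lit 229)) (XT.lf (nat_lit 0) (nat_lit 3510228737) (nat_lit 504) (nat_lit 7387341548) (nat_lit 588) (nat_lit 1884429846) (nat_lit 61) (nat_lit 5) (nat_lit 67) (nat_lit 5) (nat_lit 68) (nat_lit 5) (nat_lit 343) (nat_lit 317) (nat_lit 228)))) (XT.nd (nat_lit 188) (nat_lit 420) (nat_lit 0) (XT.nd (nat_lit 94) (nat_lit 84) (nat_lit 0) (XT.lf (nat_lit 0) (nat_lit 7948720020) (nat_lit 504) (nat_lit 4181529098) (nat_lit 588) (nat_lit 890628786) (nat_lit 61) (nat_lit 5) (nat_lit 67) (nat_lit 5) (nat_lit 68) (nat_lit 5) (nat_lit 344) (nat_lit 317) (nat_lit 227)) (XT.lf (nat_lit 0) (nat_lit 115889935) (nat_lit 588) (nat_lit 758069264) (nat_lit 84) (nat_lit 12393741111) (nat_lit 60) (nat_lit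 5) (nat_lit 67) (nat_lit 5) (nat_lit 61) (nat_lit 5) (nat_lit 345) (nat_lit 317) (nat_lit 226))) (XT.nd (nat_lit 94) (nat_lit 0) (nat_lit 0) (XT.lf (nat_lit 0) (nat_lit 1182945679) (nat_lit 504) (nat_lit 9804855083) (nat_lit 84) (nat_lit 2532708569) (nat_lit 55) (nat_lit 5) (nat_lit 61) (nat_lit 5) (nat_lit 56) (nat_lit 5) (nat_lit 346) (nat_lit 317) (nat_lit 225)) (XT.lf (nat_lit 0) (nat_lit 2285404163) (nat_lit 504) (nat_lit 5460164301) (nat_lit 84) (nat_lit 6035612300) (nat_lit 55) (nat_lit 5) (nat_lit 61) (nat_lit 5) (nat_lit 56) (nat_lit 5) (nat_lit 347) (nat_lit 317) (nat_lit 224)))))) (XT.nd (nat_lit 564) (nat_lit 840) (nat_lit 0) (XT.nd (nat_lit 282) (nat_lit 336) (nat_lit 0) (XT.nd (nat_lit 94) (nat_lit 420) (nat_lit 0) (XT.lf (nat_lit 0) (nat_lit 3407869946) (nat_lit 504) (nat_lit 994724623) (nat_lit 84) (nat_lit 9647872132) (nat_lit 55) (nat_lit 5) (nat_lit 61) (nat_lit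 5) (nat_lit 56) (nat_lit 5) (nat_lit 348) (nat_lit 317) (nat_lit 223)) (XT.nd (nat_lit 94) (nat_lit 0) (nat_lit 0) (XT.lf (nat_lit 0) (nat_lit 3669559657) (nat_lit 420) (nat_lit 918232112) (nat_lit 504) (nat_lit 9739697897) (nat_lit 50) (nat_lit 5) (nat_lit 55) (nat_lit 5) (nat_lit 56) (nat_lit 5) (nat_lit 349) (nat_lit 317) (nat_lit 222)) (XT.lf (nat_lit 0) (nat_lit 5827846509) (nat_lit 504) (nat_lit 6153775755) (nat_lit 84) (nat_lit 2630836718) (nat_lit 50) (nat_lit 5) (nat_lit 56) (nat_lit 5) (nat_lit 51) (nat_lit 5) (nat_lit 350) (nat_lit 317) (nat_lit 221)))) (XT.nd (nat_lit 94) (nat_lit 336) (nat_lit 0) (XT.lf (nat_lit 0) (nat_lit 7102677471) (nat_lit 504) (nat_lit 1532854128) (nat_lit 84) (nat_lit 6270930563) (nat_lit 50) (nat_lit 5) (nat_lit 56) (nat_lit 5) (nat_lit 51) (nat_lit 5) (nat_lit 351) (nat_lit 317) (nat_lit 220)) (XT.nd (nat_lit 94) (nat_lit 0) (nat_lit 0) (XT.lf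 (nat_lit 0) (nat_lit 3284424873) (nat_lit 336) (nat_lit 5152520982) (nat_lit 420) (nat_lit 6772099731) (nat_lit 46) (nat_lit 5) (nat_lit 50) (nat_lit 5) (nat_lit 51) (nat_lit 5) (nat_lit 352) (nat_lit 317) (nat_lit 219)) (XT.lf (nat_lit 0) (nat_lit 8270602459) (nat_lit 336) (nat_lit 1545562207) (nat_lit 420) (nat_lit 5704814279) (nat_lit 46) (nat_lit 5) (nat_lit 50) (nat_lit 5) (nat_lit 51) (nat_lit 5) (nat_lit 353) (nat_lit 317) (nat_lit 218))))) (XT.nd (nat_lit 282) (nat_lit 420) (nat_lit 0) (XT.nd (nat_lit 94) (nat_lit 420) (nat_lit 0) (XT.lf (nat_lit 0) (nat_lit 11247654231) (nat_lit 420) (nat_lit 2465779952) (nat_lit 84) (nat_lit 2128931733) (nat_lit 46) (nat_lit 5) (nat_lit 51) (nat_lit 5) (nat_lit 47) (nat_lit 5) (nat_lit 354) (nat_lit 317) (nat_lit 217)) (XT.nd (nat_lit 94) (nat_lit 0) (nat_lit 0) (XT.lf (nat_lit 0) (nat_lit 2488876805) (nat_lit 420) (nat_lit 10263459159)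 (nat_lit 504) (nat_lit 3420562901) (nat_lit 41) (nat_lit 5) (nat_lit 46) (nat_lit 5) (nat_lit 47) (nat_lit 5) (nat_lit 355) (nat_lit 317) (nat_lit 216)) (XT.lf (nat_lit 0) (nat_lit 7636928601) (nat_lit 420) (nat_lit 6681017983) (nat_lit 504) (nat_lit 2195362939) (nat_lit 41) (nat_lit 5) (nat_lit 46) (nat_lit 5) (nat_lit 47) (nat_lit 5) (nat_lit 356) (nat_lit 317) (nat_lit 215)))) (XT.nd (nat_lit 188) (nat_lit 0) (nat_lit 0) (XT.nd (nat_lit 94) (nat_lit 420) (nat_lit 0) (XT.lf (nat_lit 0) (nat_lit 12932472467) (nat_lit 420) (nat_lit 2988509129) (nat_lit 504) (nat_lit 943707470) (nat_lit 41) (nat_lit 5) (nat_lit 46) (nat_lit 5) (nat_lit 47) (nat_lit 5) (nat_lit 357) (nat_lit 317) (nat_lit 214)) (XT.lf (nat_lit 0) (nat_lit 348712269) (nat_lit 420) (nat_lit 16061772151) (nat_lit 84) (nat_lit 816160405) (nat_lit 36) (nat_lit 5) (nat_lit 41) (nat_lit 5) (nat_lit 37) (nat_lit 5) (nat_lit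 358) (nat_lit 317) (nat_lit 213))) (XT.nd (nat_lit 94) (nat_lit 0) (nat_lit 0) (XT.lf (nat_lit 0) (nat_lit 1722869310) (nat_lit 420) (nat_lit 11148145058) (nat_lit 84) (nat_lit 4726673581) (nat_lit 36) (nat_lit 5) (nat_lit 41) (nat_lit 5) (nat_lit 37) (nat_lit 5) (nat_lit 359) (nat_lit 317) (nat_lit 212)) (XT.lf (nat_lit 0) (nat_lit 3129194406) (nat_lit 420) (nat_lit 6094117685) (nat_lit 84) (nat_lit 8757308184) (nat_lit 36) (nat_lit 5) (nat_lit 41) (nat_lit 5) (nat_lit 37) (nat_lit 5) (nat_lit 360) (nat_lit 317) (nat_lit 211))))))))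
noncomputable def xc135 : XT := (XT.nd (nat_lit 2444) (nat_lit 756) (nat_lit 0) (XT.nd (nat_lit 1222) (nat_lit 588) (nat_lit 0) (XT.nd (nat_lit 564) (nat_lit 588) (nat_lit 0) (XT.nd (nat_lit 282) (nat_lit 252) (nat_lit 0) (XT.nd (nat_lit 94) (nat_lit 336) (nat_lit 0) (XT.lf (nat_lit 0) (nat_lit 4568998399) (nat_lit 420) (nat_lit 894979149) (nat_lit 84) (nat_lit 12911821187) (nat_lit 36) (nat_lit 5) (nat_lit 41) (nat_lit 5) (nat_lit 37) (nat_lit 5) (nat_lit 361) (nat_lit 317) (nat_lit 210)) (XT.nd (nat_lit 94) (nat_lit 0) (nat_lit 0) (XT.lf (nat_lit 0) (nat_lit 4545702464) (nat_lit 336) (nat_lit 1543014804) (nat_lit 420) (nat_lit 12693476499) (nat_lit 32) (nat_lit 5) (nat_lit 36) (nat_lit 5) (nat_lit 37) (nat_lit 5) (nat_lit 362) (nat_lit 317) (nat_lit 209)) (XT.lf (nat_lit 0) (nat_lit 7680137355) (nat_lit 420) (nat_lit 9063214262) (nat_lit 84) (nat_lit 2457131093) (nat_lit 32) (nat_lit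 5) (nat_lit 37) (nat_lit 5) (nat_lit 33) (nat_lit 5) (nat_lit 363) (nat_lit 317) (nat_lit 208)))) (XT.nd (nat_lit 94) (nat_lit 252) (nat_lit 0) (XT.lf (nat_lit 0) (nat_lit 9327320125) (nat_lit 420) (nat_lit 3756447173) (nat_lit 84) (nat_lit 6547828233) (nat_lit 32) (nat_lit 5) (nat_lit 37) (nat_lit 5) (nat_lit 33) (nat_lit 5) (nat_lit 364) (nat_lit 317) (nat_lit 207)) (XT.nd (nat_lit 94) (nat_lit 0) (nat_lit 0) (XT.lf (nat_lit 0) (nat_lit 1739102359) (nat_lit 252) (nat_lit 9294643778) (nat_lit 336) (nat_lit 9042127632) (nat_lit 29) (nat_lit 5) (nat_lit 32) (nat_lit 5) (nat_lit 33) (nat_lit 5) (nat_lit 365) (nat_lit 317) (nat_lit 206)) (XT.lf (nat_lit 0) (nat_lit 7473991261) (nat_lit 252) (nat_lit 5349385205) (nat_lit 336) (nat_lit 7709661589) (nat_lit 29) (nat_lit 5) (nat_lit 32) (nat_lit 5) (nat_lit 33) (nat_lit 5) (nat_lit 366) (nat_lit 317) (nat_lit 205))))) (XT.nd (nat_lit 282)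 (nat_lit 336) (nat_lit 0) (XT.nd (nat_lit 94) (nat_lit 252) (nat_lit 0) (XT.lf (nat_lit 0) (nat_lit 13376324791) (nat_lit 252) (nat_lit 1283523790) (nat_lit 336) (nat_lit 6344844883) (nat_lit 29) (nat_lit 5) (nat_lit 32) (nat_lit 5) (nat_lit 33) (nat_lit 5) (nat_lit 367) (nat_lit 317) (nat_lit 204)) (XT.nd (nat_lit 94) (nat_lit 252) (nat_lit 0) (XT.lf (nat_lit 0) (nat_lit 16573709390) (nat_lit 336) (nat_lit 2068510210) (nat_lit 84) (nat_lit 2848166139) (nat_lit 29) (nat_lit 5) (nat_lit 33) (nat_lit 5) (nat_lit 30) (nat_lit 5) (nat_lit 368) (nat_lit 317) (nat_lit 203)) (XT.lf (nat_lit 0) (nat_lit 3715425051) (nat_lit 252) (nat_lit 14873318686) (nat_lit 336) (nat_lit 3401141829) (nat_lit 26) (nat_lit 5) (nat_lit 29) (nat_lit 5) (nat_lit 30) (nat_lit 5) (nat_lit 369) (nat_lit 317) (nat_lit 202)))) (XT.nd (nat_lit 188) (nat_lit 336) (nat_lit 0) (XT.nd (nat_lit 94) (nat_lit 0) (nat_lit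 0) (XT.lf (nat_lit 0) (nat_lit 9712606047) (nat_lit 252) (nat_lit 10967234554) (nat_lit 336) (nat_lit 1824654598) (nat_lit 26) (nat_lit 5) (nat_lit 29) (nat_lit 5) (nat_lit 30) (nat_lit 5) (nat_lit 370) (nat_lit 317) (nat_lit 201)) (XT.lf (nat_lit 0) (nat_lit 15886089966) (nat_lit 252) (nat_lit 6941917329) (nat_lit 336) (nat_lit 207336209) (nat_lit 26) (nat_lit 5) (nat_lit 29) (nat_lit 5) (nat_lit 30) (nat_lit 5) (nat_lit 371) (nat_lit 317) (nat_lit 200))) (XT.nd (nat_lit 94) (nat_lit 252) (nat_lit 0) (XT.lf (nat_lit 0) (nat_lit 1423059819) (nat_lit 336) (nat_lit 1355701349) (nat_lit 84) (nat_lit 20803717496) (nat_lit 25) (nat_lit 5) (nat_lit 29) (nat_lit 5) (nat_lit 26) (nat_lit 5) (nat_lit 372) (nat_lit 317) (nat_lit 199)) (XT.lf (nat_lit 0) (nat_lit 3154406702) (nat_lit 336) (nat_lit 19460022150) (nat_lit 84) (nat_lit 1530425667) (nat_lit 22) (nat_lit 5) (nat_lit 26) (nat_lit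 5) (nat_lit 23) (nat_lit 5) (nat_lit 373) (nat_lit 317) (nat_lit 198)))))) (XT.nd (nat_lit 564) (nat_lit 336) (nat_lit 0) (XT.nd (nat_lit 282) (nat_lit 252) (nat_lit 0) (XT.nd (nat_lit 94) (nat_lit 0) (nat_lit 0) (XT.lf (nat_lit 0) (nat_lit 4974843361) (nat_lit 336) (nat_lit 13820815659) (nat_lit 84) (nat_lit 5927947223) (nat_lit 22) (nat_lit 5) (nat_lit 26) (nat_lit 5) (nat_lit 23) (nat_lit 5) (nat_lit 374) (nat_lit 317) (nat_lit 197)) (XT.nd (nat_lit 94) (nat_lit 0) (nat_lit 0) (XT.lf (nat_lit 0) (nat_lit 6844635346) (nat_lit 336) (nat_lit 8015899659) (nat_lit 84) (nat_lit 10460022658) (nat_lit 22) (nat_lit 5) (nat_lit 26) (nat_lit 5) (nat_lit 23) (nat_lit 5) (nat_lit 375) (nat_lit 317) (nat_lit 196)) (XT.lf (nat_lit 0) (nat_lit 8765525496) (nat_lit 336) (nat_lit 2039863363) (nat_lit 84) (nat_lit 15130876340) (nat_lit 22) (nat_lit 5) (nat_lit 26) (nat_lit 5) (nat_lit 23) (nat_lit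 5) (nat_lit 376) (nat_lit 317) (nat_lit 195)))) (XT.nd (nat_lit 94) (nat_lit 0) (nat_lit 0) (XT.lf (nat_lit 0) (nat_lit 4197432431) (nat_lit 252) (nat_lit 6583510902) (nat_lit 336) (nat_lit 15789068613) (nat_lit 19) (nat_lit 5) (nat_lit 22) (nat_lit 5) (nat_lit 23) (nat_lit 5) (nat_lit 377) (nat_lit 317) (nat_lit 194)) (XT.nd (nat_lit 94) (nat_lit 0) (nat_lit 0) (XT.lf (nat_lit 0) (nat_lit 10662848619) (nat_lit 252) (nat_lit 2210739636) (nat_lit 336) (nat_lit 14349394921) (nat_lit 19) (nat_lit 5) (nat_lit 22) (nat_lit 5) (nat_lit 23) (nat_lit 5) (nat_lit 378) (nat_lit 317) (nat_lit 193)) (XT.lf (nat_lit 0) (nat_lit 15047532759) (nat_lit 336) (nat_lit 10598733577) (nat_lit 84) (nat_lit 2249455411) (nat_lit 19) (nat_lit 5) (nat_lit 23) (nat_lit 5) (nat_lit 20) (nat_lit 5) (nat_lit 379) (nat_lit 317) (nat_lit 192))))) (XT.nd (nat_lit 282) (nat_lit 168) (nat_lit 0) (XT.nd (nat_lit 94)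 (nat_lit 168) (nat_lit 0) (XT.lf (nat_lit 0) (nat_lit 17305306819) (nat_lit 336) (nat_lit 4483323555) (nat_lit 84) (nat_lit 6800208735) (nat_lit 19) (nat_lit 5) (nat_lit 23) (nat_lit 5) (nat_lit 20) (nat_lit 5) (nat_lit 380) (nat_lit 317) (nat_lit 191)) (XT.nd (nat_lit 94) (nat_lit 0) (nat_lit 0) (XT.lf (nat_lit 0) (nat_lit 1851020457) (nat_lit 168) (nat_lit 17794426001) (nat_lit 252) (nat_lit 9657645486) (nat_lit 17) (nat_lit 5) (nat_lit 19) (nat_lit 5) (nat_lit 20) (nat_lit 5) (nat_lit 381) (nat_lit 317) (nat_lit 190)) (XT.lf (nat_lit 0) (nat_lit 8468915943) (nat_lit 168) (nat_lit 13630125511) (nat_lit 252) (nat_lit 7939208390) (nat_lit 17) (nat_lit 5) (nat_lit 19) (nat_lit 5) (nat_lit 20) (nat_lit 5) (nat_lit 382) (nat_lit 317) (nat_lit 189)))) (XT.nd (nat_lit 188) (nat_lit 168) (nat_lit 0) (XT.nd (nat_lit 94) (nat_lit 0) (nat_lit 0) (XT.lf (nat_lit 0) (nat_lit 15284345148) (nat_lit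 168) (nat_lit 9338644044) (nat_lit 252) (nat_lit 6173415941) (nat_lit 17) (nat_lit 5) (nat_lit 19) (nat_lit 5) (nat_lit 20) (nat_lit 5) (nat_lit 383) (nat_lit 317) (nat_lit 188)) (XT.lf (nat_lit 0) (nat_lit 22303660764) (nat_lit 168) (nat_lit 4915981488) (nat_lit 252) (nat_lit 4358622237) (nat_lit 17) (nat_lit 5) (nat_lit 19) (nat_lit 5) (nat_lit 20) (nat_lit 5) (nat_lit 384) (nat_lit 317) (nat_lit 187))) (XT.nd (nat_lit 94) (nat_lit 168) (nat_lit 0) (XT.lf (nat_lit 0) (nat_lit 29533405530) (nat_lit 168) (nat_lit 358015460) (nat_lit 252) (nat_lit 2493135699) (nat_lit 17) (nat_lit 5) (nat_lit 19) (nat_lit 5) (nat_lit 20) (nat_lit 5) (nat_lit 385) (nat_lit 317) (nat_lit 186)) (XT.lf (nat_lit 0) (nat_lit 3797752897) (nat_lit 168) (nat_lit 28923785467) (nat_lit 252) (nat_lit 491992517) (nat_lit 15) (nat_lit 5) (nat_lit 17) (nat_lit 5) (nat_lit 18) (nat_lit 5) (nat_lit 386) (nat_lit 317)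 (nat_lit 185))))))) (XT.nd (nat_lit 1222) (nat_lit 336) (nat_lit 0) (XT.nd (nat_lit 564) (nat_lit 168) (nat_lit 0) (XT.nd (nat_lit 282) (nat_lit 168) (nat_lit 0) (XT.nd (nat_lit 94) (nat_lit 0) (nat_lit 0) (XT.lf (nat_lit 0) (nat_lit 1568038148) (nat_lit 252) (nat_lit 23380804652) (nat_lit 84) (nat_lit 9118019752) (nat_lit 14) (nat_lit 5) (nat_lit 17) (nat_lit 5) (nat_lit 15) (nat_lit 5) (nat_lit 387) (nat_lit 317) (nat_lit 184)) (XT.nd (nat_lit 94) (nat_lit 0) (nat_lit 0) (XT.lf (nat_lit 0) (nat_lit 3676648567) (nat_lit 252) (nat_lit 17170750400) (nat_lit 84) (nat_lit 14099274866) (nat_lit 14) (nat_lit 5) (nat_lit 17) (nat_lit 5) (nat_lit 15) (nat_lit 5) (nat_lit 388) (nat_lit 317) (nat_lit 183)) (XT.lf (nat_lit 0) (nat_lit 5845716736) (nat_lit 252) (nat_lit 10774946179) (nat_lit 84) (nat_lit 19233273182) (nat_lit 14) (nat_lit 5) (nat_lit 17) (nat_lit 5) (nat_lit 15) (nat_lit 5)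 (nat_lit 389) (nat_lit 317) (nat_lit 182)))) (XT.nd (nat_lit 94) (nat_lit 168) (nat_lit 0) (XT.lf (nat_lit 0) (nat_lit 8077264454) (nat_lit 252) (nat_lit 4187430431) (nat_lit 84) (nat_lit 24524800124) (nat_lit 14) (nat_lit 5) (nat_lit 17) (nat_lit 5) (nat_lit 15) (nat_lit 5) (nat_lit 390) (nat_lit 317) (nat_lit 181)) (XT.nd (nat_lit 94) (nat_lit 0) (nat_lit 0) (XT.lf (nat_lit 0) (nat_lit 2651356014) (nat_lit 168) (nat_lit 7748317524) (nat_lit 252) (nat_lit 27353733715) (nat_lit 12) (nat_lit 5) (nat_lit 14) (nat_lit 5) (nat_lit 15) (nat_lit 5) (nat_lit 391) (nat_lit 317) (nat_lit 180)) (XT.lf (nat_lit 0) (nat_lit 9784619361) (nat_lit 168) (nat_lit 3048624136) (nat_lit 252) (nat_lit 25912765622) (nat_lit 12) (nat_lit 5) (nat_lit 14) (nat_lit 5) (nat_lit 15) (nat_lit 5) (nat_lit 392) (nat_lit 317) (nat_lit 179))))) (XT.nd (nat_lit 282) (nat_lit 168) (nat_lit 0) (XT.nd (nat_lit 94) (nat_lit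 0) (nat_lit 0) (XT.lf (nat_lit 0) (nat_lit 15355655893) (nat_lit 252) (nat_lit 22654440822) (nat_lit 84) (nat_lit 1758891287) (nat_lit 12) (nat_lit 5) (nat_lit 15) (nat_lit 5) (nat_lit 13) (nat_lit 5) (nat_lit 393) (nat_lit 317) (nat_lit 178)) (XT.nd (nat_lit 94) (nat_lit 0) (nat_lit 0) (XT.lf (nat_lit 0) (nat_lit 17983153987) (nat_lit 252) (nat_lit 16189217803) (nat_lit 84) (nat_lit 6650494985) (nat_lit 12) (nat_lit 5) (nat_lit 15) (nat_lit 5) (nat_lit 13) (nat_lit 5) (nat_lit 394) (nat_lit 317) (nat_lit 177)) (XT.lf (nat_lit 0) (nat_lit 20687944154) (nat_lit 252) (nat_lit 9529451705) (nat_lit 84) (nat_lit 11692169426) (nat_lit 12) (nat_lit 5) (nat_lit 15) (nat_lit 5) (nat_lit 13) (nat_lit 5) (nat_lit 395) (nat_lit 317) (nat_lit 176)))) (XT.nd (nat_lit 188) (nat_lit 0) (nat_lit 0) (XT.nd (nat_lit 94) (nat_lit 168) (nat_lit 0) (XT.lf (nat_lit 0) (nat_lit 23472547540) (nat_lit 252)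 (nat_lit 2668934930) (nat_lit 84) (nat_lit 16888613980) (nat_lit 12) (nat_lit 5) (nat_lit 15) (nat_lit 5) (nat_lit 13) (nat_lit 5) (nat_lit 396) (nat_lit 317) (nat_lit 175)) (XT.lf (nat_lit 0) (nat_lit 4489174096) (nat_lit 168) (nat_lit 21894918755) (nat_lit 252) (nat_lit 17800031343) (nat_lit 10) (nat_lit 5) (nat_lit 12) (nat_lit 5) (nat_lit 13) (nat_lit 5) (nat_lit 397) (nat_lit 317) (nat_lit 174))) (XT.nd (nat_lit 94) (nat_lit 0) (nat_lit 0) (XT.lf (nat_lit 0) (nat_lit 11920289891) (nat_lit 168) (nat_lit 17489613815) (nat_lit 252) (nat_lit 15963297584) (nat_lit 10) (nat_lit 5) (nat_lit 12) (nat_lit 5) (nat_lit 13) (nat_lit 5) (nat_lit 398) (nat_lit 317) (nat_lit 173)) (XT.lf (nat_lit 0) (nat_lit 19576460257) (nat_lit 168) (nat_lit 12949319651) (nat_lit 252) (nat_lit 14073493811) (nat_lit 10) (nat_lit 5) (nat_lit 12) (nat_lit 5) (nat_lit 13) (nat_lit 5) (nat_lit 399) (nat_lit 317)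 (nat_lit 172)))))) (XT.nd (nat_lit 564) (nat_lit 252) (nat_lit 0) (XT.nd (nat_lit 282) (nat_lit 84) (nat_lit 0) (XT.nd (nat_lit 94) (nat_lit 0) (nat_lit 0) (XT.lf (nat_lit 0) (nat_lit 27464821546) (nat_lit 168) (nat_lit 8269804234) (nat_lit 252) (nat_lit 12128858529) (nat_lit 10) (nat_lit 5) (nat_lit 12) (nat_lit 5) (nat_lit 13) (nat_lit 5) (nat_lit 400) (nat_lit 317) (nat_lit 171)) (XT.nd (nat_lit 94) (nat_lit 0) (nat_lit 0) (XT.lf (nat_lit 0) (nat_lit 35592726538) (nat_lit 168) (nat_lit 3446705765) (nat_lit 252) (nat_lit 10127579135) (nat_lit 10) (nat_lit 5) (nat_lit 12) (nat_lit 5) (nat_lit 13) (nat_lit 5) (nat_lit 401) (nat_lit 317) (nat_lit 170)) (XT.lf (nat_lit 0) (nat_lit 42458402848) (nat_lit 252) (nat_lit 6558441783) (nat_lit 84) (nat_lit 1493756687) (nat_lit 10) (nat_lit 5) (nat_lit 13) (nat_lit 5) (nat_lit 11) (nat_lit 4) (nat_lit 402) (nat_lit 317) (nat_lit 169)))) (XT.nd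 (nat_lit 94) (nat_lit 0) (nat_lit 0) (XT.lf (nat_lit 0) (nat_lit 647889996) (nat_lit 84) (nat_lit 45373831037) (nat_lit 168) (nat_lit 5872948381) (nat_lit 9) (nat_lit 5) (nat_lit 10) (nat_lit 5) (nat_lit 11) (nat_lit 4) (nat_lit 403) (nat_lit 317) (nat_lit 168)) (XT.nd (nat_lit 94) (nat_lit 0) (nat_lit 0) (XT.lf (nat_lit 0) (nat_lit 8211897899) (nat_lit 84) (nat_lit 41548794206) (nat_lit 168) (nat_lit 3558946221) (nat_lit 9) (nat_lit 5) (nat_lit 10) (nat_lit 5) (nat_lit 11) (nat_lit 4) (nat_lit 404) (nat_lit 317) (nat_lit 167)) (XT.lf (nat_lit 0) (nat_lit 16005777358) (nat_lit 84) (nat_lit 37606625483) (nat_lit 168) (nat_lit 1176491778) (nat_lit 9) (nat_lit 5) (nat_lit 10) (nat_lit 5) (nat_lit 11) (nat_lit 4) (nat_lit 405) (nat_lit 317) (nat_lit 166))))) (XT.nd (nat_lit 282) (nat_lit 168) (nat_lit 0) (XT.nd (nat_lit 94) (nat_lit 0) (nat_lit 0) (XT.lf (nat_lit 0) (nat_lit 1250914281)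 (nat_lit 168) (nat_lit 32279679093) (nat_lit 84) (nat_lit 22772821824) (nat_lit 8) (nat_lit 5) (nat_lit 10) (nat_lit 5) (nat_lit 9) (nat_lit 5) (nat_lit 406) (nat_lit 317) (nat_lit 165)) (XT.nd (nat_lit 94) (nat_lit 0) (nat_lit 0) (XT.lf (nat_lit 0) (nat_lit 3726106232) (nat_lit 168) (nat_lit 25591082563) (nat_lit 84) (nat_lit 28547431689) (nat_lit 8) (nat_lit 5) (nat_lit 10) (nat_lit 5) (nat_lit 9) (nat_lit 5) (nat_lit 407) (nat_lit 317) (nat_lit 164)) (XT.lf (nat_lit 0) (nat_lit 6275094900) (nat_lit 168) (nat_lit 18699422252) (nat_lit 84) (nat_lit 34499810328) (nat_lit 8) (nat_lit 5) (nat_lit 10) (nat_lit 5) (nat_lit 9) (nat_lit 5) (nat_lit 408) (nat_lit 317) (nat_lit 163)))) (XT.nd (nat_lit 188) (nat_lit 168) (nat_lit 0) (XT.nd (nat_lit 94) (nat_lit 0) (nat_lit 0) (XT.lf (nat_lit 0) (nat_lit 8900256210) (nat_lit 168) (nat_lit 11598274412) (nat_lit 84) (nat_lit 40635505981) (nat_lit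 8) (nat_lit 5) (nat_lit 10) (nat_lit 5) (nat_lit 9) (nat_lit 5) (nat_lit 409) (nat_lit 317) (nat_lit 162)) (XT.lf (nat_lit 0) (nat_lit 11604037088) (nat_lit 168) (nat_lit 4281020029) (nat_lit 84) (nat_lit 46960237760) (nat_lit 8) (nat_lit 5) (nat_lit 10) (nat_lit 5) (nat_lit 9) (nat_lit 5) (nat_lit 410) (nat_lit 317) (nat_lit 161))) (XT.nd (nat_lit 94) (nat_lit 0) (nat_lit 0) (XT.lf (nat_lit 0) (nat_lit 3326176386) (nat_lit 168) (nat_lit 11095777434) (nat_lit 252) (nat_lit 50186720672) (nat_lit 6) (nat_lit 5) (nat_lit 8) (nat_lit 5) (nat_lit 9) (nat_lit 5) (nat_lit 411) (nat_lit 317) (nat_lit 160)) (XT.lf (nat_lit 0) (nat_lit 11256082934) (nat_lit 168) (nat_lit 6113192804) (nat_lit 252) (nat_lit 49056151442) (nat_lit 6) (nat_lit 5) (nat_lit 8) (nat_lit 5) (nat_lit 9) (nat_lit 5) (nat_lit 412) (nat_lit 317) (nat_lit 159))))))))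
noncomputable def xc136 : XT := (XT.nd (nat_lit 47658) (nat_lit 0) (nat_lit 3780) (XT.nd (nat_lit 1128) (nat_lit 0) (nat_lit 0) (XT.nd (nat_lit 564) (nat_lit 84) (nat_lit 0) (XT.nd (nat_lit 282) (nat_lit 0) (nat_lit 0) (XT.nd (nat_lit 94) (nat_lit 0) (nat_lit 0) (XT.lf (nat_lit 0) (nat_lit 19428064566) (nat_lit 168) (nat_lit 977344004) (nat_lit 252) (nat_lit 47893181360) (nat_lit 6) (nat_lit 5) (nat_lit 8) (nat_lit 5) (nat_lit 9) (nat_lit 5) (nat_lit 413) (nat_lit 317) (nat_lit 158)) (XT.nd (nat_lit 94) (nat_lit 0) (nat_lit 0) (XT.lf (nat_lit 0) (nat_lit 23576003083) (nat_lit 252) (nat_lit 42422991072) (nat_lit 84) (nat_lit 4229587127) (nat_lit 6) (nat_lit 5) (nat_lit 9) (nat_lit 5) (nat_lit 7) (nat_lit 4) (nat_lit 414) (nat_lit 317) (nat_lit 157)) (XT.lf (nat_lit 0) (nat_lit 26852466129) (nat_lit 252) (nat_lit 35789183121) (nat_lit 84) (nat_lit 9576528944) (nat_lit 6) (nat_lit 5)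 (nat_lit 9) (nat_lit 5) (nat_lit 7) (nat_lit 4) (nat_lit 415) (nat_lit 317) (nat_lit 156)))) (XT.nd (nat_lit 94) (nat_lit 0) (nat_lit 0) (XT.lf (nat_lit 0) (nat_lit 30228156343) (nat_lit 252) (nat_lit 28953222734) (nat_lit 84) (nat_lit 15088156657) (nat_lit 6) (nat_lit 5) (nat_lit 9) (nat_lit 5) (nat_lit 7) (nat_lit 4) (nat_lit 416) (nat_lit 317) (nat_lit 155)) (XT.nd (nat_lit 94) (nat_lit 0) (nat_lit 0) (XT.lf (nat_lit 0) (nat_lit 33706220220) (nat_lit 252) (nat_lit 21908738079) (nat_lit 84) (nat_lit 20769607683) (nat_lit 6) (nat_lit 5) (nat_lit 9) (nat_lit 5) (nat_lit 7) (nat_lit 4) (nat_lit 417) (nat_lit 317) (nat_lit 154)) (XT.lf (nat_lit 0) (nat_lit 37289899682) (nat_lit 252) (nat_lit 14649162959) (nat_lit 84) (nat_lit 26626177728) (nat_lit 6) (nat_lit 5) (nat_lit 9) (nat_lit 5) (nat_lit 7) (nat_lit 4) (nat_lit 418) (nat_lit 317) (nat_lit 153))))) (XT.nd (nat_lit 282) (nat_lit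 0) (nat_lit 0) (XT.nd (nat_lit 94) (nat_lit 84) (nat_lit 0) (XT.lf (nat_lit 0) (nat_lit 40982535093) (nat_lit 252) (nat_lit 7167730690) (nat_lit 84) (nat_lit 32663325729) (nat_lit 6) (nat_lit 5) (nat_lit 9) (nat_lit 5) (nat_lit 7) (nat_lit 4) (nat_lit 419) (nat_lit 317) (nat_lit 152)) (XT.nd (nat_lit 94) (nat_lit 0) (nat_lit 0) (XT.lf (nat_lit 0) (nat_lit 553687782) (nat_lit 84) (nat_lit 44239373244) (nat_lit 168) (nat_lit 38338483809) (nat_lit 5) (nat_lit 5) (nat_lit 6) (nat_lit 5) (nat_lit 7) (nat_lit 4) (nat_lit 420) (nat_lit 317) (nat_lit 151)) (XT.lf (nat_lit 0) (nat_lit 8663359902) (nat_lit 84) (nat_lit 40131127920) (nat_lit 168) (nat_lit 36724619881) (nat_lit 5) (nat_lit 5) (nat_lit 6) (nat_lit 5) (nat_lit 7) (nat_lit 4) (nat_lit 421) (nat_lit 317) (nat_lit 150)))) (XT.nd (nat_lit 94) (nat_lit 0) (nat_lit 0) (XT.lf (nat_lit 0) (nat_lit 17021461488) (nat_lit 84) (nat_lit 35896516904)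 (nat_lit 168) (nat_lit 35062776751) (nat_lit 5) (nat_lit 5) (nat_lit 6) (nat_lit 5) (nat_lit 7) (nat_lit 4) (nat_lit 422) (nat_lit 317) (nat_lit 149)) (XT.nd (nat_lit 94) (nat_lit 0) (nat_lit 0) (XT.lf (nat_lit 0) (nat_lit 25635783167) (nat_lit 84) (nat_lit 31531593095) (nat_lit 168) (nat_lit 33351405408) (nat_lit 5) (nat_lit 5) (nat_lit 6) (nat_lit 5) (nat_lit 7) (nat_lit 4) (nat_lit 423) (nat_lit 317) (nat_lit 148)) (XT.lf (nat_lit 0) (nat_lit 34514354389) (nat_lit 84) (nat_lit 27032287926) (nat_lit 168) (nat_lit 31588910674) (nat_lit 5) (nat_lit 5) (nat_lit 6) (nat_lit 5) (nat_lit 7) (nat_lit 4) (nat_lit 424) (nat_lit 317) (nat_lit 147)))))) (XT.nd (nat_lit 45872) (nat_lit 0) (nat_lit 7392) (XT.nd (nat_lit 282) (nat_lit 0) (nat_lit 0) (XT.nd (nat_lit 94) (nat_lit 0) (nat_lit 0) (XT.lf (nat_lit 0) (nat_lit 43665450912) (nat_lit 84) (nat_lit 22394407574) (nat_lit 168) (nat_lit 29773649721)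 (nat_lit 5) (nat_lit 5) (nat_lit 6) (nat_lit 5) (nat_lit 7) (nat_lit 4) (nat_lit 425) (nat_lit 317) (nat_lit 146)) (XT.nd (nat_lit 94) (nat_lit 0) (nat_lit 0) (XT.lf (nat_lit 0) (nat_lit 53097602518) (nat_lit 84) (nat_lit 17613629049) (nat_lit 168) (nat_lit 27903930533) (nat_lit 5) (nat_lit 5) (nat_lit 6) (nat_lit 5) (nat_lit 7) (nat_lit 4) (nat_lit 426) (nat_lit 317) (nat_lit 145)) (XT.lf (nat_lit 0) (nat_lit 62819600959) (nat_lit 84) (nat_lit 12685496163) (nat_lit 168) (nat_lit 25978010339) (nat_lit 5) (nat_lit 5) (nat_lit 6) (nat_lit 5) (nat_lit 7) (nat_lit 4) (nat_lit 427) (nat_lit 317) (nat_lit 144)))) (XT.nd (nat_lit 45402) (nat_lit 0) (nat_lit 8232) (XT.lf (nat_lit 0) (nat_lit 72840508156) (nat_lit 84) (nat_lit 7605415382) (nat_lit 168) (nat_lit 23994093977) (nat_lit 5) (nat_lit 5) (nat_lit 6) (nat_lit 5) (nat_lit 7) (nat_lit 4) (nat_lit 428) (nat_lit 317) (nat_lit 143)) (XT.nd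 (nat_lit 94) (nat_lit 0) (nat_lit 0) (XT.lf (nat_lit 0) (nat_lit 1985654117) (nat_lit 0) (nat_lit 1985654117) (nat_lit 756) (nat_lit 426841612) (nat_lit 103) (nat_lit 5) (nat_lit 103) (nat_lit 3) (nat_lit 112) (nat_lit 3) (nat_lit 318) (nat_lit 318) (nat_lit 252)) (XT.lf (nat_lit 0) (nat_lit 6990766331) (nat_lit 0) (nat_lit 1796223408) (nat_lit 756) (nat_lit 117435997) (nat_lit 103) (nat_lit 5) (nat_lit 103) (nat_lit 3) (nat_lit 112) (nat_lit 3) (nat_lit 319) (nat_lit 318) (nat_lit 251))))) (XT.nd (nat_lit 282) (nat_lit 0) (nat_lit 0) (XT.nd (nat_lit 94) (nat_lit 0) (nat_lit 0) (XT.lf (nat_lit 0) (nat_lit 614653228) (nat_lit 840) (nat_lit 7933149229) (nat_lit 924) (nat_lit 468568522) (nat_lit 93) (nat_lit 5) (nat_lit 103) (nat_lit 5) (nat_lit 104) (nat_lit 5) (nat_lit 320) (nat_lit 318) (nat_lit 250)) (XT.nd (nat_lit 94) (nat_lit 0) (nat_lit 0) (XT.lf (nat_lit 0) (nat_lit 1376829873)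 (nat_lit 840) (nat_lit 4953834496) (nat_lit 924) (nat_lit 2801002174) (nat_lit 93) (nat_lit 5) (nat_lit 103) (nat_lit 5) (nat_lit 104) (nat_lit 5) (nat_lit 321) (nat_lit 318) (nat_lit 249)) (XT.lf (nat_lit 0) (nat_lit 2134779447) (nat_lit 840) (nat_lit 1898131381) (nat_lit 924) (nat_lit 5218704307) (nat_lit 93) (nat_lit 5) (nat_lit 103) (nat_lit 5) (nat_lit 104) (nat_lit 5) (nat_lit 322) (nat_lit 318) (nat_lit 248)))) (XT.nd (nat_lit 188) (nat_lit 0) (nat_lit 84) (XT.nd (nat_lit 94) (nat_lit 0) (nat_lit 84) (XT.lf (nat_lit 84) (nat_lit 1262239667) (nat_lit 0) (nat_lit 1639490344) (nat_lit 924) (nat_lit 6474210377) (nat_lit 94) (nat_lit 5) (nat_lit 93) (nat_lit 5) (nat_lit 104) (nat_lit 5) (nat_lit 323) (nat_lit 318) (nat_lit 247)) (XT.lf (nat_lit 0) (nat_lit 3694438963) (nat_lit 840) (nat_lit 4967564062) (nat_lit 924) (nat_lit 842257844) (nat_lit 94) (nat_lit 5) (nat_lit 104) (nat_lit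 5) (nat_lit 105) (nat_lit 5) (nat_lit 324) (nat_lit 318) (nat_lit 246))) (XT.nd (nat_lit 94) (nat_lit 0) (nat_lit 0) (XT.lf (nat_lit 0) (nat_lit 4503031797) (nat_lit 840) (nat_lit 1756632691) (nat_lit 924) (nat_lit 3377360714) (nat_lit 94) (nat_lit 5) (nat_lit 104) (nat_lit 5) (nat_lit 105) (nat_lit 5) (nat_lit 325) (nat_lit 318) (nat_lit 245)) (XT.lf (nat_lit 84) (nat_lit 1569981900) (nat_lit 0) (nat_lit 3757590774) (nat_lit 924) (nat_lit 4446805838) (nat_lit 95) (nat_lit 5) (nat_lit 94) (nat_lit 5) (nat_lit 105) (nat_lit 5) (nat_lit 326) (nat_lit 318) (nat_lit 244))))))) (XT.nd (nat_lit 1222) (nat_lit 2100) (nat_lit 0) (XT.nd (nat_lit 564) (nat_lit 840) (nat_lit 0) (XT.nd (nat_lit 282) (nat_lit 756) (nat_lit 0) (XT.nd (nat_lit 94) (nat_lit 0) (nat_lit 84) (XT.lf (nat_lit 84) (nat_lit 5021630739) (nat_lit 0) (nat_lit 1150276850) (nat_lit 924) (nat_lit 3744445836) (nat_lit 95) (nat_lit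 5) (nat_lit 94) (nat_lit 5) (nat_lit 105) (nat_lit 5) (nat_lit 327) (nat_lit 318) (nat_lit 243)) (XT.nd (nat_lit 94) (nat_lit 0) (nat_lit 0) (XT.lf (nat_lit 0) (nat_lit 7034379426) (nat_lit 840) (nat_lit 1513562640) (nat_lit 924) (nat_lit 1515215981) (nat_lit 95) (nat_lit 5) (nat_lit 105) (nat_lit 5) (nat_lit 106) (nat_lit 5) (nat_lit 328) (nat_lit 318) (nat_lit 242)) (XT.lf (nat_lit 84) (nat_lit 1985266276) (nat_lit 0) (nat_lit 5947187444) (nat_lit 924) (nat_lit 2281958983) (nat_lit 96) (nat_lit 5) (nat_lit 95) (nat_lit 5) (nat_lit 106) (nat_lit 5) (nat_lit 329) (nat_lit 318) (nat_lit 241)))) (XT.nd (nat_lit 94) (nat_lit 840) (nat_lit 0) (XT.lf (nat_lit 84) (nat_lit 5609420187) (nat_lit 0) (nat_lit 3242682020) (nat_lit 924) (nat_lit 1518616998) (nat_lit 96) (nat_lit 5) (nat_lit 95) (nat_lit 5) (nat_lit 106) (nat_lit 5) (nat_lit 330) (nat_lit 318) (nat_lit 240)) (XT.nd (nat_lit 94)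 (nat_lit 840) (nat_lit 0) (XT.lf (nat_lit 84) (nat_lit 9331155230) (nat_lit 0) (nat_lit 447703402) (nat_lit 924) (nat_lit 753839642) (nat_lit 96) (nat_lit 5) (nat_lit 95) (nat_lit 5) (nat_lit 106) (nat_lit 5) (nat_lit 331) (nat_lit 318) (nat_lit 239)) (XT.lf (nat_lit 0) (nat_lit 62123811) (nat_lit 924) (nat_lit 8220436048) (nat_lit 1008) (nat_lit 2416408663) (nat_lit 85) (nat_lit 5) (nat_lit 96) (nat_lit 5) (nat_lit 97) (nat_lit 5) (nat_lit 332) (nat_lit 318) (nat_lit 238))))) (XT.nd (nat_lit 282) (nat_lit 840) (nat_lit 0) (XT.nd (nat_lit 94) (nat_lit 0) (nat_lit 0) (XT.lf (nat_lit 0) (nat_lit 884393544) (nat_lit 924) (nat_lit 4599867463) (nat_lit 1008) (nat_lit 5386145654) (nat_lit 85) (nat_lit 5) (nat_lit 96) (nat_lit 5) (nat_lit 97) (nat_lit 5) (nat_lit 333) (nat_lit 318) (nat_lit 237)) (XT.nd (nat_lit 94) (nat_lit 0) (nat_lit 84) (XT.lf (nat_lit 0) (nat_lit 1712193956) (nat_lit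 924) (nat_lit 882200238) (nat_lit 1008) (nat_lit 8453528760) (nat_lit 85) (nat_lit 5) (nat_lit 96) (nat_lit 5) (nat_lit 97) (nat_lit 5) (nat_lit 334) (nat_lit 318) (nat_lit 236)) (XT.lf (nat_lit 0) (nat_lit 2580191544) (nat_lit 924) (nat_lit 8238529923) (nat_lit 84) (nat_lit 411910652) (nat_lit 86) (nat_lit 5) (nat_lit 97) (nat_lit 5) (nat_lit 87) (nat_lit 5) (nat_lit 335) (nat_lit 318) (nat_lit 235)))) (XT.nd (nat_lit 188) (nat_lit 924) (nat_lit 0) (XT.nd (nat_lit 94) (nat_lit 0) (nat_lit 0) (XT.lf (nat_lit 0) (nat_lit 3492056035) (nat_lit 924) (nat_lit 4455439806) (nat_lit 84) (nat_lit 3471119942) (nat_lit 86) (nat_lit 5) (nat_lit 97) (nat_lit 5) (nat_lit 87) (nat_lit 5) (nat_lit 336) (nat_lit 318) (nat_lit 234)) (XT.lf (nat_lit 0) (nat_lit 4413877838) (nat_lit 924) (nat_lit 569915267) (nat_lit 84) (nat_lit 6629333607) (nat_lit 86) (nat_lit 5) (nat_lit 97) (nat_lit 5) (nat_lit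 87) (nat_lit 5) (nat_lit 337) (nat_lit 318) (nat_lit 233))) (XT.nd (nat_lit 94) (nat_lit 0) (nat_lit 0) (XT.lf (nat_lit 0) (nat_lit 3492021867) (nat_lit 924) (nat_lit 1889135609) (nat_lit 1008) (nat_lit 6432114853) (nat_lit 75) (nat_lit 5) (nat_lit 86) (nat_lit 5) (nat_lit 87) (nat_lit 5) (nat_lit 338) (nat_lit 318) (nat_lit 232)) (XT.lf (nat_lit 0) (nat_lit 6380006627) (nat_lit 1008) (nat_lit 4355391559) (nat_lit 84) (nat_lit 1284299492) (nat_lit 75) (nat_lit 5) (nat_lit 87) (nat_lit 5) (nat_lit 76) (nat_lit 5) (nat_lit 339) (nat_lit 318) (nat_lit 231)))))) (XT.nd (nat_lit 564) (nat_lit 924) (nat_lit 0) (XT.nd (nat_lit 282) (nat_lit 504) (nat_lit 0) (XT.nd (nat_lit 94) (nat_lit 672) (nat_lit 0) (XT.lf (nat_lit 0) (nat_lit 7412326430) (nat_lit 1008) (nat_lit 300406158) (nat_lit 84) (nat_lit 4519832510) (nat_lit 75) (nat_lit 5) (nat_lit 87) (nat_lit 5) (nat_lit 76) (nat_lit 5) (nat_lit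 340) (nat_lit 318) (nat_lit 230)) (XT.nd (nat_lit 94) (nat_lit 0) (nat_lit 0) (XT.lf (nat_lit 0) (nat_lit 3945723404) (nat_lit 672) (nat_lit 4553757316) (nat_lit 756) (nat_lit 3951959831) (nat_lit 67) (nat_lit 5) (nat_lit 75) (nat_lit 5) (nat_lit 76) (nat_lit 5) (nat_lit 341) (nat_lit 318) (nat_lit 229)) (XT.lf (nat_lit 0) (nat_lit 8315935842) (nat_lit 672) (nat_lit 1291579435) (nat_lit 756) (nat_lit 3070096772) (nat_lit 67) (nat_lit 5) (nat_lit 75) (nat_lit 5) (nat_lit 76) (nat_lit 5) (nat_lit 342) (nat_lit 318) (nat_lit 228)))) (XT.nd (nat_lit 94) (nat_lit 504) (nat_lit 0) (XT.lf (nat_lit 0) (nat_lit 10754992982) (nat_lit 756) (nat_lit 123828428) (nat_lit 84) (nat_lit 2031925565) (nat_lit 67) (nat_lit 5) (nat_lit 76) (nat_lit 5) (nat_lit 68) (nat_lit 5) (nat_lit 343) (nat_lit 318) (nat_lit 227)) (XT.nd (nat_lit 94) (nat_lit 0) (nat_lit 0) (XT.lf (nat_lit 0) (nat_lit 4305241339)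 (nat_lit 504) (nat_lit 7673726581) (nat_lit 588) (nat_lit 1170979193) (nat_lit 61) (nat_lit 5) (nat_lit 67) (nat_lit 5) (nat_lit 68) (nat_lit 5) (nat_lit 344) (nat_lit 318) (nat_lit 226)) (XT.lf (nat_lit 0) (nat_lit 8860693396) (nat_lit 504) (nat_lit 4366808727) (nat_lit 588) (nat_lit 169578746) (nat_lit 61) (nat_lit 5) (nat_lit 67) (nat_lit 5) (nat_lit 68) (nat_lit 5) (nat_lit 345) (nat_lit 318) (nat_lit 225))))) (XT.nd (nat_lit 282) (nat_lit 420) (nat_lit 0) (XT.nd (nat_lit 94) (nat_lit 420) (nat_lit 0) (XT.lf (nat_lit 0) (nat_lit 831001156) (nat_lit 588) (nat_lit 116602864) (nat_lit 84) (nat_lit 12704552632) (nat_lit 60) (nat_lit 5) (nat_lit 67) (nat_lit 5) (nat_lit 61) (nat_lit 5) (nat_lit 346) (nat_lit 318) (nat_lit 224)) (XT.nd (nat_lit 94) (nat_lit 0) (nat_lit 0) (XT.lf (nat_lit 0) (nat_lit 1915890394) (nat_lit 504) (nat_lit 9423952402) (nat_lit 84) (nat_lit 2573576442) (nat_lit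 55) (nat_lit 5) (nat_lit 61) (nat_lit 5) (nat_lit 56) (nat_lit 5) (nat_lit 347) (nat_lit 318) (nat_lit 223)) (XT.lf (nat_lit 0) (nat_lit 3031589616) (nat_lit 504) (nat_lit 4965168300) (nat_lit 84) (nat_lit 6186202128) (nat_lit 55) (nat_lit 5) (nat_lit 61) (nat_lit 5) (nat_lit 56) (nat_lit 5) (nat_lit 348) (nat_lit 318) (nat_lit 222)))) (XT.nd (nat_lit 188) (nat_lit 0) (nat_lit 0) (XT.nd (nat_lit 94) (nat_lit 420) (nat_lit 0) (XT.lf (nat_lit 0) (nat_lit 4168545848) (nat_lit 504) (nat_lit 381272925) (nat_lit 84) (nat_lit 9911539918) (nat_lit 55) (nat_lit 5) (nat_lit 61) (nat_lit 5) (nat_lit 56) (nat_lit 5) (nat_lit 349) (nat_lit 318) (nat_lit 221)) (XT.lf (nat_lit 0) (nat_lit 4421081329) (nat_lit 420) (nat_lit 950595198) (nat_lit 504) (nat_lit 9375838562) (nat_lit 50) (nat_lit 5) (nat_lit 55) (nat_lit 5) (nat_lit 56) (nat_lit 5) (nat_lit 350) (nat_lit 318) (nat_lit 220))) (XT.nd (nat_lit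 94) (nat_lit 0) (nat_lit 0) (XT.lf (nat_lit 0) (nat_lit 6630841997) (nat_lit 504) (nat_lit 5702514921) (nat_lit 84) (nat_lit 2708688139) (nat_lit 50) (nat_lit 5) (nat_lit 56) (nat_lit 5) (nat_lit 51) (nat_lit 5) (nat_lit 351) (nat_lit 318) (nat_lit 219)) (XT.lf (nat_lit 0) (nat_lit 7926480498) (nat_lit 504) (nat_lit 957649151) (nat_lit 84) (nat_lit 6461736281) (nat_lit 50) (nat_lit 5) (nat_lit 56) (nat_lit 5) (nat_lit 51) (nat_lit 5) (nat_lit 352) (nat_lit 318) (nat_lit 218))))))))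
noncomputable def xc137 : XT := (XT.nd (nat_lit 2350) (nat_lit 1008) (nat_lit 0) (XT.nd (nat_lit 1128) (nat_lit 840) (nat_lit 0) (XT.nd (nat_lit 564) (nat_lit 756) (nat_lit 0) (XT.nd (nat_lit 282) (nat_lit 420) (nat_lit 0) (XT.nd (nat_lit 94) (nat_lit 0) (nat_lit 0) (XT.lf (nat_lit 0) (nat_lit 4002660983) (nat_lit 336) (nat_lit 5287415587) (nat_lit 420) (nat_lit 6368245744) (nat_lit 46) (nat_lit 5) (nat_lit 50) (nat_lit 5) (nat_lit 51) (nat_lit 5) (nat_lit 353) (nat_lit 318) (nat_lit 217)) (XT.nd (nat_lit 94) (nat_lit 0) (nat_lit 0) (XT.lf (nat_lit 0) (nat_lit 9124875655) (nat_lit 336) (nat_lit 1569387782) (nat_lit 420) (nat_lit 5286329788) (nat_lit 46) (nat_lit 5) (nat_lit 50) (nat_lit 5) (nat_lit 51) (nat_lit 5) (nat_lit 354) (nat_lit 318) (nat_lit 216)) (XT.lf (nat_lit 0) (nat_lit 12153108051) (nat_lit 420) (nat_lit 1941654977) (nat_lit 84) (nat_lit 2217820524) (nat_lit 46) (nat_lit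 5) (nat_lit 51) (nat_lit 5) (nat_lit 47) (nat_lit 5) (nat_lit 355) (nat_lit 318) (nat_lit 215)))) (XT.nd (nat_lit 94) (nat_lit 0) (nat_lit 0) (XT.lf (nat_lit 0) (nat_lit 3160515966) (nat_lit 420) (nat_lit 10533075207) (nat_lit 504) (nat_lit 2960217321) (nat_lit 41) (nat_lit 5) (nat_lit 46) (nat_lit 5) (nat_lit 47) (nat_lit 5) (nat_lit 356) (nat_lit 318) (nat_lit 214)) (XT.nd (nat_lit 94) (nat_lit 0) (nat_lit 0) (XT.lf (nat_lit 0) (nat_lit 8450282486) (nat_lit 420) (nat_lit 6841038186) (nat_lit 504) (nat_lit 1714066106) (nat_lit 41) (nat_lit 5) (nat_lit 46) (nat_lit 5) (nat_lit 47) (nat_lit 5) (nat_lit 357) (nat_lit 318) (nat_lit 213)) (XT.lf (nat_lit 0) (nat_lit 13892650790) (nat_lit 420) (nat_lit 3035477496) (nat_lit 504) (nat_lit 440127208) (nat_lit 41) (nat_lit 5) (nat_lit 46) (nat_lit 5) (nat_lit 47) (nat_lit 5) (nat_lit 358) (nat_lit 318) (nat_lit 212))))) (XT.nd (nat_lit 282)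 (nat_lit 336) (nat_lit 0) (XT.nd (nat_lit 94) (nat_lit 0) (nat_lit 0) (XT.lf (nat_lit 0) (nat_lit 872102039) (nat_lit 420) (nat_lit 15973821257) (nat_lit 84) (nat_lit 895736598) (nat_lit 36) (nat_lit 5) (nat_lit 41) (nat_lit 5) (nat_lit 37) (nat_lit 5) (nat_lit 359) (nat_lit 318) (nat_lit 211)) (XT.nd (nat_lit 94) (nat_lit 0) (nat_lit 0) (XT.lf (nat_lit 0) (nat_lit 2273445756) (nat_lit 420) (nat_lit 10925487476) (nat_lit 84) (nat_lit 4925843740) (nat_lit 36) (nat_lit 5) (nat_lit 41) (nat_lit 5) (nat_lit 37) (nat_lit 5) (nat_lit 360) (nat_lit 318) (nat_lit 210)) (XT.lf (nat_lit 0) (nat_lit 3708418150) (nat_lit 420) (nat_lit 5731871338) (nat_lit 84) (nat_lit 9079845143) (nat_lit 36) (nat_lit 5) (nat_lit 41) (nat_lit 5) (nat_lit 37) (nat_lit 5) (nat_lit 361) (nat_lit 318) (nat_lit 209)))) (XT.nd (nat_lit 94) (nat_lit 336) (nat_lit 0) (XT.lf (nat_lit 0) (nat_lit 5178356765) (nat_lit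 420) (nat_lit 388131849) (nat_lit 84) (nat_lit 13361612771) (nat_lit 36) (nat_lit 5) (nat_lit 41) (nat_lit 5) (nat_lit 37) (nat_lit 5) (nat_lit 362) (nat_lit 318) (nat_lit 208)) (XT.nd (nat_lit 94) (nat_lit 0) (nat_lit 0) (XT.lf (nat_lit 0) (nat_lit 5215798634) (nat_lit 336) (nat_lit 1520574471) (nat_lit 420) (nat_lit 12611080414) (nat_lit 32) (nat_lit 5) (nat_lit 36) (nat_lit 5) (nat_lit 37) (nat_lit 5) (nat_lit 363) (nat_lit 318) (nat_lit 207)) (XT.lf (nat_lit 0) (nat_lit 8364005053) (nat_lit 420) (nat_lit 8815104530) (nat_lit 84) (nat_lit 2600089675) (nat_lit 32) (nat_lit 5) (nat_lit 37) (nat_lit 5) (nat_lit 33) (nat_lit 5) (nat_lit 364) (nat_lit 318) (nat_lit 206)))))) (XT.nd (nat_lit 564) (nat_lit 336) (nat_lit 0) (XT.nd (nat_lit 282) (nat_lit 252) (nat_lit 0) (XT.nd (nat_lit 94) (nat_lit 252) (nat_lit 0) (XT.lf (nat_lit 0) (nat_lit 10048846719) (nat_lit 420) (nat_lit 3359735664)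 (nat_lit 84) (nat_lit 6815590266) (nat_lit 32) (nat_lit 5) (nat_lit 37) (nat_lit 5) (nat_lit 33) (nat_lit 5) (nat_lit 365) (nat_lit 318) (nat_lit 205)) (XT.nd (nat_lit 94) (nat_lit 0) (nat_lit 0) (XT.lf (nat_lit 0) (nat_lit 2300980605) (nat_lit 252) (nat_lit 9499229671) (nat_lit 336) (nat_lit 8882338182) (nat_lit 29) (nat_lit 5) (nat_lit 32) (nat_lit 5) (nat_lit 33) (nat_lit 5) (nat_lit 366) (nat_lit 318) (nat_lit 204)) (XT.lf (nat_lit 0) (nat_lit 8198377593) (nat_lit 252) (nat_lit 5434180197) (nat_lit 336) (nat_lit 7521798434) (nat_lit 29) (nat_lit 5) (nat_lit 32) (nat_lit 5) (nat_lit 33) (nat_lit 5) (nat_lit 367) (nat_lit 318) (nat_lit 203)))) (XT.nd (nat_lit 94) (nat_lit 252) (nat_lit 0) (XT.lf (nat_lit 0) (nat_lit 14268869232) (nat_lit 252) (nat_lit 1244713659) (nat_lit 336) (nat_lit 6127507272) (nat_lit 29) (nat_lit 5) (nat_lit 32) (nat_lit 5) (nat_lit 33) (nat_lit 5) (nat_lit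 368) (nat_lit 318) (nat_lit 202)) (XT.nd (nat_lit 94) (nat_lit 252) (nat_lit 0) (XT.lf (nat_lit 0) (nat_lit 17475524177) (nat_lit 336) (nat_lit 1655575388) (nat_lit 84) (nat_lit 3011159353) (nat_lit 29) (nat_lit 5) (nat_lit 33) (nat_lit 5) (nat_lit 30) (nat_lit 5) (nat_lit 369) (nat_lit 318) (nat_lit 201)) (XT.lf (nat_lit 0) (nat_lit 4302832076) (nat_lit 252) (nat_lit 15243209842) (nat_lit 336) (nat_lit 3111486937) (nat_lit 26) (nat_lit 5) (nat_lit 29) (nat_lit 5) (nat_lit 30) (nat_lit 5) (nat_lit 370) (nat_lit 318) (nat_lit 200))))) (XT.nd (nat_lit 282) (nat_lit 252) (nat_lit 0) (XT.nd (nat_lit 94) (nat_lit 84) (nat_lit 0) (XT.lf (nat_lit 0) (nat_lit 10471726755) (nat_lit 252) (nat_lit 11218778745) (nat_lit 336) (nat_lit 1498008135) (nat_lit 26) (nat_lit 5) (nat_lit 29) (nat_lit 5) (nat_lit 30) (nat_lit 5) (nat_lit 371) (nat_lit 318) (nat_lit 199)) (XT.nd (nat_lit 94) (nat_lit 0)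 (nat_lit 0) (XT.lf (nat_lit 0) (nat_lit 154742950) (nat_lit 336) (nat_lit 6914977744) (nat_lit 84) (nat_lit 16666458531) (nat_lit 25) (nat_lit 5) (nat_lit 29) (nat_lit 5) (nat_lit 26) (nat_lit 5) (nat_lit 372) (nat_lit 318) (nat_lit 198)) (XT.lf (nat_lit 0) (nat_lit 1820423676) (nat_lit 336) (nat_lit 957590271) (nat_lit 84) (nat_lit 21522596565) (nat_lit 25) (nat_lit 5) (nat_lit 29) (nat_lit 5) (nat_lit 26) (nat_lit 5) (nat_lit 373) (nat_lit 318) (nat_lit 197)))) (XT.nd (nat_lit 188) (nat_lit 0) (nat_lit 0) (XT.nd (nat_lit 94) (nat_lit 0) (nat_lit 0) (XT.lf (nat_lit 0) (nat_lit 3600023110) (nat_lit 336) (nat_lit 19615810906) (nat_lit 84) (nat_lit 1664813360) (nat_lit 22) (nat_lit 5) (nat_lit 26) (nat_lit 5) (nat_lit 23) (nat_lit 5) (nat_lit 374) (nat_lit 318) (nat_lit 196)) (XT.lf (nat_lit 0) (nat_lit 5466434796) (nat_lit 336) (nat_lit 13815243552) (nat_lit 84) (nat_lit 6196043846)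 (nat_lit 22) (nat_lit 5) (nat_lit 26) (nat_lit 5) (nat_lit 23) (nat_lit 5) (nat_lit 375) (nat_lit 318) (nat_lit 195))) (XT.nd (nat_lit 94) (nat_lit 0) (nat_lit 0) (XT.lf (nat_lit 0) (nat_lit 7384046287) (nat_lit 336) (nat_lit 7843425146) (nat_lit 84) (nat_lit 10866077985) (nat_lit 22) (nat_lit 5) (nat_lit 26) (nat_lit 5) (nat_lit 23) (nat_lit 5) (nat_lit 376) (nat_lit 318) (nat_lit 194)) (XT.lf (nat_lit 0) (nat_lit 9354644998) (nat_lit 336) (nat_lit 1694789328) (nat_lit 84) (nat_lit 15679268740) (nat_lit 22) (nat_lit 5) (nat_lit 26) (nat_lit 5) (nat_lit 23) (nat_lit 5) (nat_lit 377) (nat_lit 318) (nat_lit 193))))))) (XT.nd (nat_lit 1222) (nat_lit 336) (nat_lit 0) (XT.nd (nat_lit 564) (nat_lit 252) (nat_lit 0) (XT.nd (nat_lit 282) (nat_lit 168) (nat_lit 0) (XT.nd (nat_lit 94) (nat_lit 0) (nat_lit 0) (XT.lf (nat_lit 0) (nat_lit 4731728865) (nat_lit 252) (nat_lit 6695278203) (nat_lit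 336) (nat_lit 15955312977) (nat_lit 19) (nat_lit 5) (nat_lit 22) (nat_lit 5) (nat_lit 23) (nat_lit 5) (nat_lit 378) (nat_lit 318) (nat_lit 192)) (XT.nd (nat_lit 94) (nat_lit 0) (nat_lit 0) (XT.lf (nat_lit 0) (nat_lit 11385420233) (nat_lit 252) (nat_lit 2189726942) (nat_lit 336) (nat_lit 14480727848) (nat_lit 19) (nat_lit 5) (nat_lit 22) (nat_lit 5) (nat_lit 23) (nat_lit 5) (nat_lit 379) (nat_lit 318) (nat_lit 191)) (XT.lf (nat_lit 0) (nat_lit 15808250686) (nat_lit 336) (nat_lit 10537230658) (nat_lit 84) (nat_lit 2404291805) (nat_lit 19) (nat_lit 5) (nat_lit 23) (nat_lit 5) (nat_lit 20) (nat_lit 5) (nat_lit 380) (nat_lit 318) (nat_lit 190)))) (XT.nd (nat_lit 94) (nat_lit 168) (nat_lit 0) (XT.lf (nat_lit 0) (nat_lit 18127168431) (nat_lit 336) (nat_lit 4243971319) (nat_lit 84) (nat_lit 7093559606) (nat_lit 19) (nat_lit 5) (nat_lit 23) (nat_lit 5) (nat_lit 20) (nat_lit 5) (nat_lit 381)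 (nat_lit 318) (nat_lit 189)) (XT.nd (nat_lit 94) (nat_lit 0) (nat_lit 0) (XT.lf (nat_lit 0) (nat_lit 2282907053) (nat_lit 168) (nat_lit 18252079192) (nat_lit 252) (nat_lit 9666305133) (nat_lit 17) (nat_lit 5) (nat_lit 19) (nat_lit 5) (nat_lit 20) (nat_lit 5) (nat_lit 382) (nat_lit 318) (nat_lit 188)) (XT.lf (nat_lit 0) (nat_lit 9094696723) (nat_lit 168) (nat_lit 13961510987) (nat_lit 252) (nat_lit 7903338047) (nat_lit 17) (nat_lit 5) (nat_lit 19) (nat_lit 5) (nat_lit 20) (nat_lit 5) (nat_lit 383) (nat_lit 318) (nat_lit 187))))) (XT.nd (nat_lit 282) (nat_lit 252) (nat_lit 0) (XT.nd (nat_lit 94) (nat_lit 0) (nat_lit 0) (XT.lf (nat_lit 0) (nat_lit 16110482239) (nat_lit 168) (nat_lit 9539734235) (nat_lit 252) (nat_lit 6091284751) (nat_lit 17) (nat_lit 5) (nat_lit 19) (nat_lit 5) (nat_lit 20) (nat_lit 5) (nat_lit 384) (nat_lit 318) (nat_lit 186)) (XT.nd (nat_lit 94) (nat_lit 0) (nat_lit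 0) (XT.lf (nat_lit 0) (nat_lit 23336803047) (nat_lit 168) (nat_lit 4982627376) (nat_lit 252) (nat_lit 4228456225) (nat_lit 17) (nat_lit 5) (nat_lit 19) (nat_lit 5) (nat_lit 20) (nat_lit 5) (nat_lit 385) (nat_lit 318) (nat_lit 185)) (XT.lf (nat_lit 0) (nat_lit 30780394835) (nat_lit 168) (nat_lit 285942709) (nat_lit 252) (nat_lit 2313116115) (nat_lit 17) (nat_lit 5) (nat_lit 19) (nat_lit 5) (nat_lit 20) (nat_lit 5) (nat_lit 386) (nat_lit 318) (nat_lit 184)))) (XT.nd (nat_lit 188) (nat_lit 0) (nat_lit 0) (XT.nd (nat_lit 94) (nat_lit 84) (nat_lit 0) (XT.lf (nat_lit 0) (nat_lit 4251697508) (nat_lit 168) (nat_lit 29729161265) (nat_lit 252) (nat_lit 253410418) (nat_lit 15) (nat_lit 5) (nat_lit 17) (nat_lit 5) (nat_lit 18) (nat_lit 5) (nat_lit 387) (nat_lit 318) (nat_lit 183)) (XT.lf (nat_lit 0) (nat_lit 1857888534) (nat_lit 252) (nat_lit 23773332821) (nat_lit 84) (nat_lit 9483024113) (nat_lit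 14) (nat_lit 5) (nat_lit 17) (nat_lit 5) (nat_lit 15) (nat_lit 5) (nat_lit 388) (nat_lit 318) (nat_lit 182))) (XT.nd (nat_lit 94) (nat_lit 0) (nat_lit 0) (XT.lf (nat_lit 0) (nat_lit 4024612260) (nat_lit 252) (nat_lit 17380757750) (nat_lit 84) (nat_lit 14616222172) (nat_lit 14) (nat_lit 5) (nat_lit 17) (nat_lit 5) (nat_lit 15) (nat_lit 5) (nat_lit 389) (nat_lit 318) (nat_lit 181)) (XT.lf (nat_lit 0) (nat_lit 6253886028) (nat_lit 252) (nat_lit 10796374058) (nat_lit 84) (nat_lit 19906972920) (nat_lit 14) (nat_lit 5) (nat_lit 17) (nat_lit 5) (nat_lit 15) (nat_lit 5) (nat_lit 390) (nat_lit 318) (nat_lit 180)))))) (XT.nd (nat_lit 564) (nat_lit 168) (nat_lit 0) (XT.nd (nat_lit 282) (nat_lit 0) (nat_lit 0) (XT.nd (nat_lit 94) (nat_lit 168) (nat_lit 0) (XT.lf (nat_lit 0) (nat_lit 8547787755) (nat_lit 252) (nat_lit 4014044408) (nat_lit 84) (nat_lit 25360207889) (nat_lit 14) (nat_lit 5) (nat_lit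 17) (nat_lit 5) (nat_lit 15) (nat_lit 5) (nat_lit 391) (nat_lit 318) (nat_lit 179)) (XT.nd (nat_lit 94) (nat_lit 0) (nat_lit 0) (XT.lf (nat_lit 0) (nat_lit 3033674826) (nat_lit 168) (nat_lit 7904875201) (nat_lit 252) (nat_lit 27977429671) (nat_lit 12) (nat_lit 5) (nat_lit 14) (nat_lit 5) (nat_lit 15) (nat_lit 5) (nat_lit 392) (nat_lit 318) (nat_lit 178)) (XT.lf (nat_lit 0) (nat_lit 10379045155) (nat_lit 168) (nat_lit 3062006201) (nat_lit 252) (nat_lit 26498534887) (nat_lit 12) (nat_lit 5) (nat_lit 14) (nat_lit 5) (nat_lit 15) (nat_lit 5) (nat_lit 393) (nat_lit 318) (nat_lit 177)))) (XT.nd (nat_lit 94) (nat_lit 0) (nat_lit 0) (XT.lf (nat_lit 0) (nat_lit 16036125537) (nat_lit 252) (nat_lit 23067837141) (nat_lit 84) (nat_lit 1890517585) (nat_lit 12) (nat_lit 5) (nat_lit 15) (nat_lit 5) (nat_lit 13) (nat_lit 5) (nat_lit 394) (nat_lit 318) (nat_lit 176)) (XT.nd (nat_lit 94) (nat_lit 0)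 (nat_lit 0) (XT.lf (nat_lit 0) (nat_lit 18738928862) (nat_lit 252) (nat_lit 16410878562) (nat_lit 84) (nat_lit 6931442743) (nat_lit 12) (nat_lit 5) (nat_lit 15) (nat_lit 5) (nat_lit 13) (nat_lit 5) (nat_lit 395) (nat_lit 318) (nat_lit 175)) (XT.lf (nat_lit 0) (nat_lit 21521605147) (nat_lit 252) (nat_lit 9553084890) (nat_lit 84) (nat_lit 12127160542) (nat_lit 12) (nat_lit 5) (nat_lit 15) (nat_lit 5) (nat_lit 13) (nat_lit 5) (nat_lit 396) (nat_lit 318) (nat_lit 174))))) (XT.nd (nat_lit 282) (nat_lit 0) (nat_lit 0) (XT.nd (nat_lit 94) (nat_lit 168) (nat_lit 0) (XT.lf (nat_lit 0) (nat_lit 24386748138) (nat_lit 252) (nat_lit 2488063942) (nat_lit 84) (nat_lit 17482513936) (nat_lit 12) (nat_lit 5) (nat_lit 15) (nat_lit 5) (nat_lit 13) (nat_lit 5) (nat_lit 397) (nat_lit 318) (nat_lit 173)) (XT.nd (nat_lit 94) (nat_lit 0) (nat_lit 0) (XT.lf (nat_lit 0) (nat_lit 4889277670) (nat_lit 168) (nat_lit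 22496253018) (nat_lit 252) (nat_lit 18161719246) (nat_lit 10) (nat_lit 5) (nat_lit 12) (nat_lit 5) (nat_lit 13) (nat_lit 5) (nat_lit 398) (nat_lit 318) (nat_lit 172)) (XT.lf (nat_lit 0) (nat_lit 12542912163) (nat_lit 168) (nat_lit 17956711127) (nat_lit 252) (nat_lit 16273763040) (nat_lit 10) (nat_lit 5) (nat_lit 12) (nat_lit 5) (nat_lit 13) (nat_lit 5) (nat_lit 399) (nat_lit 318) (nat_lit 171)))) (XT.nd (nat_lit 188) (nat_lit 0) (nat_lit 0) (XT.nd (nat_lit 94) (nat_lit 0) (nat_lit 0) (XT.lf (nat_lit 0) (nat_lit 20428813827) (nat_lit 168) (nat_lit 13277925363) (nat_lit 252) (nat_lit 14330919772) (nat_lit 10) (nat_lit 5) (nat_lit 12) (nat_lit 5) (nat_lit 13) (nat_lit 5) (nat_lit 400) (nat_lit 318) (nat_lit 170)) (XT.lf (nat_lit 0) (nat_lit 28554333151) (nat_lit 168) (nat_lit 8455534609) (nat_lit 252) (nat_lit 12331378511) (nat_lit 10) (nat_lit 5) (nat_lit 12) (nat_lit 5) (nat_lit 13)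 (nat_lit 5) (nat_lit 401) (nat_lit 318) (nat_lit 169))) (XT.nd (nat_lit 94) (nat_lit 0) (nat_lit 0) (XT.lf (nat_lit 0) (nat_lit 36927043967) (nat_lit 168) (nat_lit 3485043890) (nat_lit 252) (nat_lit 10273275472) (nat_lit 10) (nat_lit 5) (nat_lit 12) (nat_lit 5) (nat_lit 13) (nat_lit 5) (nat_lit 402) (nat_lit 318) (nat_lit 168)) (XT.lf (nat_lit 0) (nat_lit 43932821656) (nat_lit 252) (nat_lit 6532763425) (nat_lit 84) (nat_lit 1605174139) (nat_lit 10) (nat_lit 5) (nat_lit 13) (nat_lit 5) (nat_lit 11) (nat_lit 4) (nat_lit 403) (nat_lit 318) (nat_lit 167))))))))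
noncomputable def xc138 : XT := (XT.nd (nat_lit 47752) (nat_lit 0) (nat_lit 4704) (XT.nd (nat_lit 1128) (nat_lit 84) (nat_lit 0) (XT.nd (nat_lit 564) (nat_lit 168) (nat_lit 0) (XT.nd (nat_lit 282) (nat_lit 84) (nat_lit 0) (XT.nd (nat_lit 94) (nat_lit 0) (nat_lit 0) (XT.lf (nat_lit 0) (nat_lit 894646321) (nat_lit 84) (nat_lit 46709448005) (nat_lit 168) (nat_lit 5893739902) (nat_lit 9) (nat_lit 5) (nat_lit 10) (nat_lit 5) (nat_lit 11) (nat_lit 4) (nat_lit 404) (nat_lit 318) (nat_lit 166)) (XT.nd (nat_lit 94) (nat_lit 0) (nat_lit 0) (XT.lf (nat_lit 0) (nat_lit 8686322926) (nat_lit 84) (nat_lit 42767969004) (nat_lit 168) (nat_lit 3512852721) (nat_lit 9) (nat_lit 5) (nat_lit 10) (nat_lit 5) (nat_lit 11) (nat_lit 4) (nat_lit 405) (nat_lit 318) (nat_lit 165)) (XT.lf (nat_lit 0) (nat_lit 16715202036) (nat_lit 84) (nat_lit 38705662859) (nat_lit 168) (nat_lit 1061245435) (nat_lit 9) (nat_lit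 5) (nat_lit 10) (nat_lit 5) (nat_lit 11) (nat_lit 4) (nat_lit 406) (nat_lit 318) (nat_lit 164)))) (XT.nd (nat_lit 94) (nat_lit 0) (nat_lit 0) (XT.lf (nat_lit 0) (nat_lit 1433883522) (nat_lit 168) (nat_lit 33069892749) (nat_lit 84) (nat_lit 23539917079) (nat_lit 8) (nat_lit 5) (nat_lit 10) (nat_lit 5) (nat_lit 9) (nat_lit 5) (nat_lit 407) (nat_lit 318) (nat_lit 163)) (XT.nd (nat_lit 94) (nat_lit 0) (nat_lit 0) (XT.lf (nat_lit 0) (nat_lit 3981470907) (nat_lit 168) (nat_lit 26180277707) (nat_lit 84) (nat_lit 29491701566) (nat_lit 8) (nat_lit 5) (nat_lit 10) (nat_lit 5) (nat_lit 9) (nat_lit 5) (nat_lit 408) (nat_lit 318) (nat_lit 162)) (XT.lf (nat_lit 0) (nat_lit 6605273067) (nat_lit 168) (nat_lit 19081113638) (nat_lit 84) (nat_lit 35626820931) (nat_lit 8) (nat_lit 5) (nat_lit 10) (nat_lit 5) (nat_lit 9) (nat_lit 5) (nat_lit 409) (nat_lit 318) (nat_lit 161))))) (XT.nd (nat_lit 282) (nat_lit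 0) (nat_lit 0) (XT.nd (nat_lit 94) (nat_lit 168) (nat_lit 0) (XT.lf (nat_lit 0) (nat_lit 9307735661) (nat_lit 168) (nat_lit 11765783379) (nat_lit 84) (nat_lit 41950993750) (nat_lit 8) (nat_lit 5) (nat_lit 10) (nat_lit 5) (nat_lit 9) (nat_lit 5) (nat_lit 410) (nat_lit 318) (nat_lit 160)) (XT.nd (nat_lit 94) (nat_lit 168) (nat_lit 0) (XT.lf (nat_lit 0) (nat_lit 12091377667) (nat_lit 168) (nat_lit 4227468274) (nat_lit 84) (nat_lit 48470114814) (nat_lit 8) (nat_lit 5) (nat_lit 10) (nat_lit 5) (nat_lit 9) (nat_lit 5) (nat_lit 411) (nat_lit 318) (nat_lit 159)) (XT.lf (nat_lit 0) (nat_lit 3613665480) (nat_lit 168) (nat_lit 11380976260) (nat_lit 252) (nat_lit 51612443154) (nat_lit 6) (nat_lit 5) (nat_lit 8) (nat_lit 5) (nat_lit 9) (nat_lit 5) (nat_lit 412) (nat_lit 318) (nat_lit 158)))) (XT.nd (nat_lit 94) (nat_lit 0) (nat_lit 0) (XT.lf (nat_lit 0) (nat_lit 11783855283) (nat_lit 168) (nat_lit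 6245698604) (nat_lit 252) (nat_lit 50450737085) (nat_lit 6) (nat_lit 5) (nat_lit 8) (nat_lit 5) (nat_lit 9) (nat_lit 5) (nat_lit 413) (nat_lit 318) (nat_lit 157)) (XT.nd (nat_lit 94) (nat_lit 0) (nat_lit 0) (XT.lf (nat_lit 0) (nat_lit 20203791191) (nat_lit 168) (nat_lit 952352457) (nat_lit 252) (nat_lit 49255508147) (nat_lit 6) (nat_lit 5) (nat_lit 8) (nat_lit 5) (nat_lit 9) (nat_lit 5) (nat_lit 414) (nat_lit 318) (nat_lit 156)) (XT.lf (nat_lit 0) (nat_lit 24422005530) (nat_lit 252) (nat_lit 43566326328) (nat_lit 84) (nat_lit 4413250649) (nat_lit 6) (nat_lit 5) (nat_lit 9) (nat_lit 5) (nat_lit 7) (nat_lit 4) (nat_lit 415) (nat_lit 318) (nat_lit 155)))))) (XT.nd (nat_lit 564) (nat_lit 0) (nat_lit 0) (XT.nd (nat_lit 282) (nat_lit 84) (nat_lit 0) (XT.nd (nat_lit 94) (nat_lit 0) (nat_lit 0) (XT.lf (nat_lit 0) (nat_lit 27796576722) (nat_lit 252) (nat_lit 36732035317) (nat_lit 84) (nat_lit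 9924367704) (nat_lit 6) (nat_lit 5) (nat_lit 9) (nat_lit 5) (nat_lit 7) (nat_lit 4) (nat_lit 416) (nat_lit 318) (nat_lit 154)) (XT.nd (nat_lit 94) (nat_lit 0) (nat_lit 0) (XT.lf (nat_lit 0) (nat_lit 31273555225) (nat_lit 252) (nat_lit 29689169845) (nat_lit 84) (nat_lit 15605323426) (nat_lit 6) (nat_lit 5) (nat_lit 9) (nat_lit 5) (nat_lit 7) (nat_lit 4) (nat_lit 417) (nat_lit 318) (nat_lit 153)) (XT.lf (nat_lit 0) (nat_lit 34856181947) (nat_lit 252) (nat_lit 22431165221) (nat_lit 84) (nat_lit 21461413059) (nat_lit 6) (nat_lit 5) (nat_lit 9) (nat_lit 5) (nat_lit 7) (nat_lit 4) (nat_lit 418) (nat_lit 318) (nat_lit 152)))) (XT.nd (nat_lit 94) (nat_lit 84) (nat_lit 0) (XT.lf (nat_lit 0) (nat_lit 38547796272) (nat_lit 252) (nat_lit 14951256227) (nat_lit 84) (nat_lit 27498095094) (nat_lit 6) (nat_lit 5) (nat_lit 9) (nat_lit 5) (nat_lit 7) (nat_lit 4) (nat_lit 419) (nat_lit 318) (nat_lit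 151)) (XT.nd (nat_lit 94) (nat_lit 84) (nat_lit 0) (XT.lf (nat_lit 0) (nat_lit 42351839170) (nat_lit 252) (nat_lit 7242470803) (nat_lit 84) (nat_lit 33720996350) (nat_lit 6) (nat_lit 5) (nat_lit 9) (nat_lit 5) (nat_lit 7) (nat_lit 4) (nat_lit 420) (nat_lit 318) (nat_lit 150)) (XT.lf (nat_lit 0) (nat_lit 716818747) (nat_lit 84) (nat_lit 45562148592) (nat_lit 168) (nat_lit 39426209407) (nat_lit 5) (nat_lit 5) (nat_lit 6) (nat_lit 5) (nat_lit 7) (nat_lit 4) (nat_lit 421) (nat_lit 318) (nat_lit 149))))) (XT.nd (nat_lit 282) (nat_lit 0) (nat_lit 0) (XT.nd (nat_lit 94) (nat_lit 0) (nat_lit 0) (XT.lf (nat_lit 0) (nat_lit 9073501792) (nat_lit 84) (nat_lit 41328010323) (nat_lit 168) (nat_lit 37765345560) (nat_lit 5) (nat_lit 5) (nat_lit 6) (nat_lit 5) (nat_lit 7) (nat_lit 4) (nat_lit 422) (nat_lit 318) (nat_lit 148)) (XT.nd (nat_lit 94) (nat_lit 0) (nat_lit 0) (XT.lf (nat_lit 0) (nat_lit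 17686447583) (nat_lit 84) (nat_lit 36963545046) (nat_lit 168) (nat_lit 36054924055) (nat_lit 5) (nat_lit 5) (nat_lit 6) (nat_lit 5) (nat_lit 7) (nat_lit 4) (nat_lit 423) (nat_lit 318) (nat_lit 147)) (XT.lf (nat_lit 0) (nat_lit 26563684286) (nat_lit 84) (nat_lit 32464684622) (nat_lit 168) (nat_lit 34293350600) (nat_lit 5) (nat_lit 5) (nat_lit 6) (nat_lit 5) (nat_lit 7) (nat_lit 4) (nat_lit 424) (nat_lit 318) (nat_lit 146)))) (XT.nd (nat_lit 188) (nat_lit 0) (nat_lit 0) (XT.nd (nat_lit 94) (nat_lit 0) (nat_lit 0) (XT.lf (nat_lit 0) (nat_lit 35713486418) (nat_lit 84) (nat_lit 27827235642) (nat_lit 168) (nat_lit 32478983224) (nat_lit 5) (nat_lit 5) (nat_lit 6) (nat_lit 5) (nat_lit 7) (nat_lit 4) (nat_lit 425) (nat_lit 318) (nat_lit 145)) (XT.lf (nat_lit 0) (nat_lit 45144382551) (nat_lit 84) (nat_lit 23046875519) (nat_lit 168) (nat_lit 30610130746) (nat_lit 5) (nat_lit 5) (nat_lit 6)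 (nat_lit 5) (nat_lit 7) (nat_lit 4) (nat_lit 426) (nat_lit 318) (nat_lit 144))) (XT.nd (nat_lit 94) (nat_lit 0) (nat_lit 0) (XT.lf (nat_lit 0) (nat_lit 54865163270) (nat_lit 84) (nat_lit 18119148455) (nat_lit 168) (nat_lit 28685051201) (nat_lit 5) (nat_lit 5) (nat_lit 6) (nat_lit 5) (nat_lit 7) (nat_lit 4) (nat_lit 427) (nat_lit 318) (nat_lit 143)) (XT.lf (nat_lit 0) (nat_lit 64884889358) (nat_lit 84) (nat_lit 13039461293) (nat_lit 168) (nat_lit 26701950212) (nat_lit 5) (nat_lit 5) (nat_lit 6) (nat_lit 5) (nat_lit 7) (nat_lit 4) (nat_lit 428) (nat_lit 318) (nat_lit 142))))))) (XT.nd (nat_lit 1222) (nat_lit 2604) (nat_lit 0) (XT.nd (nat_lit 564) (nat_lit 0) (nat_lit 168) (XT.nd (nat_lit 282) (nat_lit 0) (nat_lit 84) (XT.nd (nat_lit 94) (nat_lit 0) (nat_lit 0) (XT.lf (nat_lit 0) (nat_lit 295886650) (nat_lit 924) (nat_lit 2105288143) (nat_lit 924) (nat_lit 2105288143) (nat_lit 92) (nat_lit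 3) (nat_lit 103) (nat_lit 3) (nat_lit 103) (nat_lit 5) (nat_lit 319) (nat_lit 319) (nat_lit 250)) (XT.nd (nat_lit 94) (nat_lit 0) (nat_lit 0) (XT.lf (nat_lit 0) (nat_lit 1291826242) (nat_lit 924) (nat_lit 1239232057) (nat_lit 924) (nat_lit 6594805811) (nat_lit 92) (nat_lit 3) (nat_lit 103) (nat_lit 3) (nat_lit 103) (nat_lit 5) (nat_lit 320) (nat_lit 319) (nat_lit 249)) (XT.lf (nat_lit 84) (nat_lit 1846977424) (nat_lit 0) (nat_lit 157086240) (nat_lit 924) (nat_lit 7238750169) (nat_lit 93) (nat_lit 5) (nat_lit 92) (nat_lit 3) (nat_lit 103) (nat_lit 5) (nat_lit 321) (nat_lit 319) (nat_lit 248)))) (XT.nd (nat_lit 94) (nat_lit 0) (nat_lit 0) (XT.lf (nat_lit 0) (nat_lit 2747152600) (nat_lit 840) (nat_lit 4346201852) (nat_lit 924) (nat_lit 2269971506) (nat_lit 93) (nat_lit 5) (nat_lit 103) (nat_lit 5) (nat_lit 104) (nat_lit 5) (nat_lit 322) (nat_lit 319) (nat_lit 247)) (XT.nd (nat_lit 94)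 (nat_lit 0) (nat_lit 0) (XT.lf (nat_lit 0) (nat_lit 3488679241) (nat_lit 840) (nat_lit 1218659668) (nat_lit 924) (nat_lit 4781200206) (nat_lit 93) (nat_lit 5) (nat_lit 103) (nat_lit 5) (nat_lit 104) (nat_lit 5) (nat_lit 323) (nat_lit 319) (nat_lit 246)) (XT.lf (nat_lit 84) (nat_lit 2032208119) (nat_lit 0) (nat_lit 2215728088) (nat_lit 924) (nat_lit 5370057163) (nat_lit 94) (nat_lit 5) (nat_lit 93) (nat_lit 5) (nat_lit 104) (nat_lit 5) (nat_lit 324) (nat_lit 319) (nat_lit 245))))) (XT.nd (nat_lit 282) (nat_lit 0) (nat_lit 0) (XT.nd (nat_lit 94) (nat_lit 0) (nat_lit 0) (XT.lf (nat_lit 0) (nat_lit 5022390817) (nat_lit 840) (nat_lit 4360499034) (nat_lit 924) (nat_lit 369019989) (nat_lit 94) (nat_lit 5) (nat_lit 104) (nat_lit 5) (nat_lit 105) (nat_lit 5) (nat_lit 325) (nat_lit 319) (nat_lit 244)) (XT.nd (nat_lit 94) (nat_lit 0) (nat_lit 0) (XT.lf (nat_lit 0) (nat_lit 5819564916) (nat_lit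 840) (nat_lit 1072912247) (nat_lit 924) (nat_lit 2997725387) (nat_lit 94) (nat_lit 5) (nat_lit 104) (nat_lit 5) (nat_lit 105) (nat_lit 5) (nat_lit 326) (nat_lit 319) (nat_lit 243)) (XT.lf (nat_lit 84) (nat_lit 2349354026) (nat_lit 0) (nat_lit 4292173113) (nat_lit 924) (nat_lit 3391432172) (nat_lit 95) (nat_lit 5) (nat_lit 94) (nat_lit 5) (nat_lit 105) (nat_lit 5) (nat_lit 327) (nat_lit 319) (nat_lit 242)))) (XT.nd (nat_lit 188) (nat_lit 0) (nat_lit 84) (XT.nd (nat_lit 94) (nat_lit 0) (nat_lit 84) (XT.lf (nat_lit 84) (nat_lit 5886033288) (nat_lit 0) (nat_lit 1591461160) (nat_lit 924) (nat_lit 2703176764) (nat_lit 95) (nat_lit 5) (nat_lit 94) (nat_lit 5) (nat_lit 105) (nat_lit 5) (nat_lit 328) (nat_lit 319) (nat_lit 241)) (XT.lf (nat_lit 0) (nat_lit 8329297620) (nat_lit 840) (nat_lit 827365690) (nat_lit 924) (nat_lit 1176780026) (nat_lit 95) (nat_lit 5) (nat_lit 105) (nat_lit 5) (nat_lit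 106) (nat_lit 5) (nat_lit 329) (nat_lit 319) (nat_lit 240))) (XT.nd (nat_lit 94) (nat_lit 0) (nat_lit 0) (XT.lf (nat_lit 84) (nat_lit 2772504767) (nat_lit 0) (nat_lit 6457527750) (nat_lit 924) (nat_lit 1260384208) (nat_lit 96) (nat_lit 5) (nat_lit 95) (nat_lit 5) (nat_lit 106) (nat_lit 5) (nat_lit 330) (nat_lit 319) (nat_lit 239)) (XT.lf (nat_lit 84) (nat_lit 6487187321) (nat_lit 0) (nat_lit 3659381201) (nat_lit 924) (nat_lit 506222250) (nat_lit 96) (nat_lit 5) (nat_lit 95) (nat_lit 5) (nat_lit 106) (nat_lit 5) (nat_lit 331) (nat_lit 319) (nat_lit 238)))))) (XT.nd (nat_lit 564) (nat_lit 1932) (nat_lit 0) (XT.nd (nat_lit 282) (nat_lit 0) (nat_lit 84) (XT.nd (nat_lit 94) (nat_lit 0) (nat_lit 84) (XT.lf (nat_lit 0) (nat_lit 245361969) (nat_lit 924) (nat_lit 520328453) (nat_lit 1008) (nat_lit 10055209063) (nat_lit 84) (nat_lit 5) (nat_lit 95) (nat_lit 5) (nat_lit 96) (nat_lit 5) (nat_lit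 332) (nat_lit 319) (nat_lit 237)) (XT.nd (nat_lit 94) (nat_lit 0) (nat_lit 0) (XT.lf (nat_lit 0) (nat_lit 1044886707) (nat_lit 924) (nat_lit 7731326013) (nat_lit 1008) (nat_lit 2216901304) (nat_lit 85) (nat_lit 5) (nat_lit 96) (nat_lit 5) (nat_lit 97) (nat_lit 5) (nat_lit 333) (nat_lit 319) (nat_lit 236)) (XT.lf (nat_lit 0) (nat_lit 1863155097) (nat_lit 924) (nat_lit 4020888619) (nat_lit 1008) (nat_lit 5286951254) (nat_lit 85) (nat_lit 5) (nat_lit 96) (nat_lit 5) (nat_lit 97) (nat_lit 5) (nat_lit 334) (nat_lit 319) (nat_lit 235)))) (XT.nd (nat_lit 94) (nat_lit 0) (nat_lit 84) (XT.lf (nat_lit 0) (nat_lit 2688012369) (nat_lit 924) (nat_lit 209669943) (nat_lit 1008) (nat_lit 8457426255) (nat_lit 85) (nat_lit 5) (nat_lit 96) (nat_lit 5) (nat_lit 97) (nat_lit 5) (nat_lit 335) (nat_lit 319) (nat_lit 234)) (XT.nd (nat_lit 94) (nat_lit 0) (nat_lit 0) (XT.lf (nat_lit 0) (nat_lit 3559971559)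 (nat_lit 924) (nat_lit 7764605786) (nat_lit 84) (nat_lit 219817014) (nat_lit 86) (nat_lit 5) (nat_lit 97) (nat_lit 5) (nat_lit 87) (nat_lit 5) (nat_lit 336) (nat_lit 319) (nat_lit 233)) (XT.lf (nat_lit 0) (nat_lit 4473048935) (nat_lit 924) (nat_lit 3886168949) (nat_lit 84) (nat_lit 3380021588) (nat_lit 86) (nat_lit 5) (nat_lit 97) (nat_lit 5) (nat_lit 87) (nat_lit 5) (nat_lit 337) (nat_lit 319) (nat_lit 232))))) (XT.nd (nat_lit 282) (nat_lit 1176) (nat_lit 0) (XT.nd (nat_lit 94) (nat_lit 0) (nat_lit 0) (XT.lf (nat_lit 0) (nat_lit 100563262) (nat_lit 924) (nat_lit 5297640122) (nat_lit 1008) (nat_lit 6542548796) (nat_lit 75) (nat_lit 5) (nat_lit 86) (nat_lit 5) (nat_lit 87) (nat_lit 5) (nat_lit 338) (nat_lit 319) (nat_lit 231)) (XT.nd (nat_lit 94) (nat_lit 0) (nat_lit 0) (XT.lf (nat_lit 0) (nat_lit 4279447976) (nat_lit 924) (nat_lit 2096308194) (nat_lit 1008) (nat_lit 5772140917) (nat_lit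 75) (nat_lit 5) (nat_lit 86) (nat_lit 5) (nat_lit 87) (nat_lit 5) (nat_lit 339) (nat_lit 319) (nat_lit 230)) (XT.lf (nat_lit 0) (nat_lit 7379250061) (nat_lit 1008) (nat_lit 3799589746) (nat_lit 84) (nat_lit 1182875887) (nat_lit 75) (nat_lit 5) (nat_lit 87) (nat_lit 5) (nat_lit 76) (nat_lit 5) (nat_lit 340) (nat_lit 319) (nat_lit 229)))) (XT.nd (nat_lit 188) (nat_lit 504) (nat_lit 0) (XT.nd (nat_lit 94) (nat_lit 0) (nat_lit 0) (XT.lf (nat_lit 0) (nat_lit 367737827) (nat_lit 672) (nat_lit 8055383643) (nat_lit 756) (nat_lit 4158867301) (nat_lit 67) (nat_lit 5) (nat_lit 75) (nat_lit 5) (nat_lit 76) (nat_lit 5) (nat_lit 341) (nat_lit 319) (nat_lit 228)) (XT.lf (nat_lit 0) (nat_lit 4731304680) (nat_lit 672) (nat_lit 4792230792) (nat_lit 756) (nat_lit 3284915207) (nat_lit 67) (nat_lit 5) (nat_lit 75) (nat_lit 5) (nat_lit 76) (nat_lit 5) (nat_lit 342) (nat_lit 319) (nat_lit 227))) (XT.nd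 (nat_lit 94) (nat_lit 504) (nat_lit 0) (XT.lf (nat_lit 0) (nat_lit 9217050755) (nat_lit 672) (nat_lit 1425999580) (nat_lit 756) (nat_lit 2399454663) (nat_lit 67) (nat_lit 5) (nat_lit 75) (nat_lit 5) (nat_lit 76) (nat_lit 5) (nat_lit 343) (nat_lit 319) (nat_lit 226)) (XT.lf (nat_lit 0) (nat_lit 535270848) (nat_lit 504) (nat_lit 11273049682) (nat_lit 588) (nat_lit 1475255418) (nat_lit 61) (nat_lit 5) (nat_lit 67) (nat_lit 5) (nat_lit 68) (nat_lit 5) (nat_lit 344) (nat_lit 319) (nat_lit 225))))))))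
noncomputable def xc139 : XT := (XT.nd (nat_lit 2444) (nat_lit 1428) (nat_lit 0) (XT.nd (nat_lit 1222) (nat_lit 1008) (nat_lit 0) (XT.nd (nat_lit 564) (nat_lit 756) (nat_lit 0) (XT.nd (nat_lit 282) (nat_lit 420) (nat_lit 0) (XT.nd (nat_lit 94) (nat_lit 504) (nat_lit 0) (XT.lf (nat_lit 0) (nat_lit 5084254796) (nat_lit 504) (nat_lit 7965590986) (nat_lit 588) (nat_lit 481130632) (nat_lit 61) (nat_lit 5) (nat_lit 67) (nat_lit 5) (nat_lit 68) (nat_lit 5) (nat_lit 345) (nat_lit 319) (nat_lit 224)) (XT.nd (nat_lit 94) (nat_lit 420) (nat_lit 0) (XT.lf (nat_lit 0) (nat_lit 518811628) (nat_lit 588) (nat_lit 4030308689) (nat_lit 84) (nat_lit 9237288551) (nat_lit 60) (nat_lit 5) (nat_lit 67) (nat_lit 5) (nat_lit 61) (nat_lit 5) (nat_lit 346) (nat_lit 319) (nat_lit 223)) (XT.lf (nat_lit 0) (nat_lit 515753164) (nat_lit 420) (nat_lit 1015499529) (nat_lit 504) (nat_lit 12518709760) (nat_lit 55)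 (nat_lit 5) (nat_lit 60) (nat_lit 5) (nat_lit 61) (nat_lit 5) (nat_lit 347) (nat_lit 319) (nat_lit 222)))) (XT.nd (nat_lit 94) (nat_lit 420) (nat_lit 0) (XT.lf (nat_lit 0) (nat_lit 2630314930) (nat_lit 504) (nat_lit 9071806765) (nat_lit 84) (nat_lit 2617941062) (nat_lit 55) (nat_lit 5) (nat_lit 61) (nat_lit 5) (nat_lit 56) (nat_lit 5) (nat_lit 348) (nat_lit 319) (nat_lit 221)) (XT.nd (nat_lit 94) (nat_lit 420) (nat_lit 0) (XT.lf (nat_lit 0) (nat_lit 3760905396) (nat_lit 504) (nat_lit 4494172745) (nat_lit 84) (nat_lit 6343623036) (nat_lit 55) (nat_lit 5) (nat_lit 61) (nat_lit 5) (nat_lit 56) (nat_lit 5) (nat_lit 349) (nat_lit 319) (nat_lit 220)) (XT.lf (nat_lit 0) (nat_lit 217413889) (nat_lit 420) (nat_lit 4698746924) (nat_lit 504) (nat_lit 9970222054) (nat_lit 50) (nat_lit 5) (nat_lit 55) (nat_lit 5) (nat_lit 56) (nat_lit 5) (nat_lit 350) (nat_lit 319) (nat_lit 219))))) (XT.nd (nat_lit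 282) (nat_lit 756) (nat_lit 0) (XT.nd (nat_lit 94) (nat_lit 0) (nat_lit 0) (XT.lf (nat_lit 0) (nat_lit 5158124241) (nat_lit 420) (nat_lit 983730661) (nat_lit 504) (nat_lit 9040135468) (nat_lit 50) (nat_lit 5) (nat_lit 55) (nat_lit 5) (nat_lit 56) (nat_lit 5) (nat_lit 351) (nat_lit 319) (nat_lit 218)) (XT.nd (nat_lit 94) (nat_lit 0) (nat_lit 0) (XT.lf (nat_lit 0) (nat_lit 7421868541) (nat_lit 504) (nat_lit 5275293412) (nat_lit 84) (nat_lit 2789172379) (nat_lit 50) (nat_lit 5) (nat_lit 56) (nat_lit 5) (nat_lit 51) (nat_lit 5) (nat_lit 352) (nat_lit 319) (nat_lit 217)) (XT.lf (nat_lit 0) (nat_lit 8740067971) (nat_lit 504) (nat_lit 401497796) (nat_lit 84) (nat_lit 6658669803) (nat_lit 50) (nat_lit 5) (nat_lit 56) (nat_lit 5) (nat_lit 51) (nat_lit 5) (nat_lit 353) (nat_lit 319) (nat_lit 216)))) (XT.nd (nat_lit 188) (nat_lit 420) (nat_lit 0) (XT.nd (nat_lit 94) (nat_lit 0) (nat_lit 0)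 (XT.lf (nat_lit 0) (nat_lit 4706650864) (nat_lit 336) (nat_lit 5427962858) (nat_lit 420) (nat_lit 5988228061) (nat_lit 46) (nat_lit 5) (nat_lit 50) (nat_lit 5) (nat_lit 51) (nat_lit 5) (nat_lit 354) (nat_lit 319) (nat_lit 215)) (XT.lf (nat_lit 0) (nat_lit 9970217596) (nat_lit 336) (nat_lit 1595378656) (nat_lit 420) (nat_lit 4890134915) (nat_lit 46) (nat_lit 5) (nat_lit 50) (nat_lit 5) (nat_lit 51) (nat_lit 5) (nat_lit 355) (nat_lit 319) (nat_lit 214))) (XT.nd (nat_lit 94) (nat_lit 420) (nat_lit 0) (XT.lf (nat_lit 0) (nat_lit 13053652111) (nat_lit 420) (nat_lit 1436854571) (nat_lit 84) (nat_lit 2308108941) (nat_lit 46) (nat_lit 5) (nat_lit 51) (nat_lit 5) (nat_lit 47) (nat_lit 5) (nat_lit 356) (nat_lit 319) (nat_lit 213)) (XT.lf (nat_lit 0) (nat_lit 3817763638) (nat_lit 420) (nat_lit 10813925122) (nat_lit 504) (nat_lit 2519148865) (nat_lit 41) (nat_lit 5) (nat_lit 46) (nat_lit 5)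 (nat_lit 47) (nat_lit 5) (nat_lit 357) (nat_lit 319) (nat_lit 212)))))) (XT.nd (nat_lit 564) (nat_lit 252) (nat_lit 0) (XT.nd (nat_lit 282) (nat_lit 336) (nat_lit 0) (XT.nd (nat_lit 94) (nat_lit 420) (nat_lit 0) (XT.lf (nat_lit 0) (nat_lit 9254696798) (nat_lit 420) (nat_lit 7008808317) (nat_lit 504) (nat_lit 1250388195) (nat_lit 41) (nat_lit 5) (nat_lit 46) (nat_lit 5) (nat_lit 47) (nat_lit 5) (nat_lit 358) (nat_lit 319) (nat_lit 211)) (XT.nd (nat_lit 94) (nat_lit 336) (nat_lit 0) (XT.lf (nat_lit 0) (nat_lit 46546214) (nat_lit 504) (nat_lit 3039575253) (nat_lit 84) (nat_lit 14802435960) (nat_lit 40) (nat_lit 5) (nat_lit 46) (nat_lit 5) (nat_lit 41) (nat_lit 5) (nat_lit 359) (nat_lit 319) (nat_lit 210)) (XT.lf (nat_lit 0) (nat_lit 1381355919) (nat_lit 420) (nat_lit 15917845721) (nat_lit 84) (nat_lit 974564839) (nat_lit 36) (nat_lit 5) (nat_lit 41) (nat_lit 5) (nat_lit 37) (nat_lit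 5) (nat_lit 360) (nat_lit 319) (nat_lit 209)))) (XT.nd (nat_lit 94) (nat_lit 336) (nat_lit 0) (XT.lf (nat_lit 0) (nat_lit 2811641989) (nat_lit 420) (nat_lit 10729585934) (nat_lit 84) (nat_lit 5128070024) (nat_lit 36) (nat_lit 5) (nat_lit 41) (nat_lit 5) (nat_lit 37) (nat_lit 5) (nat_lit 361) (nat_lit 319) (nat_lit 208)) (XT.nd (nat_lit 94) (nat_lit 336) (nat_lit 0) (XT.lf (nat_lit 0) (nat_lit 4277035189) (nat_lit 420) (nat_lit 5391041742) (nat_lit 84) (nat_lit 9409356354) (nat_lit 36) (nat_lit 5) (nat_lit 41) (nat_lit 5) (nat_lit 37) (nat_lit 5) (nat_lit 362) (nat_lit 319) (nat_lit 207)) (XT.lf (nat_lit 0) (nat_lit 104875954) (nat_lit 336) (nat_lit 5675065845) (nat_lit 420) (nat_lit 13718578864) (nat_lit 32) (nat_lit 5) (nat_lit 36) (nat_lit 5) (nat_lit 37) (nat_lit 5) (nat_lit 363) (nat_lit 319) (nat_lit 206))))) (XT.nd (nat_lit 282) (nat_lit 252) (nat_lit 0) (XT.nd (nat_lit 94)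 (nat_lit 0) (nat_lit 0) (XT.lf (nat_lit 0) (nat_lit 5875323583) (nat_lit 336) (nat_lit 1501600925) (nat_lit 420) (nat_lit 12554318057) (nat_lit 32) (nat_lit 5) (nat_lit 36) (nat_lit 5) (nat_lit 37) (nat_lit 5) (nat_lit 364) (nat_lit 319) (nat_lit 205)) (XT.nd (nat_lit 94) (nat_lit 0) (nat_lit 0) (XT.lf (nat_lit 0) (nat_lit 9042668133) (nat_lit 420) (nat_lit 8590641082) (nat_lit 84) (nat_lit 2743524035) (nat_lit 32) (nat_lit 5) (nat_lit 37) (nat_lit 5) (nat_lit 33) (nat_lit 5) (nat_lit 365) (nat_lit 319) (nat_lit 204)) (XT.lf (nat_lit 0) (nat_lit 10767130049) (nat_lit 420) (nat_lit 2981121525) (nat_lit 84) (nat_lit 7087815930) (nat_lit 32) (nat_lit 5) (nat_lit 37) (nat_lit 5) (nat_lit 33) (nat_lit 5) (nat_lit 366) (nat_lit 319) (nat_lit 203)))) (XT.nd (nat_lit 188) (nat_lit 0) (nat_lit 0) (XT.nd (nat_lit 94) (nat_lit 0) (nat_lit 0) (XT.lf (nat_lit 0) (nat_lit 2850189377) (nat_lit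 252) (nat_lit 9715106423) (nat_lit 336) (nat_lit 8743662862) (nat_lit 29) (nat_lit 5) (nat_lit 32) (nat_lit 5) (nat_lit 33) (nat_lit 5) (nat_lit 367) (nat_lit 319) (nat_lit 202)) (XT.lf (nat_lit 0) (nat_lit 8916036874) (nat_lit 252) (nat_lit 5526403733) (nat_lit 336) (nat_lit 7353395327) (nat_lit 29) (nat_lit 5) (nat_lit 32) (nat_lit 5) (nat_lit 33) (nat_lit 5) (nat_lit 368) (nat_lit 319) (nat_lit 201))) (XT.nd (nat_lit 94) (nat_lit 0) (nat_lit 0) (XT.lf (nat_lit 0) (nat_lit 15160776997) (nat_lit 252) (nat_lit 1209355989) (nat_lit 336) (nat_lit 5927955770) (nat_lit 29) (nat_lit 5) (nat_lit 32) (nat_lit 5) (nat_lit 33) (nat_lit 5) (nat_lit 369) (nat_lit 319) (nat_lit 200)) (XT.lf (nat_lit 0) (nat_lit 18382311553) (nat_lit 336) (nat_lit 1258096587) (nat_lit 84) (nat_lit 3174780745) (nat_lit 29) (nat_lit 5) (nat_lit 33) (nat_lit 5) (nat_lit 30) (nat_lit 5) (nat_lit 370) (nat_lit 319)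 (nat_lit 199))))))) (XT.nd (nat_lit 1222) (nat_lit 420) (nat_lit 0) (XT.nd (nat_lit 564) (nat_lit 420) (nat_lit 0) (XT.nd (nat_lit 282) (nat_lit 252) (nat_lit 0) (XT.nd (nat_lit 94) (nat_lit 84) (nat_lit 0) (XT.lf (nat_lit 0) (nat_lit 4880477795) (nat_lit 252) (nat_lit 15629968474) (nat_lit 336) (nat_lit 2836254618) (nat_lit 26) (nat_lit 5) (nat_lit 29) (nat_lit 5) (nat_lit 30) (nat_lit 5) (nat_lit 371) (nat_lit 319) (nat_lit 198)) (XT.nd (nat_lit 94) (nat_lit 84) (nat_lit 0) (XT.lf (nat_lit 0) (nat_lit 11227250309) (nat_lit 252) (nat_lit 11483359263) (nat_lit 336) (nat_lit 1183933861) (nat_lit 26) (nat_lit 5) (nat_lit 29) (nat_lit 5) (nat_lit 30) (nat_lit 5) (nat_lit 372) (nat_lit 319) (nat_lit 197)) (XT.lf (nat_lit 0) (nat_lit 502167529) (nat_lit 336) (nat_lit 6702438252) (nat_lit 84) (nat_lit 17254858635) (nat_lit 25) (nat_lit 5) (nat_lit 29) (nat_lit 5) (nat_lit 26) (nat_lit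 5) (nat_lit 373) (nat_lit 319) (nat_lit 196)))) (XT.nd (nat_lit 94) (nat_lit 252) (nat_lit 0) (XT.lf (nat_lit 0) (nat_lit 2209182269) (nat_lit 336) (nat_lit 573207866) (nat_lit 84) (nat_lit 22259379881) (nat_lit 25) (nat_lit 5) (nat_lit 29) (nat_lit 5) (nat_lit 26) (nat_lit 5) (nat_lit 374) (nat_lit 319) (nat_lit 195)) (XT.nd (nat_lit 94) (nat_lit 0) (nat_lit 0) (XT.lf (nat_lit 0) (nat_lit 4038851073) (nat_lit 336) (nat_lit 19802933642) (nat_lit 84) (nat_lit 1798217199) (nat_lit 22) (nat_lit 5) (nat_lit 26) (nat_lit 5) (nat_lit 23) (nat_lit 5) (nat_lit 375) (nat_lit 319) (nat_lit 194)) (XT.lf (nat_lit 0) (nat_lit 5953282486) (nat_lit 336) (nat_lit 13835206304) (nat_lit 84) (nat_lit 6467456438) (nat_lit 22) (nat_lit 5) (nat_lit 26) (nat_lit 5) (nat_lit 23) (nat_lit 5) (nat_lit 376) (nat_lit 319) (nat_lit 193))))) (XT.nd (nat_lit 282) (nat_lit 168) (nat_lit 0) (XT.nd (nat_lit 94) (nat_lit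 252) (nat_lit 0) (XT.lf (nat_lit 0) (nat_lit 7920796738) (nat_lit 336) (nat_lit 7690538544) (nat_lit 84) (nat_lit 11279876193) (nat_lit 22) (nat_lit 5) (nat_lit 26) (nat_lit 5) (nat_lit 23) (nat_lit 5) (nat_lit 377) (nat_lit 319) (nat_lit 192)) (XT.nd (nat_lit 94) (nat_lit 252) (nat_lit 0) (XT.lf (nat_lit 0) (nat_lit 9943227757) (nat_lit 336) (nat_lit 1363202888) (nat_lit 84) (nat_lit 16239962142) (nat_lit 22) (nat_lit 5) (nat_lit 26) (nat_lit 5) (nat_lit 23) (nat_lit 5) (nat_lit 378) (nat_lit 319) (nat_lit 191)) (XT.lf (nat_lit 0) (nat_lit 5258648450) (nat_lit 252) (nat_lit 6815978654) (nat_lit 336) (nat_lit 16145855599) (nat_lit 19) (nat_lit 5) (nat_lit 22) (nat_lit 5) (nat_lit 23) (nat_lit 5) (nat_lit 379) (nat_lit 319) (nat_lit 190)))) (XT.nd (nat_lit 188) (nat_lit 168) (nat_lit 0) (XT.nd (nat_lit 94) (nat_lit 0) (nat_lit 0) (XT.lf (nat_lit 0) (nat_lit 12107171354) (nat_lit 252)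 (nat_lit 2173366796) (nat_lit 336) (nat_lit 14634701139) (nat_lit 19) (nat_lit 5) (nat_lit 22) (nat_lit 5) (nat_lit 23) (nat_lit 5) (nat_lit 380) (nat_lit 319) (nat_lit 189)) (XT.lf (nat_lit 0) (nat_lit 16575122268) (nat_lit 336) (nat_lit 10496925287) (nat_lit 84) (nat_lit 2558887314) (nat_lit 19) (nat_lit 5) (nat_lit 23) (nat_lit 5) (nat_lit 20) (nat_lit 5) (nat_lit 381) (nat_lit 319) (nat_lit 188))) (XT.nd (nat_lit 94) (nat_lit 168) (nat_lit 0) (XT.lf (nat_lit 0) (nat_lit 18957603194) (nat_lit 336) (nat_lit 4019608609) (nat_lit 84) (nat_lit 7391115107) (nat_lit 19) (nat_lit 5) (nat_lit 23) (nat_lit 5) (nat_lit 20) (nat_lit 5) (nat_lit 382) (nat_lit 319) (nat_lit 187)) (XT.lf (nat_lit 0) (nat_lit 2705999563) (nat_lit 168) (nat_lit 18729485873) (nat_lit 252) (nat_lit 9692453509) (nat_lit 17) (nat_lit 5) (nat_lit 19) (nat_lit 5) (nat_lit 20) (nat_lit 5) (nat_lit 383) (nat_lit 319)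 (nat_lit 186)))))) (XT.nd (nat_lit 564) (nat_lit 168) (nat_lit 0) (XT.nd (nat_lit 282) (nat_lit 252) (nat_lit 0) (XT.nd (nat_lit 94) (nat_lit 0) (nat_lit 0) (XT.lf (nat_lit 0) (nat_lit 9718361121) (nat_lit 168) (nat_lit 14308568290) (nat_lit 252) (nat_lit 7883058225) (nat_lit 17) (nat_lit 5) (nat_lit 19) (nat_lit 5) (nat_lit 20) (nat_lit 5) (nat_lit 384) (nat_lit 319) (nat_lit 185)) (XT.nd (nat_lit 94) (nat_lit 0) (nat_lit 0) (XT.lf (nat_lit 0) (nat_lit 16941360922) (nat_lit 168) (nat_lit 9752294767) (nat_lit 252) (nat_lit 6022807788) (nat_lit 17) (nat_lit 5) (nat_lit 19) (nat_lit 5) (nat_lit 20) (nat_lit 5) (nat_lit 385) (nat_lit 319) (nat_lit 184)) (XT.lf (nat_lit 0) (nat_lit 24381731559) (nat_lit 168) (nat_lit 5056418379) (nat_lit 252) (nat_lit 4109968250) (nat_lit 17) (nat_lit 5) (nat_lit 19) (nat_lit 5) (nat_lit 20) (nat_lit 5) (nat_lit 386) (nat_lit 319) (nat_lit 183)))) (XT.nd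 (nat_lit 94) (nat_lit 252) (nat_lit 0) (XT.lf (nat_lit 0) (nat_lit 32046408236) (nat_lit 168) (nat_lit 216562078) (nat_lit 252) (nat_lit 2142756645) (nat_lit 17) (nat_lit 5) (nat_lit 19) (nat_lit 5) (nat_lit 20) (nat_lit 5) (nat_lit 387) (nat_lit 319) (nat_lit 182)) (XT.nd (nat_lit 94) (nat_lit 84) (nat_lit 0) (XT.lf (nat_lit 0) (nat_lit 4699799855) (nat_lit 168) (nat_lit 30564909290) (nat_lit 252) (nat_lit 22467288) (nat_lit 15) (nat_lit 5) (nat_lit 17) (nat_lit 5) (nat_lit 18) (nat_lit 5) (nat_lit 388) (nat_lit 319) (nat_lit 181)) (XT.lf (nat_lit 0) (nat_lit 2142435152) (nat_lit 252) (nat_lit 24197710686) (nat_lit 84) (nat_lit 9854466129) (nat_lit 14) (nat_lit 5) (nat_lit 17) (nat_lit 5) (nat_lit 15) (nat_lit 5) (nat_lit 389) (nat_lit 319) (nat_lit 180))))) (XT.nd (nat_lit 282) (nat_lit 168) (nat_lit 0) (XT.nd (nat_lit 94) (nat_lit 0) (nat_lit 0) (XT.lf (nat_lit 0) (nat_lit 4369503343)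 (nat_lit 252) (nat_lit 17616364875) (nat_lit 84) (nat_lit 15144464021) (nat_lit 14) (nat_lit 5) (nat_lit 17) (nat_lit 5) (nat_lit 15) (nat_lit 5) (nat_lit 390) (nat_lit 319) (nat_lit 179)) (XT.nd (nat_lit 94) (nat_lit 0) (nat_lit 0) (XT.lf (nat_lit 0) (nat_lit 6661265809) (nat_lit 252) (nat_lit 10836981764) (nat_lit 84) (nat_lit 20596968771) (nat_lit 14) (nat_lit 5) (nat_lit 17) (nat_lit 5) (nat_lit 15) (nat_lit 5) (nat_lit 391) (nat_lit 319) (nat_lit 178)) (XT.lf (nat_lit 0) (nat_lit 9019858713) (nat_lit 252) (nat_lit 3853242259) (nat_lit 84) (nat_lit 26217062686) (nat_lit 14) (nat_lit 5) (nat_lit 17) (nat_lit 5) (nat_lit 15) (nat_lit 5) (nat_lit 392) (nat_lit 319) (nat_lit 177)))) (XT.nd (nat_lit 188) (nat_lit 0) (nat_lit 0) (XT.nd (nat_lit 94) (nat_lit 0) (nat_lit 0) (XT.lf (nat_lit 0) (nat_lit 3410068497) (nat_lit 168) (nat_lit 8071240316) (nat_lit 252) (nat_lit 28633744085)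 (nat_lit 12) (nat_lit 5) (nat_lit 14) (nat_lit 5) (nat_lit 15) (nat_lit 5) (nat_lit 393) (nat_lit 319) (nat_lit 176)) (XT.lf (nat_lit 0) (nat_lit 10974655645) (nat_lit 168) (nat_lit 3080608300) (nat_lit 252) (nat_lit 27115347465) (nat_lit 12) (nat_lit 5) (nat_lit 14) (nat_lit 5) (nat_lit 15) (nat_lit 5) (nat_lit 394) (nat_lit 319) (nat_lit 175))) (XT.nd (nat_lit 94) (nat_lit 0) (nat_lit 0) (XT.lf (nat_lit 0) (nat_lit 16725580153) (nat_lit 252) (nat_lit 23511160275) (nat_lit 84) (nat_lit 2021657494) (nat_lit 12) (nat_lit 5) (nat_lit 15) (nat_lit 5) (nat_lit 13) (nat_lit 5) (nat_lit 395) (nat_lit 319) (nat_lit 174)) (XT.lf (nat_lit 0) (nat_lit 19506387281) (nat_lit 252) (nat_lit 16656007827) (nat_lit 84) (nat_lit 7216670391) (nat_lit 12) (nat_lit 5) (nat_lit 15) (nat_lit 5) (nat_lit 13) (nat_lit 5) (nat_lit 396) (nat_lit 319) (nat_lit 173))))))))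
noncomputable def xc140 : XT := (XT.nd (nat_lit 2350) (nat_lit 84) (nat_lit 0) (XT.nd (nat_lit 1128) (nat_lit 168) (nat_lit 0) (XT.nd (nat_lit 564) (nat_lit 168) (nat_lit 0) (XT.nd (nat_lit 282) (nat_lit 0) (nat_lit 0) (XT.nd (nat_lit 94) (nat_lit 168) (nat_lit 0) (XT.lf (nat_lit 0) (nat_lit 22369717316) (nat_lit 252) (nat_lit 9593548688) (nat_lit 84) (nat_lit 12571340078) (nat_lit 12) (nat_lit 5) (nat_lit 15) (nat_lit 5) (nat_lit 13) (nat_lit 5) (nat_lit 397) (nat_lit 319) (nat_lit 172)) (XT.nd (nat_lit 94) (nat_lit 168) (nat_lit 0) (XT.lf (nat_lit 0) (nat_lit 25318239182) (nat_lit 252) (nat_lit 2317199905) (nat_lit 84) (nat_lit 18090657667) (nat_lit 12) (nat_lit 5) (nat_lit 15) (nat_lit 5) (nat_lit 13) (nat_lit 5) (nat_lit 398) (nat_lit 319) (nat_lit 171)) (XT.lf (nat_lit 0) (nat_lit 5286328580) (nat_lit 168) (nat_lit 23120813665) (nat_lit 252) (nat_lit 18545880196) (nat_lit 10)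 (nat_lit 5) (nat_lit 12) (nat_lit 5) (nat_lit 13) (nat_lit 5) (nat_lit 399) (nat_lit 319) (nat_lit 170)))) (XT.nd (nat_lit 94) (nat_lit 0) (nat_lit 0) (XT.lf (nat_lit 0) (nat_lit 13169844576) (nat_lit 168) (nat_lit 18442735615) (nat_lit 252) (nat_lit 16604775061) (nat_lit 10) (nat_lit 5) (nat_lit 12) (nat_lit 5) (nat_lit 13) (nat_lit 5) (nat_lit 400) (nat_lit 319) (nat_lit 169)) (XT.nd (nat_lit 94) (nat_lit 0) (nat_lit 0) (XT.lf (nat_lit 0) (nat_lit 21293049962) (nat_lit 168) (nat_lit 13621031295) (nat_lit 252) (nat_lit 14606919670) (nat_lit 10) (nat_lit 5) (nat_lit 12) (nat_lit 5) (nat_lit 13) (nat_lit 5) (nat_lit 401) (nat_lit 319) (nat_lit 168)) (XT.lf (nat_lit 0) (nat_lit 29663516417) (nat_lit 168) (nat_lit 8651206371) (nat_lit 252) (nat_lit 12550451811) (nat_lit 10) (nat_lit 5) (nat_lit 12) (nat_lit 5) (nat_lit 13) (nat_lit 5) (nat_lit 402) (nat_lit 319) (nat_lit 167))))) (XT.nd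 (nat_lit 282) (nat_lit 84) (nat_lit 0) (XT.nd (nat_lit 94) (nat_lit 84) (nat_lit 0) (XT.lf (nat_lit 0) (nat_lit 38289046093) (nat_lit 168) (nat_lit 3528628446) (nat_lit 252) (nat_lit 10433454642) (nat_lit 10) (nat_lit 5) (nat_lit 12) (nat_lit 5) (nat_lit 13) (nat_lit 5) (nat_lit 403) (nat_lit 319) (nat_lit 166)) (XT.nd (nat_lit 94) (nat_lit 84) (nat_lit 0) (XT.lf (nat_lit 0) (nat_lit 45443576497) (nat_lit 252) (nat_lit 6519852511) (nat_lit 84) (nat_lit 1716188896) (nat_lit 10) (nat_lit 5) (nat_lit 13) (nat_lit 5) (nat_lit 11) (nat_lit 4) (nat_lit 404) (nat_lit 319) (nat_lit 165)) (XT.lf (nat_lit 0) (nat_lit 1135625936) (nat_lit 84) (nat_lit 48090672879) (nat_lit 168) (nat_lit 5924728251) (nat_lit 9) (nat_lit 5) (nat_lit 10) (nat_lit 5) (nat_lit 11) (nat_lit 4) (nat_lit 405) (nat_lit 319) (nat_lit 164)))) (XT.nd (nat_lit 94) (nat_lit 84) (nat_lit 0) (XT.lf (nat_lit 0) (nat_lit 9162432671)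 (nat_lit 84) (nat_lit 44029015602) (nat_lit 168) (nat_lit 3474595396) (nat_lit 9) (nat_lit 5) (nat_lit 10) (nat_lit 5) (nat_lit 11) (nat_lit 4) (nat_lit 406) (nat_lit 319) (nat_lit 163)) (XT.nd (nat_lit 94) (nat_lit 84) (nat_lit 0) (XT.lf (nat_lit 0) (nat_lit 17433987977) (nat_lit 84) (nat_lit 39842725177) (nat_lit 168) (nat_lit 951412948) (nat_lit 9) (nat_lit 5) (nat_lit 10) (nat_lit 5) (nat_lit 11) (nat_lit 4) (nat_lit 407) (nat_lit 319) (nat_lit 162)) (XT.lf (nat_lit 0) (nat_lit 1613984136) (nat_lit 168) (nat_lit 33897068721) (nat_lit 84) (nat_lit 24327170991) (nat_lit 8) (nat_lit 5) (nat_lit 10) (nat_lit 5) (nat_lit 9) (nat_lit 5) (nat_lit 408) (nat_lit 319) (nat_lit 161)))))) (XT.nd (nat_lit 564) (nat_lit 0) (nat_lit 0) (XT.nd (nat_lit 282) (nat_lit 168) (nat_lit 0) (XT.nd (nat_lit 94) (nat_lit 0) (nat_lit 0) (XT.lf (nat_lit 0) (nat_lit 4236468013) (nat_lit 168) (nat_lit 26799828776)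 (nat_lit 84) (nat_lit 30461731397) (nat_lit 8) (nat_lit 5) (nat_lit 10) (nat_lit 5) (nat_lit 9) (nat_lit 5) (nat_lit 409) (nat_lit 319) (nat_lit 160)) (XT.nd (nat_lit 94) (nat_lit 0) (nat_lit 0) (XT.lf (nat_lit 0) (nat_lit 6937651962) (nat_lit 168) (nat_lit 19486364786) (nat_lit 84) (nat_lit 36785362063) (nat_lit 8) (nat_lit 5) (nat_lit 10) (nat_lit 5) (nat_lit 9) (nat_lit 5) (nat_lit 410) (nat_lit 319) (nat_lit 159)) (XT.lf (nat_lit 0) (nat_lit 9720053769) (nat_lit 168) (nat_lit 11949859836) (nat_lit 84) (nat_lit 43303957275) (nat_lit 8) (nat_lit 5) (nat_lit 10) (nat_lit 5) (nat_lit 9) (nat_lit 5) (nat_lit 411) (nat_lit 319) (nat_lit 158)))) (XT.nd (nat_lit 94) (nat_lit 168) (nat_lit 0) (XT.lf (nat_lit 0) (nat_lit 12586266924) (nat_lit 168) (nat_lit 4183289114) (nat_lit 84) (nat_lit 50023593047) (nat_lit 8) (nat_lit 5) (nat_lit 10) (nat_lit 5) (nat_lit 9) (nat_lit 5) (nat_lit 412)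 (nat_lit 319) (nat_lit 157)) (XT.nd (nat_lit 94) (nat_lit 0) (nat_lit 0) (XT.lf (nat_lit 0) (nat_lit 3899145733) (nat_lit 168) (nat_lit 11678497313) (nat_lit 252) (nat_lit 53090067058) (nat_lit 6) (nat_lit 5) (nat_lit 8) (nat_lit 5) (nat_lit 9) (nat_lit 5) (nat_lit 413) (nat_lit 319) (nat_lit 156)) (XT.lf (nat_lit 0) (nat_lit 12317395945) (nat_lit 168) (nat_lit 6385688481) (nat_lit 252) (nat_lit 51896027263) (nat_lit 6) (nat_lit 5) (nat_lit 8) (nat_lit 5) (nat_lit 9) (nat_lit 5) (nat_lit 414) (nat_lit 319) (nat_lit 155))))) (XT.nd (nat_lit 282) (nat_lit 0) (nat_lit 0) (XT.nd (nat_lit 94) (nat_lit 0) (nat_lit 0) (XT.lf (nat_lit 0) (nat_lit 20993291208) (nat_lit 168) (nat_lit 929861048) (nat_lit 252) (nat_lit 50667314766) (nat_lit 6) (nat_lit 5) (nat_lit 8) (nat_lit 5) (nat_lit 9) (nat_lit 5) (nat_lit 415) (nat_lit 319) (nat_lit 154)) (XT.nd (nat_lit 94) (nat_lit 0) (nat_lit 0) (XT.lf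 (nat_lit 0) (nat_lit 25287413737) (nat_lit 252) (nat_lit 44755279649) (nat_lit 84) (nat_lit 4599495330) (nat_lit 6) (nat_lit 5) (nat_lit 9) (nat_lit 5) (nat_lit 7) (nat_lit 4) (nat_lit 416) (nat_lit 319) (nat_lit 153)) (XT.lf (nat_lit 0) (nat_lit 28763339501) (nat_lit 252) (nat_lit 37713984674) (nat_lit 84) (nat_lit 10279970641) (nat_lit 6) (nat_lit 5) (nat_lit 9) (nat_lit 5) (nat_lit 7) (nat_lit 4) (nat_lit 417) (nat_lit 319) (nat_lit 152)))) (XT.nd (nat_lit 188) (nat_lit 0) (nat_lit 0) (XT.nd (nat_lit 94) (nat_lit 0) (nat_lit 0) (XT.lf (nat_lit 0) (nat_lit 32344945137) (nat_lit 252) (nat_lit 30457503326) (nat_lit 84) (nat_lit 16135594308) (nat_lit 6) (nat_lit 5) (nat_lit 9) (nat_lit 5) (nat_lit 7) (nat_lit 4) (nat_lit 418) (nat_lit 319) (nat_lit 151)) (XT.lf (nat_lit 0) (nat_lit 36035569077) (nat_lit 252) (nat_lit 22979071805) (nat_lit 84) (nat_lit 22171824387) (nat_lit 6) (nat_lit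 5) (nat_lit 9) (nat_lit 5) (nat_lit 7) (nat_lit 4) (nat_lit 419) (nat_lit 319) (nat_lit 150))) (XT.nd (nat_lit 94) (nat_lit 0) (nat_lit 0) (XT.lf (nat_lit 0) (nat_lit 39838651370) (nat_lit 252) (nat_lit 15271719430) (nat_lit 84) (nat_lit 28394287277) (nat_lit 6) (nat_lit 5) (nat_lit 9) (nat_lit 5) (nat_lit 7) (nat_lit 4) (nat_lit 420) (nat_lit 319) (nat_lit 149)) (XT.lf (nat_lit 0) (nat_lit 43757736886) (nat_lit 252) (nat_lit 7328262140) (nat_lit 84) (nat_lit 34808782964) (nat_lit 6) (nat_lit 5) (nat_lit 9) (nat_lit 5) (nat_lit 7) (nat_lit 4) (nat_lit 421) (nat_lit 319) (nat_lit 148))))))) (XT.nd (nat_lit 46718) (nat_lit 0) (nat_lit 6636) (XT.nd (nat_lit 564) (nat_lit 0) (nat_lit 0) (XT.nd (nat_lit 282) (nat_lit 0) (nat_lit 0) (XT.nd (nat_lit 94) (nat_lit 0) (nat_lit 0) (XT.lf (nat_lit 0) (nat_lit 876360917) (nat_lit 84) (nat_lit 46928811316) (nat_lit 168) (nat_lit 40553623123) (nat_lit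 5) (nat_lit 5) (nat_lit 6) (nat_lit 5) (nat_lit 7) (nat_lit 4) (nat_lit 422) (nat_lit 319) (nat_lit 147)) (XT.nd (nat_lit 94) (nat_lit 0) (nat_lit 0) (XT.lf (nat_lit 0) (nat_lit 9487972189) (nat_lit 84) (nat_lit 42564790784) (nat_lit 168) (nat_lit 38844122896) (nat_lit 5) (nat_lit 5) (nat_lit 6) (nat_lit 5) (nat_lit 7) (nat_lit 4) (nat_lit 423) (nat_lit 319) (nat_lit 146)) (XT.lf (nat_lit 0) (nat_lit 18363914501) (nat_lit 84) (nat_lit 38066361733) (nat_lit 168) (nat_lit 37083443019) (nat_lit 5) (nat_lit 5) (nat_lit 6) (nat_lit 5) (nat_lit 7) (nat_lit 4) (nat_lit 424) (nat_lit 319) (nat_lit 145)))) (XT.nd (nat_lit 94) (nat_lit 0) (nat_lit 0) (XT.lf (nat_lit 0) (nat_lit 27512461160) (nat_lit 84) (nat_lit 33429331155) (nat_lit 168) (nat_lit 35269942353) (nat_lit 5) (nat_lit 5) (nat_lit 6) (nat_lit 5) (nat_lit 7) (nat_lit 4) (nat_lit 425) (nat_lit 319) (nat_lit 144)) (XT.nd (nat_lit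 94) (nat_lit 0) (nat_lit 0) (XT.lf (nat_lit 0) (nat_lit 36942139571) (nat_lit 84) (nat_lit 28649376853) (nat_lit 168) (nat_lit 33401930524) (nat_lit 5) (nat_lit 5) (nat_lit 6) (nat_lit 5) (nat_lit 7) (nat_lit 4) (nat_lit 426) (nat_lit 319) (nat_lit 143)) (XT.lf (nat_lit 0) (nat_lit 46661739180) (nat_lit 84) (nat_lit 23722043409) (nat_lit 168) (nat_lit 31477666352) (nat_lit 5) (nat_lit 5) (nat_lit 6) (nat_lit 5) (nat_lit 7) (nat_lit 4) (nat_lit 427) (nat_lit 319) (nat_lit 142))))) (XT.nd (nat_lit 45778) (nat_lit 0) (nat_lit 7308) (XT.nd (nat_lit 45590) (nat_lit 0) (nat_lit 7308) (XT.lf (nat_lit 0) (nat_lit 56680319674) (nat_lit 84) (nat_lit 18642738031) (nat_lit 168) (nat_lit 29495356219) (nat_lit 5) (nat_lit 5) (nat_lit 6) (nat_lit 5) (nat_lit 7) (nat_lit 4) (nat_lit 428) (nat_lit 319) (nat_lit 141)) (XT.nd (nat_lit 94) (nat_lit 0) (nat_lit 0) (XT.lf (nat_lit 0) (nat_lit 989085971)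 (nat_lit 924) (nat_lit 1815290342) (nat_lit 924) (nat_lit 1815290342) (nat_lit 92) (nat_lit 3) (nat_lit 103) (nat_lit 3) (nat_lit 103) (nat_lit 5) (nat_lit 320) (nat_lit 320) (nat_lit 248)) (XT.lf (nat_lit 0) (nat_lit 2658792031) (nat_lit 924) (nat_lit 588488727) (nat_lit 924) (nat_lit 6110085268) (nat_lit 92) (nat_lit 3) (nat_lit 103) (nat_lit 3) (nat_lit 103) (nat_lit 5) (nat_lit 321) (nat_lit 320) (nat_lit 247)))) (XT.nd (nat_lit 188) (nat_lit 0) (nat_lit 84) (XT.nd (nat_lit 94) (nat_lit 0) (nat_lit 84) (XT.lf (nat_lit 84) (nat_lit 2586416127) (nat_lit 0) (nat_lit 773562355) (nat_lit 924) (nat_lit 6119298409) (nat_lit 93) (nat_lit 5) (nat_lit 92) (nat_lit 3) (nat_lit 103) (nat_lit 5) (nat_lit 322) (nat_lit 320) (nat_lit 246)) (XT.lf (nat_lit 0) (nat_lit 4081316883) (nat_lit 840) (nat_lit 3764819865) (nat_lit 924) (nat_lit 1759075895) (nat_lit 93) (nat_lit 5) (nat_lit 103) (nat_lit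 5) (nat_lit 104) (nat_lit 5) (nat_lit 323) (nat_lit 320) (nat_lit 245))) (XT.nd (nat_lit 94) (nat_lit 0) (nat_lit 0) (XT.lf (nat_lit 0) (nat_lit 4808275971) (nat_lit 840) (nat_lit 561855922) (nat_lit 924) (nat_lit 4365630092) (nat_lit 93) (nat_lit 5) (nat_lit 103) (nat_lit 5) (nat_lit 104) (nat_lit 5) (nat_lit 324) (nat_lit 320) (nat_lit 244)) (XT.lf (nat_lit 84) (nat_lit 2782756746) (nat_lit 0) (nat_lit 2778708059) (nat_lit 924) (nat_lit 4308963920) (nat_lit 94) (nat_lit 5) (nat_lit 93) (nat_lit 5) (nat_lit 104) (nat_lit 5) (nat_lit 325) (nat_lit 320) (nat_lit 243)))))) (XT.nd (nat_lit 564) (nat_lit 756) (nat_lit 0) (XT.nd (nat_lit 282) (nat_lit 0) (nat_lit 84) (XT.nd (nat_lit 94) (nat_lit 0) (nat_lit 84) (XT.lf (nat_lit 84) (nat_lit 6229392749) (nat_lit 0) (nat_lit 91147428) (nat_lit 924) (nat_lit 3689450612) (nat_lit 94) (nat_lit 5) (nat_lit 93) (nat_lit 5) (nat_lit 104) (nat_lit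 5) (nat_lit 326) (nat_lit 320) (nat_lit 242)) (XT.nd (nat_lit 94) (nat_lit 0) (nat_lit 0) (XT.lf (nat_lit 0) (nat_lit 7107198442) (nat_lit 840) (nat_lit 411719902) (nat_lit 924) (nat_lit 2635009267) (nat_lit 94) (nat_lit 5) (nat_lit 104) (nat_lit 5) (nat_lit 105) (nat_lit 5) (nat_lit 327) (nat_lit 320) (nat_lit 241)) (XT.lf (nat_lit 84) (nat_lit 3109605916) (nat_lit 0) (nat_lit 4818562902) (nat_lit 924) (nat_lit 2374018662) (nat_lit 95) (nat_lit 5) (nat_lit 94) (nat_lit 5) (nat_lit 105) (nat_lit 5) (nat_lit 328) (nat_lit 320) (nat_lit 240)))) (XT.nd (nat_lit 94) (nat_lit 0) (nat_lit 84) (XT.lf (nat_lit 84) (nat_lit 6735252905) (nat_lit 0) (nat_lit 2022302200) (nat_lit 924) (nat_lit 1698179989) (nat_lit 95) (nat_lit 5) (nat_lit 94) (nat_lit 5) (nat_lit 105) (nat_lit 5) (nat_lit 329) (nat_lit 320) (nat_lit 239)) (XT.nd (nat_lit 94) (nat_lit 0) (nat_lit 0) (XT.lf (nat_lit 0) (nat_lit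 9600574465) (nat_lit 840) (nat_lit 163320433) (nat_lit 924) (nat_lit 850680911) (nat_lit 95) (nat_lit 5) (nat_lit 105) (nat_lit 5) (nat_lit 106) (nat_lit 5) (nat_lit 330) (nat_lit 320) (nat_lit 238)) (XT.lf (nat_lit 84) (nat_lit 3541163480) (nat_lit 0) (nat_lit 6964380401) (nat_lit 924) (nat_lit 271840333) (nat_lit 96) (nat_lit 5) (nat_lit 95) (nat_lit 5) (nat_lit 106) (nat_lit 5) (nat_lit 331) (nat_lit 320) (nat_lit 237))))) (XT.nd (nat_lit 282) (nat_lit 0) (nat_lit 84) (XT.nd (nat_lit 94) (nat_lit 0) (nat_lit 0) (XT.lf (nat_lit 0) (nat_lit 465236191) (nat_lit 924) (nat_lit 3600178105) (nat_lit 1008) (nat_lit 6880381205) (nat_lit 84) (nat_lit 5) (nat_lit 95) (nat_lit 5) (nat_lit 96) (nat_lit 5) (nat_lit 332) (nat_lit 320) (nat_lit 236)) (XT.nd (nat_lit 94) (nat_lit 0) (nat_lit 84) (XT.lf (nat_lit 84) (nat_lit 134912895) (nat_lit 0) (nat_lit 1066664166) (nat_lit 1008) (nat_lit 9918460840)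 (nat_lit 85) (nat_lit 5) (nat_lit 84) (nat_lit 5) (nat_lit 96) (nat_lit 5) (nat_lit 333) (nat_lit 320) (nat_lit 235)) (XT.lf (nat_lit 0) (nat_lit 2000018596) (nat_lit 924) (nat_lit 7271118618) (nat_lit 1008) (nat_lit 2027463347) (nat_lit 85) (nat_lit 5) (nat_lit 96) (nat_lit 5) (nat_lit 97) (nat_lit 5) (nat_lit 334) (nat_lit 320) (nat_lit 234)))) (XT.nd (nat_lit 188) (nat_lit 0) (nat_lit 84) (XT.nd (nat_lit 94) (nat_lit 0) (nat_lit 0) (XT.lf (nat_lit 0) (nat_lit 2815908443) (nat_lit 924) (nat_lit 3466701538) (nat_lit 1008) (nat_lit 5200447230) (nat_lit 85) (nat_lit 5) (nat_lit 96) (nat_lit 5) (nat_lit 97) (nat_lit 5) (nat_lit 335) (nat_lit 320) (nat_lit 233)) (XT.lf (nat_lit 84) (nat_lit 451347432) (nat_lit 0) (nat_lit 3192555649) (nat_lit 1008) (nat_lit 8029865933) (nat_lit 86) (nat_lit 5) (nat_lit 85) (nat_lit 5) (nat_lit 97) (nat_lit 5) (nat_lit 336) (nat_lit 320) (nat_lit 232)))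 (XT.nd (nat_lit 94) (nat_lit 0) (nat_lit 0) (XT.lf (nat_lit 0) (nat_lit 4516828411) (nat_lit 924) (nat_lit 7319188788) (nat_lit 84) (nat_lit 33902852) (nat_lit 86) (nat_lit 5) (nat_lit 97) (nat_lit 5) (nat_lit 87) (nat_lit 5) (nat_lit 337) (nat_lit 320) (nat_lit 231)) (XT.lf (nat_lit 0) (nat_lit 5432758780) (nat_lit 924) (nat_lit 3341150587) (nat_lit 84) (nat_lit 3297868707) (nat_lit 86) (nat_lit 5) (nat_lit 97) (nat_lit 5) (nat_lit 87) (nat_lit 5) (nat_lit 338) (nat_lit 320) (nat_lit 230))))))))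
noncomputable def xc141 : XT := (XT.nd (nat_lit 2350) (nat_lit 1848) (nat_lit 0) (XT.nd (nat_lit 1128) (nat_lit 1596) (nat_lit 0) (XT.nd (nat_lit 564) (nat_lit 1008) (nat_lit 0) (XT.nd (nat_lit 282) (nat_lit 672) (nat_lit 0) (XT.nd (nat_lit 94) (nat_lit 0) (nat_lit 0) (XT.lf (nat_lit 0) (nat_lit 762432839) (nat_lit 924) (nat_lit 5606007976) (nat_lit 1008) (nat_lit 5911837744) (nat_lit 75) (nat_lit 5) (nat_lit 86) (nat_lit 5) (nat_lit 87) (nat_lit 5) (nat_lit 339) (nat_lit 320) (nat_lit 229)) (XT.nd (nat_lit 94) (nat_lit 0) (nat_lit 0) (XT.lf (nat_lit 0) (nat_lit 5051055689) (nat_lit 924) (nat_lit 2301100741) (nat_lit 1008) (nat_lit 5142609715) (nat_lit 75) (nat_lit 5) (nat_lit 86) (nat_lit 5) (nat_lit 87) (nat_lit 5) (nat_lit 340) (nat_lit 320) (nat_lit 228)) (XT.lf (nat_lit 0) (nat_lit 8361998003) (nat_lit 1008) (nat_lit 3267476467) (nat_lit 84) (nat_lit 1086673852) (nat_lit 75)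 (nat_lit 5) (nat_lit 87) (nat_lit 5) (nat_lit 76) (nat_lit 5) (nat_lit 341) (nat_lit 320) (nat_lit 227)))) (XT.nd (nat_lit 94) (nat_lit 0) (nat_lit 0) (XT.lf (nat_lit 0) (nat_lit 1022458602) (nat_lit 672) (nat_lit 8399481718) (nat_lit 756) (nat_lit 3521977077) (nat_lit 67) (nat_lit 5) (nat_lit 75) (nat_lit 5) (nat_lit 76) (nat_lit 5) (nat_lit 342) (nat_lit 320) (nat_lit 226)) (XT.nd (nat_lit 94) (nat_lit 0) (nat_lit 0) (XT.lf (nat_lit 0) (nat_lit 5501952722) (nat_lit 672) (nat_lit 5032333285) (nat_lit 756) (nat_lit 2643958918) (nat_lit 67) (nat_lit 5) (nat_lit 75) (nat_lit 5) (nat_lit 76) (nat_lit 5) (nat_lit 343) (nat_lit 320) (nat_lit 225)) (XT.lf (nat_lit 0) (nat_lit 10107995233) (nat_lit 672) (nat_lit 1558996390) (nat_lit 756) (nat_lit 1753383188) (nat_lit 67) (nat_lit 5) (nat_lit 75) (nat_lit 5) (nat_lit 76) (nat_lit 5) (nat_lit 344) (nat_lit 320) (nat_lit 224))))) (XT.nd (nat_lit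 282) (nat_lit 420) (nat_lit 0) (XT.nd (nat_lit 94) (nat_lit 84) (nat_lit 0) (XT.lf (nat_lit 0) (nat_lit 1178004861) (nat_lit 504) (nat_lit 11674870072) (nat_lit 588) (nat_lit 816673189) (nat_lit 61) (nat_lit 5) (nat_lit 67) (nat_lit 5) (nat_lit 68) (nat_lit 5) (nat_lit 345) (nat_lit 320) (nat_lit 223)) (XT.nd (nat_lit 94) (nat_lit 0) (nat_lit 0) (XT.lf (nat_lit 0) (nat_lit 183322699) (nat_lit 588) (nat_lit 8078069714) (nat_lit 84) (nat_lit 5663944369) (nat_lit 60) (nat_lit 5) (nat_lit 67) (nat_lit 5) (nat_lit 61) (nat_lit 5) (nat_lit 346) (nat_lit 320) (nat_lit 222)) (XT.lf (nat_lit 0) (nat_lit 1184142283) (nat_lit 588) (nat_lit 3548478675) (nat_lit 84) (nat_lit 9456673425) (nat_lit 60) (nat_lit 5) (nat_lit 67) (nat_lit 5) (nat_lit 61) (nat_lit 5) (nat_lit 347) (nat_lit 320) (nat_lit 221)))) (XT.nd (nat_lit 94) (nat_lit 0) (nat_lit 0) (XT.lf (nat_lit 0) (nat_lit 1132368099) (nat_lit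 420) (nat_lit 1082037707) (nat_lit 504) (nat_lit 12247164074) (nat_lit 55) (nat_lit 5) (nat_lit 60) (nat_lit 5) (nat_lit 61) (nat_lit 5) (nat_lit 348) (nat_lit 320) (nat_lit 220)) (XT.nd (nat_lit 94) (nat_lit 0) (nat_lit 0) (XT.lf (nat_lit 0) (nat_lit 3328087964) (nat_lit 504) (nat_lit 8746906904) (nat_lit 84) (nat_lit 2665778750) (nat_lit 55) (nat_lit 5) (nat_lit 61) (nat_lit 5) (nat_lit 56) (nat_lit 5) (nat_lit 349) (nat_lit 320) (nat_lit 219)) (XT.lf (nat_lit 0) (nat_lit 4475197897) (nat_lit 504) (nat_lit 4045591159) (nat_lit 84) (nat_lit 6507958682) (nat_lit 55) (nat_lit 5) (nat_lit 61) (nat_lit 5) (nat_lit 56) (nat_lit 5) (nat_lit 350) (nat_lit 320) (nat_lit 218)))))) (XT.nd (nat_lit 564) (nat_lit 840) (nat_lit 0) (XT.nd (nat_lit 282) (nat_lit 336) (nat_lit 0) (XT.nd (nat_lit 94) (nat_lit 0) (nat_lit 0) (XT.lf (nat_lit 0) (nat_lit 806102692) (nat_lit 420) (nat_lit 4847964831)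 (nat_lit 504) (nat_lit 9671777997) (nat_lit 50) (nat_lit 5) (nat_lit 55) (nat_lit 5) (nat_lit 56) (nat_lit 5) (nat_lit 351) (nat_lit 320) (nat_lit 217)) (XT.nd (nat_lit 94) (nat_lit 0) (nat_lit 0) (XT.lf (nat_lit 0) (nat_lit 5882477084) (nat_lit 420) (nat_lit 1017676120) (nat_lit 504) (nat_lit 8731125603) (nat_lit 50) (nat_lit 5) (nat_lit 55) (nat_lit 5) (nat_lit 56) (nat_lit 5) (nat_lit 352) (nat_lit 320) (nat_lit 216)) (XT.lf (nat_lit 0) (nat_lit 8202738490) (nat_lit 504) (nat_lit 4870603960) (nat_lit 84) (nat_lit 2872358059) (nat_lit 50) (nat_lit 5) (nat_lit 56) (nat_lit 5) (nat_lit 51) (nat_lit 5) (nat_lit 353) (nat_lit 320) (nat_lit 215)))) (XT.nd (nat_lit 94) (nat_lit 0) (nat_lit 0) (XT.lf (nat_lit 0) (nat_lit 140015025) (nat_lit 336) (nat_lit 9406614887) (nat_lit 420) (nat_lit 6723282426) (nat_lit 46) (nat_lit 5) (nat_lit 50) (nat_lit 5) (nat_lit 51) (nat_lit 5) (nat_lit 354)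 (nat_lit 320) (nat_lit 214)) (XT.nd (nat_lit 94) (nat_lit 0) (nat_lit 0) (XT.lf (nat_lit 0) (nat_lit 5398115523) (nat_lit 336) (nat_lit 5574250902) (nat_lit 420) (nat_lit 5630632193) (nat_lit 46) (nat_lit 5) (nat_lit 50) (nat_lit 5) (nat_lit 51) (nat_lit 5) (nat_lit 355) (nat_lit 320) (nat_lit 213)) (XT.lf (nat_lit 0) (nat_lit 10808449028) (nat_lit 336) (nat_lit 1623517446) (nat_lit 420) (nat_lit 4514831970) (nat_lit 46) (nat_lit 5) (nat_lit 50) (nat_lit 5) (nat_lit 51) (nat_lit 5) (nat_lit 356) (nat_lit 320) (nat_lit 212))))) (XT.nd (nat_lit 282) (nat_lit 420) (nat_lit 0) (XT.nd (nat_lit 94) (nat_lit 420) (nat_lit 0) (XT.lf (nat_lit 0) (nat_lit 13951087601) (nat_lit 420) (nat_lit 949870779) (nat_lit 84) (nat_lit 2399920686) (nat_lit 46) (nat_lit 5) (nat_lit 51) (nat_lit 5) (nat_lit 47) (nat_lit 5) (nat_lit 357) (nat_lit 320) (nat_lit 211)) (XT.nd (nat_lit 94) (nat_lit 0) (nat_lit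 0) (XT.lf (nat_lit 0) (nat_lit 4462259368) (nat_lit 420) (nat_lit 11106186817) (nat_lit 504) (nat_lit 2095968028) (nat_lit 41) (nat_lit 5) (nat_lit 46) (nat_lit 5) (nat_lit 47) (nat_lit 5) (nat_lit 358) (nat_lit 320) (nat_lit 210)) (XT.lf (nat_lit 0) (nat_lit 10051917381) (nat_lit 420) (nat_lit 7184403408) (nat_lit 504) (nat_lit 802948044) (nat_lit 41) (nat_lit 5) (nat_lit 46) (nat_lit 5) (nat_lit 47) (nat_lit 5) (nat_lit 359) (nat_lit 320) (nat_lit 209)))) (XT.nd (nat_lit 188) (nat_lit 0) (nat_lit 0) (XT.nd (nat_lit 94) (nat_lit 336) (nat_lit 0) (XT.lf (nat_lit 0) (nat_lit 510070906) (nat_lit 504) (nat_lit 2626472343) (nat_lit 84) (nat_lit 15289387115) (nat_lit 40) (nat_lit 5) (nat_lit 46) (nat_lit 5) (nat_lit 41) (nat_lit 5) (nat_lit 360) (nat_lit 320) (nat_lit 208)) (XT.lf (nat_lit 0) (nat_lit 1877834029) (nat_lit 420) (nat_lit 15892781330) (nat_lit 84) (nat_lit 1052812360) (nat_lit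 36) (nat_lit 5) (nat_lit 41) (nat_lit 5) (nat_lit 37) (nat_lit 5) (nat_lit 361) (nat_lit 320) (nat_lit 207))) (XT.nd (nat_lit 94) (nat_lit 0) (nat_lit 0) (XT.lf (nat_lit 0) (nat_lit 3338818484) (nat_lit 420) (nat_lit 10559276223) (nat_lit 84) (nat_lit 5333631864) (nat_lit 36) (nat_lit 5) (nat_lit 41) (nat_lit 5) (nat_lit 37) (nat_lit 5) (nat_lit 362) (nat_lit 320) (nat_lit 206)) (XT.lf (nat_lit 0) (nat_lit 4836408530) (nat_lit 420) (nat_lit 5070359114) (nat_lit 84) (nat_lit 9746237157) (nat_lit 36) (nat_lit 5) (nat_lit 41) (nat_lit 5) (nat_lit 37) (nat_lit 5) (nat_lit 363) (nat_lit 320) (nat_lit 205))))))) (XT.nd (nat_lit 1222) (nat_lit 672) (nat_lit 0) (XT.nd (nat_lit 564) (nat_lit 588) (nat_lit 0) (XT.nd (nat_lit 282) (nat_lit 252) (nat_lit 0) (XT.nd (nat_lit 94) (nat_lit 0) (nat_lit 0) (XT.lf (nat_lit 0) (nat_lit 590993444) (nat_lit 336) (nat_lit 5786869361) (nat_lit 420) (nat_lit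 13709610533) (nat_lit 32) (nat_lit 5) (nat_lit 36) (nat_lit 5) (nat_lit 37) (nat_lit 5) (nat_lit 364) (nat_lit 320) (nat_lit 204)) (XT.nd (nat_lit 94) (nat_lit 0) (nat_lit 0) (XT.lf (nat_lit 0) (nat_lit 6525806176) (nat_lit 336) (nat_lit 1485955088) (nat_lit 420) (nat_lit 12522314452) (nat_lit 32) (nat_lit 5) (nat_lit 36) (nat_lit 5) (nat_lit 37) (nat_lit 5) (nat_lit 365) (nat_lit 320) (nat_lit 203)) (XT.lf (nat_lit 0) (nat_lit 9717529237) (nat_lit 420) (nat_lit 8388700767) (nat_lit 84) (nat_lit 2887683237) (nat_lit 32) (nat_lit 5) (nat_lit 37) (nat_lit 5) (nat_lit 33) (nat_lit 5) (nat_lit 366) (nat_lit 320) (nat_lit 202)))) (XT.nd (nat_lit 94) (nat_lit 252) (nat_lit 0) (XT.lf (nat_lit 0) (nat_lit 11483586533) (nat_lit 420) (nat_lit 2619365402) (nat_lit 84) (nat_lit 7364870869) (nat_lit 32) (nat_lit 5) (nat_lit 37) (nat_lit 5) (nat_lit 33) (nat_lit 5) (nat_lit 367) (nat_lit 320)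 (nat_lit 201)) (XT.nd (nat_lit 94) (nat_lit 0) (nat_lit 0) (XT.lf (nat_lit 0) (nat_lit 3388118066) (nat_lit 252) (nat_lit 9942330929) (nat_lit 336) (nat_lit 8625212184) (nat_lit 29) (nat_lit 5) (nat_lit 32) (nat_lit 5) (nat_lit 33) (nat_lit 5) (nat_lit 368) (nat_lit 320) (nat_lit 200)) (XT.lf (nat_lit 0) (nat_lit 9628489127) (nat_lit 252) (nat_lit 5626001789) (nat_lit 336) (nat_lit 7203557927) (nat_lit 29) (nat_lit 5) (nat_lit 32) (nat_lit 5) (nat_lit 33) (nat_lit 5) (nat_lit 369) (nat_lit 320) (nat_lit 199))))) (XT.nd (nat_lit 282) (nat_lit 336) (nat_lit 0) (XT.nd (nat_lit 94) (nat_lit 252) (nat_lit 0) (XT.lf (nat_lit 0) (nat_lit 16053704935) (nat_lit 252) (nat_lit 1177282049) (nat_lit 336) (nat_lit 5745289174) (nat_lit 29) (nat_lit 5) (nat_lit 32) (nat_lit 5) (nat_lit 33) (nat_lit 5) (nat_lit 370) (nat_lit 320) (nat_lit 198)) (XT.nd (nat_lit 94) (nat_lit 252) (nat_lit 0) (XT.lf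 (nat_lit 0) (nat_lit 19295587031) (nat_lit 336) (nat_lit 874879232) (nat_lit 84) (nat_lit 3339311865) (nat_lit 29) (nat_lit 5) (nat_lit 33) (nat_lit 5) (nat_lit 30) (nat_lit 5) (nat_lit 371) (nat_lit 320) (nat_lit 197)) (XT.lf (nat_lit 0) (nat_lit 5449716374) (nat_lit 252) (nat_lit 16033797572) (nat_lit 336) (nat_lit 2574505838) (nat_lit 26) (nat_lit 5) (nat_lit 29) (nat_lit 5) (nat_lit 30) (nat_lit 5) (nat_lit 372) (nat_lit 320) (nat_lit 196)))) (XT.nd (nat_lit 188) (nat_lit 252) (nat_lit 0) (XT.nd (nat_lit 94) (nat_lit 84) (nat_lit 0) (XT.lf (nat_lit 0) (nat_lit 11980672146) (nat_lit 252) (nat_lit 11761069952) (nat_lit 336) (nat_lit 881477059) (nat_lit 26) (nat_lit 5) (nat_lit 29) (nat_lit 5) (nat_lit 30) (nat_lit 5) (nat_lit 373) (nat_lit 320) (nat_lit 195)) (XT.lf (nat_lit 0) (nat_lit 840067855) (nat_lit 336) (nat_lit 6508596279) (nat_lit 84) (nat_lit 17857249867) (nat_lit 25)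 (nat_lit 5) (nat_lit 29) (nat_lit 5) (nat_lit 26) (nat_lit 5) (nat_lit 374) (nat_lit 320) (nat_lit 194))) (XT.nd (nat_lit 94) (nat_lit 252) (nat_lit 0) (XT.lf (nat_lit 0) (nat_lit 2590308172) (nat_lit 336) (nat_lit 201435546) (nat_lit 84) (nat_lit 23014881970) (nat_lit 25) (nat_lit 5) (nat_lit 29) (nat_lit 5) (nat_lit 26) (nat_lit 5) (nat_lit 375) (nat_lit 320) (nat_lit 193)) (XT.lf (nat_lit 0) (nat_lit 4471900472) (nat_lit 336) (nat_lit 20020791802) (nat_lit 84) (nat_lit 1930911722) (nat_lit 22) (nat_lit 5) (nat_lit 26) (nat_lit 5) (nat_lit 23) (nat_lit 5) (nat_lit 376) (nat_lit 320) (nat_lit 192)))))) (XT.nd (nat_lit 564) (nat_lit 420) (nat_lit 0) (XT.nd (nat_lit 282) (nat_lit 252) (nat_lit 0) (XT.nd (nat_lit 94) (nat_lit 0) (nat_lit 0) (XT.lf (nat_lit 0) (nat_lit 6436423008) (nat_lit 336) (nat_lit 13879972789) (nat_lit 84) (nat_lit 6742583659) (nat_lit 22) (nat_lit 5) (nat_lit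 26) (nat_lit 5) (nat_lit 23) (nat_lit 5) (nat_lit 377) (nat_lit 320) (nat_lit 191)) (XT.nd (nat_lit 94) (nat_lit 0) (nat_lit 0) (XT.lf (nat_lit 0) (nat_lit 8455952266) (nat_lit 336) (nat_lit 7556370156) (nat_lit 84) (nat_lit 11701944277) (nat_lit 22) (nat_lit 5) (nat_lit 26) (nat_lit 5) (nat_lit 23) (nat_lit 5) (nat_lit 378) (nat_lit 320) (nat_lit 190)) (XT.lf (nat_lit 0) (nat_lit 10532370658) (nat_lit 336) (nat_lit 1044089643) (nat_lit 84) (nat_lit 16813616218) (nat_lit 22) (nat_lit 5) (nat_lit 26) (nat_lit 5) (nat_lit 23) (nat_lit 5) (nat_lit 379) (nat_lit 320) (nat_lit 189)))) (XT.nd (nat_lit 94) (nat_lit 0) (nat_lit 0) (XT.lf (nat_lit 0) (nat_lit 5779380514) (nat_lit 252) (nat_lit 6945565280) (nat_lit 336) (nat_lit 16360315753) (nat_lit 19) (nat_lit 5) (nat_lit 22) (nat_lit 5) (nat_lit 23) (nat_lit 5) (nat_lit 380) (nat_lit 320) (nat_lit 188)) (XT.nd (nat_lit 94) (nat_lit 0)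 (nat_lit 0) (XT.lf (nat_lit 0) (nat_lit 12829451922) (nat_lit 252) (nat_lit 2161489264) (nat_lit 336) (nat_lit 14810916767) (nat_lit 19) (nat_lit 5) (nat_lit 22) (nat_lit 5) (nat_lit 23) (nat_lit 5) (nat_lit 381) (nat_lit 320) (nat_lit 187)) (XT.lf (nat_lit 0) (nat_lit 17349370594) (nat_lit 336) (nat_lit 10477106090) (nat_lit 84) (nat_lit 2713533047) (nat_lit 19) (nat_lit 5) (nat_lit 23) (nat_lit 5) (nat_lit 20) (nat_lit 5) (nat_lit 382) (nat_lit 320) (nat_lit 186))))) (XT.nd (nat_lit 282) (nat_lit 252) (nat_lit 0) (XT.nd (nat_lit 94) (nat_lit 168) (nat_lit 0) (XT.lf (nat_lit 0) (nat_lit 19797878162) (nat_lit 336) (nat_lit 3809372751) (nat_lit 84) (nat_lit 7693295181) (nat_lit 19) (nat_lit 5) (nat_lit 23) (nat_lit 5) (nat_lit 20) (nat_lit 5) (nat_lit 383) (nat_lit 320) (nat_lit 185)) (XT.nd (nat_lit 94) (nat_lit 0) (nat_lit 0) (XT.lf (nat_lit 0) (nat_lit 3121339283) (nat_lit 168)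 (nat_lit 19226928705) (nat_lit 252) (nat_lit 9735612777) (nat_lit 17) (nat_lit 5) (nat_lit 19) (nat_lit 5) (nat_lit 20) (nat_lit 5) (nat_lit 384) (nat_lit 320) (nat_lit 184)) (XT.lf (nat_lit 0) (nat_lit 10341117932) (nat_lit 168) (nat_lit 14671463461) (nat_lit 252) (nat_lit 7877862912) (nat_lit 17) (nat_lit 5) (nat_lit 19) (nat_lit 5) (nat_lit 20) (nat_lit 5) (nat_lit 385) (nat_lit 320) (nat_lit 183)))) (XT.nd (nat_lit 188) (nat_lit 252) (nat_lit 0) (XT.nd (nat_lit 94) (nat_lit 0) (nat_lit 0) (XT.lf (nat_lit 0) (nat_lit 17778364271) (nat_lit 168) (nat_lit 9976371049) (nat_lit 252) (nat_lit 5967448760) (nat_lit 17) (nat_lit 5) (nat_lit 19) (nat_lit 5) (nat_lit 20) (nat_lit 5) (nat_lit 386) (nat_lit 320) (nat_lit 182)) (XT.lf (nat_lit 0) (nat_lit 25440010592) (nat_lit 168) (nat_lit 5137275151) (nat_lit 252) (nat_lit 4002589614) (nat_lit 17) (nat_lit 5) (nat_lit 19) (nat_lit 5) (nat_lit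 20) (nat_lit 5) (nat_lit 387) (nat_lit 320) (nat_lit 181))) (XT.nd (nat_lit 94) (nat_lit 252) (nat_lit 0) (XT.lf (nat_lit 0) (nat_lit 33333198351) (nat_lit 168) (nat_lit 149665224) (nat_lit 252) (nat_lit 1981454020) (nat_lit 17) (nat_lit 5) (nat_lit 19) (nat_lit 5) (nat_lit 20) (nat_lit 5) (nat_lit 388) (nat_lit 320) (nat_lit 180)) (XT.lf (nat_lit 0) (nat_lit 197431026) (nat_lit 252) (nat_lit 31232159100) (nat_lit 84) (nat_lit 4943566598) (nat_lit 14) (nat_lit 5) (nat_lit 17) (nat_lit 5) (nat_lit 15) (nat_lit 5) (nat_lit 389) (nat_lit 320) (nat_lit 179))))))))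
noncomputable def xc142 : XT := (XT.nd (nat_lit 2350) (nat_lit 84) (nat_lit 0) (XT.nd (nat_lit 1128) (nat_lit 336) (nat_lit 0) (XT.nd (nat_lit 564) (nat_lit 168) (nat_lit 0) (XT.nd (nat_lit 282) (nat_lit 168) (nat_lit 0) (XT.nd (nat_lit 94) (nat_lit 0) (nat_lit 0) (XT.lf (nat_lit 0) (nat_lit 2422359956) (nat_lit 252) (nat_lit 24653759828) (nat_lit 84) (nat_lit 10232834270) (nat_lit 14) (nat_lit 5) (nat_lit 17) (nat_lit 5) (nat_lit 15) (nat_lit 5) (nat_lit 390) (nat_lit 320) (nat_lit 178)) (XT.nd (nat_lit 94) (nat_lit 0) (nat_lit 0) (XT.lf (nat_lit 0) (nat_lit 4712047484) (nat_lit 252) (nat_lit 17877234660) (nat_lit 84) (nat_lit 15684630757) (nat_lit 14) (nat_lit 5) (nat_lit 17) (nat_lit 5) (nat_lit 15) (nat_lit 5) (nat_lit 391) (nat_lit 320) (nat_lit 177)) (XT.lf (nat_lit 0) (nat_lit 7068627840) (nat_lit 252) (nat_lit 10896267165) (nat_lit 84) (nat_lit 21304037705) (nat_lit 14) (nat_lit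 5) (nat_lit 17) (nat_lit 5) (nat_lit 15) (nat_lit 5) (nat_lit 392) (nat_lit 320) (nat_lit 176)))) (XT.nd (nat_lit 94) (nat_lit 168) (nat_lit 0) (XT.lf (nat_lit 0) (nat_lit 9494297604) (nat_lit 252) (nat_lit 3704350350) (nat_lit 84) (nat_lit 27096292989) (nat_lit 14) (nat_lit 5) (nat_lit 17) (nat_lit 5) (nat_lit 15) (nat_lit 5) (nat_lit 393) (nat_lit 320) (nat_lit 175)) (XT.nd (nat_lit 94) (nat_lit 0) (nat_lit 0) (XT.lf (nat_lit 0) (nat_lit 3781406314) (nat_lit 168) (nat_lit 8247423457) (nat_lit 252) (nat_lit 29322901303) (nat_lit 12) (nat_lit 5) (nat_lit 14) (nat_lit 5) (nat_lit 15) (nat_lit 5) (nat_lit 394) (nat_lit 320) (nat_lit 174)) (XT.lf (nat_lit 0) (nat_lit 11572508857) (nat_lit 168) (nat_lit 3104307634) (nat_lit 252) (nat_lit 27763402529) (nat_lit 12) (nat_lit 5) (nat_lit 14) (nat_lit 5) (nat_lit 15) (nat_lit 5) (nat_lit 395) (nat_lit 320) (nat_lit 173))))) (XT.nd (nat_lit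 282) (nat_lit 168) (nat_lit 0) (XT.nd (nat_lit 94) (nat_lit 0) (nat_lit 0) (XT.lf (nat_lit 0) (nat_lit 17425015547) (nat_lit 252) (nat_lit 23984324409) (nat_lit 84) (nat_lit 2152566435) (nat_lit 12) (nat_lit 5) (nat_lit 15) (nat_lit 5) (nat_lit 13) (nat_lit 5) (nat_lit 396) (nat_lit 320) (nat_lit 172)) (XT.nd (nat_lit 94) (nat_lit 0) (nat_lit 0) (XT.lf (nat_lit 0) (nat_lit 20286587138) (nat_lit 252) (nat_lit 16924350051) (nat_lit 84) (nat_lit 7506572972) (nat_lit 12) (nat_lit 5) (nat_lit 15) (nat_lit 5) (nat_lit 13) (nat_lit 5) (nat_lit 397) (nat_lit 320) (nat_lit 171)) (XT.lf (nat_lit 0) (nat_lit 23233403433) (nat_lit 252) (nat_lit 9650411336) (nat_lit 84) (nat_lit 13025247351) (nat_lit 12) (nat_lit 5) (nat_lit 15) (nat_lit 5) (nat_lit 13) (nat_lit 5) (nat_lit 398) (nat_lit 320) (nat_lit 170)))) (XT.nd (nat_lit 94) (nat_lit 168) (nat_lit 0) (XT.lf (nat_lit 0) (nat_lit 26268211174)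 (nat_lit 252) (nat_lit 2155728193) (nat_lit 84) (nat_lit 18713733556) (nat_lit 12) (nat_lit 5) (nat_lit 15) (nat_lit 5) (nat_lit 13) (nat_lit 5) (nat_lit 399) (nat_lit 320) (nat_lit 169)) (XT.nd (nat_lit 94) (nat_lit 0) (nat_lit 0) (XT.lf (nat_lit 0) (nat_lit 5681147672) (nat_lit 168) (nat_lit 23769049134) (nat_lit 252) (nat_lit 18952543866) (nat_lit 10) (nat_lit 5) (nat_lit 12) (nat_lit 5) (nat_lit 13) (nat_lit 5) (nat_lit 400) (nat_lit 320) (nat_lit 168)) (XT.lf (nat_lit 0) (nat_lit 13802108697) (nat_lit 168) (nat_lit 18948010609) (nat_lit 252) (nat_lit 16956323655) (nat_lit 10) (nat_lit 5) (nat_lit 12) (nat_lit 5) (nat_lit 13) (nat_lit 5) (nat_lit 401) (nat_lit 320) (nat_lit 167)))))) (XT.nd (nat_lit 564) (nat_lit 252) (nat_lit 0) (XT.nd (nat_lit 282) (nat_lit 84) (nat_lit 0) (XT.nd (nat_lit 94) (nat_lit 0) (nat_lit 0) (XT.lf (nat_lit 0) (nat_lit 22170398273) (nat_lit 168) (nat_lit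 13978831461) (nat_lit 252) (nat_lit 14901441810) (nat_lit 10) (nat_lit 5) (nat_lit 12) (nat_lit 5) (nat_lit 13) (nat_lit 5) (nat_lit 402) (nat_lit 320) (nat_lit 166)) (XT.nd (nat_lit 94) (nat_lit 0) (nat_lit 0) (XT.lf (nat_lit 0) (nat_lit 30793816525) (nat_lit 168) (nat_lit 8856879895) (nat_lit 252) (nat_lit 12785982966) (nat_lit 10) (nat_lit 5) (nat_lit 12) (nat_lit 5) (nat_lit 13) (nat_lit 5) (nat_lit 403) (nat_lit 320) (nat_lit 165)) (XT.lf (nat_lit 0) (nat_lit 39680401379) (nat_lit 168) (nat_lit 3577381714) (nat_lit 252) (nat_lit 10607975294) (nat_lit 10) (nat_lit 5) (nat_lit 12) (nat_lit 5) (nat_lit 13) (nat_lit 5) (nat_lit 404) (nat_lit 320) (nat_lit 164)))) (XT.nd (nat_lit 94) (nat_lit 84) (nat_lit 0) (XT.lf (nat_lit 0) (nat_lit 46992348845) (nat_lit 252) (nat_lit 6519301444) (nat_lit 84) (nat_lit 1827016910) (nat_lit 10) (nat_lit 5) (nat_lit 13) (nat_lit 5) (nat_lit 11) (nat_lit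 4) (nat_lit 405) (nat_lit 320) (nat_lit 163)) (XT.nd (nat_lit 94) (nat_lit 0) (nat_lit 0) (XT.lf (nat_lit 0) (nat_lit 1371445019) (nat_lit 84) (nat_lit 49518670508) (nat_lit 168) (nat_lit 5965663732) (nat_lit 9) (nat_lit 5) (nat_lit 10) (nat_lit 5) (nat_lit 11) (nat_lit 4) (nat_lit 406) (nat_lit 320) (nat_lit 162)) (XT.lf (nat_lit 0) (nat_lit 9641050701) (nat_lit 84) (nat_lit 45332990517) (nat_lit 168) (nat_lit 3443868382) (nat_lit 9) (nat_lit 5) (nat_lit 10) (nat_lit 5) (nat_lit 11) (nat_lit 4) (nat_lit 407) (nat_lit 320) (nat_lit 161))))) (XT.nd (nat_lit 282) (nat_lit 168) (nat_lit 0) (XT.nd (nat_lit 94) (nat_lit 84) (nat_lit 0) (XT.lf (nat_lit 0) (nat_lit 18163173533) (nat_lit 84) (nat_lit 41018756962) (nat_lit 168) (nat_lit 846629862) (nat_lit 9) (nat_lit 5) (nat_lit 10) (nat_lit 5) (nat_lit 11) (nat_lit 4) (nat_lit 408) (nat_lit 320) (nat_lit 160)) (XT.nd (nat_lit 94) (nat_lit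 0) (nat_lit 0) (XT.lf (nat_lit 0) (nat_lit 1791633074) (nat_lit 168) (nat_lit 34761614476) (nat_lit 84) (nat_lit 25135422975) (nat_lit 8) (nat_lit 5) (nat_lit 10) (nat_lit 5) (nat_lit 9) (nat_lit 5) (nat_lit 409) (nat_lit 320) (nat_lit 159)) (XT.lf (nat_lit 0) (nat_lit 4491576824) (nat_lit 168) (nat_lit 27449960641) (nat_lit 84) (nat_lit 31458527789) (nat_lit 8) (nat_lit 5) (nat_lit 10) (nat_lit 5) (nat_lit 9) (nat_lit 5) (nat_lit 410) (nat_lit 320) (nat_lit 158)))) (XT.nd (nat_lit 188) (nat_lit 168) (nat_lit 0) (XT.nd (nat_lit 94) (nat_lit 0) (nat_lit 0) (XT.lf (nat_lit 0) (nat_lit 7272775722) (nat_lit 168) (nat_lit 19915211418) (nat_lit 84) (nat_lit 37976612961) (nat_lit 8) (nat_lit 5) (nat_lit 10) (nat_lit 5) (nat_lit 9) (nat_lit 5) (nat_lit 411) (nat_lit 320) (nat_lit 157)) (XT.lf (nat_lit 0) (nat_lit 10137822137) (nat_lit 168) (nat_lit 12150343632) (nat_lit 84) (nat_lit 44695754028)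 (nat_lit 8) (nat_lit 5) (nat_lit 10) (nat_lit 5) (nat_lit 9) (nat_lit 5) (nat_lit 412) (nat_lit 320) (nat_lit 156))) (XT.nd (nat_lit 94) (nat_lit 168) (nat_lit 0) (XT.lf (nat_lit 0) (nat_lit 13089386593) (nat_lit 168) (nat_lit 4148119613) (nat_lit 84) (nat_lit 51622213934) (nat_lit 8) (nat_lit 5) (nat_lit 10) (nat_lit 5) (nat_lit 9) (nat_lit 5) (nat_lit 413) (nat_lit 320) (nat_lit 155)) (XT.lf (nat_lit 0) (nat_lit 4183201741) (nat_lit 168) (nat_lit 11988516394) (nat_lit 252) (nat_lit 54620745003) (nat_lit 6) (nat_lit 5) (nat_lit 8) (nat_lit 5) (nat_lit 9) (nat_lit 5) (nat_lit 414) (nat_lit 320) (nat_lit 154))))))) (XT.nd (nat_lit 1222) (nat_lit 0) (nat_lit 0) (XT.nd (nat_lit 564) (nat_lit 84) (nat_lit 0) (XT.nd (nat_lit 282) (nat_lit 0) (nat_lit 0) (XT.nd (nat_lit 94) (nat_lit 0) (nat_lit 0) (XT.lf (nat_lit 0) (nat_lit 12857511156) (nat_lit 168) (nat_lit 6533194449) (nat_lit 252)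 (nat_lit 53393151214) (nat_lit 6) (nat_lit 5) (nat_lit 8) (nat_lit 5) (nat_lit 9) (nat_lit 5) (nat_lit 415) (nat_lit 320) (nat_lit 153)) (XT.nd (nat_lit 94) (nat_lit 0) (nat_lit 0) (XT.lf (nat_lit 0) (nat_lit 21797600148) (nat_lit 168) (nat_lit 909753302) (nat_lit 252) (nat_lit 52129705797) (nat_lit 6) (nat_lit 5) (nat_lit 8) (nat_lit 5) (nat_lit 9) (nat_lit 5) (nat_lit 416) (nat_lit 320) (nat_lit 152)) (XT.lf (nat_lit 0) (nat_lit 26173233263) (nat_lit 252) (nat_lit 45990662534) (nat_lit 84) (nat_lit 4788585542) (nat_lit 6) (nat_lit 5) (nat_lit 9) (nat_lit 5) (nat_lit 7) (nat_lit 4) (nat_lit 417) (nat_lit 320) (nat_lit 151)))) (XT.nd (nat_lit 94) (nat_lit 0) (nat_lit 0) (XT.lf (nat_lit 0) (nat_lit 29753848515) (nat_lit 252) (nat_lit 38735658660) (nat_lit 84) (nat_lit 10643757254) (nat_lit 6) (nat_lit 5) (nat_lit 9) (nat_lit 5) (nat_lit 7) (nat_lit 4) (nat_lit 418) (nat_lit 320) (nat_lit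 150)) (XT.nd (nat_lit 94) (nat_lit 0) (nat_lit 0) (XT.lf (nat_lit 0) (nat_lit 33443511849) (nat_lit 252) (nat_lit 31258660188) (nat_lit 84) (nat_lit 16679548967) (nat_lit 6) (nat_lit 5) (nat_lit 9) (nat_lit 5) (nat_lit 7) (nat_lit 4) (nat_lit 419) (nat_lit 320) (nat_lit 149)) (XT.lf (nat_lit 0) (nat_lit 37245662420) (nat_lit 252) (nat_lit 23552697773) (nat_lit 84) (nat_lit 22901586671) (nat_lit 6) (nat_lit 5) (nat_lit 9) (nat_lit 5) (nat_lit 7) (nat_lit 4) (nat_lit 420) (nat_lit 320) (nat_lit 148))))) (XT.nd (nat_lit 282) (nat_lit 0) (nat_lit 0) (XT.nd (nat_lit 94) (nat_lit 84) (nat_lit 0) (XT.lf (nat_lit 0) (nat_lit 41163844230) (nat_lit 252) (nat_lit 15610588651) (nat_lit 84) (nat_lit 29315669957) (nat_lit 6) (nat_lit 5) (nat_lit 9) (nat_lit 5) (nat_lit 7) (nat_lit 4) (nat_lit 421) (nat_lit 320) (nat_lit 147)) (XT.nd (nat_lit 94) (nat_lit 84) (nat_lit 0) (XT.lf (nat_lit 0) (nat_lit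 45201709433) (nat_lit 252) (nat_lit 7424929943) (nat_lit 84) (nat_lit 35927777423) (nat_lit 6) (nat_lit 5) (nat_lit 9) (nat_lit 5) (nat_lit 7) (nat_lit 4) (nat_lit 422) (nat_lit 320) (nat_lit 146)) (XT.lf (nat_lit 0) (nat_lit 1032715148) (nat_lit 84) (nat_lit 48340551258) (nat_lit 168) (nat_lit 41721601758) (nat_lit 5) (nat_lit 5) (nat_lit 6) (nat_lit 5) (nat_lit 7) (nat_lit 4) (nat_lit 423) (nat_lit 320) (nat_lit 145)))) (XT.nd (nat_lit 188) (nat_lit 0) (nat_lit 0) (XT.nd (nat_lit 94) (nat_lit 0) (nat_lit 0) (XT.lf (nat_lit 0) (nat_lit 9907401988) (nat_lit 84) (nat_lit 43842540608) (nat_lit 168) (nat_lit 39961788590) (nat_lit 5) (nat_lit 5) (nat_lit 6) (nat_lit 5) (nat_lit 7) (nat_lit 4) (nat_lit 424) (nat_lit 320) (nat_lit 144)) (XT.lf (nat_lit 0) (nat_lit 19054730924) (nat_lit 84) (nat_lit 39205915852) (nat_lit 168) (nat_lit 38149128573) (nat_lit 5) (nat_lit 5) (nat_lit 6) (nat_lit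 5) (nat_lit 7) (nat_lit 4) (nat_lit 425) (nat_lit 320) (nat_lit 143))) (XT.nd (nat_lit 94) (nat_lit 0) (nat_lit 0) (XT.lf (nat_lit 0) (nat_lit 28483228226) (nat_lit 84) (nat_lit 34426355170) (nat_lit 168) (nat_lit 36281932118) (nat_lit 5) (nat_lit 5) (nat_lit 6) (nat_lit 5) (nat_lit 7) (nat_lit 4) (nat_lit 426) (nat_lit 320) (nat_lit 142)) (XT.lf (nat_lit 0) (nat_lit 38201682241) (nat_lit 84) (nat_lit 29499403509) (nat_lit 168) (nat_lit 34358458802) (nat_lit 5) (nat_lit 5) (nat_lit 6) (nat_lit 5) (nat_lit 7) (nat_lit 4) (nat_lit 427) (nat_lit 320) (nat_lit 141)))))) (XT.nd (nat_lit 46154) (nat_lit 0) (nat_lit 6636) (XT.nd (nat_lit 45872) (nat_lit 0) (nat_lit 7308) (XT.nd (nat_lit 45684) (nat_lit 0) (nat_lit 7308) (XT.lf (nat_lit 0) (nat_lit 48219151585) (nat_lit 84) (nat_lit 24420468436) (nat_lit 168) (nat_lit 32376915746) (nat_lit 5) (nat_lit 5) (nat_lit 6) (nat_lit 5) (nat_lit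 7) (nat_lit 4) (nat_lit 428) (nat_lit 320) (nat_lit 140)) (XT.nd (nat_lit 94) (nat_lit 0) (nat_lit 0) (XT.lf (nat_lit 0) (nat_lit 1663258391) (nat_lit 924) (nat_lit 1537345369) (nat_lit 924) (nat_lit 1537345369) (nat_lit 92) (nat_lit 3) (nat_lit 103) (nat_lit 3) (nat_lit 103) (nat_lit 5) (nat_lit 321) (nat_lit 321) (nat_lit 246)) (XT.lf (nat_lit 84) (nat_lit 42463082) (nat_lit 0) (nat_lit 3947496221) (nat_lit 924) (nat_lit 5609116643) (nat_lit 93) (nat_lit 5) (nat_lit 92) (nat_lit 3) (nat_lit 103) (nat_lit 5) (nat_lit 322) (nat_lit 321) (nat_lit 245)))) (XT.nd (nat_lit 94) (nat_lit 0) (nat_lit 84) (XT.lf (nat_lit 84) (nat_lit 3308370597) (nat_lit 0) (nat_lit 1372922732) (nat_lit 924) (nat_lit 5044742359) (nat_lit 93) (nat_lit 5) (nat_lit 92) (nat_lit 3) (nat_lit 103) (nat_lit 5) (nat_lit 323) (nat_lit 321) (nat_lit 244)) (XT.nd (nat_lit 94) (nat_lit 0) (nat_lit 0) (XT.lf (nat_lit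 0) (nat_lit 5382859699) (nat_lit 840) (nat_lit 3207831710) (nat_lit 924) (nat_lit 1266771826) (nat_lit 93) (nat_lit 5) (nat_lit 103) (nat_lit 5) (nat_lit 104) (nat_lit 5) (nat_lit 324) (nat_lit 321) (nat_lit 243)) (XT.lf (nat_lit 84) (nat_lit 75692482) (nat_lit 0) (nat_lit 6022082477) (nat_lit 924) (nat_lit 3895629789) (nat_lit 94) (nat_lit 5) (nat_lit 93) (nat_lit 5) (nat_lit 104) (nat_lit 5) (nat_lit 325) (nat_lit 321) (nat_lit 242))))) (XT.nd (nat_lit 282) (nat_lit 756) (nat_lit 0) (XT.nd (nat_lit 94) (nat_lit 0) (nat_lit 0) (XT.lf (nat_lit 84) (nat_lit 3515847606) (nat_lit 0) (nat_lit 3329862623) (nat_lit 924) (nat_lit 3287687565) (nat_lit 94) (nat_lit 5) (nat_lit 93) (nat_lit 5) (nat_lit 104) (nat_lit 5) (nat_lit 326) (nat_lit 321) (nat_lit 241)) (XT.nd (nat_lit 94) (nat_lit 0) (nat_lit 84) (XT.lf (nat_lit 84) (nat_lit 7049880647) (nat_lit 0) (nat_lit 545005603) (nat_lit 924)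 (nat_lit 2683693380) (nat_lit 94) (nat_lit 5) (nat_lit 93) (nat_lit 5) (nat_lit 104) (nat_lit 5) (nat_lit 327) (nat_lit 321) (nat_lit 240)) (XT.lf (nat_lit 84) (nat_lit 233541120) (nat_lit 0) (nat_lit 8137941292) (nat_lit 924) (nat_lit 2056813254) (nat_lit 95) (nat_lit 5) (nat_lit 94) (nat_lit 5) (nat_lit 105) (nat_lit 5) (nat_lit 328) (nat_lit 321) (nat_lit 239)))) (XT.nd (nat_lit 188) (nat_lit 840) (nat_lit 0) (XT.nd (nat_lit 94) (nat_lit 0) (nat_lit 0) (XT.lf (nat_lit 84) (nat_lit 3852708439) (nat_lit 0) (nat_lit 5337973021) (nat_lit 924) (nat_lit 1391555768) (nat_lit 95) (nat_lit 5) (nat_lit 94) (nat_lit 5) (nat_lit 105) (nat_lit 5) (nat_lit 329) (nat_lit 321) (nat_lit 238)) (XT.lf (nat_lit 84) (nat_lit 7571305434) (nat_lit 0) (nat_lit 2443902074) (nat_lit 924) (nat_lit 726519521) (nat_lit 95) (nat_lit 5) (nat_lit 94) (nat_lit 5) (nat_lit 105) (nat_lit 5) (nat_lit 330) (nat_lit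 321) (nat_lit 237))) (XT.nd (nat_lit 94) (nat_lit 924) (nat_lit 0) (XT.lf (nat_lit 84) (nat_lit 490337705) (nat_lit 0) (nat_lit 10365781608) (nat_lit 924) (nat_lit 50475421) (nat_lit 96) (nat_lit 5) (nat_lit 95) (nat_lit 5) (nat_lit 106) (nat_lit 5) (nat_lit 331) (nat_lit 321) (nat_lit 236)) (XT.lf (nat_lit 0) (nat_lit 672649898) (nat_lit 924) (nat_lit 6789109952) (nat_lit 1008) (nat_lit 3613541484) (nat_lit 84) (nat_lit 5) (nat_lit 95) (nat_lit 5) (nat_lit 96) (nat_lit 5) (nat_lit 332) (nat_lit 321) (nat_lit 235))))))))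
noncomputable def xc143 : XT := (XT.nd (nat_lit 2444) (nat_lit 2268) (nat_lit 0) (XT.nd (nat_lit 1222) (nat_lit 1764) (nat_lit 0) (XT.nd (nat_lit 564) (nat_lit 1428) (nat_lit 0) (XT.nd (nat_lit 282) (nat_lit 0) (nat_lit 84) (XT.nd (nat_lit 94) (nat_lit 0) (nat_lit 0) (XT.lf (nat_lit 0) (nat_lit 1398446601) (nat_lit 924) (nat_lit 3063235288) (nat_lit 1008) (nat_lit 6788255796) (nat_lit 84) (nat_lit 5) (nat_lit 95) (nat_lit 5) (nat_lit 96) (nat_lit 5) (nat_lit 333) (nat_lit 321) (nat_lit 234)) (XT.nd (nat_lit 94) (nat_lit 0) (nat_lit 84) (XT.lf (nat_lit 84) (nat_lit 781077564) (nat_lit 0) (nat_lit 1355278995) (nat_lit 1008) (nat_lit 9294085329) (nat_lit 85) (nat_lit 5) (nat_lit 84) (nat_lit 5) (nat_lit 96) (nat_lit 5) (nat_lit 334) (nat_lit 321) (nat_lit 233)) (XT.lf (nat_lit 0) (nat_lit 2930104078) (nat_lit 924) (nat_lit 6838099795) (nat_lit 1008) (nat_lit 1847444185) (nat_lit 85)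 (nat_lit 5) (nat_lit 96) (nat_lit 5) (nat_lit 97) (nat_lit 5) (nat_lit 335) (nat_lit 321) (nat_lit 232)))) (XT.nd (nat_lit 94) (nat_lit 0) (nat_lit 0) (XT.lf (nat_lit 0) (nat_lit 3745185025) (nat_lit 924) (nat_lit 2935543195) (nat_lit 1008) (nat_lit 5126093174) (nat_lit 85) (nat_lit 5) (nat_lit 96) (nat_lit 5) (nat_lit 97) (nat_lit 5) (nat_lit 336) (nat_lit 321) (nat_lit 231)) (XT.nd (nat_lit 94) (nat_lit 0) (nat_lit 0) (XT.lf (nat_lit 84) (nat_lit 1097499778) (nat_lit 0) (nat_lit 3482302161) (nat_lit 1008) (nat_lit 7424417424) (nat_lit 86) (nat_lit 5) (nat_lit 85) (nat_lit 5) (nat_lit 97) (nat_lit 5) (nat_lit 337) (nat_lit 321) (nat_lit 230)) (XT.lf (nat_lit 84) (nat_lit 5305321616) (nat_lit 0) (nat_lit 149368452) (nat_lit 1008) (nat_lit 6752717213) (nat_lit 86) (nat_lit 5) (nat_lit 85) (nat_lit 5) (nat_lit 97) (nat_lit 5) (nat_lit 338) (nat_lit 321) (nat_lit 229))))) (XT.nd (nat_lit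 282) (nat_lit 672) (nat_lit 0) (XT.nd (nat_lit 94) (nat_lit 924) (nat_lit 0) (XT.lf (nat_lit 0) (nat_lit 6373587710) (nat_lit 924) (nat_lit 2818654743) (nat_lit 84) (nat_lit 3224241481) (nat_lit 86) (nat_lit 5) (nat_lit 97) (nat_lit 5) (nat_lit 87) (nat_lit 5) (nat_lit 339) (nat_lit 321) (nat_lit 228)) (XT.nd (nat_lit 94) (nat_lit 0) (nat_lit 0) (XT.lf (nat_lit 0) (nat_lit 1405801357) (nat_lit 924) (nat_lit 5915397514) (nat_lit 1008) (nat_lit 5310946063) (nat_lit 75) (nat_lit 5) (nat_lit 86) (nat_lit 5) (nat_lit 87) (nat_lit 5) (nat_lit 340) (nat_lit 321) (nat_lit 227)) (XT.lf (nat_lit 0) (nat_lit 5808737446) (nat_lit 924) (nat_lit 2503960850) (nat_lit 1008) (nat_lit 4541449965) (nat_lit 75) (nat_lit 5) (nat_lit 86) (nat_lit 5) (nat_lit 87) (nat_lit 5) (nat_lit 341) (nat_lit 321) (nat_lit 226)))) (XT.nd (nat_lit 188) (nat_lit 0) (nat_lit 0) (XT.nd (nat_lit 94) (nat_lit 672) (nat_lit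 0) (XT.lf (nat_lit 0) (nat_lit 9330550941) (nat_lit 1008) (nat_lit 2757362398) (nat_lit 84) (nat_lit 995359742) (nat_lit 75) (nat_lit 5) (nat_lit 87) (nat_lit 5) (nat_lit 76) (nat_lit 5) (nat_lit 342) (nat_lit 321) (nat_lit 225)) (XT.lf (nat_lit 0) (nat_lit 1659370723) (nat_lit 672) (nat_lit 8748656474) (nat_lit 756) (nat_lit 2910703797) (nat_lit 67) (nat_lit 5) (nat_lit 75) (nat_lit 5) (nat_lit 76) (nat_lit 5) (nat_lit 343) (nat_lit 321) (nat_lit 224))) (XT.nd (nat_lit 94) (nat_lit 0) (nat_lit 0) (XT.lf (nat_lit 0) (nat_lit 6259531592) (nat_lit 672) (nat_lit 5274456687) (nat_lit 756) (nat_lit 2027129627) (nat_lit 67) (nat_lit 5) (nat_lit 75) (nat_lit 5) (nat_lit 76) (nat_lit 5) (nat_lit 344) (nat_lit 321) (nat_lit 223)) (XT.lf (nat_lit 0) (nat_lit 10990711015) (nat_lit 672) (nat_lit 1690856869) (nat_lit 756) (nat_lit 1129957255) (nat_lit 67) (nat_lit 5) (nat_lit 75) (nat_lit 5)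 (nat_lit 76) (nat_lit 5) (nat_lit 345) (nat_lit 321) (nat_lit 222)))))) (XT.nd (nat_lit 564) (nat_lit 756) (nat_lit 0) (XT.nd (nat_lit 282) (nat_lit 420) (nat_lit 0) (XT.nd (nat_lit 94) (nat_lit 84) (nat_lit 0) (XT.lf (nat_lit 0) (nat_lit 1803576248) (nat_lit 504) (nat_lit 12086045768) (nat_lit 588) (nat_lit 179392703) (nat_lit 61) (nat_lit 5) (nat_lit 67) (nat_lit 5) (nat_lit 68) (nat_lit 5) (nat_lit 346) (nat_lit 321) (nat_lit 221)) (XT.nd (nat_lit 94) (nat_lit 0) (nat_lit 0) (XT.lf (nat_lit 0) (nat_lit 818731691) (nat_lit 588) (nat_lit 7739964575) (nat_lit 84) (nat_lit 5774569252) (nat_lit 60) (nat_lit 5) (nat_lit 67) (nat_lit 5) (nat_lit 61) (nat_lit 5) (nat_lit 347) (nat_lit 321) (nat_lit 220)) (XT.lf (nat_lit 0) (nat_lit 1831642147) (nat_lit 588) (nat_lit 3087651932) (nat_lit 84) (nat_lit 9686826042) (nat_lit 60) (nat_lit 5) (nat_lit 67) (nat_lit 5) (nat_lit 61) (nat_lit 5)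 (nat_lit 348) (nat_lit 321) (nat_lit 219)))) (XT.nd (nat_lit 94) (nat_lit 0) (nat_lit 0) (XT.lf (nat_lit 0) (nat_lit 1732521955) (nat_lit 420) (nat_lit 1148562041) (nat_lit 504) (nat_lit 12006271231) (nat_lit 55) (nat_lit 5) (nat_lit 60) (nat_lit 5) (nat_lit 61) (nat_lit 5) (nat_lit 349) (nat_lit 321) (nat_lit 218)) (XT.nd (nat_lit 94) (nat_lit 0) (nat_lit 0) (XT.lf (nat_lit 0) (nat_lit 4010991410) (nat_lit 504) (nat_lit 8447837020) (nat_lit 84) (nat_lit 2717072917) (nat_lit 55) (nat_lit 5) (nat_lit 61) (nat_lit 5) (nat_lit 56) (nat_lit 5) (nat_lit 350) (nat_lit 321) (nat_lit 217)) (XT.lf (nat_lit 0) (nat_lit 5176230408) (nat_lit 504) (nat_lit 3617925923) (nat_lit 84) (nat_lit 6679302904) (nat_lit 55) (nat_lit 5) (nat_lit 61) (nat_lit 5) (nat_lit 56) (nat_lit 5) (nat_lit 351) (nat_lit 321) (nat_lit 216))))) (XT.nd (nat_lit 282) (nat_lit 336) (nat_lit 0) (XT.nd (nat_lit 94) (nat_lit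 0) (nat_lit 0) (XT.lf (nat_lit 0) (nat_lit 1378571014) (nat_lit 420) (nat_lit 5001597821) (nat_lit 504) (nat_lit 9400066680) (nat_lit 50) (nat_lit 5) (nat_lit 55) (nat_lit 5) (nat_lit 56) (nat_lit 5) (nat_lit 352) (nat_lit 321) (nat_lit 215)) (XT.nd (nat_lit 94) (nat_lit 0) (nat_lit 0) (XT.lf (nat_lit 0) (nat_lit 6595851466) (nat_lit 420) (nat_lit 1052469550) (nat_lit 504) (nat_lit 8447438959) (nat_lit 50) (nat_lit 5) (nat_lit 55) (nat_lit 5) (nat_lit 56) (nat_lit 5) (nat_lit 353) (nat_lit 321) (nat_lit 214)) (XT.lf (nat_lit 0) (nat_lit 8975191054) (nat_lit 504) (nat_lit 4487025988) (nat_lit 84) (nat_lit 2958316696) (nat_lit 50) (nat_lit 5) (nat_lit 56) (nat_lit 5) (nat_lit 51) (nat_lit 5) (nat_lit 354) (nat_lit 321) (nat_lit 213)))) (XT.nd (nat_lit 188) (nat_lit 0) (nat_lit 0) (XT.nd (nat_lit 94) (nat_lit 0) (nat_lit 0) (XT.lf (nat_lit 0) (nat_lit 673510178) (nat_lit 336) (nat_lit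 9676902001) (nat_lit 420) (nat_lit 6404807055) (nat_lit 46) (nat_lit 5) (nat_lit 50) (nat_lit 5) (nat_lit 51) (nat_lit 5) (nat_lit 355) (nat_lit 321) (nat_lit 212)) (XT.lf (nat_lit 0) (nat_lit 6078701224) (nat_lit 336) (nat_lit 5726375718) (nat_lit 420) (nat_lit 5294127352) (nat_lit 46) (nat_lit 5) (nat_lit 50) (nat_lit 5) (nat_lit 51) (nat_lit 5) (nat_lit 356) (nat_lit 321) (nat_lit 211))) (XT.nd (nat_lit 94) (nat_lit 0) (nat_lit 0) (XT.lf (nat_lit 0) (nat_lit 11641322897) (nat_lit 336) (nat_lit 1653791237) (nat_lit 420) (nat_lit 4159103654) (nat_lit 46) (nat_lit 5) (nat_lit 50) (nat_lit 5) (nat_lit 51) (nat_lit 5) (nat_lit 357) (nat_lit 321) (nat_lit 210)) (XT.lf (nat_lit 0) (nat_lit 14847155846) (nat_lit 420) (nat_lit 479273702) (nat_lit 84) (nat_lit 2493378539) (nat_lit 46) (nat_lit 5) (nat_lit 51) (nat_lit 5) (nat_lit 47) (nat_lit 5) (nat_lit 358) (nat_lit 321) (nat_lit 209)))))))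 (XT.nd (nat_lit 1222) (nat_lit 840) (nat_lit 0) (XT.nd (nat_lit 564) (nat_lit 588) (nat_lit 0) (XT.nd (nat_lit 282) (nat_lit 336) (nat_lit 0) (XT.nd (nat_lit 94) (nat_lit 84) (nat_lit 0) (XT.lf (nat_lit 0) (nat_lit 5095569993) (nat_lit 420) (nat_lit 11410053811) (nat_lit 504) (nat_lit 1689359928) (nat_lit 41) (nat_lit 5) (nat_lit 46) (nat_lit 5) (nat_lit 47) (nat_lit 5) (nat_lit 359) (nat_lit 321) (nat_lit 208)) (XT.nd (nat_lit 94) (nat_lit 84) (nat_lit 0) (XT.lf (nat_lit 0) (nat_lit 10843624381) (nat_lit 420) (nat_lit 7367910605) (nat_lit 504) (nat_lit 370435837) (nat_lit 41) (nat_lit 5) (nat_lit 46) (nat_lit 5) (nat_lit 47) (nat_lit 5) (nat_lit 360) (nat_lit 321) (nat_lit 207)) (XT.lf (nat_lit 0) (nat_lit 960594970) (nat_lit 504) (nat_lit 2230613252) (nat_lit 84) (nat_lit 15789770787) (nat_lit 40) (nat_lit 5) (nat_lit 46) (nat_lit 5) (nat_lit 41) (nat_lit 5) (nat_lit 361) (nat_lit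 321) (nat_lit 206)))) (XT.nd (nat_lit 94) (nat_lit 0) (nat_lit 0) (XT.lf (nat_lit 0) (nat_lit 2362832135) (nat_lit 420) (nat_lit 15897652629) (nat_lit 84) (nat_lit 1130640299) (nat_lit 36) (nat_lit 5) (nat_lit 41) (nat_lit 5) (nat_lit 37) (nat_lit 5) (nat_lit 362) (nat_lit 321) (nat_lit 205)) (XT.nd (nat_lit 94) (nat_lit 0) (nat_lit 0) (XT.lf (nat_lit 0) (nat_lit 3856274574) (nat_lit 420) (nat_lit 10413476131) (nat_lit 84) (nat_lit 5542806416) (nat_lit 36) (nat_lit 5) (nat_lit 41) (nat_lit 5) (nat_lit 37) (nat_lit 5) (nat_lit 363) (nat_lit 321) (nat_lit 204)) (XT.lf (nat_lit 0) (nat_lit 5387843224) (nat_lit 420) (nat_lit 4768628845) (nat_lit 84) (nat_lit 10090884539) (nat_lit 36) (nat_lit 5) (nat_lit 41) (nat_lit 5) (nat_lit 37) (nat_lit 5) (nat_lit 364) (nat_lit 321) (nat_lit 203))))) (XT.nd (nat_lit 282) (nat_lit 252) (nat_lit 0) (XT.nd (nat_lit 94) (nat_lit 0) (nat_lit 0) (XT.lf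 (nat_lit 0) (nat_lit 1063579576) (nat_lit 336) (nat_lit 5905936932) (nat_lit 420) (nat_lit 13726085215) (nat_lit 32) (nat_lit 5) (nat_lit 36) (nat_lit 5) (nat_lit 37) (nat_lit 5) (nat_lit 365) (nat_lit 321) (nat_lit 202)) (XT.nd (nat_lit 94) (nat_lit 0) (nat_lit 0) (XT.lf (nat_lit 0) (nat_lit 7168712700) (nat_lit 336) (nat_lit 1473508174) (nat_lit 420) (nat_lit 12514266389) (nat_lit 32) (nat_lit 5) (nat_lit 36) (nat_lit 5) (nat_lit 37) (nat_lit 5) (nat_lit 366) (nat_lit 321) (nat_lit 201)) (XT.lf (nat_lit 0) (nat_lit 10389941850) (nat_lit 420) (nat_lit 8208235562) (nat_lit 84) (nat_lit 3032810190) (nat_lit 32) (nat_lit 5) (nat_lit 37) (nat_lit 5) (nat_lit 33) (nat_lit 5) (nat_lit 367) (nat_lit 321) (nat_lit 200)))) (XT.nd (nat_lit 188) (nat_lit 0) (nat_lit 0) (XT.nd (nat_lit 94) (nat_lit 252) (nat_lit 0) (XT.lf (nat_lit 0) (nat_lit 12199586646) (nat_lit 420) (nat_lit 2273296158)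 (nat_lit 84) (nat_lit 7647118601) (nat_lit 32) (nat_lit 5) (nat_lit 37) (nat_lit 5) (nat_lit 33) (nat_lit 5) (nat_lit 368) (nat_lit 321) (nat_lit 199)) (XT.lf (nat_lit 0) (nat_lit 3916093577) (nat_lit 252) (nat_lit 10180979212) (nat_lit 336) (nat_lit 8526160536) (nat_lit 29) (nat_lit 5) (nat_lit 32) (nat_lit 5) (nat_lit 33) (nat_lit 5) (nat_lit 369) (nat_lit 321) (nat_lit 198))) (XT.nd (nat_lit 94) (nat_lit 0) (nat_lit 0) (XT.lf (nat_lit 0) (nat_lit 10337199110) (nat_lit 252) (nat_lit 5732935511) (nat_lit 336) (nat_lit 7071452874) (nat_lit 29) (nat_lit 5) (nat_lit 32) (nat_lit 5) (nat_lit 33) (nat_lit 5) (nat_lit 370) (nat_lit 321) (nat_lit 197)) (XT.lf (nat_lit 0) (nat_lit 16949261950) (nat_lit 252) (nat_lit 1148334210) (nat_lit 336) (nat_lit 5578664380) (nat_lit 29) (nat_lit 5) (nat_lit 32) (nat_lit 5) (nat_lit 33) (nat_lit 5) (nat_lit 371) (nat_lit 321) (nat_lit 196)))))) (XT.nd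 (nat_lit 564) (nat_lit 252) (nat_lit 0) (XT.nd (nat_lit 282) (nat_lit 336) (nat_lit 0) (XT.nd (nat_lit 94) (nat_lit 252) (nat_lit 0) (XT.lf (nat_lit 0) (nat_lit 20216832468) (nat_lit 336) (nat_lit 504790855) (nat_lit 84) (nat_lit 3505027468) (nat_lit 29) (nat_lit 5) (nat_lit 33) (nat_lit 5) (nat_lit 30) (nat_lit 5) (nat_lit 372) (nat_lit 321) (nat_lit 195)) (XT.nd (nat_lit 94) (nat_lit 0) (nat_lit 0) (XT.lf (nat_lit 0) (nat_lit 6011845824) (nat_lit 252) (nat_lit 16454925367) (nat_lit 336) (nat_lit 2325354556) (nat_lit 26) (nat_lit 5) (nat_lit 29) (nat_lit 5) (nat_lit 30) (nat_lit 5) (nat_lit 373) (nat_lit 321) (nat_lit 194)) (XT.lf (nat_lit 0) (nat_lit 12733438882) (nat_lit 252) (nat_lit 12052025943) (nat_lit 336) (nat_lit 589733050) (nat_lit 26) (nat_lit 5) (nat_lit 29) (nat_lit 5) (nat_lit 30) (nat_lit 5) (nat_lit 374) (nat_lit 321) (nat_lit 193)))) (XT.nd (nat_lit 94) (nat_lit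 252) (nat_lit 0) (XT.lf (nat_lit 0) (nat_lit 1169350747) (nat_lit 336) (nat_lit 6332533701) (nat_lit 84) (nat_lit 18474317642) (nat_lit 25) (nat_lit 5) (nat_lit 29) (nat_lit 5) (nat_lit 26) (nat_lit 5) (nat_lit 375) (nat_lit 321) (nat_lit 192)) (XT.nd (nat_lit 94) (nat_lit 0) (nat_lit 0) (XT.lf (nat_lit 0) (nat_lit 162053507) (nat_lit 252) (nat_lit 2804284785) (nat_lit 336) (nat_lit 23629481323) (nat_lit 22) (nat_lit 5) (nat_lit 25) (nat_lit 5) (nat_lit 26) (nat_lit 5) (nat_lit 376) (nat_lit 321) (nat_lit 191)) (XT.lf (nat_lit 0) (nat_lit 4900140215) (nat_lit 336) (nat_lit 20268861266) (nat_lit 84) (nat_lit 2063161907) (nat_lit 22) (nat_lit 5) (nat_lit 26) (nat_lit 5) (nat_lit 23) (nat_lit 5) (nat_lit 377) (nat_lit 321) (nat_lit 190))))) (XT.nd (nat_lit 282) (nat_lit 252) (nat_lit 0) (XT.nd (nat_lit 94) (nat_lit 0) (nat_lit 0) (XT.lf (nat_lit 0) (nat_lit 6916854962) (nat_lit 336)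 (nat_lit 13948879412) (nat_lit 84) (nat_lit 7021819002) (nat_lit 22) (nat_lit 5) (nat_lit 26) (nat_lit 5) (nat_lit 23) (nat_lit 5) (nat_lit 378) (nat_lit 321) (nat_lit 189)) (XT.nd (nat_lit 94) (nat_lit 0) (nat_lit 0) (XT.lf (nat_lit 0) (nat_lit 8990543469) (nat_lit 336) (nat_lit 7440110808) (nat_lit 84) (nat_lit 12132808574) (nat_lit 22) (nat_lit 5) (nat_lit 26) (nat_lit 5) (nat_lit 23) (nat_lit 5) (nat_lit 379) (nat_lit 321) (nat_lit 188)) (XT.lf (nat_lit 0) (nat_lit 11123138633) (nat_lit 336) (nat_lit 736488602) (nat_lit 84) (nat_lit 17400894600) (nat_lit 22) (nat_lit 5) (nat_lit 26) (nat_lit 5) (nat_lit 23) (nat_lit 5) (nat_lit 380) (nat_lit 321) (nat_lit 187)))) (XT.nd (nat_lit 188) (nat_lit 0) (nat_lit 0) (XT.nd (nat_lit 94) (nat_lit 0) (nat_lit 0) (XT.lf (nat_lit 0) (nat_lit 6295067261) (nat_lit 252) (nat_lit 7084008840) (nat_lit 336) (nat_lit 16598368075) (nat_lit 19) (nat_lit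 5) (nat_lit 22) (nat_lit 5) (nat_lit 23) (nat_lit 5) (nat_lit 381) (nat_lit 321) (nat_lit 186)) (XT.lf (nat_lit 0) (nat_lit 13553572256) (nat_lit 252) (nat_lit 2153937755) (nat_lit 336) (nat_lit 15009029517) (nat_lit 19) (nat_lit 5) (nat_lit 22) (nat_lit 5) (nat_lit 23) (nat_lit 5) (nat_lit 382) (nat_lit 321) (nat_lit 185))) (XT.nd (nat_lit 94) (nat_lit 0) (nat_lit 0) (XT.lf (nat_lit 0) (nat_lit 18132195524) (nat_lit 336) (nat_lit 10477120700) (nat_lit 84) (nat_lit 2868511452) (nat_lit 19) (nat_lit 5) (nat_lit 23) (nat_lit 5) (nat_lit 20) (nat_lit 5) (nat_lit 383) (nat_lit 321) (nat_lit 184)) (XT.lf (nat_lit 0) (nat_lit 20649240360) (nat_lit 336) (nat_lit 3612452948) (nat_lit 84) (nat_lit 8000515634) (nat_lit 19) (nat_lit 5) (nat_lit 23) (nat_lit 5) (nat_lit 20) (nat_lit 5) (nat_lit 384) (nat_lit 321) (nat_lit 183))))))))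
noncomputable def xc144 : XT := (XT.nd (nat_lit 2350) (nat_lit 336) (nat_lit 0) (XT.nd (nat_lit 1128) (nat_lit 252) (nat_lit 0) (XT.nd (nat_lit 564) (nat_lit 168) (nat_lit 0) (XT.nd (nat_lit 282) (nat_lit 252) (nat_lit 0) (XT.nd (nat_lit 94) (nat_lit 0) (nat_lit 0) (XT.lf (nat_lit 0) (nat_lit 3529921961) (nat_lit 168) (nat_lit 19744718639) (nat_lit 252) (nat_lit 9795350704) (nat_lit 17) (nat_lit 5) (nat_lit 19) (nat_lit 5) (nat_lit 20) (nat_lit 5) (nat_lit 385) (nat_lit 321) (nat_lit 182)) (XT.nd (nat_lit 94) (nat_lit 0) (nat_lit 0) (XT.lf (nat_lit 0) (nat_lit 10964137943) (nat_lit 168) (nat_lit 15050386631) (nat_lit 252) (nat_lit 7887289011) (nat_lit 17) (nat_lit 5) (nat_lit 19) (nat_lit 5) (nat_lit 20) (nat_lit 5) (nat_lit 386) (nat_lit 321) (nat_lit 181)) (XT.lf (nat_lit 0) (nat_lit 18622845024) (nat_lit 168) (nat_lit 10212028273) (nat_lit 252) (nat_lit 5924711591) (nat_lit 17)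 (nat_lit 5) (nat_lit 19) (nat_lit 5) (nat_lit 20) (nat_lit 5) (nat_lit 387) (nat_lit 321) (nat_lit 180)))) (XT.nd (nat_lit 94) (nat_lit 252) (nat_lit 0) (XT.lf (nat_lit 0) (nat_lit 26513181919) (nat_lit 168) (nat_lit 5225133708) (nat_lit 252) (nat_lit 3905789115) (nat_lit 17) (nat_lit 5) (nat_lit 19) (nat_lit 5) (nat_lit 20) (nat_lit 5) (nat_lit 388) (nat_lit 321) (nat_lit 179)) (XT.nd (nat_lit 94) (nat_lit 252) (nat_lit 0) (XT.lf (nat_lit 0) (nat_lit 34642503251) (nat_lit 168) (nat_lit 85054630) (nat_lit 252) (nat_lit 1828639737) (nat_lit 17) (nat_lit 5) (nat_lit 19) (nat_lit 5) (nat_lit 20) (nat_lit 5) (nat_lit 389) (nat_lit 321) (nat_lit 178)) (XT.lf (nat_lit 0) (nat_lit 410640925) (nat_lit 252) (nat_lit 31915118506) (nat_lit 84) (nat_lit 5167505515) (nat_lit 14) (nat_lit 5) (nat_lit 17) (nat_lit 5) (nat_lit 15) (nat_lit 5) (nat_lit 390) (nat_lit 321) (nat_lit 177))))) (XT.nd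 (nat_lit 282) (nat_lit 168) (nat_lit 0) (XT.nd (nat_lit 94) (nat_lit 0) (nat_lit 0) (XT.lf (nat_lit 0) (nat_lit 2698315906) (nat_lit 252) (nat_lit 25141365349) (nat_lit 84) (nat_lit 10618615035) (nat_lit 14) (nat_lit 5) (nat_lit 17) (nat_lit 5) (nat_lit 15) (nat_lit 5) (nat_lit 391) (nat_lit 321) (nat_lit 176)) (XT.nd (nat_lit 94) (nat_lit 0) (nat_lit 0) (XT.lf (nat_lit 0) (nat_lit 5052944226) (nat_lit 252) (nat_lit 18163086516) (nat_lit 84) (nat_lit 16237355671) (nat_lit 14) (nat_lit 5) (nat_lit 17) (nat_lit 5) (nat_lit 15) (nat_lit 5) (nat_lit 392) (nat_lit 321) (nat_lit 175)) (XT.lf (nat_lit 0) (nat_lit 7476720648) (nat_lit 252) (nat_lit 10973777520) (nat_lit 84) (nat_lit 22028964678) (nat_lit 14) (nat_lit 5) (nat_lit 17) (nat_lit 5) (nat_lit 15) (nat_lit 5) (nat_lit 393) (nat_lit 321) (nat_lit 174)))) (XT.nd (nat_lit 94) (nat_lit 168) (nat_lit 0) (XT.lf (nat_lit 0) (nat_lit 9971904384)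 (nat_lit 252) (nat_lit 3566737173) (nat_lit 84) (nat_lit 27998840442) (nat_lit 14) (nat_lit 5) (nat_lit 17) (nat_lit 5) (nat_lit 15) (nat_lit 5) (nat_lit 394) (nat_lit 321) (nat_lit 173)) (XT.nd (nat_lit 94) (nat_lit 0) (nat_lit 0) (XT.lf (nat_lit 0) (nat_lit 4148522138) (nat_lit 168) (nat_lit 8433452921) (nat_lit 252) (nat_lit 30045179228) (nat_lit 12) (nat_lit 5) (nat_lit 14) (nat_lit 5) (nat_lit 15) (nat_lit 5) (nat_lit 395) (nat_lit 321) (nat_lit 172)) (XT.lf (nat_lit 0) (nat_lit 12173635127) (nat_lit 168) (nat_lit 3132994456) (nat_lit 252) (nat_lit 28442950632) (nat_lit 12) (nat_lit 5) (nat_lit 14) (nat_lit 5) (nat_lit 15) (nat_lit 5) (nat_lit 396) (nat_lit 321) (nat_lit 171)))))) (XT.nd (nat_lit 564) (nat_lit 84) (nat_lit 0) (XT.nd (nat_lit 282) (nat_lit 168) (nat_lit 0) (XT.nd (nat_lit 94) (nat_lit 0) (nat_lit 0) (XT.lf (nat_lit 0) (nat_lit 18135415910) (nat_lit 252) (nat_lit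 24487301105) (nat_lit 84) (nat_lit 2283491726) (nat_lit 12) (nat_lit 5) (nat_lit 15) (nat_lit 5) (nat_lit 13) (nat_lit 5) (nat_lit 397) (nat_lit 321) (nat_lit 170)) (XT.nd (nat_lit 94) (nat_lit 0) (nat_lit 0) (XT.lf (nat_lit 0) (nat_lit 21080577917) (nat_lit 252) (nat_lit 17215699994) (nat_lit 84) (nat_lit 7801542235) (nat_lit 12) (nat_lit 5) (nat_lit 15) (nat_lit 5) (nat_lit 13) (nat_lit 5) (nat_lit 398) (nat_lit 321) (nat_lit 169)) (XT.lf (nat_lit 0) (nat_lit 24113781109) (nat_lit 252) (nat_lit 9723284167) (nat_lit 84) (nat_lit 13489423328) (nat_lit 12) (nat_lit 5) (nat_lit 15) (nat_lit 5) (nat_lit 13) (nat_lit 5) (nat_lit 399) (nat_lit 321) (nat_lit 168)))) (XT.nd (nat_lit 94) (nat_lit 168) (nat_lit 0) (XT.lf (nat_lit 0) (nat_lit 27237852752) (nat_lit 252) (nat_lit 2003069908) (nat_lit 84) (nat_lit 19352436705) (nat_lit 12) (nat_lit 5) (nat_lit 15) (nat_lit 5) (nat_lit 13) (nat_lit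 5) (nat_lit 400) (nat_lit 321) (nat_lit 167)) (XT.nd (nat_lit 94) (nat_lit 0) (nat_lit 0) (XT.lf (nat_lit 0) (nat_lit 6074527012) (nat_lit 168) (nat_lit 24441437853) (nat_lit 252) (nat_lit 19381780356) (nat_lit 10) (nat_lit 5) (nat_lit 12) (nat_lit 5) (nat_lit 13) (nat_lit 5) (nat_lit 401) (nat_lit 321) (nat_lit 166)) (XT.lf (nat_lit 0) (nat_lit 14440705165) (nat_lit 168) (nat_lit 19472885064) (nat_lit 252) (nat_lit 17328436837) (nat_lit 10) (nat_lit 5) (nat_lit 12) (nat_lit 5) (nat_lit 13) (nat_lit 5) (nat_lit 402) (nat_lit 321) (nat_lit 165))))) (XT.nd (nat_lit 282) (nat_lit 84) (nat_lit 0) (XT.nd (nat_lit 94) (nat_lit 0) (nat_lit 0) (XT.lf (nat_lit 0) (nat_lit 23062075478) (nat_lit 168) (nat_lit 14351541023) (nat_lit 252) (nat_lit 15214470064) (nat_lit 10) (nat_lit 5) (nat_lit 12) (nat_lit 5) (nat_lit 13) (nat_lit 5) (nat_lit 403) (nat_lit 321) (nat_lit 164)) (XT.nd (nat_lit 94)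 (nat_lit 0) (nat_lit 0) (XT.lf (nat_lit 0) (nat_lit 31946673971) (nat_lit 168) (nat_lit 9072632101) (nat_lit 252) (nat_lit 13037909600) (nat_lit 10) (nat_lit 5) (nat_lit 12) (nat_lit 5) (nat_lit 13) (nat_lit 5) (nat_lit 404) (nat_lit 321) (nat_lit 163)) (XT.lf (nat_lit 0) (nat_lit 41102782022) (nat_lit 168) (nat_lit 3631237802) (nat_lit 252) (nat_lit 10796726663) (nat_lit 10) (nat_lit 5) (nat_lit 12) (nat_lit 5) (nat_lit 13) (nat_lit 5) (nat_lit 405) (nat_lit 321) (nat_lit 162)))) (XT.nd (nat_lit 188) (nat_lit 0) (nat_lit 0) (XT.nd (nat_lit 94) (nat_lit 84) (nat_lit 0) (XT.lf (nat_lit 0) (nat_lit 48580839425) (nat_lit 252) (nat_lit 6530737577) (nat_lit 84) (nat_lit 1937867297) (nat_lit 10) (nat_lit 5) (nat_lit 13) (nat_lit 5) (nat_lit 11) (nat_lit 4) (nat_lit 406) (nat_lit 321) (nat_lit 161)) (XT.lf (nat_lit 0) (nat_lit 1602691742) (nat_lit 84) (nat_lit 50994656599) (nat_lit 168)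 (nat_lit 6016322420) (nat_lit 9) (nat_lit 5) (nat_lit 10) (nat_lit 5) (nat_lit 11) (nat_lit 4) (nat_lit 407) (nat_lit 321) (nat_lit 160))) (XT.nd (nat_lit 94) (nat_lit 0) (nat_lit 0) (XT.lf (nat_lit 0) (nat_lit 10122980429) (nat_lit 84) (nat_lit 46680997321) (nat_lit 168) (nat_lit 3420388837) (nat_lit 9) (nat_lit 5) (nat_lit 10) (nat_lit 5) (nat_lit 11) (nat_lit 4) (nat_lit 408) (nat_lit 321) (nat_lit 159)) (XT.lf (nat_lit 0) (nat_lit 18903784925) (nat_lit 84) (nat_lit 42234745895) (nat_lit 168) (nat_lit 746551949) (nat_lit 9) (nat_lit 5) (nat_lit 10) (nat_lit 5) (nat_lit 11) (nat_lit 4) (nat_lit 409) (nat_lit 321) (nat_lit 158))))))) (XT.nd (nat_lit 1222) (nat_lit 84) (nat_lit 0) (XT.nd (nat_lit 564) (nat_lit 0) (nat_lit 0) (XT.nd (nat_lit 282) (nat_lit 168) (nat_lit 0) (XT.nd (nat_lit 94) (nat_lit 0) (nat_lit 0) (XT.lf (nat_lit 0) (nat_lit 1967230249) (nat_lit 168) (nat_lit 35663993849)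 (nat_lit 84) (nat_lit 25965525761) (nat_lit 8) (nat_lit 5) (nat_lit 10) (nat_lit 5) (nat_lit 9) (nat_lit 5) (nat_lit 410) (nat_lit 321) (nat_lit 157)) (XT.nd (nat_lit 94) (nat_lit 0) (nat_lit 0) (XT.lf (nat_lit 0) (nat_lit 4747262407) (nat_lit 168) (nat_lit 28130947562) (nat_lit 84) (nat_lit 32483116228) (nat_lit 8) (nat_lit 5) (nat_lit 10) (nat_lit 5) (nat_lit 9) (nat_lit 5) (nat_lit 411) (nat_lit 321) (nat_lit 156)) (XT.lf (nat_lit 0) (nat_lit 7611177164) (nat_lit 168) (nat_lit 20367731508) (nat_lit 84) (nat_lit 39201777465) (nat_lit 8) (nat_lit 5) (nat_lit 10) (nat_lit 5) (nat_lit 9) (nat_lit 5) (nat_lit 412) (nat_lit 321) (nat_lit 155)))) (XT.nd (nat_lit 94) (nat_lit 168) (nat_lit 0) (XT.lf (nat_lit 0) (nat_lit 10561643987) (nat_lit 168) (nat_lit 12367109558) (nat_lit 84) (nat_lit 46127771969) (nat_lit 8) (nat_lit 5) (nat_lit 10) (nat_lit 5) (nat_lit 9) (nat_lit 5) (nat_lit 413)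 (nat_lit 321) (nat_lit 154)) (XT.nd (nat_lit 94) (nat_lit 168) (nat_lit 0) (XT.lf (nat_lit 0) (nat_lit 13601413023) (nat_lit 168) (nat_lit 4121624292) (nat_lit 84) (nat_lit 53267555491) (nat_lit 8) (nat_lit 5) (nat_lit 10) (nat_lit 5) (nat_lit 9) (nat_lit 5) (nat_lit 414) (nat_lit 321) (nat_lit 153)) (XT.lf (nat_lit 0) (nat_lit 4466397907) (nat_lit 168) (nat_lit 12311226965) (nat_lit 252) (nat_lit 56205692371) (nat_lit 6) (nat_lit 5) (nat_lit 8) (nat_lit 5) (nat_lit 9) (nat_lit 5) (nat_lit 415) (nat_lit 321) (nat_lit 152))))) (XT.nd (nat_lit 282) (nat_lit 0) (nat_lit 0) (XT.nd (nat_lit 94) (nat_lit 0) (nat_lit 0) (XT.lf (nat_lit 0) (nat_lit 13404994983) (nat_lit 168) (nat_lit 6688261365) (nat_lit 252) (nat_lit 54943299400) (nat_lit 6) (nat_lit 5) (nat_lit 8) (nat_lit 5) (nat_lit 9) (nat_lit 5) (nat_lit 416) (nat_lit 321) (nat_lit 151)) (XT.nd (nat_lit 94) (nat_lit 0) (nat_lit 0)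 (XT.lf (nat_lit 0) (nat_lit 22617749595) (nat_lit 168) (nat_lit 891920628) (nat_lit 252) (nat_lit 53643845492) (nat_lit 6) (nat_lit 5) (nat_lit 8) (nat_lit 5) (nat_lit 9) (nat_lit 5) (nat_lit 417) (nat_lit 321) (nat_lit 150)) (XT.lf (nat_lit 0) (nat_lit 27080476907) (nat_lit 252) (nat_lit 47273347333) (nat_lit 84) (nat_lit 4980782929) (nat_lit 6) (nat_lit 5) (nat_lit 9) (nat_lit 5) (nat_lit 7) (nat_lit 4) (nat_lit 418) (nat_lit 321) (nat_lit 149)))) (XT.nd (nat_lit 188) (nat_lit 0) (nat_lit 0) (XT.nd (nat_lit 94) (nat_lit 0) (nat_lit 0) (XT.lf (nat_lit 0) (nat_lit 30769208520) (nat_lit 252) (nat_lit 39797738821) (nat_lit 84) (nat_lit 11016149456) (nat_lit 6) (nat_lit 5) (nat_lit 9) (nat_lit 5) (nat_lit 7) (nat_lit 4) (nat_lit 419) (nat_lit 321) (nat_lit 148)) (XT.lf (nat_lit 0) (nat_lit 34570455384) (nat_lit 252) (nat_lit 32093124573) (nat_lit 84) (nat_lit 17237774759) (nat_lit 6)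 (nat_lit 5) (nat_lit 9) (nat_lit 5) (nat_lit 7) (nat_lit 4) (nat_lit 420) (nat_lit 321) (nat_lit 147))) (XT.nd (nat_lit 94) (nat_lit 0) (nat_lit 0) (XT.lf (nat_lit 0) (nat_lit 38487760659) (nat_lit 252) (nat_lit 24152323081) (nat_lit 84) (nat_lit 23651458044) (nat_lit 6) (nat_lit 5) (nat_lit 9) (nat_lit 5) (nat_lit 7) (nat_lit 4) (nat_lit 421) (nat_lit 321) (nat_lit 146)) (XT.lf (nat_lit 0) (nat_lit 42524775683) (nat_lit 252) (nat_lit 15967932687) (nat_lit 84) (nat_lit 30263177536) (nat_lit 6) (nat_lit 5) (nat_lit 9) (nat_lit 5) (nat_lit 7) (nat_lit 4) (nat_lit 422) (nat_lit 321) (nat_lit 145)))))) (XT.nd (nat_lit 564) (nat_lit 0) (nat_lit 0) (XT.nd (nat_lit 282) (nat_lit 0) (nat_lit 0) (XT.nd (nat_lit 94) (nat_lit 84) (nat_lit 0) (XT.lf (nat_lit 0) (nat_lit 46685263379) (nat_lit 252) (nat_lit 7532324680) (nat_lit 84) (nat_lit 37079096050) (nat_lit 6) (nat_lit 5) (nat_lit 9) (nat_lit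 5) (nat_lit 7) (nat_lit 4) (nat_lit 423) (nat_lit 321) (nat_lit 144)) (XT.nd (nat_lit 94) (nat_lit 0) (nat_lit 0) (XT.lf (nat_lit 0) (nat_lit 1186264392) (nat_lit 84) (nat_lit 49798605252) (nat_lit 168) (nat_lit 42931070233) (nat_lit 5) (nat_lit 5) (nat_lit 6) (nat_lit 5) (nat_lit 7) (nat_lit 4) (nat_lit 424) (nat_lit 321) (nat_lit 143)) (XT.lf (nat_lit 0) (nat_lit 10332412219) (nat_lit 84) (nat_lit 45162374116) (nat_lit 168) (nat_lit 41119225589) (nat_lit 5) (nat_lit 5) (nat_lit 6) (nat_lit 5) (nat_lit 7) (nat_lit 4) (nat_lit 425) (nat_lit 321) (nat_lit 142)))) (XT.nd (nat_lit 94) (nat_lit 0) (nat_lit 0) (XT.lf (nat_lit 0) (nat_lit 19759763926) (nat_lit 84) (nat_lit 40383195217) (nat_lit 168) (nat_lit 39252819990) (nat_lit 5) (nat_lit 5) (nat_lit 6) (nat_lit 5) (nat_lit 7) (nat_lit 4) (nat_lit 426) (nat_lit 321) (nat_lit 141)) (XT.nd (nat_lit 94) (nat_lit 0) (nat_lit 0) (XT.lf (nat_lit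 0) (nat_lit 29477106791) (nat_lit 84) (nat_lit 35456613861) (nat_lit 168) (nat_lit 37330113751) (nat_lit 5) (nat_lit 5) (nat_lit 6) (nat_lit 5) (nat_lit 7) (nat_lit 4) (nat_lit 427) (nat_lit 321) (nat_lit 140)) (XT.lf (nat_lit 0) (nat_lit 39493498396) (nat_lit 84) (nat_lit 30378037958) (nat_lit 168) (nat_lit 35349314708) (nat_lit 5) (nat_lit 5) (nat_lit 6) (nat_lit 5) (nat_lit 7) (nat_lit 4) (nat_lit 428) (nat_lit 321) (nat_lit 139))))) (XT.nd (nat_lit 45872) (nat_lit 0) (nat_lit 7308) (XT.nd (nat_lit 45684) (nat_lit 0) (nat_lit 7308) (XT.lf (nat_lit 0) (nat_lit 49818275067) (nat_lit 84) (nat_lit 25142733743) (nat_lit 168) (nat_lit 33308576549) (nat_lit 5) (nat_lit 5) (nat_lit 6) (nat_lit 5) (nat_lit 7) (nat_lit 4) (nat_lit 429) (nat_lit 321) (nat_lit 138)) (XT.nd (nat_lit 94) (nat_lit 0) (nat_lit 0) (XT.lf (nat_lit 0) (nat_lit 2320213912) (nat_lit 924) (nat_lit 1270580464) (nat_lit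 924) (nat_lit 1270580464) (nat_lit 92) (nat_lit 3) (nat_lit 103) (nat_lit 3) (nat_lit 103) (nat_lit 5) (nat_lit 322) (nat_lit 322) (nat_lit 244)) (XT.lf (nat_lit 84) (nat_lit 666258168) (nat_lit 0) (nat_lit 4627948084) (nat_lit 924) (nat_lit 4556758425) (nat_lit 93) (nat_lit 5) (nat_lit 92) (nat_lit 3) (nat_lit 103) (nat_lit 5) (nat_lit 323) (nat_lit 322) (nat_lit 243)))) (XT.nd (nat_lit 188) (nat_lit 0) (nat_lit 84) (XT.nd (nat_lit 94) (nat_lit 0) (nat_lit 84) (XT.lf (nat_lit 84) (nat_lit 4014692190) (nat_lit 0) (nat_lit 1956782541) (nat_lit 924) (nat_lit 4011759019) (nat_lit 93) (nat_lit 5) (nat_lit 92) (nat_lit 3) (nat_lit 103) (nat_lit 5) (nat_lit 324) (nat_lit 322) (nat_lit 242)) (XT.lf (nat_lit 0) (nat_lit 6655151777) (nat_lit 840) (nat_lit 2673481182) (nat_lit 924) (nat_lit 791596328) (nat_lit 93) (nat_lit 5) (nat_lit 103) (nat_lit 5) (nat_lit 104) (nat_lit 5) (nat_lit 325)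 (nat_lit 322) (nat_lit 241))) (XT.nd (nat_lit 94) (nat_lit 0) (nat_lit 0) (XT.lf (nat_lit 84) (nat_lit 705415672) (nat_lit 0) (nat_lit 6659799637) (nat_lit 924) (nat_lit 2896264112) (nat_lit 94) (nat_lit 5) (nat_lit 93) (nat_lit 5) (nat_lit 104) (nat_lit 5) (nat_lit 326) (nat_lit 322) (nat_lit 240)) (XT.lf (nat_lit 84) (nat_lit 4233351707) (nat_lit 0) (nat_lit 3870559368) (nat_lit 924) (nat_lit 2303155636) (nat_lit 94) (nat_lit 5) (nat_lit 93) (nat_lit 5) (nat_lit 104) (nat_lit 5) (nat_lit 327) (nat_lit 322) (nat_lit 239))))))))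
noncomputable def xc145 : XT := (XT.nd (nat_lit 2350) (nat_lit 2772) (nat_lit 0) (XT.nd (nat_lit 1128) (nat_lit 2352) (nat_lit 0) (XT.nd (nat_lit 564) (nat_lit 0) (nat_lit 84) (XT.nd (nat_lit 282) (nat_lit 840) (nat_lit 0) (XT.nd (nat_lit 94) (nat_lit 0) (nat_lit 84) (XT.lf (nat_lit 84) (nat_lit 7858643072) (nat_lit 0) (nat_lit 986217947) (nat_lit 924) (nat_lit 1713104904) (nat_lit 94) (nat_lit 5) (nat_lit 93) (nat_lit 5) (nat_lit 104) (nat_lit 5) (nat_lit 328) (nat_lit 322) (nat_lit 238)) (XT.nd (nat_lit 94) (nat_lit 0) (nat_lit 0) (XT.lf (nat_lit 84) (nat_lit 868040583) (nat_lit 0) (nat_lit 8749125977) (nat_lit 924) (nat_lit 1096270417) (nat_lit 95) (nat_lit 5) (nat_lit 94) (nat_lit 5) (nat_lit 105) (nat_lit 5) (nat_lit 329) (nat_lit 322) (nat_lit 237)) (XT.lf (nat_lit 84) (nat_lit 4580541710) (nat_lit 0) (nat_lit 5851567067) (nat_lit 924) (nat_lit 441188616) (nat_lit 95) (nat_lit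 5) (nat_lit 94) (nat_lit 5) (nat_lit 105) (nat_lit 5) (nat_lit 330) (nat_lit 322) (nat_lit 236)))) (XT.nd (nat_lit 94) (nat_lit 0) (nat_lit 84) (XT.lf (nat_lit 0) (nat_lit 210267605) (nat_lit 924) (nat_lit 2644850411) (nat_lit 1008) (nat_lit 8183659558) (nat_lit 83) (nat_lit 5) (nat_lit 94) (nat_lit 5) (nat_lit 95) (nat_lit 5) (nat_lit 331) (nat_lit 322) (nat_lit 235)) (XT.nd (nat_lit 94) (nat_lit 0) (nat_lit 0) (XT.lf (nat_lit 0) (nat_lit 867796421) (nat_lit 924) (nat_lit 10090096414) (nat_lit 1008) (nat_lit 251644863) (nat_lit 84) (nat_lit 5) (nat_lit 95) (nat_lit 5) (nat_lit 96) (nat_lit 5) (nat_lit 332) (nat_lit 322) (nat_lit 234)) (XT.lf (nat_lit 0) (nat_lit 1584664109) (nat_lit 924) (nat_lit 6370524506) (nat_lit 1008) (nat_lit 3429327297) (nat_lit 84) (nat_lit 5) (nat_lit 95) (nat_lit 5) (nat_lit 96) (nat_lit 5) (nat_lit 333) (nat_lit 322) (nat_lit 233))))) (XT.nd (nat_lit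 282) (nat_lit 0) (nat_lit 84) (XT.nd (nat_lit 94) (nat_lit 0) (nat_lit 0) (XT.lf (nat_lit 0) (nat_lit 2306165143) (nat_lit 924) (nat_lit 2548061872) (nat_lit 1008) (nat_lit 6711364884) (nat_lit 84) (nat_lit 5) (nat_lit 95) (nat_lit 5) (nat_lit 96) (nat_lit 5) (nat_lit 334) (nat_lit 322) (nat_lit 232)) (XT.nd (nat_lit 94) (nat_lit 0) (nat_lit 84) (XT.lf (nat_lit 84) (nat_lit 1409247623) (nat_lit 0) (nat_lit 1637704323) (nat_lit 1008) (nat_lit 8705549117) (nat_lit 85) (nat_lit 5) (nat_lit 84) (nat_lit 5) (nat_lit 96) (nat_lit 5) (nat_lit 335) (nat_lit 322) (nat_lit 231)) (XT.lf (nat_lit 0) (nat_lit 3837604056) (nat_lit 924) (nat_lit 6430656941) (nat_lit 1008) (nat_lit 1676230066) (nat_lit 85) (nat_lit 5) (nat_lit 96) (nat_lit 5) (nat_lit 97) (nat_lit 5) (nat_lit 336) (nat_lit 322) (nat_lit 230)))) (XT.nd (nat_lit 94) (nat_lit 0) (nat_lit 0) (XT.lf (nat_lit 0) (nat_lit 4653397062) (nat_lit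 924) (nat_lit 2425745860) (nat_lit 1008) (nat_lit 5063387234) (nat_lit 85) (nat_lit 5) (nat_lit 96) (nat_lit 5) (nat_lit 97) (nat_lit 5) (nat_lit 337) (nat_lit 322) (nat_lit 229)) (XT.nd (nat_lit 94) (nat_lit 0) (nat_lit 0) (XT.lf (nat_lit 84) (nat_lit 1726238893) (nat_lit 0) (nat_lit 3769730750) (nat_lit 1008) (nat_lit 6850806067) (nat_lit 86) (nat_lit 5) (nat_lit 85) (nat_lit 5) (nat_lit 97) (nat_lit 5) (nat_lit 338) (nat_lit 322) (nat_lit 228)) (XT.lf (nat_lit 84) (nat_lit 6046621331) (nat_lit 0) (nat_lit 328079593) (nat_lit 1008) (nat_lit 6182450770) (nat_lit 86) (nat_lit 5) (nat_lit 85) (nat_lit 5) (nat_lit 97) (nat_lit 5) (nat_lit 339) (nat_lit 322) (nat_lit 227)))))) (XT.nd (nat_lit 564) (nat_lit 1008) (nat_lit 0) (XT.nd (nat_lit 282) (nat_lit 672) (nat_lit 0) (XT.nd (nat_lit 94) (nat_lit 924) (nat_lit 0) (XT.lf (nat_lit 0) (nat_lit 7297830968) (nat_lit 924) (nat_lit 2317044816)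 (nat_lit 84) (nat_lit 3158748369) (nat_lit 86) (nat_lit 5) (nat_lit 97) (nat_lit 5) (nat_lit 87) (nat_lit 5) (nat_lit 340) (nat_lit 322) (nat_lit 226)) (XT.nd (nat_lit 94) (nat_lit 0) (nat_lit 0) (XT.lf (nat_lit 0) (nat_lit 2032406446) (nat_lit 924) (nat_lit 6226346113) (nat_lit 1008) (nat_lit 4737873798) (nat_lit 75) (nat_lit 5) (nat_lit 86) (nat_lit 5) (nat_lit 87) (nat_lit 5) (nat_lit 341) (nat_lit 322) (nat_lit 225)) (XT.lf (nat_lit 0) (nat_lit 6554303212) (nat_lit 924) (nat_lit 2705319113) (nat_lit 1008) (nat_lit 3966704757) (nat_lit 75) (nat_lit 5) (nat_lit 86) (nat_lit 5) (nat_lit 87) (nat_lit 5) (nat_lit 342) (nat_lit 322) (nat_lit 224)))) (XT.nd (nat_lit 94) (nat_lit 672) (nat_lit 0) (XT.lf (nat_lit 0) (nat_lit 10287114131) (nat_lit 1008) (nat_lit 2267649408) (nat_lit 84) (nat_lit 908618918) (nat_lit 75) (nat_lit 5) (nat_lit 87) (nat_lit 5) (nat_lit 76) (nat_lit 5) (nat_lit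 343) (nat_lit 322) (nat_lit 223)) (XT.nd (nat_lit 94) (nat_lit 0) (nat_lit 0) (XT.lf (nat_lit 0) (nat_lit 2280179145) (nat_lit 672) (nat_lit 9103396416) (nat_lit 756) (nat_lit 2323154803) (nat_lit 67) (nat_lit 5) (nat_lit 75) (nat_lit 5) (nat_lit 76) (nat_lit 5) (nat_lit 344) (nat_lit 322) (nat_lit 222)) (XT.lf (nat_lit 0) (nat_lit 7005825306) (nat_lit 672) (nat_lit 5518984816) (nat_lit 756) (nat_lit 1432569277) (nat_lit 67) (nat_lit 5) (nat_lit 75) (nat_lit 5) (nat_lit 76) (nat_lit 5) (nat_lit 345) (nat_lit 322) (nat_lit 221))))) (XT.nd (nat_lit 282) (nat_lit 420) (nat_lit 0) (XT.nd (nat_lit 94) (nat_lit 588) (nat_lit 0) (XT.lf (nat_lit 0) (nat_lit 11867066348) (nat_lit 672) (nat_lit 1821857303) (nat_lit 756) (nat_lit 527351236) (nat_lit 67) (nat_lit 5) (nat_lit 75) (nat_lit 5) (nat_lit 76) (nat_lit 5) (nat_lit 346) (nat_lit 322) (nat_lit 220)) (XT.nd (nat_lit 94) (nat_lit 0) (nat_lit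 0) (XT.lf (nat_lit 0) (nat_lit 429563984) (nat_lit 588) (nat_lit 12073002717) (nat_lit 84) (nat_lit 1979601964) (nat_lit 60) (nat_lit 5) (nat_lit 67) (nat_lit 5) (nat_lit 61) (nat_lit 5) (nat_lit 347) (nat_lit 322) (nat_lit 219)) (XT.lf (nat_lit 0) (nat_lit 1436538614) (nat_lit 588) (nat_lit 7426237539) (nat_lit 84) (nat_lit 5892471045) (nat_lit 60) (nat_lit 5) (nat_lit 67) (nat_lit 5) (nat_lit 61) (nat_lit 5) (nat_lit 348) (nat_lit 322) (nat_lit 218)))) (XT.nd (nat_lit 188) (nat_lit 0) (nat_lit 0) (XT.nd (nat_lit 94) (nat_lit 420) (nat_lit 0) (XT.lf (nat_lit 0) (nat_lit 2463036284) (nat_lit 588) (nat_lit 2646350773) (nat_lit 84) (nat_lit 9927845239) (nat_lit 60) (nat_lit 5) (nat_lit 67) (nat_lit 5) (nat_lit 61) (nat_lit 5) (nat_lit 349) (nat_lit 322) (nat_lit 217)) (XT.lf (nat_lit 0) (nat_lit 2317811676) (nat_lit 420) (nat_lit 1215195099) (nat_lit 504) (nat_lit 11794667241) (nat_lit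 55) (nat_lit 5) (nat_lit 60) (nat_lit 5) (nat_lit 61) (nat_lit 5) (nat_lit 350) (nat_lit 322) (nat_lit 216))) (XT.nd (nat_lit 94) (nat_lit 0) (nat_lit 0) (XT.lf (nat_lit 0) (nat_lit 4680726301) (nat_lit 504) (nat_lit 8173271314) (nat_lit 84) (nat_lit 2771813820) (nat_lit 55) (nat_lit 5) (nat_lit 61) (nat_lit 5) (nat_lit 56) (nat_lit 5) (nat_lit 351) (nat_lit 322) (nat_lit 215)) (XT.lf (nat_lit 0) (nat_lit 5865688854) (nat_lit 504) (nat_lit 3209762854) (nat_lit 84) (nat_lit 6857759590) (nat_lit 55) (nat_lit 5) (nat_lit 61) (nat_lit 5) (nat_lit 56) (nat_lit 5) (nat_lit 352) (nat_lit 322) (nat_lit 214))))))) (XT.nd (nat_lit 1222) (nat_lit 1176) (nat_lit 0) (XT.nd (nat_lit 564) (nat_lit 840) (nat_lit 0) (XT.nd (nat_lit 282) (nat_lit 336) (nat_lit 0) (XT.nd (nat_lit 94) (nat_lit 0) (nat_lit 0) (XT.lf (nat_lit 0) (nat_lit 1936357727) (nat_lit 420) (nat_lit 5159795239) (nat_lit 504) (nat_lit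 9153785393) (nat_lit 50) (nat_lit 5) (nat_lit 55) (nat_lit 5) (nat_lit 56) (nat_lit 5) (nat_lit 353) (nat_lit 322) (nat_lit 213)) (XT.nd (nat_lit 94) (nat_lit 0) (nat_lit 0) (XT.lf (nat_lit 0) (nat_lit 7299887374) (nat_lit 420) (nat_lit 1088149342) (nat_lit 504) (nat_lit 8187793220) (nat_lit 50) (nat_lit 5) (nat_lit 55) (nat_lit 5) (nat_lit 56) (nat_lit 5) (nat_lit 354) (nat_lit 322) (nat_lit 212)) (XT.lf (nat_lit 0) (nat_lit 9740897688) (nat_lit 504) (nat_lit 4123220399) (nat_lit 84) (nat_lit 3047122748) (nat_lit 50) (nat_lit 5) (nat_lit 56) (nat_lit 5) (nat_lit 51) (nat_lit 5) (nat_lit 355) (nat_lit 322) (nat_lit 211)))) (XT.nd (nat_lit 94) (nat_lit 0) (nat_lit 0) (XT.lf (nat_lit 0) (nat_lit 1192200942) (nat_lit 336) (nat_lit 9956830713) (nat_lit 420) (nat_lit 6107667966) (nat_lit 46) (nat_lit 5) (nat_lit 50) (nat_lit 5) (nat_lit 51) (nat_lit 5) (nat_lit 356) (nat_lit 322) (nat_lit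 210)) (XT.nd (nat_lit 94) (nat_lit 0) (nat_lit 0) (XT.lf (nat_lit 0) (nat_lit 6749984753) (nat_lit 336) (nat_lit 5884441135) (nat_lit 420) (nat_lit 4977461490) (nat_lit 46) (nat_lit 5) (nat_lit 50) (nat_lit 5) (nat_lit 51) (nat_lit 5) (nat_lit 357) (nat_lit 322) (nat_lit 209)) (XT.lf (nat_lit 0) (nat_lit 12470529602) (nat_lit 336) (nat_lit 1686191423) (nat_lit 420) (nat_lit 3821708214) (nat_lit 46) (nat_lit 5) (nat_lit 50) (nat_lit 5) (nat_lit 51) (nat_lit 5) (nat_lit 358) (nat_lit 322) (nat_lit 208))))) (XT.nd (nat_lit 282) (nat_lit 336) (nat_lit 0) (XT.nd (nat_lit 94) (nat_lit 504) (nat_lit 0) (XT.lf (nat_lit 0) (nat_lit 15743543302) (nat_lit 420) (nat_lit 23706522) (nat_lit 84) (nat_lit 2588604610) (nat_lit 46) (nat_lit 5) (nat_lit 51) (nat_lit 5) (nat_lit 47) (nat_lit 5) (nat_lit 359) (nat_lit 322) (nat_lit 207)) (XT.nd (nat_lit 94) (nat_lit 84) (nat_lit 0) (XT.lf (nat_lit 0)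 (nat_lit 5719194700) (nat_lit 420) (nat_lit 11725735112) (nat_lit 504) (nat_lit 1298079653) (nat_lit 41) (nat_lit 5) (nat_lit 46) (nat_lit 5) (nat_lit 47) (nat_lit 5) (nat_lit 360) (nat_lit 322) (nat_lit 206)) (XT.lf (nat_lit 0) (nat_lit 47416470) (nat_lit 504) (nat_lit 7511517558) (nat_lit 84) (nat_lit 11583525895) (nat_lit 40) (nat_lit 5) (nat_lit 46) (nat_lit 5) (nat_lit 41) (nat_lit 5) (nat_lit 361) (nat_lit 322) (nat_lit 205)))) (XT.nd (nat_lit 188) (nat_lit 0) (nat_lit 0) (XT.nd (nat_lit 94) (nat_lit 336) (nat_lit 0) (XT.lf (nat_lit 0) (nat_lit 1399336551) (nat_lit 504) (nat_lit 1850752625) (nat_lit 84) (nat_lit 16304101884) (nat_lit 40) (nat_lit 5) (nat_lit 46) (nat_lit 5) (nat_lit 41) (nat_lit 5) (nat_lit 362) (nat_lit 322) (nat_lit 204)) (XT.lf (nat_lit 0) (nat_lit 2837585960) (nat_lit 420) (nat_lit 15931568460) (nat_lit 84) (nat_lit 1208204178) (nat_lit 36) (nat_lit 5)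 (nat_lit 41) (nat_lit 5) (nat_lit 37) (nat_lit 5) (nat_lit 363) (nat_lit 322) (nat_lit 203))) (XT.nd (nat_lit 94) (nat_lit 0) (nat_lit 0) (XT.lf (nat_lit 0) (nat_lit 4365252673) (nat_lit 420) (nat_lit 10291180990) (nat_lit 84) (nat_lit 5755869138) (nat_lit 36) (nat_lit 5) (nat_lit 41) (nat_lit 5) (nat_lit 37) (nat_lit 5) (nat_lit 364) (nat_lit 322) (nat_lit 202)) (XT.lf (nat_lit 0) (nat_lit 5932590504) (nat_lit 420) (nat_lit 4484727046) (nat_lit 84) (nat_lit 10443697810) (nat_lit 36) (nat_lit 5) (nat_lit 41) (nat_lit 5) (nat_lit 37) (nat_lit 5) (nat_lit 365) (nat_lit 322) (nat_lit 201)))))) (XT.nd (nat_lit 564) (nat_lit 588) (nat_lit 0) (XT.nd (nat_lit 282) (nat_lit 252) (nat_lit 0) (XT.nd (nat_lit 94) (nat_lit 0) (nat_lit 0) (XT.lf (nat_lit 0) (nat_lit 1523908965) (nat_lit 336) (nat_lit 6032268774) (nat_lit 420) (nat_lit 13767268143) (nat_lit 32) (nat_lit 5) (nat_lit 36) (nat_lit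 5) (nat_lit 37) (nat_lit 5) (nat_lit 366) (nat_lit 322) (nat_lit 200)) (XT.nd (nat_lit 94) (nat_lit 0) (nat_lit 0) (XT.lf (nat_lit 0) (nat_lit 7805451447) (nat_lit 336) (nat_lit 1464141143) (nat_lit 420) (nat_lit 12529438799) (nat_lit 32) (nat_lit 5) (nat_lit 36) (nat_lit 5) (nat_lit 37) (nat_lit 5) (nat_lit 367) (nat_lit 322) (nat_lit 199)) (XT.lf (nat_lit 0) (nat_lit 11061214267) (nat_lit 420) (nat_lit 8048268390) (nat_lit 84) (nat_lit 3179142277) (nat_lit 32) (nat_lit 5) (nat_lit 37) (nat_lit 5) (nat_lit 33) (nat_lit 5) (nat_lit 368) (nat_lit 322) (nat_lit 198)))) (XT.nd (nat_lit 94) (nat_lit 252) (nat_lit 0) (XT.lf (nat_lit 0) (nat_lit 12916458817) (nat_lit 420) (nat_lit 1941806675) (nat_lit 84) (nat_lit 7934921247) (nat_lit 32) (nat_lit 5) (nat_lit 37) (nat_lit 5) (nat_lit 33) (nat_lit 5) (nat_lit 369) (nat_lit 322) (nat_lit 197)) (XT.nd (nat_lit 94) (nat_lit 0) (nat_lit 0)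 (XT.lf (nat_lit 0) (nat_lit 4435384640) (nat_lit 252) (nat_lit 10431145985) (nat_lit 336) (nat_lit 8445742755) (nat_lit 29) (nat_lit 5) (nat_lit 32) (nat_lit 5) (nat_lit 33) (nat_lit 5) (nat_lit 370) (nat_lit 322) (nat_lit 196)) (XT.lf (nat_lit 0) (nat_lit 11043580665) (nat_lit 252) (nat_lit 5847180680) (nat_lit 336) (nat_lit 6956304423) (nat_lit 29) (nat_lit 5) (nat_lit 32) (nat_lit 5) (nat_lit 33) (nat_lit 5) (nat_lit 371) (nat_lit 322) (nat_lit 195))))) (XT.nd (nat_lit 282) (nat_lit 336) (nat_lit 0) (XT.nd (nat_lit 94) (nat_lit 252) (nat_lit 0) (XT.lf (nat_lit 0) (nat_lit 17849013399) (nat_lit 252) (nat_lit 1122365323) (nat_lit 336) (nat_lit 5427293093) (nat_lit 29) (nat_lit 5) (nat_lit 32) (nat_lit 5) (nat_lit 33) (nat_lit 5) (nat_lit 372) (nat_lit 322) (nat_lit 194)) (XT.nd (nat_lit 94) (nat_lit 252) (nat_lit 0) (XT.lf (nat_lit 0) (nat_lit 21147499800) (nat_lit 336) (nat_lit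 146757145) (nat_lit 84) (nat_lit 3672196223) (nat_lit 29) (nat_lit 5) (nat_lit 33) (nat_lit 5) (nat_lit 30) (nat_lit 5) (nat_lit 373) (nat_lit 322) (nat_lit 193)) (XT.lf (nat_lit 0) (nat_lit 6568112074) (nat_lit 252) (nat_lit 16893604990) (nat_lit 336) (nat_lit 2087964507) (nat_lit 26) (nat_lit 5) (nat_lit 29) (nat_lit 5) (nat_lit 30) (nat_lit 5) (nat_lit 374) (nat_lit 322) (nat_lit 192)))) (XT.nd (nat_lit 188) (nat_lit 252) (nat_lit 0) (XT.nd (nat_lit 94) (nat_lit 84) (nat_lit 0) (XT.lf (nat_lit 0) (nat_lit 13486952432) (nat_lit 252) (nat_lit 12356363226) (nat_lit 336) (nat_lit 307844026) (nat_lit 26) (nat_lit 5) (nat_lit 29) (nat_lit 5) (nat_lit 30) (nat_lit 5) (nat_lit 375) (nat_lit 322) (nat_lit 191)) (XT.lf (nat_lit 0) (nat_lit 1490879937) (nat_lit 336) (nat_lit 6173392644) (nat_lit 84) (nat_lit 19106753717) (nat_lit 25) (nat_lit 5) (nat_lit 29) (nat_lit 5) (nat_lit 26) (nat_lit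 5) (nat_lit 376) (nat_lit 322) (nat_lit 190))) (XT.nd (nat_lit 94) (nat_lit 0) (nat_lit 0) (XT.lf (nat_lit 0) (nat_lit 518928158) (nat_lit 252) (nat_lit 2819558595) (nat_lit 336) (nat_lit 24071570862) (nat_lit 22) (nat_lit 5) (nat_lit 25) (nat_lit 5) (nat_lit 26) (nat_lit 5) (nat_lit 377) (nat_lit 322) (nat_lit 189)) (XT.lf (nat_lit 0) (nat_lit 5324501245) (nat_lit 336) (nat_lit 20546689143) (nat_lit 84) (nat_lit 2195223951) (nat_lit 22) (nat_lit 5) (nat_lit 26) (nat_lit 5) (nat_lit 23) (nat_lit 5) (nat_lit 378) (nat_lit 322) (nat_lit 188))))))))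
noncomputable def xc146 : XT := (XT.nd (nat_lit 2350) (nat_lit 420) (nat_lit 0) (XT.nd (nat_lit 1128) (nat_lit 588) (nat_lit 0) (XT.nd (nat_lit 564) (nat_lit 168) (nat_lit 0) (XT.nd (nat_lit 282) (nat_lit 252) (nat_lit 0) (XT.nd (nat_lit 94) (nat_lit 0) (nat_lit 0) (XT.lf (nat_lit 0) (nat_lit 7395541950) (nat_lit 336) (nat_lit 14041326853) (nat_lit 84) (nat_lit 7305551671) (nat_lit 22) (nat_lit 5) (nat_lit 26) (nat_lit 5) (nat_lit 23) (nat_lit 5) (nat_lit 379) (nat_lit 322) (nat_lit 187)) (XT.nd (nat_lit 94) (nat_lit 0) (nat_lit 0) (XT.lf (nat_lit 0) (nat_lit 9525568924) (nat_lit 336) (nat_lit 7341008540) (nat_lit 84) (nat_lit 12572995746) (nat_lit 22) (nat_lit 5) (nat_lit 26) (nat_lit 5) (nat_lit 23) (nat_lit 5) (nat_lit 380) (nat_lit 322) (nat_lit 186)) (XT.lf (nat_lit 0) (nat_lit 11716567577) (nat_lit 336) (nat_lit 439488805) (nat_lit 84) (nat_lit 18002465986) (nat_lit 22) (nat_lit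 5) (nat_lit 26) (nat_lit 5) (nat_lit 23) (nat_lit 5) (nat_lit 381) (nat_lit 322) (nat_lit 185)))) (XT.nd (nat_lit 94) (nat_lit 0) (nat_lit 0) (XT.lf (nat_lit 0) (nat_lit 6806807289) (nat_lit 252) (nat_lit 7231297229) (nat_lit 336) (nat_lit 16859740308) (nat_lit 19) (nat_lit 5) (nat_lit 22) (nat_lit 5) (nat_lit 23) (nat_lit 5) (nat_lit 382) (nat_lit 322) (nat_lit 184)) (XT.nd (nat_lit 94) (nat_lit 0) (nat_lit 0) (XT.lf (nat_lit 0) (nat_lit 14280806655) (nat_lit 252) (nat_lit 2150568327) (nat_lit 336) (nat_lit 15228744759) (nat_lit 19) (nat_lit 5) (nat_lit 22) (nat_lit 5) (nat_lit 23) (nat_lit 5) (nat_lit 383) (nat_lit 322) (nat_lit 183)) (XT.lf (nat_lit 0) (nat_lit 18924776586) (nat_lit 336) (nat_lit 10496372782) (nat_lit 84) (nat_lit 3024097094) (nat_lit 19) (nat_lit 5) (nat_lit 23) (nat_lit 5) (nat_lit 20) (nat_lit 5) (nat_lit 384) (nat_lit 322) (nat_lit 182))))) (XT.nd (nat_lit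 282) (nat_lit 0) (nat_lit 0) (XT.nd (nat_lit 94) (nat_lit 168) (nat_lit 0) (XT.lf (nat_lit 0) (nat_lit 21512919673) (nat_lit 336) (nat_lit 3428087234) (nat_lit 84) (nat_lit 8313189027) (nat_lit 19) (nat_lit 5) (nat_lit 23) (nat_lit 5) (nat_lit 20) (nat_lit 5) (nat_lit 385) (nat_lit 322) (nat_lit 181)) (XT.nd (nat_lit 94) (nat_lit 0) (nat_lit 0) (XT.lf (nat_lit 0) (nat_lit 3932701002) (nat_lit 168) (nat_lit 20283194638) (nat_lit 252) (nat_lit 9871278494) (nat_lit 17) (nat_lit 5) (nat_lit 19) (nat_lit 5) (nat_lit 20) (nat_lit 5) (nat_lit 386) (nat_lit 322) (nat_lit 180)) (XT.lf (nat_lit 0) (nat_lit 11588557219) (nat_lit 168) (nat_lit 15445551644) (nat_lit 252) (nat_lit 7910914193) (nat_lit 17) (nat_lit 5) (nat_lit 19) (nat_lit 5) (nat_lit 20) (nat_lit 5) (nat_lit 387) (nat_lit 322) (nat_lit 179)))) (XT.nd (nat_lit 94) (nat_lit 0) (nat_lit 0) (XT.lf (nat_lit 0) (nat_lit 19476128970)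 (nat_lit 168) (nat_lit 10459350933) (nat_lit 252) (nat_lit 5894138293) (nat_lit 17) (nat_lit 5) (nat_lit 19) (nat_lit 5) (nat_lit 20) (nat_lit 5) (nat_lit 388) (nat_lit 322) (nat_lit 178)) (XT.nd (nat_lit 94) (nat_lit 0) (nat_lit 0) (XT.lf (nat_lit 0) (nat_lit 27602768299) (nat_lit 168) (nat_lit 5319944846) (nat_lit 252) (nat_lit 3819070947) (nat_lit 17) (nat_lit 5) (nat_lit 19) (nat_lit 5) (nat_lit 20) (nat_lit 5) (nat_lit 389) (nat_lit 322) (nat_lit 177)) (XT.lf (nat_lit 0) (nat_lit 35976050086) (nat_lit 168) (nat_lit 22542916) (nat_lit 252) (nat_lit 1683777976) (nat_lit 17) (nat_lit 5) (nat_lit 19) (nat_lit 5) (nat_lit 20) (nat_lit 5) (nat_lit 390) (nat_lit 322) (nat_lit 176)))))) (XT.nd (nat_lit 564) (nat_lit 168) (nat_lit 0) (XT.nd (nat_lit 282) (nat_lit 168) (nat_lit 0) (XT.nd (nat_lit 94) (nat_lit 0) (nat_lit 0) (XT.lf (nat_lit 0) (nat_lit 618194064) (nat_lit 252) (nat_lit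 32636144761) (nat_lit 84) (nat_lit 5394199546) (nat_lit 14) (nat_lit 5) (nat_lit 17) (nat_lit 5) (nat_lit 15) (nat_lit 5) (nat_lit 391) (nat_lit 322) (nat_lit 175)) (XT.nd (nat_lit 94) (nat_lit 0) (nat_lit 0) (XT.lf (nat_lit 0) (nat_lit 2970929043) (nat_lit 252) (nat_lit 25660473747) (nat_lit 84) (nat_lit 11012293905) (nat_lit 14) (nat_lit 5) (nat_lit 17) (nat_lit 5) (nat_lit 15) (nat_lit 5) (nat_lit 392) (nat_lit 322) (nat_lit 174)) (XT.lf (nat_lit 0) (nat_lit 5392869052) (nat_lit 252) (nat_lit 18473694160) (nat_lit 84) (nat_lit 16803276067) (nat_lit 14) (nat_lit 5) (nat_lit 17) (nat_lit 5) (nat_lit 15) (nat_lit 5) (nat_lit 393) (nat_lit 322) (nat_lit 173)))) (XT.nd (nat_lit 94) (nat_lit 168) (nat_lit 0) (XT.lf (nat_lit 0) (nat_lit 7886271592) (nat_lit 252) (nat_lit 11069107167) (nat_lit 84) (nat_lit 22772543834) (nat_lit 14) (nat_lit 5) (nat_lit 17) (nat_lit 5) (nat_lit 15) (nat_lit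 5) (nat_lit 394) (nat_lit 322) (nat_lit 172)) (XT.nd (nat_lit 94) (nat_lit 168) (nat_lit 0) (XT.lf (nat_lit 0) (nat_lit 10453460775) (nat_lit 252) (nat_lit 3439810917) (nat_lit 84) (nat_lit 28925661190) (nat_lit 14) (nat_lit 5) (nat_lit 17) (nat_lit 5) (nat_lit 15) (nat_lit 5) (nat_lit 395) (nat_lit 322) (nat_lit 171)) (XT.lf (nat_lit 0) (nat_lit 4512217008) (nat_lit 168) (nat_lit 8629374235) (nat_lit 252) (nat_lit 30800908226) (nat_lit 12) (nat_lit 5) (nat_lit 14) (nat_lit 5) (nat_lit 15) (nat_lit 5) (nat_lit 396) (nat_lit 322) (nat_lit 170))))) (XT.nd (nat_lit 282) (nat_lit 168) (nat_lit 0) (XT.nd (nat_lit 94) (nat_lit 0) (nat_lit 0) (XT.lf (nat_lit 0) (nat_lit 12779039817) (nat_lit 168) (nat_lit 3166571477) (nat_lit 252) (nat_lit 29154292617) (nat_lit 12) (nat_lit 5) (nat_lit 14) (nat_lit 5) (nat_lit 15) (nat_lit 5) (nat_lit 397) (nat_lit 322) (nat_lit 169)) (XT.nd (nat_lit 94)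 (nat_lit 0) (nat_lit 0) (XT.lf (nat_lit 0) (nat_lit 18857755973) (nat_lit 252) (nat_lit 25020117518) (nat_lit 84) (nat_lit 2414673278) (nat_lit 12) (nat_lit 5) (nat_lit 15) (nat_lit 5) (nat_lit 13) (nat_lit 5) (nat_lit 398) (nat_lit 322) (nat_lit 168)) (XT.lf (nat_lit 0) (nat_lit 21889402863) (nat_lit 252) (nat_lit 17529900834) (nat_lit 84) (nat_lit 8101967453) (nat_lit 12) (nat_lit 5) (nat_lit 15) (nat_lit 5) (nat_lit 13) (nat_lit 5) (nat_lit 399) (nat_lit 322) (nat_lit 167)))) (XT.nd (nat_lit 188) (nat_lit 168) (nat_lit 0) (XT.nd (nat_lit 94) (nat_lit 0) (nat_lit 0) (XT.lf (nat_lit 0) (nat_lit 25011964998) (nat_lit 252) (nat_lit 9811819594) (nat_lit 84) (nat_lit 13964411560) (nat_lit 12) (nat_lit 5) (nat_lit 15) (nat_lit 5) (nat_lit 13) (nat_lit 5) (nat_lit 400) (nat_lit 322) (nat_lit 166)) (XT.lf (nat_lit 0) (nat_lit 28228352933) (nat_lit 252) (nat_lit 1858679739) (nat_lit 84)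 (nat_lit 20007470011) (nat_lit 12) (nat_lit 5) (nat_lit 15) (nat_lit 5) (nat_lit 13) (nat_lit 5) (nat_lit 401) (nat_lit 322) (nat_lit 165))) (XT.nd (nat_lit 94) (nat_lit 0) (nat_lit 0) (XT.lf (nat_lit 0) (nat_lit 6467232207) (nat_lit 168) (nat_lit 25138488213) (nat_lit 252) (nat_lit 19833699106) (nat_lit 10) (nat_lit 5) (nat_lit 12) (nat_lit 5) (nat_lit 13) (nat_lit 5) (nat_lit 402) (nat_lit 322) (nat_lit 164)) (XT.lf (nat_lit 0) (nat_lit 15086616159) (nat_lit 168) (nat_lit 20017733431) (nat_lit 252) (nat_lit 17721179541) (nat_lit 10) (nat_lit 5) (nat_lit 12) (nat_lit 5) (nat_lit 13) (nat_lit 5) (nat_lit 403) (nat_lit 322) (nat_lit 163))))))) (XT.nd (nat_lit 1222) (nat_lit 84) (nat_lit 0) (XT.nd (nat_lit 564) (nat_lit 252) (nat_lit 0) (XT.nd (nat_lit 282) (nat_lit 84) (nat_lit 0) (XT.nd (nat_lit 94) (nat_lit 0) (nat_lit 0) (XT.lf (nat_lit 0) (nat_lit 23969288018) (nat_lit 168) (nat_lit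 14739396049) (nat_lit 252) (nat_lit 15546022770) (nat_lit 10) (nat_lit 5) (nat_lit 12) (nat_lit 5) (nat_lit 13) (nat_lit 5) (nat_lit 404) (nat_lit 322) (nat_lit 162)) (XT.nd (nat_lit 94) (nat_lit 0) (nat_lit 0) (XT.lf (nat_lit 0) (nat_lit 33123527363) (nat_lit 168) (nat_lit 9298556106) (nat_lit 252) (nat_lit 13306201320) (nat_lit 10) (nat_lit 5) (nat_lit 12) (nat_lit 5) (nat_lit 13) (nat_lit 5) (nat_lit 405) (nat_lit 322) (nat_lit 161)) (XT.lf (nat_lit 0) (nat_lit 42557866906) (nat_lit 168) (nat_lit 3690142168) (nat_lit 252) (nat_lit 10999627441) (nat_lit 10) (nat_lit 5) (nat_lit 12) (nat_lit 5) (nat_lit 13) (nat_lit 5) (nat_lit 406) (nat_lit 322) (nat_lit 160)))) (XT.nd (nat_lit 94) (nat_lit 84) (nat_lit 0) (XT.lf (nat_lit 0) (nat_lit 50210770752) (nat_lit 252) (nat_lit 6553821480) (nat_lit 84) (nat_lit 2048942925) (nat_lit 10) (nat_lit 5) (nat_lit 13) (nat_lit 5) (nat_lit 11) (nat_lit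 4) (nat_lit 407) (nat_lit 322) (nat_lit 159)) (XT.nd (nat_lit 94) (nat_lit 0) (nat_lit 0) (XT.lf (nat_lit 0) (nat_lit 1829928199) (nat_lit 84) (nat_lit 52519898420) (nat_lit 168) (nat_lit 6076504977) (nat_lit 9) (nat_lit 5) (nat_lit 10) (nat_lit 5) (nat_lit 11) (nat_lit 4) (nat_lit 408) (nat_lit 322) (nat_lit 158)) (XT.lf (nat_lit 0) (nat_lit 10609007190) (nat_lit 84) (nat_lit 48074187255) (nat_lit 168) (nat_lit 3403895732) (nat_lit 9) (nat_lit 5) (nat_lit 10) (nat_lit 5) (nat_lit 11) (nat_lit 4) (nat_lit 409) (nat_lit 322) (nat_lit 157))))) (XT.nd (nat_lit 282) (nat_lit 168) (nat_lit 0) (XT.nd (nat_lit 94) (nat_lit 84) (nat_lit 0) (XT.lf (nat_lit 0) (nat_lit 19656838501) (nat_lit 84) (nat_lit 43491723325) (nat_lit 168) (nat_lit 650853975) (nat_lit 9) (nat_lit 5) (nat_lit 10) (nat_lit 5) (nat_lit 11) (nat_lit 4) (nat_lit 410) (nat_lit 322) (nat_lit 156)) (XT.nd (nat_lit 94) (nat_lit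 0) (nat_lit 0) (XT.lf (nat_lit 0) (nat_lit 2141159781) (nat_lit 168) (nat_lit 36604726194) (nat_lit 84) (nat_lit 26818346562) (nat_lit 8) (nat_lit 5) (nat_lit 10) (nat_lit 5) (nat_lit 9) (nat_lit 5) (nat_lit 411) (nat_lit 322) (nat_lit 155)) (XT.lf (nat_lit 0) (nat_lit 5003976905) (nat_lit 168) (nat_lit 28843112209) (nat_lit 84) (nat_lit 33536542397) (nat_lit 8) (nat_lit 5) (nat_lit 10) (nat_lit 5) (nat_lit 9) (nat_lit 5) (nat_lit 412) (nat_lit 322) (nat_lit 154)))) (XT.nd (nat_lit 188) (nat_lit 168) (nat_lit 0) (XT.nd (nat_lit 94) (nat_lit 0) (nat_lit 0) (XT.lf (nat_lit 0) (nat_lit 7953379101) (nat_lit 168) (nat_lit 20844044156) (nat_lit 84) (nat_lit 40462085492) (nat_lit 8) (nat_lit 5) (nat_lit 10) (nat_lit 5) (nat_lit 9) (nat_lit 5) (nat_lit 413) (nat_lit 322) (nat_lit 153)) (XT.lf (nat_lit 0) (nat_lit 10992115519) (nat_lit 168) (nat_lit 12600066066) (nat_lit 84) (nat_lit 47601431179)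 (nat_lit 8) (nat_lit 5) (nat_lit 10) (nat_lit 5) (nat_lit 9) (nat_lit 5) (nat_lit 414) (nat_lit 322) (nat_lit 152))) (XT.nd (nat_lit 94) (nat_lit 168) (nat_lit 0) (XT.lf (nat_lit 0) (nat_lit 14123018580) (nat_lit 168) (nat_lit 4103493687) (nat_lit 84) (nat_lit 54961234075) (nat_lit 8) (nat_lit 5) (nat_lit 10) (nat_lit 5) (nat_lit 9) (nat_lit 5) (nat_lit 415) (nat_lit 322) (nat_lit 151)) (XT.lf (nat_lit 0) (nat_lit 4749280085) (nat_lit 168) (nat_lit 12646839974) (nat_lit 252) (nat_lit 57846187650) (nat_lit 6) (nat_lit 5) (nat_lit 8) (nat_lit 5) (nat_lit 9) (nat_lit 5) (nat_lit 416) (nat_lit 322) (nat_lit 150)))))) (XT.nd (nat_lit 564) (nat_lit 84) (nat_lit 0) (XT.nd (nat_lit 282) (nat_lit 0) (nat_lit 0) (XT.nd (nat_lit 94) (nat_lit 0) (nat_lit 0) (XT.lf (nat_lit 0) (nat_lit 13960631149) (nat_lit 168) (nat_lit 6850946617) (nat_lit 252) (nat_lit 56547723849) (nat_lit 6) (nat_lit 5)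 (nat_lit 8) (nat_lit 5) (nat_lit 9) (nat_lit 5) (nat_lit 417) (nat_lit 322) (nat_lit 149)) (XT.nd (nat_lit 94) (nat_lit 0) (nat_lit 0) (XT.lf (nat_lit 0) (nat_lit 23454769204) (nat_lit 168) (nat_lit 876261875) (nat_lit 252) (nat_lit 55210958114) (nat_lit 6) (nat_lit 5) (nat_lit 8) (nat_lit 5) (nat_lit 9) (nat_lit 5) (nat_lit 418) (nat_lit 322) (nat_lit 148)) (XT.lf (nat_lit 0) (nat_lit 28010166359) (nat_lit 252) (nat_lit 48604267019) (nat_lit 84) (nat_lit 5176346974) (nat_lit 6) (nat_lit 5) (nat_lit 9) (nat_lit 5) (nat_lit 7) (nat_lit 4) (nat_lit 419) (nat_lit 322) (nat_lit 147)))) (XT.nd (nat_lit 94) (nat_lit 0) (nat_lit 0) (XT.lf (nat_lit 0) (nat_lit 31810536688) (nat_lit 252) (nat_lit 40900960402) (nat_lit 84) (nat_lit 11397572276) (nat_lit 6) (nat_lit 5) (nat_lit 9) (nat_lit 5) (nat_lit 7) (nat_lit 4) (nat_lit 420) (nat_lit 322) (nat_lit 146)) (XT.nd (nat_lit 94) (nat_lit 0)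 (nat_lit 0) (XT.lf (nat_lit 0) (nat_lit 35726991783) (nat_lit 252) (nat_lit 32961427223) (nat_lit 84) (nat_lit 17810867587) (nat_lit 6) (nat_lit 5) (nat_lit 9) (nat_lit 5) (nat_lit 7) (nat_lit 4) (nat_lit 421) (nat_lit 322) (nat_lit 145)) (XT.lf (nat_lit 0) (nat_lit 39763182192) (nat_lit 252) (nat_lit 24778267005) (nat_lit 84) (nat_lit 24422210771) (nat_lit 6) (nat_lit 5) (nat_lit 9) (nat_lit 5) (nat_lit 7) (nat_lit 4) (nat_lit 422) (nat_lit 322) (nat_lit 144))))) (XT.nd (nat_lit 282) (nat_lit 0) (nat_lit 0) (XT.nd (nat_lit 94) (nat_lit 84) (nat_lit 0) (XT.lf (nat_lit 0) (nat_lit 43922870066) (nat_lit 252) (nat_lit 16343852187) (nat_lit 84) (nat_lit 31237764291) (nat_lit 6) (nat_lit 5) (nat_lit 9) (nat_lit 5) (nat_lit 7) (nat_lit 4) (nat_lit 423) (nat_lit 322) (nat_lit 143)) (XT.nd (nat_lit 94) (nat_lit 84) (nat_lit 0) (XT.lf (nat_lit 0) (nat_lit 48209932670) (nat_lit 252) (nat_lit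 7650321010) (nat_lit 84) (nat_lit 38263880958) (nat_lit 6) (nat_lit 5) (nat_lit 9) (nat_lit 5) (nat_lit 7) (nat_lit 4) (nat_lit 424) (nat_lit 322) (nat_lit 142)) (XT.lf (nat_lit 0) (nat_lit 1337374931) (nat_lit 84) (nat_lit 51304257989) (nat_lit 168) (nat_lit 44183001842) (nat_lit 5) (nat_lit 5) (nat_lit 6) (nat_lit 5) (nat_lit 7) (nat_lit 4) (nat_lit 425) (nat_lit 322) (nat_lit 141)))) (XT.nd (nat_lit 188) (nat_lit 0) (nat_lit 0) (XT.nd (nat_lit 94) (nat_lit 0) (nat_lit 0) (XT.lf (nat_lit 0) (nat_lit 10763615488) (nat_lit 84) (nat_lit 46525449395) (nat_lit 168) (nat_lit 42317363320) (nat_lit 5) (nat_lit 5) (nat_lit 6) (nat_lit 5) (nat_lit 7) (nat_lit 4) (nat_lit 426) (nat_lit 322) (nat_lit 140)) (XT.lf (nat_lit 0) (nat_lit 20479880614) (nat_lit 84) (nat_lit 41599227209) (nat_lit 168) (nat_lit 40395401093) (nat_lit 5) (nat_lit 5) (nat_lit 6) (nat_lit 5) (nat_lit 7) (nat_lit 4) (nat_lit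 427) (nat_lit 322) (nat_lit 139))) (XT.nd (nat_lit 94) (nat_lit 0) (nat_lit 0) (XT.lf (nat_lit 0) (nat_lit 30495226884) (nat_lit 84) (nat_lit 36520999677) (nat_lit 168) (nat_lit 38415323692) (nat_lit 5) (nat_lit 5) (nat_lit 6) (nat_lit 5) (nat_lit 7) (nat_lit 4) (nat_lit 428) (nat_lit 322) (nat_lit 138)) (XT.lf (nat_lit 0) (nat_lit 40818989652) (nat_lit 84) (nat_lit 31286033358) (nat_lit 168) (nat_lit 36375285476) (nat_lit 5) (nat_lit 5) (nat_lit 6) (nat_lit 5) (nat_lit 7) (nat_lit 4) (nat_lit 429) (nat_lit 322) (nat_lit 137))))))))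
noncomputable def xc147 : XT := (XT.nd (nat_lit 47940) (nat_lit 0) (nat_lit 2016) (XT.nd (nat_lit 46718) (nat_lit 0) (nat_lit 5208) (XT.nd (nat_lit 46154) (nat_lit 0) (nat_lit 6552) (XT.nd (nat_lit 45872) (nat_lit 0) (nat_lit 7308) (XT.nd (nat_lit 45684) (nat_lit 0) (nat_lit 7308) (XT.lf (nat_lit 0) (nat_lit 51460791744) (nat_lit 84) (nat_lit 25889448715) (nat_lit 168) (nat_lit 34273384916) (nat_lit 5) (nat_lit 5) (nat_lit 6) (nat_lit 5) (nat_lit 7) (nat_lit 4) (nat_lit 430) (nat_lit 322) (nat_lit 136)) (XT.nd (nat_lit 94) (nat_lit 0) (nat_lit 0) (XT.lf (nat_lit 0) (nat_lit 2961676500) (nat_lit 924) (nat_lit 1014169636) (nat_lit 924) (nat_lit 1014169636) (nat_lit 92) (nat_lit 3) (nat_lit 103) (nat_lit 3) (nat_lit 103) (nat_lit 5) (nat_lit 323) (nat_lit 323) (nat_lit 242)) (XT.lf (nat_lit 84) (nat_lit 1272520420) (nat_lit 0) (nat_lit 5296437951) (nat_lit 924) (nat_lit 3544409446)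 (nat_lit 93) (nat_lit 5) (nat_lit 92) (nat_lit 3) (nat_lit 103) (nat_lit 5) (nat_lit 324) (nat_lit 323) (nat_lit 241)))) (XT.nd (nat_lit 94) (nat_lit 0) (nat_lit 84) (XT.lf (nat_lit 84) (nat_lit 4707147889) (nat_lit 0) (nat_lit 2526679926) (nat_lit 924) (nat_lit 3017201638) (nat_lit 93) (nat_lit 5) (nat_lit 92) (nat_lit 3) (nat_lit 103) (nat_lit 5) (nat_lit 325) (nat_lit 323) (nat_lit 240)) (XT.nd (nat_lit 94) (nat_lit 0) (nat_lit 0) (XT.lf (nat_lit 0) (nat_lit 7901408788) (nat_lit 840) (nat_lit 2160106451) (nat_lit 924) (nat_lit 332161874) (nat_lit 93) (nat_lit 5) (nat_lit 103) (nat_lit 5) (nat_lit 104) (nat_lit 5) (nat_lit 326) (nat_lit 323) (nat_lit 239)) (XT.lf (nat_lit 84) (nat_lit 1317499683) (nat_lit 0) (nat_lit 7290570597) (nat_lit 924) (nat_lit 1932265328) (nat_lit 94) (nat_lit 5) (nat_lit 93) (nat_lit 5) (nat_lit 104) (nat_lit 5) (nat_lit 327) (nat_lit 323) (nat_lit 238)))))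 (XT.nd (nat_lit 282) (nat_lit 840) (nat_lit 0) (XT.nd (nat_lit 94) (nat_lit 0) (nat_lit 0) (XT.lf (nat_lit 84) (nat_lit 4937055179) (nat_lit 0) (nat_lit 4402105554) (nat_lit 924) (nat_lit 1352455525) (nat_lit 94) (nat_lit 5) (nat_lit 93) (nat_lit 5) (nat_lit 104) (nat_lit 5) (nat_lit 328) (nat_lit 323) (nat_lit 237)) (XT.nd (nat_lit 94) (nat_lit 0) (nat_lit 84) (XT.lf (nat_lit 84) (nat_lit 8657517621) (nat_lit 0) (nat_lit 1415974841) (nat_lit 924) (nat_lit 774845554) (nat_lit 94) (nat_lit 5) (nat_lit 93) (nat_lit 5) (nat_lit 104) (nat_lit 5) (nat_lit 329) (nat_lit 323) (nat_lit 236)) (XT.lf (nat_lit 84) (nat_lit 1485055865) (nat_lit 0) (nat_lit 9357998623) (nat_lit 924) (nat_lit 166622035) (nat_lit 95) (nat_lit 5) (nat_lit 94) (nat_lit 5) (nat_lit 105) (nat_lit 5) (nat_lit 330) (nat_lit 323) (nat_lit 235)))) (XT.nd (nat_lit 94) (nat_lit 0) (nat_lit 0) (XT.lf (nat_lit 0) (nat_lit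 470126134) (nat_lit 924) (nat_lit 5885429682) (nat_lit 1008) (nat_lit 4819867993) (nat_lit 83) (nat_lit 5) (nat_lit 94) (nat_lit 5) (nat_lit 95) (nat_lit 5) (nat_lit 331) (nat_lit 323) (nat_lit 234)) (XT.nd (nat_lit 94) (nat_lit 0) (nat_lit 0) (XT.lf (nat_lit 0) (nat_lit 1105075981) (nat_lit 924) (nat_lit 2146928935) (nat_lit 1008) (nat_lit 8094944030) (nat_lit 83) (nat_lit 5) (nat_lit 94) (nat_lit 5) (nat_lit 95) (nat_lit 5) (nat_lit 332) (nat_lit 323) (nat_lit 233)) (XT.lf (nat_lit 84) (nat_lit 1730892799) (nat_lit 0) (nat_lit 28454277) (nat_lit 1008) (nat_lit 9764583686) (nat_lit 84) (nat_lit 5) (nat_lit 83) (nat_lit 5) (nat_lit 95) (nat_lit 5) (nat_lit 333) (nat_lit 323) (nat_lit 232)))))) (XT.nd (nat_lit 564) (nat_lit 1428) (nat_lit 0) (XT.nd (nat_lit 282) (nat_lit 0) (nat_lit 84) (XT.nd (nat_lit 94) (nat_lit 0) (nat_lit 0) (XT.lf (nat_lit 0) (nat_lit 2472165706) (nat_lit 924)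 (nat_lit 5976222492) (nat_lit 1008) (nat_lit 3256948915) (nat_lit 84) (nat_lit 5) (nat_lit 95) (nat_lit 5) (nat_lit 96) (nat_lit 5) (nat_lit 334) (nat_lit 323) (nat_lit 231)) (XT.nd (nat_lit 94) (nat_lit 0) (nat_lit 0) (XT.lf (nat_lit 0) (nat_lit 3190825039) (nat_lit 924) (nat_lit 2053057344) (nat_lit 1008) (nat_lit 6649109215) (nat_lit 84) (nat_lit 5) (nat_lit 95) (nat_lit 5) (nat_lit 96) (nat_lit 5) (nat_lit 335) (nat_lit 323) (nat_lit 230)) (XT.lf (nat_lit 84) (nat_lit 2021117566) (nat_lit 0) (nat_lit 1914644842) (nat_lit 1008) (nat_lit 8150693932) (nat_lit 85) (nat_lit 5) (nat_lit 84) (nat_lit 5) (nat_lit 96) (nat_lit 5) (nat_lit 336) (nat_lit 323) (nat_lit 229)))) (XT.nd (nat_lit 94) (nat_lit 0) (nat_lit 0) (XT.lf (nat_lit 0) (nat_lit 4724863963) (nat_lit 924) (nat_lit 6047272898) (nat_lit 1008) (nat_lit 1513241860) (nat_lit 85) (nat_lit 5) (nat_lit 96) (nat_lit 5) (nat_lit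 97) (nat_lit 5) (nat_lit 337) (nat_lit 323) (nat_lit 228)) (XT.nd (nat_lit 94) (nat_lit 0) (nat_lit 0) (XT.lf (nat_lit 0) (nat_lit 5542845563) (nat_lit 924) (nat_lit 1935731171) (nat_lit 1008) (nat_lit 5011864035) (nat_lit 85) (nat_lit 5) (nat_lit 96) (nat_lit 5) (nat_lit 97) (nat_lit 5) (nat_lit 338) (nat_lit 323) (nat_lit 227)) (XT.lf (nat_lit 84) (nat_lit 2339242837) (nat_lit 0) (nat_lit 4055438882) (nat_lit 1008) (nat_lit 6307021330) (nat_lit 86) (nat_lit 5) (nat_lit 85) (nat_lit 5) (nat_lit 97) (nat_lit 5) (nat_lit 339) (nat_lit 323) (nat_lit 226))))) (XT.nd (nat_lit 282) (nat_lit 672) (nat_lit 0) (XT.nd (nat_lit 94) (nat_lit 840) (nat_lit 0) (XT.lf (nat_lit 84) (nat_lit 6776734427) (nat_lit 0) (nat_lit 502019681) (nat_lit 1008) (nat_lit 5640683151) (nat_lit 86) (nat_lit 5) (nat_lit 85) (nat_lit 5) (nat_lit 97) (nat_lit 5) (nat_lit 340) (nat_lit 323) (nat_lit 225)) (XT.nd (nat_lit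 94) (nat_lit 924) (nat_lit 0) (XT.lf (nat_lit 0) (nat_lit 8207684330) (nat_lit 924) (nat_lit 1834771762) (nat_lit 84) (nat_lit 3101024537) (nat_lit 86) (nat_lit 5) (nat_lit 97) (nat_lit 5) (nat_lit 87) (nat_lit 5) (nat_lit 341) (nat_lit 323) (nat_lit 224)) (XT.lf (nat_lit 0) (nat_lit 2643902709) (nat_lit 924) (nat_lit 6539377854) (nat_lit 1008) (nat_lit 4190732215) (nat_lit 75) (nat_lit 5) (nat_lit 86) (nat_lit 5) (nat_lit 87) (nat_lit 5) (nat_lit 342) (nat_lit 323) (nat_lit 223)))) (XT.nd (nat_lit 188) (nat_lit 672) (nat_lit 0) (XT.nd (nat_lit 94) (nat_lit 0) (nat_lit 0) (XT.lf (nat_lit 0) (nat_lit 7289486285) (nat_lit 924) (nat_lit 2905590417) (nat_lit 1008) (nat_lit 3416524523) (nat_lit 75) (nat_lit 5) (nat_lit 86) (nat_lit 5) (nat_lit 87) (nat_lit 5) (nat_lit 343) (nat_lit 323) (nat_lit 222)) (XT.lf (nat_lit 0) (nat_lit 11233804504) (nat_lit 1008) (nat_lit 1796824877) (nat_lit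 84) (nat_lit 826154599) (nat_lit 75) (nat_lit 5) (nat_lit 87) (nat_lit 5) (nat_lit 76) (nat_lit 5) (nat_lit 344) (nat_lit 323) (nat_lit 221))) (XT.nd (nat_lit 94) (nat_lit 0) (nat_lit 0) (XT.lf (nat_lit 0) (nat_lit 2886507990) (nat_lit 672) (nat_lit 9464185576) (nat_lit 756) (nat_lit 1757537909) (nat_lit 67) (nat_lit 5) (nat_lit 75) (nat_lit 5) (nat_lit 76) (nat_lit 5) (nat_lit 345) (nat_lit 323) (nat_lit 220)) (XT.lf (nat_lit 0) (nat_lit 7742543516) (nat_lit 672) (nat_lit 5766294365) (nat_lit 756) (nat_lit 858516564) (nat_lit 67) (nat_lit 5) (nat_lit 75) (nat_lit 5) (nat_lit 76) (nat_lit 5) (nat_lit 346) (nat_lit 323) (nat_lit 219))))))) (XT.nd (nat_lit 1222) (nat_lit 1428) (nat_lit 0) (XT.nd (nat_lit 564) (nat_lit 756) (nat_lit 0) (XT.nd (nat_lit 282) (nat_lit 420) (nat_lit 0) (XT.nd (nat_lit 94) (nat_lit 504) (nat_lit 0) (XT.lf (nat_lit 0) (nat_lit 55035726) (nat_lit 756) (nat_lit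 1896653907) (nat_lit 84) (nat_lit 12683251441) (nat_lit 66) (nat_lit 5) (nat_lit 75) (nat_lit 5) (nat_lit 67) (nat_lit 5) (nat_lit 347) (nat_lit 323) (nat_lit 218)) (XT.nd (nat_lit 94) (nat_lit 0) (nat_lit 0) (XT.lf (nat_lit 0) (nat_lit 1017493697) (nat_lit 588) (nat_lit 11910247432) (nat_lit 84) (nat_lit 1981697216) (nat_lit 60) (nat_lit 5) (nat_lit 67) (nat_lit 5) (nat_lit 61) (nat_lit 5) (nat_lit 348) (nat_lit 323) (nat_lit 217)) (XT.lf (nat_lit 0) (nat_lit 2038407131) (nat_lit 588) (nat_lit 7135579546) (nat_lit 84) (nat_lit 6017647434) (nat_lit 60) (nat_lit 5) (nat_lit 67) (nat_lit 5) (nat_lit 61) (nat_lit 5) (nat_lit 349) (nat_lit 323) (nat_lit 216)))) (XT.nd (nat_lit 94) (nat_lit 420) (nat_lit 0) (XT.lf (nat_lit 0) (nat_lit 3079968313) (nat_lit 588) (nat_lit 2223177796) (nat_lit 84) (nat_lit 10179846838) (nat_lit 60) (nat_lit 5) (nat_lit 67) (nat_lit 5) (nat_lit 61) (nat_lit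 5) (nat_lit 350) (nat_lit 323) (nat_lit 215)) (XT.nd (nat_lit 94) (nat_lit 0) (nat_lit 0) (XT.lf (nat_lit 0) (nat_lit 2889758893) (nat_lit 420) (nat_lit 1282055961) (nat_lit 504) (nat_lit 11611082906) (nat_lit 55) (nat_lit 5) (nat_lit 60) (nat_lit 5) (nat_lit 61) (nat_lit 5) (nat_lit 351) (nat_lit 323) (nat_lit 214)) (XT.lf (nat_lit 0) (nat_lit 5338918344) (nat_lit 504) (nat_lit 7921968843) (nat_lit 84) (nat_lit 2829998337) (nat_lit 55) (nat_lit 5) (nat_lit 61) (nat_lit 5) (nat_lit 56) (nat_lit 5) (nat_lit 352) (nat_lit 323) (nat_lit 213))))) (XT.nd (nat_lit 282) (nat_lit 336) (nat_lit 0) (XT.nd (nat_lit 94) (nat_lit 420) (nat_lit 0) (XT.lf (nat_lit 0) (nat_lit 6545187214) (nat_lit 504) (nat_lit 2819766103) (nat_lit 84) (nat_lit 7043442560) (nat_lit 55) (nat_lit 5) (nat_lit 61) (nat_lit 5) (nat_lit 56) (nat_lit 5) (nat_lit 353) (nat_lit 323) (nat_lit 212)) (XT.nd (nat_lit 94) (nat_lit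 0) (nat_lit 0) (XT.lf (nat_lit 0) (nat_lit 2480928475) (nat_lit 420) (nat_lit 5322710323) (nat_lit 504) (nat_lit 8931717293) (nat_lit 50) (nat_lit 5) (nat_lit 55) (nat_lit 5) (nat_lit 56) (nat_lit 5) (nat_lit 354) (nat_lit 323) (nat_lit 211)) (XT.lf (nat_lit 0) (nat_lit 7996158332) (nat_lit 420) (nat_lit 1124754359) (nat_lit 504) (nat_lit 7950988769) (nat_lit 50) (nat_lit 5) (nat_lit 55) (nat_lit 5) (nat_lit 56) (nat_lit 5) (nat_lit 355) (nat_lit 323) (nat_lit 210)))) (XT.nd (nat_lit 188) (nat_lit 0) (nat_lit 0) (XT.nd (nat_lit 94) (nat_lit 336) (nat_lit 0) (XT.lf (nat_lit 0) (nat_lit 10501467207) (nat_lit 504) (nat_lit 3777924666) (nat_lit 84) (nat_lit 3138853665) (nat_lit 50) (nat_lit 5) (nat_lit 56) (nat_lit 5) (nat_lit 51) (nat_lit 5) (nat_lit 356) (nat_lit 323) (nat_lit 209)) (XT.lf (nat_lit 0) (nat_lit 1697484866) (nat_lit 336) (nat_lit 10246625122) (nat_lit 420) (nat_lit 5830678020)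 (nat_lit 46) (nat_lit 5) (nat_lit 50) (nat_lit 5) (nat_lit 51) (nat_lit 5) (nat_lit 357) (nat_lit 323) (nat_lit 208))) (XT.nd (nat_lit 94) (nat_lit 0) (nat_lit 0) (XT.lf (nat_lit 0) (nat_lit 7413478407) (nat_lit 336) (nat_lit 6048558768) (nat_lit 420) (nat_lit 4679456634) (nat_lit 46) (nat_lit 5) (nat_lit 50) (nat_lit 5) (nat_lit 51) (nat_lit 5) (nat_lit 358) (nat_lit 323) (nat_lit 207)) (XT.lf (nat_lit 0) (nat_lit 13297701982) (nat_lit 336) (nat_lit 1720713559) (nat_lit 420) (nat_lit 3501474902) (nat_lit 46) (nat_lit 5) (nat_lit 50) (nat_lit 5) (nat_lit 51) (nat_lit 5) (nat_lit 359) (nat_lit 323) (nat_lit 206)))))) (XT.nd (nat_lit 564) (nat_lit 588) (nat_lit 0) (XT.nd (nat_lit 282) (nat_lit 336) (nat_lit 0) (XT.nd (nat_lit 94) (nat_lit 84) (nat_lit 0) (XT.lf (nat_lit 0) (nat_lit 426716569) (nat_lit 420) (nat_lit 16219402813) (nat_lit 504) (nat_lit 2263237098) (nat_lit 41) (nat_lit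 5) (nat_lit 46) (nat_lit 5) (nat_lit 47) (nat_lit 5) (nat_lit 360) (nat_lit 323) (nat_lit 205)) (XT.nd (nat_lit 94) (nat_lit 84) (nat_lit 0) (XT.lf (nat_lit 0) (nat_lit 6334569813) (nat_lit 420) (nat_lit 12053455136) (nat_lit 504) (nat_lit 920947864) (nat_lit 41) (nat_lit 5) (nat_lit 46) (nat_lit 5) (nat_lit 47) (nat_lit 5) (nat_lit 361) (nat_lit 323) (nat_lit 204)) (XT.lf (nat_lit 0) (nat_lit 445552857) (nat_lit 504) (nat_lit 7308865739) (nat_lit 84) (nat_lit 11966716269) (nat_lit 40) (nat_lit 5) (nat_lit 46) (nat_lit 5) (nat_lit 41) (nat_lit 5) (nat_lit 362) (nat_lit 323) (nat_lit 203)))) (XT.nd (nat_lit 94) (nat_lit 336) (nat_lit 0) (XT.lf (nat_lit 0) (nat_lit 1827455535) (nat_lit 504) (nat_lit 1485711928) (nat_lit 84) (nat_lit 16832905445) (nat_lit 40) (nat_lit 5) (nat_lit 46) (nat_lit 5) (nat_lit 41) (nat_lit 5) (nat_lit 363) (nat_lit 323) (nat_lit 202)) (XT.nd (nat_lit 94)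 (nat_lit 0) (nat_lit 0) (XT.lf (nat_lit 0) (nat_lit 3303275265) (nat_lit 420) (nat_lit 15993717789) (nat_lit 84) (nat_lit 1285654359) (nat_lit 36) (nat_lit 5) (nat_lit 41) (nat_lit 5) (nat_lit 37) (nat_lit 5) (nat_lit 364) (nat_lit 323) (nat_lit 201)) (XT.lf (nat_lit 0) (nat_lit 4866942276) (nat_lit 420) (nat_lit 10191459499) (nat_lit 84) (nat_lit 5973094341) (nat_lit 36) (nat_lit 5) (nat_lit 41) (nat_lit 5) (nat_lit 37) (nat_lit 5) (nat_lit 365) (nat_lit 323) (nat_lit 200))))) (XT.nd (nat_lit 282) (nat_lit 252) (nat_lit 0) (XT.nd (nat_lit 94) (nat_lit 336) (nat_lit 0) (XT.lf (nat_lit 0) (nat_lit 6471851701) (nat_lit 420) (nat_lit 4217596356) (nat_lit 84) (nat_lit 10805079271) (nat_lit 36) (nat_lit 5) (nat_lit 41) (nat_lit 5) (nat_lit 37) (nat_lit 5) (nat_lit 366) (nat_lit 323) (nat_lit 199)) (XT.nd (nat_lit 94) (nat_lit 0) (nat_lit 0) (XT.lf (nat_lit 0) (nat_lit 1973195394) (nat_lit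 336) (nat_lit 6165878432) (nat_lit 420) (nat_lit 13832492012) (nat_lit 32) (nat_lit 5) (nat_lit 36) (nat_lit 5) (nat_lit 37) (nat_lit 5) (nat_lit 367) (nat_lit 323) (nat_lit 198)) (XT.lf (nat_lit 0) (nat_lit 8437377039) (nat_lit 336) (nat_lit 1457744190) (nat_lit 420) (nat_lit 12567161350) (nat_lit 32) (nat_lit 5) (nat_lit 36) (nat_lit 5) (nat_lit 37) (nat_lit 5) (nat_lit 368) (nat_lit 323) (nat_lit 197)))) (XT.nd (nat_lit 188) (nat_lit 252) (nat_lit 0) (XT.nd (nat_lit 94) (nat_lit 0) (nat_lit 0) (XT.lf (nat_lit 0) (nat_lit 11732613350) (nat_lit 420) (nat_lit 7907889188) (nat_lit 84) (nat_lit 3326911952) (nat_lit 32) (nat_lit 5) (nat_lit 37) (nat_lit 5) (nat_lit 33) (nat_lit 5) (nat_lit 369) (nat_lit 323) (nat_lit 196)) (XT.lf (nat_lit 0) (nat_lit 13635493134) (nat_lit 420) (nat_lit 1623849897) (nat_lit 84) (nat_lit 8228640241) (nat_lit 32) (nat_lit 5) (nat_lit 37) (nat_lit 5) (nat_lit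 33) (nat_lit 5) (nat_lit 370) (nat_lit 323) (nat_lit 195))) (XT.nd (nat_lit 94) (nat_lit 0) (nat_lit 0) (XT.lf (nat_lit 0) (nat_lit 4947205893) (nat_lit 252) (nat_lit 10692944263) (nat_lit 336) (nat_lit 8383250897) (nat_lit 29) (nat_lit 5) (nat_lit 32) (nat_lit 5) (nat_lit 33) (nat_lit 5) (nat_lit 371) (nat_lit 323) (nat_lit 194)) (XT.lf (nat_lit 0) (nat_lit 11749000849) (nat_lit 252) (nat_lit 5968727232) (nat_lit 336) (nat_lit 6857391293) (nat_lit 29) (nat_lit 5) (nat_lit 32) (nat_lit 5) (nat_lit 33) (nat_lit 5) (nat_lit 372) (nat_lit 323) (nat_lit 193))))))))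
noncomputable def xc148 : XT := (XT.nd (nat_lit 2350) (nat_lit 504) (nat_lit 0) (XT.nd (nat_lit 1128) (nat_lit 588) (nat_lit 0) (XT.nd (nat_lit 564) (nat_lit 252) (nat_lit 0) (XT.nd (nat_lit 282) (nat_lit 336) (nat_lit 0) (XT.nd (nat_lit 94) (nat_lit 252) (nat_lit 0) (XT.lf (nat_lit 0) (nat_lit 18754485272) (nat_lit 252) (nat_lit 1099238135) (nat_lit 336) (nat_lit 5290438725) (nat_lit 29) (nat_lit 5) (nat_lit 32) (nat_lit 5) (nat_lit 33) (nat_lit 5) (nat_lit 373) (nat_lit 323) (nat_lit 192)) (XT.nd (nat_lit 94) (nat_lit 0) (nat_lit 0) (XT.lf (nat_lit 0) (nat_lit 204359152) (nat_lit 252) (nat_lit 21886682720) (nat_lit 336) (nat_lit 3638749506) (nat_lit 26) (nat_lit 5) (nat_lit 29) (nat_lit 5) (nat_lit 30) (nat_lit 5) (nat_lit 374) (nat_lit 323) (nat_lit 191)) (XT.lf (nat_lit 0) (nat_lit 7119712825) (nat_lit 252) (nat_lit 17350114192) (nat_lit 336) (nat_lit 1861546161) (nat_lit 26)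 (nat_lit 5) (nat_lit 29) (nat_lit 5) (nat_lit 30) (nat_lit 5) (nat_lit 375) (nat_lit 323) (nat_lit 190)))) (XT.nd (nat_lit 94) (nat_lit 336) (nat_lit 0) (XT.lf (nat_lit 0) (nat_lit 14242573929) (nat_lit 252) (nat_lit 12674238272) (nat_lit 336) (nat_lit 34996071) (nat_lit 26) (nat_lit 5) (nat_lit 29) (nat_lit 5) (nat_lit 30) (nat_lit 5) (nat_lit 376) (nat_lit 323) (nat_lit 189)) (XT.nd (nat_lit 94) (nat_lit 252) (nat_lit 0) (XT.lf (nat_lit 0) (nat_lit 1805478950) (nat_lit 336) (nat_lit 6030372104) (nat_lit 84) (nat_lit 19755257268) (nat_lit 25) (nat_lit 5) (nat_lit 29) (nat_lit 5) (nat_lit 26) (nat_lit 5) (nat_lit 377) (nat_lit 323) (nat_lit 188)) (XT.lf (nat_lit 0) (nat_lit 866025187) (nat_lit 252) (nat_lit 2839550379) (nat_lit 336) (nat_lit 24544567511) (nat_lit 22) (nat_lit 5) (nat_lit 25) (nat_lit 5) (nat_lit 26) (nat_lit 5) (nat_lit 378) (nat_lit 323) (nat_lit 187))))) (XT.nd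 (nat_lit 282) (nat_lit 252) (nat_lit 0) (XT.nd (nat_lit 94) (nat_lit 0) (nat_lit 0) (XT.lf (nat_lit 0) (nat_lit 5745879391) (nat_lit 336) (nat_lit 20853890803) (nat_lit 84) (nat_lit 2327346000) (nat_lit 22) (nat_lit 5) (nat_lit 26) (nat_lit 5) (nat_lit 23) (nat_lit 5) (nat_lit 379) (nat_lit 323) (nat_lit 186)) (XT.nd (nat_lit 94) (nat_lit 0) (nat_lit 0) (XT.lf (nat_lit 0) (nat_lit 7873415397) (nat_lit 336) (nat_lit 14156777042) (nat_lit 84) (nat_lit 7594167426) (nat_lit 22) (nat_lit 5) (nat_lit 26) (nat_lit 5) (nat_lit 23) (nat_lit 5) (nat_lit 380) (nat_lit 323) (nat_lit 185)) (XT.lf (nat_lit 0) (nat_lit 10061997979) (nat_lit 336) (nat_lit 7258365504) (nat_lit 84) (nat_lit 13023033738) (nat_lit 22) (nat_lit 5) (nat_lit 26) (nat_lit 5) (nat_lit 23) (nat_lit 5) (nat_lit 381) (nat_lit 323) (nat_lit 184)))) (XT.nd (nat_lit 94) (nat_lit 252) (nat_lit 0) (XT.lf (nat_lit 0) (nat_lit 12313667125)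 (nat_lit 336) (nat_lit 152226148) (nat_lit 84) (nat_lit 18619005210) (nat_lit 22) (nat_lit 5) (nat_lit 26) (nat_lit 5) (nat_lit 23) (nat_lit 5) (nat_lit 382) (nat_lit 323) (nat_lit 183)) (XT.nd (nat_lit 94) (nat_lit 0) (nat_lit 0) (XT.lf (nat_lit 0) (nat_lit 7315658916) (nat_lit 252) (nat_lit 7387434953) (nat_lit 336) (nat_lit 17144211198) (nat_lit 19) (nat_lit 5) (nat_lit 22) (nat_lit 5) (nat_lit 23) (nat_lit 5) (nat_lit 383) (nat_lit 323) (nat_lit 182)) (XT.lf (nat_lit 0) (nat_lit 15012396823) (nat_lit 252) (nat_lit 2151249049) (nat_lit 336) (nat_lit 15469816390) (nat_lit 19) (nat_lit 5) (nat_lit 22) (nat_lit 5) (nat_lit 23) (nat_lit 5) (nat_lit 384) (nat_lit 323) (nat_lit 181)))))) (XT.nd (nat_lit 564) (nat_lit 420) (nat_lit 0) (XT.nd (nat_lit 282) (nat_lit 0) (nat_lit 0) (XT.nd (nat_lit 94) (nat_lit 168) (nat_lit 0) (XT.lf (nat_lit 0) (nat_lit 19728275759) (nat_lit 336) (nat_lit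 10534319256) (nat_lit 84) (nat_lit 3180557400) (nat_lit 19) (nat_lit 5) (nat_lit 23) (nat_lit 5) (nat_lit 20) (nat_lit 5) (nat_lit 385) (nat_lit 323) (nat_lit 180)) (XT.nd (nat_lit 94) (nat_lit 168) (nat_lit 0) (XT.lf (nat_lit 0) (nat_lit 22390131626) (nat_lit 336) (nat_lit 3255559605) (nat_lit 84) (nat_lit 8631725526) (nat_lit 19) (nat_lit 5) (nat_lit 23) (nat_lit 5) (nat_lit 20) (nat_lit 5) (nat_lit 386) (nat_lit 323) (nat_lit 179)) (XT.lf (nat_lit 0) (nat_lit 4330590484) (nat_lit 168) (nat_lit 20842723456) (nat_lit 252) (nat_lit 9963048771) (nat_lit 17) (nat_lit 5) (nat_lit 19) (nat_lit 5) (nat_lit 20) (nat_lit 5) (nat_lit 387) (nat_lit 323) (nat_lit 178)))) (XT.nd (nat_lit 94) (nat_lit 0) (nat_lit 0) (XT.lf (nat_lit 0) (nat_lit 12215480233) (nat_lit 168) (nat_lit 15857195737) (nat_lit 252) (nat_lit 7948354903) (nat_lit 17) (nat_lit 5) (nat_lit 19) (nat_lit 5) (nat_lit 20) (nat_lit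 5) (nat_lit 388) (nat_lit 323) (nat_lit 177)) (XT.nd (nat_lit 94) (nat_lit 0) (nat_lit 0) (XT.lf (nat_lit 0) (nat_lit 20339518202) (nat_lit 168) (nat_lit 10718442405) (nat_lit 252) (nat_lit 5875306987) (nat_lit 17) (nat_lit 5) (nat_lit 19) (nat_lit 5) (nat_lit 20) (nat_lit 5) (nat_lit 389) (nat_lit 323) (nat_lit 176)) (XT.lf (nat_lit 0) (nat_lit 28710276846) (nat_lit 168) (nat_lit 5421673604) (nat_lit 252) (nat_lit 3741972725) (nat_lit 17) (nat_lit 5) (nat_lit 19) (nat_lit 5) (nat_lit 20) (nat_lit 5) (nat_lit 390) (nat_lit 323) (nat_lit 175))))) (XT.nd (nat_lit 282) (nat_lit 168) (nat_lit 0) (XT.nd (nat_lit 94) (nat_lit 252) (nat_lit 0) (XT.lf (nat_lit 0) (nat_lit 37297888219) (nat_lit 252) (nat_lit 1508693258) (nat_lit 84) (nat_lit 37281229) (nat_lit 17) (nat_lit 5) (nat_lit 20) (nat_lit 5) (nat_lit 18) (nat_lit 5) (nat_lit 391) (nat_lit 323) (nat_lit 174)) (XT.nd (nat_lit 94) (nat_lit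 0) (nat_lit 0) (XT.lf (nat_lit 0) (nat_lit 820641635) (nat_lit 252) (nat_lit 33395417210) (nat_lit 84) (nat_lit 5623982102) (nat_lit 14) (nat_lit 5) (nat_lit 17) (nat_lit 5) (nat_lit 15) (nat_lit 5) (nat_lit 392) (nat_lit 323) (nat_lit 173)) (XT.lf (nat_lit 0) (nat_lit 3240800447) (nat_lit 252) (nat_lit 26211090977) (nat_lit 84) (nat_lit 11414356267) (nat_lit 14) (nat_lit 5) (nat_lit 17) (nat_lit 5) (nat_lit 15) (nat_lit 5) (nat_lit 393) (nat_lit 323) (nat_lit 172)))) (XT.nd (nat_lit 188) (nat_lit 168) (nat_lit 0) (XT.nd (nat_lit 94) (nat_lit 0) (nat_lit 0) (XT.lf (nat_lit 0) (nat_lit 5732475348) (nat_lit 252) (nat_lit 18808883570) (nat_lit 84) (nat_lit 17383034319) (nat_lit 14) (nat_lit 5) (nat_lit 17) (nat_lit 5) (nat_lit 15) (nat_lit 5) (nat_lit 394) (nat_lit 323) (nat_lit 171)) (XT.lf (nat_lit 0) (nat_lit 8297988839) (nat_lit 252) (nat_lit 11181895358) (nat_lit 84) (nat_lit 23535579690)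 (nat_lit 14) (nat_lit 5) (nat_lit 17) (nat_lit 5) (nat_lit 15) (nat_lit 5) (nat_lit 395) (nat_lit 323) (nat_lit 170))) (XT.nd (nat_lit 94) (nat_lit 168) (nat_lit 0) (XT.lf (nat_lit 0) (nat_lit 10939732247) (nat_lit 252) (nat_lit 3323017189) (nat_lit 84) (nat_lit 29877727198) (nat_lit 14) (nat_lit 5) (nat_lit 17) (nat_lit 5) (nat_lit 15) (nat_lit 5) (nat_lit 396) (nat_lit 323) (nat_lit 169)) (XT.lf (nat_lit 0) (nat_lit 4873261595) (nat_lit 168) (nat_lit 8835249717) (nat_lit 252) (nat_lit 31590470151) (nat_lit 12) (nat_lit 5) (nat_lit 14) (nat_lit 5) (nat_lit 15) (nat_lit 5) (nat_lit 397) (nat_lit 323) (nat_lit 168))))))) (XT.nd (nat_lit 1222) (nat_lit 252) (nat_lit 0) (XT.nd (nat_lit 564) (nat_lit 84) (nat_lit 0) (XT.nd (nat_lit 282) (nat_lit 168) (nat_lit 0) (XT.nd (nat_lit 94) (nat_lit 0) (nat_lit 0) (XT.lf (nat_lit 0) (nat_lit 13389705920) (nat_lit 168) (nat_lit 3204953313) (nat_lit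 252) (nat_lit 29897778665) (nat_lit 12) (nat_lit 5) (nat_lit 14) (nat_lit 5) (nat_lit 15) (nat_lit 5) (nat_lit 398) (nat_lit 323) (nat_lit 167)) (XT.nd (nat_lit 94) (nat_lit 0) (nat_lit 0) (XT.lf (nat_lit 0) (nat_lit 19593003082) (nat_lit 252) (nat_lit 25582854780) (nat_lit 84) (nat_lit 2546344258) (nat_lit 12) (nat_lit 5) (nat_lit 15) (nat_lit 5) (nat_lit 13) (nat_lit 5) (nat_lit 399) (nat_lit 323) (nat_lit 166)) (XT.lf (nat_lit 0) (nat_lit 22714101098) (nat_lit 252) (nat_lit 17866842423) (nat_lit 84) (nat_lit 8408236212) (nat_lit 12) (nat_lit 5) (nat_lit 15) (nat_lit 5) (nat_lit 13) (nat_lit 5) (nat_lit 400) (nat_lit 323) (nat_lit 165)))) (XT.nd (nat_lit 94) (nat_lit 168) (nat_lit 0) (XT.lf (nat_lit 0) (nat_lit 25929068935) (nat_lit 252) (nat_lit 9915709245) (nat_lit 84) (nat_lit 14450759112) (nat_lit 12) (nat_lit 5) (nat_lit 15) (nat_lit 5) (nat_lit 13) (nat_lit 5) (nat_lit 401)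 (nat_lit 323) (nat_lit 164)) (XT.nd (nat_lit 94) (nat_lit 168) (nat_lit 0) (XT.lf (nat_lit 0) (nat_lit 29240903282) (nat_lit 252) (nat_lit 1722043954) (nat_lit 84) (nat_lit 20679545222) (nat_lit 12) (nat_lit 5) (nat_lit 15) (nat_lit 5) (nat_lit 13) (nat_lit 5) (nat_lit 402) (nat_lit 323) (nat_lit 163)) (XT.lf (nat_lit 0) (nat_lit 6860004606) (nat_lit 168) (nat_lit 25860738602) (nat_lit 252) (nat_lit 20308447912) (nat_lit 10) (nat_lit 5) (nat_lit 12) (nat_lit 5) (nat_lit 13) (nat_lit 5) (nat_lit 403) (nat_lit 323) (nat_lit 162))))) (XT.nd (nat_lit 282) (nat_lit 84) (nat_lit 0) (XT.nd (nat_lit 94) (nat_lit 0) (nat_lit 0) (XT.lf (nat_lit 0) (nat_lit 15740807759) (nat_lit 168) (nat_lit 20582955577) (nat_lit 252) (nat_lit 18134652629) (nat_lit 10) (nat_lit 5) (nat_lit 12) (nat_lit 5) (nat_lit 13) (nat_lit 5) (nat_lit 404) (nat_lit 323) (nat_lit 161)) (XT.nd (nat_lit 94) (nat_lit 0) (nat_lit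 0) (XT.lf (nat_lit 0) (nat_lit 24893234587) (nat_lit 168) (nat_lit 15142653321) (nat_lit 252) (nat_lit 15896151728) (nat_lit 10) (nat_lit 5) (nat_lit 12) (nat_lit 5) (nat_lit 13) (nat_lit 5) (nat_lit 405) (nat_lit 323) (nat_lit 160)) (XT.lf (nat_lit 0) (nat_lit 34325816111) (nat_lit 168) (nat_lit 9534760903) (nat_lit 252) (nat_lit 13590858694) (nat_lit 10) (nat_lit 5) (nat_lit 12) (nat_lit 5) (nat_lit 13) (nat_lit 5) (nat_lit 406) (nat_lit 323) (nat_lit 159)))) (XT.nd (nat_lit 188) (nat_lit 84) (nat_lit 0) (XT.nd (nat_lit 94) (nat_lit 0) (nat_lit 0) (XT.lf (nat_lit 0) (nat_lit 44047344485) (nat_lit 168) (nat_lit 3754051180) (nat_lit 252) (nat_lit 11216624751) (nat_lit 10) (nat_lit 5) (nat_lit 12) (nat_lit 5) (nat_lit 13) (nat_lit 5) (nat_lit 407) (nat_lit 323) (nat_lit 158)) (XT.lf (nat_lit 0) (nat_lit 51883889641) (nat_lit 252) (nat_lit 6588245314) (nat_lit 84) (nat_lit 2160440976)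 (nat_lit 10) (nat_lit 5) (nat_lit 13) (nat_lit 5) (nat_lit 11) (nat_lit 4) (nat_lit 408) (nat_lit 323) (nat_lit 157))) (XT.nd (nat_lit 94) (nat_lit 0) (nat_lit 0) (XT.lf (nat_lit 0) (nat_lit 2053692217) (nat_lit 84) (nat_lit 54095715578) (nat_lit 168) (nat_lit 6146035546) (nat_lit 9) (nat_lit 5) (nat_lit 10) (nat_lit 5) (nat_lit 11) (nat_lit 4) (nat_lit 409) (nat_lit 323) (nat_lit 156)) (XT.lf (nat_lit 0) (nat_lit 11099900228) (nat_lit 84) (nat_lit 49513759909) (nat_lit 168) (nat_lit 3394148717) (nat_lit 9) (nat_lit 5) (nat_lit 10) (nat_lit 5) (nat_lit 11) (nat_lit 4) (nat_lit 410) (nat_lit 323) (nat_lit 155)))))) (XT.nd (nat_lit 564) (nat_lit 168) (nat_lit 0) (XT.nd (nat_lit 282) (nat_lit 0) (nat_lit 0) (XT.nd (nat_lit 94) (nat_lit 84) (nat_lit 0) (XT.lf (nat_lit 0) (nat_lit 20423342896) (nat_lit 84) (nat_lit 44790764856) (nat_lit 168) (nat_lit 559228525) (nat_lit 9) (nat_lit 5)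 (nat_lit 10) (nat_lit 5) (nat_lit 11) (nat_lit 4) (nat_lit 411) (nat_lit 323) (nat_lit 154)) (XT.nd (nat_lit 94) (nat_lit 0) (nat_lit 0) (XT.lf (nat_lit 0) (nat_lit 2313791179) (nat_lit 168) (nat_lit 37584385677) (nat_lit 84) (nat_lit 27694768231) (nat_lit 8) (nat_lit 5) (nat_lit 10) (nat_lit 5) (nat_lit 9) (nat_lit 5) (nat_lit 412) (nat_lit 323) (nat_lit 153)) (XT.lf (nat_lit 0) (nat_lit 5262160757) (nat_lit 168) (nat_lit 29586824799) (nat_lit 84) (nat_lit 34619873491) (nat_lit 8) (nat_lit 5) (nat_lit 10) (nat_lit 5) (nat_lit 9) (nat_lit 5) (nat_lit 413) (nat_lit 323) (nat_lit 152)))) (XT.nd (nat_lit 94) (nat_lit 0) (nat_lit 0) (XT.lf (nat_lit 0) (nat_lit 8299895606) (nat_lit 168) (nat_lit 21344308566) (nat_lit 84) (nat_lit 41758794506) (nat_lit 8) (nat_lit 5) (nat_lit 10) (nat_lit 5) (nat_lit 9) (nat_lit 5) (nat_lit 414) (nat_lit 323) (nat_lit 151)) (XT.nd (nat_lit 94) (nat_lit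 0) (nat_lit 0) (XT.lf (nat_lit 0) (nat_lit 11429827214) (nat_lit 168) (nat_lit 12849154090) (nat_lit 84) (nat_lit 49118185501) (nat_lit 8) (nat_lit 5) (nat_lit 10) (nat_lit 5) (nat_lit 9) (nat_lit 5) (nat_lit 415) (nat_lit 323) (nat_lit 150)) (XT.lf (nat_lit 0) (nat_lit 14654873003) (nat_lit 168) (nat_lit 4093442996) (nat_lit 84) (nat_lit 56704906197) (nat_lit 8) (nat_lit 5) (nat_lit 10) (nat_lit 5) (nat_lit 9) (nat_lit 5) (nat_lit 416) (nat_lit 323) (nat_lit 149))))) (XT.nd (nat_lit 282) (nat_lit 0) (nat_lit 0) (XT.nd (nat_lit 94) (nat_lit 0) (nat_lit 0) (XT.lf (nat_lit 0) (nat_lit 5032377139) (nat_lit 168) (nat_lit 12995583720) (nat_lit 252) (nat_lit 59543572879) (nat_lit 6) (nat_lit 5) (nat_lit 8) (nat_lit 5) (nat_lit 9) (nat_lit 5) (nat_lit 417) (nat_lit 323) (nat_lit 148)) (XT.nd (nat_lit 94) (nat_lit 0) (nat_lit 0) (XT.lf (nat_lit 0) (nat_lit 14525194780) (nat_lit 168) (nat_lit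 7021319859) (nat_lit 252) (nat_lit 58207738605) (nat_lit 6) (nat_lit 5) (nat_lit 8) (nat_lit 5) (nat_lit 9) (nat_lit 5) (nat_lit 418) (nat_lit 323) (nat_lit 147)) (XT.lf (nat_lit 0) (nat_lit 24309688645) (nat_lit 168) (nat_lit 862682924) (nat_lit 252) (nat_lit 56832328385) (nat_lit 6) (nat_lit 5) (nat_lit 8) (nat_lit 5) (nat_lit 9) (nat_lit 5) (nat_lit 419) (nat_lit 323) (nat_lit 146)))) (XT.nd (nat_lit 188) (nat_lit 0) (nat_lit 0) (XT.nd (nat_lit 94) (nat_lit 0) (nat_lit 0) (XT.lf (nat_lit 0) (nat_lit 28963333798) (nat_lit 252) (nat_lit 49984415084) (nat_lit 84) (nat_lit 5375535541) (nat_lit 6) (nat_lit 5) (nat_lit 9) (nat_lit 5) (nat_lit 7) (nat_lit 4) (nat_lit 420) (nat_lit 323) (nat_lit 145)) (XT.lf (nat_lit 0) (nat_lit 32878964278) (nat_lit 252) (nat_lit 42046112082) (nat_lit 84) (nat_lit 11788454544) (nat_lit 6) (nat_lit 5) (nat_lit 9) (nat_lit 5) (nat_lit 7) (nat_lit 4) (nat_lit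 421) (nat_lit 323) (nat_lit 144))) (XT.nd (nat_lit 94) (nat_lit 0) (nat_lit 0) (XT.lf (nat_lit 0) (nat_lit 36914354865) (nat_lit 252) (nat_lit 33864145054) (nat_lit 84) (nat_lit 18399432734) (nat_lit 6) (nat_lit 5) (nat_lit 9) (nat_lit 5) (nat_lit 7) (nat_lit 4) (nat_lit 422) (nat_lit 323) (nat_lit 143)) (XT.lf (nat_lit 0) (nat_lit 41073266967) (nat_lit 252) (nat_lit 25430887547) (nat_lit 84) (nat_lit 25214632235) (nat_lit 6) (nat_lit 5) (nat_lit 9) (nat_lit 5) (nat_lit 7) (nat_lit 4) (nat_lit 423) (nat_lit 323) (nat_lit 142))))))))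
noncomputable def xc149 : XT := (XT.nd (nat_lit 48034) (nat_lit 0) (nat_lit 2604) (XT.nd (nat_lit 46812) (nat_lit 0) (nat_lit 6468) (XT.nd (nat_lit 564) (nat_lit 0) (nat_lit 0) (XT.nd (nat_lit 282) (nat_lit 0) (nat_lit 0) (XT.nd (nat_lit 94) (nat_lit 84) (nat_lit 0) (XT.lf (nat_lit 0) (nat_lit 45359577124) (nat_lit 252) (nat_lit 16738478884) (nat_lit 84) (nat_lit 32240405528) (nat_lit 6) (nat_lit 5) (nat_lit 9) (nat_lit 5) (nat_lit 7) (nat_lit 4) (nat_lit 424) (nat_lit 323) (nat_lit 141)) (XT.nd (nat_lit 94) (nat_lit 84) (nat_lit 0) (XT.lf (nat_lit 0) (nat_lit 49777280627) (nat_lit 252) (nat_lit 7778816829) (nat_lit 84) (nat_lit 39483301368) (nat_lit 6) (nat_lit 5) (nat_lit 9) (nat_lit 5) (nat_lit 7) (nat_lit 4) (nat_lit 425) (nat_lit 323) (nat_lit 140)) (XT.lf (nat_lit 0) (nat_lit 1486397560) (nat_lit 84) (nat_lit 52858842927) (nat_lit 168) (nat_lit 45478418582) (nat_lit 5) (nat_lit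 5) (nat_lit 6) (nat_lit 5) (nat_lit 7) (nat_lit 4) (nat_lit 426) (nat_lit 323) (nat_lit 139)))) (XT.nd (nat_lit 94) (nat_lit 0) (nat_lit 0) (XT.lf (nat_lit 0) (nat_lit 11201617351) (nat_lit 84) (nat_lit 47932969112) (nat_lit 168) (nat_lit 43557177997) (nat_lit 5) (nat_lit 5) (nat_lit 6) (nat_lit 5) (nat_lit 7) (nat_lit 4) (nat_lit 427) (nat_lit 323) (nat_lit 138)) (XT.nd (nat_lit 94) (nat_lit 0) (nat_lit 0) (XT.lf (nat_lit 0) (nat_lit 21215949718) (nat_lit 84) (nat_lit 42855079475) (nat_lit 168) (nat_lit 41577800539) (nat_lit 5) (nat_lit 5) (nat_lit 6) (nat_lit 5) (nat_lit 7) (nat_lit 4) (nat_lit 428) (nat_lit 323) (nat_lit 137)) (XT.lf (nat_lit 0) (nat_lit 31538729068) (nat_lit 84) (nat_lit 37620440893) (nat_lit 168) (nat_lit 39538441221) (nat_lit 5) (nat_lit 5) (nat_lit 6) (nat_lit 5) (nat_lit 7) (nat_lit 4) (nat_lit 429) (nat_lit 323) (nat_lit 136))))) (XT.nd (nat_lit 45966) (nat_lit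 0) (nat_lit 7308) (XT.nd (nat_lit 45778) (nat_lit 0) (nat_lit 7308) (XT.lf (nat_lit 0) (nat_lit 42179577313) (nat_lit 84) (nat_lit 32224174132) (nat_lit 168) (nat_lit 37437199146) (nat_lit 5) (nat_lit 5) (nat_lit 6) (nat_lit 5) (nat_lit 7) (nat_lit 4) (nat_lit 430) (nat_lit 323) (nat_lit 135)) (XT.nd (nat_lit 94) (nat_lit 0) (nat_lit 0) (XT.lf (nat_lit 0) (nat_lit 3589289839) (nat_lit 924) (nat_lit 767330744) (nat_lit 924) (nat_lit 767330744) (nat_lit 92) (nat_lit 3) (nat_lit 103) (nat_lit 3) (nat_lit 103) (nat_lit 5) (nat_lit 324) (nat_lit 324) (nat_lit 240)) (XT.lf (nat_lit 84) (nat_lit 1862890222) (nat_lit 0) (nat_lit 5954552966) (nat_lit 924) (nat_lit 2569007855) (nat_lit 93) (nat_lit 5) (nat_lit 92) (nat_lit 3) (nat_lit 103) (nat_lit 5) (nat_lit 325) (nat_lit 324) (nat_lit 239)))) (XT.nd (nat_lit 94) (nat_lit 0) (nat_lit 0) (XT.lf (nat_lit 84) (nat_lit 5387426088) (nat_lit 0)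 (nat_lit 3084081143) (nat_lit 924) (nat_lit 2058088639) (nat_lit 93) (nat_lit 5) (nat_lit 92) (nat_lit 3) (nat_lit 103) (nat_lit 5) (nat_lit 326) (nat_lit 324) (nat_lit 238)) (XT.nd (nat_lit 94) (nat_lit 0) (nat_lit 84) (XT.lf (nat_lit 84) (nat_lit 9010675557) (nat_lit 0) (nat_lit 115168838) (nat_lit 924) (nat_lit 1552107818) (nat_lit 93) (nat_lit 5) (nat_lit 92) (nat_lit 3) (nat_lit 103) (nat_lit 5) (nat_lit 327) (nat_lit 324) (nat_lit 237)) (XT.lf (nat_lit 84) (nat_lit 1913598787) (nat_lit 0) (nat_lit 7915762423) (nat_lit 924) (nat_lit 1000799951) (nat_lit 94) (nat_lit 5) (nat_lit 93) (nat_lit 5) (nat_lit 104) (nat_lit 5) (nat_lit 328) (nat_lit 324) (nat_lit 236)))))) (XT.nd (nat_lit 564) (nat_lit 0) (nat_lit 168) (XT.nd (nat_lit 282) (nat_lit 0) (nat_lit 84) (XT.nd (nat_lit 94) (nat_lit 924) (nat_lit 0) (XT.lf (nat_lit 84) (nat_lit 5628665105) (nat_lit 0) (nat_lit 4925752338)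 (nat_lit 924) (nat_lit 432824322) (nat_lit 94) (nat_lit 5) (nat_lit 93) (nat_lit 5) (nat_lit 104) (nat_lit 5) (nat_lit 329) (nat_lit 324) (nat_lit 235)) (XT.nd (nat_lit 94) (nat_lit 0) (nat_lit 84) (XT.lf (nat_lit 0) (nat_lit 131084193) (nat_lit 924) (nat_lit 1702957396) (nat_lit 1008) (nat_lit 9315816038) (nat_lit 82) (nat_lit 5) (nat_lit 93) (nat_lit 5) (nat_lit 94) (nat_lit 5) (nat_lit 330) (nat_lit 324) (nat_lit 234)) (XT.lf (nat_lit 0) (nat_lit 719963893) (nat_lit 924) (nat_lit 9238267908) (nat_lit 1008) (nat_lit 1358766789) (nat_lit 83) (nat_lit 5) (nat_lit 94) (nat_lit 5) (nat_lit 95) (nat_lit 5) (nat_lit 331) (nat_lit 324) (nat_lit 233)))) (XT.nd (nat_lit 94) (nat_lit 0) (nat_lit 0) (XT.lf (nat_lit 0) (nat_lit 1346281112) (nat_lit 924) (nat_lit 5505402891) (nat_lit 1008) (nat_lit 4637170444) (nat_lit 83) (nat_lit 5) (nat_lit 94) (nat_lit 5) (nat_lit 95) (nat_lit 5) (nat_lit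 332) (nat_lit 324) (nat_lit 232)) (XT.nd (nat_lit 94) (nat_lit 0) (nat_lit 0) (XT.lf (nat_lit 0) (nat_lit 1975008474) (nat_lit 924) (nat_lit 1667921064) (nat_lit 1008) (nat_lit 8023759791) (nat_lit 83) (nat_lit 5) (nat_lit 94) (nat_lit 5) (nat_lit 95) (nat_lit 5) (nat_lit 333) (nat_lit 324) (nat_lit 231)) (XT.lf (nat_lit 84) (nat_lit 2324589812) (nat_lit 0) (nat_lit 305202426) (nat_lit 1008) (nat_lit 9220161893) (nat_lit 84) (nat_lit 5) (nat_lit 83) (nat_lit 5) (nat_lit 95) (nat_lit 5) (nat_lit 334) (nat_lit 324) (nat_lit 230))))) (XT.nd (nat_lit 282) (nat_lit 0) (nat_lit 84) (XT.nd (nat_lit 94) (nat_lit 0) (nat_lit 0) (XT.lf (nat_lit 0) (nat_lit 3337521346) (nat_lit 924) (nat_lit 5604749749) (nat_lit 1008) (nat_lit 3095733943) (nat_lit 84) (nat_lit 5) (nat_lit 95) (nat_lit 5) (nat_lit 96) (nat_lit 5) (nat_lit 335) (nat_lit 324) (nat_lit 229)) (XT.nd (nat_lit 94) (nat_lit 0) (nat_lit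 0) (XT.lf (nat_lit 0) (nat_lit 4054744014) (nat_lit 924) (nat_lit 1576706350) (nat_lit 1008) (nat_lit 6600934425) (nat_lit 84) (nat_lit 5) (nat_lit 95) (nat_lit 5) (nat_lit 96) (nat_lit 5) (nat_lit 336) (nat_lit 324) (nat_lit 228)) (XT.lf (nat_lit 84) (nat_lit 2618301011) (nat_lit 0) (nat_lit 2186773980) (nat_lit 1008) (nat_lit 7627488241) (nat_lit 85) (nat_lit 5) (nat_lit 84) (nat_lit 5) (nat_lit 96) (nat_lit 5) (nat_lit 337) (nat_lit 324) (nat_lit 227)))) (XT.nd (nat_lit 188) (nat_lit 0) (nat_lit 0) (XT.nd (nat_lit 94) (nat_lit 0) (nat_lit 0) (XT.lf (nat_lit 0) (nat_lit 5594121547) (nat_lit 924) (nat_lit 5686520307) (nat_lit 1008) (nat_lit 1357932956) (nat_lit 85) (nat_lit 5) (nat_lit 96) (nat_lit 5) (nat_lit 97) (nat_lit 5) (nat_lit 338) (nat_lit 324) (nat_lit 226)) (XT.lf (nat_lit 0) (nat_lit 6415727899) (nat_lit 924) (nat_lit 1464004550) (nat_lit 1008) (nat_lit 4971092730) (nat_lit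 85) (nat_lit 5) (nat_lit 96) (nat_lit 5) (nat_lit 97) (nat_lit 5) (nat_lit 339) (nat_lit 324) (nat_lit 225))) (XT.nd (nat_lit 94) (nat_lit 0) (nat_lit 0) (XT.lf (nat_lit 84) (nat_lit 2938110320) (nat_lit 0) (nat_lit 4340002899) (nat_lit 1008) (nat_lit 5791167902) (nat_lit 86) (nat_lit 5) (nat_lit 85) (nat_lit 5) (nat_lit 97) (nat_lit 5) (nat_lit 340) (nat_lit 324) (nat_lit 224)) (XT.lf (nat_lit 84) (nat_lit 7497337885) (nat_lit 0) (nat_lit 671651556) (nat_lit 1008) (nat_lit 5125562671) (nat_lit 86) (nat_lit 5) (nat_lit 85) (nat_lit 5) (nat_lit 97) (nat_lit 5) (nat_lit 341) (nat_lit 324) (nat_lit 223))))))) (XT.nd (nat_lit 1222) (nat_lit 1596) (nat_lit 0) (XT.nd (nat_lit 564) (nat_lit 1008) (nat_lit 0) (XT.nd (nat_lit 282) (nat_lit 672) (nat_lit 0) (XT.nd (nat_lit 94) (nat_lit 924) (nat_lit 0) (XT.lf (nat_lit 0) (nat_lit 9105251128) (nat_lit 924) (nat_lit 1370368621) (nat_lit 84)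 (nat_lit 3050730388) (nat_lit 86) (nat_lit 5) (nat_lit 97) (nat_lit 5) (nat_lit 87) (nat_lit 5) (nat_lit 342) (nat_lit 324) (nat_lit 222)) (XT.nd (nat_lit 94) (nat_lit 0) (nat_lit 0) (XT.lf (nat_lit 0) (nat_lit 3241867257) (nat_lit 924) (nat_lit 6855004884) (nat_lit 1008) (nat_lit 3667736979) (nat_lit 75) (nat_lit 5) (nat_lit 86) (nat_lit 5) (nat_lit 87) (nat_lit 5) (nat_lit 343) (nat_lit 324) (nat_lit 221)) (XT.lf (nat_lit 0) (nat_lit 8015948782) (nat_lit 924) (nat_lit 3105175181) (nat_lit 1008) (nat_lit 2889160416) (nat_lit 75) (nat_lit 5) (nat_lit 86) (nat_lit 5) (nat_lit 87) (nat_lit 5) (nat_lit 344) (nat_lit 324) (nat_lit 220)))) (XT.nd (nat_lit 94) (nat_lit 672) (nat_lit 0) (XT.lf (nat_lit 0) (nat_lit 12172657212) (nat_lit 1008) (nat_lit 1343456348) (nat_lit 84) (nat_lit 747686779) (nat_lit 75) (nat_lit 5) (nat_lit 87) (nat_lit 5) (nat_lit 76) (nat_lit 5) (nat_lit 345) (nat_lit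 324) (nat_lit 219)) (XT.nd (nat_lit 94) (nat_lit 0) (nat_lit 0) (XT.lf (nat_lit 0) (nat_lit 3479905961) (nat_lit 672) (nat_lit 9831504543) (nat_lit 756) (nat_lit 1212155085) (nat_lit 67) (nat_lit 5) (nat_lit 75) (nat_lit 5) (nat_lit 76) (nat_lit 5) (nat_lit 346) (nat_lit 324) (nat_lit 218)) (XT.lf (nat_lit 0) (nat_lit 8471326888) (nat_lit 672) (nat_lit 6016755809) (nat_lit 756) (nat_lit 303300801) (nat_lit 67) (nat_lit 5) (nat_lit 75) (nat_lit 5) (nat_lit 76) (nat_lit 5) (nat_lit 347) (nat_lit 324) (nat_lit 217))))) (XT.nd (nat_lit 282) (nat_lit 420) (nat_lit 0) (XT.nd (nat_lit 94) (nat_lit 504) (nat_lit 0) (XT.lf (nat_lit 0) (nat_lit 609707113) (nat_lit 756) (nat_lit 1466263336) (nat_lit 84) (nat_lit 12991763536) (nat_lit 66) (nat_lit 5) (nat_lit 75) (nat_lit 5) (nat_lit 67) (nat_lit 5) (nat_lit 348) (nat_lit 324) (nat_lit 216)) (XT.nd (nat_lit 94) (nat_lit 0) (nat_lit 0) (XT.lf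 (nat_lit 0) (nat_lit 1589613907) (nat_lit 588) (nat_lit 11774255251) (nat_lit 84) (nat_lit 1987368226) (nat_lit 60) (nat_lit 5) (nat_lit 67) (nat_lit 5) (nat_lit 61) (nat_lit 5) (nat_lit 349) (nat_lit 324) (nat_lit 215)) (XT.lf (nat_lit 0) (nat_lit 2625921617) (nat_lit 588) (nat_lit 6866763258) (nat_lit 84) (nat_lit 6150109536) (nat_lit 60) (nat_lit 5) (nat_lit 67) (nat_lit 5) (nat_lit 61) (nat_lit 5) (nat_lit 350) (nat_lit 324) (nat_lit 214)))) (XT.nd (nat_lit 188) (nat_lit 0) (nat_lit 0) (XT.nd (nat_lit 94) (nat_lit 420) (nat_lit 0) (XT.lf (nat_lit 0) (nat_lit 3684005881) (nat_lit 588) (nat_lit 1816810900) (nat_lit 84) (nat_lit 10442963342) (nat_lit 60) (nat_lit 5) (nat_lit 67) (nat_lit 5) (nat_lit 61) (nat_lit 5) (nat_lit 351) (nat_lit 324) (nat_lit 213)) (XT.lf (nat_lit 0) (nat_lit 3449814988) (nat_lit 420) (nat_lit 1349260548) (nat_lit 504) (nat_lit 11454338639) (nat_lit 55)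 (nat_lit 5) (nat_lit 60) (nat_lit 5) (nat_lit 61) (nat_lit 5) (nat_lit 352) (nat_lit 324) (nat_lit 212))) (XT.nd (nat_lit 94) (nat_lit 0) (nat_lit 0) (XT.lf (nat_lit 0) (nat_lit 5987123170) (nat_lit 504) (nat_lit 7692768694) (nat_lit 84) (nat_lit 2891629763) (nat_lit 55) (nat_lit 5) (nat_lit 61) (nat_lit 5) (nat_lit 56) (nat_lit 5) (nat_lit 353) (nat_lit 324) (nat_lit 211)) (XT.lf (nat_lit 0) (nat_lit 7216272651) (nat_lit 504) (nat_lit 2446673339) (nat_lit 84) (nat_lit 7236475485) (nat_lit 55) (nat_lit 5) (nat_lit 61) (nat_lit 5) (nat_lit 56) (nat_lit 5) (nat_lit 354) (nat_lit 324) (nat_lit 210)))))) (XT.nd (nat_lit 564) (nat_lit 840) (nat_lit 0) (XT.nd (nat_lit 282) (nat_lit 336) (nat_lit 0) (XT.nd (nat_lit 94) (nat_lit 0) (nat_lit 0) (XT.lf (nat_lit 0) (nat_lit 3013680565) (nat_lit 420) (nat_lit 5490500364) (nat_lit 504) (nat_lit 8732726581) (nat_lit 50) (nat_lit 5) (nat_lit 55)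 (nat_lit 5) (nat_lit 56) (nat_lit 5) (nat_lit 355) (nat_lit 324) (nat_lit 209)) (XT.nd (nat_lit 94) (nat_lit 0) (nat_lit 0) (XT.lf (nat_lit 0) (nat_lit 8686176300) (nat_lit 420) (nat_lit 1162323995) (nat_lit 504) (nat_lit 7735904001) (nat_lit 50) (nat_lit 5) (nat_lit 55) (nat_lit 5) (nat_lit 56) (nat_lit 5) (nat_lit 356) (nat_lit 324) (nat_lit 208)) (XT.lf (nat_lit 0) (nat_lit 11258450618) (nat_lit 504) (nat_lit 3449948211) (nat_lit 84) (nat_lit 3233589936) (nat_lit 50) (nat_lit 5) (nat_lit 56) (nat_lit 5) (nat_lit 51) (nat_lit 5) (nat_lit 357) (nat_lit 324) (nat_lit 207)))) (XT.nd (nat_lit 94) (nat_lit 0) (nat_lit 0) (XT.lf (nat_lit 0) (nat_lit 2190692859) (nat_lit 336) (nat_lit 10546520703) (nat_lit 420) (nat_lit 5572722771) (nat_lit 46) (nat_lit 5) (nat_lit 50) (nat_lit 5) (nat_lit 51) (nat_lit 5) (nat_lit 358) (nat_lit 324) (nat_lit 206)) (XT.nd (nat_lit 94) (nat_lit 0) (nat_lit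 0) (XT.lf (nat_lit 0) (nat_lit 8070634708) (nat_lit 336) (nat_lit 6218847991) (nat_lit 420) (nat_lit 4399004497) (nat_lit 46) (nat_lit 5) (nat_lit 50) (nat_lit 5) (nat_lit 51) (nat_lit 5) (nat_lit 359) (nat_lit 324) (nat_lit 205)) (XT.lf (nat_lit 0) (nat_lit 14124420044) (nat_lit 336) (nat_lit 1757357232) (nat_lit 420) (nat_lit 3197299680) (nat_lit 46) (nat_lit 5) (nat_lit 50) (nat_lit 5) (nat_lit 51) (nat_lit 5) (nat_lit 360) (nat_lit 324) (nat_lit 204))))) (XT.nd (nat_lit 282) (nat_lit 336) (nat_lit 0) (XT.nd (nat_lit 94) (nat_lit 84) (nat_lit 0) (XT.lf (nat_lit 0) (nat_lit 864852714) (nat_lit 420) (nat_lit 16687502298) (nat_lit 504) (nat_lit 1928574695) (nat_lit 41) (nat_lit 5) (nat_lit 46) (nat_lit 5) (nat_lit 47) (nat_lit 5) (nat_lit 361) (nat_lit 324) (nat_lit 203)) (XT.nd (nat_lit 94) (nat_lit 84) (nat_lit 0) (XT.lf (nat_lit 0) (nat_lit 6943073322) (nat_lit 420) (nat_lit 12393453660)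 (nat_lit 504) (nat_lit 556846662) (nat_lit 41) (nat_lit 5) (nat_lit 46) (nat_lit 5) (nat_lit 47) (nat_lit 5) (nat_lit 362) (nat_lit 324) (nat_lit 202)) (XT.lf (nat_lit 0) (nat_lit 832536238) (nat_lit 504) (nat_lit 7125727650) (nat_lit 84) (nat_lit 12360357996) (nat_lit 40) (nat_lit 5) (nat_lit 46) (nat_lit 5) (nat_lit 41) (nat_lit 5) (nat_lit 363) (nat_lit 324) (nat_lit 201)))) (XT.nd (nat_lit 188) (nat_lit 0) (nat_lit 0) (XT.nd (nat_lit 94) (nat_lit 336) (nat_lit 0) (XT.lf (nat_lit 0) (nat_lit 2246057425) (nat_lit 504) (nat_lit 1134375276) (nat_lit 84) (nat_lit 17376717291) (nat_lit 40) (nat_lit 5) (nat_lit 46) (nat_lit 5) (nat_lit 41) (nat_lit 5) (nat_lit 364) (nat_lit 324) (nat_lit 200)) (XT.lf (nat_lit 0) (nat_lit 3761027690) (nat_lit 420) (nat_lit 16083365812) (nat_lit 84) (nat_lit 1363136472) (nat_lit 36) (nat_lit 5) (nat_lit 41) (nat_lit 5) (nat_lit 37) (nat_lit 5) (nat_lit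 365) (nat_lit 324) (nat_lit 199))) (XT.nd (nat_lit 94) (nat_lit 0) (nat_lit 0) (XT.lf (nat_lit 0) (nat_lit 5362483726) (nat_lit 420) (nat_lit 10113449808) (nat_lit 84) (nat_lit 6194755735) (nat_lit 36) (nat_lit 5) (nat_lit 41) (nat_lit 5) (nat_lit 37) (nat_lit 5) (nat_lit 366) (nat_lit 324) (nat_lit 198)) (XT.lf (nat_lit 0) (nat_lit 7006781955) (nat_lit 420) (nat_lit 3966242003) (nat_lit 84) (nat_lit 11175434855) (nat_lit 36) (nat_lit 5) (nat_lit 41) (nat_lit 5) (nat_lit 37) (nat_lit 5) (nat_lit 367) (nat_lit 324) (nat_lit 197))))))))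
noncomputable def xc150 : XT := (XT.nd (nat_lit 2350) (nat_lit 924) (nat_lit 0) (XT.nd (nat_lit 1128) (nat_lit 420) (nat_lit 0) (XT.nd (nat_lit 564) (nat_lit 588) (nat_lit 0) (XT.nd (nat_lit 282) (nat_lit 252) (nat_lit 0) (XT.nd (nat_lit 94) (nat_lit 0) (nat_lit 0) (XT.lf (nat_lit 0) (nat_lit 2412595874) (nat_lit 336) (nat_lit 6306792411) (nat_lit 420) (nat_lit 13921153724) (nat_lit 32) (nat_lit 5) (nat_lit 36) (nat_lit 5) (nat_lit 37) (nat_lit 5) (nat_lit 368) (nat_lit 324) (nat_lit 196)) (XT.nd (nat_lit 94) (nat_lit 0) (nat_lit 0) (XT.lf (nat_lit 0) (nat_lit 9065794527) (nat_lit 336) (nat_lit 1454216265) (nat_lit 420) (nat_lit 12626825273) (nat_lit 32) (nat_lit 5) (nat_lit 36) (nat_lit 5) (nat_lit 37) (nat_lit 5) (nat_lit 369) (nat_lit 324) (nat_lit 195)) (XT.lf (nat_lit 0) (nat_lit 12405368101) (nat_lit 420) (nat_lit 7786251226) (nat_lit 84) (nat_lit 3476347324) (nat_lit 32) (nat_lit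 5) (nat_lit 37) (nat_lit 5) (nat_lit 33) (nat_lit 5) (nat_lit 370) (nat_lit 324) (nat_lit 194)))) (XT.nd (nat_lit 94) (nat_lit 252) (nat_lit 0) (XT.lf (nat_lit 0) (nat_lit 14357944864) (nat_lit 420) (nat_lit 1318435095) (nat_lit 84) (nat_lit 8528637013) (nat_lit 32) (nat_lit 5) (nat_lit 37) (nat_lit 5) (nat_lit 33) (nat_lit 5) (nat_lit 371) (nat_lit 324) (nat_lit 193)) (XT.nd (nat_lit 94) (nat_lit 0) (nat_lit 0) (XT.lf (nat_lit 0) (nat_lit 5452721733) (nat_lit 252) (nat_lit 10966505022) (nat_lit 336) (nat_lit 8338031222) (nat_lit 29) (nat_lit 5) (nat_lit 32) (nat_lit 5) (nat_lit 33) (nat_lit 5) (nat_lit 372) (nat_lit 324) (nat_lit 192)) (XT.lf (nat_lit 0) (nat_lit 12454783849) (nat_lit 252) (nat_lit 6097578811) (nat_lit 336) (nat_lit 6774043698) (nat_lit 29) (nat_lit 5) (nat_lit 32) (nat_lit 5) (nat_lit 33) (nat_lit 5) (nat_lit 373) (nat_lit 324) (nat_lit 191))))) (XT.nd (nat_lit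 282) (nat_lit 336) (nat_lit 0) (XT.nd (nat_lit 94) (nat_lit 252) (nat_lit 0) (XT.lf (nat_lit 0) (nat_lit 19667168180) (nat_lit 252) (nat_lit 1078824734) (nat_lit 336) (nat_lit 5167413495) (nat_lit 29) (nat_lit 5) (nat_lit 32) (nat_lit 5) (nat_lit 33) (nat_lit 5) (nat_lit 374) (nat_lit 324) (nat_lit 190)) (XT.nd (nat_lit 94) (nat_lit 0) (nat_lit 0) (XT.lf (nat_lit 0) (nat_lit 548220257) (nat_lit 252) (nat_lit 22499997670) (nat_lit 336) (nat_lit 3469159621) (nat_lit 26) (nat_lit 5) (nat_lit 29) (nat_lit 5) (nat_lit 30) (nat_lit 5) (nat_lit 375) (nat_lit 324) (nat_lit 189)) (XT.lf (nat_lit 0) (nat_lit 7667801198) (nat_lit 252) (nat_lit 17824755110) (nat_lit 336) (nat_lit 1645353878) (nat_lit 26) (nat_lit 5) (nat_lit 29) (nat_lit 5) (nat_lit 30) (nat_lit 5) (nat_lit 376) (nat_lit 324) (nat_lit 188)))) (XT.nd (nat_lit 94) (nat_lit 252) (nat_lit 0) (XT.lf (nat_lit 0) (nat_lit 224958062)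 (nat_lit 336) (nat_lit 12778521543) (nat_lit 84) (nat_lit 14774321287) (nat_lit 25) (nat_lit 5) (nat_lit 29) (nat_lit 5) (nat_lit 26) (nat_lit 5) (nat_lit 377) (nat_lit 324) (nat_lit 187)) (XT.nd (nat_lit 94) (nat_lit 252) (nat_lit 0) (XT.lf (nat_lit 0) (nat_lit 2113933823) (nat_lit 336) (nat_lit 5902724757) (nat_lit 84) (nat_lit 20420535952) (nat_lit 25) (nat_lit 5) (nat_lit 29) (nat_lit 5) (nat_lit 26) (nat_lit 5) (nat_lit 378) (nat_lit 324) (nat_lit 186)) (XT.lf (nat_lit 0) (nat_lit 1204275920) (nat_lit 252) (nat_lit 2864154987) (nat_lit 336) (nat_lit 25048410465) (nat_lit 22) (nat_lit 5) (nat_lit 25) (nat_lit 5) (nat_lit 26) (nat_lit 5) (nat_lit 379) (nat_lit 324) (nat_lit 185)))))) (XT.nd (nat_lit 564) (nat_lit 168) (nat_lit 0) (XT.nd (nat_lit 282) (nat_lit 252) (nat_lit 0) (XT.nd (nat_lit 94) (nat_lit 0) (nat_lit 0) (XT.lf (nat_lit 0) (nat_lit 6165138070) (nat_lit 336) (nat_lit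 21190147117) (nat_lit 84) (nat_lit 2459768850) (nat_lit 22) (nat_lit 5) (nat_lit 26) (nat_lit 5) (nat_lit 23) (nat_lit 5) (nat_lit 380) (nat_lit 324) (nat_lit 184)) (XT.nd (nat_lit 94) (nat_lit 0) (nat_lit 0) (XT.lf (nat_lit 0) (nat_lit 8351377227) (nat_lit 336) (nat_lit 14294750320) (nat_lit 84) (nat_lit 7888049394) (nat_lit 22) (nat_lit 5) (nat_lit 26) (nat_lit 5) (nat_lit 23) (nat_lit 5) (nat_lit 381) (nat_lit 324) (nat_lit 183)) (XT.lf (nat_lit 0) (nat_lit 10600773411) (nat_lit 336) (nat_lit 7191535058) (nat_lit 84) (nat_lit 13483452710) (nat_lit 22) (nat_lit 5) (nat_lit 26) (nat_lit 5) (nat_lit 23) (nat_lit 5) (nat_lit 382) (nat_lit 324) (nat_lit 182)))) (XT.nd (nat_lit 94) (nat_lit 0) (nat_lit 0) (XT.lf (nat_lit 0) (nat_lit 128712887) (nat_lit 252) (nat_lit 12787987254) (nat_lit 336) (nat_lit 19123758260) (nat_lit 19) (nat_lit 5) (nat_lit 22) (nat_lit 5) (nat_lit 23) (nat_lit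 5) (nat_lit 383) (nat_lit 324) (nat_lit 181)) (XT.nd (nat_lit 94) (nat_lit 0) (nat_lit 0) (XT.lf (nat_lit 0) (nat_lit 7822643335) (nat_lit 252) (nat_lit 7552442627) (nat_lit 336) (nat_lit 17451608557) (nat_lit 19) (nat_lit 5) (nat_lit 22) (nat_lit 5) (nat_lit 23) (nat_lit 5) (nat_lit 384) (nat_lit 324) (nat_lit 180)) (XT.lf (nat_lit 0) (nat_lit 15749555122) (nat_lit 252) (nat_lit 2155859389) (nat_lit 336) (nat_lit 15732044920) (nat_lit 19) (nat_lit 5) (nat_lit 22) (nat_lit 5) (nat_lit 23) (nat_lit 5) (nat_lit 385) (nat_lit 324) (nat_lit 179))))) (XT.nd (nat_lit 282) (nat_lit 0) (nat_lit 0) (XT.nd (nat_lit 94) (nat_lit 168) (nat_lit 0) (XT.lf (nat_lit 0) (nat_lit 20543840128) (nat_lit 336) (nat_lit 10590467699) (nat_lit 84) (nat_lit 3338153359) (nat_lit 19) (nat_lit 5) (nat_lit 23) (nat_lit 5) (nat_lit 20) (nat_lit 5) (nat_lit 386) (nat_lit 324) (nat_lit 178)) (XT.nd (nat_lit 94)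 (nat_lit 168) (nat_lit 0) (XT.lf (nat_lit 0) (nat_lit 23282080043) (nat_lit 336) (nat_lit 3094197322) (nat_lit 84) (nat_lit 8956533731) (nat_lit 19) (nat_lit 5) (nat_lit 23) (nat_lit 5) (nat_lit 20) (nat_lit 5) (nat_lit 387) (nat_lit 324) (nat_lit 177)) (XT.lf (nat_lit 0) (nat_lit 4724468023) (nat_lit 168) (nat_lit 21423699476) (nat_lit 252) (nat_lit 10070353689) (nat_lit 17) (nat_lit 5) (nat_lit 19) (nat_lit 5) (nat_lit 20) (nat_lit 5) (nat_lit 388) (nat_lit 324) (nat_lit 176)))) (XT.nd (nat_lit 188) (nat_lit 0) (nat_lit 0) (XT.nd (nat_lit 94) (nat_lit 0) (nat_lit 0) (XT.lf (nat_lit 0) (nat_lit 12845982850) (nat_lit 168) (nat_lit 16285579273) (nat_lit 252) (nat_lit 7999264483) (nat_lit 17) (nat_lit 5) (nat_lit 19) (nat_lit 5) (nat_lit 20) (nat_lit 5) (nat_lit 389) (nat_lit 324) (nat_lit 175)) (XT.lf (nat_lit 0) (nat_lit 21214294217) (nat_lit 168) (nat_lit 10989424564) (nat_lit 252)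 (nat_lit 5867830038) (nat_lit 17) (nat_lit 5) (nat_lit 19) (nat_lit 5) (nat_lit 20) (nat_lit 5) (nat_lit 390) (nat_lit 324) (nat_lit 174))) (XT.nd (nat_lit 94) (nat_lit 0) (nat_lit 0) (XT.lf (nat_lit 0) (nat_lit 29837202267) (nat_lit 168) (nat_lit 5530298778) (nat_lit 252) (nat_lit 3674063632) (nat_lit 17) (nat_lit 5) (nat_lit 19) (nat_lit 5) (nat_lit 20) (nat_lit 5) (nat_lit 391) (nat_lit 324) (nat_lit 173)) (XT.lf (nat_lit 0) (nat_lit 38626819019) (nat_lit 252) (nat_lit 1319995012) (nat_lit 84) (nat_lit 94934512) (nat_lit 17) (nat_lit 5) (nat_lit 20) (nat_lit 5) (nat_lit 18) (nat_lit 5) (nat_lit 392) (nat_lit 324) (nat_lit 172))))))) (XT.nd (nat_lit 1222) (nat_lit 336) (nat_lit 0) (XT.nd (nat_lit 564) (nat_lit 168) (nat_lit 0) (XT.nd (nat_lit 282) (nat_lit 168) (nat_lit 0) (XT.nd (nat_lit 94) (nat_lit 0) (nat_lit 0) (XT.lf (nat_lit 0) (nat_lit 1018508881) (nat_lit 252) (nat_lit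 34193180036) (nat_lit 84) (nat_lit 5857182241) (nat_lit 14) (nat_lit 5) (nat_lit 17) (nat_lit 5) (nat_lit 15) (nat_lit 5) (nat_lit 393) (nat_lit 324) (nat_lit 171)) (XT.nd (nat_lit 94) (nat_lit 0) (nat_lit 0) (XT.lf (nat_lit 0) (nat_lit 3508508089) (nat_lit 252) (nat_lit 26793280667) (nat_lit 84) (nat_lit 11825288309) (nat_lit 14) (nat_lit 5) (nat_lit 17) (nat_lit 5) (nat_lit 15) (nat_lit 5) (nat_lit 394) (nat_lit 324) (nat_lit 170)) (XT.lf (nat_lit 0) (nat_lit 6072396272) (nat_lit 252) (nat_lit 19168531094) (nat_lit 84) (nat_lit 17977278894) (nat_lit 14) (nat_lit 5) (nat_lit 17) (nat_lit 5) (nat_lit 15) (nat_lit 5) (nat_lit 395) (nat_lit 324) (nat_lit 169)))) (XT.nd (nat_lit 94) (nat_lit 168) (nat_lit 0) (XT.lf (nat_lit 0) (nat_lit 8712563242) (nat_lit 252) (nat_lit 11311824254) (nat_lit 84) (nat_lit 24318888297) (nat_lit 14) (nat_lit 5) (nat_lit 17) (nat_lit 5) (nat_lit 15) (nat_lit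 5) (nat_lit 396) (nat_lit 324) (nat_lit 168)) (XT.nd (nat_lit 94) (nat_lit 168) (nat_lit 0) (XT.lf (nat_lit 0) (nat_lit 11431469911) (nat_lit 252) (nat_lit 3215836871) (nat_lit 84) (nat_lit 30856027562) (nat_lit 14) (nat_lit 5) (nat_lit 17) (nat_lit 5) (nat_lit 15) (nat_lit 5) (nat_lit 397) (nat_lit 324) (nat_lit 167)) (XT.lf (nat_lit 0) (nat_lit 5232398532) (nat_lit 168) (nat_lit 9051158094) (nat_lit 252) (nat_lit 32414297496) (nat_lit 12) (nat_lit 5) (nat_lit 14) (nat_lit 5) (nat_lit 15) (nat_lit 5) (nat_lit 398) (nat_lit 324) (nat_lit 166))))) (XT.nd (nat_lit 282) (nat_lit 168) (nat_lit 0) (XT.nd (nat_lit 94) (nat_lit 0) (nat_lit 0) (XT.lf (nat_lit 0) (nat_lit 14006596529) (nat_lit 168) (nat_lit 3248065968) (nat_lit 252) (nat_lit 30673807448) (nat_lit 12) (nat_lit 5) (nat_lit 14) (nat_lit 5) (nat_lit 15) (nat_lit 5) (nat_lit 399) (nat_lit 324) (nat_lit 165)) (XT.nd (nat_lit 94)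 (nat_lit 0) (nat_lit 0) (XT.lf (nat_lit 0) (nat_lit 20342119200) (nat_lit 252) (nat_lit 26175646521) (nat_lit 84) (nat_lit 2678731724) (nat_lit 12) (nat_lit 5) (nat_lit 15) (nat_lit 5) (nat_lit 13) (nat_lit 5) (nat_lit 400) (nat_lit 324) (nat_lit 164)) (XT.lf (nat_lit 0) (nat_lit 23555709640) (nat_lit 252) (nat_lit 18226459682) (nat_lit 84) (nat_lit 8720735176) (nat_lit 12) (nat_lit 5) (nat_lit 15) (nat_lit 5) (nat_lit 13) (nat_lit 5) (nat_lit 401) (nat_lit 324) (nat_lit 163)))) (XT.nd (nat_lit 188) (nat_lit 168) (nat_lit 0) (XT.nd (nat_lit 94) (nat_lit 0) (nat_lit 0) (XT.lf (nat_lit 0) (nat_lit 26866208005) (nat_lit 252) (nat_lit 10034682210) (nat_lit 84) (nat_lit 14949017456) (nat_lit 12) (nat_lit 5) (nat_lit 15) (nat_lit 5) (nat_lit 13) (nat_lit 5) (nat_lit 402) (nat_lit 324) (nat_lit 162)) (XT.lf (nat_lit 0) (nat_lit 30276700025) (nat_lit 252) (nat_lit 1592678508) (nat_lit 84)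 (nat_lit 21369383977) (nat_lit 12) (nat_lit 5) (nat_lit 15) (nat_lit 5) (nat_lit 13) (nat_lit 5) (nat_lit 403) (nat_lit 324) (nat_lit 161))) (XT.nd (nat_lit 94) (nat_lit 0) (nat_lit 0) (XT.lf (nat_lit 0) (nat_lit 7253563390) (nat_lit 168) (nat_lit 26608757493) (nat_lit 252) (nat_lit 20806212050) (nat_lit 10) (nat_lit 5) (nat_lit 12) (nat_lit 5) (nat_lit 13) (nat_lit 5) (nat_lit 404) (nat_lit 324) (nat_lit 160)) (XT.lf (nat_lit 0) (nat_lit 16404232199) (nat_lit 168) (nat_lit 21168976758) (nat_lit 252) (nat_lit 18568991993) (nat_lit 10) (nat_lit 5) (nat_lit 12) (nat_lit 5) (nat_lit 13) (nat_lit 5) (nat_lit 405) (nat_lit 324) (nat_lit 159)))))) (XT.nd (nat_lit 564) (nat_lit 252) (nat_lit 0) (XT.nd (nat_lit 282) (nat_lit 84) (nat_lit 0) (XT.nd (nat_lit 94) (nat_lit 0) (nat_lit 0) (XT.lf (nat_lit 0) (nat_lit 25835108564) (nat_lit 168) (nat_lit 15561590179) (nat_lit 252) (nat_lit 16264941290)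 (nat_lit 10) (nat_lit 5) (nat_lit 12) (nat_lit 5) (nat_lit 13) (nat_lit 5) (nat_lit 406) (nat_lit 324) (nat_lit 158)) (XT.nd (nat_lit 94) (nat_lit 0) (nat_lit 0) (XT.lf (nat_lit 0) (nat_lit 35554983050) (nat_lit 168) (nat_lit 9781371086) (nat_lit 252) (nat_lit 13891912324) (nat_lit 10) (nat_lit 5) (nat_lit 12) (nat_lit 5) (nat_lit 13) (nat_lit 5) (nat_lit 407) (nat_lit 324) (nat_lit 157)) (XT.lf (nat_lit 0) (nat_lit 45572915596) (nat_lit 168) (nat_lit 3822931708) (nat_lit 252) (nat_lit 11447693184) (nat_lit 10) (nat_lit 5) (nat_lit 12) (nat_lit 5) (nat_lit 13) (nat_lit 5) (nat_lit 408) (nat_lit 324) (nat_lit 156)))) (XT.nd (nat_lit 94) (nat_lit 84) (nat_lit 0) (XT.lf (nat_lit 0) (nat_lit 53601969688) (nat_lit 252) (nat_lit 6633731321) (nat_lit 84) (nat_lit 2272553482) (nat_lit 10) (nat_lit 5) (nat_lit 13) (nat_lit 5) (nat_lit 11) (nat_lit 4) (nat_lit 409) (nat_lit 324) (nat_lit 155))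 (XT.nd (nat_lit 94) (nat_lit 0) (nat_lit 0) (XT.lf (nat_lit 0) (nat_lit 2274499077) (nat_lit 84) (nat_lit 55723480869) (nat_lit 168) (nat_lit 6224760725) (nat_lit 9) (nat_lit 5) (nat_lit 10) (nat_lit 5) (nat_lit 11) (nat_lit 4) (nat_lit 410) (nat_lit 324) (nat_lit 154)) (XT.lf (nat_lit 0) (nat_lit 11596414595) (nat_lit 84) (nat_lit 51000963972) (nat_lit 168) (nat_lit 3390927052) (nat_lit 9) (nat_lit 5) (nat_lit 10) (nat_lit 5) (nat_lit 11) (nat_lit 4) (nat_lit 411) (nat_lit 324) (nat_lit 153))))) (XT.nd (nat_lit 282) (nat_lit 168) (nat_lit 0) (XT.nd (nat_lit 94) (nat_lit 84) (nat_lit 0) (XT.lf (nat_lit 0) (nat_lit 21204301113) (nat_lit 84) (nat_lit 46132990987) (nat_lit 168) (nat_lit 471384905) (nat_lit 9) (nat_lit 5) (nat_lit 10) (nat_lit 5) (nat_lit 11) (nat_lit 4) (nat_lit 412) (nat_lit 324) (nat_lit 152)) (XT.nd (nat_lit 94) (nat_lit 0) (nat_lit 0) (XT.lf (nat_lit 0) (nat_lit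 2485480459) (nat_lit 168) (nat_lit 38603600675) (nat_lit 84) (nat_lit 28595690410) (nat_lit 8) (nat_lit 5) (nat_lit 10) (nat_lit 5) (nat_lit 9) (nat_lit 5) (nat_lit 413) (nat_lit 324) (nat_lit 151)) (XT.lf (nat_lit 0) (nat_lit 5522243854) (nat_lit 168) (nat_lit 30362502344) (nat_lit 84) (nat_lit 35734199524) (nat_lit 8) (nat_lit 5) (nat_lit 10) (nat_lit 5) (nat_lit 9) (nat_lit 5) (nat_lit 414) (nat_lit 324) (nat_lit 150)))) (XT.nd (nat_lit 188) (nat_lit 168) (nat_lit 0) (XT.nd (nat_lit 94) (nat_lit 0) (nat_lit 0) (XT.lf (nat_lit 0) (nat_lit 8651233218) (nat_lit 168) (nat_lit 21868723137) (nat_lit 84) (nat_lit 43093191001) (nat_lit 8) (nat_lit 5) (nat_lit 10) (nat_lit 5) (nat_lit 9) (nat_lit 5) (nat_lit 415) (nat_lit 324) (nat_lit 149)) (XT.lf (nat_lit 0) (nat_lit 11875365094) (nat_lit 168) (nat_lit 13114345960) (nat_lit 84) (nat_lit 50679524193) (nat_lit 8) (nat_lit 5) (nat_lit 10)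 (nat_lit 5) (nat_lit 9) (nat_lit 5) (nat_lit 416) (nat_lit 324) (nat_lit 148))) (XT.nd (nat_lit 94) (nat_lit 168) (nat_lit 0) (XT.lf (nat_lit 0) (nat_lit 15197644713) (nat_lit 168) (nat_lit 4091210819) (nat_lit 84) (nat_lit 58500270357) (nat_lit 8) (nat_lit 5) (nat_lit 10) (nat_lit 5) (nat_lit 9) (nat_lit 5) (nat_lit 417) (nat_lit 324) (nat_lit 147)) (XT.lf (nat_lit 0) (nat_lit 5316202426) (nat_lit 168) (nat_lit 13357703747) (nat_lit 252) (nat_lit 61299254207) (nat_lit 6) (nat_lit 5) (nat_lit 8) (nat_lit 5) (nat_lit 9) (nat_lit 5) (nat_lit 418) (nat_lit 324) (nat_lit 146))))))))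
noncomputable def xc151 : XT := (XT.nd (nat_lit 48034) (nat_lit 0) (nat_lit 3024) (XT.nd (nat_lit 1222) (nat_lit 0) (nat_lit 0) (XT.nd (nat_lit 564) (nat_lit 84) (nat_lit 0) (XT.nd (nat_lit 282) (nat_lit 0) (nat_lit 0) (XT.nd (nat_lit 94) (nat_lit 0) (nat_lit 0) (XT.lf (nat_lit 0) (nat_lit 15099454088) (nat_lit 168) (nat_lit 7199462764) (nat_lit 252) (nat_lit 59924720276) (nat_lit 6) (nat_lit 5) (nat_lit 8) (nat_lit 5) (nat_lit 9) (nat_lit 5) (nat_lit 419) (nat_lit 324) (nat_lit 145)) (XT.nd (nat_lit 94) (nat_lit 0) (nat_lit 0) (XT.lf (nat_lit 0) (nat_lit 25183539497) (nat_lit 168) (nat_lit 851096308) (nat_lit 252) (nat_lit 58509302024) (nat_lit 6) (nat_lit 5) (nat_lit 8) (nat_lit 5) (nat_lit 9) (nat_lit 5) (nat_lit 420) (nat_lit 324) (nat_lit 144)) (XT.lf (nat_lit 0) (nat_lit 29941023483) (nat_lit 252) (nat_lit 51414845539) (nat_lit 84) (nat_lit 5578605394) (nat_lit 6) (nat_lit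 5) (nat_lit 9) (nat_lit 5) (nat_lit 7) (nat_lit 4) (nat_lit 421) (nat_lit 324) (nat_lit 143)))) (XT.nd (nat_lit 94) (nat_lit 0) (nat_lit 0) (XT.lf (nat_lit 0) (nat_lit 33975638297) (nat_lit 252) (nat_lit 43234035822) (nat_lit 84) (nat_lit 12189229565) (nat_lit 6) (nat_lit 5) (nat_lit 9) (nat_lit 5) (nat_lit 7) (nat_lit 4) (nat_lit 422) (nat_lit 324) (nat_lit 142)) (XT.nd (nat_lit 94) (nat_lit 0) (nat_lit 0) (XT.lf (nat_lit 0) (nat_lit 38133797952) (nat_lit 252) (nat_lit 34801900830) (nat_lit 84) (nat_lit 19004085692) (nat_lit 6) (nat_lit 5) (nat_lit 9) (nat_lit 5) (nat_lit 7) (nat_lit 4) (nat_lit 423) (nat_lit 324) (nat_lit 141)) (XT.lf (nat_lit 0) (nat_lit 42419378287) (nat_lit 252) (nat_lit 26110580929) (nat_lit 84) (nat_lit 26029525935) (nat_lit 6) (nat_lit 5) (nat_lit 9) (nat_lit 5) (nat_lit 7) (nat_lit 4) (nat_lit 424) (nat_lit 324) (nat_lit 140))))) (XT.nd (nat_lit 282) (nat_lit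 0) (nat_lit 0) (XT.nd (nat_lit 94) (nat_lit 84) (nat_lit 0) (XT.lf (nat_lit 0) (nat_lit 46836373912) (nat_lit 252) (nat_lit 17151974899) (nat_lit 84) (nat_lit 33272098740) (nat_lit 6) (nat_lit 5) (nat_lit 9) (nat_lit 5) (nat_lit 7) (nat_lit 4) (nat_lit 425) (nat_lit 324) (nat_lit 139)) (XT.nd (nat_lit 94) (nat_lit 84) (nat_lit 0) (XT.lf (nat_lit 0) (nat_lit 51388901931) (nat_lit 252) (nat_lit 7917732381) (nat_lit 84) (nat_lit 40738554943) (nat_lit 6) (nat_lit 5) (nat_lit 9) (nat_lit 5) (nat_lit 7) (nat_lit 4) (nat_lit 426) (nat_lit 324) (nat_lit 138)) (XT.lf (nat_lit 0) (nat_lit 1633668690) (nat_lit 84) (nat_lit 54463743280) (nat_lit 168) (nat_lit 46818391570) (nat_lit 5) (nat_lit 5) (nat_lit 6) (nat_lit 5) (nat_lit 7) (nat_lit 4) (nat_lit 427) (nat_lit 324) (nat_lit 137)))) (XT.nd (nat_lit 188) (nat_lit 0) (nat_lit 0) (XT.nd (nat_lit 94) (nat_lit 0) (nat_lit 0) (XT.lf (nat_lit 0)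 (nat_lit 11647017640) (nat_lit 84) (nat_lit 49386181380) (nat_lit 168) (nat_lit 44839693010) (nat_lit 5) (nat_lit 5) (nat_lit 6) (nat_lit 5) (nat_lit 7) (nat_lit 4) (nat_lit 428) (nat_lit 324) (nat_lit 136)) (XT.lf (nat_lit 0) (nat_lit 21968843142) (nat_lit 84) (nat_lit 44151860679) (nat_lit 168) (nat_lit 42800992176) (nat_lit 5) (nat_lit 5) (nat_lit 6) (nat_lit 5) (nat_lit 7) (nat_lit 4) (nat_lit 429) (nat_lit 324) (nat_lit 135))) (XT.nd (nat_lit 94) (nat_lit 0) (nat_lit 0) (XT.lf (nat_lit 0) (nat_lit 32608766219) (nat_lit 84) (nat_lit 38755902242) (nat_lit 168) (nat_lit 40700388786) (nat_lit 5) (nat_lit 5) (nat_lit 6) (nat_lit 5) (nat_lit 7) (nat_lit 4) (nat_lit 430) (nat_lit 324) (nat_lit 134)) (XT.lf (nat_lit 0) (nat_lit 43576704394) (nat_lit 84) (nat_lit 33193276471) (nat_lit 168) (nat_lit 38535924858) (nat_lit 5) (nat_lit 5) (nat_lit 6) (nat_lit 5) (nat_lit 7) (nat_lit 4) (nat_lit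 431) (nat_lit 324) (nat_lit 133)))))) (XT.nd (nat_lit 46154) (nat_lit 0) (nat_lit 6468) (XT.nd (nat_lit 45872) (nat_lit 0) (nat_lit 7308) (XT.nd (nat_lit 45684) (nat_lit 0) (nat_lit 7308) (XT.lf (nat_lit 0) (nat_lit 54882880933) (nat_lit 84) (nat_lit 27458798414) (nat_lit 168) (nat_lit 36305582885) (nat_lit 5) (nat_lit 5) (nat_lit 6) (nat_lit 5) (nat_lit 7) (nat_lit 4) (nat_lit 432) (nat_lit 324) (nat_lit 132)) (XT.nd (nat_lit 94) (nat_lit 0) (nat_lit 0) (XT.lf (nat_lit 0) (nat_lit 4204622759) (nat_lit 924) (nat_lit 529322737) (nat_lit 924) (nat_lit 529322737) (nat_lit 92) (nat_lit 3) (nat_lit 103) (nat_lit 3) (nat_lit 103) (nat_lit 5) (nat_lit 325) (nat_lit 325) (nat_lit 238)) (XT.lf (nat_lit 84) (nat_lit 2438929455) (nat_lit 0) (nat_lit 6603813496) (nat_lit 924) (nat_lit 1627651705) (nat_lit 93) (nat_lit 5) (nat_lit 92) (nat_lit 3) (nat_lit 103) (nat_lit 5) (nat_lit 326) (nat_lit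 325) (nat_lit 237)))) (XT.nd (nat_lit 94) (nat_lit 0) (nat_lit 0) (XT.lf (nat_lit 84) (nat_lit 6057142054) (nat_lit 0) (nat_lit 3630385416) (nat_lit 924) (nat_lit 1131593176) (nat_lit 93) (nat_lit 5) (nat_lit 92) (nat_lit 3) (nat_lit 103) (nat_lit 5) (nat_lit 327) (nat_lit 325) (nat_lit 236)) (XT.nd (nat_lit 94) (nat_lit 0) (nat_lit 84) (XT.lf (nat_lit 84) (nat_lit 9777596953) (nat_lit 0) (nat_lit 555885297) (nat_lit 924) (nat_lit 639703073) (nat_lit 93) (nat_lit 5) (nat_lit 92) (nat_lit 3) (nat_lit 103) (nat_lit 5) (nat_lit 328) (nat_lit 325) (nat_lit 235)) (XT.lf (nat_lit 84) (nat_lit 2495288163) (nat_lit 0) (nat_lit 8536690836) (nat_lit 924) (nat_lit 99179430) (nat_lit 94) (nat_lit 5) (nat_lit 93) (nat_lit 5) (nat_lit 104) (nat_lit 5) (nat_lit 329) (nat_lit 325) (nat_lit 234))))) (XT.nd (nat_lit 282) (nat_lit 0) (nat_lit 84) (XT.nd (nat_lit 94) (nat_lit 0) (nat_lit 0) (XT.lf (nat_lit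 0) (nat_lit 449125813) (nat_lit 924) (nat_lit 4988884982) (nat_lit 1008) (nat_lit 5856001271) (nat_lit 82) (nat_lit 5) (nat_lit 93) (nat_lit 5) (nat_lit 94) (nat_lit 5) (nat_lit 330) (nat_lit 325) (nat_lit 233)) (XT.nd (nat_lit 94) (nat_lit 0) (nat_lit 84) (XT.lf (nat_lit 0) (nat_lit 994873225) (nat_lit 924) (nat_lit 1240345797) (nat_lit 1008) (nat_lit 9227334216) (nat_lit 82) (nat_lit 5) (nat_lit 93) (nat_lit 5) (nat_lit 94) (nat_lit 5) (nat_lit 331) (nat_lit 325) (nat_lit 232)) (XT.lf (nat_lit 0) (nat_lit 1577957912) (nat_lit 924) (nat_lit 8979091545) (nat_lit 1008) (nat_lit 1078761056) (nat_lit 83) (nat_lit 5) (nat_lit 94) (nat_lit 5) (nat_lit 95) (nat_lit 5) (nat_lit 332) (nat_lit 325) (nat_lit 231)))) (XT.nd (nat_lit 188) (nat_lit 0) (nat_lit 0) (XT.nd (nat_lit 94) (nat_lit 0) (nat_lit 0) (XT.lf (nat_lit 0) (nat_lit 2198563972) (nat_lit 924) (nat_lit 5146911634) (nat_lit 1008)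 (nat_lit 4468480919) (nat_lit 83) (nat_lit 5) (nat_lit 94) (nat_lit 5) (nat_lit 95) (nat_lit 5) (nat_lit 333) (nat_lit 325) (nat_lit 230)) (XT.lf (nat_lit 0) (nat_lit 2822410406) (nat_lit 924) (nat_lit 1206378560) (nat_lit 1008) (nat_lit 7969449004) (nat_lit 83) (nat_lit 5) (nat_lit 94) (nat_lit 5) (nat_lit 95) (nat_lit 5) (nat_lit 334) (nat_lit 325) (nat_lit 229))) (XT.nd (nat_lit 94) (nat_lit 0) (nat_lit 84) (XT.lf (nat_lit 84) (nat_lit 2904703978) (nat_lit 0) (nat_lit 574189749) (nat_lit 1008) (nat_lit 8709039623) (nat_lit 84) (nat_lit 5) (nat_lit 83) (nat_lit 5) (nat_lit 95) (nat_lit 5) (nat_lit 335) (nat_lit 325) (nat_lit 228)) (XT.lf (nat_lit 0) (nat_lit 4182985864) (nat_lit 924) (nat_lit 5254737755) (nat_lit 1008) (nat_lit 2945050700) (nat_lit 84) (nat_lit 5) (nat_lit 95) (nat_lit 5) (nat_lit 96) (nat_lit 5) (nat_lit 336) (nat_lit 325) (nat_lit 227))))))) (XT.nd (nat_lit 1222)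 (nat_lit 2100) (nat_lit 0) (XT.nd (nat_lit 564) (nat_lit 1512) (nat_lit 0) (XT.nd (nat_lit 282) (nat_lit 0) (nat_lit 84) (XT.nd (nat_lit 94) (nat_lit 0) (nat_lit 0) (XT.lf (nat_lit 0) (nat_lit 4900132015) (nat_lit 924) (nat_lit 1117573349) (nat_lit 1008) (nat_lit 6566328674) (nat_lit 84) (nat_lit 5) (nat_lit 95) (nat_lit 5) (nat_lit 96) (nat_lit 5) (nat_lit 337) (nat_lit 325) (nat_lit 226)) (XT.nd (nat_lit 94) (nat_lit 0) (nat_lit 84) (XT.lf (nat_lit 84) (nat_lit 3202336086) (nat_lit 0) (nat_lit 2454736086) (nat_lit 1008) (nat_lit 7134019709) (nat_lit 85) (nat_lit 5) (nat_lit 84) (nat_lit 5) (nat_lit 96) (nat_lit 5) (nat_lit 338) (nat_lit 325) (nat_lit 225)) (XT.lf (nat_lit 0) (nat_lit 6447514217) (nat_lit 924) (nat_lit 5347056280) (nat_lit 1008) (nat_lit 1209787277) (nat_lit 85) (nat_lit 5) (nat_lit 96) (nat_lit 5) (nat_lit 97) (nat_lit 5) (nat_lit 339) (nat_lit 325) (nat_lit 224))))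 (XT.nd (nat_lit 94) (nat_lit 0) (nat_lit 0) (XT.lf (nat_lit 0) (nat_lit 7274144952) (nat_lit 924) (nat_lit 1009149936) (nat_lit 1008) (nat_lit 4940675168) (nat_lit 85) (nat_lit 5) (nat_lit 96) (nat_lit 5) (nat_lit 97) (nat_lit 5) (nat_lit 340) (nat_lit 325) (nat_lit 223)) (XT.nd (nat_lit 94) (nat_lit 0) (nat_lit 0) (XT.lf (nat_lit 84) (nat_lit 3524366028) (nat_lit 0) (nat_lit 4623979716) (nat_lit 1008) (nat_lit 5301458745) (nat_lit 86) (nat_lit 5) (nat_lit 85) (nat_lit 5) (nat_lit 97) (nat_lit 5) (nat_lit 341) (nat_lit 325) (nat_lit 222)) (XT.lf (nat_lit 84) (nat_lit 8210040798) (nat_lit 0) (nat_lit 837416234) (nat_lit 1008) (nat_lit 4635342250) (nat_lit 86) (nat_lit 5) (nat_lit 85) (nat_lit 5) (nat_lit 97) (nat_lit 5) (nat_lit 342) (nat_lit 325) (nat_lit 221))))) (XT.nd (nat_lit 282) (nat_lit 756) (nat_lit 0) (XT.nd (nat_lit 94) (nat_lit 924) (nat_lit 0) (XT.lf (nat_lit 0) (nat_lit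 9992548889) (nat_lit 924) (nat_lit 922445352) (nat_lit 84) (nat_lit 3007550177) (nat_lit 86) (nat_lit 5) (nat_lit 97) (nat_lit 5) (nat_lit 87) (nat_lit 5) (nat_lit 343) (nat_lit 325) (nat_lit 220)) (XT.nd (nat_lit 94) (nat_lit 0) (nat_lit 0) (XT.lf (nat_lit 0) (nat_lit 3827804931) (nat_lit 924) (nat_lit 7173728717) (nat_lit 1008) (nat_lit 3167201745) (nat_lit 75) (nat_lit 5) (nat_lit 86) (nat_lit 5) (nat_lit 87) (nat_lit 5) (nat_lit 344) (nat_lit 325) (nat_lit 219)) (XT.lf (nat_lit 0) (nat_lit 8735286830) (nat_lit 924) (nat_lit 3304460522) (nat_lit 1008) (nat_lit 2382958065) (nat_lit 75) (nat_lit 5) (nat_lit 86) (nat_lit 5) (nat_lit 87) (nat_lit 5) (nat_lit 345) (nat_lit 325) (nat_lit 218)))) (XT.nd (nat_lit 188) (nat_lit 84) (nat_lit 0) (XT.nd (nat_lit 94) (nat_lit 672) (nat_lit 0) (XT.lf (nat_lit 0) (nat_lit 13105631823) (nat_lit 1008) (nat_lit 906186488) (nat_lit 84) (nat_lit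 672951211) (nat_lit 75) (nat_lit 5) (nat_lit 87) (nat_lit 5) (nat_lit 76) (nat_lit 5) (nat_lit 346) (nat_lit 325) (nat_lit 217)) (XT.lf (nat_lit 0) (nat_lit 4061851448) (nat_lit 672) (nat_lit 10205831445) (nat_lit 756) (nat_lit 685396513) (nat_lit 67) (nat_lit 5) (nat_lit 75) (nat_lit 5) (nat_lit 76) (nat_lit 5) (nat_lit 347) (nat_lit 325) (nat_lit 216))) (XT.nd (nat_lit 94) (nat_lit 0) (nat_lit 0) (XT.lf (nat_lit 0) (nat_lit 229935921) (nat_lit 756) (nat_lit 6038398289) (nat_lit 84) (nat_lit 8961416203) (nat_lit 66) (nat_lit 5) (nat_lit 75) (nat_lit 5) (nat_lit 67) (nat_lit 5) (nat_lit 348) (nat_lit 325) (nat_lit 215)) (XT.lf (nat_lit 0) (nat_lit 1148820232) (nat_lit 756) (nat_lit 1051506032) (nat_lit 84) (nat_lit 13314854578) (nat_lit 66) (nat_lit 5) (nat_lit 75) (nat_lit 5) (nat_lit 67) (nat_lit 5) (nat_lit 349) (nat_lit 325) (nat_lit 214)))))) (XT.nd (nat_lit 564) (nat_lit 1176)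 (nat_lit 0) (XT.nd (nat_lit 282) (nat_lit 420) (nat_lit 0) (XT.nd (nat_lit 94) (nat_lit 0) (nat_lit 0) (XT.lf (nat_lit 0) (nat_lit 2147450488) (nat_lit 588) (nat_lit 11663971757) (nat_lit 84) (nat_lit 1996517893) (nat_lit 60) (nat_lit 5) (nat_lit 67) (nat_lit 5) (nat_lit 61) (nat_lit 5) (nat_lit 350) (nat_lit 325) (nat_lit 213)) (XT.nd (nat_lit 94) (nat_lit 0) (nat_lit 0) (XT.lf (nat_lit 0) (nat_lit 3200592451) (nat_lit 588) (nat_lit 6618638344) (nat_lit 84) (nat_lit 6289881507) (nat_lit 60) (nat_lit 5) (nat_lit 67) (nat_lit 5) (nat_lit 61) (nat_lit 5) (nat_lit 351) (nat_lit 325) (nat_lit 212)) (XT.lf (nat_lit 0) (nat_lit 4276645819) (nat_lit 588) (nat_lit 1425998600) (nat_lit 84) (nat_lit 10717343680) (nat_lit 60) (nat_lit 5) (nat_lit 67) (nat_lit 5) (nat_lit 61) (nat_lit 5) (nat_lit 352) (nat_lit 325) (nat_lit 211)))) (XT.nd (nat_lit 94) (nat_lit 0) (nat_lit 0) (XT.lf (nat_lit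 0) (nat_lit 3999365867) (nat_lit 420) (nat_lit 1416921923) (nat_lit 504) (nat_lit 11323339606) (nat_lit 55) (nat_lit 5) (nat_lit 60) (nat_lit 5) (nat_lit 61) (nat_lit 5) (nat_lit 353) (nat_lit 325) (nat_lit 210)) (XT.nd (nat_lit 94) (nat_lit 0) (nat_lit 0) (XT.lf (nat_lit 0) (nat_lit 6626831294) (nat_lit 504) (nat_lit 7484585443) (nat_lit 84) (nat_lit 2956717623) (nat_lit 55) (nat_lit 5) (nat_lit 61) (nat_lit 5) (nat_lit 56) (nat_lit 5) (nat_lit 354) (nat_lit 325) (nat_lit 209)) (XT.lf (nat_lit 0) (nat_lit 7880430359) (nat_lit 504) (nat_lit 2089291230) (nat_lit 84) (nat_lit 7436991809) (nat_lit 55) (nat_lit 5) (nat_lit 61) (nat_lit 5) (nat_lit 56) (nat_lit 5) (nat_lit 355) (nat_lit 325) (nat_lit 208))))) (XT.nd (nat_lit 282) (nat_lit 756) (nat_lit 0) (XT.nd (nat_lit 94) (nat_lit 0) (nat_lit 0) (XT.lf (nat_lit 0) (nat_lit 3535947591) (nat_lit 420) (nat_lit 5663326875) (nat_lit 504)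 (nat_lit 8555753985) (nat_lit 50) (nat_lit 5) (nat_lit 55) (nat_lit 5) (nat_lit 56) (nat_lit 5) (nat_lit 356) (nat_lit 325) (nat_lit 207)) (XT.nd (nat_lit 94) (nat_lit 0) (nat_lit 0) (XT.lf (nat_lit 0) (nat_lit 9371396289) (nat_lit 420) (nat_lit 1200898230) (nat_lit 504) (nat_lit 7541490915) (nat_lit 50) (nat_lit 5) (nat_lit 55) (nat_lit 5) (nat_lit 56) (nat_lit 5) (nat_lit 357) (nat_lit 325) (nat_lit 206)) (XT.lf (nat_lit 0) (nat_lit 12013345708) (nat_lit 504) (nat_lit 3138168054) (nat_lit 84) (nat_lit 3331415150) (nat_lit 50) (nat_lit 5) (nat_lit 56) (nat_lit 5) (nat_lit 51) (nat_lit 5) (nat_lit 358) (nat_lit 325) (nat_lit 205)))) (XT.nd (nat_lit 188) (nat_lit 420) (nat_lit 0) (XT.nd (nat_lit 94) (nat_lit 0) (nat_lit 0) (XT.lf (nat_lit 0) (nat_lit 2673093639) (nat_lit 336) (nat_lit 10856764398) (nat_lit 420) (nat_lit 5332756233) (nat_lit 46) (nat_lit 5) (nat_lit 50) (nat_lit 5)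 (nat_lit 51) (nat_lit 5) (nat_lit 359) (nat_lit 325) (nat_lit 204)) (XT.lf (nat_lit 0) (nat_lit 8722850864) (nat_lit 336) (nat_lit 6395435919) (nat_lit 420) (nat_lit 4135062342) (nat_lit 46) (nat_lit 5) (nat_lit 50) (nat_lit 5) (nat_lit 51) (nat_lit 5) (nat_lit 360) (nat_lit 325) (nat_lit 203))) (XT.nd (nat_lit 94) (nat_lit 420) (nat_lit 0) (XT.lf (nat_lit 0) (nat_lit 14952215456) (nat_lit 336) (nat_lit 1796125937) (nat_lit 420) (nat_lit 2908141194) (nat_lit 46) (nat_lit 5) (nat_lit 50) (nat_lit 5) (nat_lit 51) (nat_lit 5) (nat_lit 361) (nat_lit 325) (nat_lit 202)) (XT.lf (nat_lit 0) (nat_lit 1291403056) (nat_lit 420) (nat_lit 17172168326) (nat_lit 504) (nat_lit 1607516102) (nat_lit 41) (nat_lit 5) (nat_lit 46) (nat_lit 5) (nat_lit 47) (nat_lit 5) (nat_lit 362) (nat_lit 325) (nat_lit 201))))))))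
noncomputable def xc152 : XT := (XT.nd (nat_lit 2350) (nat_lit 840) (nat_lit 0) (XT.nd (nat_lit 1128) (nat_lit 840) (nat_lit 0) (XT.nd (nat_lit 564) (nat_lit 588) (nat_lit 0) (XT.nd (nat_lit 282) (nat_lit 336) (nat_lit 0) (XT.nd (nat_lit 94) (nat_lit 84) (nat_lit 0) (XT.lf (nat_lit 0) (nat_lit 7546029165) (nat_lit 420) (nat_lit 12745985793) (nat_lit 504) (nat_lit 204715690) (nat_lit 41) (nat_lit 5) (nat_lit 46) (nat_lit 5) (nat_lit 47) (nat_lit 5) (nat_lit 363) (nat_lit 325) (nat_lit 200)) (XT.nd (nat_lit 94) (nat_lit 0) (nat_lit 0) (XT.lf (nat_lit 0) (nat_lit 1209412532) (nat_lit 504) (nat_lit 6961180278) (nat_lit 84) (nat_lit 12764859624) (nat_lit 40) (nat_lit 5) (nat_lit 46) (nat_lit 5) (nat_lit 41) (nat_lit 5) (nat_lit 364) (nat_lit 325) (nat_lit 199)) (XT.lf (nat_lit 0) (nat_lit 2656197010) (nat_lit 504) (nat_lit 795685498) (nat_lit 84) (nat_lit 17936084694) (nat_lit 40) (nat_lit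 5) (nat_lit 46) (nat_lit 5) (nat_lit 41) (nat_lit 5) (nat_lit 365) (nat_lit 325) (nat_lit 198)))) (XT.nd (nat_lit 94) (nat_lit 0) (nat_lit 0) (XT.lf (nat_lit 0) (nat_lit 4211922399) (nat_lit 420) (nat_lit 16199850312) (nat_lit 84) (nat_lit 1440791830) (nat_lit 36) (nat_lit 5) (nat_lit 41) (nat_lit 5) (nat_lit 37) (nat_lit 5) (nat_lit 366) (nat_lit 325) (nat_lit 197)) (XT.nd (nat_lit 94) (nat_lit 0) (nat_lit 0) (XT.lf (nat_lit 0) (nat_lit 5852971788) (nat_lit 420) (nat_lit 10056355850) (nat_lit 84) (nat_lit 6421126942) (nat_lit 36) (nat_lit 5) (nat_lit 41) (nat_lit 5) (nat_lit 37) (nat_lit 5) (nat_lit 367) (nat_lit 325) (nat_lit 196)) (XT.lf (nat_lit 0) (nat_lit 7538493715) (nat_lit 420) (nat_lit 3729728093) (nat_lit 84) (nat_lit 11555174771) (nat_lit 36) (nat_lit 5) (nat_lit 41) (nat_lit 5) (nat_lit 37) (nat_lit 5) (nat_lit 368) (nat_lit 325) (nat_lit 195))))) (XT.nd (nat_lit 282)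 (nat_lit 252) (nat_lit 0) (XT.nd (nat_lit 94) (nat_lit 0) (nat_lit 0) (XT.lf (nat_lit 0) (nat_lit 2843214473) (nat_lit 336) (nat_lit 6455049829) (nat_lit 420) (nat_lit 14032711352) (nat_lit 32) (nat_lit 5) (nat_lit 36) (nat_lit 5) (nat_lit 37) (nat_lit 5) (nat_lit 369) (nat_lit 325) (nat_lit 194)) (XT.nd (nat_lit 94) (nat_lit 0) (nat_lit 0) (XT.lf (nat_lit 0) (nat_lit 9691963282) (nat_lit 336) (nat_lit 1453464625) (nat_lit 420) (nat_lit 12707880389) (nat_lit 32) (nat_lit 5) (nat_lit 36) (nat_lit 5) (nat_lit 37) (nat_lit 5) (nat_lit 370) (nat_lit 325) (nat_lit 193)) (XT.lf (nat_lit 0) (nat_lit 13080673060) (nat_lit 420) (nat_lit 7682567644) (nat_lit 84) (nat_lit 3627672699) (nat_lit 32) (nat_lit 5) (nat_lit 37) (nat_lit 5) (nat_lit 33) (nat_lit 5) (nat_lit 371) (nat_lit 325) (nat_lit 192)))) (XT.nd (nat_lit 94) (nat_lit 252) (nat_lit 0) (XT.lf (nat_lit 0) (nat_lit 15085037806) (nat_lit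 420) (nat_lit 1024624361) (nat_lit 84) (nat_lit 8835273653) (nat_lit 32) (nat_lit 5) (nat_lit 37) (nat_lit 5) (nat_lit 33) (nat_lit 5) (nat_lit 372) (nat_lit 325) (nat_lit 191)) (XT.nd (nat_lit 94) (nat_lit 0) (nat_lit 0) (XT.lf (nat_lit 0) (nat_lit 5953049971) (nat_lit 252) (nat_lit 11251976895) (nat_lit 336) (nat_lit 8309481358) (nat_lit 29) (nat_lit 5) (nat_lit 32) (nat_lit 5) (nat_lit 33) (nat_lit 5) (nat_lit 373) (nat_lit 325) (nat_lit 190)) (XT.lf (nat_lit 0) (nat_lit 13162214704) (nat_lit 252) (nat_lit 6233752364) (nat_lit 336) (nat_lit 6705640574) (nat_lit 29) (nat_lit 5) (nat_lit 32) (nat_lit 5) (nat_lit 33) (nat_lit 5) (nat_lit 374) (nat_lit 325) (nat_lit 189)))))) (XT.nd (nat_lit 564) (nat_lit 252) (nat_lit 0) (XT.nd (nat_lit 282) (nat_lit 336) (nat_lit 0) (XT.nd (nat_lit 94) (nat_lit 252) (nat_lit 0) (XT.lf (nat_lit 0) (nat_lit 20588521155) (nat_lit 252) (nat_lit 1061006042)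 (nat_lit 336) (nat_lit 5057575691) (nat_lit 29) (nat_lit 5) (nat_lit 32) (nat_lit 5) (nat_lit 33) (nat_lit 5) (nat_lit 375) (nat_lit 325) (nat_lit 188)) (XT.nd (nat_lit 94) (nat_lit 0) (nat_lit 0) (XT.lf (nat_lit 0) (nat_lit 882748816) (nat_lit 252) (nat_lit 23136185646) (nat_lit 336) (nat_lit 3311038958) (nat_lit 26) (nat_lit 5) (nat_lit 29) (nat_lit 5) (nat_lit 30) (nat_lit 5) (nat_lit 376) (nat_lit 325) (nat_lit 187)) (XT.lf (nat_lit 0) (nat_lit 8213489195) (nat_lit 252) (nat_lit 18317854088) (nat_lit 336) (nat_lit 1438683213) (nat_lit 26) (nat_lit 5) (nat_lit 29) (nat_lit 5) (nat_lit 30) (nat_lit 5) (nat_lit 377) (nat_lit 325) (nat_lit 186)))) (XT.nd (nat_lit 94) (nat_lit 252) (nat_lit 0) (XT.lf (nat_lit 0) (nat_lit 476825094) (nat_lit 336) (nat_lit 12869525854) (nat_lit 84) (nat_lit 15283601395) (nat_lit 25) (nat_lit 5) (nat_lit 29) (nat_lit 5) (nat_lit 26) (nat_lit 5) (nat_lit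 378) (nat_lit 325) (nat_lit 185)) (XT.nd (nat_lit 94) (nat_lit 252) (nat_lit 0) (XT.lf (nat_lit 0) (nat_lit 2416995677) (nat_lit 336) (nat_lit 5789753981) (nat_lit 84) (nat_lit 21103306948) (nat_lit 25) (nat_lit 5) (nat_lit 29) (nat_lit 5) (nat_lit 26) (nat_lit 5) (nat_lit 379) (nat_lit 325) (nat_lit 184)) (XT.lf (nat_lit 0) (nat_lit 1534567436) (nat_lit 252) (nat_lit 2893278898) (nat_lit 336) (nat_lit 25583097389) (nat_lit 22) (nat_lit 5) (nat_lit 25) (nat_lit 5) (nat_lit 26) (nat_lit 5) (nat_lit 380) (nat_lit 325) (nat_lit 183))))) (XT.nd (nat_lit 282) (nat_lit 252) (nat_lit 0) (XT.nd (nat_lit 94) (nat_lit 0) (nat_lit 0) (XT.lf (nat_lit 0) (nat_lit 6583110845) (nat_lit 336) (nat_lit 21555201901) (nat_lit 84) (nat_lit 2592726610) (nat_lit 22) (nat_lit 5) (nat_lit 26) (nat_lit 5) (nat_lit 23) (nat_lit 5) (nat_lit 381) (nat_lit 325) (nat_lit 182)) (XT.nd (nat_lit 94) (nat_lit 0) (nat_lit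 0) (XT.lf (nat_lit 0) (nat_lit 8830302409) (nat_lit 336) (nat_lit 14454822812) (nat_lit 84) (nat_lit 8187578853) (nat_lit 22) (nat_lit 5) (nat_lit 26) (nat_lit 5) (nat_lit 23) (nat_lit 5) (nat_lit 382) (nat_lit 325) (nat_lit 181)) (XT.lf (nat_lit 0) (nat_lit 11142813960) (nat_lit 336) (nat_lit 7139919038) (nat_lit 84) (nat_lit 13954785940) (nat_lit 22) (nat_lit 5) (nat_lit 26) (nat_lit 5) (nat_lit 23) (nat_lit 5) (nat_lit 383) (nat_lit 325) (nat_lit 180)))) (XT.nd (nat_lit 188) (nat_lit 0) (nat_lit 0) (XT.nd (nat_lit 94) (nat_lit 0) (nat_lit 0) (XT.lf (nat_lit 0) (nat_lit 404476985) (nat_lit 252) (nat_lit 13122336478) (nat_lit 336) (nat_lit 19499258987) (nat_lit 19) (nat_lit 5) (nat_lit 22) (nat_lit 5) (nat_lit 23) (nat_lit 5) (nat_lit 384) (nat_lit 325) (nat_lit 179)) (XT.lf (nat_lit 0) (nat_lit 8328747604) (nat_lit 252) (nat_lit 7726356534) (nat_lit 336) (nat_lit 17781807474) (nat_lit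 19) (nat_lit 5) (nat_lit 22) (nat_lit 5) (nat_lit 23) (nat_lit 5) (nat_lit 385) (nat_lit 325) (nat_lit 178))) (XT.nd (nat_lit 94) (nat_lit 0) (nat_lit 0) (XT.lf (nat_lit 0) (nat_lit 16493467690) (nat_lit 252) (nat_lit 2164289659) (nat_lit 336) (nat_lit 16015275704) (nat_lit 19) (nat_lit 5) (nat_lit 22) (nat_lit 5) (nat_lit 23) (nat_lit 5) (nat_lit 386) (nat_lit 325) (nat_lit 177)) (XT.lf (nat_lit 0) (nat_lit 21372604445) (nat_lit 336) (nat_lit 10664373914) (nat_lit 84) (nat_lit 3497140200) (nat_lit 19) (nat_lit 5) (nat_lit 23) (nat_lit 5) (nat_lit 20) (nat_lit 5) (nat_lit 387) (nat_lit 325) (nat_lit 176))))))) (XT.nd (nat_lit 1222) (nat_lit 252) (nat_lit 0) (XT.nd (nat_lit 564) (nat_lit 420) (nat_lit 0) (XT.nd (nat_lit 282) (nat_lit 0) (nat_lit 0) (XT.nd (nat_lit 94) (nat_lit 168) (nat_lit 0) (XT.lf (nat_lit 0) (nat_lit 24189959610) (nat_lit 336) (nat_lit 2943368376) (nat_lit 84)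 (nat_lit 9288021472) (nat_lit 19) (nat_lit 5) (nat_lit 23) (nat_lit 5) (nat_lit 20) (nat_lit 5) (nat_lit 388) (nat_lit 325) (nat_lit 175)) (XT.nd (nat_lit 94) (nat_lit 0) (nat_lit 0) (XT.lf (nat_lit 0) (nat_lit 5115177482) (nat_lit 168) (nat_lit 22026544605) (nat_lit 252) (nat_lit 10192923188) (nat_lit 17) (nat_lit 5) (nat_lit 19) (nat_lit 5) (nat_lit 20) (nat_lit 5) (nat_lit 389) (nat_lit 325) (nat_lit 174)) (XT.lf (nat_lit 0) (nat_lit 13481115157) (nat_lit 168) (nat_lit 16730985523) (nat_lit 252) (nat_lit 8063331434) (nat_lit 17) (nat_lit 5) (nat_lit 19) (nat_lit 5) (nat_lit 20) (nat_lit 5) (nat_lit 390) (nat_lit 325) (nat_lit 173)))) (XT.nd (nat_lit 94) (nat_lit 0) (nat_lit 0) (XT.lf (nat_lit 0) (nat_lit 22101720886) (nat_lit 168) (nat_lit 11272437456) (nat_lit 252) (nat_lit 5871352315) (nat_lit 17) (nat_lit 5) (nat_lit 19) (nat_lit 5) (nat_lit 20) (nat_lit 5) (nat_lit 391) (nat_lit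 325) (nat_lit 172)) (XT.nd (nat_lit 94) (nat_lit 0) (nat_lit 0) (XT.lf (nat_lit 0) (nat_lit 30985029978) (nat_lit 168) (nat_lit 5645812463) (nat_lit 252) (nat_lit 3614942675) (nat_lit 17) (nat_lit 5) (nat_lit 19) (nat_lit 5) (nat_lit 20) (nat_lit 5) (nat_lit 392) (nat_lit 325) (nat_lit 171)) (XT.lf (nat_lit 0) (nat_lit 39986717579) (nat_lit 252) (nat_lit 1139394278) (nat_lit 84) (nat_lit 151028599) (nat_lit 17) (nat_lit 5) (nat_lit 20) (nat_lit 5) (nat_lit 18) (nat_lit 5) (nat_lit 393) (nat_lit 325) (nat_lit 170))))) (XT.nd (nat_lit 282) (nat_lit 168) (nat_lit 0) (XT.nd (nat_lit 94) (nat_lit 0) (nat_lit 0) (XT.lf (nat_lit 0) (nat_lit 1212296844) (nat_lit 252) (nat_lit 35029740750) (nat_lit 84) (nat_lit 6094125402) (nat_lit 14) (nat_lit 5) (nat_lit 17) (nat_lit 5) (nat_lit 15) (nat_lit 5) (nat_lit 394) (nat_lit 325) (nat_lit 169)) (XT.nd (nat_lit 94) (nat_lit 0) (nat_lit 0) (XT.lf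 (nat_lit 0) (nat_lit 3774608588) (nat_lit 252) (nat_lit 27407162506) (nat_lit 84) (nat_lit 12245577883) (nat_lit 14) (nat_lit 5) (nat_lit 17) (nat_lit 5) (nat_lit 15) (nat_lit 5) (nat_lit 395) (nat_lit 325) (nat_lit 168)) (XT.lf (nat_lit 0) (nat_lit 6413246520) (nat_lit 252) (nat_lit 19552561707) (nat_lit 84) (nat_lit 18586665361) (nat_lit 14) (nat_lit 5) (nat_lit 17) (nat_lit 5) (nat_lit 15) (nat_lit 5) (nat_lit 396) (nat_lit 325) (nat_lit 167)))) (XT.nd (nat_lit 188) (nat_lit 168) (nat_lit 0) (XT.nd (nat_lit 94) (nat_lit 0) (nat_lit 0) (XT.lf (nat_lit 0) (nat_lit 9130670126) (nat_lit 252) (nat_lit 11458617041) (nat_lit 84) (nat_lit 25123298394) (nat_lit 14) (nat_lit 5) (nat_lit 17) (nat_lit 5) (nat_lit 15) (nat_lit 5) (nat_lit 397) (nat_lit 325) (nat_lit 166)) (XT.lf (nat_lit 0) (nat_lit 11929412329) (nat_lit 252) (nat_lit 3117784104) (nat_lit 84) (nat_lit 31861569809) (nat_lit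 14) (nat_lit 5) (nat_lit 17) (nat_lit 5) (nat_lit 15) (nat_lit 5) (nat_lit 398) (nat_lit 325) (nat_lit 165))) (XT.nd (nat_lit 94) (nat_lit 0) (nat_lit 0) (XT.lf (nat_lit 0) (nat_lit 5590344619) (nat_lit 168) (nat_lit 9277194143) (nat_lit 252) (nat_lit 33272872672) (nat_lit 12) (nat_lit 5) (nat_lit 14) (nat_lit 5) (nat_lit 15) (nat_lit 5) (nat_lit 399) (nat_lit 325) (nat_lit 164)) (XT.lf (nat_lit 0) (nat_lit 14630657212) (nat_lit 168) (nat_lit 3295846361) (nat_lit 252) (nat_lit 31482825405) (nat_lit 12) (nat_lit 5) (nat_lit 14) (nat_lit 5) (nat_lit 15) (nat_lit 5) (nat_lit 400) (nat_lit 325) (nat_lit 163)))))) (XT.nd (nat_lit 564) (nat_lit 84) (nat_lit 0) (XT.nd (nat_lit 282) (nat_lit 168) (nat_lit 0) (XT.nd (nat_lit 94) (nat_lit 0) (nat_lit 0) (XT.lf (nat_lit 0) (nat_lit 21106062827) (nat_lit 252) (nat_lit 26798677541) (nat_lit 84) (nat_lit 2812057219) (nat_lit 12) (nat_lit 5) (nat_lit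 15) (nat_lit 5) (nat_lit 13) (nat_lit 5) (nat_lit 401) (nat_lit 325) (nat_lit 162)) (XT.nd (nat_lit 94) (nat_lit 0) (nat_lit 0) (XT.lf (nat_lit 0) (nat_lit 24415265380) (nat_lit 252) (nat_lit 18608731124) (nat_lit 84) (nat_lit 9039850819) (nat_lit 12) (nat_lit 5) (nat_lit 15) (nat_lit 5) (nat_lit 13) (nat_lit 5) (nat_lit 402) (nat_lit 325) (nat_lit 161)) (XT.lf (nat_lit 0) (nat_lit 27824500551) (nat_lit 252) (nat_lit 10168503422) (nat_lit 84) (nat_lit 15459743354) (nat_lit 12) (nat_lit 5) (nat_lit 15) (nat_lit 5) (nat_lit 13) (nat_lit 5) (nat_lit 403) (nat_lit 325) (nat_lit 160)))) (XT.nd (nat_lit 94) (nat_lit 168) (nat_lit 0) (XT.lf (nat_lit 0) (nat_lit 31336946104) (nat_lit 252) (nat_lit 1470127258) (nat_lit 84) (nat_lit 22077718834) (nat_lit 12) (nat_lit 5) (nat_lit 15) (nat_lit 5) (nat_lit 13) (nat_lit 5) (nat_lit 404) (nat_lit 325) (nat_lit 159)) (XT.nd (nat_lit 94) (nat_lit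 0) (nat_lit 0) (XT.lf (nat_lit 0) (nat_lit 7648607560) (nat_lit 168) (nat_lit 27383143580) (nat_lit 252) (nat_lit 21327213482) (nat_lit 10) (nat_lit 5) (nat_lit 12) (nat_lit 5) (nat_lit 13) (nat_lit 5) (nat_lit 405) (nat_lit 325) (nat_lit 158)) (XT.lf (nat_lit 0) (nat_lit 17077830037) (nat_lit 168) (nat_lit 21776247632) (nat_lit 252) (nat_lit 19024367756) (nat_lit 10) (nat_lit 5) (nat_lit 12) (nat_lit 5) (nat_lit 13) (nat_lit 5) (nat_lit 406) (nat_lit 325) (nat_lit 157))))) (XT.nd (nat_lit 282) (nat_lit 84) (nat_lit 0) (XT.nd (nat_lit 94) (nat_lit 0) (nat_lit 0) (XT.lf (nat_lit 0) (nat_lit 26796100362) (nat_lit 168) (nat_lit 15996504416) (nat_lit 252) (nat_lit 16652507536) (nat_lit 10) (nat_lit 5) (nat_lit 12) (nat_lit 5) (nat_lit 13) (nat_lit 5) (nat_lit 407) (nat_lit 325) (nat_lit 156)) (XT.nd (nat_lit 94) (nat_lit 0) (nat_lit 0) (XT.lf (nat_lit 0) (nat_lit 36812476984) (nat_lit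 168) (nat_lit 10038526608) (nat_lit 252) (nat_lit 14209422000) (nat_lit 10) (nat_lit 5) (nat_lit 12) (nat_lit 5) (nat_lit 13) (nat_lit 5) (nat_lit 408) (nat_lit 325) (nat_lit 155)) (XT.lf (nat_lit 0) (nat_lit 47136296212) (nat_lit 168) (nat_lit 3896760747) (nat_lit 252) (nat_lit 11692833936) (nat_lit 10) (nat_lit 5) (nat_lit 12) (nat_lit 5) (nat_lit 13) (nat_lit 5) (nat_lit 409) (nat_lit 325) (nat_lit 154)))) (XT.nd (nat_lit 188) (nat_lit 0) (nat_lit 0) (XT.nd (nat_lit 94) (nat_lit 84) (nat_lit 0) (XT.lf (nat_lit 0) (nat_lit 55366813713) (nat_lit 252) (nat_lit 6690030404) (nat_lit 84) (nat_lit 2385467824) (nat_lit 10) (nat_lit 5) (nat_lit 13) (nat_lit 5) (nat_lit 11) (nat_lit 4) (nat_lit 410) (nat_lit 325) (nat_lit 153)) (XT.lf (nat_lit 0) (nat_lit 2492843136) (nat_lit 84) (nat_lit 57404621196) (nat_lit 168) (nat_lit 6312548603) (nat_lit 9) (nat_lit 5) (nat_lit 10) (nat_lit 5) (nat_lit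 11) (nat_lit 4) (nat_lit 411) (nat_lit 325) (nat_lit 152))) (XT.nd (nat_lit 94) (nat_lit 0) (nat_lit 0) (XT.lf (nat_lit 0) (nat_lit 12099292960) (nat_lit 84) (nat_lit 52537098045) (nat_lit 168) (nat_lit 3394028619) (nat_lit 9) (nat_lit 5) (nat_lit 10) (nat_lit 5) (nat_lit 11) (nat_lit 4) (nat_lit 412) (nat_lit 325) (nat_lit 151)) (XT.lf (nat_lit 0) (nat_lit 22000712539) (nat_lit 84) (nat_lit 47519567820) (nat_lit 168) (nat_lit 387048107) (nat_lit 9) (nat_lit 5) (nat_lit 10) (nat_lit 5) (nat_lit 11) (nat_lit 4) (nat_lit 413) (nat_lit 325) (nat_lit 150))))))))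
noncomputable def xc153 : XT := (XT.nd (nat_lit 48034) (nat_lit 0) (nat_lit 3780) (XT.nd (nat_lit 1128) (nat_lit 84) (nat_lit 0) (XT.nd (nat_lit 564) (nat_lit 0) (nat_lit 0) (XT.nd (nat_lit 282) (nat_lit 168) (nat_lit 0) (XT.nd (nat_lit 94) (nat_lit 0) (nat_lit 0) (XT.lf (nat_lit 0) (nat_lit 2656571201) (nat_lit 168) (nat_lit 39663053300) (nat_lit 84) (nat_lit 29522030678) (nat_lit 8) (nat_lit 5) (nat_lit 10) (nat_lit 5) (nat_lit 9) (nat_lit 5) (nat_lit 414) (nat_lit 325) (nat_lit 149)) (XT.nd (nat_lit 94) (nat_lit 0) (nat_lit 0) (XT.lf (nat_lit 0) (nat_lit 5784646651) (nat_lit 168) (nat_lit 31170608011) (nat_lit 84) (nat_lit 36880634651) (nat_lit 8) (nat_lit 5) (nat_lit 10) (nat_lit 5) (nat_lit 9) (nat_lit 5) (nat_lit 415) (nat_lit 325) (nat_lit 148)) (XT.lf (nat_lit 0) (nat_lit 9007892095) (nat_lit 168) (nat_lit 22417524644) (nat_lit 84) (nat_lit 44466591990) (nat_lit 8) (nat_lit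 5) (nat_lit 10) (nat_lit 5) (nat_lit 9) (nat_lit 5) (nat_lit 416) (nat_lit 325) (nat_lit 147)))) (XT.nd (nat_lit 94) (nat_lit 168) (nat_lit 0) (XT.lf (nat_lit 0) (nat_lit 12329311933) (nat_lit 168) (nat_lit 13395644410) (nat_lit 84) (nat_lit 52286973602) (nat_lit 8) (nat_lit 5) (nat_lit 10) (nat_lit 5) (nat_lit 9) (nat_lit 5) (nat_lit 417) (nat_lit 325) (nat_lit 146)) (XT.nd (nat_lit 94) (nat_lit 168) (nat_lit 0) (XT.lf (nat_lit 0) (nat_lit 15752002079) (nat_lit 168) (nat_lit 4096557971) (nat_lit 84) (nat_lit 60349068902) (nat_lit 8) (nat_lit 5) (nat_lit 10) (nat_lit 5) (nat_lit 9) (nat_lit 5) (nat_lit 418) (nat_lit 325) (nat_lit 145)) (XT.lf (nat_lit 0) (nat_lit 5601255204) (nat_lit 168) (nat_lit 13733462776) (nat_lit 252) (nat_lit 63114702547) (nat_lit 6) (nat_lit 5) (nat_lit 8) (nat_lit 5) (nat_lit 9) (nat_lit 5) (nat_lit 419) (nat_lit 325) (nat_lit 144))))) (XT.nd (nat_lit 282)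 (nat_lit 0) (nat_lit 0) (XT.nd (nat_lit 94) (nat_lit 0) (nat_lit 0) (XT.lf (nat_lit 0) (nat_lit 15684171989) (nat_lit 168) (nat_lit 7385468819) (nat_lit 252) (nat_lit 61700108680) (nat_lit 6) (nat_lit 5) (nat_lit 8) (nat_lit 5) (nat_lit 9) (nat_lit 5) (nat_lit 420) (nat_lit 325) (nat_lit 143)) (XT.nd (nat_lit 94) (nat_lit 0) (nat_lit 0) (XT.lf (nat_lit 0) (nat_lit 26077357081) (nat_lit 168) (nat_lit 841420846) (nat_lit 252) (nat_lit 60243286386) (nat_lit 6) (nat_lit 5) (nat_lit 8) (nat_lit 5) (nat_lit 9) (nat_lit 5) (nat_lit 421) (nat_lit 325) (nat_lit 142)) (XT.lf (nat_lit 0) (nat_lit 30944293297) (nat_lit 252) (nat_lit 52896673030) (nat_lit 84) (nat_lit 5785812705) (nat_lit 6) (nat_lit 5) (nat_lit 9) (nat_lit 5) (nat_lit 7) (nat_lit 4) (nat_lit 422) (nat_lit 325) (nat_lit 141)))) (XT.nd (nat_lit 94) (nat_lit 0) (nat_lit 0) (XT.lf (nat_lit 0) (nat_lit 35101723129) (nat_lit 252)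 (nat_lit 44465626800) (nat_lit 84) (nat_lit 12600335782) (nat_lit 6) (nat_lit 5) (nat_lit 9) (nat_lit 5) (nat_lit 7) (nat_lit 4) (nat_lit 423) (nat_lit 325) (nat_lit 140)) (XT.nd (nat_lit 94) (nat_lit 0) (nat_lit 0) (XT.lf (nat_lit 0) (nat_lit 39386595586) (nat_lit 252) (nat_lit 35775362925) (nat_lit 84) (nat_lit 19625452989) (nat_lit 6) (nat_lit 5) (nat_lit 9) (nat_lit 5) (nat_lit 7) (nat_lit 4) (nat_lit 424) (nat_lit 325) (nat_lit 139)) (XT.lf (nat_lit 0) (nat_lit 43802904618) (nat_lit 252) (nat_lit 26817781168) (nat_lit 84) (nat_lit 26867712472) (nat_lit 6) (nat_lit 5) (nat_lit 9) (nat_lit 5) (nat_lit 7) (nat_lit 4) (nat_lit 425) (nat_lit 325) (nat_lit 138)))))) (XT.nd (nat_lit 564) (nat_lit 0) (nat_lit 0) (XT.nd (nat_lit 282) (nat_lit 0) (nat_lit 0) (XT.nd (nat_lit 94) (nat_lit 84) (nat_lit 0) (XT.lf (nat_lit 0) (nat_lit 48354766687) (nat_lit 252) (nat_lit 17584532125) (nat_lit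 84) (nat_lit 34333864773) (nat_lit 6) (nat_lit 5) (nat_lit 9) (nat_lit 5) (nat_lit 7) (nat_lit 4) (nat_lit 426) (nat_lit 325) (nat_lit 137)) (XT.nd (nat_lit 94) (nat_lit 84) (nat_lit 0) (XT.lf (nat_lit 0) (nat_lit 53046424606) (nat_lit 252) (nat_lit 8067009440) (nat_lit 84) (nat_lit 42030869131) (nat_lit 6) (nat_lit 5) (nat_lit 9) (nat_lit 5) (nat_lit 7) (nat_lit 4) (nat_lit 427) (nat_lit 325) (nat_lit 136)) (XT.lf (nat_lit 0) (nat_lit 1779511401) (nat_lit 84) (nat_lit 56120393062) (nat_lit 168) (nat_lit 48204041529) (nat_lit 5) (nat_lit 5) (nat_lit 6) (nat_lit 5) (nat_lit 7) (nat_lit 4) (nat_lit 428) (nat_lit 325) (nat_lit 135)))) (XT.nd (nat_lit 94) (nat_lit 0) (nat_lit 0) (XT.lf (nat_lit 0) (nat_lit 12100411736) (nat_lit 84) (nat_lit 50886380685) (nat_lit 168) (nat_lit 46165979381) (nat_lit 5) (nat_lit 5) (nat_lit 6) (nat_lit 5) (nat_lit 7) (nat_lit 4) (nat_lit 429) (nat_lit 325)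 (nat_lit 134)) (XT.nd (nat_lit 94) (nat_lit 0) (nat_lit 0) (XT.lf (nat_lit 0) (nat_lit 22739437463) (nat_lit 84) (nat_lit 45490721301) (nat_lit 168) (nat_lit 44065995472) (nat_lit 5) (nat_lit 5) (nat_lit 6) (nat_lit 5) (nat_lit 7) (nat_lit 4) (nat_lit 430) (nat_lit 325) (nat_lit 133)) (XT.lf (nat_lit 0) (nat_lit 33706505269) (nat_lit 84) (nat_lit 39928385591) (nat_lit 168) (nat_lit 41902132399) (nat_lit 5) (nat_lit 5) (nat_lit 6) (nat_lit 5) (nat_lit 7) (nat_lit 4) (nat_lit 431) (nat_lit 325) (nat_lit 132))))) (XT.nd (nat_lit 45966) (nat_lit 0) (nat_lit 6384) (XT.nd (nat_lit 45778) (nat_lit 0) (nat_lit 7308) (XT.lf (nat_lit 0) (nat_lit 45011837611) (nat_lit 84) (nat_lit 34194188874) (nat_lit 168) (nat_lit 39672373214) (nat_lit 5) (nat_lit 5) (nat_lit 6) (nat_lit 5) (nat_lit 7) (nat_lit 4) (nat_lit 432) (nat_lit 325) (nat_lit 131)) (XT.nd (nat_lit 94) (nat_lit 0) (nat_lit 0) (XT.lf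 (nat_lit 0) (nat_lit 4809174370) (nat_lit 924) (nat_lit 299443064) (nat_lit 924) (nat_lit 299443064) (nat_lit 92) (nat_lit 3) (nat_lit 103) (nat_lit 3) (nat_lit 103) (nat_lit 5) (nat_lit 326) (nat_lit 326) (nat_lit 236)) (XT.lf (nat_lit 84) (nat_lit 3002126721) (nat_lit 0) (nat_lit 7245677939) (nat_lit 924) (nat_lit 717588820) (nat_lit 93) (nat_lit 5) (nat_lit 92) (nat_lit 3) (nat_lit 103) (nat_lit 5) (nat_lit 327) (nat_lit 326) (nat_lit 235)))) (XT.nd (nat_lit 188) (nat_lit 0) (nat_lit 84) (XT.nd (nat_lit 94) (nat_lit 924) (nat_lit 0) (XT.lf (nat_lit 84) (nat_lit 6717843092) (nat_lit 0) (nat_lit 4166929522) (nat_lit 924) (nat_lit 235033294) (nat_lit 93) (nat_lit 5) (nat_lit 92) (nat_lit 3) (nat_lit 103) (nat_lit 5) (nat_lit 328) (nat_lit 326) (nat_lit 234)) (XT.lf (nat_lit 0) (nat_lit 239175040) (nat_lit 924) (nat_lit 742699509) (nat_lit 1008) (nat_lit 10297740557) (nat_lit 81)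 (nat_lit 5) (nat_lit 92) (nat_lit 3) (nat_lit 93) (nat_lit 5) (nat_lit 329) (nat_lit 326) (nat_lit 233))) (XT.nd (nat_lit 94) (nat_lit 0) (nat_lit 0) (XT.lf (nat_lit 0) (nat_lit 759531619) (nat_lit 924) (nat_lit 8387164595) (nat_lit 1008) (nat_lit 2296609598) (nat_lit 82) (nat_lit 5) (nat_lit 93) (nat_lit 5) (nat_lit 94) (nat_lit 5) (nat_lit 330) (nat_lit 326) (nat_lit 232)) (XT.lf (nat_lit 0) (nat_lit 1296924002) (nat_lit 924) (nat_lit 4643634229) (nat_lit 1008) (nat_lit 5671608970) (nat_lit 82) (nat_lit 5) (nat_lit 93) (nat_lit 5) (nat_lit 94) (nat_lit 5) (nat_lit 331) (nat_lit 326) (nat_lit 231))))))) (XT.nd (nat_lit 1222) (nat_lit 2688) (nat_lit 0) (XT.nd (nat_lit 564) (nat_lit 0) (nat_lit 168) (XT.nd (nat_lit 282) (nat_lit 0) (nat_lit 84) (XT.nd (nat_lit 94) (nat_lit 0) (nat_lit 84) (XT.lf (nat_lit 0) (nat_lit 1834516709) (nat_lit 924) (nat_lit 793921456) (nat_lit 1008) (nat_lit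 9158455931) (nat_lit 82) (nat_lit 5) (nat_lit 93) (nat_lit 5) (nat_lit 94) (nat_lit 5) (nat_lit 332) (nat_lit 326) (nat_lit 230)) (XT.nd (nat_lit 94) (nat_lit 0) (nat_lit 0) (XT.lf (nat_lit 0) (nat_lit 2413051276) (nat_lit 924) (nat_lit 8744195326) (nat_lit 1008) (nat_lit 809155308) (nat_lit 83) (nat_lit 5) (nat_lit 94) (nat_lit 5) (nat_lit 95) (nat_lit 5) (nat_lit 333) (nat_lit 326) (nat_lit 229)) (XT.lf (nat_lit 0) (nat_lit 3029257447) (nat_lit 924) (nat_lit 4808650126) (nat_lit 1008) (nat_lit 4313068483) (nat_lit 83) (nat_lit 5) (nat_lit 94) (nat_lit 5) (nat_lit 95) (nat_lit 5) (nat_lit 334) (nat_lit 326) (nat_lit 228)))) (XT.nd (nat_lit 94) (nat_lit 0) (nat_lit 0) (XT.lf (nat_lit 0) (nat_lit 3649515207) (nat_lit 924) (nat_lit 760928799) (nat_lit 1008) (nat_lit 7931404595) (nat_lit 83) (nat_lit 5) (nat_lit 94) (nat_lit 5) (nat_lit 95) (nat_lit 5) (nat_lit 335) (nat_lit 326) (nat_lit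 227)) (XT.nd (nat_lit 94) (nat_lit 0) (nat_lit 84) (XT.lf (nat_lit 84) (nat_lit 3472708900) (nat_lit 0) (nat_lit 836143506) (nat_lit 1008) (nat_lit 8229277115) (nat_lit 84) (nat_lit 5) (nat_lit 83) (nat_lit 5) (nat_lit 95) (nat_lit 5) (nat_lit 336) (nat_lit 326) (nat_lit 226)) (XT.lf (nat_lit 0) (nat_lit 5010709772) (nat_lit 924) (nat_lit 4924898546) (nat_lit 1008) (nat_lit 2804305838) (nat_lit 84) (nat_lit 5) (nat_lit 95) (nat_lit 5) (nat_lit 96) (nat_lit 5) (nat_lit 337) (nat_lit 326) (nat_lit 225))))) (XT.nd (nat_lit 282) (nat_lit 0) (nat_lit 84) (XT.nd (nat_lit 94) (nat_lit 0) (nat_lit 0) (XT.lf (nat_lit 0) (nat_lit 5729098518) (nat_lit 924) (nat_lit 674297580) (nat_lit 1008) (nat_lit 6544820426) (nat_lit 84) (nat_lit 5) (nat_lit 95) (nat_lit 5) (nat_lit 96) (nat_lit 5) (nat_lit 338) (nat_lit 326) (nat_lit 224)) (XT.nd (nat_lit 94) (nat_lit 0) (nat_lit 84) (XT.lf (nat_lit 84)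 (nat_lit 3774690531) (nat_lit 0) (nat_lit 2719148480) (nat_lit 1008) (nat_lit 6668488103) (nat_lit 85) (nat_lit 5) (nat_lit 84) (nat_lit 5) (nat_lit 96) (nat_lit 5) (nat_lit 339) (nat_lit 326) (nat_lit 223)) (XT.lf (nat_lit 0) (nat_lit 7287085982) (nat_lit 924) (nat_lit 5027617396) (nat_lit 1008) (nat_lit 1068317418) (nat_lit 85) (nat_lit 5) (nat_lit 96) (nat_lit 5) (nat_lit 97) (nat_lit 5) (nat_lit 340) (nat_lit 326) (nat_lit 222)))) (XT.nd (nat_lit 188) (nat_lit 0) (nat_lit 0) (XT.nd (nat_lit 94) (nat_lit 0) (nat_lit 0) (XT.lf (nat_lit 0) (nat_lit 8120107872) (nat_lit 924) (nat_lit 569824826) (nat_lit 1008) (nat_lit 4920244183) (nat_lit 85) (nat_lit 5) (nat_lit 96) (nat_lit 5) (nat_lit 97) (nat_lit 5) (nat_lit 341) (nat_lit 326) (nat_lit 221)) (XT.lf (nat_lit 84) (nat_lit 4099465641) (nat_lit 0) (nat_lit 4907908421) (nat_lit 1008) (nat_lit 4836208560) (nat_lit 86) (nat_lit 5) (nat_lit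 85) (nat_lit 5) (nat_lit 97) (nat_lit 5) (nat_lit 342) (nat_lit 326) (nat_lit 220))) (XT.nd (nat_lit 94) (nat_lit 0) (nat_lit 84) (XT.lf (nat_lit 84) (nat_lit 8916389373) (nat_lit 0) (nat_lit 999734365) (nat_lit 1008) (nat_lit 4168373063) (nat_lit 86) (nat_lit 5) (nat_lit 85) (nat_lit 5) (nat_lit 97) (nat_lit 5) (nat_lit 343) (nat_lit 326) (nat_lit 219)) (XT.lf (nat_lit 0) (nat_lit 10871515623) (nat_lit 924) (nat_lit 489683972) (nat_lit 84) (nat_lit 2971190718) (nat_lit 86) (nat_lit 5) (nat_lit 97) (nat_lit 5) (nat_lit 87) (nat_lit 5) (nat_lit 344) (nat_lit 326) (nat_lit 218)))))) (XT.nd (nat_lit 564) (nat_lit 1344) (nat_lit 0) (XT.nd (nat_lit 282) (nat_lit 756) (nat_lit 0) (XT.nd (nat_lit 94) (nat_lit 0) (nat_lit 0) (XT.lf (nat_lit 0) (nat_lit 4403153242) (nat_lit 924) (nat_lit 7496041475) (nat_lit 1008) (nat_lit 2687532114) (nat_lit 75) (nat_lit 5) (nat_lit 86) (nat_lit 5) (nat_lit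 87) (nat_lit 5) (nat_lit 345) (nat_lit 326) (nat_lit 217)) (XT.nd (nat_lit 94) (nat_lit 0) (nat_lit 0) (XT.lf (nat_lit 0) (nat_lit 9449035483) (nat_lit 924) (nat_lit 3503821366) (nat_lit 1008) (nat_lit 1896351700) (nat_lit 75) (nat_lit 5) (nat_lit 86) (nat_lit 5) (nat_lit 87) (nat_lit 5) (nat_lit 346) (nat_lit 326) (nat_lit 216)) (XT.lf (nat_lit 0) (nat_lit 14034618189) (nat_lit 1008) (nat_lit 483728336) (nat_lit 84) (nat_lit 601698447) (nat_lit 75) (nat_lit 5) (nat_lit 87) (nat_lit 5) (nat_lit 76) (nat_lit 5) (nat_lit 347) (nat_lit 326) (nat_lit 215)))) (XT.nd (nat_lit 94) (nat_lit 84) (nat_lit 0) (XT.lf (nat_lit 0) (nat_lit 4633757362) (nat_lit 672) (nat_lit 10587642899) (nat_lit 756) (nat_lit 175734976) (nat_lit 67) (nat_lit 5) (nat_lit 75) (nat_lit 5) (nat_lit 76) (nat_lit 5) (nat_lit 348) (nat_lit 326) (nat_lit 214)) (XT.nd (nat_lit 94) (nat_lit 0) (nat_lit 0) (XT.lf (nat_lit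 0) (nat_lit 741634448) (nat_lit 756) (nat_lit 5779214758) (nat_lit 84) (nat_lit 9161961495) (nat_lit 66) (nat_lit 5) (nat_lit 75) (nat_lit 5) (nat_lit 67) (nat_lit 5) (nat_lit 349) (nat_lit 326) (nat_lit 213)) (XT.lf (nat_lit 0) (nat_lit 1673832799) (nat_lit 756) (nat_lit 651150364) (nat_lit 84) (nat_lit 13652679462) (nat_lit 66) (nat_lit 5) (nat_lit 75) (nat_lit 5) (nat_lit 67) (nat_lit 5) (nat_lit 350) (nat_lit 326) (nat_lit 212))))) (XT.nd (nat_lit 282) (nat_lit 840) (nat_lit 0) (XT.nd (nat_lit 94) (nat_lit 0) (nat_lit 0) (XT.lf (nat_lit 0) (nat_lit 2692457209) (nat_lit 588) (nat_lit 11578421443) (nat_lit 84) (nat_lit 2009058421) (nat_lit 60) (nat_lit 5) (nat_lit 67) (nat_lit 5) (nat_lit 61) (nat_lit 5) (nat_lit 351) (nat_lit 326) (nat_lit 211)) (XT.nd (nat_lit 94) (nat_lit 0) (nat_lit 0) (XT.lf (nat_lit 0) (nat_lit 3763861017) (nat_lit 588) (nat_lit 6390127055) (nat_lit 84) (nat_lit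 6437000204) (nat_lit 60) (nat_lit 5) (nat_lit 67) (nat_lit 5) (nat_lit 61) (nat_lit 5) (nat_lit 352) (nat_lit 326) (nat_lit 210)) (XT.lf (nat_lit 0) (nat_lit 4859319027) (nat_lit 588) (nat_lit 1049555597) (nat_lit 84) (nat_lit 11003152983) (nat_lit 60) (nat_lit 5) (nat_lit 67) (nat_lit 5) (nat_lit 61) (nat_lit 5) (nat_lit 353) (nat_lit 326) (nat_lit 209)))) (XT.nd (nat_lit 188) (nat_lit 420) (nat_lit 0) (XT.nd (nat_lit 94) (nat_lit 0) (nat_lit 0) (XT.lf (nat_lit 0) (nat_lit 4539736475) (nat_lit 420) (nat_lit 1485150592) (nat_lit 504) (nat_lit 11217071162) (nat_lit 55) (nat_lit 5) (nat_lit 60) (nat_lit 5) (nat_lit 61) (nat_lit 5) (nat_lit 354) (nat_lit 326) (nat_lit 208)) (XT.lf (nat_lit 0) (nat_lit 7259472818) (nat_lit 504) (nat_lit 7296404892) (nat_lit 84) (nat_lit 3025277503) (nat_lit 55) (nat_lit 5) (nat_lit 61) (nat_lit 5) (nat_lit 56) (nat_lit 5) (nat_lit 355) (nat_lit 326)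 (nat_lit 207))) (XT.nd (nat_lit 94) (nat_lit 420) (nat_lit 0) (XT.lf (nat_lit 0) (nat_lit 8539088155) (nat_lit 504) (nat_lit 1746491170) (nat_lit 84) (nat_lit 7645134708) (nat_lit 55) (nat_lit 5) (nat_lit 61) (nat_lit 5) (nat_lit 56) (nat_lit 5) (nat_lit 356) (nat_lit 326) (nat_lit 206)) (XT.lf (nat_lit 0) (nat_lit 4049003794) (nat_lit 420) (nat_lit 5841355761) (nat_lit 504) (nat_lit 8399812514) (nat_lit 50) (nat_lit 5) (nat_lit 55) (nat_lit 5) (nat_lit 56) (nat_lit 5) (nat_lit 357) (nat_lit 326) (nat_lit 205))))))))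
noncomputable def xc154 : XT := (XT.nd (nat_lit 2350) (nat_lit 1008) (nat_lit 0) (XT.nd (nat_lit 1128) (nat_lit 1176) (nat_lit 0) (XT.nd (nat_lit 564) (nat_lit 420) (nat_lit 0) (XT.nd (nat_lit 282) (nat_lit 420) (nat_lit 0) (XT.nd (nat_lit 94) (nat_lit 336) (nat_lit 0) (XT.lf (nat_lit 0) (nat_lit 10053220755) (nat_lit 420) (nat_lit 1240517689) (nat_lit 504) (nat_lit 7366770980) (nat_lit 50) (nat_lit 5) (nat_lit 55) (nat_lit 5) (nat_lit 56) (nat_lit 5) (nat_lit 358) (nat_lit 326) (nat_lit 204)) (XT.nd (nat_lit 94) (nat_lit 336) (nat_lit 0) (XT.lf (nat_lit 0) (nat_lit 12767601393) (nat_lit 504) (nat_lit 2841524720) (nat_lit 84) (nat_lit 3432416054) (nat_lit 50) (nat_lit 5) (nat_lit 56) (nat_lit 5) (nat_lit 51) (nat_lit 5) (nat_lit 359) (nat_lit 326) (nat_lit 203)) (XT.lf (nat_lit 0) (nat_lit 3145897932) (nat_lit 336) (nat_lit 11177614725) (nat_lit 420) (nat_lit 5109796901) (nat_lit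 46) (nat_lit 5) (nat_lit 50) (nat_lit 5) (nat_lit 51) (nat_lit 5) (nat_lit 360) (nat_lit 326) (nat_lit 202)))) (XT.nd (nat_lit 94) (nat_lit 420) (nat_lit 0) (XT.lf (nat_lit 0) (nat_lit 9371473004) (nat_lit 336) (nat_lit 6578457411) (nat_lit 420) (nat_lit 3886649104) (nat_lit 46) (nat_lit 5) (nat_lit 50) (nat_lit 5) (nat_lit 51) (nat_lit 5) (nat_lit 361) (nat_lit 326) (nat_lit 201)) (XT.nd (nat_lit 94) (nat_lit 420) (nat_lit 0) (XT.lf (nat_lit 0) (nat_lit 15782575807) (nat_lit 336) (nat_lit 1837026965) (nat_lit 420) (nat_lit 2633016975) (nat_lit 46) (nat_lit 5) (nat_lit 50) (nat_lit 5) (nat_lit 51) (nat_lit 5) (nat_lit 362) (nat_lit 326) (nat_lit 200)) (XT.lf (nat_lit 0) (nat_lit 1707499178) (nat_lit 420) (nat_lit 17673792712) (nat_lit 504) (nat_lit 1299062759) (nat_lit 41) (nat_lit 5) (nat_lit 46) (nat_lit 5) (nat_lit 47) (nat_lit 5) (nat_lit 363) (nat_lit 326) (nat_lit 199)))))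 (XT.nd (nat_lit 282) (nat_lit 336) (nat_lit 0) (XT.nd (nat_lit 94) (nat_lit 0) (nat_lit 0) (XT.lf (nat_lit 0) (nat_lit 133702353) (nat_lit 504) (nat_lit 12976224059) (nat_lit 84) (nat_lit 8009613353) (nat_lit 40) (nat_lit 5) (nat_lit 46) (nat_lit 5) (nat_lit 41) (nat_lit 5) (nat_lit 364) (nat_lit 326) (nat_lit 198)) (XT.nd (nat_lit 94) (nat_lit 0) (nat_lit 0) (XT.lf (nat_lit 0) (nat_lit 1577177652) (nat_lit 504) (nat_lit 6814362500) (nat_lit 84) (nat_lit 13180637360) (nat_lit 40) (nat_lit 5) (nat_lit 46) (nat_lit 5) (nat_lit 41) (nat_lit 5) (nat_lit 365) (nat_lit 326) (nat_lit 197)) (XT.lf (nat_lit 0) (nat_lit 3058881825) (nat_lit 504) (nat_lit 468640433) (nat_lit 84) (nat_lit 18511567032) (nat_lit 40) (nat_lit 5) (nat_lit 46) (nat_lit 5) (nat_lit 41) (nat_lit 5) (nat_lit 366) (nat_lit 326) (nat_lit 196)))) (XT.nd (nat_lit 94) (nat_lit 0) (nat_lit 0) (XT.lf (nat_lit 0) (nat_lit 4656993514)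 (nat_lit 420) (nat_lit 16342578259) (nat_lit 84) (nat_lit 1518757812) (nat_lit 36) (nat_lit 5) (nat_lit 41) (nat_lit 5) (nat_lit 37) (nat_lit 5) (nat_lit 367) (nat_lit 326) (nat_lit 195)) (XT.nd (nat_lit 94) (nat_lit 0) (nat_lit 0) (XT.lf (nat_lit 0) (nat_lit 6339459035) (nat_lit 420) (nat_lit 10019443897) (nat_lit 84) (nat_lit 6652482009) (nat_lit 36) (nat_lit 5) (nat_lit 41) (nat_lit 5) (nat_lit 37) (nat_lit 5) (nat_lit 368) (nat_lit 326) (nat_lit 194)) (XT.lf (nat_lit 0) (nat_lit 8068060077) (nat_lit 420) (nat_lit 3507174122) (nat_lit 84) (nat_lit 11944714123) (nat_lit 36) (nat_lit 5) (nat_lit 41) (nat_lit 5) (nat_lit 37) (nat_lit 5) (nat_lit 369) (nat_lit 326) (nat_lit 193)))))) (XT.nd (nat_lit 564) (nat_lit 588) (nat_lit 0) (XT.nd (nat_lit 282) (nat_lit 252) (nat_lit 0) (XT.nd (nat_lit 94) (nat_lit 0) (nat_lit 0) (XT.lf (nat_lit 0) (nat_lit 3266105940) (nat_lit 336) (nat_lit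 6610702111) (nat_lit 420) (nat_lit 14166681305) (nat_lit 32) (nat_lit 5) (nat_lit 36) (nat_lit 5) (nat_lit 37) (nat_lit 5) (nat_lit 370) (nat_lit 326) (nat_lit 192)) (XT.nd (nat_lit 94) (nat_lit 0) (nat_lit 0) (XT.lf (nat_lit 0) (nat_lit 10317100679) (nat_lit 336) (nat_lit 1455404412) (nat_lit 420) (nat_lit 12809832344) (nat_lit 32) (nat_lit 5) (nat_lit 36) (nat_lit 5) (nat_lit 37) (nat_lit 5) (nat_lit 371) (nat_lit 326) (nat_lit 191)) (XT.lf (nat_lit 0) (nat_lit 13759691531) (nat_lit 420) (nat_lit 7596108209) (nat_lit 84) (nat_lit 3781109110) (nat_lit 32) (nat_lit 5) (nat_lit 37) (nat_lit 5) (nat_lit 33) (nat_lit 5) (nat_lit 372) (nat_lit 326) (nat_lit 190)))) (XT.nd (nat_lit 94) (nat_lit 252) (nat_lit 0) (XT.lf (nat_lit 0) (nat_lit 15817967486) (nat_lit 420) (nat_lit 741529296) (nat_lit 84) (nat_lit 9148913554) (nat_lit 32) (nat_lit 5) (nat_lit 37) (nat_lit 5) (nat_lit 33) (nat_lit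 5) (nat_lit 373) (nat_lit 326) (nat_lit 189)) (XT.nd (nat_lit 94) (nat_lit 0) (nat_lit 0) (XT.lf (nat_lit 0) (nat_lit 6449265282) (nat_lit 252) (nat_lit 11549525920) (nat_lit 336) (nat_lit 8297047658) (nat_lit 29) (nat_lit 5) (nat_lit 32) (nat_lit 5) (nat_lit 33) (nat_lit 5) (nat_lit 374) (nat_lit 326) (nat_lit 188)) (XT.lf (nat_lit 0) (nat_lit 13872542838) (nat_lit 252) (nat_lit 6377277777) (nat_lit 336) (nat_lit 6651606972) (nat_lit 29) (nat_lit 5) (nat_lit 32) (nat_lit 5) (nat_lit 33) (nat_lit 5) (nat_lit 375) (nat_lit 326) (nat_lit 187))))) (XT.nd (nat_lit 282) (nat_lit 336) (nat_lit 0) (XT.nd (nat_lit 94) (nat_lit 252) (nat_lit 0) (XT.lf (nat_lit 0) (nat_lit 21519975280) (nat_lit 252) (nat_lit 1045671321) (nat_lit 336) (nat_lit 4960327114) (nat_lit 29) (nat_lit 5) (nat_lit 32) (nat_lit 5) (nat_lit 33) (nat_lit 5) (nat_lit 376) (nat_lit 326) (nat_lit 186)) (XT.nd (nat_lit 94)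 (nat_lit 0) (nat_lit 0) (XT.lf (nat_lit 0) (nat_lit 1208839693) (nat_lit 252) (nat_lit 23795727061) (nat_lit 336) (nat_lit 3163752324) (nat_lit 26) (nat_lit 5) (nat_lit 29) (nat_lit 5) (nat_lit 30) (nat_lit 5) (nat_lit 377) (nat_lit 326) (nat_lit 185)) (XT.lf (nat_lit 0) (nat_lit 8757850972) (nat_lit 252) (nat_lit 18829761551) (nat_lit 336) (nat_lit 1240868386) (nat_lit 26) (nat_lit 5) (nat_lit 29) (nat_lit 5) (nat_lit 30) (nat_lit 5) (nat_lit 378) (nat_lit 326) (nat_lit 184)))) (XT.nd (nat_lit 188) (nat_lit 252) (nat_lit 0) (XT.nd (nat_lit 94) (nat_lit 0) (nat_lit 0) (XT.lf (nat_lit 0) (nat_lit 721994553) (nat_lit 336) (nat_lit 12981424663) (nat_lit 84) (nat_lit 15805632012) (nat_lit 25) (nat_lit 5) (nat_lit 29) (nat_lit 5) (nat_lit 26) (nat_lit 5) (nat_lit 379) (nat_lit 326) (nat_lit 183)) (XT.lf (nat_lit 0) (nat_lit 2715383145) (nat_lit 336) (nat_lit 5690811047) (nat_lit 84) (nat_lit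 21804297993) (nat_lit 25) (nat_lit 5) (nat_lit 29) (nat_lit 5) (nat_lit 26) (nat_lit 5) (nat_lit 380) (nat_lit 326) (nat_lit 182))) (XT.nd (nat_lit 94) (nat_lit 0) (nat_lit 0) (XT.lf (nat_lit 0) (nat_lit 1857745529) (nat_lit 252) (nat_lit 2926839705) (nat_lit 336) (nat_lit 26148682654) (nat_lit 22) (nat_lit 5) (nat_lit 25) (nat_lit 5) (nat_lit 26) (nat_lit 5) (nat_lit 381) (nat_lit 326) (nat_lit 181)) (XT.lf (nat_lit 0) (nat_lit 7000603855) (nat_lit 336) (nat_lit 21948859553) (nat_lit 84) (nat_lit 2726447331) (nat_lit 22) (nat_lit 5) (nat_lit 26) (nat_lit 5) (nat_lit 23) (nat_lit 5) (nat_lit 382) (nat_lit 326) (nat_lit 180))))))) (XT.nd (nat_lit 1222) (nat_lit 336) (nat_lit 0) (XT.nd (nat_lit 564) (nat_lit 420) (nat_lit 0) (XT.nd (nat_lit 282) (nat_lit 0) (nat_lit 0) (XT.nd (nat_lit 94) (nat_lit 252) (nat_lit 0) (XT.lf (nat_lit 0) (nat_lit 9311041370) (nat_lit 336) (nat_lit 14636623961)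 (nat_lit 84) (nat_lit 8493135986) (nat_lit 22) (nat_lit 5) (nat_lit 26) (nat_lit 5) (nat_lit 23) (nat_lit 5) (nat_lit 383) (nat_lit 326) (nat_lit 179)) (XT.nd (nat_lit 94) (nat_lit 252) (nat_lit 0) (XT.lf (nat_lit 0) (nat_lit 11689016737) (nat_lit 336) (nat_lit 7102965202) (nat_lit 84) (nat_lit 14437570713) (nat_lit 22) (nat_lit 5) (nat_lit 26) (nat_lit 5) (nat_lit 23) (nat_lit 5) (nat_lit 384) (nat_lit 326) (nat_lit 178)) (XT.lf (nat_lit 0) (nat_lit 672692130) (nat_lit 252) (nat_lit 13470727538) (nat_lit 336) (nat_lit 19899273407) (nat_lit 19) (nat_lit 5) (nat_lit 22) (nat_lit 5) (nat_lit 23) (nat_lit 5) (nat_lit 385) (nat_lit 326) (nat_lit 177)))) (XT.nd (nat_lit 94) (nat_lit 0) (nat_lit 0) (XT.lf (nat_lit 0) (nat_lit 8834927489) (nat_lit 252) (nat_lit 7909228222) (nat_lit 336) (nat_lit 18134728657) (nat_lit 19) (nat_lit 5) (nat_lit 22) (nat_lit 5) (nat_lit 23) (nat_lit 5) (nat_lit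 386) (nat_lit 326) (nat_lit 176)) (XT.nd (nat_lit 94) (nat_lit 0) (nat_lit 0) (XT.lf (nat_lit 0) (nat_lit 17245297399) (nat_lit 252) (nat_lit 2176440481) (nat_lit 336) (nat_lit 16319397313) (nat_lit 19) (nat_lit 5) (nat_lit 22) (nat_lit 5) (nat_lit 23) (nat_lit 5) (nat_lit 387) (nat_lit 326) (nat_lit 175)) (XT.lf (nat_lit 0) (nat_lit 22215693578) (nat_lit 336) (nat_lit 10755639667) (nat_lit 84) (nat_lit 3657768032) (nat_lit 19) (nat_lit 5) (nat_lit 23) (nat_lit 5) (nat_lit 20) (nat_lit 5) (nat_lit 388) (nat_lit 326) (nat_lit 174))))) (XT.nd (nat_lit 282) (nat_lit 252) (nat_lit 0) (XT.nd (nat_lit 94) (nat_lit 168) (nat_lit 0) (XT.lf (nat_lit 0) (nat_lit 25114958344) (nat_lit 336) (nat_lit 2802479103) (nat_lit 84) (nat_lit 9626596583) (nat_lit 19) (nat_lit 5) (nat_lit 23) (nat_lit 5) (nat_lit 20) (nat_lit 5) (nat_lit 389) (nat_lit 326) (nat_lit 173)) (XT.nd (nat_lit 94) (nat_lit 0)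 (nat_lit 0) (XT.lf (nat_lit 0) (nat_lit 5503531532) (nat_lit 168) (nat_lit 22651708217) (nat_lit 252) (nat_lit 10330523353) (nat_lit 17) (nat_lit 5) (nat_lit 19) (nat_lit 5) (nat_lit 20) (nat_lit 5) (nat_lit 390) (nat_lit 326) (nat_lit 172)) (XT.lf (nat_lit 0) (nat_lit 14121904167) (nat_lit 168) (nat_lit 17193720497) (nat_lit 252) (nat_lit 8140277780) (nat_lit 17) (nat_lit 5) (nat_lit 19) (nat_lit 5) (nat_lit 20) (nat_lit 5) (nat_lit 391) (nat_lit 326) (nat_lit 171)))) (XT.nd (nat_lit 188) (nat_lit 252) (nat_lit 0) (XT.nd (nat_lit 94) (nat_lit 0) (nat_lit 0) (XT.lf (nat_lit 0) (nat_lit 23003047309) (nat_lit 168) (nat_lit 11567639004) (nat_lit 252) (nat_lit 5885549563) (nat_lit 17) (nat_lit 5) (nat_lit 19) (nat_lit 5) (nat_lit 20) (nat_lit 5) (nat_lit 392) (nat_lit 326) (nat_lit 170)) (XT.lf (nat_lit 0) (nat_lit 32155239113) (nat_lit 168) (nat_lit 5768219640) (nat_lit 252) (nat_lit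 3564237058) (nat_lit 17) (nat_lit 5) (nat_lit 19) (nat_lit 5) (nat_lit 20) (nat_lit 5) (nat_lit 393) (nat_lit 326) (nat_lit 169))) (XT.nd (nat_lit 94) (nat_lit 252) (nat_lit 0) (XT.lf (nat_lit 0) (nat_lit 41379149785) (nat_lit 252) (nat_lit 966315964) (nat_lit 84) (nat_lit 205713370) (nat_lit 17) (nat_lit 5) (nat_lit 20) (nat_lit 5) (nat_lit 18) (nat_lit 5) (nat_lit 394) (nat_lit 326) (nat_lit 168)) (XT.lf (nat_lit 0) (nat_lit 1402484010) (nat_lit 252) (nat_lit 35905468862) (nat_lit 84) (nat_lit 6335134111) (nat_lit 14) (nat_lit 5) (nat_lit 17) (nat_lit 5) (nat_lit 15) (nat_lit 5) (nat_lit 395) (nat_lit 326) (nat_lit 167)))))) (XT.nd (nat_lit 564) (nat_lit 168) (nat_lit 0) (XT.nd (nat_lit 282) (nat_lit 168) (nat_lit 0) (XT.nd (nat_lit 94) (nat_lit 0) (nat_lit 0) (XT.lf (nat_lit 0) (nat_lit 4039638878) (nat_lit 252) (nat_lit 28052910779) (nat_lit 84) (nat_lit 12675715357) (nat_lit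 14) (nat_lit 5) (nat_lit 17) (nat_lit 5) (nat_lit 15) (nat_lit 5) (nat_lit 396) (nat_lit 326) (nat_lit 166)) (XT.nd (nat_lit 94) (nat_lit 0) (nat_lit 0) (XT.lf (nat_lit 0) (nat_lit 6755624014) (nat_lit 252) (nat_lit 19960947410) (nat_lit 84) (nat_lit 19211857380) (nat_lit 14) (nat_lit 5) (nat_lit 17) (nat_lit 5) (nat_lit 15) (nat_lit 5) (nat_lit 397) (nat_lit 326) (nat_lit 165)) (XT.lf (nat_lit 0) (nat_lit 9552970998) (nat_lit 252) (nat_lit 11622036196) (nat_lit 84) (nat_lit 25949652548) (nat_lit 14) (nat_lit 5) (nat_lit 17) (nat_lit 5) (nat_lit 15) (nat_lit 5) (nat_lit 398) (nat_lit 326) (nat_lit 164)))) (XT.nd (nat_lit 94) (nat_lit 168) (nat_lit 0) (XT.lf (nat_lit 0) (nat_lit 12434287253) (nat_lit 252) (nat_lit 3028404400) (nat_lit 84) (nat_lit 32895381193) (nat_lit 14) (nat_lit 5) (nat_lit 17) (nat_lit 5) (nat_lit 15) (nat_lit 5) (nat_lit 399) (nat_lit 326) (nat_lit 163)) (XT.nd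 (nat_lit 94) (nat_lit 0) (nat_lit 0) (XT.lf (nat_lit 0) (nat_lit 5947792916) (nat_lit 168) (nat_lit 9513468391) (nat_lit 252) (nat_lit 34166727386) (nat_lit 12) (nat_lit 5) (nat_lit 14) (nat_lit 5) (nat_lit 15) (nat_lit 5) (nat_lit 400) (nat_lit 326) (nat_lit 162)) (XT.lf (nat_lit 0) (nat_lit 15262818269) (nat_lit 168) (nat_lit 3348241875) (nat_lit 252) (nat_lit 32325326126) (nat_lit 12) (nat_lit 5) (nat_lit 14) (nat_lit 5) (nat_lit 15) (nat_lit 5) (nat_lit 401) (nat_lit 326) (nat_lit 161))))) (XT.nd (nat_lit 282) (nat_lit 168) (nat_lit 0) (XT.nd (nat_lit 94) (nat_lit 0) (nat_lit 0) (XT.lf (nat_lit 0) (nat_lit 21885790873) (nat_lit 252) (nat_lit 27452182609) (nat_lit 84) (nat_lit 2946537349) (nat_lit 12) (nat_lit 5) (nat_lit 15) (nat_lit 5) (nat_lit 13) (nat_lit 5) (nat_lit 402) (nat_lit 326) (nat_lit 160)) (XT.nd (nat_lit 94) (nat_lit 0) (nat_lit 0) (XT.lf (nat_lit 0) (nat_lit 25293806986)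 (nat_lit 252) (nat_lit 19013677505) (nat_lit 84) (nat_lit 9365970148) (nat_lit 12) (nat_lit 5) (nat_lit 15) (nat_lit 5) (nat_lit 13) (nat_lit 5) (nat_lit 403) (nat_lit 326) (nat_lit 159)) (XT.lf (nat_lit 0) (nat_lit 28805070135) (nat_lit 252) (nat_lit 10316972145) (nat_lit 84) (nat_lit 15983499717) (nat_lit 12) (nat_lit 5) (nat_lit 15) (nat_lit 5) (nat_lit 13) (nat_lit 5) (nat_lit 404) (nat_lit 326) (nat_lit 158)))) (XT.nd (nat_lit 188) (nat_lit 0) (nat_lit 0) (XT.nd (nat_lit 94) (nat_lit 168) (nat_lit 0) (XT.lf (nat_lit 0) (nat_lit 32422853186) (nat_lit 252) (nat_lit 1353960289) (nat_lit 84) (nat_lit 22805294287) (nat_lit 12) (nat_lit 5) (nat_lit 15) (nat_lit 5) (nat_lit 13) (nat_lit 5) (nat_lit 405) (nat_lit 326) (nat_lit 157)) (XT.lf (nat_lit 0) (nat_lit 8045817827) (nat_lit 168) (nat_lit 28184525973) (nat_lit 252) (nat_lit 21871710166) (nat_lit 10) (nat_lit 5) (nat_lit 12) (nat_lit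 5) (nat_lit 13) (nat_lit 5) (nat_lit 406) (nat_lit 326) (nat_lit 156))) (XT.nd (nat_lit 94) (nat_lit 0) (nat_lit 0) (XT.lf (nat_lit 0) (nat_lit 17762532227) (nat_lit 168) (nat_lit 22405244326) (nat_lit 252) (nat_lit 19500983550) (nat_lit 10) (nat_lit 5) (nat_lit 12) (nat_lit 5) (nat_lit 13) (nat_lit 5) (nat_lit 407) (nat_lit 326) (nat_lit 155)) (XT.lf (nat_lit 0) (nat_lit 27777399706) (nat_lit 168) (nat_lit 16447714208) (nat_lit 252) (nat_lit 17058997533) (nat_lit 10) (nat_lit 5) (nat_lit 12) (nat_lit 5) (nat_lit 13) (nat_lit 5) (nat_lit 408) (nat_lit 326) (nat_lit 154))))))))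
noncomputable def xc155 : XT := (XT.nd (nat_lit 48222) (nat_lit 0) (nat_lit 4620) (XT.nd (nat_lit 1222) (nat_lit 84) (nat_lit 0) (XT.nd (nat_lit 564) (nat_lit 252) (nat_lit 0) (XT.nd (nat_lit 282) (nat_lit 84) (nat_lit 0) (XT.nd (nat_lit 94) (nat_lit 0) (nat_lit 0) (XT.lf (nat_lit 0) (nat_lit 38099755169) (nat_lit 168) (nat_lit 10306382577) (nat_lit 252) (nat_lit 14543475929) (nat_lit 10) (nat_lit 5) (nat_lit 12) (nat_lit 5) (nat_lit 13) (nat_lit 5) (nat_lit 409) (nat_lit 326) (nat_lit 153)) (XT.nd (nat_lit 94) (nat_lit 0) (nat_lit 0) (XT.lf (nat_lit 0) (nat_lit 48739220133) (nat_lit 168) (nat_lit 3975525067) (nat_lit 252) (nat_lit 11952074006) (nat_lit 10) (nat_lit 5) (nat_lit 12) (nat_lit 5) (nat_lit 13) (nat_lit 5) (nat_lit 410) (nat_lit 326) (nat_lit 152)) (XT.lf (nat_lit 0) (nat_lit 57180256199) (nat_lit 252) (nat_lit 6756920813) (nat_lit 84) (nat_lit 2499367226) (nat_lit 10)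 (nat_lit 5) (nat_lit 13) (nat_lit 5) (nat_lit 11) (nat_lit 4) (nat_lit 411) (nat_lit 326) (nat_lit 151)))) (XT.nd (nat_lit 94) (nat_lit 0) (nat_lit 0) (XT.lf (nat_lit 0) (nat_lit 2709199365) (nat_lit 84) (nat_lit 59140618566) (nat_lit 168) (nat_lit 6409287879) (nat_lit 9) (nat_lit 5) (nat_lit 10) (nat_lit 5) (nat_lit 11) (nat_lit 4) (nat_lit 412) (nat_lit 326) (nat_lit 150)) (XT.nd (nat_lit 94) (nat_lit 0) (nat_lit 0) (XT.lf (nat_lit 0) (nat_lit 12609267348) (nat_lit 84) (nat_lit 54123511530) (nat_lit 168) (nat_lit 3403268986) (nat_lit 9) (nat_lit 5) (nat_lit 10) (nat_lit 5) (nat_lit 11) (nat_lit 4) (nat_lit 413) (nat_lit 326) (nat_lit 149)) (XT.lf (nat_lit 0) (nat_lit 22813574886) (nat_lit 84) (nat_lit 48951707832) (nat_lit 168) (nat_lit 305957830) (nat_lit 9) (nat_lit 5) (nat_lit 10) (nat_lit 5) (nat_lit 11) (nat_lit 4) (nat_lit 414) (nat_lit 326) (nat_lit 148))))) (XT.nd (nat_lit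 282) (nat_lit 168) (nat_lit 0) (XT.nd (nat_lit 94) (nat_lit 0) (nat_lit 0) (XT.lf (nat_lit 0) (nat_lit 2827395555) (nat_lit 168) (nat_lit 40763479043) (nat_lit 84) (nat_lit 30474725697) (nat_lit 8) (nat_lit 5) (nat_lit 10) (nat_lit 5) (nat_lit 9) (nat_lit 5) (nat_lit 415) (nat_lit 326) (nat_lit 147)) (XT.nd (nat_lit 94) (nat_lit 0) (nat_lit 0) (XT.lf (nat_lit 0) (nat_lit 6049781218) (nat_lit 168) (nat_lit 32011650584) (nat_lit 84) (nat_lit 38060318484) (nat_lit 8) (nat_lit 5) (nat_lit 10) (nat_lit 5) (nat_lit 9) (nat_lit 5) (nat_lit 416) (nat_lit 326) (nat_lit 146)) (XT.lf (nat_lit 0) (nat_lit 9370367129) (nat_lit 168) (nat_lit 22990987524) (nat_lit 84) (nat_lit 45880346506) (nat_lit 8) (nat_lit 5) (nat_lit 10) (nat_lit 5) (nat_lit 9) (nat_lit 5) (nat_lit 417) (nat_lit 326) (nat_lit 145)))) (XT.nd (nat_lit 188) (nat_lit 168) (nat_lit 0) (XT.nd (nat_lit 94) (nat_lit 0) (nat_lit 0)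 (XT.lf (nat_lit 0) (nat_lit 12792248420) (nat_lit 168) (nat_lit 13693081662) (nat_lit 84) (nat_lit 53942098847) (nat_lit 8) (nat_lit 5) (nat_lit 10) (nat_lit 5) (nat_lit 9) (nat_lit 5) (nat_lit 418) (nat_lit 326) (nat_lit 144)) (XT.lf (nat_lit 0) (nat_lit 16318614644) (nat_lit 168) (nat_lit 4109266376) (nat_lit 84) (nat_lit 62253089905) (nat_lit 8) (nat_lit 5) (nat_lit 10) (nat_lit 5) (nat_lit 9) (nat_lit 5) (nat_lit 419) (nat_lit 326) (nat_lit 143))) (XT.nd (nat_lit 94) (nat_lit 0) (nat_lit 0) (XT.lf (nat_lit 0) (nat_lit 5888021976) (nat_lit 168) (nat_lit 14123140674) (nat_lit 252) (nat_lit 64991454325) (nat_lit 6) (nat_lit 5) (nat_lit 8) (nat_lit 5) (nat_lit 9) (nat_lit 5) (nat_lit 420) (nat_lit 326) (nat_lit 142)) (XT.lf (nat_lit 0) (nat_lit 16280107664) (nat_lit 168) (nat_lit 7579443136) (nat_lit 252) (nat_lit 63535407586) (nat_lit 6) (nat_lit 5) (nat_lit 8) (nat_lit 5) (nat_lit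 9) (nat_lit 5) (nat_lit 421) (nat_lit 326) (nat_lit 141)))))) (XT.nd (nat_lit 564) (nat_lit 84) (nat_lit 0) (XT.nd (nat_lit 282) (nat_lit 0) (nat_lit 0) (XT.nd (nat_lit 94) (nat_lit 0) (nat_lit 0) (XT.lf (nat_lit 0) (nat_lit 26992182255) (nat_lit 168) (nat_lit 833581307) (nat_lit 252) (nat_lit 62035751190) (nat_lit 6) (nat_lit 5) (nat_lit 8) (nat_lit 5) (nat_lit 9) (nat_lit 5) (nat_lit 422) (nat_lit 326) (nat_lit 140)) (XT.nd (nat_lit 94) (nat_lit 0) (nat_lit 0) (XT.lf (nat_lit 0) (nat_lit 31974216286) (nat_lit 252) (nat_lit 54431073063) (nat_lit 84) (nat_lit 5997413540) (nat_lit 6) (nat_lit 5) (nat_lit 9) (nat_lit 5) (nat_lit 7) (nat_lit 4) (nat_lit 423) (nat_lit 326) (nat_lit 139)) (XT.lf (nat_lit 0) (nat_lit 36258402150) (nat_lit 252) (nat_lit 45741833461) (nat_lit 84) (nat_lit 13022217424) (nat_lit 6) (nat_lit 5) (nat_lit 9) (nat_lit 5) (nat_lit 7) (nat_lit 4) (nat_lit 424) (nat_lit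 326) (nat_lit 138)))) (XT.nd (nat_lit 94) (nat_lit 0) (nat_lit 0) (XT.lf (nat_lit 0) (nat_lit 40674045233) (nat_lit 252) (nat_lit 36785245179) (nat_lit 84) (nat_lit 20264173004) (nat_lit 6) (nat_lit 5) (nat_lit 9) (nat_lit 5) (nat_lit 7) (nat_lit 4) (nat_lit 425) (nat_lit 326) (nat_lit 137)) (XT.nd (nat_lit 94) (nat_lit 0) (nat_lit 0) (XT.lf (nat_lit 0) (nat_lit 45225261376) (nat_lit 252) (nat_lit 27552959740) (nat_lit 84) (nat_lit 27730030542) (nat_lit 6) (nat_lit 5) (nat_lit 9) (nat_lit 5) (nat_lit 7) (nat_lit 4) (nat_lit 426) (nat_lit 326) (nat_lit 136)) (XT.lf (nat_lit 0) (nat_lit 49916292791) (nat_lit 252) (nat_lit 18036371686) (nat_lit 84) (nat_lit 35426748998) (nat_lit 6) (nat_lit 5) (nat_lit 9) (nat_lit 5) (nat_lit 7) (nat_lit 4) (nat_lit 427) (nat_lit 326) (nat_lit 135))))) (XT.nd (nat_lit 282) (nat_lit 0) (nat_lit 0) (XT.nd (nat_lit 94) (nat_lit 84) (nat_lit 0) (XT.lf (nat_lit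 0) (nat_lit 54751512010) (nat_lit 252) (nat_lit 8226610559) (nat_lit 84) (nat_lit 43361502521) (nat_lit 6) (nat_lit 5) (nat_lit 9) (nat_lit 5) (nat_lit 7) (nat_lit 4) (nat_lit 428) (nat_lit 326) (nat_lit 134)) (XT.nd (nat_lit 94) (nat_lit 0) (nat_lit 0) (XT.lf (nat_lit 0) (nat_lit 1924236439) (nat_lit 84) (nat_lit 57830278188) (nat_lit 168) (nat_lit 49636539355) (nat_lit 5) (nat_lit 5) (nat_lit 6) (nat_lit 5) (nat_lit 7) (nat_lit 4) (nat_lit 429) (nat_lit 326) (nat_lit 133)) (XT.lf (nat_lit 0) (nat_lit 12562391797) (nat_lit 84) (nat_lit 52434908865) (nat_lit 168) (nat_lit 47537156302) (nat_lit 5) (nat_lit 5) (nat_lit 6) (nat_lit 5) (nat_lit 7) (nat_lit 4) (nat_lit 430) (nat_lit 326) (nat_lit 132)))) (XT.nd (nat_lit 45966) (nat_lit 0) (nat_lit 6384) (XT.nd (nat_lit 94) (nat_lit 0) (nat_lit 0) (XT.lf (nat_lit 0) (nat_lit 23528615405) (nat_lit 84) (nat_lit 46872854494) (nat_lit 168)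 (nat_lit 45373876017) (nat_lit 5) (nat_lit 5) (nat_lit 6) (nat_lit 5) (nat_lit 7) (nat_lit 4) (nat_lit 431) (nat_lit 326) (nat_lit 131)) (XT.lf (nat_lit 0) (nat_lit 34833128931) (nat_lit 84) (nat_lit 41138930659) (nat_lit 168) (nat_lit 43144682098) (nat_lit 5) (nat_lit 5) (nat_lit 6) (nat_lit 5) (nat_lit 7) (nat_lit 4) (nat_lit 432) (nat_lit 326) (nat_lit 130))) (XT.nd (nat_lit 94) (nat_lit 924) (nat_lit 0) (XT.lf (nat_lit 0) (nat_lit 5404378912) (nat_lit 924) (nat_lit 77025221) (nat_lit 924) (nat_lit 77025221) (nat_lit 92) (nat_lit 3) (nat_lit 103) (nat_lit 3) (nat_lit 103) (nat_lit 5) (nat_lit 327) (nat_lit 327) (nat_lit 234)) (XT.lf (nat_lit 0) (nat_lit 160492705) (nat_lit 924) (nat_lit 7719379340) (nat_lit 1008) (nat_lit 3391734365) (nat_lit 81) (nat_lit 5) (nat_lit 92) (nat_lit 3) (nat_lit 93) (nat_lit 5) (nat_lit 328) (nat_lit 327) (nat_lit 233))))))) (XT.nd (nat_lit 1222)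 (nat_lit 1764) (nat_lit 0) (XT.nd (nat_lit 564) (nat_lit 0) (nat_lit 168) (XT.nd (nat_lit 282) (nat_lit 0) (nat_lit 84) (XT.nd (nat_lit 94) (nat_lit 0) (nat_lit 0) (XT.lf (nat_lit 0) (nat_lit 621360900) (nat_lit 924) (nat_lit 4067145488) (nat_lit 1008) (nat_lit 6743166797) (nat_lit 81) (nat_lit 5) (nat_lit 92) (nat_lit 3) (nat_lit 93) (nat_lit 5) (nat_lit 329) (nat_lit 327) (nat_lit 232)) (XT.nd (nat_lit 94) (nat_lit 0) (nat_lit 84) (XT.lf (nat_lit 0) (nat_lit 1079565249) (nat_lit 924) (nat_lit 310946920) (nat_lit 1008) (nat_lit 10206839651) (nat_lit 81) (nat_lit 5) (nat_lit 92) (nat_lit 3) (nat_lit 93) (nat_lit 5) (nat_lit 330) (nat_lit 327) (nat_lit 231)) (XT.lf (nat_lit 0) (nat_lit 1591879513) (nat_lit 924) (nat_lit 8162291637) (nat_lit 1008) (nat_lit 2012878850) (nat_lit 82) (nat_lit 5) (nat_lit 93) (nat_lit 5) (nat_lit 94) (nat_lit 5) (nat_lit 331) (nat_lit 327) (nat_lit 230))))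 (XT.nd (nat_lit 94) (nat_lit 0) (nat_lit 0) (XT.lf (nat_lit 0) (nat_lit 2121612074) (nat_lit 924) (nat_lit 4317291003) (nat_lit 1008) (nat_lit 5503175069) (nat_lit 82) (nat_lit 5) (nat_lit 93) (nat_lit 5) (nat_lit 94) (nat_lit 5) (nat_lit 332) (nat_lit 327) (nat_lit 229)) (XT.nd (nat_lit 94) (nat_lit 0) (nat_lit 84) (XT.lf (nat_lit 0) (nat_lit 2652282389) (nat_lit 924) (nat_lit 362377942) (nat_lit 1008) (nat_lit 9108465274) (nat_lit 82) (nat_lit 5) (nat_lit 93) (nat_lit 5) (nat_lit 94) (nat_lit 5) (nat_lit 333) (nat_lit 327) (nat_lit 228)) (XT.lf (nat_lit 0) (nat_lit 3227465945) (nat_lit 924) (nat_lit 8532417886) (nat_lit 1008) (nat_lit 549141794) (nat_lit 83) (nat_lit 5) (nat_lit 94) (nat_lit 5) (nat_lit 95) (nat_lit 5) (nat_lit 334) (nat_lit 327) (nat_lit 227))))) (XT.nd (nat_lit 282) (nat_lit 0) (nat_lit 84) (XT.nd (nat_lit 94) (nat_lit 0) (nat_lit 0) (XT.lf (nat_lit 0) (nat_lit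 3840535988) (nat_lit 924) (nat_lit 4489388993) (nat_lit 1008) (nat_lit 4170248555) (nat_lit 83) (nat_lit 5) (nat_lit 94) (nat_lit 5) (nat_lit 95) (nat_lit 5) (nat_lit 335) (nat_lit 327) (nat_lit 226)) (XT.nd (nat_lit 94) (nat_lit 0) (nat_lit 0) (XT.lf (nat_lit 0) (nat_lit 4458451886) (nat_lit 924) (nat_lit 330269980) (nat_lit 1008) (nat_lit 7909067613) (nat_lit 83) (nat_lit 5) (nat_lit 94) (nat_lit 5) (nat_lit 95) (nat_lit 5) (nat_lit 336) (nat_lit 327) (nat_lit 225)) (XT.lf (nat_lit 84) (nat_lit 4030011638) (nat_lit 0) (nat_lit 1091756178) (nat_lit 1008) (nat_lit 7779050515) (nat_lit 84) (nat_lit 5) (nat_lit 83) (nat_lit 5) (nat_lit 95) (nat_lit 5) (nat_lit 337) (nat_lit 327) (nat_lit 224)))) (XT.nd (nat_lit 188) (nat_lit 0) (nat_lit 0) (XT.nd (nat_lit 94) (nat_lit 0) (nat_lit 0) (XT.lf (nat_lit 0) (nat_lit 5822746344) (nat_lit 924) (nat_lit 4614019924) (nat_lit 1008) (nat_lit 2672942096)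 (nat_lit 84) (nat_lit 5) (nat_lit 95) (nat_lit 5) (nat_lit 96) (nat_lit 5) (nat_lit 338) (nat_lit 327) (nat_lit 223)) (XT.lf (nat_lit 0) (nat_lit 6543659417) (nat_lit 924) (nat_lit 245588315) (nat_lit 1008) (nat_lit 6535976374) (nat_lit 84) (nat_lit 5) (nat_lit 95) (nat_lit 5) (nat_lit 96) (nat_lit 5) (nat_lit 339) (nat_lit 327) (nat_lit 222))) (XT.nd (nat_lit 94) (nat_lit 0) (nat_lit 84) (XT.lf (nat_lit 84) (nat_lit 4336766505) (nat_lit 0) (nat_lit 2980603404) (nat_lit 1008) (nat_lit 6229198618) (nat_lit 85) (nat_lit 5) (nat_lit 84) (nat_lit 5) (nat_lit 96) (nat_lit 5) (nat_lit 340) (nat_lit 327) (nat_lit 221)) (XT.lf (nat_lit 0) (nat_lit 8114794014) (nat_lit 924) (nat_lit 4727014992) (nat_lit 1008) (nat_lit 933062886) (nat_lit 85) (nat_lit 5) (nat_lit 96) (nat_lit 5) (nat_lit 97) (nat_lit 5) (nat_lit 341) (nat_lit 327) (nat_lit 220)))))) (XT.nd (nat_lit 564) (nat_lit 1260) (nat_lit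 0) (XT.nd (nat_lit 282) (nat_lit 840) (nat_lit 0) (XT.nd (nat_lit 94) (nat_lit 0) (nat_lit 0) (XT.lf (nat_lit 0) (nat_lit 8955544472) (nat_lit 924) (nat_lit 144755601) (nat_lit 1008) (nat_lit 4909461984) (nat_lit 85) (nat_lit 5) (nat_lit 96) (nat_lit 5) (nat_lit 97) (nat_lit 5) (nat_lit 342) (nat_lit 327) (nat_lit 219)) (XT.nd (nat_lit 94) (nat_lit 0) (nat_lit 0) (XT.lf (nat_lit 84) (nat_lit 4664800589) (nat_lit 0) (nat_lit 5192311806) (nat_lit 1008) (nat_lit 4393827634) (nat_lit 86) (nat_lit 5) (nat_lit 85) (nat_lit 5) (nat_lit 97) (nat_lit 5) (nat_lit 343) (nat_lit 327) (nat_lit 218)) (XT.lf (nat_lit 84) (nat_lit 9617871656) (nat_lit 0) (nat_lit 1159007628) (nat_lit 1008) (nat_lit 3723098553) (nat_lit 86) (nat_lit 5) (nat_lit 85) (nat_lit 5) (nat_lit 97) (nat_lit 5) (nat_lit 344) (nat_lit 327) (nat_lit 217)))) (XT.nd (nat_lit 94) (nat_lit 924) (nat_lit 0) (XT.lf (nat_lit 0) (nat_lit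 11744015771) (nat_lit 924) (nat_lit 70833965) (nat_lit 84) (nat_lit 2941380160) (nat_lit 86) (nat_lit 5) (nat_lit 97) (nat_lit 5) (nat_lit 87) (nat_lit 5) (nat_lit 345) (nat_lit 327) (nat_lit 216)) (XT.nd (nat_lit 94) (nat_lit 0) (nat_lit 0) (XT.lf (nat_lit 0) (nat_lit 4969287037) (nat_lit 924) (nat_lit 7822427071) (nat_lit 1008) (nat_lit 2227219941) (nat_lit 75) (nat_lit 5) (nat_lit 86) (nat_lit 5) (nat_lit 87) (nat_lit 5) (nat_lit 346) (nat_lit 327) (nat_lit 215)) (XT.lf (nat_lit 0) (nat_lit 10158673376) (nat_lit 924) (nat_lit 3703621507) (nat_lit 1008) (nat_lit 1427858614) (nat_lit 75) (nat_lit 5) (nat_lit 86) (nat_lit 5) (nat_lit 87) (nat_lit 5) (nat_lit 347) (nat_lit 327) (nat_lit 214))))) (XT.nd (nat_lit 282) (nat_lit 504) (nat_lit 0) (XT.nd (nat_lit 94) (nat_lit 756) (nat_lit 0) (XT.lf (nat_lit 0) (nat_lit 14961442020) (nat_lit 1008) (nat_lit 74860826) (nat_lit 84) (nat_lit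 533692931) (nat_lit 75) (nat_lit 5) (nat_lit 87) (nat_lit 5) (nat_lit 76) (nat_lit 5) (nat_lit 348) (nat_lit 327) (nat_lit 213)) (XT.nd (nat_lit 94) (nat_lit 0) (nat_lit 0) (XT.lf (nat_lit 0) (nat_lit 311866807) (nat_lit 756) (nat_lit 10662292880) (nat_lit 84) (nat_lit 4881853639) (nat_lit 66) (nat_lit 5) (nat_lit 75) (nat_lit 5) (nat_lit 67) (nat_lit 5) (nat_lit 349) (nat_lit 327) (nat_lit 212)) (XT.lf (nat_lit 0) (nat_lit 1239309053) (nat_lit 756) (nat_lit 5538436027) (nat_lit 84) (nat_lit 9373299850) (nat_lit 66) (nat_lit 5) (nat_lit 75) (nat_lit 5) (nat_lit 67) (nat_lit 5) (nat_lit 350) (nat_lit 327) (nat_lit 211)))) (XT.nd (nat_lit 188) (nat_lit 0) (nat_lit 0) (XT.nd (nat_lit 94) (nat_lit 504) (nat_lit 0) (XT.lf (nat_lit 0) (nat_lit 2186132806) (nat_lit 756) (nat_lit 264028180) (nat_lit 84) (nat_lit 14005415482) (nat_lit 66) (nat_lit 5) (nat_lit 75) (nat_lit 5) (nat_lit 67)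 (nat_lit 5) (nat_lit 351) (nat_lit 327) (nat_lit 210)) (XT.lf (nat_lit 0) (nat_lit 3226020570) (nat_lit 588) (nat_lit 11516703548) (nat_lit 84) (nat_lit 2024910881) (nat_lit 60) (nat_lit 5) (nat_lit 67) (nat_lit 5) (nat_lit 61) (nat_lit 5) (nat_lit 352) (nat_lit 327) (nat_lit 209))) (XT.nd (nat_lit 94) (nat_lit 0) (nat_lit 0) (XT.lf (nat_lit 0) (nat_lit 4317104421) (nat_lit 588) (nat_lit 6180220063) (nat_lit 84) (nat_lit 6591514862) (nat_lit 60) (nat_lit 5) (nat_lit 67) (nat_lit 5) (nat_lit 61) (nat_lit 5) (nat_lit 353) (nat_lit 327) (nat_lit 208)) (XT.lf (nat_lit 0) (nat_lit 5433395077) (nat_lit 588) (nat_lit 686358619) (nat_lit 84) (nat_lit 11300572405) (nat_lit 60) (nat_lit 5) (nat_lit 67) (nat_lit 5) (nat_lit 61) (nat_lit 5) (nat_lit 354) (nat_lit 327) (nat_lit 207))))))))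
noncomputable def xc156 : XT := (XT.nd (nat_lit 2350) (nat_lit 1176) (nat_lit 0) (XT.nd (nat_lit 1128) (nat_lit 1176) (nat_lit 0) (XT.nd (nat_lit 564) (nat_lit 840) (nat_lit 0) (XT.nd (nat_lit 282) (nat_lit 420) (nat_lit 0) (XT.nd (nat_lit 94) (nat_lit 0) (nat_lit 0) (XT.lf (nat_lit 0) (nat_lit 5072195064) (nat_lit 420) (nat_lit 1554054776) (nat_lit 504) (nat_lit 11134594582) (nat_lit 55) (nat_lit 5) (nat_lit 60) (nat_lit 5) (nat_lit 61) (nat_lit 5) (nat_lit 355) (nat_lit 327) (nat_lit 206)) (XT.nd (nat_lit 94) (nat_lit 0) (nat_lit 0) (XT.lf (nat_lit 0) (nat_lit 7886421863) (nat_lit 504) (nat_lit 7127280071) (nat_lit 84) (nat_lit 3097330895) (nat_lit 55) (nat_lit 5) (nat_lit 61) (nat_lit 5) (nat_lit 56) (nat_lit 5) (nat_lit 356) (nat_lit 327) (nat_lit 205)) (XT.lf (nat_lit 0) (nat_lit 9193620827) (nat_lit 504) (nat_lit 1417205264) (nat_lit 84) (nat_lit 7861057056) (nat_lit 55) (nat_lit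 5) (nat_lit 61) (nat_lit 5) (nat_lit 56) (nat_lit 5) (nat_lit 357) (nat_lit 327) (nat_lit 204)))) (XT.nd (nat_lit 94) (nat_lit 0) (nat_lit 0) (XT.lf (nat_lit 0) (nat_lit 4554068188) (nat_lit 420) (nat_lit 6024757493) (nat_lit 504) (nat_lit 8263983468) (nat_lit 50) (nat_lit 5) (nat_lit 55) (nat_lit 5) (nat_lit 56) (nat_lit 5) (nat_lit 358) (nat_lit 327) (nat_lit 203)) (XT.nd (nat_lit 94) (nat_lit 0) (nat_lit 0) (XT.lf (nat_lit 0) (nat_lit 10733003748) (nat_lit 420) (nat_lit 1281223692) (nat_lit 504) (nat_lit 7210831245) (nat_lit 50) (nat_lit 5) (nat_lit 55) (nat_lit 5) (nat_lit 56) (nat_lit 5) (nat_lit 359) (nat_lit 327) (nat_lit 202)) (XT.lf (nat_lit 0) (nat_lit 13522621851) (nat_lit 504) (nat_lit 2559018388) (nat_lit 84) (nat_lit 3536682617) (nat_lit 50) (nat_lit 5) (nat_lit 56) (nat_lit 5) (nat_lit 51) (nat_lit 5) (nat_lit 360) (nat_lit 327) (nat_lit 201))))) (XT.nd (nat_lit 282)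 (nat_lit 504) (nat_lit 0) (XT.nd (nat_lit 94) (nat_lit 0) (nat_lit 0) (XT.lf (nat_lit 0) (nat_lit 3610262440) (nat_lit 336) (nat_lit 11509341905) (nat_lit 420) (nat_lit 4902924008) (nat_lit 46) (nat_lit 5) (nat_lit 50) (nat_lit 5) (nat_lit 51) (nat_lit 5) (nat_lit 361) (nat_lit 327) (nat_lit 200)) (XT.nd (nat_lit 94) (nat_lit 0) (nat_lit 0) (XT.lf (nat_lit 0) (nat_lit 10017800182) (nat_lit 336) (nat_lit 6768055084) (nat_lit 420) (nat_lit 3652841729) (nat_lit 46) (nat_lit 5) (nat_lit 50) (nat_lit 5) (nat_lit 51) (nat_lit 5) (nat_lit 362) (nat_lit 327) (nat_lit 199)) (XT.lf (nat_lit 0) (nat_lit 16616948669) (nat_lit 336) (nat_lit 1880071303) (nat_lit 420) (nat_lit 2370999863) (nat_lit 46) (nat_lit 5) (nat_lit 50) (nat_lit 5) (nat_lit 51) (nat_lit 5) (nat_lit 363) (nat_lit 327) (nat_lit 198)))) (XT.nd (nat_lit 94) (nat_lit 84) (nat_lit 0) (XT.lf (nat_lit 0) (nat_lit 2114219448) (nat_lit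 420) (nat_lit 18192786628) (nat_lit 504) (nat_lit 1002269276) (nat_lit 41) (nat_lit 5) (nat_lit 46) (nat_lit 5) (nat_lit 47) (nat_lit 5) (nat_lit 364) (nat_lit 327) (nat_lit 197)) (XT.nd (nat_lit 94) (nat_lit 0) (nat_lit 0) (XT.lf (nat_lit 0) (nat_lit 458189834) (nat_lit 504) (nat_lit 13026775689) (nat_lit 84) (nat_lit 8277375079) (nat_lit 40) (nat_lit 5) (nat_lit 46) (nat_lit 5) (nat_lit 41) (nat_lit 5) (nat_lit 365) (nat_lit 327) (nat_lit 196)) (XT.lf (nat_lit 0) (nat_lit 1936780836) (nat_lit 504) (nat_lit 6684471641) (nat_lit 84) (nat_lit 13608115598) (nat_lit 40) (nat_lit 5) (nat_lit 46) (nat_lit 5) (nat_lit 41) (nat_lit 5) (nat_lit 366) (nat_lit 327) (nat_lit 195)))))) (XT.nd (nat_lit 564) (nat_lit 504) (nat_lit 0) (XT.nd (nat_lit 282) (nat_lit 336) (nat_lit 0) (XT.nd (nat_lit 94) (nat_lit 336) (nat_lit 0) (XT.lf (nat_lit 0) (nat_lit 3455075422) (nat_lit 504) (nat_lit 152289434)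 (nat_lit 84) (nat_lit 19103736453) (nat_lit 40) (nat_lit 5) (nat_lit 46) (nat_lit 5) (nat_lit 41) (nat_lit 5) (nat_lit 367) (nat_lit 327) (nat_lit 194)) (XT.nd (nat_lit 94) (nat_lit 0) (nat_lit 0) (XT.lf (nat_lit 0) (nat_lit 5097233369) (nat_lit 420) (nat_lit 16511022643) (nat_lit 84) (nat_lit 1597168238) (nat_lit 36) (nat_lit 5) (nat_lit 41) (nat_lit 5) (nat_lit 37) (nat_lit 5) (nat_lit 368) (nat_lit 327) (nat_lit 193)) (XT.lf (nat_lit 0) (nat_lit 6822959042) (nat_lit 420) (nat_lit 10002039343) (nat_lit 84) (nat_lit 6889095890) (nat_lit 36) (nat_lit 5) (nat_lit 41) (nat_lit 5) (nat_lit 37) (nat_lit 5) (nat_lit 369) (nat_lit 327) (nat_lit 192)))) (XT.nd (nat_lit 94) (nat_lit 336) (nat_lit 0) (XT.lf (nat_lit 0) (nat_lit 8596517929) (nat_lit 420) (nat_lit 3297751694) (nat_lit 84) (nat_lit 12344473529) (nat_lit 36) (nat_lit 5) (nat_lit 41) (nat_lit 5) (nat_lit 37) (nat_lit 5) (nat_lit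 370) (nat_lit 327) (nat_lit 191)) (XT.nd (nat_lit 94) (nat_lit 0) (nat_lit 0) (XT.lf (nat_lit 0) (nat_lit 3682279120) (nat_lit 336) (nat_lit 6773812716) (nat_lit 420) (nat_lit 14322635683) (nat_lit 32) (nat_lit 5) (nat_lit 36) (nat_lit 5) (nat_lit 37) (nat_lit 5) (nat_lit 371) (nat_lit 327) (nat_lit 190)) (XT.lf (nat_lit 0) (nat_lit 10942385597) (nat_lit 336) (nat_lit 1459958263) (nat_lit 420) (nat_lit 12932240016) (nat_lit 32) (nat_lit 5) (nat_lit 36) (nat_lit 5) (nat_lit 37) (nat_lit 5) (nat_lit 372) (nat_lit 327) (nat_lit 189))))) (XT.nd (nat_lit 282) (nat_lit 252) (nat_lit 0) (XT.nd (nat_lit 94) (nat_lit 252) (nat_lit 0) (XT.lf (nat_lit 0) (nat_lit 14443558659) (nat_lit 420) (nat_lit 7526196273) (nat_lit 84) (nat_lit 3936874819) (nat_lit 32) (nat_lit 5) (nat_lit 37) (nat_lit 5) (nat_lit 33) (nat_lit 5) (nat_lit 373) (nat_lit 327) (nat_lit 188)) (XT.nd (nat_lit 94) (nat_lit 252)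 (nat_lit 0) (XT.lf (nat_lit 0) (nat_lit 16557904196) (nat_lit 420) (nat_lit 468307887) (nat_lit 84) (nat_lit 9469922044) (nat_lit 32) (nat_lit 5) (nat_lit 37) (nat_lit 5) (nat_lit 33) (nat_lit 5) (nat_lit 374) (nat_lit 327) (nat_lit 187)) (XT.lf (nat_lit 0) (nat_lit 6942402474) (nat_lit 252) (nat_lit 11859335315) (nat_lit 336) (nat_lit 8300222712) (nat_lit 29) (nat_lit 5) (nat_lit 32) (nat_lit 5) (nat_lit 33) (nat_lit 5) (nat_lit 375) (nat_lit 327) (nat_lit 186)))) (XT.nd (nat_lit 188) (nat_lit 252) (nat_lit 0) (XT.nd (nat_lit 94) (nat_lit 0) (nat_lit 0) (XT.lf (nat_lit 0) (nat_lit 14586985428) (nat_lit 252) (nat_lit 6528197531) (nat_lit 336) (nat_lit 6611411615) (nat_lit 29) (nat_lit 5) (nat_lit 32) (nat_lit 5) (nat_lit 33) (nat_lit 5) (nat_lit 376) (nat_lit 327) (nat_lit 185)) (XT.lf (nat_lit 0) (nat_lit 22462937154) (nat_lit 252) (nat_lit 1032717728) (nat_lit 336) (nat_lit 4875110665)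 (nat_lit 29) (nat_lit 5) (nat_lit 32) (nat_lit 5) (nat_lit 33) (nat_lit 5) (nat_lit 377) (nat_lit 327) (nat_lit 184))) (XT.nd (nat_lit 94) (nat_lit 0) (nat_lit 0) (XT.lf (nat_lit 0) (nat_lit 1527345355) (nat_lit 252) (nat_lit 24479130765) (nat_lit 336) (nat_lit 3026703518) (nat_lit 26) (nat_lit 5) (nat_lit 29) (nat_lit 5) (nat_lit 30) (nat_lit 5) (nat_lit 378) (nat_lit 327) (nat_lit 183)) (XT.lf (nat_lit 0) (nat_lit 9301925954) (nat_lit 252) (nat_lit 19360851923) (nat_lit 336) (nat_lit 1051279896) (nat_lit 26) (nat_lit 5) (nat_lit 29) (nat_lit 5) (nat_lit 30) (nat_lit 5) (nat_lit 379) (nat_lit 327) (nat_lit 182))))))) (XT.nd (nat_lit 1222) (nat_lit 420) (nat_lit 0) (XT.nd (nat_lit 564) (nat_lit 420) (nat_lit 0) (XT.nd (nat_lit 282) (nat_lit 0) (nat_lit 0) (XT.nd (nat_lit 94) (nat_lit 252) (nat_lit 0) (XT.lf (nat_lit 0) (nat_lit 961117996) (nat_lit 336) (nat_lit 13113795183) (nat_lit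 84) (nat_lit 16340988301) (nat_lit 25) (nat_lit 5) (nat_lit 29) (nat_lit 5) (nat_lit 26) (nat_lit 5) (nat_lit 380) (nat_lit 327) (nat_lit 181)) (XT.nd (nat_lit 94) (nat_lit 252) (nat_lit 0) (XT.lf (nat_lit 0) (nat_lit 3009784670) (nat_lit 336) (nat_lit 5605292489) (nat_lit 84) (nat_lit 22524248395) (nat_lit 25) (nat_lit 5) (nat_lit 29) (nat_lit 5) (nat_lit 26) (nat_lit 5) (nat_lit 381) (nat_lit 327) (nat_lit 180)) (XT.lf (nat_lit 0) (nat_lit 2174617497) (nat_lit 252) (nat_lit 2964765623) (nat_lit 336) (nat_lit 26745275729) (nat_lit 22) (nat_lit 5) (nat_lit 25) (nat_lit 5) (nat_lit 26) (nat_lit 5) (nat_lit 382) (nat_lit 327) (nat_lit 179)))) (XT.nd (nat_lit 94) (nat_lit 0) (nat_lit 0) (XT.lf (nat_lit 0) (nat_lit 7418398119) (nat_lit 336) (nat_lit 22370982873) (nat_lit 84) (nat_lit 2861153607) (nat_lit 22) (nat_lit 5) (nat_lit 26) (nat_lit 5) (nat_lit 23) (nat_lit 5) (nat_lit 383)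 (nat_lit 327) (nat_lit 178)) (XT.nd (nat_lit 94) (nat_lit 0) (nat_lit 0) (XT.lf (nat_lit 0) (nat_lit 9794422299) (nat_lit 336) (nat_lit 14839834254) (nat_lit 84) (nat_lit 8805100611) (nat_lit 22) (nat_lit 5) (nat_lit 26) (nat_lit 5) (nat_lit 23) (nat_lit 5) (nat_lit 384) (nat_lit 327) (nat_lit 177)) (XT.lf (nat_lit 0) (nat_lit 12240259522) (nat_lit 336) (nat_lit 7080164834) (nat_lit 84) (nat_lit 14932349187) (nat_lit 22) (nat_lit 5) (nat_lit 26) (nat_lit 5) (nat_lit 23) (nat_lit 5) (nat_lit 385) (nat_lit 327) (nat_lit 176))))) (XT.nd (nat_lit 282) (nat_lit 168) (nat_lit 0) (XT.nd (nat_lit 94) (nat_lit 0) (nat_lit 0) (XT.lf (nat_lit 0) (nat_lit 934077797) (nat_lit 252) (nat_lit 13833377934) (nat_lit 336) (nat_lit 20323798945) (nat_lit 19) (nat_lit 5) (nat_lit 22) (nat_lit 5) (nat_lit 23) (nat_lit 5) (nat_lit 386) (nat_lit 327) (nat_lit 175)) (XT.nd (nat_lit 94) (nat_lit 0) (nat_lit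 0) (XT.lf (nat_lit 0) (nat_lit 9342110154) (nat_lit 252) (nat_lit 8101124134) (nat_lit 336) (nat_lit 18510336926) (nat_lit 19) (nat_lit 5) (nat_lit 22) (nat_lit 5) (nat_lit 23) (nat_lit 5) (nat_lit 387) (nat_lit 327) (nat_lit 174)) (XT.lf (nat_lit 0) (nat_lit 18006186694) (nat_lit 252) (nat_lit 2192222296) (nat_lit 336) (nat_lit 16644340026) (nat_lit 19) (nat_lit 5) (nat_lit 22) (nat_lit 5) (nat_lit 23) (nat_lit 5) (nat_lit 388) (nat_lit 327) (nat_lit 173)))) (XT.nd (nat_lit 188) (nat_lit 168) (nat_lit 0) (XT.nd (nat_lit 94) (nat_lit 0) (nat_lit 0) (XT.lf (nat_lit 0) (nat_lit 23074224876) (nat_lit 336) (nat_lit 10863910575) (nat_lit 84) (nat_lit 3820282454) (nat_lit 19) (nat_lit 5) (nat_lit 23) (nat_lit 5) (nat_lit 20) (nat_lit 5) (nat_lit 389) (nat_lit 327) (nat_lit 172)) (XT.lf (nat_lit 0) (nat_lit 26058259974) (nat_lit 336) (nat_lit 2670971937) (nat_lit 84) (nat_lit 9972667647)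 (nat_lit 19) (nat_lit 5) (nat_lit 23) (nat_lit 5) (nat_lit 20) (nat_lit 5) (nat_lit 390) (nat_lit 327) (nat_lit 171))) (XT.nd (nat_lit 94) (nat_lit 0) (nat_lit 0) (XT.lf (nat_lit 0) (nat_lit 5890314085) (nat_lit 168) (nat_lit 23299667159) (nat_lit 252) (nat_lit 10482954903) (nat_lit 17) (nat_lit 5) (nat_lit 19) (nat_lit 5) (nat_lit 20) (nat_lit 5) (nat_lit 391) (nat_lit 327) (nat_lit 170)) (XT.lf (nat_lit 0) (nat_lit 14769356402) (nat_lit 168) (nat_lit 17674112823) (nat_lit 252) (nat_lit 8229857551) (nat_lit 17) (nat_lit 5) (nat_lit 19) (nat_lit 5) (nat_lit 20) (nat_lit 5) (nat_lit 392) (nat_lit 327) (nat_lit 169)))))) (XT.nd (nat_lit 564) (nat_lit 168) (nat_lit 0) (XT.nd (nat_lit 282) (nat_lit 252) (nat_lit 0) (XT.nd (nat_lit 94) (nat_lit 0) (nat_lit 0) (XT.lf (nat_lit 0) (nat_lit 23919510549) (nat_lit 168) (nat_lit 11875204766) (nat_lit 252) (nat_lit 5910126875) (nat_lit 17) (nat_lit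 5) (nat_lit 19) (nat_lit 5) (nat_lit 20) (nat_lit 5) (nat_lit 393) (nat_lit 327) (nat_lit 168)) (XT.nd (nat_lit 94) (nat_lit 0) (nat_lit 0) (XT.lf (nat_lit 0) (nat_lit 33349305429) (nat_lit 168) (nat_lit 5897537798) (nat_lit 252) (nat_lit 3521600644) (nat_lit 17) (nat_lit 5) (nat_lit 19) (nat_lit 5) (nat_lit 20) (nat_lit 5) (nat_lit 394) (nat_lit 327) (nat_lit 167)) (XT.lf (nat_lit 0) (nat_lit 42805694180) (nat_lit 252) (nat_lit 800216084) (nat_lit 84) (nat_lit 259131613) (nat_lit 17) (nat_lit 5) (nat_lit 20) (nat_lit 5) (nat_lit 18) (nat_lit 5) (nat_lit 395) (nat_lit 327) (nat_lit 166)))) (XT.nd (nat_lit 94) (nat_lit 0) (nat_lit 0) (XT.lf (nat_lit 0) (nat_lit 1589527866) (nat_lit 252) (nat_lit 36820794687) (nat_lit 84) (nat_lit 6580528661) (nat_lit 14) (nat_lit 5) (nat_lit 17) (nat_lit 5) (nat_lit 15) (nat_lit 5) (nat_lit 396) (nat_lit 327) (nat_lit 165)) (XT.nd (nat_lit 94) (nat_lit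 0) (nat_lit 0) (XT.lf (nat_lit 0) (nat_lit 4304117782) (nat_lit 252) (nat_lit 28730753041) (nat_lit 84) (nat_lit 13116194437) (nat_lit 14) (nat_lit 5) (nat_lit 17) (nat_lit 5) (nat_lit 15) (nat_lit 5) (nat_lit 397) (nat_lit 327) (nat_lit 164)) (XT.lf (nat_lit 0) (nat_lit 7100111499) (nat_lit 252) (nat_lit 20393705769) (nat_lit 84) (nat_lit 19853527678) (nat_lit 14) (nat_lit 5) (nat_lit 17) (nat_lit 5) (nat_lit 15) (nat_lit 5) (nat_lit 398) (nat_lit 327) (nat_lit 163))))) (XT.nd (nat_lit 282) (nat_lit 0) (nat_lit 0) (XT.nd (nat_lit 94) (nat_lit 168) (nat_lit 0) (XT.lf (nat_lit 0) (nat_lit 9980115176) (nat_lit 252) (nat_lit 11801881868) (nat_lit 84) (nat_lit 26798808285) (nat_lit 14) (nat_lit 5) (nat_lit 17) (nat_lit 5) (nat_lit 15) (nat_lit 5) (nat_lit 399) (nat_lit 327) (nat_lit 162)) (XT.nd (nat_lit 94) (nat_lit 168) (nat_lit 0) (XT.lf (nat_lit 0) (nat_lit 12946813277) (nat_lit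 252) (nat_lit 2947272860) (nat_lit 84) (nat_lit 33958509986) (nat_lit 14) (nat_lit 5) (nat_lit 17) (nat_lit 5) (nat_lit 15) (nat_lit 5) (nat_lit 400) (nat_lit 327) (nat_lit 161)) (XT.lf (nat_lit 0) (nat_lit 6305414733) (nat_lit 168) (nat_lit 9760106839) (nat_lit 252) (nat_lit 35096442136) (nat_lit 12) (nat_lit 5) (nat_lit 14) (nat_lit 5) (nat_lit 15) (nat_lit 5) (nat_lit 401) (nat_lit 327) (nat_lit 160)))) (XT.nd (nat_lit 188) (nat_lit 0) (nat_lit 0) (XT.nd (nat_lit 94) (nat_lit 0) (nat_lit 0) (XT.lf (nat_lit 0) (nat_lit 15903996902) (nat_lit 168) (nat_lit 3405209951) (nat_lit 252) (nat_lit 33201849840) (nat_lit 12) (nat_lit 5) (nat_lit 14) (nat_lit 5) (nat_lit 15) (nat_lit 5) (nat_lit 402) (nat_lit 327) (nat_lit 159)) (XT.lf (nat_lit 0) (nat_lit 22682260457) (nat_lit 252) (nat_lit 28136445387) (nat_lit 84) (nat_lit 3082384327) (nat_lit 12) (nat_lit 5) (nat_lit 15) (nat_lit 5) (nat_lit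 13) (nat_lit 5) (nat_lit 403) (nat_lit 327) (nat_lit 158))) (XT.nd (nat_lit 94) (nat_lit 0) (nat_lit 0) (XT.lf (nat_lit 0) (nat_lit 26192376754) (nat_lit 252) (nat_lit 19441360594) (nat_lit 84) (nat_lit 9699481392) (nat_lit 12) (nat_lit 5) (nat_lit 15) (nat_lit 5) (nat_lit 13) (nat_lit 5) (nat_lit 404) (nat_lit 327) (nat_lit 157)) (XT.lf (nat_lit 0) (nat_lit 29809047437) (nat_lit 252) (nat_lit 10479920577) (nat_lit 84) (nat_lit 16520856461) (nat_lit 12) (nat_lit 5) (nat_lit 15) (nat_lit 5) (nat_lit 13) (nat_lit 5) (nat_lit 405) (nat_lit 327) (nat_lit 156))))))))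
noncomputable def xc157 : XT := (XT.nd (nat_lit 2350) (nat_lit 0) (nat_lit 0) (XT.nd (nat_lit 1128) (nat_lit 252) (nat_lit 0) (XT.nd (nat_lit 564) (nat_lit 168) (nat_lit 0) (XT.nd (nat_lit 282) (nat_lit 0) (nat_lit 0) (XT.nd (nat_lit 94) (nat_lit 168) (nat_lit 0) (XT.lf (nat_lit 0) (nat_lit 33535643621) (nat_lit 252) (nat_lit 1243772336) (nat_lit 84) (nat_lit 23552867772) (nat_lit 12) (nat_lit 5) (nat_lit 15) (nat_lit 5) (nat_lit 13) (nat_lit 5) (nat_lit 406) (nat_lit 327) (nat_lit 155)) (XT.nd (nat_lit 94) (nat_lit 0) (nat_lit 0) (XT.lf (nat_lit 0) (nat_lit 8445858411) (nat_lit 168) (nat_lit 29013564433) (nat_lit 252) (nat_lit 22439995444) (nat_lit 10) (nat_lit 5) (nat_lit 12) (nat_lit 5) (nat_lit 13) (nat_lit 5) (nat_lit 407) (nat_lit 327) (nat_lit 154)) (XT.lf (nat_lit 0) (nat_lit 18459262125) (nat_lit 168) (nat_lit 23056468545) (nat_lit 252) (nat_lit 19999075887) (nat_lit 10)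 (nat_lit 5) (nat_lit 12) (nat_lit 5) (nat_lit 13) (nat_lit 5) (nat_lit 408) (nat_lit 327) (nat_lit 153)))) (XT.nd (nat_lit 94) (nat_lit 0) (nat_lit 0) (XT.lf (nat_lit 0) (nat_lit 28780197835) (nat_lit 168) (nat_lit 16915558086) (nat_lit 252) (nat_lit 17484588675) (nat_lit 10) (nat_lit 5) (nat_lit 12) (nat_lit 5) (nat_lit 13) (nat_lit 5) (nat_lit 409) (nat_lit 327) (nat_lit 152)) (XT.nd (nat_lit 94) (nat_lit 0) (nat_lit 0) (XT.lf (nat_lit 0) (nat_lit 39418285734) (nat_lit 168) (nat_lit 10585109086) (nat_lit 252) (nat_lit 14894190043) (nat_lit 10) (nat_lit 5) (nat_lit 12) (nat_lit 5) (nat_lit 13) (nat_lit 5) (nat_lit 410) (nat_lit 327) (nat_lit 151)) (XT.lf (nat_lit 0) (nat_lit 50383441636) (nat_lit 168) (nat_lit 4059220902) (nat_lit 252) (nat_lit 12225465468) (nat_lit 10) (nat_lit 5) (nat_lit 12) (nat_lit 5) (nat_lit 13) (nat_lit 5) (nat_lit 411) (nat_lit 327) (nat_lit 150))))) (XT.nd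 (nat_lit 282) (nat_lit 84) (nat_lit 0) (XT.nd (nat_lit 94) (nat_lit 84) (nat_lit 0) (XT.lf (nat_lit 0) (nat_lit 59044165705) (nat_lit 252) (nat_lit 6834206912) (nat_lit 84) (nat_lit 2614431208) (nat_lit 10) (nat_lit 5) (nat_lit 13) (nat_lit 5) (nat_lit 11) (nat_lit 4) (nat_lit 412) (nat_lit 327) (nat_lit 149)) (XT.nd (nat_lit 94) (nat_lit 0) (nat_lit 0) (XT.lf (nat_lit 0) (nat_lit 2924024803) (nat_lit 84) (nat_lit 60933011152) (nat_lit 168) (nat_lit 6514887035) (nat_lit 9) (nat_lit 5) (nat_lit 10) (nat_lit 5) (nat_lit 11) (nat_lit 4) (nat_lit 413) (nat_lit 327) (nat_lit 148)) (XT.lf (nat_lit 0) (nat_lit 13127060803) (nat_lit 84) (nat_lit 55761605577) (nat_lit 168) (nat_lit 3418480539) (nat_lit 9) (nat_lit 5) (nat_lit 10) (nat_lit 5) (nat_lit 11) (nat_lit 4) (nat_lit 414) (nat_lit 327) (nat_lit 147)))) (XT.nd (nat_lit 94) (nat_lit 84) (nat_lit 0) (XT.lf (nat_lit 0) (nat_lit 23643886074)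 (nat_lit 84) (nat_lit 50430670707) (nat_lit 168) (nat_lit 227867561) (nat_lit 9) (nat_lit 5) (nat_lit 10) (nat_lit 5) (nat_lit 11) (nat_lit 4) (nat_lit 415) (nat_lit 327) (nat_lit 146)) (XT.nd (nat_lit 94) (nat_lit 0) (nat_lit 0) (XT.lf (nat_lit 0) (nat_lit 2998275196) (nat_lit 168) (nat_lit 41905666510) (nat_lit 84) (nat_lit 31454732358) (nat_lit 8) (nat_lit 5) (nat_lit 10) (nat_lit 5) (nat_lit 9) (nat_lit 5) (nat_lit 416) (nat_lit 327) (nat_lit 145)) (XT.lf (nat_lit 0) (nat_lit 6318052253) (nat_lit 168) (nat_lit 32886184028) (nat_lit 84) (nat_lit 39274417420) (nat_lit 8) (nat_lit 5) (nat_lit 10) (nat_lit 5) (nat_lit 9) (nat_lit 5) (nat_lit 417) (nat_lit 327) (nat_lit 144)))))) (XT.nd (nat_lit 564) (nat_lit 84) (nat_lit 0) (XT.nd (nat_lit 282) (nat_lit 168) (nat_lit 0) (XT.nd (nat_lit 94) (nat_lit 0) (nat_lit 0) (XT.lf (nat_lit 0) (nat_lit 9739149011) (nat_lit 168) (nat_lit 23589423245)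 (nat_lit 84) (nat_lit 47335837115) (nat_lit 8) (nat_lit 5) (nat_lit 10) (nat_lit 5) (nat_lit 9) (nat_lit 5) (nat_lit 418) (nat_lit 327) (nat_lit 143)) (XT.nd (nat_lit 94) (nat_lit 0) (nat_lit 0) (XT.lf (nat_lit 0) (nat_lit 13264754291) (nat_lit 168) (nat_lit 14006718608) (nat_lit 84) (nat_lit 55646505528) (nat_lit 8) (nat_lit 5) (nat_lit 10) (nat_lit 5) (nat_lit 9) (nat_lit 5) (nat_lit 419) (nat_lit 327) (nat_lit 142)) (XT.lf (nat_lit 0) (nat_lit 16898154327) (nat_lit 168) (nat_lit 4129138031) (nat_lit 84) (nat_lit 64214169074) (nat_lit 8) (nat_lit 5) (nat_lit 10) (nat_lit 5) (nat_lit 9) (nat_lit 5) (nat_lit 420) (nat_lit 327) (nat_lit 141)))) (XT.nd (nat_lit 94) (nat_lit 0) (nat_lit 0) (XT.lf (nat_lit 0) (nat_lit 6176977761) (nat_lit 168) (nat_lit 14527034450) (nat_lit 252) (nat_lit 66931112335) (nat_lit 6) (nat_lit 5) (nat_lit 8) (nat_lit 5) (nat_lit 9) (nat_lit 5) (nat_lit 421)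 (nat_lit 327) (nat_lit 140)) (XT.nd (nat_lit 94) (nat_lit 0) (nat_lit 0) (XT.lf (nat_lit 0) (nat_lit 16888018066) (nat_lit 168) (nat_lit 7781502299) (nat_lit 252) (nat_lit 65432185557) (nat_lit 6) (nat_lit 5) (nat_lit 8) (nat_lit 5) (nat_lit 9) (nat_lit 5) (nat_lit 422) (nat_lit 327) (nat_lit 139)) (XT.lf (nat_lit 0) (nat_lit 27929063148) (nat_lit 168) (nat_lit 827508094) (nat_lit 252) (nat_lit 63888229347) (nat_lit 6) (nat_lit 5) (nat_lit 8) (nat_lit 5) (nat_lit 9) (nat_lit 5) (nat_lit 423) (nat_lit 327) (nat_lit 138))))) (XT.nd (nat_lit 282) (nat_lit 84) (nat_lit 0) (XT.nd (nat_lit 94) (nat_lit 0) (nat_lit 0) (XT.lf (nat_lit 0) (nat_lit 33031882175) (nat_lit 252) (nat_lit 56019282332) (nat_lit 84) (nat_lit 6213664332) (nat_lit 6) (nat_lit 5) (nat_lit 9) (nat_lit 5) (nat_lit 7) (nat_lit 4) (nat_lit 424) (nat_lit 327) (nat_lit 137)) (XT.nd (nat_lit 94) (nat_lit 0) (nat_lit 0) (XT.lf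 (nat_lit 0) (nat_lit 37446879332) (nat_lit 252) (nat_lit 47063657654) (nat_lit 84) (nat_lit 13455325148) (nat_lit 6) (nat_lit 5) (nat_lit 9) (nat_lit 5) (nat_lit 7) (nat_lit 4) (nat_lit 425) (nat_lit 327) (nat_lit 136)) (XT.lf (nat_lit 0) (nat_lit 41997468972) (nat_lit 252) (nat_lit 37832306845) (nat_lit 84) (nat_lit 20920896785) (nat_lit 6) (nat_lit 5) (nat_lit 9) (nat_lit 5) (nat_lit 7) (nat_lit 4) (nat_lit 426) (nat_lit 327) (nat_lit 135)))) (XT.nd (nat_lit 188) (nat_lit 84) (nat_lit 0) (XT.nd (nat_lit 94) (nat_lit 0) (nat_lit 0) (XT.lf (nat_lit 0) (nat_lit 46687892720) (nat_lit 252) (nat_lit 28316625318) (nat_lit 84) (nat_lit 28617337936) (nat_lit 6) (nat_lit 5) (nat_lit 9) (nat_lit 5) (nat_lit 7) (nat_lit 4) (nat_lit 427) (nat_lit 327) (nat_lit 134)) (XT.lf (nat_lit 0) (nat_lit 51522522544) (nat_lit 252) (nat_lit 18507743462) (nat_lit 84) (nat_lit 36551822492) (nat_lit 6) (nat_lit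 5) (nat_lit 9) (nat_lit 5) (nat_lit 7) (nat_lit 4) (nat_lit 428) (nat_lit 327) (nat_lit 133))) (XT.nd (nat_lit 94) (nat_lit 84) (nat_lit 0) (XT.lf (nat_lit 0) (nat_lit 56505864824) (nat_lit 252) (nat_lit 8396518372) (nat_lit 84) (nat_lit 44731746222) (nat_lit 6) (nat_lit 5) (nat_lit 9) (nat_lit 5) (nat_lit 7) (nat_lit 4) (nat_lit 429) (nat_lit 327) (nat_lit 132)) (XT.lf (nat_lit 0) (nat_lit 2068143149) (nat_lit 84) (nat_lit 59594937645) (nat_lit 168) (nat_lit 51117106761) (nat_lit 5) (nat_lit 5) (nat_lit 6) (nat_lit 5) (nat_lit 7) (nat_lit 4) (nat_lit 430) (nat_lit 327) (nat_lit 131))))))) (XT.nd (nat_lit 47094) (nat_lit 0) (nat_lit 5124) (XT.nd (nat_lit 46436) (nat_lit 0) (nat_lit 6468) (XT.nd (nat_lit 46154) (nat_lit 0) (nat_lit 6384) (XT.nd (nat_lit 94) (nat_lit 0) (nat_lit 0) (XT.lf (nat_lit 0) (nat_lit 13033547942) (nat_lit 84) (nat_lit 54033156154) (nat_lit 168) (nat_lit 48954391741)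 (nat_lit 5) (nat_lit 5) (nat_lit 6) (nat_lit 5) (nat_lit 7) (nat_lit 4) (nat_lit 431) (nat_lit 327) (nat_lit 130)) (XT.nd (nat_lit 45966) (nat_lit 0) (nat_lit 6384) (XT.lf (nat_lit 0) (nat_lit 24337267273) (nat_lit 84) (nat_lit 48299496994) (nat_lit 168) (nat_lit 46725746090) (nat_lit 5) (nat_lit 5) (nat_lit 6) (nat_lit 5) (nat_lit 7) (nat_lit 4) (nat_lit 432) (nat_lit 327) (nat_lit 129)) (XT.lf (nat_lit 0) (nat_lit 137160721) (nat_lit 0) (nat_lit 137160721) (nat_lit 924) (nat_lit 5439990449) (nat_lit 81) (nat_lit 5) (nat_lit 81) (nat_lit 3) (nat_lit 92) (nat_lit 3) (nat_lit 328) (nat_lit 328) (nat_lit 232)))) (XT.nd (nat_lit 94) (nat_lit 0) (nat_lit 0) (XT.lf (nat_lit 0) (nat_lit 998443762) (nat_lit 924) (nat_lit 7503903826) (nat_lit 1008) (nat_lit 3086747268) (nat_lit 81) (nat_lit 5) (nat_lit 92) (nat_lit 3) (nat_lit 93) (nat_lit 5) (nat_lit 329) (nat_lit 328) (nat_lit 231)) (XT.nd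 (nat_lit 94) (nat_lit 0) (nat_lit 0) (XT.lf (nat_lit 0) (nat_lit 1448553042) (nat_lit 924) (nat_lit 3752124889) (nat_lit 1008) (nat_lit 6554405877) (nat_lit 81) (nat_lit 5) (nat_lit 92) (nat_lit 3) (nat_lit 93) (nat_lit 5) (nat_lit 330) (nat_lit 328) (nat_lit 230)) (XT.lf (nat_lit 84) (nat_lit 109458159) (nat_lit 0) (nat_lit 1788296652) (nat_lit 1008) (nat_lit 10029041249) (nat_lit 82) (nat_lit 5) (nat_lit 81) (nat_lit 5) (nat_lit 93) (nat_lit 5) (nat_lit 331) (nat_lit 328) (nat_lit 229))))) (XT.nd (nat_lit 282) (nat_lit 0) (nat_lit 84) (XT.nd (nat_lit 94) (nat_lit 0) (nat_lit 0) (XT.lf (nat_lit 0) (nat_lit 2402123440) (nat_lit 924) (nat_lit 7959167598) (nat_lit 1008) (nat_lit 1741375303) (nat_lit 82) (nat_lit 5) (nat_lit 93) (nat_lit 5) (nat_lit 94) (nat_lit 5) (nat_lit 332) (nat_lit 328) (nat_lit 228)) (XT.nd (nat_lit 94) (nat_lit 0) (nat_lit 0) (XT.lf (nat_lit 0) (nat_lit 2925399179)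 (nat_lit 924) (nat_lit 4008687567) (nat_lit 1008) (nat_lit 5349910459) (nat_lit 82) (nat_lit 5) (nat_lit 93) (nat_lit 5) (nat_lit 94) (nat_lit 5) (nat_lit 333) (nat_lit 328) (nat_lit 227)) (XT.lf (nat_lit 84) (nat_lit 56666274) (nat_lit 0) (nat_lit 3394225514) (nat_lit 1008) (nat_lit 9020598401) (nat_lit 83) (nat_lit 5) (nat_lit 82) (nat_lit 5) (nat_lit 94) (nat_lit 5) (nat_lit 334) (nat_lit 328) (nat_lit 226)))) (XT.nd (nat_lit 188) (nat_lit 0) (nat_lit 0) (XT.nd (nat_lit 94) (nat_lit 0) (nat_lit 0) (XT.lf (nat_lit 0) (nat_lit 4023319096) (nat_lit 924) (nat_lit 8342675228) (nat_lit 1008) (nat_lit 297954665) (nat_lit 83) (nat_lit 5) (nat_lit 94) (nat_lit 5) (nat_lit 95) (nat_lit 5) (nat_lit 335) (nat_lit 328) (nat_lit 225)) (XT.lf (nat_lit 0) (nat_lit 4634473018) (nat_lit 924) (nat_lit 4187970709) (nat_lit 1008) (nat_lit 4039380261) (nat_lit 83) (nat_lit 5) (nat_lit 94) (nat_lit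 5) (nat_lit 95) (nat_lit 5) (nat_lit 336) (nat_lit 328) (nat_lit 224))) (XT.nd (nat_lit 94) (nat_lit 0) (nat_lit 0) (XT.lf (nat_lit 84) (nat_lit 88618870) (nat_lit 0) (nat_lit 5163512315) (nat_lit 1008) (nat_lit 7814184992) (nat_lit 84) (nat_lit 5) (nat_lit 83) (nat_lit 5) (nat_lit 95) (nat_lit 5) (nat_lit 337) (nat_lit 328) (nat_lit 223)) (XT.lf (nat_lit 84) (nat_lit 4577957296) (nat_lit 0) (nat_lit 1341687779) (nat_lit 1008) (nat_lit 7356645042) (nat_lit 84) (nat_lit 5) (nat_lit 83) (nat_lit 5) (nat_lit 95) (nat_lit 5) (nat_lit 338) (nat_lit 328) (nat_lit 222)))))) (XT.nd (nat_lit 564) (nat_lit 1512) (nat_lit 0) (XT.nd (nat_lit 282) (nat_lit 0) (nat_lit 84) (XT.nd (nat_lit 94) (nat_lit 0) (nat_lit 0) (XT.lf (nat_lit 0) (nat_lit 6621058313) (nat_lit 924) (nat_lit 4320960952) (nat_lit 1008) (nat_lit 2550436196) (nat_lit 84) (nat_lit 5) (nat_lit 95) (nat_lit 5) (nat_lit 96) (nat_lit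 5) (nat_lit 339) (nat_lit 328) (nat_lit 221)) (XT.nd (nat_lit 94) (nat_lit 0) (nat_lit 0) (XT.lf (nat_lit 84) (nat_lit 173270637) (nat_lit 0) (nat_lit 7174191770) (nat_lit 1008) (nat_lit 6367847723) (nat_lit 85) (nat_lit 5) (nat_lit 84) (nat_lit 5) (nat_lit 96) (nat_lit 5) (nat_lit 340) (nat_lit 328) (nat_lit 220)) (XT.lf (nat_lit 84) (nat_lit 4889905135) (nat_lit 0) (nat_lit 3239669862) (nat_lit 1008) (nat_lit 5814555592) (nat_lit 85) (nat_lit 5) (nat_lit 84) (nat_lit 5) (nat_lit 96) (nat_lit 5) (nat_lit 341) (nat_lit 328) (nat_lit 219)))) (XT.nd (nat_lit 94) (nat_lit 0) (nat_lit 0) (XT.lf (nat_lit 0) (nat_lit 8932514856) (nat_lit 924) (nat_lit 4444130735) (nat_lit 1008) (nat_lit 803588448) (nat_lit 85) (nat_lit 5) (nat_lit 96) (nat_lit 5) (nat_lit 97) (nat_lit 5) (nat_lit 342) (nat_lit 328) (nat_lit 218)) (XT.nd (nat_lit 94) (nat_lit 0) (nat_lit 0) (XT.lf (nat_lit 84) (nat_lit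 272762445) (nat_lit 0) (nat_lit 9512248664) (nat_lit 1008) (nat_lit 4637962046) (nat_lit 86) (nat_lit 5) (nat_lit 85) (nat_lit 5) (nat_lit 97) (nat_lit 5) (nat_lit 343) (nat_lit 328) (nat_lit 217)) (XT.lf (nat_lit 84) (nat_lit 5221702533) (nat_lit 0) (nat_lit 5477697814) (nat_lit 1008) (nat_lit 3972816043) (nat_lit 86) (nat_lit 5) (nat_lit 85) (nat_lit 5) (nat_lit 97) (nat_lit 5) (nat_lit 344) (nat_lit 328) (nat_lit 216))))) (XT.nd (nat_lit 282) (nat_lit 756) (nat_lit 0) (XT.nd (nat_lit 94) (nat_lit 840) (nat_lit 0) (XT.lf (nat_lit 84) (nat_lit 10315922016) (nat_lit 0) (nat_lit 1315620029) (nat_lit 1008) (nat_lit 3298048800) (nat_lit 86) (nat_lit 5) (nat_lit 85) (nat_lit 5) (nat_lit 97) (nat_lit 5) (nat_lit 345) (nat_lit 328) (nat_lit 215)) (XT.nd (nat_lit 94) (nat_lit 0) (nat_lit 0) (XT.lf (nat_lit 0) (nat_lit 342186330) (nat_lit 924) (nat_lit 12273054038) (nat_lit 1008) (nat_lit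 2579075057) (nat_lit 75) (nat_lit 5) (nat_lit 86) (nat_lit 5) (nat_lit 87) (nat_lit 5) (nat_lit 346) (nat_lit 328) (nat_lit 214)) (XT.lf (nat_lit 0) (nat_lit 5527522900) (nat_lit 924) (nat_lit 8153362347) (nat_lit 1008) (nat_lit 1784837969) (nat_lit 75) (nat_lit 5) (nat_lit 86) (nat_lit 5) (nat_lit 87) (nat_lit 5) (nat_lit 347) (nat_lit 328) (nat_lit 213)))) (XT.nd (nat_lit 188) (nat_lit 84) (nat_lit 0) (XT.nd (nat_lit 94) (nat_lit 672) (nat_lit 0) (XT.lf (nat_lit 0) (nat_lit 10865627135) (nat_lit 924) (nat_lit 3904214605) (nat_lit 1008) (nat_lit 976073938) (nat_lit 75) (nat_lit 5) (nat_lit 86) (nat_lit 5) (nat_lit 87) (nat_lit 5) (nat_lit 348) (nat_lit 328) (nat_lit 212)) (XT.lf (nat_lit 0) (nat_lit 328187690) (nat_lit 672) (nat_lit 15562938127) (nat_lit 756) (nat_lit 143780128) (nat_lit 67) (nat_lit 5) (nat_lit 75) (nat_lit 5) (nat_lit 76) (nat_lit 5) (nat_lit 349) (nat_lit 328)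 (nat_lit 211))) (XT.nd (nat_lit 94) (nat_lit 0) (nat_lit 0) (XT.lf (nat_lit 0) (nat_lit 781945868) (nat_lit 756) (nat_lit 10585516114) (nat_lit 84) (nat_lit 4962694059) (nat_lit 66) (nat_lit 5) (nat_lit 75) (nat_lit 5) (nat_lit 67) (nat_lit 5) (nat_lit 350) (nat_lit 328) (nat_lit 210)) (XT.lf (nat_lit 0) (nat_lit 1724295229) (nat_lit 756) (nat_lit 5315066588) (nat_lit 84) (nat_lit 9595494800) (nat_lit 66) (nat_lit 5) (nat_lit 75) (nat_lit 5) (nat_lit 67) (nat_lit 5) (nat_lit 351) (nat_lit 328) (nat_lit 209))))))))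
noncomputable def xc158 : XT := (XT.nd (nat_lit 2350) (nat_lit 1428) (nat_lit 0) (XT.nd (nat_lit 1128) (nat_lit 1428) (nat_lit 0) (XT.nd (nat_lit 564) (nat_lit 756) (nat_lit 0) (XT.nd (nat_lit 282) (nat_lit 420) (nat_lit 0) (XT.nd (nat_lit 94) (nat_lit 0) (nat_lit 0) (XT.lf (nat_lit 0) (nat_lit 113251005) (nat_lit 504) (nat_lit 2574915629) (nat_lit 588) (nat_lit 14261134438) (nat_lit 60) (nat_lit 5) (nat_lit 66) (nat_lit 5) (nat_lit 67) (nat_lit 5) (nat_lit 352) (nat_lit 328) (nat_lit 208)) (XT.nd (nat_lit 94) (nat_lit 0) (nat_lit 0) (XT.lf (nat_lit 0) (nat_lit 3749464368) (nat_lit 588) (nat_lit 11477988157) (nat_lit 84) (nat_lit 2044004798) (nat_lit 60) (nat_lit 5) (nat_lit 67) (nat_lit 5) (nat_lit 61) (nat_lit 5) (nat_lit 353) (nat_lit 328) (nat_lit 207)) (XT.lf (nat_lit 0) (nat_lit 4861639954) (nat_lit 588) (nat_lit 5987972549) (nat_lit 84) (nat_lit 6753486818) (nat_lit 60) (nat_lit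 5) (nat_lit 67) (nat_lit 5) (nat_lit 61) (nat_lit 5) (nat_lit 354) (nat_lit 328) (nat_lit 206)))) (XT.nd (nat_lit 94) (nat_lit 420) (nat_lit 0) (XT.lf (nat_lit 0) (nat_lit 6000186576) (nat_lit 588) (nat_lit 335342491) (nat_lit 84) (nat_lit 11609798970) (nat_lit 60) (nat_lit 5) (nat_lit 67) (nat_lit 5) (nat_lit 61) (nat_lit 5) (nat_lit 355) (nat_lit 328) (nat_lit 205)) (XT.nd (nat_lit 94) (nat_lit 0) (nat_lit 0) (XT.lf (nat_lit 0) (nat_lit 5597957222) (nat_lit 420) (nat_lit 1623740685) (nat_lit 504) (nat_lit 11075043055) (nat_lit 55) (nat_lit 5) (nat_lit 60) (nat_lit 5) (nat_lit 61) (nat_lit 5) (nat_lit 356) (nat_lit 328) (nat_lit 204)) (XT.lf (nat_lit 0) (nat_lit 8509000784) (nat_lit 504) (nat_lit 6976327467) (nat_lit 84) (nat_lit 3172905060) (nat_lit 55) (nat_lit 5) (nat_lit 61) (nat_lit 5) (nat_lit 56) (nat_lit 5) (nat_lit 357) (nat_lit 328) (nat_lit 203))))) (XT.nd (nat_lit 282)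 (nat_lit 336) (nat_lit 0) (XT.nd (nat_lit 94) (nat_lit 420) (nat_lit 0) (XT.lf (nat_lit 0) (nat_lit 9845354249) (nat_lit 504) (nat_lit 1100422540) (nat_lit 84) (nat_lit 8084921412) (nat_lit 55) (nat_lit 5) (nat_lit 61) (nat_lit 5) (nat_lit 56) (nat_lit 5) (nat_lit 358) (nat_lit 328) (nat_lit 202)) (XT.nd (nat_lit 94) (nat_lit 0) (nat_lit 0) (XT.lf (nat_lit 0) (nat_lit 5052308463) (nat_lit 420) (nat_lit 6213707278) (nat_lit 504) (nat_lit 8147412702) (nat_lit 50) (nat_lit 5) (nat_lit 55) (nat_lit 5) (nat_lit 56) (nat_lit 5) (nat_lit 359) (nat_lit 328) (nat_lit 201)) (XT.lf (nat_lit 0) (nat_lit 11412054857) (nat_lit 420) (nat_lit 1323058312) (nat_lit 504) (nat_lit 7072820696) (nat_lit 50) (nat_lit 5) (nat_lit 55) (nat_lit 5) (nat_lit 56) (nat_lit 5) (nat_lit 360) (nat_lit 328) (nat_lit 200)))) (XT.nd (nat_lit 94) (nat_lit 336) (nat_lit 0) (XT.lf (nat_lit 0) (nat_lit 14279770442) (nat_lit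 504) (nat_lit 2289705252) (nat_lit 84) (nat_lit 3644308101) (nat_lit 50) (nat_lit 5) (nat_lit 56) (nat_lit 5) (nat_lit 51) (nat_lit 5) (nat_lit 361) (nat_lit 328) (nat_lit 199)) (XT.nd (nat_lit 94) (nat_lit 0) (nat_lit 0) (XT.lf (nat_lit 0) (nat_lit 4067293587) (nat_lit 336) (nat_lit 11852228006) (nat_lit 420) (nat_lit 4711274015) (nat_lit 46) (nat_lit 5) (nat_lit 50) (nat_lit 5) (nat_lit 51) (nat_lit 5) (nat_lit 362) (nat_lit 328) (nat_lit 198)) (XT.lf (nat_lit 0) (nat_lit 10663088178) (nat_lit 336) (nat_lit 6964379342) (nat_lit 420) (nat_lit 3432771736) (nat_lit 46) (nat_lit 5) (nat_lit 50) (nat_lit 5) (nat_lit 51) (nat_lit 5) (nat_lit 363) (nat_lit 328) (nat_lit 197)))))) (XT.nd (nat_lit 564) (nat_lit 588) (nat_lit 0) (XT.nd (nat_lit 282) (nat_lit 336) (nat_lit 0) (XT.nd (nat_lit 94) (nat_lit 504) (nat_lit 0) (XT.lf (nat_lit 0) (nat_lit 17456745454) (nat_lit 336) (nat_lit 1925273543)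 (nat_lit 420) (nat_lit 2121214644) (nat_lit 46) (nat_lit 5) (nat_lit 50) (nat_lit 5) (nat_lit 51) (nat_lit 5) (nat_lit 364) (nat_lit 328) (nat_lit 196)) (XT.nd (nat_lit 94) (nat_lit 84) (nat_lit 0) (XT.lf (nat_lit 0) (nat_lit 2512592589) (nat_lit 420) (nat_lit 18729580776) (nat_lit 504) (nat_lit 716240098) (nat_lit 41) (nat_lit 5) (nat_lit 46) (nat_lit 5) (nat_lit 47) (nat_lit 5) (nat_lit 365) (nat_lit 328) (nat_lit 195)) (XT.lf (nat_lit 0) (nat_lit 773761979) (nat_lit 504) (nat_lit 13099726883) (nat_lit 84) (nat_lit 8552284550) (nat_lit 40) (nat_lit 5) (nat_lit 46) (nat_lit 5) (nat_lit 41) (nat_lit 5) (nat_lit 366) (nat_lit 328) (nat_lit 194)))) (XT.nd (nat_lit 94) (nat_lit 336) (nat_lit 0) (XT.lf (nat_lit 0) (nat_lit 2289127793) (nat_lit 504) (nat_lit 6570760241) (nat_lit 84) (nat_lit 14047727456) (nat_lit 40) (nat_lit 5) (nat_lit 46) (nat_lit 5) (nat_lit 41) (nat_lit 5) (nat_lit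 367) (nat_lit 328) (nat_lit 193)) (XT.nd (nat_lit 94) (nat_lit 0) (nat_lit 0) (XT.lf (nat_lit 0) (nat_lit 157442029) (nat_lit 336) (nat_lit 3689820277) (nat_lit 420) (nat_lit 19557298358) (nat_lit 36) (nat_lit 5) (nat_lit 40) (nat_lit 5) (nat_lit 41) (nat_lit 5) (nat_lit 368) (nat_lit 328) (nat_lit 192)) (XT.lf (nat_lit 0) (nat_lit 5533595593) (nat_lit 420) (nat_lit 16704719520) (nat_lit 84) (nat_lit 1676153722) (nat_lit 36) (nat_lit 5) (nat_lit 41) (nat_lit 5) (nat_lit 37) (nat_lit 5) (nat_lit 369) (nat_lit 328) (nat_lit 191))))) (XT.nd (nat_lit 282) (nat_lit 252) (nat_lit 0) (XT.nd (nat_lit 94) (nat_lit 336) (nat_lit 0) (XT.lf (nat_lit 0) (nat_lit 7304449423) (nat_lit 420) (nat_lit 10003523682) (nat_lit 84) (nat_lit 7131244932) (nat_lit 36) (nat_lit 5) (nat_lit 41) (nat_lit 5) (nat_lit 37) (nat_lit 5) (nat_lit 370) (nat_lit 328) (nat_lit 190)) (XT.nd (nat_lit 94) (nat_lit 336)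 (nat_lit 0) (XT.lf (nat_lit 0) (nat_lit 9124870946) (nat_lit 420) (nat_lit 3100681434) (nat_lit 84) (nat_lit 12754879724) (nat_lit 36) (nat_lit 5) (nat_lit 41) (nat_lit 5) (nat_lit 37) (nat_lit 5) (nat_lit 371) (nat_lit 328) (nat_lit 189)) (XT.lf (nat_lit 0) (nat_lit 4092700186) (nat_lit 336) (nat_lit 6944456889) (nat_lit 420) (nat_lit 14500199822) (nat_lit 32) (nat_lit 5) (nat_lit 36) (nat_lit 5) (nat_lit 37) (nat_lit 5) (nat_lit 372) (nat_lit 328) (nat_lit 188)))) (XT.nd (nat_lit 188) (nat_lit 252) (nat_lit 0) (XT.nd (nat_lit 94) (nat_lit 0) (nat_lit 0) (XT.lf (nat_lit 0) (nat_lit 11568961736) (nat_lit 336) (nat_lit 1467055940) (nat_lit 420) (nat_lit 13074713106) (nat_lit 32) (nat_lit 5) (nat_lit 36) (nat_lit 5) (nat_lit 37) (nat_lit 5) (nat_lit 373) (nat_lit 328) (nat_lit 187)) (XT.lf (nat_lit 0) (nat_lit 15133384359) (nat_lit 420) (nat_lit 7472205917) (nat_lit 84) (nat_lit 4095185805)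 (nat_lit 32) (nat_lit 5) (nat_lit 37) (nat_lit 5) (nat_lit 33) (nat_lit 5) (nat_lit 374) (nat_lit 328) (nat_lit 186))) (XT.nd (nat_lit 94) (nat_lit 252) (nat_lit 0) (XT.lf (nat_lit 0) (nat_lit 17305995911) (nat_lit 420) (nat_lit 204161570) (nat_lit 84) (nat_lit 9798666995) (nat_lit 32) (nat_lit 5) (nat_lit 37) (nat_lit 5) (nat_lit 33) (nat_lit 5) (nat_lit 375) (nat_lit 328) (nat_lit 185)) (XT.lf (nat_lit 0) (nat_lit 7433459591) (nat_lit 252) (nat_lit 12181605305) (nat_lit 336) (nat_lit 8318543027) (nat_lit 29) (nat_lit 5) (nat_lit 32) (nat_lit 5) (nat_lit 33) (nat_lit 5) (nat_lit 376) (nat_lit 328) (nat_lit 184))))))) (XT.nd (nat_lit 1222) (nat_lit 588) (nat_lit 0) (XT.nd (nat_lit 564) (nat_lit 504) (nat_lit 0) (XT.nd (nat_lit 282) (nat_lit 84) (nat_lit 0) (XT.nd (nat_lit 94) (nat_lit 252) (nat_lit 0) (XT.lf (nat_lit 0) (nat_lit 15306730609) (nat_lit 252) (nat_lit 6686566413) (nat_lit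 336) (nat_lit 6584564609) (nat_lit 29) (nat_lit 5) (nat_lit 32) (nat_lit 5) (nat_lit 33) (nat_lit 5) (nat_lit 377) (nat_lit 328) (nat_lit 183)) (XT.nd (nat_lit 94) (nat_lit 252) (nat_lit 0) (XT.lf (nat_lit 0) (nat_lit 23418792214) (nat_lit 252) (nat_lit 1022049880) (nat_lit 336) (nat_lit 4801408091) (nat_lit 29) (nat_lit 5) (nat_lit 32) (nat_lit 5) (nat_lit 33) (nat_lit 5) (nat_lit 378) (nat_lit 328) (nat_lit 182)) (XT.lf (nat_lit 0) (nat_lit 1839078707) (nat_lit 252) (nat_lit 25186934124) (nat_lit 336) (nat_lit 2899333063) (nat_lit 26) (nat_lit 5) (nat_lit 29) (nat_lit 5) (nat_lit 30) (nat_lit 5) (nat_lit 379) (nat_lit 328) (nat_lit 181)))) (XT.nd (nat_lit 94) (nat_lit 84) (nat_lit 0) (XT.lf (nat_lit 0) (nat_lit 9846721785) (nat_lit 252) (nat_lit 19911523595) (nat_lit 336) (nat_lit 869322274) (nat_lit 26) (nat_lit 5) (nat_lit 29) (nat_lit 5) (nat_lit 30) (nat_lit 5) (nat_lit 380)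 (nat_lit 328) (nat_lit 180)) (XT.nd (nat_lit 94) (nat_lit 0) (nat_lit 0) (XT.lf (nat_lit 0) (nat_lit 1194816289) (nat_lit 336) (nat_lit 13266264929) (nat_lit 84) (nat_lit 16890252599) (nat_lit 25) (nat_lit 5) (nat_lit 29) (nat_lit 5) (nat_lit 26) (nat_lit 5) (nat_lit 381) (nat_lit 328) (nat_lit 179)) (XT.lf (nat_lit 0) (nat_lit 3300860677) (nat_lit 336) (nat_lit 5532637637) (nat_lit 84) (nat_lit 23263910048) (nat_lit 25) (nat_lit 5) (nat_lit 29) (nat_lit 5) (nat_lit 26) (nat_lit 5) (nat_lit 382) (nat_lit 328) (nat_lit 178))))) (XT.nd (nat_lit 282) (nat_lit 252) (nat_lit 0) (XT.nd (nat_lit 94) (nat_lit 0) (nat_lit 0) (XT.lf (nat_lit 0) (nat_lit 2485954788) (nat_lit 252) (nat_lit 3006995040) (nat_lit 336) (nat_lit 27373039728) (nat_lit 22) (nat_lit 5) (nat_lit 25) (nat_lit 5) (nat_lit 26) (nat_lit 5) (nat_lit 383) (nat_lit 328) (nat_lit 177)) (XT.nd (nat_lit 94) (nat_lit 0) (nat_lit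 0) (XT.lf (nat_lit 0) (nat_lit 7837251726) (nat_lit 336) (nat_lit 22821491052) (nat_lit 84) (nat_lit 2997063152) (nat_lit 22) (nat_lit 5) (nat_lit 26) (nat_lit 5) (nat_lit 23) (nat_lit 5) (nat_lit 384) (nat_lit 328) (nat_lit 176)) (XT.lf (nat_lit 0) (nat_lit 10281253333) (nat_lit 336) (nat_lit 15064183093) (nat_lit 84) (nat_lit 9123852893) (nat_lit 22) (nat_lit 5) (nat_lit 26) (nat_lit 5) (nat_lit 23) (nat_lit 5) (nat_lit 385) (nat_lit 328) (nat_lit 175)))) (XT.nd (nat_lit 188) (nat_lit 0) (nat_lit 0) (XT.nd (nat_lit 94) (nat_lit 252) (nat_lit 0) (XT.lf (nat_lit 0) (nat_lit 12797402953) (nat_lit 336) (nat_lit 7071050504) (nat_lit 84) (nat_lit 15439669241) (nat_lit 22) (nat_lit 5) (nat_lit 26) (nat_lit 5) (nat_lit 23) (nat_lit 5) (nat_lit 386) (nat_lit 328) (nat_lit 174)) (XT.lf (nat_lit 0) (nat_lit 1189319284) (nat_lit 252) (nat_lit 14210524810) (nat_lit 336) (nat_lit 20772878109)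 (nat_lit 19) (nat_lit 5) (nat_lit 22) (nat_lit 5) (nat_lit 23) (nat_lit 5) (nat_lit 387) (nat_lit 328) (nat_lit 173))) (XT.nd (nat_lit 94) (nat_lit 0) (nat_lit 0) (XT.lf (nat_lit 0) (nat_lit 9851196729) (nat_lit 252) (nat_lit 8302125287) (nat_lit 336) (nat_lit 18908639811) (nat_lit 19) (nat_lit 5) (nat_lit 22) (nat_lit 5) (nat_lit 23) (nat_lit 5) (nat_lit 388) (nat_lit 328) (nat_lit 172)) (XT.lf (nat_lit 0) (nat_lit 18777260305) (nat_lit 252) (nat_lit 2211554906) (nat_lit 336) (nat_lit 16990074452) (nat_lit 19) (nat_lit 5) (nat_lit 22) (nat_lit 5) (nat_lit 23) (nat_lit 5) (nat_lit 389) (nat_lit 328) (nat_lit 171)))))) (XT.nd (nat_lit 564) (nat_lit 420) (nat_lit 0) (XT.nd (nat_lit 282) (nat_lit 0) (nat_lit 0) (XT.nd (nat_lit 94) (nat_lit 168) (nat_lit 0) (XT.lf (nat_lit 0) (nat_lit 23949310446) (nat_lit 336) (nat_lit 10988874133) (nat_lit 84) (nat_lit 3984925147) (nat_lit 19) (nat_lit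 5) (nat_lit 23) (nat_lit 5) (nat_lit 20) (nat_lit 5) (nat_lit 390) (nat_lit 328) (nat_lit 170)) (XT.nd (nat_lit 94) (nat_lit 168) (nat_lit 0) (XT.lf (nat_lit 0) (nat_lit 27021046245) (nat_lit 336) (nat_lit 2548323309) (nat_lit 84) (nat_lit 10326644725) (nat_lit 19) (nat_lit 5) (nat_lit 23) (nat_lit 5) (nat_lit 20) (nat_lit 5) (nat_lit 391) (nat_lit 328) (nat_lit 169)) (XT.lf (nat_lit 0) (nat_lit 6276282596) (nat_lit 168) (nat_lit 23970925794) (nat_lit 252) (nat_lit 10650051781) (nat_lit 17) (nat_lit 5) (nat_lit 19) (nat_lit 5) (nat_lit 20) (nat_lit 5) (nat_lit 392) (nat_lit 328) (nat_lit 168)))) (XT.nd (nat_lit 94) (nat_lit 0) (nat_lit 0) (XT.lf (nat_lit 0) (nat_lit 15424460354) (nat_lit 168) (nat_lit 18172513670) (nat_lit 252) (nat_lit 8331855372) (nat_lit 17) (nat_lit 5) (nat_lit 19) (nat_lit 5) (nat_lit 20) (nat_lit 5) (nat_lit 393) (nat_lit 328) (nat_lit 167)) (XT.nd (nat_lit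 94) (nat_lit 0) (nat_lit 0) (XT.lf (nat_lit 0) (nat_lit 24852338270) (nat_lit 168) (nat_lit 12195327723) (nat_lit 252) (nat_lit 5944817275) (nat_lit 17) (nat_lit 5) (nat_lit 19) (nat_lit 5) (nat_lit 20) (nat_lit 5) (nat_lit 394) (nat_lit 328) (nat_lit 166)) (XT.lf (nat_lit 0) (nat_lit 34568704113) (nat_lit 168) (nat_lit 6033796591) (nat_lit 252) (nat_lit 3486712520) (nat_lit 17) (nat_lit 5) (nat_lit 19) (nat_lit 5) (nat_lit 20) (nat_lit 5) (nat_lit 395) (nat_lit 328) (nat_lit 165))))) (XT.nd (nat_lit 282) (nat_lit 168) (nat_lit 0) (XT.nd (nat_lit 94) (nat_lit 252) (nat_lit 0) (XT.lf (nat_lit 0) (nat_lit 44267944479) (nat_lit 252) (nat_lit 640579821) (nat_lit 84) (nat_lit 311419496) (nat_lit 17) (nat_lit 5) (nat_lit 20) (nat_lit 5) (nat_lit 18) (nat_lit 5) (nat_lit 396) (nat_lit 328) (nat_lit 164)) (XT.nd (nat_lit 94) (nat_lit 0) (nat_lit 0) (XT.lf (nat_lit 0) (nat_lit 1773866371)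 (nat_lit 252) (nat_lit 37776208311) (nat_lit 84) (nat_lit 6830627769) (nat_lit 14) (nat_lit 5) (nat_lit 17) (nat_lit 5) (nat_lit 15) (nat_lit 5) (nat_lit 397) (nat_lit 328) (nat_lit 163)) (XT.lf (nat_lit 0) (nat_lit 4568547510) (nat_lit 252) (nat_lit 29440968935) (nat_lit 84) (nat_lit 13567512972) (nat_lit 14) (nat_lit 5) (nat_lit 17) (nat_lit 5) (nat_lit 15) (nat_lit 5) (nat_lit 398) (nat_lit 328) (nat_lit 162)))) (XT.nd (nat_lit 188) (nat_lit 168) (nat_lit 0) (XT.nd (nat_lit 94) (nat_lit 0) (nat_lit 0) (XT.lf (nat_lit 0) (nat_lit 7447278075) (nat_lit 252) (nat_lit 20850898572) (nat_lit 84) (nat_lit 20512359012) (nat_lit 14) (nat_lit 5) (nat_lit 17) (nat_lit 5) (nat_lit 15) (nat_lit 5) (nat_lit 399) (nat_lit 328) (nat_lit 161)) (XT.lf (nat_lit 0) (nat_lit 10412741345) (nat_lit 252) (nat_lit 11997990375) (nat_lit 84) (nat_lit 27671639214) (nat_lit 14) (nat_lit 5) (nat_lit 17) (nat_lit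 5) (nat_lit 15) (nat_lit 5) (nat_lit 400) (nat_lit 328) (nat_lit 160))) (XT.nd (nat_lit 94) (nat_lit 168) (nat_lit 0) (XT.lf (nat_lit 0) (nat_lit 13467701443) (nat_lit 252) (nat_lit 2873992508) (nat_lit 84) (nat_lit 35052026775) (nat_lit 14) (nat_lit 5) (nat_lit 17) (nat_lit 5) (nat_lit 15) (nat_lit 5) (nat_lit 401) (nat_lit 328) (nat_lit 159)) (XT.lf (nat_lit 0) (nat_lit 6663861509) (nat_lit 168) (nat_lit 10017250731) (nat_lit 252) (nat_lit 36062645813) (nat_lit 12) (nat_lit 5) (nat_lit 14) (nat_lit 5) (nat_lit 15) (nat_lit 5) (nat_lit 402) (nat_lit 328) (nat_lit 158))))))))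
noncomputable def xc159 : XT := (XT.nd (nat_lit 2444) (nat_lit 84) (nat_lit 0) (XT.nd (nat_lit 1222) (nat_lit 252) (nat_lit 0) (XT.nd (nat_lit 564) (nat_lit 84) (nat_lit 0) (XT.nd (nat_lit 282) (nat_lit 168) (nat_lit 0) (XT.nd (nat_lit 94) (nat_lit 0) (nat_lit 0) (XT.lf (nat_lit 0) (nat_lit 16555099292) (nat_lit 168) (nat_lit 3466717706) (nat_lit 252) (nat_lit 34112983006) (nat_lit 12) (nat_lit 5) (nat_lit 14) (nat_lit 5) (nat_lit 15) (nat_lit 5) (nat_lit 403) (nat_lit 328) (nat_lit 157)) (XT.nd (nat_lit 94) (nat_lit 0) (nat_lit 0) (XT.lf (nat_lit 0) (nat_lit 23496430659) (nat_lit 252) (nat_lit 28851797489) (nat_lit 84) (nat_lit 3219806494) (nat_lit 12) (nat_lit 5) (nat_lit 15) (nat_lit 5) (nat_lit 13) (nat_lit 5) (nat_lit 404) (nat_lit 328) (nat_lit 156)) (XT.lf (nat_lit 0) (nat_lit 27112022420) (nat_lit 252) (nat_lit 19891882049) (nat_lit 84) (nat_lit 10040774677) (nat_lit 12)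 (nat_lit 5) (nat_lit 15) (nat_lit 5) (nat_lit 13) (nat_lit 5) (nat_lit 405) (nat_lit 328) (nat_lit 155)))) (XT.nd (nat_lit 94) (nat_lit 168) (nat_lit 0) (XT.lf (nat_lit 0) (nat_lit 30837572123) (nat_lit 252) (nat_lit 10657212545) (nat_lit 84) (nat_lit 17072391336) (nat_lit 12) (nat_lit 5) (nat_lit 15) (nat_lit 5) (nat_lit 13) (nat_lit 5) (nat_lit 406) (nat_lit 328) (nat_lit 154)) (XT.nd (nat_lit 94) (nat_lit 168) (nat_lit 0) (XT.lf (nat_lit 0) (nat_lit 34676552371) (nat_lit 252) (nat_lit 1139181295) (nat_lit 84) (nat_lit 24321210673) (nat_lit 12) (nat_lit 5) (nat_lit 15) (nat_lit 5) (nat_lit 13) (nat_lit 5) (nat_lit 407) (nat_lit 328) (nat_lit 153)) (XT.lf (nat_lit 0) (nat_lit 8849378760) (nat_lit 168) (nat_lit 29870949668) (nat_lit 252) (nat_lit 23032397521) (nat_lit 10) (nat_lit 5) (nat_lit 12) (nat_lit 5) (nat_lit 13) (nat_lit 5) (nat_lit 408) (nat_lit 328) (nat_lit 152))))) (XT.nd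 (nat_lit 282) (nat_lit 84) (nat_lit 0) (XT.nd (nat_lit 94) (nat_lit 0) (nat_lit 0) (XT.lf (nat_lit 0) (nat_lit 19168937406) (nat_lit 168) (nat_lit 23730447719) (nat_lit 252) (nat_lit 20518913600) (nat_lit 10) (nat_lit 5) (nat_lit 12) (nat_lit 5) (nat_lit 13) (nat_lit 5) (nat_lit 409) (nat_lit 328) (nat_lit 151)) (XT.nd (nat_lit 94) (nat_lit 0) (nat_lit 0) (XT.lf (nat_lit 0) (nat_lit 29805689647) (nat_lit 168) (nat_lit 17400394945) (nat_lit 252) (nat_lit 17929488092) (nat_lit 10) (nat_lit 5) (nat_lit 12) (nat_lit 5) (nat_lit 13) (nat_lit 5) (nat_lit 410) (nat_lit 328) (nat_lit 150)) (XT.lf (nat_lit 0) (nat_lit 40769550050) (nat_lit 168) (nat_lit 10874891074) (nat_lit 252) (nat_lit 15261707382) (nat_lit 10) (nat_lit 5) (nat_lit 12) (nat_lit 5) (nat_lit 13) (nat_lit 5) (nat_lit 411) (nat_lit 328) (nat_lit 149)))) (XT.nd (nat_lit 188) (nat_lit 84) (nat_lit 0) (XT.nd (nat_lit 94) (nat_lit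 0) (nat_lit 0) (XT.lf (nat_lit 0) (nat_lit 52070738082) (nat_lit 168) (nat_lit 4147853652) (nat_lit 252) (nat_lit 12513084818) (nat_lit 10) (nat_lit 5) (nat_lit 12) (nat_lit 5) (nat_lit 13) (nat_lit 5) (nat_lit 412) (nat_lit 328) (nat_lit 148)) (XT.lf (nat_lit 0) (nat_lit 60960447274) (nat_lit 252) (nat_lit 6921718036) (nat_lit 84) (nat_lit 2730836032) (nat_lit 10) (nat_lit 5) (nat_lit 13) (nat_lit 5) (nat_lit 11) (nat_lit 4) (nat_lit 413) (nat_lit 328) (nat_lit 147))) (XT.nd (nat_lit 94) (nat_lit 0) (nat_lit 0) (XT.lf (nat_lit 0) (nat_lit 3137759938) (nat_lit 84) (nat_lit 62783394429) (nat_lit 168) (nat_lit 6629273572) (nat_lit 9) (nat_lit 5) (nat_lit 10) (nat_lit 5) (nat_lit 11) (nat_lit 4) (nat_lit 414) (nat_lit 328) (nat_lit 146)) (XT.lf (nat_lit 0) (nat_lit 13653388985) (nat_lit 84) (nat_lit 57452834100) (nat_lit 168) (nat_lit 3439511670) (nat_lit 9) (nat_lit 5) (nat_lit 10)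 (nat_lit 5) (nat_lit 11) (nat_lit 4) (nat_lit 415) (nat_lit 328) (nat_lit 145)))))) (XT.nd (nat_lit 564) (nat_lit 168) (nat_lit 0) (XT.nd (nat_lit 282) (nat_lit 0) (nat_lit 0) (XT.nd (nat_lit 94) (nat_lit 84) (nat_lit 0) (XT.lf (nat_lit 0) (nat_lit 24492646055) (nat_lit 84) (nat_lit 51957764224) (nat_lit 168) (nat_lit 152543709) (nat_lit 9) (nat_lit 5) (nat_lit 10) (nat_lit 5) (nat_lit 11) (nat_lit 4) (nat_lit 416) (nat_lit 328) (nat_lit 144)) (XT.nd (nat_lit 94) (nat_lit 0) (nat_lit 0) (XT.lf (nat_lit 0) (nat_lit 3169522229) (nat_lit 168) (nat_lit 43090457279) (nat_lit 84) (nat_lit 32463028928) (nat_lit 8) (nat_lit 5) (nat_lit 10) (nat_lit 5) (nat_lit 9) (nat_lit 5) (nat_lit 417) (nat_lit 328) (nat_lit 143)) (XT.lf (nat_lit 0) (nat_lit 6589858043) (nat_lit 168) (nat_lit 33794807146) (nat_lit 84) (nat_lit 40524125977) (nat_lit 8) (nat_lit 5) (nat_lit 10) (nat_lit 5) (nat_lit 9) (nat_lit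 5) (nat_lit 418) (nat_lit 328) (nat_lit 142)))) (XT.nd (nat_lit 94) (nat_lit 0) (nat_lit 0) (XT.lf (nat_lit 0) (nat_lit 10114725259) (nat_lit 168) (nat_lit 24213179763) (nat_lit 84) (nat_lit 48834481447) (nat_lit 8) (nat_lit 5) (nat_lit 10) (nat_lit 5) (nat_lit 9) (nat_lit 5) (nat_lit 419) (nat_lit 328) (nat_lit 141)) (XT.nd (nat_lit 94) (nat_lit 0) (nat_lit 0) (XT.lf (nat_lit 0) (nat_lit 13747409423) (nat_lit 168) (nat_lit 14336644050) (nat_lit 84) (nat_lit 57401841460) (nat_lit 8) (nat_lit 5) (nat_lit 10) (nat_lit 5) (nat_lit 9) (nat_lit 5) (nat_lit 420) (nat_lit 328) (nat_lit 140)) (XT.lf (nat_lit 0) (nat_lit 17491296576) (nat_lit 168) (nat_lit 4155994040) (nat_lit 84) (nat_lit 66234191691) (nat_lit 8) (nat_lit 5) (nat_lit 10) (nat_lit 5) (nat_lit 9) (nat_lit 5) (nat_lit 421) (nat_lit 328) (nat_lit 139))))) (XT.nd (nat_lit 282) (nat_lit 0) (nat_lit 0) (XT.nd (nat_lit 94) (nat_lit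 0) (nat_lit 0) (XT.lf (nat_lit 0) (nat_lit 6468587316) (nat_lit 168) (nat_lit 14945458285) (nat_lit 252) (nat_lit 68935346688) (nat_lit 6) (nat_lit 5) (nat_lit 8) (nat_lit 5) (nat_lit 9) (nat_lit 5) (nat_lit 422) (nat_lit 328) (nat_lit 138)) (XT.nd (nat_lit 94) (nat_lit 0) (nat_lit 0) (XT.lf (nat_lit 0) (nat_lit 17508659375) (nat_lit 168) (nat_lit 7991774231) (nat_lit 252) (nat_lit 67392076879) (nat_lit 6) (nat_lit 5) (nat_lit 8) (nat_lit 5) (nat_lit 9) (nat_lit 5) (nat_lit 423) (nat_lit 328) (nat_lit 137)) (XT.lf (nat_lit 0) (nat_lit 28889056879) (nat_lit 168) (nat_lit 823136946) (nat_lit 252) (nat_lit 65802317871) (nat_lit 6) (nat_lit 5) (nat_lit 8) (nat_lit 5) (nat_lit 9) (nat_lit 5) (nat_lit 424) (nat_lit 328) (nat_lit 136)))) (XT.nd (nat_lit 188) (nat_lit 0) (nat_lit 0) (XT.nd (nat_lit 94) (nat_lit 0) (nat_lit 0) (XT.lf (nat_lit 0) (nat_lit 34118398859) (nat_lit 252) (nat_lit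 57662599149) (nat_lit 84) (nat_lit 6434822343) (nat_lit 6) (nat_lit 5) (nat_lit 9) (nat_lit 5) (nat_lit 7) (nat_lit 4) (nat_lit 425) (nat_lit 328) (nat_lit 135)) (XT.lf (nat_lit 0) (nat_lit 38668380832) (nat_lit 252) (nat_lit 48432154868) (nat_lit 84) (nat_lit 13900116675) (nat_lit 6) (nat_lit 5) (nat_lit 9) (nat_lit 5) (nat_lit 7) (nat_lit 4) (nat_lit 426) (nat_lit 328) (nat_lit 134))) (XT.nd (nat_lit 94) (nat_lit 0) (nat_lit 0) (XT.lf (nat_lit 0) (nat_lit 43358215186) (nat_lit 252) (nat_lit 38917352611) (nat_lit 84) (nat_lit 21596288859) (nat_lit 6) (nat_lit 5) (nat_lit 9) (nat_lit 5) (nat_lit 7) (nat_lit 4) (nat_lit 427) (nat_lit 328) (nat_lit 133)) (XT.lf (nat_lit 0) (nat_lit 48192273337) (nat_lit 252) (nat_lit 29109323588) (nat_lit 84) (nat_lit 29530512536) (nat_lit 6) (nat_lit 5) (nat_lit 9) (nat_lit 5) (nat_lit 7) (nat_lit 4) (nat_lit 428) (nat_lit 328) (nat_lit 132)))))))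 (XT.nd (nat_lit 47188) (nat_lit 0) (nat_lit 5124) (XT.nd (nat_lit 46530) (nat_lit 0) (nat_lit 6384) (XT.nd (nat_lit 282) (nat_lit 0) (nat_lit 0) (XT.nd (nat_lit 94) (nat_lit 84) (nat_lit 0) (XT.lf (nat_lit 0) (nat_lit 53175061133) (nat_lit 252) (nat_lit 18998925687) (nat_lit 84) (nat_lit 37710183231) (nat_lit 6) (nat_lit 5) (nat_lit 9) (nat_lit 5) (nat_lit 7) (nat_lit 4) (nat_lit 429) (nat_lit 328) (nat_lit 131)) (XT.nd (nat_lit 94) (nat_lit 84) (nat_lit 0) (XT.lf (nat_lit 0) (nat_lit 58311223055) (nat_lit 252) (nat_lit 8576734959) (nat_lit 84) (nat_lit 46142925256) (nat_lit 6) (nat_lit 5) (nat_lit 9) (nat_lit 5) (nat_lit 7) (nat_lit 4) (nat_lit 430) (nat_lit 328) (nat_lit 130)) (XT.lf (nat_lit 0) (nat_lit 2211520377) (nat_lit 84) (nat_lit 61415964722) (nat_lit 168) (nat_lit 52647016987) (nat_lit 5) (nat_lit 5) (nat_lit 6) (nat_lit 5) (nat_lit 7) (nat_lit 4) (nat_lit 431) (nat_lit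 328) (nat_lit 129)))) (XT.nd (nat_lit 46060) (nat_lit 0) (nat_lit 6384) (XT.lf (nat_lit 0) (nat_lit 13514469393) (nat_lit 84) (nat_lit 55682562279) (nat_lit 168) (nat_lit 50418903120) (nat_lit 5) (nat_lit 5) (nat_lit 6) (nat_lit 5) (nat_lit 7) (nat_lit 4) (nat_lit 432) (nat_lit 328) (nat_lit 128)) (XT.nd (nat_lit 94) (nat_lit 0) (nat_lit 0) (XT.lf (nat_lit 0) (nat_lit 344402032) (nat_lit 0) (nat_lit 344402032) (nat_lit 924) (nat_lit 5187103450) (nat_lit 81) (nat_lit 5) (nat_lit 81) (nat_lit 3) (nat_lit 92) (nat_lit 3) (nat_lit 329) (nat_lit 329) (nat_lit 230)) (XT.lf (nat_lit 0) (nat_lit 1813032720) (nat_lit 924) (nat_lit 7308685748) (nat_lit 1008) (nat_lit 2796598323) (nat_lit 81) (nat_lit 5) (nat_lit 92) (nat_lit 3) (nat_lit 93) (nat_lit 5) (nat_lit 330) (nat_lit 329) (nat_lit 229))))) (XT.nd (nat_lit 282) (nat_lit 0) (nat_lit 84) (XT.nd (nat_lit 94) (nat_lit 0) (nat_lit 0) (XT.lf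 (nat_lit 0) (nat_lit 2253533066) (nat_lit 924) (nat_lit 3453465885) (nat_lit 1008) (nat_lit 6383355689) (nat_lit 81) (nat_lit 5) (nat_lit 92) (nat_lit 3) (nat_lit 93) (nat_lit 5) (nat_lit 331) (nat_lit 329) (nat_lit 228)) (XT.nd (nat_lit 94) (nat_lit 0) (nat_lit 84) (XT.lf (nat_lit 84) (nat_lit 523624990) (nat_lit 0) (nat_lit 2174256174) (nat_lit 1008) (nat_lit 9570258567) (nat_lit 82) (nat_lit 5) (nat_lit 81) (nat_lit 5) (nat_lit 93) (nat_lit 5) (nat_lit 332) (nat_lit 329) (nat_lit 227)) (XT.lf (nat_lit 0) (nat_lit 3192415776) (nat_lit 924) (nat_lit 7776765560) (nat_lit 1008) (nat_lit 1481232780) (nat_lit 82) (nat_lit 5) (nat_lit 93) (nat_lit 5) (nat_lit 94) (nat_lit 5) (nat_lit 333) (nat_lit 329) (nat_lit 226)))) (XT.nd (nat_lit 188) (nat_lit 0) (nat_lit 84) (XT.nd (nat_lit 94) (nat_lit 0) (nat_lit 0) (XT.lf (nat_lit 0) (nat_lit 3710389666) (nat_lit 924) (nat_lit 3716723871) (nat_lit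 1008) (nat_lit 5211077608) (nat_lit 82) (nat_lit 5) (nat_lit 93) (nat_lit 5) (nat_lit 94) (nat_lit 5) (nat_lit 334) (nat_lit 329) (nat_lit 225)) (XT.lf (nat_lit 84) (nat_lit 470441954) (nat_lit 0) (nat_lit 3764941640) (nat_lit 1008) (nat_lit 8596786220) (nat_lit 83) (nat_lit 5) (nat_lit 82) (nat_lit 5) (nat_lit 94) (nat_lit 5) (nat_lit 335) (nat_lit 329) (nat_lit 224))) (XT.nd (nat_lit 94) (nat_lit 0) (nat_lit 0) (XT.lf (nat_lit 0) (nat_lit 4802630169) (nat_lit 924) (nat_lit 8173956412) (nat_lit 1008) (nat_lit 54867303) (nat_lit 83) (nat_lit 5) (nat_lit 94) (nat_lit 5) (nat_lit 95) (nat_lit 5) (nat_lit 336) (nat_lit 329) (nat_lit 223)) (XT.lf (nat_lit 0) (nat_lit 5413047774) (nat_lit 924) (nat_lit 3903305320) (nat_lit 1008) (nat_lit 3919863943) (nat_lit 83) (nat_lit 5) (nat_lit 94) (nat_lit 5) (nat_lit 95) (nat_lit 5) (nat_lit 337) (nat_lit 329) (nat_lit 222)))))) (XT.nd (nat_lit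 564) (nat_lit 1428) (nat_lit 0) (XT.nd (nat_lit 282) (nat_lit 0) (nat_lit 84) (XT.nd (nat_lit 94) (nat_lit 0) (nat_lit 0) (XT.lf (nat_lit 84) (nat_lit 501662172) (nat_lit 0) (nat_lit 5533171070) (nat_lit 1008) (nat_lit 7412820421) (nat_lit 84) (nat_lit 5) (nat_lit 83) (nat_lit 5) (nat_lit 95) (nat_lit 5) (nat_lit 338) (nat_lit 329) (nat_lit 221)) (XT.nd (nat_lit 94) (nat_lit 0) (nat_lit 84) (XT.lf (nat_lit 84) (nat_lit 5117833348) (nat_lit 0) (nat_lit 1586568048) (nat_lit 1008) (nat_lit 6960448560) (nat_lit 84) (nat_lit 5) (nat_lit 83) (nat_lit 5) (nat_lit 95) (nat_lit 5) (nat_lit 339) (nat_lit 329) (nat_lit 220)) (XT.lf (nat_lit 0) (nat_lit 7407524198) (nat_lit 924) (nat_lit 4044647722) (nat_lit 1008) (nat_lit 2436296859) (nat_lit 84) (nat_lit 5) (nat_lit 95) (nat_lit 5) (nat_lit 96) (nat_lit 5) (nat_lit 340) (nat_lit 329) (nat_lit 219)))) (XT.nd (nat_lit 94) (nat_lit 0) (nat_lit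 0) (XT.lf (nat_lit 84) (nat_lit 584751501) (nat_lit 0) (nat_lit 7558248120) (nat_lit 1008) (nat_lit 5975776528) (nat_lit 85) (nat_lit 5) (nat_lit 84) (nat_lit 5) (nat_lit 96) (nat_lit 5) (nat_lit 341) (nat_lit 329) (nat_lit 218)) (XT.nd (nat_lit 94) (nat_lit 0) (nat_lit 84) (XT.lf (nat_lit 84) (nat_lit 5435390812) (nat_lit 0) (nat_lit 3496895364) (nat_lit 1008) (nat_lit 5423056597) (nat_lit 85) (nat_lit 5) (nat_lit 84) (nat_lit 5) (nat_lit 96) (nat_lit 5) (nat_lit 342) (nat_lit 329) (nat_lit 217)) (XT.lf (nat_lit 0) (nat_lit 9742050286) (nat_lit 924) (nat_lit 4177912450) (nat_lit 1008) (nat_lit 679482569) (nat_lit 85) (nat_lit 5) (nat_lit 96) (nat_lit 5) (nat_lit 97) (nat_lit 5) (nat_lit 343) (nat_lit 329) (nat_lit 216))))) (XT.nd (nat_lit 282) (nat_lit 1596) (nat_lit 0) (XT.nd (nat_lit 94) (nat_lit 0) (nat_lit 0) (XT.lf (nat_lit 84) (nat_lit 681114419) (nat_lit 0) (nat_lit 9927811537)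 (nat_lit 1008) (nat_lit 4241273061) (nat_lit 86) (nat_lit 5) (nat_lit 85) (nat_lit 5) (nat_lit 97) (nat_lit 5) (nat_lit 344) (nat_lit 329) (nat_lit 215)) (XT.nd (nat_lit 94) (nat_lit 0) (nat_lit 0) (XT.lf (nat_lit 84) (nat_lit 5771447609) (nat_lit 0) (nat_lit 5764560922) (nat_lit 1008) (nat_lit 3571758202) (nat_lit 86) (nat_lit 5) (nat_lit 85) (nat_lit 5) (nat_lit 97) (nat_lit 5) (nat_lit 345) (nat_lit 329) (nat_lit 214)) (XT.lf (nat_lit 84) (nat_lit 11011925393) (nat_lit 0) (nat_lit 1469939144) (nat_lit 1008) (nat_lit 2891835221) (nat_lit 86) (nat_lit 5) (nat_lit 85) (nat_lit 5) (nat_lit 97) (nat_lit 5) (nat_lit 346) (nat_lit 329) (nat_lit 213)))) (XT.nd (nat_lit 188) (nat_lit 756) (nat_lit 0) (XT.nd (nat_lit 94) (nat_lit 0) (nat_lit 0) (XT.lf (nat_lit 0) (nat_lit 744828991) (nat_lit 924) (nat_lit 12739299545) (nat_lit 1008) (nat_lit 2162978091) (nat_lit 75) (nat_lit 5) (nat_lit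 86) (nat_lit 5) (nat_lit 87) (nat_lit 5) (nat_lit 347) (nat_lit 329) (nat_lit 212)) (XT.lf (nat_lit 0) (nat_lit 6079123331) (nat_lit 924) (nat_lit 8489318163) (nat_lit 1008) (nat_lit 1359034782) (nat_lit 75) (nat_lit 5) (nat_lit 86) (nat_lit 5) (nat_lit 87) (nat_lit 5) (nat_lit 348) (nat_lit 329) (nat_lit 211))) (XT.nd (nat_lit 94) (nat_lit 756) (nat_lit 0) (XT.lf (nat_lit 0) (nat_lit 11571275562) (nat_lit 924) (nat_lit 4105945144) (nat_lit 1008) (nat_lit 539665727) (nat_lit 75) (nat_lit 5) (nat_lit 86) (nat_lit 5) (nat_lit 87) (nat_lit 5) (nat_lit 349) (nat_lit 329) (nat_lit 210)) (XT.lf (nat_lit 0) (nat_lit 301316934) (nat_lit 756) (nat_lit 15797095033) (nat_lit 84) (nat_lit 416750943) (nat_lit 66) (nat_lit 5) (nat_lit 75) (nat_lit 5) (nat_lit 67) (nat_lit 5) (nat_lit 350) (nat_lit 329) (nat_lit 209))))))))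
noncomputable def xc160 : XT := (XT.nd (nat_lit 2350) (nat_lit 1512) (nat_lit 0) (XT.nd (nat_lit 1128) (nat_lit 1512) (nat_lit 0) (XT.nd (nat_lit 564) (nat_lit 420) (nat_lit 0) (XT.nd (nat_lit 282) (nat_lit 420) (nat_lit 0) (XT.nd (nat_lit 94) (nat_lit 504) (nat_lit 0) (XT.lf (nat_lit 0) (nat_lit 1239326438) (nat_lit 756) (nat_lit 10530484809) (nat_lit 84) (nat_lit 5050216192) (nat_lit 66) (nat_lit 5) (nat_lit 75) (nat_lit 5) (nat_lit 67) (nat_lit 5) (nat_lit 351) (nat_lit 329) (nat_lit 208)) (XT.nd (nat_lit 94) (nat_lit 504) (nat_lit 0) (XT.lf (nat_lit 0) (nat_lit 2197865013) (nat_lit 756) (nat_lit 5108172833) (nat_lit 84) (nat_lit 9828627900) (nat_lit 66) (nat_lit 5) (nat_lit 75) (nat_lit 5) (nat_lit 67) (nat_lit 5) (nat_lit 352) (nat_lit 329) (nat_lit 207)) (XT.lf (nat_lit 0) (nat_lit 484659873) (nat_lit 504) (nat_lit 2697974130) (nat_lit 588) (nat_lit 14276588060) (nat_lit 60)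 (nat_lit 5) (nat_lit 66) (nat_lit 5) (nat_lit 67) (nat_lit 5) (nat_lit 353) (nat_lit 329) (nat_lit 206)))) (XT.nd (nat_lit 94) (nat_lit 420) (nat_lit 0) (XT.lf (nat_lit 0) (nat_lit 4264054015) (nat_lit 588) (nat_lit 11461512544) (nat_lit 84) (nat_lit 2066277768) (nat_lit 60) (nat_lit 5) (nat_lit 67) (nat_lit 5) (nat_lit 61) (nat_lit 5) (nat_lit 354) (nat_lit 329) (nat_lit 205)) (XT.nd (nat_lit 94) (nat_lit 420) (nat_lit 0) (XT.lf (nat_lit 0) (nat_lit 5398729311) (nat_lit 588) (nat_lit 5812500526) (nat_lit 84) (nat_lit 6922989256) (nat_lit 60) (nat_lit 5) (nat_lit 67) (nat_lit 5) (nat_lit 61) (nat_lit 5) (nat_lit 355) (nat_lit 329) (nat_lit 204)) (XT.lf (nat_lit 0) (nat_lit 4596174) (nat_lit 420) (nat_lit 6556402710) (nat_lit 504) (nat_lit 11926494881) (nat_lit 55) (nat_lit 5) (nat_lit 60) (nat_lit 5) (nat_lit 61) (nat_lit 5) (nat_lit 356) (nat_lit 329) (nat_lit 203))))) (XT.nd (nat_lit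 282) (nat_lit 420) (nat_lit 0) (XT.nd (nat_lit 94) (nat_lit 0) (nat_lit 0) (XT.lf (nat_lit 0) (nat_lit 6118189693) (nat_lit 420) (nat_lit 1694312772) (nat_lit 504) (nat_lit 11037617922) (nat_lit 55) (nat_lit 5) (nat_lit 60) (nat_lit 5) (nat_lit 61) (nat_lit 5) (nat_lit 357) (nat_lit 329) (nat_lit 202)) (XT.nd (nat_lit 94) (nat_lit 0) (nat_lit 0) (XT.lf (nat_lit 0) (nat_lit 9128484151) (nat_lit 504) (nat_lit 6842723505) (nat_lit 84) (nat_lit 3252032904) (nat_lit 55) (nat_lit 5) (nat_lit 61) (nat_lit 5) (nat_lit 56) (nat_lit 5) (nat_lit 358) (nat_lit 329) (nat_lit 201)) (XT.lf (nat_lit 0) (nat_lit 10495569293) (nat_lit 504) (nat_lit 795185384) (nat_lit 84) (nat_lit 8316900035) (nat_lit 55) (nat_lit 5) (nat_lit 61) (nat_lit 5) (nat_lit 56) (nat_lit 5) (nat_lit 359) (nat_lit 329) (nat_lit 200)))) (XT.nd (nat_lit 94) (nat_lit 0) (nat_lit 0) (XT.lf (nat_lit 0) (nat_lit 5544844664) (nat_lit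 420) (nat_lit 6408385245) (nat_lit 504) (nat_lit 8049307116) (nat_lit 50) (nat_lit 5) (nat_lit 55) (nat_lit 5) (nat_lit 56) (nat_lit 5) (nat_lit 360) (nat_lit 329) (nat_lit 199)) (XT.nd (nat_lit 94) (nat_lit 0) (nat_lit 0) (XT.lf (nat_lit 0) (nat_lit 12091642950) (nat_lit 420) (nat_lit 1366064430) (nat_lit 504) (nat_lit 6951946828) (nat_lit 50) (nat_lit 5) (nat_lit 55) (nat_lit 5) (nat_lit 56) (nat_lit 5) (nat_lit 361) (nat_lit 329) (nat_lit 198)) (XT.lf (nat_lit 0) (nat_lit 15040373442) (nat_lit 504) (nat_lit 2032694113) (nat_lit 84) (nat_lit 3755389130) (nat_lit 50) (nat_lit 5) (nat_lit 56) (nat_lit 5) (nat_lit 51) (nat_lit 5) (nat_lit 362) (nat_lit 329) (nat_lit 197)))))) (XT.nd (nat_lit 564) (nat_lit 672) (nat_lit 0) (XT.nd (nat_lit 282) (nat_lit 504) (nat_lit 0) (XT.nd (nat_lit 94) (nat_lit 0) (nat_lit 0) (XT.lf (nat_lit 0) (nat_lit 4518051065) (nat_lit 336) (nat_lit 12206567104)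 (nat_lit 420) (nat_lit 4534037295) (nat_lit 46) (nat_lit 5) (nat_lit 50) (nat_lit 5) (nat_lit 51) (nat_lit 5) (nat_lit 363) (nat_lit 329) (nat_lit 196)) (XT.nd (nat_lit 94) (nat_lit 0) (nat_lit 0) (XT.lf (nat_lit 0) (nat_lit 11308553103) (nat_lit 336) (nat_lit 7167588419) (nat_lit 420) (nat_lit 3225621981) (nat_lit 46) (nat_lit 5) (nat_lit 50) (nat_lit 5) (nat_lit 51) (nat_lit 5) (nat_lit 364) (nat_lit 329) (nat_lit 195)) (XT.lf (nat_lit 0) (nat_lit 18303345099) (nat_lit 336) (nat_lit 1972651801) (nat_lit 420) (nat_lit 1882834880) (nat_lit 46) (nat_lit 5) (nat_lit 50) (nat_lit 5) (nat_lit 51) (nat_lit 5) (nat_lit 365) (nat_lit 329) (nat_lit 194)))) (XT.nd (nat_lit 94) (nat_lit 84) (nat_lit 0) (XT.lf (nat_lit 0) (nat_lit 2903601068) (nat_lit 420) (nat_lit 19284625592) (nat_lit 504) (nat_lit 440126364) (nat_lit 41) (nat_lit 5) (nat_lit 46) (nat_lit 5) (nat_lit 47) (nat_lit 5) (nat_lit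 366) (nat_lit 329) (nat_lit 193)) (XT.nd (nat_lit 94) (nat_lit 0) (nat_lit 0) (XT.lf (nat_lit 0) (nat_lit 1081266303) (nat_lit 504) (nat_lit 13194538086) (nat_lit 84) (nat_lit 8834631631) (nat_lit 40) (nat_lit 5) (nat_lit 46) (nat_lit 5) (nat_lit 41) (nat_lit 5) (nat_lit 367) (nat_lit 329) (nat_lit 192)) (XT.lf (nat_lit 0) (nat_lit 2635083676) (nat_lit 504) (nat_lit 6472533022) (nat_lit 84) (nat_lit 14499915310) (nat_lit 40) (nat_lit 5) (nat_lit 46) (nat_lit 5) (nat_lit 41) (nat_lit 5) (nat_lit 368) (nat_lit 329) (nat_lit 191))))) (XT.nd (nat_lit 282) (nat_lit 336) (nat_lit 0) (XT.nd (nat_lit 94) (nat_lit 0) (nat_lit 0) (XT.lf (nat_lit 0) (nat_lit 461186842) (nat_lit 336) (nat_lit 3775029828) (nat_lit 420) (nat_lit 19883881186) (nat_lit 36) (nat_lit 5) (nat_lit 40) (nat_lit 5) (nat_lit 41) (nat_lit 5) (nat_lit 369) (nat_lit 329) (nat_lit 190)) (XT.nd (nat_lit 94) (nat_lit 0) (nat_lit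 0) (XT.lf (nat_lit 0) (nat_lit 5966998017) (nat_lit 420) (nat_lit 16923265262) (nat_lit 84) (nat_lit 1755842003) (nat_lit 36) (nat_lit 5) (nat_lit 41) (nat_lit 5) (nat_lit 37) (nat_lit 5) (nat_lit 370) (nat_lit 329) (nat_lit 189)) (XT.lf (nat_lit 0) (nat_lit 7784874708) (nat_lit 420) (nat_lit 10023331692) (nat_lit 84) (nat_lit 7379207332) (nat_lit 36) (nat_lit 5) (nat_lit 41) (nat_lit 5) (nat_lit 37) (nat_lit 5) (nat_lit 371) (nat_lit 329) (nat_lit 188)))) (XT.nd (nat_lit 188) (nat_lit 0) (nat_lit 0) (XT.nd (nat_lit 94) (nat_lit 336) (nat_lit 0) (XT.lf (nat_lit 0) (nat_lit 9654092433) (nat_lit 420) (nat_lit 2915230080) (nat_lit 84) (nat_lit 13176366163) (nat_lit 36) (nat_lit 5) (nat_lit 41) (nat_lit 5) (nat_lit 37) (nat_lit 5) (nat_lit 372) (nat_lit 329) (nat_lit 187)) (XT.lf (nat_lit 0) (nat_lit 4498295701) (nat_lit 336) (nat_lit 7122721446) (nat_lit 420) (nat_lit 14699050003) (nat_lit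 32) (nat_lit 5) (nat_lit 36) (nat_lit 5) (nat_lit 37) (nat_lit 5) (nat_lit 373) (nat_lit 329) (nat_lit 186))) (XT.nd (nat_lit 94) (nat_lit 0) (nat_lit 0) (XT.lf (nat_lit 0) (nat_lit 12197940781) (nat_lit 336) (nat_lit 1476633988) (nat_lit 420) (nat_lit 13236909898) (nat_lit 32) (nat_lit 5) (nat_lit 36) (nat_lit 5) (nat_lit 37) (nat_lit 5) (nat_lit 374) (nat_lit 329) (nat_lit 185)) (XT.lf (nat_lit 0) (nat_lit 15830256116) (nat_lit 420) (nat_lit 7433559274) (nat_lit 84) (nat_lit 4256256223) (nat_lit 32) (nat_lit 5) (nat_lit 37) (nat_lit 5) (nat_lit 33) (nat_lit 5) (nat_lit 375) (nat_lit 329) (nat_lit 184))))))) (XT.nd (nat_lit 1222) (nat_lit 420) (nat_lit 0) (XT.nd (nat_lit 564) (nat_lit 588) (nat_lit 0) (XT.nd (nat_lit 282) (nat_lit 252) (nat_lit 0) (XT.nd (nat_lit 94) (nat_lit 0) (nat_lit 0) (XT.lf (nat_lit 0) (nat_lit 52729935) (nat_lit 252) (nat_lit 18011164211) (nat_lit 336) (nat_lit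 10083312576) (nat_lit 29) (nat_lit 5) (nat_lit 32) (nat_lit 5) (nat_lit 33) (nat_lit 5) (nat_lit 376) (nat_lit 329) (nat_lit 183)) (XT.nd (nat_lit 94) (nat_lit 0) (nat_lit 0) (XT.lf (nat_lit 0) (nat_lit 7923400847) (nat_lit 252) (nat_lit 12516552973) (nat_lit 336) (nat_lit 8351586857) (nat_lit 29) (nat_lit 5) (nat_lit 32) (nat_lit 5) (nat_lit 33) (nat_lit 5) (nat_lit 377) (nat_lit 329) (nat_lit 182)) (XT.lf (nat_lit 0) (nat_lit 16032940527) (nat_lit 252) (nat_lit 6852451235) (nat_lit 336) (nat_lit 6570615303) (nat_lit 29) (nat_lit 5) (nat_lit 32) (nat_lit 5) (nat_lit 33) (nat_lit 5) (nat_lit 378) (nat_lit 329) (nat_lit 181)))) (XT.nd (nat_lit 94) (nat_lit 252) (nat_lit 0) (XT.lf (nat_lit 0) (nat_lit 24388907914) (nat_lit 252) (nat_lit 1013579463) (nat_lit 336) (nat_lit 4738737863) (nat_lit 29) (nat_lit 5) (nat_lit 32) (nat_lit 5) (nat_lit 33) (nat_lit 5) (nat_lit 379) (nat_lit 329)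 (nat_lit 180)) (XT.nd (nat_lit 94) (nat_lit 0) (nat_lit 0) (XT.lf (nat_lit 0) (nat_lit 2144815779) (nat_lit 252) (nat_lit 25919703147) (nat_lit 336) (nat_lit 2781116076) (nat_lit 26) (nat_lit 5) (nat_lit 29) (nat_lit 5) (nat_lit 30) (nat_lit 5) (nat_lit 380) (nat_lit 329) (nat_lit 179)) (XT.lf (nat_lit 0) (nat_lit 10393217136) (nat_lit 252) (nat_lit 20482198931) (nat_lit 336) (nat_lit 694431971) (nat_lit 26) (nat_lit 5) (nat_lit 29) (nat_lit 5) (nat_lit 30) (nat_lit 5) (nat_lit 381) (nat_lit 329) (nat_lit 178))))) (XT.nd (nat_lit 282) (nat_lit 252) (nat_lit 0) (XT.nd (nat_lit 94) (nat_lit 252) (nat_lit 0) (XT.lf (nat_lit 0) (nat_lit 1423681668) (nat_lit 336) (nat_lit 13438509521) (nat_lit 84) (nat_lit 17454015272) (nat_lit 25) (nat_lit 5) (nat_lit 29) (nat_lit 5) (nat_lit 26) (nat_lit 5) (nat_lit 382) (nat_lit 329) (nat_lit 177)) (XT.nd (nat_lit 94) (nat_lit 252) (nat_lit 0) (XT.lf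 (nat_lit 0) (nat_lit 3589245626) (nat_lit 336) (nat_lit 5472326300) (nat_lit 84) (nat_lit 24024048430) (nat_lit 25) (nat_lit 5) (nat_lit 29) (nat_lit 5) (nat_lit 26) (nat_lit 5) (nat_lit 383) (nat_lit 329) (nat_lit 176)) (XT.lf (nat_lit 0) (nat_lit 2792495490) (nat_lit 252) (nat_lit 3053476101) (nat_lit 336) (nat_lit 28032190098) (nat_lit 22) (nat_lit 5) (nat_lit 25) (nat_lit 5) (nat_lit 26) (nat_lit 5) (nat_lit 384) (nat_lit 329) (nat_lit 175)))) (XT.nd (nat_lit 188) (nat_lit 252) (nat_lit 0) (XT.nd (nat_lit 94) (nat_lit 0) (nat_lit 0) (XT.lf (nat_lit 0) (nat_lit 8257901916) (nat_lit 336) (nat_lit 23300357835) (nat_lit 84) (nat_lit 3134389338) (nat_lit 22) (nat_lit 5) (nat_lit 26) (nat_lit 5) (nat_lit 23) (nat_lit 5) (nat_lit 385) (nat_lit 329) (nat_lit 174)) (XT.lf (nat_lit 0) (nat_lit 10772324647) (nat_lit 336) (nat_lit 15309446833) (nat_lit 84) (nat_lit 9449774029) (nat_lit 22)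 (nat_lit 5) (nat_lit 26) (nat_lit 5) (nat_lit 23) (nat_lit 5) (nat_lit 386) (nat_lit 329) (nat_lit 173))) (XT.nd (nat_lit 94) (nat_lit 252) (nat_lit 0) (XT.lf (nat_lit 0) (nat_lit 13361292629) (nat_lit 336) (nat_lit 7075193966) (nat_lit 84) (nat_lit 15960085308) (nat_lit 22) (nat_lit 5) (nat_lit 26) (nat_lit 5) (nat_lit 23) (nat_lit 5) (nat_lit 387) (nat_lit 329) (nat_lit 172)) (XT.lf (nat_lit 0) (nat_lit 1439070005) (nat_lit 252) (nat_lit 14602424798) (nat_lit 336) (nat_lit 21246597215) (nat_lit 19) (nat_lit 5) (nat_lit 22) (nat_lit 5) (nat_lit 23) (nat_lit 5) (nat_lit 388) (nat_lit 329) (nat_lit 171)))))) (XT.nd (nat_lit 564) (nat_lit 252) (nat_lit 0) (XT.nd (nat_lit 282) (nat_lit 168) (nat_lit 0) (XT.nd (nat_lit 94) (nat_lit 0) (nat_lit 0) (XT.lf (nat_lit 0) (nat_lit 10363064742) (nat_lit 252) (nat_lit 8512326980) (nat_lit 336) (nat_lit 19329686292) (nat_lit 19) (nat_lit 5) (nat_lit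 22) (nat_lit 5) (nat_lit 23) (nat_lit 5) (nat_lit 389) (nat_lit 329) (nat_lit 170)) (XT.nd (nat_lit 94) (nat_lit 0) (nat_lit 0) (XT.lf (nat_lit 0) (nat_lit 19559627843) (nat_lit 252) (nat_lit 2234367045) (nat_lit 336) (nat_lit 17356610258) (nat_lit 19) (nat_lit 5) (nat_lit 22) (nat_lit 5) (nat_lit 23) (nat_lit 5) (nat_lit 390) (nat_lit 329) (nat_lit 169)) (XT.lf (nat_lit 0) (nat_lit 24842059353) (nat_lit 336) (nat_lit 11130257885) (nat_lit 84) (nat_lit 4151934433) (nat_lit 19) (nat_lit 5) (nat_lit 23) (nat_lit 5) (nat_lit 20) (nat_lit 5) (nat_lit 391) (nat_lit 329) (nat_lit 168)))) (XT.nd (nat_lit 94) (nat_lit 168) (nat_lit 0) (XT.lf (nat_lit 0) (nat_lit 28004499148) (nat_lit 336) (nat_lit 2434041656) (nat_lit 84) (nat_lit 10688940068) (nat_lit 19) (nat_lit 5) (nat_lit 23) (nat_lit 5) (nat_lit 20) (nat_lit 5) (nat_lit 392) (nat_lit 329) (nat_lit 167)) (XT.nd (nat_lit 94) (nat_lit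 0) (nat_lit 0) (XT.lf (nat_lit 0) (nat_lit 6662170249) (nat_lit 168) (nat_lit 24666016103) (nat_lit 252) (nat_lit 10831679853) (nat_lit 17) (nat_lit 5) (nat_lit 19) (nat_lit 5) (nat_lit 20) (nat_lit 5) (nat_lit 393) (nat_lit 329) (nat_lit 166)) (XT.lf (nat_lit 0) (nat_lit 16088188841) (nat_lit 168) (nat_lit 18689296714) (nat_lit 252) (nat_lit 8446085145) (nat_lit 17) (nat_lit 5) (nat_lit 19) (nat_lit 5) (nat_lit 20) (nat_lit 5) (nat_lit 394) (nat_lit 329) (nat_lit 165))))) (XT.nd (nat_lit 282) (nat_lit 252) (nat_lit 0) (XT.nd (nat_lit 94) (nat_lit 0) (nat_lit 0) (XT.lf (nat_lit 0) (nat_lit 25802751267) (nat_lit 168) (nat_lit 12528218111) (nat_lit 252) (nat_lit 5989380380) (nat_lit 17) (nat_lit 5) (nat_lit 19) (nat_lit 5) (nat_lit 20) (nat_lit 5) (nat_lit 395) (nat_lit 329) (nat_lit 164)) (XT.nd (nat_lit 94) (nat_lit 0) (nat_lit 0) (XT.lf (nat_lit 0) (nat_lit 35814912516) (nat_lit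 168) (nat_lit 6177037523) (nat_lit 252) (nat_lit 3459275652) (nat_lit 17) (nat_lit 5) (nat_lit 19) (nat_lit 5) (nat_lit 20) (nat_lit 5) (nat_lit 396) (nat_lit 329) (nat_lit 163)) (XT.lf (nat_lit 0) (nat_lit 45767512040) (nat_lit 252) (nat_lit 486919706) (nat_lit 84) (nat_lit 362707014) (nat_lit 17) (nat_lit 5) (nat_lit 20) (nat_lit 5) (nat_lit 18) (nat_lit 5) (nat_lit 397) (nat_lit 329) (nat_lit 162)))) (XT.nd (nat_lit 188) (nat_lit 0) (nat_lit 0) (XT.nd (nat_lit 94) (nat_lit 0) (nat_lit 0) (XT.lf (nat_lit 0) (nat_lit 1955919348) (nat_lit 252) (nat_lit 38772258693) (nat_lit 84) (nat_lit 7085749206) (nat_lit 14) (nat_lit 5) (nat_lit 17) (nat_lit 5) (nat_lit 15) (nat_lit 5) (nat_lit 398) (nat_lit 329) (nat_lit 161)) (XT.lf (nat_lit 0) (nat_lit 4833415082) (nat_lit 252) (nat_lit 30183889141) (nat_lit 84) (nat_lit 14030173746) (nat_lit 14) (nat_lit 5) (nat_lit 17) (nat_lit 5) (nat_lit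 15) (nat_lit 5) (nat_lit 399) (nat_lit 329) (nat_lit 160))) (XT.nd (nat_lit 94) (nat_lit 0) (nat_lit 0) (XT.lf (nat_lit 0) (nat_lit 7797680649) (nat_lit 252) (nat_lit 21332630616) (nat_lit 84) (nat_lit 21189045122) (nat_lit 14) (nat_lit 5) (nat_lit 17) (nat_lit 5) (nat_lit 15) (nat_lit 5) (nat_lit 400) (nat_lit 329) (nat_lit 159)) (XT.lf (nat_lit 0) (nat_lit 10851479056) (nat_lit 252) (nat_lit 12210232819) (nat_lit 84) (nat_lit 28569036150) (nat_lit 14) (nat_lit 5) (nat_lit 17) (nat_lit 5) (nat_lit 15) (nat_lit 5) (nat_lit 401) (nat_lit 329) (nat_lit 158))))))))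
noncomputable def xc161 : XT := (XT.nd (nat_lit 2350) (nat_lit 84) (nat_lit 0) (XT.nd (nat_lit 1128) (nat_lit 336) (nat_lit 0) (XT.nd (nat_lit 564) (nat_lit 168) (nat_lit 0) (XT.nd (nat_lit 282) (nat_lit 0) (nat_lit 0) (XT.nd (nat_lit 94) (nat_lit 168) (nat_lit 0) (XT.lf (nat_lit 0) (nat_lit 13997656763) (nat_lit 252) (nat_lit 2808192718) (nat_lit 84) (nat_lit 36177025755) (nat_lit 14) (nat_lit 5) (nat_lit 17) (nat_lit 5) (nat_lit 15) (nat_lit 5) (nat_lit 402) (nat_lit 329) (nat_lit 157)) (XT.nd (nat_lit 94) (nat_lit 0) (nat_lit 0) (XT.lf (nat_lit 0) (nat_lit 7023766616) (nat_lit 168) (nat_lit 10285056354) (nat_lit 252) (nat_lit 37066015399) (nat_lit 12) (nat_lit 5) (nat_lit 14) (nat_lit 5) (nat_lit 15) (nat_lit 5) (nat_lit 403) (nat_lit 329) (nat_lit 156)) (XT.lf (nat_lit 0) (nat_lit 17217022598) (nat_lit 168) (nat_lit 3532741581) (nat_lit 252) (nat_lit 35059357997) (nat_lit 12)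 (nat_lit 5) (nat_lit 14) (nat_lit 5) (nat_lit 15) (nat_lit 5) (nat_lit 404) (nat_lit 329) (nat_lit 155)))) (XT.nd (nat_lit 94) (nat_lit 0) (nat_lit 0) (XT.lf (nat_lit 0) (nat_lit 24329264226) (nat_lit 252) (nat_lit 29598617641) (nat_lit 84) (nat_lit 3359008820) (nat_lit 12) (nat_lit 5) (nat_lit 15) (nat_lit 5) (nat_lit 13) (nat_lit 5) (nat_lit 405) (nat_lit 329) (nat_lit 154)) (XT.nd (nat_lit 94) (nat_lit 0) (nat_lit 0) (XT.lf (nat_lit 0) (nat_lit 28053798913) (nat_lit 252) (nat_lit 20365382410) (nat_lit 84) (nat_lit 10390242693) (nat_lit 12) (nat_lit 5) (nat_lit 15) (nat_lit 5) (nat_lit 13) (nat_lit 5) (nat_lit 406) (nat_lit 329) (nat_lit 153)) (XT.lf (nat_lit 0) (nat_lit 31891794665) (nat_lit 252) (nat_lit 10848742309) (nat_lit 84) (nat_lit 17638690754) (nat_lit 12) (nat_lit 5) (nat_lit 15) (nat_lit 5) (nat_lit 13) (nat_lit 5) (nat_lit 407) (nat_lit 329) (nat_lit 152))))) (XT.nd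 (nat_lit 282) (nat_lit 0) (nat_lit 0) (XT.nd (nat_lit 94) (nat_lit 168) (nat_lit 0) (XT.lf (nat_lit 0) (nat_lit 35846828896) (nat_lit 252) (nat_lit 1039826833) (nat_lit 84) (nat_lit 25111109316) (nat_lit 12) (nat_lit 5) (nat_lit 15) (nat_lit 5) (nat_lit 13) (nat_lit 5) (nat_lit 408) (nat_lit 329) (nat_lit 151)) (XT.nd (nat_lit 94) (nat_lit 0) (nat_lit 0) (XT.lf (nat_lit 0) (nat_lit 9257015181) (nat_lit 168) (nat_lit 30757403666) (nat_lit 252) (nat_lit 23649279012) (nat_lit 10) (nat_lit 5) (nat_lit 12) (nat_lit 5) (nat_lit 13) (nat_lit 5) (nat_lit 409) (nat_lit 329) (nat_lit 150)) (XT.lf (nat_lit 0) (nat_lit 19892471923) (nat_lit 168) (nat_lit 24427735204) (nat_lit 252) (nat_lit 21060797369) (nat_lit 10) (nat_lit 5) (nat_lit 12) (nat_lit 5) (nat_lit 13) (nat_lit 5) (nat_lit 410) (nat_lit 329) (nat_lit 149)))) (XT.nd (nat_lit 94) (nat_lit 0) (nat_lit 0) (XT.lf (nat_lit 0) (nat_lit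 30855075781) (nat_lit 168) (nat_lit 17902604090) (nat_lit 252) (nat_lit 18393932143) (nat_lit 10) (nat_lit 5) (nat_lit 12) (nat_lit 5) (nat_lit 13) (nat_lit 5) (nat_lit 411) (nat_lit 329) (nat_lit 148)) (XT.nd (nat_lit 94) (nat_lit 0) (nat_lit 0) (XT.lf (nat_lit 0) (nat_lit 42155045049) (nat_lit 168) (nat_lit 11175928218) (nat_lit 252) (nat_lit 15646197536) (nat_lit 10) (nat_lit 5) (nat_lit 12) (nat_lit 5) (nat_lit 13) (nat_lit 5) (nat_lit 412) (nat_lit 329) (nat_lit 147)) (XT.lf (nat_lit 0) (nat_lit 53802912483) (nat_lit 168) (nat_lit 4241437621) (nat_lit 252) (nat_lit 12815032373) (nat_lit 10) (nat_lit 5) (nat_lit 12) (nat_lit 5) (nat_lit 13) (nat_lit 5) (nat_lit 413) (nat_lit 329) (nat_lit 146)))))) (XT.nd (nat_lit 564) (nat_lit 168) (nat_lit 0) (XT.nd (nat_lit 282) (nat_lit 84) (nat_lit 0) (XT.nd (nat_lit 94) (nat_lit 84) (nat_lit 0) (XT.lf (nat_lit 0) (nat_lit 62931044830) (nat_lit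 252) (nat_lit 7019307426) (nat_lit 84) (nat_lit 2848755124) (nat_lit 10) (nat_lit 5) (nat_lit 13) (nat_lit 5) (nat_lit 11) (nat_lit 4) (nat_lit 414) (nat_lit 329) (nat_lit 145)) (XT.nd (nat_lit 94) (nat_lit 0) (nat_lit 0) (XT.lf (nat_lit 0) (nat_lit 3350830009) (nat_lit 84) (nat_lit 64693422382) (nat_lit 168) (nat_lit 6752393306) (nat_lit 9) (nat_lit 5) (nat_lit 10) (nat_lit 5) (nat_lit 11) (nat_lit 4) (nat_lit 415) (nat_lit 329) (nat_lit 144)) (XT.lf (nat_lit 0) (nat_lit 14188961709) (nat_lit 84) (nat_lit 59198704863) (nat_lit 168) (nat_lit 3466226011) (nat_lit 9) (nat_lit 5) (nat_lit 10) (nat_lit 5) (nat_lit 11) (nat_lit 4) (nat_lit 416) (nat_lit 329) (nat_lit 143)))) (XT.nd (nat_lit 94) (nat_lit 84) (nat_lit 0) (XT.lf (nat_lit 0) (nat_lit 25360858592) (nat_lit 84) (nat_lit 53534345221) (nat_lit 168) (nat_lit 79764785) (nat_lit 9) (nat_lit 5) (nat_lit 10) (nat_lit 5) (nat_lit 11)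 (nat_lit 4) (nat_lit 417) (nat_lit 329) (nat_lit 142)) (XT.nd (nat_lit 94) (nat_lit 0) (nat_lit 0) (XT.lf (nat_lit 0) (nat_lit 3341440046) (nat_lit 168) (nat_lit 44318745852) (nat_lit 84) (nat_lit 33500616207) (nat_lit 8) (nat_lit 5) (nat_lit 10) (nat_lit 5) (nat_lit 9) (nat_lit 5) (nat_lit 418) (nat_lit 329) (nat_lit 141)) (XT.lf (nat_lit 0) (nat_lit 6865591390) (nat_lit 168) (nat_lit 34738163333) (nat_lit 84) (nat_lit 41810668143) (nat_lit 8) (nat_lit 5) (nat_lit 10) (nat_lit 5) (nat_lit 9) (nat_lit 5) (nat_lit 419) (nat_lit 329) (nat_lit 140))))) (XT.nd (nat_lit 282) (nat_lit 168) (nat_lit 0) (XT.nd (nat_lit 94) (nat_lit 0) (nat_lit 0) (XT.lf (nat_lit 0) (nat_lit 10497581207) (nat_lit 168) (nat_lit 24862641067) (nat_lit 84) (nat_lit 50377733748) (nat_lit 8) (nat_lit 5) (nat_lit 10) (nat_lit 5) (nat_lit 9) (nat_lit 5) (nat_lit 420) (nat_lit 329) (nat_lit 139)) (XT.nd (nat_lit 94)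 (nat_lit 0) (nat_lit 0) (XT.lf (nat_lit 0) (nat_lit 14240794891) (nat_lit 168) (nat_lit 14682974032) (nat_lit 84) (nat_lit 59209798424) (nat_lit 8) (nat_lit 5) (nat_lit 10) (nat_lit 5) (nat_lit 9) (nat_lit 5) (nat_lit 421) (nat_lit 329) (nat_lit 138)) (XT.lf (nat_lit 0) (nat_lit 18098721509) (nat_lit 168) (nat_lit 4189673712) (nat_lit 84) (nat_lit 68315094581) (nat_lit 8) (nat_lit 5) (nat_lit 10) (nat_lit 5) (nat_lit 9) (nat_lit 5) (nat_lit 422) (nat_lit 329) (nat_lit 137)))) (XT.nd (nat_lit 188) (nat_lit 0) (nat_lit 0) (XT.nd (nat_lit 94) (nat_lit 0) (nat_lit 0) (XT.lf (nat_lit 0) (nat_lit 6763306295) (nat_lit 168) (nat_lit 15378743593) (nat_lit 252) (nat_lit 71005895849) (nat_lit 6) (nat_lit 5) (nat_lit 8) (nat_lit 5) (nat_lit 9) (nat_lit 5) (nat_lit 423) (nat_lit 329) (nat_lit 136)) (XT.lf (nat_lit 0) (nat_lit 18142788410) (nat_lit 168) (nat_lit 8210398089) (nat_lit 252) (nat_lit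 69416782585) (nat_lit 6) (nat_lit 5) (nat_lit 8) (nat_lit 5) (nat_lit 9) (nat_lit 5) (nat_lit 424) (nat_lit 329) (nat_lit 135))) (XT.nd (nat_lit 94) (nat_lit 0) (nat_lit 0) (XT.lf (nat_lit 0) (nat_lit 29873231216) (nat_lit 168) (nat_lit 820408660) (nat_lit 252) (nat_lit 67779678883) (nat_lit 6) (nat_lit 5) (nat_lit 8) (nat_lit 5) (nat_lit 9) (nat_lit 5) (nat_lit 425) (nat_lit 329) (nat_lit 134)) (XT.lf (nat_lit 0) (nat_lit 35234893900) (nat_lit 252) (nat_lit 59362383977) (nat_lit 84) (nat_lit 6661146110) (nat_lit 6) (nat_lit 5) (nat_lit 9) (nat_lit 5) (nat_lit 7) (nat_lit 4) (nat_lit 426) (nat_lit 329) (nat_lit 133))))))) (XT.nd (nat_lit 47282) (nat_lit 0) (nat_lit 5880) (XT.nd (nat_lit 46624) (nat_lit 0) (nat_lit 6384) (XT.nd (nat_lit 282) (nat_lit 84) (nat_lit 0) (XT.nd (nat_lit 94) (nat_lit 0) (nat_lit 0) (XT.lf (nat_lit 0) (nat_lit 39924156580) (nat_lit 252) (nat_lit 49848434554)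 (nat_lit 84) (nat_lit 14357057415) (nat_lit 6) (nat_lit 5) (nat_lit 9) (nat_lit 5) (nat_lit 7) (nat_lit 4) (nat_lit 427) (nat_lit 329) (nat_lit 132)) (XT.nd (nat_lit 94) (nat_lit 0) (nat_lit 0) (XT.lf (nat_lit 0) (nat_lit 44757660247) (nat_lit 252) (nat_lit 40041232720) (nat_lit 84) (nat_lit 22291028056) (nat_lit 6) (nat_lit 5) (nat_lit 9) (nat_lit 5) (nat_lit 7) (nat_lit 4) (nat_lit 428) (nat_lit 329) (nat_lit 131)) (XT.lf (nat_lit 0) (nat_lit 49739910231) (nat_lit 252) (nat_lit 29931637137) (nat_lit 84) (nat_lit 30470453325) (nat_lit 6) (nat_lit 5) (nat_lit 9) (nat_lit 5) (nat_lit 7) (nat_lit 4) (nat_lit 429) (nat_lit 329) (nat_lit 130)))) (XT.nd (nat_lit 94) (nat_lit 84) (nat_lit 0) (XT.lf (nat_lit 0) (nat_lit 54875550512) (nat_lit 252) (nat_lit 19510224602) (nat_lit 84) (nat_lit 38902957302) (nat_lit 6) (nat_lit 5) (nat_lit 9) (nat_lit 5) (nat_lit 7) (nat_lit 4) (nat_lit 430)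 (nat_lit 329) (nat_lit 129)) (XT.nd (nat_lit 94) (nat_lit 84) (nat_lit 0) (XT.lf (nat_lit 0) (nat_lit 60169368044) (nat_lit 252) (nat_lit 8767281268) (nat_lit 84) (nat_lit 47596399964) (nat_lit 6) (nat_lit 5) (nat_lit 9) (nat_lit 5) (nat_lit 7) (nat_lit 4) (nat_lit 431) (nat_lit 329) (nat_lit 128)) (XT.lf (nat_lit 0) (nat_lit 2354647309) (nat_lit 84) (nat_lit 63295008303) (nat_lit 168) (nat_lit 54227595594) (nat_lit 5) (nat_lit 5) (nat_lit 6) (nat_lit 5) (nat_lit 7) (nat_lit 4) (nat_lit 432) (nat_lit 329) (nat_lit 127))))) (XT.nd (nat_lit 282) (nat_lit 0) (nat_lit 0) (XT.nd (nat_lit 94) (nat_lit 0) (nat_lit 0) (XT.lf (nat_lit 0) (nat_lit 546044418) (nat_lit 0) (nat_lit 546044418) (nat_lit 924) (nat_lit 4951344702) (nat_lit 81) (nat_lit 5) (nat_lit 81) (nat_lit 3) (nat_lit 92) (nat_lit 3) (nat_lit 330) (nat_lit 330) (nat_lit 228)) (XT.nd (nat_lit 94) (nat_lit 0) (nat_lit 0) (XT.lf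 (nat_lit 0) (nat_lit 2606457762) (nat_lit 924) (nat_lit 7132757552) (nat_lit 1008) (nat_lit 2520308613) (nat_lit 81) (nat_lit 5) (nat_lit 92) (nat_lit 3) (nat_lit 93) (nat_lit 5) (nat_lit 331) (nat_lit 330) (nat_lit 227)) (XT.lf (nat_lit 0) (nat_lit 3038446935) (nat_lit 924) (nat_lit 3170128125) (nat_lit 1008) (nat_lit 6229169630) (nat_lit 81) (nat_lit 5) (nat_lit 92) (nat_lit 3) (nat_lit 93) (nat_lit 5) (nat_lit 332) (nat_lit 330) (nat_lit 226)))) (XT.nd (nat_lit 188) (nat_lit 0) (nat_lit 84) (XT.nd (nat_lit 94) (nat_lit 0) (nat_lit 84) (XT.lf (nat_lit 84) (nat_lit 926300166) (nat_lit 0) (nat_lit 2552603038) (nat_lit 1008) (nat_lit 9142843262) (nat_lit 82) (nat_lit 5) (nat_lit 81) (nat_lit 5) (nat_lit 93) (nat_lit 5) (nat_lit 333) (nat_lit 330) (nat_lit 225)) (XT.lf (nat_lit 0) (nat_lit 3964807544) (nat_lit 924) (nat_lit 7614127532) (nat_lit 1008) (nat_lit 1231632009) (nat_lit 82)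 (nat_lit 5) (nat_lit 93) (nat_lit 5) (nat_lit 94) (nat_lit 5) (nat_lit 334) (nat_lit 330) (nat_lit 224))) (XT.nd (nat_lit 94) (nat_lit 0) (nat_lit 0) (XT.lf (nat_lit 0) (nat_lit 4478590097) (nat_lit 924) (nat_lit 3440363495) (nat_lit 1008) (nat_lit 5085987661) (nat_lit 82) (nat_lit 5) (nat_lit 93) (nat_lit 5) (nat_lit 94) (nat_lit 5) (nat_lit 335) (nat_lit 330) (nat_lit 223)) (XT.lf (nat_lit 84) (nat_lit 872640087) (nat_lit 0) (nat_lit 4131424233) (nat_lit 1008) (nat_lit 8201502452) (nat_lit 83) (nat_lit 5) (nat_lit 82) (nat_lit 5) (nat_lit 94) (nat_lit 5) (nat_lit 336) (nat_lit 330) (nat_lit 222)))))) (XT.nd (nat_lit 564) (nat_lit 588) (nat_lit 0) (XT.nd (nat_lit 282) (nat_lit 0) (nat_lit 84) (XT.nd (nat_lit 94) (nat_lit 0) (nat_lit 84) (XT.lf (nat_lit 84) (nat_lit 5384630033) (nat_lit 0) (nat_lit 184528014) (nat_lit 1008) (nat_lit 7842622023) (nat_lit 83) (nat_lit 5) (nat_lit 82)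 (nat_lit 5) (nat_lit 94) (nat_lit 5) (nat_lit 337) (nat_lit 330) (nat_lit 221)) (XT.nd (nat_lit 94) (nat_lit 0) (nat_lit 0) (XT.lf (nat_lit 0) (nat_lit 6178151772) (nat_lit 924) (nat_lit 3634366403) (nat_lit 1008) (nat_lit 3811138817) (nat_lit 83) (nat_lit 5) (nat_lit 94) (nat_lit 5) (nat_lit 95) (nat_lit 5) (nat_lit 338) (nat_lit 330) (nat_lit 220)) (XT.lf (nat_lit 84) (nat_lit 903207275) (nat_lit 0) (nat_lit 5901874880) (nat_lit 1008) (nat_lit 7037135334) (nat_lit 84) (nat_lit 5) (nat_lit 83) (nat_lit 5) (nat_lit 95) (nat_lit 5) (nat_lit 339) (nat_lit 330) (nat_lit 219)))) (XT.nd (nat_lit 94) (nat_lit 0) (nat_lit 84) (XT.lf (nat_lit 84) (nat_lit 5650873743) (nat_lit 0) (nat_lit 1826998511) (nat_lit 1008) (nat_lit 6588945530) (nat_lit 84) (nat_lit 5) (nat_lit 83) (nat_lit 5) (nat_lit 95) (nat_lit 5) (nat_lit 340) (nat_lit 330) (nat_lit 218)) (XT.nd (nat_lit 94) (nat_lit 0) (nat_lit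 0) (XT.lf (nat_lit 0) (nat_lit 8183944279) (nat_lit 924) (nat_lit 3784069364) (nat_lit 1008) (nat_lit 2330062939) (nat_lit 84) (nat_lit 5) (nat_lit 95) (nat_lit 5) (nat_lit 96) (nat_lit 5) (nat_lit 341) (nat_lit 330) (nat_lit 217)) (XT.lf (nat_lit 84) (nat_lit 984933713) (nat_lit 0) (nat_lit 7944635030) (nat_lit 1008) (nat_lit 5606466708) (nat_lit 85) (nat_lit 5) (nat_lit 84) (nat_lit 5) (nat_lit 96) (nat_lit 5) (nat_lit 342) (nat_lit 330) (nat_lit 216))))) (XT.nd (nat_lit 282) (nat_lit 756) (nat_lit 0) (XT.nd (nat_lit 94) (nat_lit 0) (nat_lit 84) (XT.lf (nat_lit 84) (nat_lit 5974455255) (nat_lit 0) (nat_lit 3752807577) (nat_lit 1008) (nat_lit 5053286879) (nat_lit 85) (nat_lit 5) (nat_lit 84) (nat_lit 5) (nat_lit 96) (nat_lit 5) (nat_lit 343) (nat_lit 330) (nat_lit 215)) (XT.nd (nat_lit 94) (nat_lit 0) (nat_lit 0) (XT.lf (nat_lit 0) (nat_lit 10545132877) (nat_lit 924) (nat_lit 3927370201)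 (nat_lit 1008) (nat_lit 560355947) (nat_lit 85) (nat_lit 5) (nat_lit 96) (nat_lit 5) (nat_lit 97) (nat_lit 5) (nat_lit 344) (nat_lit 330) (nat_lit 214)) (XT.lf (nat_lit 84) (nat_lit 1078438761) (nat_lit 0) (nat_lit 10349108589) (nat_lit 1008) (nat_lit 3864299434) (nat_lit 86) (nat_lit 5) (nat_lit 85) (nat_lit 5) (nat_lit 97) (nat_lit 5) (nat_lit 345) (nat_lit 330) (nat_lit 213)))) (XT.nd (nat_lit 188) (nat_lit 840) (nat_lit 0) (XT.nd (nat_lit 94) (nat_lit 0) (nat_lit 0) (XT.lf (nat_lit 84) (nat_lit 6315260443) (nat_lit 0) (nat_lit 6053383450) (nat_lit 1008) (nat_lit 3189317728) (nat_lit 86) (nat_lit 5) (nat_lit 85) (nat_lit 5) (nat_lit 97) (nat_lit 5) (nat_lit 346) (nat_lit 330) (nat_lit 212)) (XT.lf (nat_lit 84) (nat_lit 11707221324) (nat_lit 0) (nat_lit 1622317285) (nat_lit 1008) (nat_lit 2503145567) (nat_lit 86) (nat_lit 5) (nat_lit 85) (nat_lit 5) (nat_lit 97) (nat_lit 5) (nat_lit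 347) (nat_lit 330) (nat_lit 211))) (XT.nd (nat_lit 94) (nat_lit 0) (nat_lit 0) (XT.lf (nat_lit 0) (nat_lit 1136732676) (nat_lit 924) (nat_lit 13214917717) (nat_lit 1008) (nat_lit 1763363909) (nat_lit 75) (nat_lit 5) (nat_lit 86) (nat_lit 5) (nat_lit 87) (nat_lit 5) (nat_lit 348) (nat_lit 330) (nat_lit 210)) (XT.lf (nat_lit 0) (nat_lit 6625300680) (nat_lit 924) (nat_lit 8830760436) (nat_lit 1008) (nat_lit 948530037) (nat_lit 75) (nat_lit 5) (nat_lit 86) (nat_lit 5) (nat_lit 87) (nat_lit 5) (nat_lit 349) (nat_lit 330) (nat_lit 209))))))))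
noncomputable def xc162 : XT := (XT.nd (nat_lit 2350) (nat_lit 1512) (nat_lit 0) (XT.nd (nat_lit 1128) (nat_lit 1512) (nat_lit 0) (XT.nd (nat_lit 564) (nat_lit 840) (nat_lit 0) (XT.nd (nat_lit 282) (nat_lit 504) (nat_lit 0) (XT.nd (nat_lit 94) (nat_lit 756) (nat_lit 0) (XT.lf (nat_lit 0) (nat_lit 12276953608) (nat_lit 924) (nat_lit 4309149337) (nat_lit 1008) (nat_lit 117370318) (nat_lit 75) (nat_lit 5) (nat_lit 86) (nat_lit 5) (nat_lit 87) (nat_lit 5) (nat_lit 350) (nat_lit 330) (nat_lit 208)) (XT.nd (nat_lit 94) (nat_lit 0) (nat_lit 0) (XT.lf (nat_lit 0) (nat_lit 730774391) (nat_lit 756) (nat_lit 15915144160) (nat_lit 84) (nat_lit 365342984) (nat_lit 66) (nat_lit 5) (nat_lit 75) (nat_lit 5) (nat_lit 67) (nat_lit 5) (nat_lit 351) (nat_lit 330) (nat_lit 207)) (XT.lf (nat_lit 0) (nat_lit 1685230166) (nat_lit 756) (nat_lit 10496444078) (nat_lit 84) (nat_lit 5144379841) (nat_lit 66)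 (nat_lit 5) (nat_lit 75) (nat_lit 5) (nat_lit 67) (nat_lit 5) (nat_lit 352) (nat_lit 330) (nat_lit 206)))) (XT.nd (nat_lit 94) (nat_lit 504) (nat_lit 0) (XT.lf (nat_lit 0) (nat_lit 2661231233) (nat_lit 756) (nat_lit 4916879479) (nat_lit 84) (nat_lit 10072798340) (nat_lit 66) (nat_lit 5) (nat_lit 75) (nat_lit 5) (nat_lit 67) (nat_lit 5) (nat_lit 353) (nat_lit 330) (nat_lit 205)) (XT.nd (nat_lit 94) (nat_lit 0) (nat_lit 0) (XT.lf (nat_lit 0) (nat_lit 845791183) (nat_lit 504) (nat_lit 2822286496) (nat_lit 588) (nat_lit 14317791454) (nat_lit 60) (nat_lit 5) (nat_lit 66) (nat_lit 5) (nat_lit 67) (nat_lit 5) (nat_lit 354) (nat_lit 330) (nat_lit 204)) (XT.lf (nat_lit 0) (nat_lit 4771000619) (nat_lit 588) (nat_lit 11466577753) (nat_lit 84) (nat_lit 2091675101) (nat_lit 60) (nat_lit 5) (nat_lit 67) (nat_lit 5) (nat_lit 61) (nat_lit 5) (nat_lit 355) (nat_lit 330) (nat_lit 203))))) (XT.nd (nat_lit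 282) (nat_lit 420) (nat_lit 0) (XT.nd (nat_lit 94) (nat_lit 420) (nat_lit 0) (XT.lf (nat_lit 0) (nat_lit 5929582576) (nat_lit 588) (nat_lit 5652977393) (nat_lit 84) (nat_lit 7100106988) (nat_lit 60) (nat_lit 5) (nat_lit 67) (nat_lit 5) (nat_lit 61) (nat_lit 5) (nat_lit 356) (nat_lit 330) (nat_lit 202)) (XT.nd (nat_lit 94) (nat_lit 0) (nat_lit 0) (XT.lf (nat_lit 0) (nat_lit 341010039) (nat_lit 420) (nat_lit 6779278861) (nat_lit 504) (nat_lit 11926913151) (nat_lit 55) (nat_lit 5) (nat_lit 60) (nat_lit 5) (nat_lit 61) (nat_lit 5) (nat_lit 357) (nat_lit 330) (nat_lit 201)) (XT.lf (nat_lit 0) (nat_lit 6634013985) (nat_lit 420) (nat_lit 1765873972) (nat_lit 504) (nat_lit 11021585172) (nat_lit 55) (nat_lit 5) (nat_lit 60) (nat_lit 5) (nat_lit 61) (nat_lit 5) (nat_lit 358) (nat_lit 330) (nat_lit 200)))) (XT.nd (nat_lit 94) (nat_lit 420) (nat_lit 0) (XT.lf (nat_lit 0) (nat_lit 9746102526)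 (nat_lit 504) (nat_lit 6725701226) (nat_lit 84) (nat_lit 3334752867) (nat_lit 55) (nat_lit 5) (nat_lit 61) (nat_lit 5) (nat_lit 56) (nat_lit 5) (nat_lit 359) (nat_lit 330) (nat_lit 199)) (XT.nd (nat_lit 94) (nat_lit 420) (nat_lit 0) (XT.lf (nat_lit 0) (nat_lit 11145505525) (nat_lit 504) (nat_lit 500586172) (nat_lit 84) (nat_lit 8557174900) (nat_lit 55) (nat_lit 5) (nat_lit 61) (nat_lit 5) (nat_lit 56) (nat_lit 5) (nat_lit 360) (nat_lit 330) (nat_lit 198)) (XT.lf (nat_lit 0) (nat_lit 6032752688) (nat_lit 420) (nat_lit 6608976624) (nat_lit 504) (nat_lit 7968931359) (nat_lit 50) (nat_lit 5) (nat_lit 55) (nat_lit 5) (nat_lit 56) (nat_lit 5) (nat_lit 361) (nat_lit 330) (nat_lit 197)))))) (XT.nd (nat_lit 564) (nat_lit 756) (nat_lit 0) (XT.nd (nat_lit 282) (nat_lit 420) (nat_lit 0) (XT.nd (nat_lit 94) (nat_lit 336) (nat_lit 0) (XT.lf (nat_lit 0) (nat_lit 12772999730) (nat_lit 420) (nat_lit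 1410285789) (nat_lit 504) (nat_lit 6847472429) (nat_lit 50) (nat_lit 5) (nat_lit 55) (nat_lit 5) (nat_lit 56) (nat_lit 5) (nat_lit 362) (nat_lit 330) (nat_lit 196)) (XT.nd (nat_lit 94) (nat_lit 336) (nat_lit 0) (XT.lf (nat_lit 0) (nat_lit 15805723589) (nat_lit 504) (nat_lit 1787143157) (nat_lit 84) (nat_lit 3870025769) (nat_lit 50) (nat_lit 5) (nat_lit 56) (nat_lit 5) (nat_lit 51) (nat_lit 5) (nat_lit 363) (nat_lit 330) (nat_lit 195)) (XT.lf (nat_lit 0) (nat_lit 4963551184) (nat_lit 336) (nat_lit 12572665463) (nat_lit 420) (nat_lit 4370455032) (nat_lit 46) (nat_lit 5) (nat_lit 50) (nat_lit 5) (nat_lit 51) (nat_lit 5) (nat_lit 364) (nat_lit 330) (nat_lit 194)))) (XT.nd (nat_lit 94) (nat_lit 420) (nat_lit 0) (XT.lf (nat_lit 0) (nat_lit 11955374831) (nat_lit 336) (nat_lit 7377848431) (nat_lit 420) (nat_lit 3030623616) (nat_lit 46) (nat_lit 5) (nat_lit 50) (nat_lit 5) (nat_lit 51) (nat_lit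 5) (nat_lit 365) (nat_lit 330) (nat_lit 193)) (XT.nd (nat_lit 94) (nat_lit 420) (nat_lit 0) (XT.lf (nat_lit 0) (nat_lit 19158097566) (nat_lit 336) (nat_lit 2022227645) (nat_lit 420) (nat_lit 1655079923) (nat_lit 46) (nat_lit 5) (nat_lit 50) (nat_lit 5) (nat_lit 51) (nat_lit 5) (nat_lit 366) (nat_lit 330) (nat_lit 192)) (XT.lf (nat_lit 0) (nat_lit 3288184288) (nat_lit 420) (nat_lit 19858391483) (nat_lit 504) (nat_lit 173122941) (nat_lit 41) (nat_lit 5) (nat_lit 46) (nat_lit 5) (nat_lit 47) (nat_lit 5) (nat_lit 367) (nat_lit 330) (nat_lit 191))))) (XT.nd (nat_lit 282) (nat_lit 336) (nat_lit 0) (XT.nd (nat_lit 94) (nat_lit 336) (nat_lit 0) (XT.lf (nat_lit 0) (nat_lit 1381510022) (nat_lit 504) (nat_lit 13310726102) (nat_lit 84) (nat_lit 9124711132) (nat_lit 40) (nat_lit 5) (nat_lit 46) (nat_lit 5) (nat_lit 41) (nat_lit 5) (nat_lit 368) (nat_lit 330) (nat_lit 190)) (XT.nd (nat_lit 94)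 (nat_lit 336) (nat_lit 0) (XT.lf (nat_lit 0) (nat_lit 2975475890) (nat_lit 504) (nat_lit 6389144044) (nat_lit 84) (nat_lit 14965131326) (nat_lit 40) (nat_lit 5) (nat_lit 46) (nat_lit 5) (nat_lit 41) (nat_lit 5) (nat_lit 369) (nat_lit 330) (nat_lit 189)) (XT.lf (nat_lit 0) (nat_lit 756645511) (nat_lit 336) (nat_lit 3864608953) (nat_lit 420) (nat_lit 20237154802) (nat_lit 36) (nat_lit 5) (nat_lit 40) (nat_lit 5) (nat_lit 41) (nat_lit 5) (nat_lit 370) (nat_lit 330) (nat_lit 188)))) (XT.nd (nat_lit 188) (nat_lit 336) (nat_lit 0) (XT.nd (nat_lit 94) (nat_lit 0) (nat_lit 0) (XT.lf (nat_lit 0) (nat_lit 6398325444) (nat_lit 420) (nat_lit 17166314007) (nat_lit 84) (nat_lit 1836358272) (nat_lit 36) (nat_lit 5) (nat_lit 41) (nat_lit 5) (nat_lit 37) (nat_lit 5) (nat_lit 371) (nat_lit 330) (nat_lit 187)) (XT.lf (nat_lit 0) (nat_lit 8265149072) (nat_lit 420) (nat_lit 10060948788) (nat_lit 84)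 (nat_lit 7633263601) (nat_lit 36) (nat_lit 5) (nat_lit 41) (nat_lit 5) (nat_lit 37) (nat_lit 5) (nat_lit 372) (nat_lit 330) (nat_lit 186))) (XT.nd (nat_lit 94) (nat_lit 336) (nat_lit 0) (XT.lf (nat_lit 0) (nat_lit 10185128025) (nat_lit 420) (nat_lit 2740707754) (nat_lit 84) (nat_lit 13609373613) (nat_lit 36) (nat_lit 5) (nat_lit 41) (nat_lit 5) (nat_lit 37) (nat_lit 5) (nat_lit 373) (nat_lit 330) (nat_lit 185)) (XT.lf (nat_lit 0) (nat_lit 4899955508) (nat_lit 336) (nat_lit 7308704582) (nat_lit 420) (nat_lit 14918911325) (nat_lit 32) (nat_lit 5) (nat_lit 36) (nat_lit 5) (nat_lit 37) (nat_lit 5) (nat_lit 374) (nat_lit 330) (nat_lit 184))))))) (XT.nd (nat_lit 1222) (nat_lit 672) (nat_lit 0) (XT.nd (nat_lit 564) (nat_lit 588) (nat_lit 0) (XT.nd (nat_lit 282) (nat_lit 0) (nat_lit 0) (XT.nd (nat_lit 94) (nat_lit 252) (nat_lit 0) (XT.lf (nat_lit 0) (nat_lit 12830405403) (nat_lit 336) (nat_lit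 1488635415) (nat_lit 420) (nat_lit 13418535164) (nat_lit 32) (nat_lit 5) (nat_lit 36) (nat_lit 5) (nat_lit 37) (nat_lit 5) (nat_lit 375) (nat_lit 330) (nat_lit 183)) (XT.nd (nat_lit 94) (nat_lit 252) (nat_lit 0) (XT.lf (nat_lit 0) (nat_lit 16535241655) (nat_lit 420) (nat_lit 7409724031) (nat_lit 84) (nat_lit 4420298858) (nat_lit 32) (nat_lit 5) (nat_lit 37) (nat_lit 5) (nat_lit 33) (nat_lit 5) (nat_lit 376) (nat_lit 330) (nat_lit 182)) (XT.lf (nat_lit 0) (nat_lit 306065832) (nat_lit 252) (nat_lit 18528111565) (nat_lit 336) (nat_lit 10177824456) (nat_lit 29) (nat_lit 5) (nat_lit 32) (nat_lit 5) (nat_lit 33) (nat_lit 5) (nat_lit 377) (nat_lit 330) (nat_lit 181)))) (XT.nd (nat_lit 94) (nat_lit 0) (nat_lit 0) (XT.lf (nat_lit 0) (nat_lit 8413159415) (nat_lit 252) (nat_lit 12864412151) (nat_lit 336) (nat_lit 8398972170) (nat_lit 29) (nat_lit 5) (nat_lit 32) (nat_lit 5) (nat_lit 33) (nat_lit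 5) (nat_lit 378) (nat_lit 330) (nat_lit 180)) (XT.nd (nat_lit 94) (nat_lit 0) (nat_lit 0) (XT.lf (nat_lit 0) (nat_lit 16766754255) (nat_lit 252) (nat_lit 7025930605) (nat_lit 336) (nat_lit 6569150276) (nat_lit 29) (nat_lit 5) (nat_lit 32) (nat_lit 5) (nat_lit 33) (nat_lit 5) (nat_lit 379) (nat_lit 330) (nat_lit 179)) (XT.lf (nat_lit 0) (nat_lit 25374636777) (nat_lit 252) (nat_lit 1007224850) (nat_lit 336) (nat_lit 4686653187) (nat_lit 29) (nat_lit 5) (nat_lit 32) (nat_lit 5) (nat_lit 33) (nat_lit 5) (nat_lit 380) (nat_lit 330) (nat_lit 178))))) (XT.nd (nat_lit 282) (nat_lit 252) (nat_lit 0) (XT.nd (nat_lit 94) (nat_lit 84) (nat_lit 0) (XT.lf (nat_lit 0) (nat_lit 2445298255) (nat_lit 252) (nat_lit 26678032669) (nat_lit 336) (nat_lit 2671560263) (nat_lit 26) (nat_lit 5) (nat_lit 29) (nat_lit 5) (nat_lit 30) (nat_lit 5) (nat_lit 381) (nat_lit 330) (nat_lit 177)) (XT.nd (nat_lit 94)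 (nat_lit 84) (nat_lit 0) (XT.lf (nat_lit 0) (nat_lit 10942364372) (nat_lit 252) (nat_lit 21073324328) (nat_lit 336) (nat_lit 526075355) (nat_lit 26) (nat_lit 5) (nat_lit 29) (nat_lit 5) (nat_lit 30) (nat_lit 5) (nat_lit 382) (nat_lit 330) (nat_lit 176)) (XT.lf (nat_lit 0) (nat_lit 1648279687) (nat_lit 336) (nat_lit 13630250645) (nat_lit 84) (nat_lit 18032875556) (nat_lit 25) (nat_lit 5) (nat_lit 29) (nat_lit 5) (nat_lit 26) (nat_lit 5) (nat_lit 383) (nat_lit 330) (nat_lit 175)))) (XT.nd (nat_lit 188) (nat_lit 0) (nat_lit 0) (XT.nd (nat_lit 94) (nat_lit 252) (nat_lit 0) (XT.lf (nat_lit 0) (nat_lit 3875549958) (nat_lit 336) (nat_lit 5423876590) (nat_lit 84) (nat_lit 24805443601) (nat_lit 25) (nat_lit 5) (nat_lit 29) (nat_lit 5) (nat_lit 26) (nat_lit 5) (nat_lit 384) (nat_lit 330) (nat_lit 174)) (XT.lf (nat_lit 0) (nat_lit 3094946691) (nat_lit 252) (nat_lit 3104166316) (nat_lit 336)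 (nat_lit 28722993436) (nat_lit 22) (nat_lit 5) (nat_lit 25) (nat_lit 5) (nat_lit 26) (nat_lit 5) (nat_lit 385) (nat_lit 330) (nat_lit 173))) (XT.nd (nat_lit 94) (nat_lit 0) (nat_lit 0) (XT.lf (nat_lit 0) (nat_lit 8681067059) (nat_lit 336) (nat_lit 23807609825) (nat_lit 84) (nat_lit 3273341728) (nat_lit 22) (nat_lit 5) (nat_lit 26) (nat_lit 5) (nat_lit 23) (nat_lit 5) (nat_lit 386) (nat_lit 330) (nat_lit 172)) (XT.lf (nat_lit 0) (nat_lit 11268410439) (nat_lit 336) (nat_lit 15575446956) (nat_lit 84) (nat_lit 9783246918) (nat_lit 22) (nat_lit 5) (nat_lit 26) (nat_lit 5) (nat_lit 23) (nat_lit 5) (nat_lit 387) (nat_lit 330) (nat_lit 171)))))) (XT.nd (nat_lit 564) (nat_lit 420) (nat_lit 0) (XT.nd (nat_lit 282) (nat_lit 0) (nat_lit 0) (XT.nd (nat_lit 94) (nat_lit 252) (nat_lit 0) (XT.lf (nat_lit 0) (nat_lit 13932761108) (nat_lit 336) (nat_lit 7092204194) (nat_lit 84) (nat_lit 16494159198)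 (nat_lit 22) (nat_lit 5) (nat_lit 26) (nat_lit 5) (nat_lit 23) (nat_lit 5) (nat_lit 388) (nat_lit 330) (nat_lit 170)) (XT.nd (nat_lit 94) (nat_lit 0) (nat_lit 0) (XT.lf (nat_lit 0) (nat_lit 1683953644) (nat_lit 252) (nat_lit 15009353904) (nat_lit 336) (nat_lit 21745085227) (nat_lit 19) (nat_lit 5) (nat_lit 22) (nat_lit 5) (nat_lit 23) (nat_lit 5) (nat_lit 389) (nat_lit 330) (nat_lit 169)) (XT.lf (nat_lit 0) (nat_lit 10878570446) (nat_lit 252) (nat_lit 8731838541) (nat_lit 336) (nat_lit 19773565634) (nat_lit 19) (nat_lit 5) (nat_lit 22) (nat_lit 5) (nat_lit 23) (nat_lit 5) (nat_lit 390) (nat_lit 330) (nat_lit 168)))) (XT.nd (nat_lit 94) (nat_lit 0) (nat_lit 0) (XT.lf (nat_lit 0) (nat_lit 20354386293) (nat_lit 252) (nat_lit 2260595979) (nat_lit 336) (nat_lit 17743995018) (nat_lit 19) (nat_lit 5) (nat_lit 22) (nat_lit 5) (nat_lit 23) (nat_lit 5) (nat_lit 391) (nat_lit 330) (nat_lit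 167)) (XT.nd (nat_lit 94) (nat_lit 0) (nat_lit 0) (XT.lf (nat_lit 0) (nat_lit 25753579749) (nat_lit 336) (nat_lit 11287827716) (nat_lit 84) (nat_lit 4321545814) (nat_lit 19) (nat_lit 5) (nat_lit 23) (nat_lit 5) (nat_lit 20) (nat_lit 5) (nat_lit 392) (nat_lit 330) (nat_lit 166)) (XT.lf (nat_lit 0) (nat_lit 29009803079) (nat_lit 336) (nat_lit 2327665557) (nat_lit 84) (nat_lit 11059968804) (nat_lit 19) (nat_lit 5) (nat_lit 23) (nat_lit 5) (nat_lit 20) (nat_lit 5) (nat_lit 393) (nat_lit 330) (nat_lit 165))))) (XT.nd (nat_lit 282) (nat_lit 252) (nat_lit 0) (XT.nd (nat_lit 94) (nat_lit 0) (nat_lit 0) (XT.lf (nat_lit 0) (nat_lit 7048688038) (nat_lit 168) (nat_lit 25385497831) (nat_lit 252) (nat_lit 11027735698) (nat_lit 17) (nat_lit 5) (nat_lit 19) (nat_lit 5) (nat_lit 20) (nat_lit 5) (nat_lit 394) (nat_lit 330) (nat_lit 164)) (XT.nd (nat_lit 94) (nat_lit 0) (nat_lit 0) (XT.lf (nat_lit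 0) (nat_lit 16761501270) (nat_lit 168) (nat_lit 19224858150) (nat_lit 252) (nat_lit 8572388828) (nat_lit 17) (nat_lit 5) (nat_lit 19) (nat_lit 5) (nat_lit 20) (nat_lit 5) (nat_lit 395) (nat_lit 330) (nat_lit 163)) (XT.lf (nat_lit 0) (nat_lit 26771965921) (nat_lit 168) (nat_lit 12874103288) (nat_lit 252) (nat_lit 6043601165) (nat_lit 17) (nat_lit 5) (nat_lit 19) (nat_lit 5) (nat_lit 20) (nat_lit 5) (nat_lit 396) (nat_lit 330) (nat_lit 162)))) (XT.nd (nat_lit 188) (nat_lit 252) (nat_lit 0) (XT.nd (nat_lit 94) (nat_lit 0) (nat_lit 0) (XT.lf (nat_lit 0) (nat_lit 37089412791) (nat_lit 168) (nat_lit 6327313674) (nat_lit 252) (nat_lit 3439015616) (nat_lit 17) (nat_lit 5) (nat_lit 19) (nat_lit 5) (nat_lit 20) (nat_lit 5) (nat_lit 397) (nat_lit 330) (nat_lit 161)) (XT.lf (nat_lit 0) (nat_lit 47306028291) (nat_lit 252) (nat_lit 338773901) (nat_lit 84) (nat_lit 413118422) (nat_lit 17) (nat_lit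 5) (nat_lit 20) (nat_lit 5) (nat_lit 18) (nat_lit 5) (nat_lit 398) (nat_lit 330) (nat_lit 160))) (XT.nd (nat_lit 94) (nat_lit 0) (nat_lit 0) (XT.lf (nat_lit 0) (nat_lit 2136089802) (nat_lit 252) (nat_lit 39809552901) (nat_lit 84) (nat_lit 7346210411) (nat_lit 14) (nat_lit 5) (nat_lit 17) (nat_lit 5) (nat_lit 15) (nat_lit 5) (nat_lit 399) (nat_lit 330) (nat_lit 159)) (XT.lf (nat_lit 0) (nat_lit 5099193679) (nat_lit 252) (nat_lit 30959894446) (nat_lit 84) (nat_lit 14504685253) (nat_lit 14) (nat_lit 5) (nat_lit 17) (nat_lit 5) (nat_lit 15) (nat_lit 5) (nat_lit 400) (nat_lit 330) (nat_lit 158))))))))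
noncomputable def xc163 : XT := (XT.nd (nat_lit 2350) (nat_lit 0) (nat_lit 0) (XT.nd (nat_lit 1128) (nat_lit 336) (nat_lit 0) (XT.nd (nat_lit 564) (nat_lit 168) (nat_lit 0) (XT.nd (nat_lit 282) (nat_lit 168) (nat_lit 0) (XT.nd (nat_lit 94) (nat_lit 0) (nat_lit 0) (XT.lf (nat_lit 0) (nat_lit 8151865325) (nat_lit 252) (nat_lit 21839048608) (nat_lit 84) (nat_lit 21884291670) (nat_lit 14) (nat_lit 5) (nat_lit 17) (nat_lit 5) (nat_lit 15) (nat_lit 5) (nat_lit 401) (nat_lit 330) (nat_lit 157)) (XT.nd (nat_lit 94) (nat_lit 0) (nat_lit 0) (XT.lf (nat_lit 0) (nat_lit 11296950150) (nat_lit 252) (nat_lit 12438513802) (nat_lit 84) (nat_lit 29491908229) (nat_lit 14) (nat_lit 5) (nat_lit 17) (nat_lit 5) (nat_lit 15) (nat_lit 5) (nat_lit 402) (nat_lit 330) (nat_lit 156)) (XT.lf (nat_lit 0) (nat_lit 14537379702) (nat_lit 252) (nat_lit 2749527745) (nat_lit 84) (nat_lit 37334626026) (nat_lit 14) (nat_lit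 5) (nat_lit 17) (nat_lit 5) (nat_lit 15) (nat_lit 5) (nat_lit 403) (nat_lit 330) (nat_lit 155)))) (XT.nd (nat_lit 94) (nat_lit 0) (nat_lit 0) (XT.lf (nat_lit 0) (nat_lit 7385747054) (nat_lit 168) (nat_lit 10563694872) (nat_lit 252) (nat_lit 38107275764) (nat_lit 12) (nat_lit 5) (nat_lit 14) (nat_lit 5) (nat_lit 15) (nat_lit 5) (nat_lit 404) (nat_lit 330) (nat_lit 154)) (XT.nd (nat_lit 94) (nat_lit 0) (nat_lit 0) (XT.lf (nat_lit 0) (nat_lit 17890656869) (nat_lit 168) (nat_lit 3603267017) (nat_lit 252) (nat_lit 36041652884) (nat_lit 12) (nat_lit 5) (nat_lit 14) (nat_lit 5) (nat_lit 15) (nat_lit 5) (nat_lit 405) (nat_lit 330) (nat_lit 153)) (XT.lf (nat_lit 0) (nat_lit 25181729223) (nat_lit 252) (nat_lit 30377330964) (nat_lit 84) (nat_lit 3500193379) (nat_lit 12) (nat_lit 5) (nat_lit 15) (nat_lit 5) (nat_lit 13) (nat_lit 5) (nat_lit 406) (nat_lit 330) (nat_lit 152))))) (XT.nd (nat_lit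 282) (nat_lit 168) (nat_lit 0) (XT.nd (nat_lit 94) (nat_lit 0) (nat_lit 0) (XT.lf (nat_lit 0) (nat_lit 29018770081) (nat_lit 252) (nat_lit 20862040182) (nat_lit 84) (nat_lit 10748281328) (nat_lit 12) (nat_lit 5) (nat_lit 15) (nat_lit 5) (nat_lit 13) (nat_lit 5) (nat_lit 407) (nat_lit 330) (nat_lit 151)) (XT.nd (nat_lit 94) (nat_lit 0) (nat_lit 0) (XT.lf (nat_lit 0) (nat_lit 32972878128) (nat_lit 252) (nat_lit 11054433454) (nat_lit 84) (nat_lit 18220350606) (nat_lit 12) (nat_lit 5) (nat_lit 15) (nat_lit 5) (nat_lit 13) (nat_lit 5) (nat_lit 408) (nat_lit 330) (nat_lit 150)) (XT.lf (nat_lit 0) (nat_lit 37047739009) (nat_lit 252) (nat_lit 945369063) (nat_lit 84) (nat_lit 25923365964) (nat_lit 12) (nat_lit 5) (nat_lit 15) (nat_lit 5) (nat_lit 13) (nat_lit 5) (nat_lit 409) (nat_lit 330) (nat_lit 149)))) (XT.nd (nat_lit 94) (nat_lit 0) (nat_lit 0) (XT.lf (nat_lit 0) (nat_lit 9669392407)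 (nat_lit 168) (nat_lit 31673680081) (nat_lit 252) (nat_lit 24291036581) (nat_lit 10) (nat_lit 5) (nat_lit 12) (nat_lit 5) (nat_lit 13) (nat_lit 5) (nat_lit 410) (nat_lit 330) (nat_lit 148)) (XT.nd (nat_lit 94) (nat_lit 0) (nat_lit 0) (XT.lf (nat_lit 0) (nat_lit 20630777501) (nat_lit 168) (nat_lit 25148910517) (nat_lit 252) (nat_lit 21625059313) (nat_lit 10) (nat_lit 5) (nat_lit 12) (nat_lit 5) (nat_lit 13) (nat_lit 5) (nat_lit 411) (nat_lit 330) (nat_lit 147)) (XT.lf (nat_lit 0) (nat_lit 31929564651) (nat_lit 168) (nat_lit 18422585322) (nat_lit 252) (nat_lit 18878185965) (nat_lit 10) (nat_lit 5) (nat_lit 12) (nat_lit 5) (nat_lit 13) (nat_lit 5) (nat_lit 412) (nat_lit 330) (nat_lit 146)))))) (XT.nd (nat_lit 564) (nat_lit 252) (nat_lit 0) (XT.nd (nat_lit 282) (nat_lit 84) (nat_lit 0) (XT.nd (nat_lit 94) (nat_lit 0) (nat_lit 0) (XT.lf (nat_lit 0) (nat_lit 43576285511) (nat_lit 168)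 (nat_lit 11488434859) (nat_lit 252) (nat_lit 16047856164) (nat_lit 10) (nat_lit 5) (nat_lit 12) (nat_lit 5) (nat_lit 13) (nat_lit 5) (nat_lit 413) (nat_lit 330) (nat_lit 145)) (XT.nd (nat_lit 94) (nat_lit 0) (nat_lit 0) (XT.lf (nat_lit 0) (nat_lit 55581796044) (nat_lit 168) (nat_lit 4339995772) (nat_lit 252) (nat_lit 13131431747) (nat_lit 10) (nat_lit 5) (nat_lit 12) (nat_lit 5) (nat_lit 13) (nat_lit 5) (nat_lit 414) (nat_lit 330) (nat_lit 144)) (XT.lf (nat_lit 0) (nat_lit 64957943585) (nat_lit 252) (nat_lit 7126851241) (nat_lit 84) (nat_lit 2968359472) (nat_lit 10) (nat_lit 5) (nat_lit 13) (nat_lit 5) (nat_lit 11) (nat_lit 4) (nat_lit 415) (nat_lit 330) (nat_lit 143)))) (XT.nd (nat_lit 94) (nat_lit 0) (nat_lit 0) (XT.lf (nat_lit 0) (nat_lit 3563646248) (nat_lit 84) (nat_lit 66664808782) (nat_lit 168) (nat_lit 6884209720) (nat_lit 9) (nat_lit 5) (nat_lit 10) (nat_lit 5) (nat_lit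 11) (nat_lit 4) (nat_lit 416) (nat_lit 330) (nat_lit 142)) (XT.nd (nat_lit 94) (nat_lit 0) (nat_lit 0) (XT.lf (nat_lit 0) (nat_lit 14734484419) (nat_lit 84) (nat_lit 61000780627) (nat_lit 168) (nat_lit 3498501734) (nat_lit 9) (nat_lit 5) (nat_lit 10) (nat_lit 5) (nat_lit 11) (nat_lit 4) (nat_lit 417) (nat_lit 330) (nat_lit 141)) (XT.lf (nat_lit 0) (nat_lit 26249532984) (nat_lit 84) (nat_lit 55161820605) (nat_lit 168) (nat_lit 9320633) (nat_lit 9) (nat_lit 5) (nat_lit 10) (nat_lit 5) (nat_lit 11) (nat_lit 4) (nat_lit 418) (nat_lit 330) (nat_lit 140))))) (XT.nd (nat_lit 282) (nat_lit 168) (nat_lit 0) (XT.nd (nat_lit 94) (nat_lit 0) (nat_lit 0) (XT.lf (nat_lit 0) (nat_lit 3514324153) (nat_lit 168) (nat_lit 45591479704) (nat_lit 84) (nat_lit 34568518685) (nat_lit 8) (nat_lit 5) (nat_lit 10) (nat_lit 5) (nat_lit 9) (nat_lit 5) (nat_lit 419) (nat_lit 330) (nat_lit 139)) (XT.nd (nat_lit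 94) (nat_lit 0) (nat_lit 0) (XT.lf (nat_lit 0) (nat_lit 7145640499) (nat_lit 168) (nat_lit 35716940413) (nat_lit 84) (nat_lit 43135298734) (nat_lit 8) (nat_lit 5) (nat_lit 10) (nat_lit 5) (nat_lit 9) (nat_lit 5) (nat_lit 420) (nat_lit 330) (nat_lit 138)) (XT.lf (nat_lit 0) (nat_lit 10888200963) (nat_lit 168) (nat_lit 25538226797) (nat_lit 84) (nat_lit 51967086442) (nat_lit 8) (nat_lit 5) (nat_lit 10) (nat_lit 5) (nat_lit 9) (nat_lit 5) (nat_lit 421) (nat_lit 330) (nat_lit 137)))) (XT.nd (nat_lit 188) (nat_lit 168) (nat_lit 0) (XT.nd (nat_lit 94) (nat_lit 0) (nat_lit 0) (XT.lf (nat_lit 0) (nat_lit 14745494003) (nat_lit 168) (nat_lit 15045851228) (nat_lit 84) (nat_lit 61072113958) (nat_lit 8) (nat_lit 5) (nat_lit 10) (nat_lit 5) (nat_lit 9) (nat_lit 5) (nat_lit 422) (nat_lit 330) (nat_lit 136)) (XT.lf (nat_lit 0) (nat_lit 18721115019) (nat_lit 168) (nat_lit 4230033715) (nat_lit 84)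 (nat_lit 70458868122) (nat_lit 8) (nat_lit 5) (nat_lit 10) (nat_lit 5) (nat_lit 9) (nat_lit 5) (nat_lit 423) (nat_lit 330) (nat_lit 135))) (XT.nd (nat_lit 94) (nat_lit 0) (nat_lit 0) (XT.lf (nat_lit 0) (nat_lit 7061582364) (nat_lit 168) (nat_lit 15827239113) (nat_lit 252) (nat_lit 73144567779) (nat_lit 6) (nat_lit 5) (nat_lit 8) (nat_lit 5) (nat_lit 9) (nat_lit 5) (nat_lit 424) (nat_lit 330) (nat_lit 134)) (XT.lf (nat_lit 0) (nat_lit 18791164001) (nat_lit 168) (nat_lit 8437524182) (nat_lit 252) (nat_lit 71508071573) (nat_lit 6) (nat_lit 5) (nat_lit 8) (nat_lit 5) (nat_lit 9) (nat_lit 5) (nat_lit 425) (nat_lit 330) (nat_lit 133))))))) (XT.nd (nat_lit 47376) (nat_lit 0) (nat_lit 5796) (XT.nd (nat_lit 564) (nat_lit 0) (nat_lit 0) (XT.nd (nat_lit 282) (nat_lit 0) (nat_lit 0) (XT.nd (nat_lit 94) (nat_lit 0) (nat_lit 0) (XT.lf (nat_lit 0) (nat_lit 30882666223) (nat_lit 168) (nat_lit 819268828)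 (nat_lit 252) (nat_lit 69822040712) (nat_lit 6) (nat_lit 5) (nat_lit 8) (nat_lit 5) (nat_lit 9) (nat_lit 5) (nat_lit 426) (nat_lit 330) (nat_lit 132)) (XT.nd (nat_lit 94) (nat_lit 0) (nat_lit 0) (XT.lf (nat_lit 0) (nat_lit 36382516001) (nat_lit 252) (nat_lit 61120060058) (nat_lit 84) (nat_lit 6892895882) (nat_lit 6) (nat_lit 5) (nat_lit 9) (nat_lit 5) (nat_lit 7) (nat_lit 4) (nat_lit 427) (nat_lit 330) (nat_lit 131)) (XT.lf (nat_lit 0) (nat_lit 41215481855) (nat_lit 252) (nat_lit 51313660542) (nat_lit 84) (nat_lit 14826621096) (nat_lit 6) (nat_lit 5) (nat_lit 9) (nat_lit 5) (nat_lit 7) (nat_lit 4) (nat_lit 428) (nat_lit 330) (nat_lit 130)))) (XT.nd (nat_lit 94) (nat_lit 0) (nat_lit 0) (XT.lf (nat_lit 0) (nat_lit 46197210198) (nat_lit 252) (nat_lit 41204843153) (nat_lit 84) (nat_lit 23005808316) (nat_lit 6) (nat_lit 5) (nat_lit 9) (nat_lit 5) (nat_lit 7) (nat_lit 4) (nat_lit 429)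 (nat_lit 330) (nat_lit 129)) (XT.nd (nat_lit 94) (nat_lit 0) (nat_lit 0) (XT.lf (nat_lit 0) (nat_lit 51332344523) (nat_lit 252) (nat_lit 30784185413) (nat_lit 84) (nat_lit 31438081403) (nat_lit 6) (nat_lit 5) (nat_lit 9) (nat_lit 5) (nat_lit 7) (nat_lit 4) (nat_lit 430) (nat_lit 330) (nat_lit 128)) (XT.lf (nat_lit 0) (nat_lit 56625671312) (nat_lit 252) (nat_lit 20041974179) (nat_lit 84) (nat_lit 40131300118) (nat_lit 6) (nat_lit 5) (nat_lit 9) (nat_lit 5) (nat_lit 7) (nat_lit 4) (nat_lit 431) (nat_lit 330) (nat_lit 127))))) (XT.nd (nat_lit 46436) (nat_lit 0) (nat_lit 6300) (XT.nd (nat_lit 46248) (nat_lit 0) (nat_lit 6300) (XT.lf (nat_lit 0) (nat_lit 62082124500) (nat_lit 252) (nat_lit 8968196584) (nat_lit 84) (nat_lit 49093567451) (nat_lit 6) (nat_lit 5) (nat_lit 9) (nat_lit 5) (nat_lit 7) (nat_lit 4) (nat_lit 432) (nat_lit 330) (nat_lit 126)) (XT.nd (nat_lit 94) (nat_lit 0) (nat_lit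 0) (XT.lf (nat_lit 0) (nat_lit 742626479) (nat_lit 0) (nat_lit 742626479) (nat_lit 924) (nat_lit 4731766299) (nat_lit 81) (nat_lit 5) (nat_lit 81) (nat_lit 3) (nat_lit 92) (nat_lit 3) (nat_lit 331) (nat_lit 331) (nat_lit 226)) (XT.lf (nat_lit 0) (nat_lit 3380812117) (nat_lit 924) (nat_lit 6975216195) (nat_lit 1008) (nat_lit 2256954101) (nat_lit 81) (nat_lit 5) (nat_lit 92) (nat_lit 3) (nat_lit 93) (nat_lit 5) (nat_lit 332) (nat_lit 331) (nat_lit 225)))) (XT.nd (nat_lit 188) (nat_lit 0) (nat_lit 84) (XT.nd (nat_lit 94) (nat_lit 0) (nat_lit 0) (XT.lf (nat_lit 0) (nat_lit 3805339241) (nat_lit 924) (nat_lit 2901130670) (nat_lit 1008) (nat_lit 6091057517) (nat_lit 81) (nat_lit 5) (nat_lit 92) (nat_lit 3) (nat_lit 93) (nat_lit 5) (nat_lit 333) (nat_lit 331) (nat_lit 224)) (XT.lf (nat_lit 84) (nat_lit 1318568605) (nat_lit 0) (nat_lit 2924260855) (nat_lit 1008) (nat_lit 8745067370) (nat_lit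 82) (nat_lit 5) (nat_lit 81) (nat_lit 5) (nat_lit 93) (nat_lit 5) (nat_lit 334) (nat_lit 331) (nat_lit 223))) (XT.nd (nat_lit 94) (nat_lit 0) (nat_lit 0) (XT.lf (nat_lit 0) (nat_lit 4721255231) (nat_lit 924) (nat_lit 7470360620) (nat_lit 1008) (nat_lit 991797710) (nat_lit 82) (nat_lit 5) (nat_lit 93) (nat_lit 5) (nat_lit 94) (nat_lit 5) (nat_lit 335) (nat_lit 331) (nat_lit 222)) (XT.lf (nat_lit 0) (nat_lit 5231915868) (nat_lit 924) (nat_lit 3178629830) (nat_lit 1008) (nat_lit 4973997710) (nat_lit 82) (nat_lit 5) (nat_lit 93) (nat_lit 5) (nat_lit 94) (nat_lit 5) (nat_lit 336) (nat_lit 331) (nat_lit 221)))))) (XT.nd (nat_lit 564) (nat_lit 588) (nat_lit 0) (XT.nd (nat_lit 282) (nat_lit 0) (nat_lit 84) (XT.nd (nat_lit 94) (nat_lit 0) (nat_lit 0) (XT.lf (nat_lit 84) (nat_lit 1264347296) (nat_lit 0) (nat_lit 4494473518) (nat_lit 1008) (nat_lit 7833163495) (nat_lit 83) (nat_lit 5) (nat_lit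 82) (nat_lit 5) (nat_lit 94) (nat_lit 5) (nat_lit 337) (nat_lit 331) (nat_lit 220)) (XT.nd (nat_lit 94) (nat_lit 0) (nat_lit 84) (XT.lf (nat_lit 84) (nat_lit 5905244511) (nat_lit 0) (nat_lit 418158308) (nat_lit 1008) (nat_lit 7481877609) (nat_lit 83) (nat_lit 5) (nat_lit 82) (nat_lit 5) (nat_lit 94) (nat_lit 5) (nat_lit 338) (nat_lit 331) (nat_lit 219)) (XT.lf (nat_lit 0) (nat_lit 6931594921) (nat_lit 924) (nat_lit 3380187275) (nat_lit 1008) (nat_lit 3712680775) (nat_lit 83) (nat_lit 5) (nat_lit 94) (nat_lit 5) (nat_lit 95) (nat_lit 5) (nat_lit 339) (nat_lit 331) (nat_lit 218)))) (XT.nd (nat_lit 94) (nat_lit 0) (nat_lit 0) (XT.lf (nat_lit 84) (nat_lit 1294337216) (nat_lit 0) (nat_lit 6270329465) (nat_lit 1008) (nat_lit 6685667776) (nat_lit 84) (nat_lit 5) (nat_lit 83) (nat_lit 5) (nat_lit 95) (nat_lit 5) (nat_lit 340) (nat_lit 331) (nat_lit 217)) (XT.nd (nat_lit 94) (nat_lit 0) (nat_lit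 84) (XT.lf (nat_lit 84) (nat_lit 6178262774) (nat_lit 0) (nat_lit 2063554440) (nat_lit 1008) (nat_lit 6240711325) (nat_lit 84) (nat_lit 5) (nat_lit 83) (nat_lit 5) (nat_lit 95) (nat_lit 5) (nat_lit 341) (nat_lit 331) (nat_lit 216)) (XT.lf (nat_lit 0) (nat_lit 8952046262) (nat_lit 924) (nat_lit 3538274292) (nat_lit 1008) (nat_lit 2231301670) (nat_lit 84) (nat_lit 5) (nat_lit 95) (nat_lit 5) (nat_lit 96) (nat_lit 5) (nat_lit 342) (nat_lit 331) (nat_lit 215))))) (XT.nd (nat_lit 282) (nat_lit 756) (nat_lit 0) (XT.nd (nat_lit 94) (nat_lit 0) (nat_lit 0) (XT.lf (nat_lit 84) (nat_lit 1374891806) (nat_lit 0) (nat_lit 8333991904) (nat_lit 1008) (nat_lit 5258555757) (nat_lit 85) (nat_lit 5) (nat_lit 84) (nat_lit 5) (nat_lit 96) (nat_lit 5) (nat_lit 343) (nat_lit 331) (nat_lit 214)) (XT.nd (nat_lit 94) (nat_lit 0) (nat_lit 84) (XT.lf (nat_lit 84) (nat_lit 6508281358) (nat_lit 0) (nat_lit 4007915890)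 (nat_lit 1008) (nat_lit 4703914117) (nat_lit 85) (nat_lit 5) (nat_lit 84) (nat_lit 5) (nat_lit 96) (nat_lit 5) (nat_lit 344) (nat_lit 331) (nat_lit 213)) (XT.lf (nat_lit 0) (nat_lit 11343431260) (nat_lit 924) (nat_lit 3691572600) (nat_lit 1008) (nat_lit 445840127) (nat_lit 85) (nat_lit 5) (nat_lit 96) (nat_lit 5) (nat_lit 97) (nat_lit 5) (nat_lit 345) (nat_lit 331) (nat_lit 212)))) (XT.nd (nat_lit 188) (nat_lit 840) (nat_lit 0) (XT.nd (nat_lit 94) (nat_lit 0) (nat_lit 0) (XT.lf (nat_lit 84) (nat_lit 1465796606) (nat_lit 0) (nat_lit 10776740983) (nat_lit 1008) (nat_lit 3505756171) (nat_lit 86) (nat_lit 5) (nat_lit 85) (nat_lit 5) (nat_lit 97) (nat_lit 5) (nat_lit 346) (nat_lit 331) (nat_lit 211)) (XT.lf (nat_lit 84) (nat_lit 6854317943) (nat_lit 0) (nat_lit 6344636812) (nat_lit 1008) (nat_lit 2824232606) (nat_lit 86) (nat_lit 5) (nat_lit 85) (nat_lit 5) (nat_lit 97) (nat_lit 5) (nat_lit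 347) (nat_lit 331) (nat_lit 210))) (XT.nd (nat_lit 94) (nat_lit 840) (nat_lit 0) (XT.lf (nat_lit 84) (nat_lit 12403107772) (nat_lit 0) (nat_lit 1773092608) (nat_lit 1008) (nat_lit 2130739227) (nat_lit 86) (nat_lit 5) (nat_lit 85) (nat_lit 5) (nat_lit 97) (nat_lit 5) (nat_lit 348) (nat_lit 331) (nat_lit 209)) (XT.lf (nat_lit 0) (nat_lit 1518939892) (nat_lit 924) (nat_lit 13700500060) (nat_lit 1008) (nat_lit 1379003143) (nat_lit 75) (nat_lit 5) (nat_lit 86) (nat_lit 5) (nat_lit 87) (nat_lit 5) (nat_lit 349) (nat_lit 331) (nat_lit 208))))))))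
noncomputable def xc164 : XT := (XT.nd (nat_lit 2350) (nat_lit 1848) (nat_lit 0) (XT.nd (nat_lit 1128) (nat_lit 1596) (nat_lit 0) (XT.nd (nat_lit 564) (nat_lit 420) (nat_lit 0) (XT.nd (nat_lit 282) (nat_lit 504) (nat_lit 0) (XT.nd (nat_lit 94) (nat_lit 756) (nat_lit 0) (XT.lf (nat_lit 0) (nat_lit 7167220891) (nat_lit 924) (nat_lit 9178151151) (nat_lit 1008) (nat_lit 552109980) (nat_lit 75) (nat_lit 5) (nat_lit 86) (nat_lit 5) (nat_lit 87) (nat_lit 5) (nat_lit 350) (nat_lit 331) (nat_lit 207)) (XT.nd (nat_lit 94) (nat_lit 672) (nat_lit 0) (XT.lf (nat_lit 0) (nat_lit 286128651) (nat_lit 1008) (nat_lit 4225040746) (nat_lit 84) (nat_lit 12694840886) (nat_lit 74) (nat_lit 5) (nat_lit 86) (nat_lit 5) (nat_lit 75) (nat_lit 5) (nat_lit 351) (nat_lit 331) (nat_lit 206)) (XT.lf (nat_lit 0) (nat_lit 1148660801) (nat_lit 756) (nat_lit 16058866917) (nat_lit 84) (nat_lit 316151591) (nat_lit 66)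 (nat_lit 5) (nat_lit 75) (nat_lit 5) (nat_lit 67) (nat_lit 5) (nat_lit 352) (nat_lit 331) (nat_lit 205)))) (XT.nd (nat_lit 94) (nat_lit 504) (nat_lit 0) (XT.lf (nat_lit 0) (nat_lit 2120820899) (nat_lit 756) (nat_lit 10482700273) (nat_lit 84) (nat_lit 5245158210) (nat_lit 66) (nat_lit 5) (nat_lit 75) (nat_lit 5) (nat_lit 67) (nat_lit 5) (nat_lit 353) (nat_lit 331) (nat_lit 204)) (XT.nd (nat_lit 94) (nat_lit 504) (nat_lit 0) (XT.lf (nat_lit 0) (nat_lit 3115551514) (nat_lit 756) (nat_lit 4740366204) (nat_lit 84) (nat_lit 10328122590) (nat_lit 66) (nat_lit 5) (nat_lit 75) (nat_lit 5) (nat_lit 67) (nat_lit 5) (nat_lit 354) (nat_lit 331) (nat_lit 203)) (XT.lf (nat_lit 0) (nat_lit 1197617061) (nat_lit 504) (nat_lit 2948043285) (nat_lit 588) (nat_lit 14384046034) (nat_lit 60) (nat_lit 5) (nat_lit 66) (nat_lit 5) (nat_lit 67) (nat_lit 5) (nat_lit 355) (nat_lit 331) (nat_lit 202))))) (XT.nd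 (nat_lit 282) (nat_lit 0) (nat_lit 0) (XT.nd (nat_lit 94) (nat_lit 420) (nat_lit 0) (XT.lf (nat_lit 0) (nat_lit 5271464836) (nat_lit 588) (nat_lit 11492545398) (nat_lit 84) (nat_lit 2120149488) (nat_lit 60) (nat_lit 5) (nat_lit 67) (nat_lit 5) (nat_lit 61) (nat_lit 5) (nat_lit 356) (nat_lit 331) (nat_lit 201)) (XT.nd (nat_lit 94) (nat_lit 420) (nat_lit 0) (XT.lf (nat_lit 0) (nat_lit 6455362001) (nat_lit 588) (nat_lit 5508630686) (nat_lit 84) (nat_lit 7284936259) (nat_lit 60) (nat_lit 5) (nat_lit 67) (nat_lit 5) (nat_lit 61) (nat_lit 5) (nat_lit 357) (nat_lit 331) (nat_lit 200)) (XT.lf (nat_lit 0) (nat_lit 667934805) (nat_lit 420) (nat_lit 7007901593) (nat_lit 504) (nat_lit 11949218840) (nat_lit 55) (nat_lit 5) (nat_lit 60) (nat_lit 5) (nat_lit 61) (nat_lit 5) (nat_lit 358) (nat_lit 331) (nat_lit 199)))) (XT.nd (nat_lit 94) (nat_lit 0) (nat_lit 0) (XT.lf (nat_lit 0) (nat_lit 7146509791)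 (nat_lit 420) (nat_lit 1838525946) (nat_lit 504) (nat_lit 11026272142) (nat_lit 55) (nat_lit 5) (nat_lit 60) (nat_lit 5) (nat_lit 61) (nat_lit 5) (nat_lit 359) (nat_lit 331) (nat_lit 198)) (XT.nd (nat_lit 94) (nat_lit 0) (nat_lit 0) (XT.lf (nat_lit 0) (nat_lit 10363046044) (nat_lit 504) (nat_lit 6624547180) (nat_lit 84) (nat_lit 3421108832) (nat_lit 55) (nat_lit 5) (nat_lit 61) (nat_lit 5) (nat_lit 56) (nat_lit 5) (nat_lit 360) (nat_lit 331) (nat_lit 197)) (XT.lf (nat_lit 0) (nat_lit 11796364732) (nat_lit 504) (nat_lit 215764106) (nat_lit 84) (nat_lit 8805937745) (nat_lit 55) (nat_lit 5) (nat_lit 61) (nat_lit 5) (nat_lit 56) (nat_lit 5) (nat_lit 361) (nat_lit 331) (nat_lit 196)))))) (XT.nd (nat_lit 564) (nat_lit 840) (nat_lit 0) (XT.nd (nat_lit 282) (nat_lit 336) (nat_lit 0) (XT.nd (nat_lit 94) (nat_lit 0) (nat_lit 0) (XT.lf (nat_lit 0) (nat_lit 6517067584) (nat_lit 420) (nat_lit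 6815671933) (nat_lit 504) (nat_lit 7905604749) (nat_lit 50) (nat_lit 5) (nat_lit 55) (nat_lit 5) (nat_lit 56) (nat_lit 5) (nat_lit 362) (nat_lit 331) (nat_lit 195)) (XT.nd (nat_lit 94) (nat_lit 0) (nat_lit 0) (XT.lf (nat_lit 0) (nat_lit 13457323111) (nat_lit 420) (nat_lit 1455767048) (nat_lit 504) (nat_lit 6758712569) (nat_lit 50) (nat_lit 5) (nat_lit 55) (nat_lit 5) (nat_lit 56) (nat_lit 5) (nat_lit 363) (nat_lit 331) (nat_lit 194)) (XT.lf (nat_lit 0) (nat_lit 16577083470) (nat_lit 504) (nat_lit 1552256924) (nat_lit 84) (nat_lit 3988321601) (nat_lit 50) (nat_lit 5) (nat_lit 56) (nat_lit 5) (nat_lit 51) (nat_lit 5) (nat_lit 364) (nat_lit 331) (nat_lit 193)))) (XT.nd (nat_lit 94) (nat_lit 0) (nat_lit 0) (XT.lf (nat_lit 0) (nat_lit 5404770040) (nat_lit 336) (nat_lit 12950841731) (nat_lit 420) (nat_lit 4219816300) (nat_lit 46) (nat_lit 5) (nat_lit 50) (nat_lit 5) (nat_lit 51) (nat_lit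 5) (nat_lit 365) (nat_lit 331) (nat_lit 192)) (XT.nd (nat_lit 94) (nat_lit 0) (nat_lit 0) (XT.lf (nat_lit 0) (nat_lit 12604700247) (nat_lit 336) (nat_lit 7595333447) (nat_lit 420) (nat_lit 2847053221) (nat_lit 46) (nat_lit 5) (nat_lit 50) (nat_lit 5) (nat_lit 51) (nat_lit 5) (nat_lit 366) (nat_lit 331) (nat_lit 191)) (XT.lf (nat_lit 0) (nat_lit 20022327201) (nat_lit 336) (nat_lit 2074026028) (nat_lit 420) (nat_lit 1437212107) (nat_lit 46) (nat_lit 5) (nat_lit 50) (nat_lit 5) (nat_lit 51) (nat_lit 5) (nat_lit 367) (nat_lit 331) (nat_lit 190))))) (XT.nd (nat_lit 282) (nat_lit 336) (nat_lit 0) (XT.nd (nat_lit 94) (nat_lit 0) (nat_lit 0) (XT.lf (nat_lit 0) (nat_lit 83811038) (nat_lit 504) (nat_lit 20366683230) (nat_lit 84) (nat_lit 3582555755) (nat_lit 40) (nat_lit 5) (nat_lit 46) (nat_lit 5) (nat_lit 41) (nat_lit 5) (nat_lit 368) (nat_lit 331) (nat_lit 189)) (XT.nd (nat_lit 94) (nat_lit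 0) (nat_lit 0) (XT.lf (nat_lit 0) (nat_lit 1675262749) (nat_lit 504) (nat_lit 13447861520) (nat_lit 84) (nat_lit 9422823192) (nat_lit 40) (nat_lit 5) (nat_lit 46) (nat_lit 5) (nat_lit 41) (nat_lit 5) (nat_lit 369) (nat_lit 331) (nat_lit 188)) (XT.lf (nat_lit 0) (nat_lit 3311096745) (nat_lit 504) (nat_lit 6319994035) (nat_lit 84) (nat_lit 15443837997) (nat_lit 40) (nat_lit 5) (nat_lit 46) (nat_lit 5) (nat_lit 41) (nat_lit 5) (nat_lit 370) (nat_lit 331) (nat_lit 187)))) (XT.nd (nat_lit 188) (nat_lit 0) (nat_lit 0) (XT.nd (nat_lit 94) (nat_lit 0) (nat_lit 0) (XT.lf (nat_lit 0) (nat_lit 1044609699) (nat_lit 336) (nat_lit 3958590752) (nat_lit 420) (nat_lit 20616965345) (nat_lit 36) (nat_lit 5) (nat_lit 40) (nat_lit 5) (nat_lit 41) (nat_lit 5) (nat_lit 371) (nat_lit 331) (nat_lit 186)) (XT.lf (nat_lit 0) (nat_lit 6828432259) (nat_lit 420) (nat_lit 17433575283) (nat_lit 84) (nat_lit 1917825477)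 (nat_lit 36) (nat_lit 5) (nat_lit 41) (nat_lit 5) (nat_lit 37) (nat_lit 5) (nat_lit 372) (nat_lit 331) (nat_lit 185))) (XT.nd (nat_lit 94) (nat_lit 0) (nat_lit 0) (XT.lf (nat_lit 0) (nat_lit 8746158923) (nat_lit 420) (nat_lit 10115908561) (nat_lit 84) (nat_lit 7893697002) (nat_lit 36) (nat_lit 5) (nat_lit 41) (nat_lit 5) (nat_lit 37) (nat_lit 5) (nat_lit 373) (nat_lit 331) (nat_lit 184)) (XT.lf (nat_lit 0) (nat_lit 10718898254) (nat_lit 420) (nat_lit 2576465389) (nat_lit 84) (nat_lit 14054350741) (nat_lit 36) (nat_lit 5) (nat_lit 41) (nat_lit 5) (nat_lit 37) (nat_lit 5) (nat_lit 374) (nat_lit 331) (nat_lit 183))))))) (XT.nd (nat_lit 1222) (nat_lit 672) (nat_lit 0) (XT.nd (nat_lit 564) (nat_lit 588) (nat_lit 0) (XT.nd (nat_lit 282) (nat_lit 252) (nat_lit 0) (XT.nd (nat_lit 94) (nat_lit 0) (nat_lit 0) (XT.lf (nat_lit 0) (nat_lit 5298535465) (nat_lit 336) (nat_lit 7502515717) (nat_lit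 420) (nat_lit 15159555732) (nat_lit 32) (nat_lit 5) (nat_lit 36) (nat_lit 5) (nat_lit 37) (nat_lit 5) (nat_lit 375) (nat_lit 331) (nat_lit 182)) (XT.nd (nat_lit 94) (nat_lit 0) (nat_lit 0) (XT.lf (nat_lit 0) (nat_lit 13467412118) (nat_lit 336) (nat_lit 1503009391) (nat_lit 420) (nat_lit 13619338227) (nat_lit 32) (nat_lit 5) (nat_lit 36) (nat_lit 5) (nat_lit 37) (nat_lit 5) (nat_lit 376) (nat_lit 331) (nat_lit 181)) (XT.lf (nat_lit 0) (nat_lit 17249391494) (nat_lit 420) (nat_lit 7400211073) (nat_lit 84) (nat_lit 4587525554) (nat_lit 32) (nat_lit 5) (nat_lit 37) (nat_lit 5) (nat_lit 33) (nat_lit 5) (nat_lit 377) (nat_lit 331) (nat_lit 180)))) (XT.nd (nat_lit 94) (nat_lit 0) (nat_lit 0) (XT.lf (nat_lit 0) (nat_lit 552346445) (nat_lit 252) (nat_lit 19063536405) (nat_lit 336) (nat_lit 10288182913) (nat_lit 29) (nat_lit 5) (nat_lit 32) (nat_lit 5) (nat_lit 33) (nat_lit 5) (nat_lit 378)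 (nat_lit 331) (nat_lit 179)) (XT.nd (nat_lit 94) (nat_lit 0) (nat_lit 0) (XT.lf (nat_lit 0) (nat_lit 8903640074) (nat_lit 252) (nat_lit 13225433352) (nat_lit 336) (nat_lit 8460354758) (nat_lit 29) (nat_lit 5) (nat_lit 32) (nat_lit 5) (nat_lit 33) (nat_lit 5) (nat_lit 379) (nat_lit 331) (nat_lit 178)) (XT.lf (nat_lit 0) (nat_lit 17509290579) (nat_lit 252) (nat_lit 7207094710) (nat_lit 336) (nat_lit 6579791461) (nat_lit 29) (nat_lit 5) (nat_lit 32) (nat_lit 5) (nat_lit 33) (nat_lit 5) (nat_lit 380) (nat_lit 331) (nat_lit 177))))) (XT.nd (nat_lit 282) (nat_lit 336) (nat_lit 0) (XT.nd (nat_lit 94) (nat_lit 252) (nat_lit 0) (XT.lf (nat_lit 0) (nat_lit 26377319327) (nat_lit 252) (nat_lit 1002910757) (nat_lit 336) (nat_lit 4644740141) (nat_lit 29) (nat_lit 5) (nat_lit 32) (nat_lit 5) (nat_lit 33) (nat_lit 5) (nat_lit 381) (nat_lit 331) (nat_lit 176)) (XT.nd (nat_lit 94) (nat_lit 0) (nat_lit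 0) (XT.lf (nat_lit 0) (nat_lit 2741235871) (nat_lit 252) (nat_lit 27462546570) (nat_lit 336) (nat_lit 2570204037) (nat_lit 26) (nat_lit 5) (nat_lit 29) (nat_lit 5) (nat_lit 30) (nat_lit 5) (nat_lit 382) (nat_lit 331) (nat_lit 175)) (XT.lf (nat_lit 0) (nat_lit 11495092090) (nat_lit 252) (nat_lit 21685370309) (nat_lit 336) (nat_lit 363746839) (nat_lit 26) (nat_lit 5) (nat_lit 29) (nat_lit 5) (nat_lit 30) (nat_lit 5) (nat_lit 383) (nat_lit 331) (nat_lit 174)))) (XT.nd (nat_lit 188) (nat_lit 252) (nat_lit 0) (XT.nd (nat_lit 94) (nat_lit 0) (nat_lit 0) (XT.lf (nat_lit 0) (nat_lit 1869151059) (nat_lit 336) (nat_lit 13841254152) (nat_lit 84) (nat_lit 18627442390) (nat_lit 25) (nat_lit 5) (nat_lit 29) (nat_lit 5) (nat_lit 26) (nat_lit 5) (nat_lit 384) (nat_lit 331) (nat_lit 173)) (XT.lf (nat_lit 0) (nat_lit 4160361940) (nat_lit 336) (nat_lit 5386842892) (nat_lit 84) (nat_lit 25608891200)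 (nat_lit 25) (nat_lit 5) (nat_lit 29) (nat_lit 5) (nat_lit 26) (nat_lit 5) (nat_lit 385) (nat_lit 331) (nat_lit 172))) (XT.nd (nat_lit 94) (nat_lit 0) (nat_lit 0) (XT.lf (nat_lit 0) (nat_lit 3393986710) (nat_lit 252) (nat_lit 3159032200) (nat_lit 336) (nat_lit 29445766446) (nat_lit 22) (nat_lit 5) (nat_lit 25) (nat_lit 5) (nat_lit 26) (nat_lit 5) (nat_lit 386) (nat_lit 331) (nat_lit 171)) (XT.lf (nat_lit 0) (nat_lit 9107448546) (nat_lit 336) (nat_lit 24343324944) (nat_lit 84) (nat_lit 3414126567) (nat_lit 22) (nat_lit 5) (nat_lit 26) (nat_lit 5) (nat_lit 23) (nat_lit 5) (nat_lit 387) (nat_lit 331) (nat_lit 170)))))) (XT.nd (nat_lit 564) (nat_lit 420) (nat_lit 0) (XT.nd (nat_lit 282) (nat_lit 0) (nat_lit 0) (XT.nd (nat_lit 94) (nat_lit 252) (nat_lit 0) (XT.lf (nat_lit 0) (nat_lit 11770270841) (nat_lit 336) (nat_lit 15862048387) (nat_lit 84) (nat_lit 10124656811) (nat_lit 22) (nat_lit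 5) (nat_lit 26) (nat_lit 5) (nat_lit 23) (nat_lit 5) (nat_lit 388) (nat_lit 331) (nat_lit 169)) (XT.nd (nat_lit 94) (nat_lit 252) (nat_lit 0) (XT.lf (nat_lit 0) (nat_lit 14512629834) (nat_lit 336) (nat_lit 7121725546) (nat_lit 84) (nat_lit 17042460906) (nat_lit 22) (nat_lit 5) (nat_lit 26) (nat_lit 5) (nat_lit 23) (nat_lit 5) (nat_lit 389) (nat_lit 331) (nat_lit 168)) (XT.lf (nat_lit 0) (nat_lit 1924566194) (nat_lit 252) (nat_lit 15431607430) (nat_lit 336) (nat_lit 22268512711) (nat_lit 19) (nat_lit 5) (nat_lit 22) (nat_lit 5) (nat_lit 23) (nat_lit 5) (nat_lit 390) (nat_lit 331) (nat_lit 167)))) (XT.nd (nat_lit 94) (nat_lit 0) (nat_lit 0) (XT.lf (nat_lit 0) (nat_lit 11398551026) (nat_lit 252) (nat_lit 8960783106) (nat_lit 336) (nat_lit 20240406345) (nat_lit 19) (nat_lit 5) (nat_lit 22) (nat_lit 5) (nat_lit 23) (nat_lit 5) (nat_lit 391) (nat_lit 331) (nat_lit 166)) (XT.nd (nat_lit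 94) (nat_lit 0) (nat_lit 0) (XT.lf (nat_lit 0) (nat_lit 21162622410) (nat_lit 252) (nat_lit 2290187131) (nat_lit 336) (nat_lit 18152313157) (nat_lit 19) (nat_lit 5) (nat_lit 22) (nat_lit 5) (nat_lit 23) (nat_lit 5) (nat_lit 392) (nat_lit 331) (nat_lit 165)) (XT.lf (nat_lit 0) (nat_lit 26684980932) (nat_lit 336) (nat_lit 11461386273) (nat_lit 84) (nat_lit 4493992486) (nat_lit 19) (nat_lit 5) (nat_lit 23) (nat_lit 5) (nat_lit 20) (nat_lit 5) (nat_lit 393) (nat_lit 331) (nat_lit 164))))) (XT.nd (nat_lit 282) (nat_lit 252) (nat_lit 0) (XT.nd (nat_lit 94) (nat_lit 168) (nat_lit 0) (XT.lf (nat_lit 0) (nat_lit 30038146946) (nat_lit 336) (nat_lit 2228761983) (nat_lit 84) (nat_lit 11440149614) (nat_lit 19) (nat_lit 5) (nat_lit 23) (nat_lit 5) (nat_lit 20) (nat_lit 5) (nat_lit 394) (nat_lit 331) (nat_lit 163)) (XT.nd (nat_lit 94) (nat_lit 0) (nat_lit 0) (XT.lf (nat_lit 0) (nat_lit 7436526732)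 (nat_lit 168) (nat_lit 26129958679) (nat_lit 252) (nat_lit 11238145498) (nat_lit 17) (nat_lit 5) (nat_lit 19) (nat_lit 5) (nat_lit 20) (nat_lit 5) (nat_lit 395) (nat_lit 331) (nat_lit 162)) (XT.lf (nat_lit 0) (nat_lit 17445345796) (nat_lit 168) (nat_lit 19779616741) (nat_lit 252) (nat_lit 8710635300) (nat_lit 17) (nat_lit 5) (nat_lit 19) (nat_lit 5) (nat_lit 20) (nat_lit 5) (nat_lit 396) (nat_lit 331) (nat_lit 161)))) (XT.nd (nat_lit 188) (nat_lit 252) (nat_lit 0) (XT.nd (nat_lit 94) (nat_lit 0) (nat_lit 0) (XT.lf (nat_lit 0) (nat_lit 27761196560) (nat_lit 168) (nat_lit 13233227636) (nat_lit 252) (nat_lit 6107288804) (nat_lit 17) (nat_lit 5) (nat_lit 19) (nat_lit 5) (nat_lit 20) (nat_lit 5) (nat_lit 397) (nat_lit 331) (nat_lit 160)) (XT.lf (nat_lit 0) (nat_lit 38393694477) (nat_lit 168) (nat_lit 6484689443) (nat_lit 252) (nat_lit 3425679418) (nat_lit 17) (nat_lit 5) (nat_lit 19)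 (nat_lit 5) (nat_lit 20) (nat_lit 5) (nat_lit 398) (nat_lit 331) (nat_lit 159))) (XT.nd (nat_lit 94) (nat_lit 252) (nat_lit 0) (XT.lf (nat_lit 0) (nat_lit 48885147125) (nat_lit 252) (nat_lit 195704579) (nat_lit 84) (nat_lit 462772625) (nat_lit 17) (nat_lit 5) (nat_lit 20) (nat_lit 5) (nat_lit 18) (nat_lit 5) (nat_lit 399) (nat_lit 331) (nat_lit 158)) (XT.lf (nat_lit 0) (nat_lit 2314765161) (nat_lit 252) (nat_lit 40888755484) (nat_lit 84) (nat_lit 7612329083) (nat_lit 14) (nat_lit 5) (nat_lit 17) (nat_lit 5) (nat_lit 15) (nat_lit 5) (nat_lit 400) (nat_lit 331) (nat_lit 157))))))))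
noncomputable def xc165 : XT := (XT.nd (nat_lit 2350) (nat_lit 0) (nat_lit 0) (XT.nd (nat_lit 1128) (nat_lit 336) (nat_lit 0) (XT.nd (nat_lit 564) (nat_lit 168) (nat_lit 0) (XT.nd (nat_lit 282) (nat_lit 168) (nat_lit 0) (XT.nd (nat_lit 94) (nat_lit 0) (nat_lit 0) (XT.lf (nat_lit 0) (nat_lit 5366343926) (nat_lit 252) (nat_lit 31769414940) (nat_lit 84) (nat_lit 14991562454) (nat_lit 14) (nat_lit 5) (nat_lit 17) (nat_lit 5) (nat_lit 15) (nat_lit 5) (nat_lit 401) (nat_lit 331) (nat_lit 156)) (XT.nd (nat_lit 94) (nat_lit 0) (nat_lit 0) (XT.lf (nat_lit 0) (nat_lit 8510368730) (nat_lit 252) (nat_lit 22370340167) (nat_lit 84) (nat_lit 22598817184) (nat_lit 14) (nat_lit 5) (nat_lit 17) (nat_lit 5) (nat_lit 15) (nat_lit 5) (nat_lit 402) (nat_lit 331) (nat_lit 155)) (XT.lf (nat_lit 0) (nat_lit 11749770134) (nat_lit 252) (nat_lit 12682770244) (nat_lit 84) (nat_lit 30441184030) (nat_lit 14) (nat_lit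 5) (nat_lit 17) (nat_lit 5) (nat_lit 15) (nat_lit 5) (nat_lit 403) (nat_lit 331) (nat_lit 154)))) (XT.nd (nat_lit 94) (nat_lit 168) (nat_lit 0) (XT.lf (nat_lit 0) (nat_lit 15087567599) (nat_lit 252) (nat_lit 2697675341) (nat_lit 84) (nat_lit 38525972901) (nat_lit 14) (nat_lit 5) (nat_lit 17) (nat_lit 5) (nat_lit 15) (nat_lit 5) (nat_lit 404) (nat_lit 331) (nat_lit 153)) (XT.nd (nat_lit 94) (nat_lit 0) (nat_lit 0) (XT.lf (nat_lit 0) (nat_lit 7750405087) (nat_lit 168) (nat_lit 10853352194) (nat_lit 252) (nat_lit 39187199557) (nat_lit 12) (nat_lit 5) (nat_lit 14) (nat_lit 5) (nat_lit 15) (nat_lit 5) (nat_lit 405) (nat_lit 331) (nat_lit 152)) (XT.lf (nat_lit 0) (nat_lit 18576886896) (nat_lit 168) (nat_lit 3678288159) (nat_lit 252) (nat_lit 37060591305) (nat_lit 12) (nat_lit 5) (nat_lit 14) (nat_lit 5) (nat_lit 15) (nat_lit 5) (nat_lit 406) (nat_lit 331) (nat_lit 151))))) (XT.nd (nat_lit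 282) (nat_lit 168) (nat_lit 0) (XT.nd (nat_lit 94) (nat_lit 0) (nat_lit 0) (XT.lf (nat_lit 0) (nat_lit 26054800657) (nat_lit 252) (nat_lit 31188408357) (nat_lit 84) (nat_lit 3643559813) (nat_lit 12) (nat_lit 5) (nat_lit 15) (nat_lit 5) (nat_lit 13) (nat_lit 5) (nat_lit 407) (nat_lit 331) (nat_lit 150)) (XT.nd (nat_lit 94) (nat_lit 0) (nat_lit 0) (XT.lf (nat_lit 0) (nat_lit 30008010370) (nat_lit 252) (nat_lit 21382071026) (nat_lit 84) (nat_lit 11115290308) (nat_lit 12) (nat_lit 5) (nat_lit 15) (nat_lit 5) (nat_lit 13) (nat_lit 5) (nat_lit 408) (nat_lit 331) (nat_lit 149)) (XT.lf (nat_lit 0) (nat_lit 34081999927) (nat_lit 252) (nat_lit 11274237863) (nat_lit 84) (nat_lit 18817977069) (nat_lit 12) (nat_lit 5) (nat_lit 15) (nat_lit 5) (nat_lit 13) (nat_lit 5) (nat_lit 409) (nat_lit 331) (nat_lit 148)))) (XT.nd (nat_lit 94) (nat_lit 168) (nat_lit 0) (XT.lf (nat_lit 0) (nat_lit 38280566713)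 (nat_lit 252) (nat_lit 855487309) (nat_lit 84) (nat_lit 26758799809) (nat_lit 12) (nat_lit 5) (nat_lit 15) (nat_lit 5) (nat_lit 13) (nat_lit 5) (nat_lit 410) (nat_lit 331) (nat_lit 147)) (XT.nd (nat_lit 94) (nat_lit 0) (nat_lit 0) (XT.lf (nat_lit 0) (nat_lit 10087125092) (nat_lit 168) (nat_lit 32620564669) (nat_lit 252) (nat_lit 24958100642) (nat_lit 10) (nat_lit 5) (nat_lit 12) (nat_lit 5) (nat_lit 13) (nat_lit 5) (nat_lit 411) (nat_lit 331) (nat_lit 146)) (XT.lf (nat_lit 0) (nat_lit 21384765668) (nat_lit 168) (nat_lit 25894579609) (nat_lit 252) (nat_lit 22212062656) (nat_lit 10) (nat_lit 5) (nat_lit 12) (nat_lit 5) (nat_lit 13) (nat_lit 5) (nat_lit 412) (nat_lit 331) (nat_lit 145)))))) (XT.nd (nat_lit 564) (nat_lit 252) (nat_lit 0) (XT.nd (nat_lit 282) (nat_lit 84) (nat_lit 0) (XT.nd (nat_lit 94) (nat_lit 0) (nat_lit 0) (XT.lf (nat_lit 0) (nat_lit 33030374429) (nat_lit 168) (nat_lit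 18960759053) (nat_lit 252) (nat_lit 19382543100) (nat_lit 10) (nat_lit 5) (nat_lit 12) (nat_lit 5) (nat_lit 13) (nat_lit 5) (nat_lit 413) (nat_lit 331) (nat_lit 144)) (XT.nd (nat_lit 94) (nat_lit 0) (nat_lit 0) (XT.lf (nat_lit 0) (nat_lit 45034806301) (nat_lit 168) (nat_lit 11812639953) (nat_lit 252) (nat_lit 16466904565) (nat_lit 10) (nat_lit 5) (nat_lit 12) (nat_lit 5) (nat_lit 13) (nat_lit 5) (nat_lit 414) (nat_lit 331) (nat_lit 143)) (XT.lf (nat_lit 0) (nat_lit 57409250673) (nat_lit 168) (nat_lit 4443559514) (nat_lit 252) (nat_lit 13462429370) (nat_lit 10) (nat_lit 5) (nat_lit 12) (nat_lit 5) (nat_lit 13) (nat_lit 5) (nat_lit 415) (nat_lit 331) (nat_lit 142)))) (XT.nd (nat_lit 94) (nat_lit 84) (nat_lit 0) (XT.lf (nat_lit 0) (nat_lit 67043172438) (nat_lit 252) (nat_lit 7244247645) (nat_lit 84) (nat_lit 3089818021) (nat_lit 10) (nat_lit 5) (nat_lit 13) (nat_lit 5) (nat_lit 11)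 (nat_lit 4) (nat_lit 416) (nat_lit 331) (nat_lit 141)) (XT.nd (nat_lit 94) (nat_lit 0) (nat_lit 0) (XT.lf (nat_lit 0) (nat_lit 3776607058) (nat_lit 84) (nat_lit 68699328536) (nat_lit 168) (nat_lit 7024703361) (nat_lit 9) (nat_lit 5) (nat_lit 10) (nat_lit 5) (nat_lit 11) (nat_lit 4) (nat_lit 417) (nat_lit 331) (nat_lit 140)) (XT.lf (nat_lit 0) (nat_lit 15290659621) (nat_lit 84) (nat_lit 62860680366) (nat_lit 168) (nat_lit 3536230884) (nat_lit 9) (nat_lit 5) (nat_lit 10) (nat_lit 5) (nat_lit 11) (nat_lit 4) (nat_lit 418) (nat_lit 331) (nat_lit 139))))) (XT.nd (nat_lit 282) (nat_lit 168) (nat_lit 0) (XT.nd (nat_lit 94) (nat_lit 0) (nat_lit 0) (XT.lf (nat_lit 0) (nat_lit 57799814) (nat_lit 168) (nat_lit 56783245305) (nat_lit 84) (nat_lit 27101282631) (nat_lit 8) (nat_lit 5) (nat_lit 10) (nat_lit 5) (nat_lit 9) (nat_lit 5) (nat_lit 419) (nat_lit 331) (nat_lit 138)) (XT.nd (nat_lit 94)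 (nat_lit 0) (nat_lit 0) (XT.lf (nat_lit 0) (nat_lit 3688462941) (nat_lit 168) (nat_lit 46909659432) (nat_lit 84) (nat_lit 35667785712) (nat_lit 8) (nat_lit 5) (nat_lit 10) (nat_lit 5) (nat_lit 9) (nat_lit 5) (nat_lit 420) (nat_lit 331) (nat_lit 137)) (XT.lf (nat_lit 0) (nat_lit 7430389825) (nat_lit 168) (nat_lit 36731870567) (nat_lit 84) (nat_lit 44499304778) (nat_lit 8) (nat_lit 5) (nat_lit 10) (nat_lit 5) (nat_lit 9) (nat_lit 5) (nat_lit 421) (nat_lit 331) (nat_lit 136)))) (XT.nd (nat_lit 188) (nat_lit 168) (nat_lit 0) (XT.nd (nat_lit 94) (nat_lit 0) (nat_lit 0) (XT.lf (nat_lit 0) (nat_lit 11287068336) (nat_lit 168) (nat_lit 26240391945) (nat_lit 84) (nat_lit 53604071730) (nat_lit 8) (nat_lit 5) (nat_lit 10) (nat_lit 5) (nat_lit 9) (nat_lit 5) (nat_lit 422) (nat_lit 331) (nat_lit 135)) (XT.lf (nat_lit 0) (nat_lit 15262093301) (nat_lit 168) (nat_lit 15425444409) (nat_lit 84) (nat_lit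 62990573165) (nat_lit 8) (nat_lit 5) (nat_lit 10) (nat_lit 5) (nat_lit 9) (nat_lit 5) (nat_lit 423) (nat_lit 331) (nat_lit 134))) (XT.nd (nat_lit 94) (nat_lit 168) (nat_lit 0) (XT.lf (nat_lit 0) (nat_lit 19359169860) (nat_lit 168) (nat_lit 4276947294) (nat_lit 84) (nat_lit 72667558285) (nat_lit 8) (nat_lit 5) (nat_lit 10) (nat_lit 5) (nat_lit 9) (nat_lit 5) (nat_lit 424) (nat_lit 331) (nat_lit 133)) (XT.lf (nat_lit 0) (nat_lit 7363856257) (nat_lit 168) (nat_lit 16291311025) (nat_lit 252) (nat_lit 75353241163) (nat_lit 6) (nat_lit 5) (nat_lit 8) (nat_lit 5) (nat_lit 9) (nat_lit 5) (nat_lit 425) (nat_lit 331) (nat_lit 132))))))) (XT.nd (nat_lit 47470) (nat_lit 0) (nat_lit 5796) (XT.nd (nat_lit 564) (nat_lit 0) (nat_lit 0) (XT.nd (nat_lit 282) (nat_lit 0) (nat_lit 0) (XT.nd (nat_lit 94) (nat_lit 0) (nat_lit 0) (XT.lf (nat_lit 0) (nat_lit 19454548320) (nat_lit 168) (nat_lit 8673313910)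 (nat_lit 252) (nat_lit 73667781814) (nat_lit 6) (nat_lit 5) (nat_lit 8) (nat_lit 5) (nat_lit 9) (nat_lit 5) (nat_lit 426) (nat_lit 331) (nat_lit 131)) (XT.nd (nat_lit 94) (nat_lit 0) (nat_lit 0) (XT.lf (nat_lit 0) (nat_lit 31918455874) (nat_lit 168) (nat_lit 819667596) (nat_lit 252) (nat_lit 71931199068) (nat_lit 6) (nat_lit 5) (nat_lit 8) (nat_lit 5) (nat_lit 9) (nat_lit 5) (nat_lit 427) (nat_lit 331) (nat_lit 130)) (XT.lf (nat_lit 0) (nat_lit 37562436481) (nat_lit 252) (nat_lit 62937114139) (nat_lit 84) (nat_lit 7130334044) (nat_lit 6) (nat_lit 5) (nat_lit 9) (nat_lit 5) (nat_lit 7) (nat_lit 4) (nat_lit 428) (nat_lit 331) (nat_lit 129)))) (XT.nd (nat_lit 94) (nat_lit 0) (nat_lit 0) (XT.lf (nat_lit 0) (nat_lit 42543658867) (nat_lit 252) (nat_lit 52829051544) (nat_lit 84) (nat_lit 15309290375) (nat_lit 6) (nat_lit 5) (nat_lit 9) (nat_lit 5) (nat_lit 7) (nat_lit 4) (nat_lit 429) (nat_lit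 331) (nat_lit 128)) (XT.nd (nat_lit 94) (nat_lit 0) (nat_lit 0) (XT.lf (nat_lit 0) (nat_lit 47678302449) (nat_lit 252) (nat_lit 42409125905) (nat_lit 84) (nat_lit 23741339514) (nat_lit 6) (nat_lit 5) (nat_lit 9) (nat_lit 5) (nat_lit 7) (nat_lit 4) (nat_lit 430) (nat_lit 331) (nat_lit 127)) (XT.lf (nat_lit 0) (nat_lit 52971153250) (nat_lit 252) (nat_lit 31667624758) (nat_lit 84) (nat_lit 32434341015) (nat_lit 6) (nat_lit 5) (nat_lit 9) (nat_lit 5) (nat_lit 7) (nat_lit 4) (nat_lit 431) (nat_lit 331) (nat_lit 126))))) (XT.nd (nat_lit 46530) (nat_lit 0) (nat_lit 6300) (XT.nd (nat_lit 46342) (nat_lit 0) (nat_lit 6300) (XT.lf (nat_lit 0) (nat_lit 58427144762) (nat_lit 252) (nat_lit 20594535899) (nat_lit 84) (nat_lit 41396397665) (nat_lit 6) (nat_lit 5) (nat_lit 9) (nat_lit 5) (nat_lit 7) (nat_lit 4) (nat_lit 432) (nat_lit 331) (nat_lit 125)) (XT.nd (nat_lit 94) (nat_lit 0) (nat_lit 0)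 (XT.lf (nat_lit 0) (nat_lit 934661329) (nat_lit 0) (nat_lit 934661329) (nat_lit 924) (nat_lit 4527478545) (nat_lit 81) (nat_lit 5) (nat_lit 81) (nat_lit 3) (nat_lit 92) (nat_lit 3) (nat_lit 332) (nat_lit 332) (nat_lit 224)) (XT.lf (nat_lit 0) (nat_lit 4138091057) (nat_lit 924) (nat_lit 6835219549) (nat_lit 1008) (nat_lit 2005662286) (nat_lit 81) (nat_lit 5) (nat_lit 92) (nat_lit 3) (nat_lit 93) (nat_lit 5) (nat_lit 333) (nat_lit 332) (nat_lit 223)))) (XT.nd (nat_lit 188) (nat_lit 0) (nat_lit 84) (XT.nd (nat_lit 94) (nat_lit 0) (nat_lit 0) (XT.lf (nat_lit 0) (nat_lit 4556160008) (nat_lit 924) (nat_lit 2645548409) (nat_lit 1008) (nat_lit 5968282441) (nat_lit 81) (nat_lit 5) (nat_lit 92) (nat_lit 3) (nat_lit 93) (nat_lit 5) (nat_lit 334) (nat_lit 332) (nat_lit 222)) (XT.lf (nat_lit 84) (nat_lit 1701463491) (nat_lit 0) (nat_lit 3290113182) (nat_lit 1008) (nat_lit 8375309306) (nat_lit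 82) (nat_lit 5) (nat_lit 81) (nat_lit 5) (nat_lit 93) (nat_lit 5) (nat_lit 335) (nat_lit 332) (nat_lit 221))) (XT.nd (nat_lit 94) (nat_lit 0) (nat_lit 0) (XT.lf (nat_lit 0) (nat_lit 5463627216) (nat_lit 924) (nat_lit 7344633426) (nat_lit 1008) (nat_lit 760995846) (nat_lit 82) (nat_lit 5) (nat_lit 93) (nat_lit 5) (nat_lit 94) (nat_lit 5) (nat_lit 336) (nat_lit 332) (nat_lit 220)) (XT.lf (nat_lit 0) (nat_lit 5972197475) (nat_lit 924) (nat_lit 2930602493) (nat_lit 1008) (nat_lit 4874508231) (nat_lit 82) (nat_lit 5) (nat_lit 93) (nat_lit 5) (nat_lit 94) (nat_lit 5) (nat_lit 337) (nat_lit 332) (nat_lit 219)))))) (XT.nd (nat_lit 564) (nat_lit 588) (nat_lit 0) (XT.nd (nat_lit 282) (nat_lit 0) (nat_lit 84) (XT.nd (nat_lit 94) (nat_lit 0) (nat_lit 0) (XT.lf (nat_lit 84) (nat_lit 1646598266) (nat_lit 0) (nat_lit 4854859351) (nat_lit 1008) (nat_lit 7490282837) (nat_lit 83) (nat_lit 5) (nat_lit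 82) (nat_lit 5) (nat_lit 94) (nat_lit 5) (nat_lit 338) (nat_lit 332) (nat_lit 218)) (XT.nd (nat_lit 94) (nat_lit 0) (nat_lit 84) (XT.lf (nat_lit 84) (nat_lit 6421048318) (nat_lit 0) (nat_lit 645531646) (nat_lit 1008) (nat_lit 7145718118) (nat_lit 83) (nat_lit 5) (nat_lit 82) (nat_lit 5) (nat_lit 94) (nat_lit 5) (nat_lit 339) (nat_lit 332) (nat_lit 217)) (XT.lf (nat_lit 0) (nat_lit 7675111298) (nat_lit 924) (nat_lit 3139857422) (nat_lit 1008) (nat_lit 3624000321) (nat_lit 83) (nat_lit 5) (nat_lit 94) (nat_lit 5) (nat_lit 95) (nat_lit 5) (nat_lit 340) (nat_lit 332) (nat_lit 216)))) (XT.nd (nat_lit 94) (nat_lit 0) (nat_lit 0) (XT.lf (nat_lit 84) (nat_lit 1676083343) (nat_lit 0) (nat_lit 6639218869) (nat_lit 1008) (nat_lit 6357044217) (nat_lit 84) (nat_lit 5) (nat_lit 83) (nat_lit 5) (nat_lit 95) (nat_lit 5) (nat_lit 341) (nat_lit 332) (nat_lit 215)) (XT.nd (nat_lit 94) (nat_lit 0) (nat_lit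 84) (XT.lf (nat_lit 84) (nat_lit 6701138749) (nat_lit 0) (nat_lit 2296786694) (nat_lit 1008) (nat_lit 5914406878) (nat_lit 84) (nat_lit 5) (nat_lit 83) (nat_lit 5) (nat_lit 95) (nat_lit 5) (nat_lit 342) (nat_lit 332) (nat_lit 214)) (XT.lf (nat_lit 0) (nat_lit 9713490631) (nat_lit 924) (nat_lit 3306366680) (nat_lit 1008) (nat_lit 2139607024) (nat_lit 84) (nat_lit 5) (nat_lit 95) (nat_lit 5) (nat_lit 96) (nat_lit 5) (nat_lit 343) (nat_lit 332) (nat_lit 213))))) (XT.nd (nat_lit 282) (nat_lit 756) (nat_lit 0) (XT.nd (nat_lit 94) (nat_lit 0) (nat_lit 0) (XT.lf (nat_lit 84) (nat_lit 1755649234) (nat_lit 0) (nat_lit 8726944370) (nat_lit 1008) (nat_lit 4930761427) (nat_lit 85) (nat_lit 5) (nat_lit 84) (nat_lit 5) (nat_lit 96) (nat_lit 5) (nat_lit 344) (nat_lit 332) (nat_lit 212)) (XT.nd (nat_lit 94) (nat_lit 0) (nat_lit 84) (XT.lf (nat_lit 84) (nat_lit 7038006831) (nat_lit 0) (nat_lit 4262712900)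 (nat_lit 1008) (nat_lit 4373683506) (nat_lit 85) (nat_lit 5) (nat_lit 84) (nat_lit 5) (nat_lit 96) (nat_lit 5) (nat_lit 345) (nat_lit 332) (nat_lit 211)) (XT.lf (nat_lit 0) (nat_lit 12138555107) (nat_lit 924) (nat_lit 3469643340) (nat_lit 1008) (nat_lit 335586202) (nat_lit 85) (nat_lit 5) (nat_lit 96) (nat_lit 5) (nat_lit 97) (nat_lit 5) (nat_lit 346) (nat_lit 332) (nat_lit 210)))) (XT.nd (nat_lit 188) (nat_lit 840) (nat_lit 0) (XT.nd (nat_lit 94) (nat_lit 0) (nat_lit 0) (XT.lf (nat_lit 84) (nat_lit 1844198888) (nat_lit 0) (nat_lit 11211303440) (nat_lit 1008) (nat_lit 3164430760) (nat_lit 86) (nat_lit 5) (nat_lit 85) (nat_lit 5) (nat_lit 97) (nat_lit 5) (nat_lit 347) (nat_lit 332) (nat_lit 209)) (XT.lf (nat_lit 84) (nat_lit 7389752902) (nat_lit 0) (nat_lit 6638782713) (nat_lit 1008) (nat_lit 2475310632) (nat_lit 86) (nat_lit 5) (nat_lit 85) (nat_lit 5) (nat_lit 97) (nat_lit 5) (nat_lit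 348) (nat_lit 332) (nat_lit 208))) (XT.nd (nat_lit 94) (nat_lit 840) (nat_lit 0) (XT.lf (nat_lit 84) (nat_lit 13100844755) (nat_lit 0) (nat_lit 1922590157) (nat_lit 1008) (nat_lit 1773442789) (nat_lit 86) (nat_lit 5) (nat_lit 85) (nat_lit 5) (nat_lit 97) (nat_lit 5) (nat_lit 349) (nat_lit 332) (nat_lit 207)) (XT.lf (nat_lit 0) (nat_lit 1892443992) (nat_lit 924) (nat_lit 14196638590) (nat_lit 1008) (nat_lit 1008731399) (nat_lit 75) (nat_lit 5) (nat_lit 86) (nat_lit 5) (nat_lit 87) (nat_lit 5) (nat_lit 350) (nat_lit 332) (nat_lit 206))))))))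
noncomputable def xc166 : XT := (XT.nd (nat_lit 2350) (nat_lit 1848) (nat_lit 0) (XT.nd (nat_lit 1128) (nat_lit 1176) (nat_lit 0) (XT.nd (nat_lit 564) (nat_lit 840) (nat_lit 0) (XT.nd (nat_lit 282) (nat_lit 504) (nat_lit 0) (XT.nd (nat_lit 94) (nat_lit 756) (nat_lit 0) (XT.lf (nat_lit 0) (nat_lit 7706007032) (nat_lit 924) (nat_lit 9531949325) (nat_lit 1008) (nat_lit 168623215) (nat_lit 75) (nat_lit 5) (nat_lit 86) (nat_lit 5) (nat_lit 87) (nat_lit 5) (nat_lit 351) (nat_lit 332) (nat_lit 205)) (XT.nd (nat_lit 94) (nat_lit 672) (nat_lit 0) (XT.lf (nat_lit 0) (nat_lit 675726994) (nat_lit 1008) (nat_lit 4038507152) (nat_lit 84) (nat_lit 13010761304) (nat_lit 74) (nat_lit 5) (nat_lit 86) (nat_lit 5) (nat_lit 75) (nat_lit 5) (nat_lit 352) (nat_lit 332) (nat_lit 204)) (XT.lf (nat_lit 0) (nat_lit 1556091399) (nat_lit 756) (nat_lit 16227755252) (nat_lit 84) (nat_lit 269019792) (nat_lit 66)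 (nat_lit 5) (nat_lit 75) (nat_lit 5) (nat_lit 67) (nat_lit 5) (nat_lit 353) (nat_lit 332) (nat_lit 203)))) (XT.nd (nat_lit 94) (nat_lit 504) (nat_lit 0) (XT.lf (nat_lit 0) (nat_lit 2547208551) (nat_lit 756) (nat_lit 10488617872) (nat_lit 84) (nat_lit 5352537456) (nat_lit 66) (nat_lit 5) (nat_lit 75) (nat_lit 5) (nat_lit 67) (nat_lit 5) (nat_lit 354) (nat_lit 332) (nat_lit 202)) (XT.nd (nat_lit 94) (nat_lit 504) (nat_lit 0) (XT.lf (nat_lit 0) (nat_lit 3561932063) (nat_lit 756) (nat_lit 4577864491) (nat_lit 84) (nat_lit 10594734101) (nat_lit 66) (nat_lit 5) (nat_lit 75) (nat_lit 5) (nat_lit 67) (nat_lit 5) (nat_lit 355) (nat_lit 332) (nat_lit 201)) (XT.lf (nat_lit 0) (nat_lit 1541063320) (nat_lit 504) (nat_lit 3075431979) (nat_lit 588) (nat_lit 14474720220) (nat_lit 60) (nat_lit 5) (nat_lit 66) (nat_lit 5) (nat_lit 67) (nat_lit 5) (nat_lit 356) (nat_lit 332) (nat_lit 200))))) (XT.nd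 (nat_lit 282) (nat_lit 420) (nat_lit 0) (XT.nd (nat_lit 94) (nat_lit 420) (nat_lit 0) (XT.lf (nat_lit 0) (nat_lit 5766560522) (nat_lit 588) (nat_lit 11538834668) (nat_lit 84) (nat_lit 2151660693) (nat_lit 60) (nat_lit 5) (nat_lit 67) (nat_lit 5) (nat_lit 61) (nat_lit 5) (nat_lit 357) (nat_lit 332) (nat_lit 199)) (XT.nd (nat_lit 94) (nat_lit 420) (nat_lit 0) (XT.lf (nat_lit 0) (nat_lit 6977185571) (nat_lit 588) (nat_lit 5378739035) (nat_lit 84) (nat_lit 7477584579) (nat_lit 60) (nat_lit 5) (nat_lit 67) (nat_lit 5) (nat_lit 61) (nat_lit 5) (nat_lit 358) (nat_lit 332) (nat_lit 198)) (XT.lf (nat_lit 0) (nat_lit 986256082) (nat_lit 420) (nat_lit 7242517910) (nat_lit 504) (nat_lit 11992794798) (nat_lit 55) (nat_lit 5) (nat_lit 60) (nat_lit 5) (nat_lit 61) (nat_lit 5) (nat_lit 359) (nat_lit 332) (nat_lit 197)))) (XT.nd (nat_lit 94) (nat_lit 420) (nat_lit 0) (XT.lf (nat_lit 0) (nat_lit 7656718227)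 (nat_lit 420) (nat_lit 1912369298) (nat_lit 504) (nat_lit 11051064438) (nat_lit 55) (nat_lit 5) (nat_lit 60) (nat_lit 5) (nat_lit 61) (nat_lit 5) (nat_lit 360) (nat_lit 332) (nat_lit 196)) (XT.nd (nat_lit 94) (nat_lit 420) (nat_lit 0) (XT.lf (nat_lit 0) (nat_lit 10980467818) (nat_lit 504) (nat_lit 6538598504) (nat_lit 84) (nat_lit 3511150038) (nat_lit 55) (nat_lit 5) (nat_lit 61) (nat_lit 5) (nat_lit 56) (nat_lit 5) (nat_lit 361) (nat_lit 332) (nat_lit 195)) (XT.lf (nat_lit 0) (nat_lit 61333510) (nat_lit 420) (nat_lit 12388589183) (nat_lit 504) (nat_lit 9002665054) (nat_lit 50) (nat_lit 5) (nat_lit 55) (nat_lit 5) (nat_lit 56) (nat_lit 5) (nat_lit 362) (nat_lit 332) (nat_lit 194)))))) (XT.nd (nat_lit 564) (nat_lit 840) (nat_lit 0) (XT.nd (nat_lit 282) (nat_lit 336) (nat_lit 0) (XT.nd (nat_lit 94) (nat_lit 0) (nat_lit 0) (XT.lf (nat_lit 0) (nat_lit 6998786679) (nat_lit 420) (nat_lit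 7028667171) (nat_lit 504) (nat_lit 7858698374) (nat_lit 50) (nat_lit 5) (nat_lit 55) (nat_lit 5) (nat_lit 56) (nat_lit 5) (nat_lit 363) (nat_lit 332) (nat_lit 193)) (XT.nd (nat_lit 94) (nat_lit 0) (nat_lit 0) (XT.lf (nat_lit 0) (nat_lit 14145780438) (nat_lit 420) (nat_lit 1502553836) (nat_lit 504) (nat_lit 6685031765) (nat_lit 50) (nat_lit 5) (nat_lit 55) (nat_lit 5) (nat_lit 56) (nat_lit 5) (nat_lit 364) (nat_lit 332) (nat_lit 192)) (XT.lf (nat_lit 0) (nat_lit 17355688744) (nat_lit 504) (nat_lit 1327283453) (nat_lit 84) (nat_lit 4110383814) (nat_lit 50) (nat_lit 5) (nat_lit 56) (nat_lit 5) (nat_lit 51) (nat_lit 5) (nat_lit 365) (nat_lit 332) (nat_lit 191)))) (XT.nd (nat_lit 94) (nat_lit 0) (nat_lit 0) (XT.lf (nat_lit 0) (nat_lit 5842646521) (nat_lit 336) (nat_lit 13341427150) (nat_lit 420) (nat_lit 4081455312) (nat_lit 46) (nat_lit 5) (nat_lit 50) (nat_lit 5) (nat_lit 51) (nat_lit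 5) (nat_lit 366) (nat_lit 332) (nat_lit 190)) (XT.nd (nat_lit 94) (nat_lit 0) (nat_lit 0) (XT.lf (nat_lit 0) (nat_lit 13257646353) (nat_lit 336) (nat_lit 7820225569) (nat_lit 420) (nat_lit 2674230113) (nat_lit 46) (nat_lit 5) (nat_lit 50) (nat_lit 5) (nat_lit 51) (nat_lit 5) (nat_lit 367) (nat_lit 332) (nat_lit 189)) (XT.lf (nat_lit 0) (nat_lit 20897335927) (nat_lit 336) (nat_lit 2128075234) (nat_lit 420) (nat_lit 1228534103) (nat_lit 46) (nat_lit 5) (nat_lit 50) (nat_lit 5) (nat_lit 51) (nat_lit 5) (nat_lit 368) (nat_lit 332) (nat_lit 188))))) (XT.nd (nat_lit 282) (nat_lit 336) (nat_lit 0) (XT.nd (nat_lit 94) (nat_lit 0) (nat_lit 0) (XT.lf (nat_lit 0) (nat_lit 329790283) (nat_lit 504) (nat_lit 20730836936) (nat_lit 84) (nat_lit 3708402583) (nat_lit 40) (nat_lit 5) (nat_lit 46) (nat_lit 5) (nat_lit 41) (nat_lit 5) (nat_lit 369) (nat_lit 332) (nat_lit 187)) (XT.nd (nat_lit 94) (nat_lit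 0) (nat_lit 0) (XT.lf (nat_lit 0) (nat_lit 1963259040) (nat_lit 504) (nat_lit 13605566299) (nat_lit 84) (nat_lit 9729273679) (nat_lit 40) (nat_lit 5) (nat_lit 46) (nat_lit 5) (nat_lit 41) (nat_lit 5) (nat_lit 370) (nat_lit 332) (nat_lit 186)) (XT.lf (nat_lit 0) (nat_lit 3642705968) (nat_lit 504) (nat_lit 6264527888) (nat_lit 84) (nat_lit 15936508680) (nat_lit 40) (nat_lit 5) (nat_lit 46) (nat_lit 5) (nat_lit 41) (nat_lit 5) (nat_lit 371) (nat_lit 332) (nat_lit 185)))) (XT.nd (nat_lit 188) (nat_lit 0) (nat_lit 0) (XT.nd (nat_lit 94) (nat_lit 0) (nat_lit 0) (XT.lf (nat_lit 0) (nat_lit 1325833506) (nat_lit 336) (nat_lit 4057015414) (nat_lit 420) (nat_lit 21023212307) (nat_lit 36) (nat_lit 5) (nat_lit 40) (nat_lit 5) (nat_lit 41) (nat_lit 5) (nat_lit 372) (nat_lit 332) (nat_lit 184)) (XT.lf (nat_lit 0) (nat_lit 7258144920) (nat_lit 420) (nat_lit 17724811811) (nat_lit 84) (nat_lit 2000364613)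 (nat_lit 36) (nat_lit 5) (nat_lit 41) (nat_lit 5) (nat_lit 37) (nat_lit 5) (nat_lit 373) (nat_lit 332) (nat_lit 183))) (XT.nd (nat_lit 94) (nat_lit 0) (nat_lit 0) (XT.lf (nat_lit 0) (nat_lit 9228765369) (nat_lit 420) (nat_lit 10187790469) (nat_lit 84) (nat_lit 8160793991) (nat_lit 36) (nat_lit 5) (nat_lit 41) (nat_lit 5) (nat_lit 37) (nat_lit 5) (nat_lit 374) (nat_lit 332) (nat_lit 182)) (XT.lf (nat_lit 0) (nat_lit 11256300996) (nat_lit 420) (nat_lit 2421892308) (nat_lit 84) (nat_lit 14511754705) (nat_lit 36) (nat_lit 5) (nat_lit 41) (nat_lit 5) (nat_lit 37) (nat_lit 5) (nat_lit 375) (nat_lit 332) (nat_lit 181))))))) (XT.nd (nat_lit 1222) (nat_lit 672) (nat_lit 0) (XT.nd (nat_lit 564) (nat_lit 588) (nat_lit 0) (XT.nd (nat_lit 282) (nat_lit 252) (nat_lit 0) (XT.nd (nat_lit 94) (nat_lit 0) (nat_lit 0) (XT.lf (nat_lit 0) (nat_lit 5694860042) (nat_lit 336) (nat_lit 7704275351) (nat_lit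 420) (nat_lit 15420800188) (nat_lit 32) (nat_lit 5) (nat_lit 36) (nat_lit 5) (nat_lit 37) (nat_lit 5) (nat_lit 376) (nat_lit 332) (nat_lit 180)) (XT.nd (nat_lit 94) (nat_lit 0) (nat_lit 0) (XT.lf (nat_lit 0) (nat_lit 14109994016) (nat_lit 336) (nat_lit 1519710972) (nat_lit 420) (nat_lit 13839111163) (nat_lit 32) (nat_lit 5) (nat_lit 36) (nat_lit 5) (nat_lit 37) (nat_lit 5) (nat_lit 377) (nat_lit 332) (nat_lit 179)) (XT.lf (nat_lit 0) (nat_lit 17973741390) (nat_lit 420) (nat_lit 7404572292) (nat_lit 84) (nat_lit 4758147633) (nat_lit 32) (nat_lit 5) (nat_lit 37) (nat_lit 5) (nat_lit 33) (nat_lit 5) (nat_lit 378) (nat_lit 332) (nat_lit 178)))) (XT.nd (nat_lit 94) (nat_lit 0) (nat_lit 0) (XT.lf (nat_lit 0) (nat_lit 792236127) (nat_lit 252) (nat_lit 19617866290) (nat_lit 336) (nat_lit 10414114110) (nat_lit 29) (nat_lit 5) (nat_lit 32) (nat_lit 5) (nat_lit 33) (nat_lit 5) (nat_lit 379)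 (nat_lit 332) (nat_lit 177)) (XT.nd (nat_lit 94) (nat_lit 0) (nat_lit 0) (XT.lf (nat_lit 0) (nat_lit 9395721726) (nat_lit 252) (nat_lit 13599883723) (nat_lit 336) (nat_lit 8535426460) (nat_lit 29) (nat_lit 5) (nat_lit 32) (nat_lit 5) (nat_lit 33) (nat_lit 5) (nat_lit 380) (nat_lit 332) (nat_lit 176)) (XT.lf (nat_lit 0) (nat_lit 18261650662) (nat_lit 252) (nat_lit 7396045138) (nat_lit 336) (nat_lit 6602194390) (nat_lit 29) (nat_lit 5) (nat_lit 32) (nat_lit 5) (nat_lit 33) (nat_lit 5) (nat_lit 381) (nat_lit 332) (nat_lit 175))))) (XT.nd (nat_lit 282) (nat_lit 336) (nat_lit 0) (XT.nd (nat_lit 94) (nat_lit 252) (nat_lit 0) (XT.lf (nat_lit 0) (nat_lit 27398286910) (nat_lit 252) (nat_lit 1000567908) (nat_lit 336) (nat_lit 4612615925) (nat_lit 29) (nat_lit 5) (nat_lit 32) (nat_lit 5) (nat_lit 33) (nat_lit 5) (nat_lit 382) (nat_lit 332) (nat_lit 174)) (XT.nd (nat_lit 94) (nat_lit 0) (nat_lit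 0) (XT.lf (nat_lit 0) (nat_lit 3033308677) (nat_lit 252) (nat_lit 28273898053) (nat_lit 336) (nat_lit 2476614744) (nat_lit 26) (nat_lit 5) (nat_lit 29) (nat_lit 5) (nat_lit 30) (nat_lit 5) (nat_lit 383) (nat_lit 332) (nat_lit 173)) (XT.lf (nat_lit 0) (nat_lit 12052307543) (nat_lit 252) (nat_lit 22318831667) (nat_lit 336) (nat_lit 206967105) (nat_lit 26) (nat_lit 5) (nat_lit 29) (nat_lit 5) (nat_lit 30) (nat_lit 5) (nat_lit 384) (nat_lit 332) (nat_lit 172)))) (XT.nd (nat_lit 188) (nat_lit 252) (nat_lit 0) (XT.nd (nat_lit 94) (nat_lit 0) (nat_lit 0) (XT.lf (nat_lit 0) (nat_lit 2086813397) (nat_lit 336) (nat_lit 14071328305) (nat_lit 84) (nat_lit 19238335245) (nat_lit 25) (nat_lit 5) (nat_lit 29) (nat_lit 5) (nat_lit 26) (nat_lit 5) (nat_lit 385) (nat_lit 332) (nat_lit 171)) (XT.lf (nat_lit 0) (nat_lit 4444249413) (nat_lit 336) (nat_lit 5360813949) (nat_lit 84) (nat_lit 26435203434)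 (nat_lit 25) (nat_lit 5) (nat_lit 29) (nat_lit 5) (nat_lit 26) (nat_lit 5) (nat_lit 386) (nat_lit 332) (nat_lit 170))) (XT.nd (nat_lit 94) (nat_lit 0) (nat_lit 0) (XT.lf (nat_lit 0) (nat_lit 3690267206) (nat_lit 252) (nat_lit 3218048944) (nat_lit 336) (nat_lit 30200875011) (nat_lit 22) (nat_lit 5) (nat_lit 25) (nat_lit 5) (nat_lit 26) (nat_lit 5) (nat_lit 387) (nat_lit 332) (nat_lit 169)) (XT.lf (nat_lit 0) (nat_lit 9537732582) (nat_lit 336) (nat_lit 24907631040) (nat_lit 84) (nat_lit 3556947264) (nat_lit 22) (nat_lit 5) (nat_lit 26) (nat_lit 5) (nat_lit 23) (nat_lit 5) (nat_lit 388) (nat_lit 332) (nat_lit 168)))))) (XT.nd (nat_lit 564) (nat_lit 420) (nat_lit 0) (XT.nd (nat_lit 282) (nat_lit 0) (nat_lit 0) (XT.nd (nat_lit 94) (nat_lit 252) (nat_lit 0) (XT.lf (nat_lit 0) (nat_lit 12278653729) (nat_lit 336) (nat_lit 16169157941) (nat_lit 84) (nat_lit 10474391951) (nat_lit 22) (nat_lit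 5) (nat_lit 26) (nat_lit 5) (nat_lit 23) (nat_lit 5) (nat_lit 389) (nat_lit 332) (nat_lit 167)) (XT.nd (nat_lit 94) (nat_lit 252) (nat_lit 0) (XT.lf (nat_lit 0) (nat_lit 15101710972) (nat_lit 336) (nat_lit 7163436045) (nat_lit 84) (nat_lit 17605569414) (nat_lit 22) (nat_lit 5) (nat_lit 26) (nat_lit 5) (nat_lit 23) (nat_lit 5) (nat_lit 390) (nat_lit 332) (nat_lit 166)) (XT.lf (nat_lit 0) (nat_lit 2161477887) (nat_lit 252) (nat_lit 15869499938) (nat_lit 336) (nat_lit 22817090898) (nat_lit 19) (nat_lit 5) (nat_lit 22) (nat_lit 5) (nat_lit 23) (nat_lit 5) (nat_lit 391) (nat_lit 332) (nat_lit 165)))) (XT.nd (nat_lit 94) (nat_lit 0) (nat_lit 0) (XT.lf (nat_lit 0) (nat_lit 11923826710) (nat_lit 252) (nat_lit 9199297429) (nat_lit 336) (nat_lit 20730375230) (nat_lit 19) (nat_lit 5) (nat_lit 22) (nat_lit 5) (nat_lit 23) (nat_lit 5) (nat_lit 392) (nat_lit 332) (nat_lit 164)) (XT.nd (nat_lit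 94) (nat_lit 0) (nat_lit 0) (XT.lf (nat_lit 0) (nat_lit 21985415016) (nat_lit 252) (nat_lit 2323093743) (nat_lit 336) (nat_lit 18581684999) (nat_lit 19) (nat_lit 5) (nat_lit 22) (nat_lit 5) (nat_lit 23) (nat_lit 5) (nat_lit 393) (nat_lit 332) (nat_lit 163)) (XT.lf (nat_lit 0) (nat_lit 27637375353) (nat_lit 336) (nat_lit 11650771492) (nat_lit 84) (nat_lit 4669505843) (nat_lit 19) (nat_lit 5) (nat_lit 23) (nat_lit 5) (nat_lit 20) (nat_lit 5) (nat_lit 394) (nat_lit 332) (nat_lit 162))))) (XT.nd (nat_lit 282) (nat_lit 252) (nat_lit 0) (XT.nd (nat_lit 94) (nat_lit 168) (nat_lit 0) (XT.lf (nat_lit 0) (nat_lit 31090726215) (nat_lit 336) (nat_lit 2136924647) (nat_lit 84) (nat_lit 11829905396) (nat_lit 19) (nat_lit 5) (nat_lit 23) (nat_lit 5) (nat_lit 20) (nat_lit 5) (nat_lit 395) (nat_lit 332) (nat_lit 161)) (XT.nd (nat_lit 94) (nat_lit 0) (nat_lit 0) (XT.lf (nat_lit 0) (nat_lit 7826358757)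 (nat_lit 168) (nat_lit 26900014544) (nat_lit 252) (nat_lit 11462864011) (nat_lit 17) (nat_lit 5) (nat_lit 19) (nat_lit 5) (nat_lit 20) (nat_lit 5) (nat_lit 396) (nat_lit 332) (nat_lit 160)) (XT.lf (nat_lit 0) (nat_lit 18140661406) (nat_lit 168) (nat_lit 20354013905) (nat_lit 252) (nat_lit 8860719313) (nat_lit 17) (nat_lit 5) (nat_lit 19) (nat_lit 5) (nat_lit 20) (nat_lit 5) (nat_lit 397) (nat_lit 332) (nat_lit 159)))) (XT.nd (nat_lit 188) (nat_lit 252) (nat_lit 0) (XT.nd (nat_lit 94) (nat_lit 0) (nat_lit 0) (XT.lf (nat_lit 0) (nat_lit 28771657756) (nat_lit 168) (nat_lit 13605852499) (nat_lit 252) (nat_lit 6180275590) (nat_lit 17) (nat_lit 5) (nat_lit 19) (nat_lit 5) (nat_lit 20) (nat_lit 5) (nat_lit 398) (nat_lit 332) (nat_lit 158)) (XT.lf (nat_lit 0) (nat_lit 39729257010) (nat_lit 168) (nat_lit 6649240332) (nat_lit 252) (nat_lit 3419034387) (nat_lit 17) (nat_lit 5) (nat_lit 19)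 (nat_lit 5) (nat_lit 20) (nat_lit 5) (nat_lit 399) (nat_lit 332) (nat_lit 157))) (XT.nd (nat_lit 94) (nat_lit 252) (nat_lit 0) (XT.lf (nat_lit 0) (nat_lit 50506547260) (nat_lit 252) (nat_lit 57296400) (nat_lit 84) (nat_lit 511783567) (nat_lit 17) (nat_lit 5) (nat_lit 20) (nat_lit 5) (nat_lit 18) (nat_lit 5) (nat_lit 400) (nat_lit 332) (nat_lit 156)) (XT.lf (nat_lit 0) (nat_lit 2492318461) (nat_lit 252) (nat_lit 42010587956) (nat_lit 84) (nat_lit 7884423757) (nat_lit 14) (nat_lit 5) (nat_lit 17) (nat_lit 5) (nat_lit 15) (nat_lit 5) (nat_lit 401) (nat_lit 332) (nat_lit 155))))))))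
noncomputable def xc167 : XT := (XT.nd (nat_lit 2444) (nat_lit 0) (nat_lit 0) (XT.nd (nat_lit 1222) (nat_lit 336) (nat_lit 0) (XT.nd (nat_lit 564) (nat_lit 168) (nat_lit 0) (XT.nd (nat_lit 282) (nat_lit 168) (nat_lit 0) (XT.nd (nat_lit 94) (nat_lit 0) (nat_lit 0) (XT.lf (nat_lit 0) (nat_lit 5635315117) (nat_lit 252) (nat_lit 32612929318) (nat_lit 84) (nat_lit 15491327537) (nat_lit 14) (nat_lit 5) (nat_lit 17) (nat_lit 5) (nat_lit 15) (nat_lit 5) (nat_lit 402) (nat_lit 332) (nat_lit 154)) (XT.nd (nat_lit 94) (nat_lit 0) (nat_lit 0) (XT.lf (nat_lit 0) (nat_lit 8873719287) (nat_lit 252) (nat_lit 22926732948) (nat_lit 84) (nat_lit 23333353985) (nat_lit 14) (nat_lit 5) (nat_lit 17) (nat_lit 5) (nat_lit 15) (nat_lit 5) (nat_lit 403) (nat_lit 332) (nat_lit 153)) (XT.lf (nat_lit 0) (nat_lit 12210549503) (nat_lit 252) (nat_lit 12942970298) (nat_lit 84) (nat_lit 31417812693) (nat_lit 14) (nat_lit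 5) (nat_lit 17) (nat_lit 5) (nat_lit 15) (nat_lit 5) (nat_lit 404) (nat_lit 332) (nat_lit 152)))) (XT.nd (nat_lit 94) (nat_lit 168) (nat_lit 0) (XT.lf (nat_lit 0) (nat_lit 15648916041) (nat_lit 252) (nat_lit 2652335455) (nat_lit 84) (nat_lit 39752239223) (nat_lit 14) (nat_lit 5) (nat_lit 17) (nat_lit 5) (nat_lit 15) (nat_lit 5) (nat_lit 405) (nat_lit 332) (nat_lit 151)) (XT.nd (nat_lit 94) (nat_lit 0) (nat_lit 0) (XT.lf (nat_lit 0) (nat_lit 8118329783) (nat_lit 168) (nat_lit 11154228871) (nat_lit 252) (nat_lit 40306607186) (nat_lit 12) (nat_lit 5) (nat_lit 14) (nat_lit 5) (nat_lit 15) (nat_lit 5) (nat_lit 406) (nat_lit 332) (nat_lit 150)) (XT.lf (nat_lit 0) (nat_lit 19276593996) (nat_lit 168) (nat_lit 3757807584) (nat_lit 252) (nat_lit 38116942422) (nat_lit 12) (nat_lit 5) (nat_lit 14) (nat_lit 5) (nat_lit 15) (nat_lit 5) (nat_lit 407) (nat_lit 332) (nat_lit 149))))) (XT.nd (nat_lit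 282) (nat_lit 168) (nat_lit 0) (XT.nd (nat_lit 94) (nat_lit 0) (nat_lit 0) (XT.lf (nat_lit 0) (nat_lit 26949462054) (nat_lit 252) (nat_lit 32032365988) (nat_lit 84) (nat_lit 3789305762) (nat_lit 12) (nat_lit 5) (nat_lit 15) (nat_lit 5) (nat_lit 13) (nat_lit 5) (nat_lit 408) (nat_lit 332) (nat_lit 148)) (XT.nd (nat_lit 94) (nat_lit 0) (nat_lit 0) (XT.lf (nat_lit 0) (nat_lit 31022606487) (nat_lit 252) (nat_lit 21925727033) (nat_lit 84) (nat_lit 11491673808) (nat_lit 12) (nat_lit 5) (nat_lit 15) (nat_lit 5) (nat_lit 13) (nat_lit 5) (nat_lit 409) (nat_lit 332) (nat_lit 147)) (XT.lf (nat_lit 0) (nat_lit 35220353560) (nat_lit 252) (nat_lit 11508134781) (nat_lit 84) (nat_lit 19432187414) (nat_lit 12) (nat_lit 5) (nat_lit 15) (nat_lit 5) (nat_lit 13) (nat_lit 5) (nat_lit 410) (nat_lit 332) (nat_lit 146)))) (XT.nd (nat_lit 188) (nat_lit 0) (nat_lit 0) (XT.nd (nat_lit 94) (nat_lit 168) (nat_lit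 0) (XT.lf (nat_lit 0) (nat_lit 39546616013) (nat_lit 252) (nat_lit 769878942) (nat_lit 84) (nat_lit 27618247972) (nat_lit 12) (nat_lit 5) (nat_lit 15) (nat_lit 5) (nat_lit 13) (nat_lit 5) (nat_lit 411) (nat_lit 332) (nat_lit 145)) (XT.lf (nat_lit 0) (nat_lit 10510819243) (nat_lit 168) (nat_lit 33598875759) (nat_lit 252) (nat_lit 25650935132) (nat_lit 10) (nat_lit 5) (nat_lit 12) (nat_lit 5) (nat_lit 13) (nat_lit 5) (nat_lit 412) (nat_lit 332) (nat_lit 144))) (XT.nd (nat_lit 94) (nat_lit 0) (nat_lit 0) (XT.lf (nat_lit 0) (nat_lit 22155349343) (nat_lit 168) (nat_lit 26665375190) (nat_lit 252) (nat_lit 22822201458) (nat_lit 10) (nat_lit 5) (nat_lit 12) (nat_lit 5) (nat_lit 13) (nat_lit 5) (nat_lit 413) (nat_lit 332) (nat_lit 143)) (XT.lf (nat_lit 0) (nat_lit 34158734988) (nat_lit 168) (nat_lit 19517566457) (nat_lit 252) (nat_lit 19907325175) (nat_lit 10) (nat_lit 5) (nat_lit 12) (nat_lit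 5) (nat_lit 13) (nat_lit 5) (nat_lit 414) (nat_lit 332) (nat_lit 142)))))) (XT.nd (nat_lit 564) (nat_lit 168) (nat_lit 0) (XT.nd (nat_lit 282) (nat_lit 168) (nat_lit 0) (XT.nd (nat_lit 94) (nat_lit 0) (nat_lit 0) (XT.lf (nat_lit 0) (nat_lit 46532164590) (nat_lit 168) (nat_lit 12148787052) (nat_lit 252) (nat_lit 16903589313) (nat_lit 10) (nat_lit 5) (nat_lit 12) (nat_lit 5) (nat_lit 13) (nat_lit 5) (nat_lit 415) (nat_lit 332) (nat_lit 141)) (XT.nd (nat_lit 94) (nat_lit 0) (nat_lit 0) (XT.lf (nat_lit 0) (nat_lit 59287171482) (nat_lit 168) (nat_lit 4552168502) (nat_lit 252) (nat_lit 13808194076) (nat_lit 10) (nat_lit 5) (nat_lit 12) (nat_lit 5) (nat_lit 13) (nat_lit 5) (nat_lit 416) (nat_lit 332) (nat_lit 140)) (XT.lf (nat_lit 0) (nat_lit 69188806386) (nat_lit 252) (nat_lit 7371415950) (nat_lit 84) (nat_lit 3213298039) (nat_lit 10) (nat_lit 5) (nat_lit 13) (nat_lit 5) (nat_lit 11) (nat_lit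 4) (nat_lit 417) (nat_lit 332) (nat_lit 139)))) (XT.nd (nat_lit 94) (nat_lit 84) (nat_lit 0) (XT.lf (nat_lit 0) (nat_lit 3990099127) (nat_lit 84) (nat_lit 70798819107) (nat_lit 168) (nat_lit 7173871295) (nat_lit 9) (nat_lit 5) (nat_lit 10) (nat_lit 5) (nat_lit 11) (nat_lit 4) (nat_lit 418) (nat_lit 332) (nat_lit 138)) (XT.nd (nat_lit 94) (nat_lit 84) (nat_lit 0) (XT.lf (nat_lit 0) (nat_lit 15858188255) (nat_lit 84) (nat_lit 64780080552) (nat_lit 168) (nat_lit 3579318765) (nat_lit 9) (nat_lit 5) (nat_lit 10) (nat_lit 5) (nat_lit 11) (nat_lit 4) (nat_lit 419) (nat_lit 332) (nat_lit 137)) (XT.lf (nat_lit 0) (nat_lit 122826078) (nat_lit 168) (nat_lit 58451230911) (nat_lit 84) (nat_lit 27968234175) (nat_lit 8) (nat_lit 5) (nat_lit 10) (nat_lit 5) (nat_lit 9) (nat_lit 5) (nat_lit 420) (nat_lit 332) (nat_lit 136))))) (XT.nd (nat_lit 282) (nat_lit 168) (nat_lit 0) (XT.nd (nat_lit 94) (nat_lit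 0) (nat_lit 0) (XT.lf (nat_lit 0) (nat_lit 3864138435) (nat_lit 168) (nat_lit 48274338992) (nat_lit 84) (nat_lit 36799492677) (nat_lit 8) (nat_lit 5) (nat_lit 10) (nat_lit 5) (nat_lit 9) (nat_lit 5) (nat_lit 421) (nat_lit 332) (nat_lit 135)) (XT.nd (nat_lit 94) (nat_lit 0) (nat_lit 0) (XT.lf (nat_lit 0) (nat_lit 7720220894) (nat_lit 168) (nat_lit 37783730347) (nat_lit 84) (nat_lit 45904006901) (nat_lit 8) (nat_lit 5) (nat_lit 10) (nat_lit 5) (nat_lit 9) (nat_lit 5) (nat_lit 422) (nat_lit 332) (nat_lit 134)) (XT.lf (nat_lit 0) (nat_lit 11694667730) (nat_lit 168) (nat_lit 26969626629) (nat_lit 84) (nat_lit 55290263206) (nat_lit 8) (nat_lit 5) (nat_lit 10) (nat_lit 5) (nat_lit 9) (nat_lit 5) (nat_lit 423) (nat_lit 332) (nat_lit 133)))) (XT.nd (nat_lit 188) (nat_lit 168) (nat_lit 0) (XT.nd (nat_lit 94) (nat_lit 0) (nat_lit 0) (XT.lf (nat_lit 0) (nat_lit 15791183543) (nat_lit 168) (nat_lit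 15821947961) (nat_lit 84) (nat_lit 64967010566) (nat_lit 8) (nat_lit 5) (nat_lit 10) (nat_lit 5) (nat_lit 9) (nat_lit 5) (nat_lit 424) (nat_lit 332) (nat_lit 132)) (XT.lf (nat_lit 0) (nat_lit 20013586715) (nat_lit 168) (nat_lit 4330303539) (nat_lit 84) (nat_lit 74943268726) (nat_lit 8) (nat_lit 5) (nat_lit 10) (nat_lit 5) (nat_lit 9) (nat_lit 5) (nat_lit 425) (nat_lit 332) (nat_lit 131))) (XT.nd (nat_lit 94) (nat_lit 0) (nat_lit 0) (XT.lf (nat_lit 0) (nat_lit 7670562799) (nat_lit 168) (nat_lit 16771343101) (nat_lit 252) (nat_lit 77633866733) (nat_lit 6) (nat_lit 5) (nat_lit 8) (nat_lit 5) (nat_lit 9) (nat_lit 5) (nat_lit 426) (nat_lit 332) (nat_lit 130)) (XT.lf (nat_lit 0) (nat_lit 20133708180) (nat_lit 168) (nat_lit 8917939730) (nat_lit 252) (nat_lit 75897821648) (nat_lit 6) (nat_lit 5) (nat_lit 8) (nat_lit 5) (nat_lit 9) (nat_lit 5) (nat_lit 427) (nat_lit 332) (nat_lit 129)))))))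 (XT.nd (nat_lit 47564) (nat_lit 0) (nat_lit 5712) (XT.nd (nat_lit 46906) (nat_lit 0) (nat_lit 6300) (XT.nd (nat_lit 282) (nat_lit 0) (nat_lit 0) (XT.nd (nat_lit 94) (nat_lit 0) (nat_lit 0) (XT.lf (nat_lit 0) (nat_lit 32981709639) (nat_lit 168) (nat_lit 821559434) (nat_lit 252) (nat_lit 74109018322) (nat_lit 6) (nat_lit 5) (nat_lit 8) (nat_lit 5) (nat_lit 9) (nat_lit 5) (nat_lit 428) (nat_lit 332) (nat_lit 128)) (XT.nd (nat_lit 94) (nat_lit 0) (nat_lit 0) (XT.lf (nat_lit 0) (nat_lit 38775850745) (nat_lit 252) (nat_lit 64815097291) (nat_lit 84) (nat_lit 7373725540) (nat_lit 6) (nat_lit 5) (nat_lit 9) (nat_lit 5) (nat_lit 7) (nat_lit 4) (nat_lit 429) (nat_lit 332) (nat_lit 127)) (XT.lf (nat_lit 0) (nat_lit 43910018339) (nat_lit 252) (nat_lit 54395881739) (nat_lit 84) (nat_lit 15805557465) (nat_lit 6) (nat_lit 5) (nat_lit 9) (nat_lit 5) (nat_lit 7) (nat_lit 4) (nat_lit 430) (nat_lit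 332) (nat_lit 126)))) (XT.nd (nat_lit 94) (nat_lit 0) (nat_lit 0) (XT.lf (nat_lit 0) (nat_lit 49202407464) (nat_lit 252) (nat_lit 43655069329) (nat_lit 84) (nat_lit 24498348283) (nat_lit 6) (nat_lit 5) (nat_lit 9) (nat_lit 5) (nat_lit 7) (nat_lit 4) (nat_lit 431) (nat_lit 332) (nat_lit 125)) (XT.nd (nat_lit 46436) (nat_lit 0) (nat_lit 6300) (XT.lf (nat_lit 0) (nat_lit 54657951182) (nat_lit 252) (nat_lit 32582648498) (nat_lit 84) (nat_lit 33460200585) (nat_lit 6) (nat_lit 5) (nat_lit 9) (nat_lit 5) (nat_lit 7) (nat_lit 4) (nat_lit 432) (nat_lit 332) (nat_lit 124)) (XT.lf (nat_lit 0) (nat_lit 1122638305) (nat_lit 0) (nat_lit 1122638305) (nat_lit 924) (nat_lit 4337646574) (nat_lit 81) (nat_lit 5) (nat_lit 81) (nat_lit 3) (nat_lit 92) (nat_lit 3) (nat_lit 333) (nat_lit 333) (nat_lit 222))))) (XT.nd (nat_lit 282) (nat_lit 0) (nat_lit 84) (XT.nd (nat_lit 94) (nat_lit 0) (nat_lit 0) (XT.lf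 (nat_lit 0) (nat_lit 4880198505) (nat_lit 924) (nat_lit 6711983022) (nat_lit 1008) (nat_lit 1765609050) (nat_lit 81) (nat_lit 5) (nat_lit 92) (nat_lit 3) (nat_lit 93) (nat_lit 5) (nat_lit 334) (nat_lit 333) (nat_lit 221)) (XT.nd (nat_lit 94) (nat_lit 0) (nat_lit 0) (XT.lf (nat_lit 0) (nat_lit 5292771119) (nat_lit 924) (nat_lit 2402508681) (nat_lit 1008) (nat_lit 5860157813) (nat_lit 81) (nat_lit 5) (nat_lit 92) (nat_lit 3) (nat_lit 93) (nat_lit 5) (nat_lit 335) (nat_lit 333) (nat_lit 220)) (XT.lf (nat_lit 84) (nat_lit 2075969732) (nat_lit 0) (nat_lit 3651006349) (nat_lit 1008) (nat_lit 8032047690) (nat_lit 82) (nat_lit 5) (nat_lit 81) (nat_lit 5) (nat_lit 93) (nat_lit 5) (nat_lit 336) (nat_lit 333) (nat_lit 219)))) (XT.nd (nat_lit 188) (nat_lit 0) (nat_lit 0) (XT.nd (nat_lit 94) (nat_lit 0) (nat_lit 0) (XT.lf (nat_lit 0) (nat_lit 6193709858) (nat_lit 924) (nat_lit 7236172676) (nat_lit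 1008) (nat_lit 538531036) (nat_lit 82) (nat_lit 5) (nat_lit 93) (nat_lit 5) (nat_lit 94) (nat_lit 5) (nat_lit 337) (nat_lit 333) (nat_lit 218)) (XT.lf (nat_lit 0) (nat_lit 6701186419) (nat_lit 924) (nat_lit 2695413938) (nat_lit 1008) (nat_lit 4786960682) (nat_lit 82) (nat_lit 5) (nat_lit 93) (nat_lit 5) (nat_lit 94) (nat_lit 5) (nat_lit 338) (nat_lit 333) (nat_lit 217))) (XT.nd (nat_lit 94) (nat_lit 0) (nat_lit 0) (XT.lf (nat_lit 84) (nat_lit 2020379211) (nat_lit 0) (nat_lit 5213323551) (nat_lit 1008) (nat_lit 7171465410) (nat_lit 83) (nat_lit 5) (nat_lit 82) (nat_lit 5) (nat_lit 94) (nat_lit 5) (nat_lit 339) (nat_lit 333) (nat_lit 216)) (XT.lf (nat_lit 84) (nat_lit 6933133209) (nat_lit 0) (nat_lit 867253661) (nat_lit 1008) (nat_lit 6832787081) (nat_lit 83) (nat_lit 5) (nat_lit 82) (nat_lit 5) (nat_lit 94) (nat_lit 5) (nat_lit 340) (nat_lit 333) (nat_lit 215)))))) (XT.nd (nat_lit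 564) (nat_lit 756) (nat_lit 0) (XT.nd (nat_lit 282) (nat_lit 0) (nat_lit 84) (XT.nd (nat_lit 94) (nat_lit 0) (nat_lit 0) (XT.lf (nat_lit 0) (nat_lit 8410364611) (nat_lit 924) (nat_lit 2912519134) (nat_lit 1008) (nat_lit 3544640630) (nat_lit 83) (nat_lit 5) (nat_lit 94) (nat_lit 5) (nat_lit 95) (nat_lit 5) (nat_lit 341) (nat_lit 333) (nat_lit 214)) (XT.nd (nat_lit 94) (nat_lit 0) (nat_lit 0) (XT.lf (nat_lit 84) (nat_lit 2049428763) (nat_lit 0) (nat_lit 7009207366) (nat_lit 1008) (nat_lit 6049974374) (nat_lit 84) (nat_lit 5) (nat_lit 83) (nat_lit 5) (nat_lit 95) (nat_lit 5) (nat_lit 342) (nat_lit 333) (nat_lit 213)) (XT.lf (nat_lit 84) (nat_lit 7220597461) (nat_lit 0) (nat_lit 2527223466) (nat_lit 1008) (nat_lit 5608773652) (nat_lit 84) (nat_lit 5) (nat_lit 83) (nat_lit 5) (nat_lit 95) (nat_lit 5) (nat_lit 343) (nat_lit 333) (nat_lit 212)))) (XT.nd (nat_lit 94) (nat_lit 0) (nat_lit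 0) (XT.lf (nat_lit 0) (nat_lit 10469875718) (nat_lit 924) (nat_lit 3087503136) (nat_lit 1008) (nat_lit 2054598153) (nat_lit 84) (nat_lit 5) (nat_lit 95) (nat_lit 5) (nat_lit 96) (nat_lit 5) (nat_lit 344) (nat_lit 333) (nat_lit 211)) (XT.nd (nat_lit 94) (nat_lit 0) (nat_lit 0) (XT.lf (nat_lit 84) (nat_lit 2128181780) (nat_lit 0) (nat_lit 9124105851) (nat_lit 1008) (nat_lit 4621876963) (nat_lit 85) (nat_lit 5) (nat_lit 84) (nat_lit 5) (nat_lit 96) (nat_lit 5) (nat_lit 345) (nat_lit 333) (nat_lit 210)) (XT.lf (nat_lit 84) (nat_lit 7564727642) (nat_lit 0) (nat_lit 4517675822) (nat_lit 1008) (nat_lit 4061413118) (nat_lit 85) (nat_lit 5) (nat_lit 84) (nat_lit 5) (nat_lit 96) (nat_lit 5) (nat_lit 346) (nat_lit 333) (nat_lit 209))))) (XT.nd (nat_lit 282) (nat_lit 924) (nat_lit 0) (XT.nd (nat_lit 94) (nat_lit 0) (nat_lit 0) (XT.lf (nat_lit 0) (nat_lit 12932059862) (nat_lit 924) (nat_lit 3260757926)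 (nat_lit 1008) (nat_lit 229263578) (nat_lit 85) (nat_lit 5) (nat_lit 96) (nat_lit 5) (nat_lit 97) (nat_lit 5) (nat_lit 347) (nat_lit 333) (nat_lit 208)) (XT.nd (nat_lit 94) (nat_lit 0) (nat_lit 0) (XT.lf (nat_lit 84) (nat_lit 2214609695) (nat_lit 0) (nat_lit 11653385525) (nat_lit 1008) (nat_lit 2839178759) (nat_lit 86) (nat_lit 5) (nat_lit 85) (nat_lit 5) (nat_lit 97) (nat_lit 5) (nat_lit 348) (nat_lit 333) (nat_lit 207)) (XT.lf (nat_lit 84) (nat_lit 7922657397) (nat_lit 0) (nat_lit 6936274286) (nat_lit 1008) (nat_lit 2141425132) (nat_lit 86) (nat_lit 5) (nat_lit 85) (nat_lit 5) (nat_lit 97) (nat_lit 5) (nat_lit 349) (nat_lit 333) (nat_lit 206)))) (XT.nd (nat_lit 188) (nat_lit 84) (nat_lit 0) (XT.nd (nat_lit 94) (nat_lit 840) (nat_lit 0) (XT.lf (nat_lit 84) (nat_lit 13801657805) (nat_lit 0) (nat_lit 2071122857) (nat_lit 1008) (nat_lit 1430145869) (nat_lit 86) (nat_lit 5) (nat_lit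 85) (nat_lit 5) (nat_lit 97) (nat_lit 5) (nat_lit 350) (nat_lit 333) (nat_lit 205)) (XT.lf (nat_lit 0) (nat_lit 2258192485) (nat_lit 924) (nat_lit 14703926906) (nat_lit 1008) (nat_lit 651445162) (nat_lit 75) (nat_lit 5) (nat_lit 86) (nat_lit 5) (nat_lit 87) (nat_lit 5) (nat_lit 351) (nat_lit 333) (nat_lit 204))) (XT.nd (nat_lit 94) (nat_lit 0) (nat_lit 0) (XT.lf (nat_lit 0) (nat_lit 198932819) (nat_lit 1008) (nat_lit 9691602667) (nat_lit 84) (nat_lit 8041733377) (nat_lit 74) (nat_lit 5) (nat_lit 86) (nat_lit 5) (nat_lit 75) (nat_lit 5) (nat_lit 352) (nat_lit 333) (nat_lit 203)) (XT.lf (nat_lit 0) (nat_lit 1054851693) (nat_lit 1008) (nat_lit 3864997668) (nat_lit 84) (nat_lit 13341072801) (nat_lit 74) (nat_lit 5) (nat_lit 86) (nat_lit 5) (nat_lit 75) (nat_lit 5) (nat_lit 353) (nat_lit 333) (nat_lit 202))))))))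
noncomputable def xc168 : XT := (XT.nd (nat_lit 2350) (nat_lit 1512) (nat_lit 0) (XT.nd (nat_lit 1128) (nat_lit 1512) (nat_lit 0) (XT.nd (nat_lit 564) (nat_lit 840) (nat_lit 0) (XT.nd (nat_lit 282) (nat_lit 504) (nat_lit 0) (XT.nd (nat_lit 94) (nat_lit 0) (nat_lit 0) (XT.lf (nat_lit 0) (nat_lit 1954128684) (nat_lit 756) (nat_lit 16421362600) (nat_lit 84) (nat_lit 223799116) (nat_lit 66) (nat_lit 5) (nat_lit 75) (nat_lit 5) (nat_lit 67) (nat_lit 5) (nat_lit 354) (nat_lit 333) (nat_lit 201)) (XT.nd (nat_lit 94) (nat_lit 0) (nat_lit 0) (XT.lf (nat_lit 0) (nat_lit 2965452766) (nat_lit 756) (nat_lit 10513616563) (nat_lit 84) (nat_lit 5466516273) (nat_lit 66) (nat_lit 5) (nat_lit 75) (nat_lit 5) (nat_lit 67) (nat_lit 5) (nat_lit 355) (nat_lit 333) (nat_lit 200)) (XT.lf (nat_lit 0) (nat_lit 4001431247) (nat_lit 756) (nat_lit 4428654661) (nat_lit 84) (nat_lit 10872783036) (nat_lit 66) (nat_lit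 5) (nat_lit 75) (nat_lit 5) (nat_lit 67) (nat_lit 5) (nat_lit 356) (nat_lit 333) (nat_lit 199)))) (XT.nd (nat_lit 94) (nat_lit 0) (nat_lit 0) (XT.lf (nat_lit 0) (nat_lit 1877012547) (nat_lit 504) (nat_lit 3204637419) (nat_lit 588) (nat_lit 14589246261) (nat_lit 60) (nat_lit 5) (nat_lit 66) (nat_lit 5) (nat_lit 67) (nat_lit 5) (nat_lit 357) (nat_lit 333) (nat_lit 198)) (XT.nd (nat_lit 94) (nat_lit 0) (nat_lit 0) (XT.lf (nat_lit 0) (nat_lit 6257358183) (nat_lit 588) (nat_lit 11604919530) (nat_lit 84) (nat_lit 2186175265) (nat_lit 60) (nat_lit 5) (nat_lit 67) (nat_lit 5) (nat_lit 61) (nat_lit 5) (nat_lit 358) (nat_lit 333) (nat_lit 197)) (XT.lf (nat_lit 0) (nat_lit 7496130394) (nat_lit 588) (nat_lit 5262629302) (nat_lit 84) (nat_lit 7678170584) (nat_lit 60) (nat_lit 5) (nat_lit 67) (nat_lit 5) (nat_lit 61) (nat_lit 5) (nat_lit 359) (nat_lit 333) (nat_lit 196))))) (XT.nd (nat_lit 282)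 (nat_lit 420) (nat_lit 0) (XT.nd (nat_lit 94) (nat_lit 0) (nat_lit 0) (XT.lf (nat_lit 0) (nat_lit 1296817055) (nat_lit 420) (nat_lit 7483378398) (nat_lit 504) (nat_lit 12057081485) (nat_lit 55) (nat_lit 5) (nat_lit 60) (nat_lit 5) (nat_lit 61) (nat_lit 5) (nat_lit 360) (nat_lit 333) (nat_lit 195)) (XT.nd (nat_lit 94) (nat_lit 0) (nat_lit 0) (XT.lf (nat_lit 0) (nat_lit 8165644905) (nat_lit 420) (nat_lit 1987503796) (nat_lit 504) (nat_lit 11095403059) (nat_lit 55) (nat_lit 5) (nat_lit 60) (nat_lit 5) (nat_lit 61) (nat_lit 5) (nat_lit 361) (nat_lit 333) (nat_lit 194)) (XT.lf (nat_lit 0) (nat_lit 11599487169) (nat_lit 504) (nat_lit 6467240188) (nat_lit 84) (nat_lit 3604931007) (nat_lit 55) (nat_lit 5) (nat_lit 61) (nat_lit 5) (nat_lit 56) (nat_lit 5) (nat_lit 362) (nat_lit 333) (nat_lit 193)))) (XT.nd (nat_lit 94) (nat_lit 0) (nat_lit 0) (XT.lf (nat_lit 0) (nat_lit 334515159) (nat_lit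 420) (nat_lit 12774293457) (nat_lit 504) (nat_lit 8998546777) (nat_lit 50) (nat_lit 5) (nat_lit 55) (nat_lit 5) (nat_lit 56) (nat_lit 5) (nat_lit 363) (nat_lit 333) (nat_lit 192)) (XT.nd (nat_lit 94) (nat_lit 0) (nat_lit 0) (XT.lf (nat_lit 0) (nat_lit 7478872548) (nat_lit 420) (nat_lit 7248164010) (nat_lit 504) (nat_lit 7827632385) (nat_lit 50) (nat_lit 5) (nat_lit 55) (nat_lit 5) (nat_lit 56) (nat_lit 5) (nat_lit 364) (nat_lit 333) (nat_lit 191)) (XT.lf (nat_lit 0) (nat_lit 14839511545) (nat_lit 420) (nat_lit 1550692808) (nat_lit 504) (nat_lit 6625841329) (nat_lit 50) (nat_lit 5) (nat_lit 55) (nat_lit 5) (nat_lit 56) (nat_lit 5) (nat_lit 365) (nat_lit 333) (nat_lit 190)))))) (XT.nd (nat_lit 564) (nat_lit 672) (nat_lit 0) (XT.nd (nat_lit 282) (nat_lit 504) (nat_lit 0) (XT.nd (nat_lit 94) (nat_lit 336) (nat_lit 0) (XT.lf (nat_lit 0) (nat_lit 18142751218) (nat_lit 504) (nat_lit 1111511596)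 (nat_lit 84) (nat_lit 4236323291) (nat_lit 50) (nat_lit 5) (nat_lit 56) (nat_lit 5) (nat_lit 51) (nat_lit 5) (nat_lit 366) (nat_lit 333) (nat_lit 189)) (XT.nd (nat_lit 94) (nat_lit 0) (nat_lit 0) (XT.lf (nat_lit 0) (nat_lit 6278085147) (nat_lit 336) (nat_lit 13744765791) (nat_lit 420) (nat_lit 3954748848) (nat_lit 46) (nat_lit 5) (nat_lit 50) (nat_lit 5) (nat_lit 51) (nat_lit 5) (nat_lit 367) (nat_lit 333) (nat_lit 188)) (XT.lf (nat_lit 0) (nat_lit 13915303209) (nat_lit 336) (nat_lit 8052715025) (nat_lit 420) (nat_lit 2511513807) (nat_lit 46) (nat_lit 5) (nat_lit 50) (nat_lit 5) (nat_lit 51) (nat_lit 5) (nat_lit 368) (nat_lit 333) (nat_lit 187)))) (XT.nd (nat_lit 94) (nat_lit 504) (nat_lit 0) (XT.lf (nat_lit 0) (nat_lit 21784406318) (nat_lit 336) (nat_lit 2184406830) (nat_lit 420) (nat_lit 1028386421) (nat_lit 46) (nat_lit 5) (nat_lit 50) (nat_lit 5) (nat_lit 51) (nat_lit 5) (nat_lit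 369) (nat_lit 333) (nat_lit 186)) (XT.nd (nat_lit 94) (nat_lit 0) (nat_lit 0) (XT.lf (nat_lit 0) (nat_lit 568979004) (nat_lit 504) (nat_lit 21122106918) (nat_lit 84) (nat_lit 3837274768) (nat_lit 40) (nat_lit 5) (nat_lit 46) (nat_lit 5) (nat_lit 41) (nat_lit 5) (nat_lit 370) (nat_lit 333) (nat_lit 185)) (XT.lf (nat_lit 0) (nat_lit 2246200791) (nat_lit 504) (nat_lit 13783511539) (nat_lit 84) (nat_lit 10044374572) (nat_lit 40) (nat_lit 5) (nat_lit 46) (nat_lit 5) (nat_lit 41) (nat_lit 5) (nat_lit 371) (nat_lit 333) (nat_lit 184))))) (XT.nd (nat_lit 282) (nat_lit 336) (nat_lit 0) (XT.nd (nat_lit 94) (nat_lit 336) (nat_lit 0) (XT.lf (nat_lit 0) (nat_lit 3971033074) (nat_lit 504) (nat_lit 6222232311) (nat_lit 84) (nat_lit 16443628140) (nat_lit 40) (nat_lit 5) (nat_lit 46) (nat_lit 5) (nat_lit 41) (nat_lit 5) (nat_lit 372) (nat_lit 333) (nat_lit 183)) (XT.nd (nat_lit 94) (nat_lit 0) (nat_lit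 0) (XT.lf (nat_lit 0) (nat_lit 1601035977) (nat_lit 336) (nat_lit 4159930076) (nat_lit 420) (nat_lit 21455846744) (nat_lit 36) (nat_lit 5) (nat_lit 40) (nat_lit 5) (nat_lit 41) (nat_lit 5) (nat_lit 373) (nat_lit 333) (nat_lit 182)) (XT.lf (nat_lit 0) (nat_lit 7688264308) (nat_lit 420) (nat_lit 18039837469) (nat_lit 84) (nat_lit 2084095007) (nat_lit 36) (nat_lit 5) (nat_lit 41) (nat_lit 5) (nat_lit 37) (nat_lit 5) (nat_lit 374) (nat_lit 333) (nat_lit 181)))) (XT.nd (nat_lit 188) (nat_lit 336) (nat_lit 0) (XT.nd (nat_lit 94) (nat_lit 0) (nat_lit 0) (XT.lf (nat_lit 0) (nat_lit 9713806557) (nat_lit 420) (nat_lit 10276217689) (nat_lit 84) (nat_lit 8434844649) (nat_lit 36) (nat_lit 5) (nat_lit 41) (nat_lit 5) (nat_lit 37) (nat_lit 5) (nat_lit 375) (nat_lit 333) (nat_lit 180)) (XT.lf (nat_lit 0) (nat_lit 11798213798) (nat_lit 420) (nat_lit 2276413952) (nat_lit 84) (nat_lit 14982051732)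 (nat_lit 36) (nat_lit 5) (nat_lit 41) (nat_lit 5) (nat_lit 37) (nat_lit 5) (nat_lit 376) (nat_lit 333) (nat_lit 179))) (XT.nd (nat_lit 94) (nat_lit 0) (nat_lit 0) (XT.lf (nat_lit 0) (nat_lit 6089724779) (nat_lit 336) (nat_lit 7914114958) (nat_lit 420) (nat_lit 15702504985) (nat_lit 32) (nat_lit 5) (nat_lit 36) (nat_lit 5) (nat_lit 37) (nat_lit 5) (nat_lit 377) (nat_lit 333) (nat_lit 178)) (XT.lf (nat_lit 0) (nat_lit 14759163361) (nat_lit 336) (nat_lit 1538700839) (nat_lit 420) (nat_lit 14077687131) (nat_lit 32) (nat_lit 5) (nat_lit 36) (nat_lit 5) (nat_lit 37) (nat_lit 5) (nat_lit 378) (nat_lit 333) (nat_lit 177))))))) (XT.nd (nat_lit 1222) (nat_lit 672) (nat_lit 0) (XT.nd (nat_lit 564) (nat_lit 336) (nat_lit 0) (XT.nd (nat_lit 282) (nat_lit 252) (nat_lit 0) (XT.nd (nat_lit 94) (nat_lit 252) (nat_lit 0) (XT.lf (nat_lit 0) (nat_lit 18709314690) (nat_lit 420) (nat_lit 7422398528) (nat_lit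 84) (nat_lit 4932376294) (nat_lit 32) (nat_lit 5) (nat_lit 37) (nat_lit 5) (nat_lit 33) (nat_lit 5) (nat_lit 379) (nat_lit 333) (nat_lit 176)) (XT.nd (nat_lit 94) (nat_lit 0) (nat_lit 0) (XT.lf (nat_lit 0) (nat_lit 1026367522) (nat_lit 252) (nat_lit 20191550637) (nat_lit 336) (nat_lit 10555381041) (nat_lit 29) (nat_lit 5) (nat_lit 32) (nat_lit 5) (nat_lit 33) (nat_lit 5) (nat_lit 380) (nat_lit 333) (nat_lit 175)) (XT.lf (nat_lit 0) (nat_lit 9890259784) (nat_lit 252) (nat_lit 13988047035) (nat_lit 336) (nat_lit 8623913520) (nat_lit 29) (nat_lit 5) (nat_lit 32) (nat_lit 5) (nat_lit 33) (nat_lit 5) (nat_lit 381) (nat_lit 333) (nat_lit 174)))) (XT.nd (nat_lit 94) (nat_lit 252) (nat_lit 0) (XT.lf (nat_lit 0) (nat_lit 19024920595) (nat_lit 252) (nat_lit 7592894716) (nat_lit 336) (nat_lit 6636046548) (nat_lit 29) (nat_lit 5) (nat_lit 32) (nat_lit 5) (nat_lit 33) (nat_lit 5) (nat_lit 382)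 (nat_lit 333) (nat_lit 173)) (XT.nd (nat_lit 94) (nat_lit 252) (nat_lit 0) (XT.lf (nat_lit 0) (nat_lit 28438864417) (nat_lit 252) (nat_lit 1000132728) (nat_lit 336) (nat_lit 4589927225) (nat_lit 29) (nat_lit 5) (nat_lit 32) (nat_lit 5) (nat_lit 33) (nat_lit 5) (nat_lit 383) (nat_lit 333) (nat_lit 172)) (XT.lf (nat_lit 0) (nat_lit 3322169178) (nat_lit 252) (nat_lit 29112769958) (nat_lit 336) (nat_lit 2390387002) (nat_lit 26) (nat_lit 5) (nat_lit 29) (nat_lit 5) (nat_lit 30) (nat_lit 5) (nat_lit 384) (nat_lit 333) (nat_lit 171))))) (XT.nd (nat_lit 282) (nat_lit 252) (nat_lit 0) (XT.nd (nat_lit 94) (nat_lit 84) (nat_lit 0) (XT.lf (nat_lit 0) (nat_lit 12614898943) (nat_lit 252) (nat_lit 22974227635) (nat_lit 336) (nat_lit 55281438) (nat_lit 26) (nat_lit 5) (nat_lit 29) (nat_lit 5) (nat_lit 30) (nat_lit 5) (nat_lit 385) (nat_lit 333) (nat_lit 170)) (XT.nd (nat_lit 94) (nat_lit 0) (nat_lit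 0) (XT.lf (nat_lit 0) (nat_lit 2301762859) (nat_lit 336) (nat_lit 14320322147) (nat_lit 84) (nat_lit 19866184944) (nat_lit 25) (nat_lit 5) (nat_lit 29) (nat_lit 5) (nat_lit 26) (nat_lit 5) (nat_lit 386) (nat_lit 333) (nat_lit 169)) (XT.lf (nat_lit 0) (nat_lit 4727761441) (nat_lit 336) (nat_lit 5345411077) (nat_lit 84) (nat_lit 27285210071) (nat_lit 25) (nat_lit 5) (nat_lit 29) (nat_lit 5) (nat_lit 26) (nat_lit 5) (nat_lit 387) (nat_lit 333) (nat_lit 168)))) (XT.nd (nat_lit 188) (nat_lit 0) (nat_lit 0) (XT.nd (nat_lit 94) (nat_lit 0) (nat_lit 0) (XT.lf (nat_lit 0) (nat_lit 3984415177) (nat_lit 252) (nat_lit 3281200106) (nat_lit 336) (nat_lit 30988733387) (nat_lit 22) (nat_lit 5) (nat_lit 25) (nat_lit 5) (nat_lit 26) (nat_lit 5) (nat_lit 388) (nat_lit 333) (nat_lit 167)) (XT.lf (nat_lit 0) (nat_lit 9972591906) (nat_lit 336) (nat_lit 25500704609) (nat_lit 84) (nat_lit 3702004849) (nat_lit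 22) (nat_lit 5) (nat_lit 26) (nat_lit 5) (nat_lit 23) (nat_lit 5) (nat_lit 389) (nat_lit 333) (nat_lit 166))) (XT.nd (nat_lit 94) (nat_lit 0) (nat_lit 0) (XT.lf (nat_lit 0) (nat_lit 12794296469) (nat_lit 336) (nat_lit 16496722892) (nat_lit 84) (nat_lit 10832844193) (nat_lit 22) (nat_lit 5) (nat_lit 26) (nat_lit 5) (nat_lit 23) (nat_lit 5) (nat_lit 390) (nat_lit 333) (nat_lit 165)) (XT.lf (nat_lit 0) (nat_lit 15700809187) (nat_lit 336) (nat_lit 7217045777) (nat_lit 84) (nat_lit 18184073483) (nat_lit 22) (nat_lit 5) (nat_lit 26) (nat_lit 5) (nat_lit 23) (nat_lit 5) (nat_lit 391) (nat_lit 333) (nat_lit 164)))))) (XT.nd (nat_lit 564) (nat_lit 252) (nat_lit 0) (XT.nd (nat_lit 282) (nat_lit 168) (nat_lit 0) (XT.nd (nat_lit 94) (nat_lit 0) (nat_lit 0) (XT.lf (nat_lit 0) (nat_lit 2395235014) (nat_lit 252) (nat_lit 16323365246) (nat_lit 336) (nat_lit 23391070850) (nat_lit 19) (nat_lit 5)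 (nat_lit 22) (nat_lit 5) (nat_lit 23) (nat_lit 5) (nat_lit 392) (nat_lit 333) (nat_lit 163)) (XT.nd (nat_lit 94) (nat_lit 0) (nat_lit 0) (XT.lf (nat_lit 0) (nat_lit 12455202789) (nat_lit 252) (nat_lit 9447531721) (nat_lit 336) (nat_lit 21243676547) (nat_lit 19) (nat_lit 5) (nat_lit 22) (nat_lit 5) (nat_lit 23) (nat_lit 5) (nat_lit 393) (nat_lit 333) (nat_lit 162)) (XT.lf (nat_lit 0) (nat_lit 22823837228) (nat_lit 252) (nat_lit 2359276547) (nat_lit 336) (nat_lit 19032265909) (nat_lit 19) (nat_lit 5) (nat_lit 22) (nat_lit 5) (nat_lit 23) (nat_lit 5) (nat_lit 394) (nat_lit 333) (nat_lit 161)))) (XT.nd (nat_lit 94) (nat_lit 168) (nat_lit 0) (XT.lf (nat_lit 0) (nat_lit 28611880558) (nat_lit 336) (nat_lit 11855855245) (nat_lit 84) (nat_lit 4848315950) (nat_lit 19) (nat_lit 5) (nat_lit 23) (nat_lit 5) (nat_lit 20) (nat_lit 5) (nat_lit 395) (nat_lit 333) (nat_lit 160)) (XT.nd (nat_lit 94)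 (nat_lit 168) (nat_lit 0) (XT.lf (nat_lit 0) (nat_lit 32168744906) (nat_lit 336) (nat_lit 2051772452) (nat_lit 84) (nat_lit 12229663915) (nat_lit 19) (nat_lit 5) (nat_lit 23) (nat_lit 5) (nat_lit 20) (nat_lit 5) (nat_lit 396) (nat_lit 333) (nat_lit 159)) (XT.lf (nat_lit 0) (nat_lit 8218839981) (nat_lit 168) (nat_lit 27696309801) (nat_lit 252) (nat_lit 11701873628) (nat_lit 17) (nat_lit 5) (nat_lit 19) (nat_lit 5) (nat_lit 20) (nat_lit 5) (nat_lit 397) (nat_lit 333) (nat_lit 158))))) (XT.nd (nat_lit 282) (nat_lit 252) (nat_lit 0) (XT.nd (nat_lit 94) (nat_lit 0) (nat_lit 0) (XT.lf (nat_lit 0) (nat_lit 18848379914) (nat_lit 168) (nat_lit 20948513852) (nat_lit 252) (nat_lit 9022560518) (nat_lit 17) (nat_lit 5) (nat_lit 19) (nat_lit 5) (nat_lit 20) (nat_lit 5) (nat_lit 398) (nat_lit 333) (nat_lit 157)) (XT.nd (nat_lit 94) (nat_lit 0) (nat_lit 0) (XT.lf (nat_lit 0) (nat_lit 29804566542)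 (nat_lit 168) (nat_lit 13992256153) (nat_lit 252) (nat_lit 6262415934) (nat_lit 17) (nat_lit 5) (nat_lit 19) (nat_lit 5) (nat_lit 20) (nat_lit 5) (nat_lit 399) (nat_lit 333) (nat_lit 156)) (XT.lf (nat_lit 0) (nat_lit 41097612179) (nat_lit 168) (nat_lit 6821052744) (nat_lit 252) (nat_lit 3418867131) (nat_lit 17) (nat_lit 5) (nat_lit 19) (nat_lit 5) (nat_lit 20) (nat_lit 5) (nat_lit 400) (nat_lit 333) (nat_lit 155)))) (XT.nd (nat_lit 188) (nat_lit 0) (nat_lit 0) (XT.nd (nat_lit 94) (nat_lit 84) (nat_lit 0) (XT.lf (nat_lit 0) (nat_lit 78425017) (nat_lit 168) (nat_lit 52094287541) (nat_lit 252) (nat_lit 482613549) (nat_lit 15) (nat_lit 5) (nat_lit 17) (nat_lit 5) (nat_lit 18) (nat_lit 5) (nat_lit 401) (nat_lit 333) (nat_lit 154)) (XT.lf (nat_lit 0) (nat_lit 2669109460) (nat_lit 252) (nat_lit 43175828419) (nat_lit 84) (nat_lit 8162814362) (nat_lit 14) (nat_lit 5) (nat_lit 17) (nat_lit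 5) (nat_lit 15) (nat_lit 5) (nat_lit 402) (nat_lit 333) (nat_lit 153))) (XT.nd (nat_lit 94) (nat_lit 0) (nat_lit 0) (XT.lf (nat_lit 0) (nat_lit 5906546381) (nat_lit 252) (nat_lit 33490964303) (nat_lit 84) (nat_lit 16004510648) (nat_lit 14) (nat_lit 5) (nat_lit 17) (nat_lit 5) (nat_lit 15) (nat_lit 5) (nat_lit 403) (nat_lit 333) (nat_lit 152)) (XT.lf (nat_lit 0) (nat_lit 9242438431) (nat_lit 252) (nat_lit 23508493848) (nat_lit 84) (nat_lit 24088649121) (nat_lit 14) (nat_lit 5) (nat_lit 17) (nat_lit 5) (nat_lit 15) (nat_lit 5) (nat_lit 404) (nat_lit 333) (nat_lit 151))))))))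
noncomputable def xc169 : XT := (XT.nd (nat_lit 49068) (nat_lit 0) (nat_lit 4536) (XT.nd (nat_lit 1128) (nat_lit 336) (nat_lit 0) (XT.nd (nat_lit 564) (nat_lit 168) (nat_lit 0) (XT.nd (nat_lit 282) (nat_lit 0) (nat_lit 0) (XT.nd (nat_lit 94) (nat_lit 168) (nat_lit 0) (XT.lf (nat_lit 0) (nat_lit 12679895011) (nat_lit 252) (nat_lit 13219112347) (nat_lit 84) (nat_lit 32422765044) (nat_lit 14) (nat_lit 5) (nat_lit 17) (nat_lit 5) (nat_lit 15) (nat_lit 5) (nat_lit 405) (nat_lit 333) (nat_lit 150)) (XT.nd (nat_lit 94) (nat_lit 168) (nat_lit 0) (XT.lf (nat_lit 0) (nat_lit 16222120191) (nat_lit 252) (nat_lit 2613229018) (nat_lit 84) (nat_lit 41014626686) (nat_lit 14) (nat_lit 5) (nat_lit 17) (nat_lit 5) (nat_lit 15) (nat_lit 5) (nat_lit 406) (nat_lit 333) (nat_lit 149)) (XT.lf (nat_lit 0) (nat_lit 8490098497) (nat_lit 168) (nat_lit 11466540027) (nat_lit 252) (nat_lit 41466366894) (nat_lit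 12) (nat_lit 5) (nat_lit 14) (nat_lit 5) (nat_lit 15) (nat_lit 5) (nat_lit 407) (nat_lit 333) (nat_lit 148)))) (XT.nd (nat_lit 94) (nat_lit 0) (nat_lit 0) (XT.lf (nat_lit 0) (nat_lit 19990657732) (nat_lit 168) (nat_lit 3841836051) (nat_lit 252) (nat_lit 39211520969) (nat_lit 12) (nat_lit 5) (nat_lit 14) (nat_lit 5) (nat_lit 15) (nat_lit 5) (nat_lit 408) (nat_lit 333) (nat_lit 147)) (XT.nd (nat_lit 94) (nat_lit 0) (nat_lit 0) (XT.lf (nat_lit 0) (nat_lit 27866707013) (nat_lit 252) (nat_lit 32909764877) (nat_lit 84) (nat_lit 3937627296) (nat_lit 12) (nat_lit 5) (nat_lit 15) (nat_lit 5) (nat_lit 13) (nat_lit 5) (nat_lit 409) (nat_lit 333) (nat_lit 146)) (XT.lf (nat_lit 0) (nat_lit 32063659020) (nat_lit 252) (nat_lit 22493296098) (nat_lit 84) (nat_lit 11877841065) (nat_lit 12) (nat_lit 5) (nat_lit 15) (nat_lit 5) (nat_lit 13) (nat_lit 5) (nat_lit 410) (nat_lit 333) (nat_lit 145))))) (XT.nd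 (nat_lit 282) (nat_lit 0) (nat_lit 0) (XT.nd (nat_lit 94) (nat_lit 168) (nat_lit 0) (XT.lf (nat_lit 0) (nat_lit 36389150312) (nat_lit 252) (nat_lit 11756129953) (nat_lit 84) (nat_lit 20063610801) (nat_lit 12) (nat_lit 5) (nat_lit 15) (nat_lit 5) (nat_lit 13) (nat_lit 5) (nat_lit 411) (nat_lit 333) (nat_lit 144)) (XT.nd (nat_lit 94) (nat_lit 168) (nat_lit 0) (XT.lf (nat_lit 0) (nat_lit 40847212702) (nat_lit 252) (nat_lit 688258278) (nat_lit 84) (nat_lit 28502566498) (nat_lit 12) (nat_lit 5) (nat_lit 15) (nat_lit 5) (nat_lit 13) (nat_lit 5) (nat_lit 412) (nat_lit 333) (nat_lit 143)) (XT.lf (nat_lit 0) (nat_lit 10941073592) (nat_lit 168) (nat_lit 34609464781) (nat_lit 252) (nat_lit 26370037360) (nat_lit 10) (nat_lit 5) (nat_lit 12) (nat_lit 5) (nat_lit 13) (nat_lit 5) (nat_lit 413) (nat_lit 333) (nat_lit 142)))) (XT.nd (nat_lit 94) (nat_lit 0) (nat_lit 0) (XT.lf (nat_lit 0) (nat_lit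 22943444467) (nat_lit 168) (nat_lit 27461957081) (nat_lit 252) (nat_lit 23455900410) (nat_lit 10) (nat_lit 5) (nat_lit 12) (nat_lit 5) (nat_lit 13) (nat_lit 5) (nat_lit 414) (nat_lit 333) (nat_lit 141)) (XT.nd (nat_lit 94) (nat_lit 0) (nat_lit 0) (XT.lf (nat_lit 0) (nat_lit 35315889811) (nat_lit 168) (nat_lit 20093469659) (nat_lit 252) (nat_lit 20452881651) (nat_lit 10) (nat_lit 5) (nat_lit 12) (nat_lit 5) (nat_lit 13) (nat_lit 5) (nat_lit 415) (nat_lit 333) (nat_lit 140)) (XT.lf (nat_lit 0) (nat_lit 48069942040) (nat_lit 168) (nat_lit 12497134312) (nat_lit 252) (nat_lit 17358181955) (nat_lit 10) (nat_lit 5) (nat_lit 12) (nat_lit 5) (nat_lit 13) (nat_lit 5) (nat_lit 416) (nat_lit 333) (nat_lit 139)))))) (XT.nd (nat_lit 564) (nat_lit 168) (nat_lit 0) (XT.nd (nat_lit 282) (nat_lit 84) (nat_lit 0) (XT.nd (nat_lit 94) (nat_lit 84) (nat_lit 0) (XT.lf (nat_lit 0) (nat_lit 61217489266)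 (nat_lit 168) (nat_lit 4665870460) (nat_lit 252) (nat_lit 14168916738) (nat_lit 10) (nat_lit 5) (nat_lit 12) (nat_lit 5) (nat_lit 13) (nat_lit 5) (nat_lit 417) (nat_lit 333) (nat_lit 138)) (XT.nd (nat_lit 94) (nat_lit 84) (nat_lit 0) (XT.lf (nat_lit 0) (nat_lit 71396968954) (nat_lit 252) (nat_lit 7508295842) (nat_lit 84) (nat_lit 3338965476) (nat_lit 10) (nat_lit 5) (nat_lit 13) (nat_lit 5) (nat_lit 11) (nat_lit 4) (nat_lit 418) (nat_lit 333) (nat_lit 137)) (XT.lf (nat_lit 0) (nat_lit 4204498491) (nat_lit 84) (nat_lit 72965182010) (nat_lit 168) (nat_lit 7331726604) (nat_lit 9) (nat_lit 5) (nat_lit 10) (nat_lit 5) (nat_lit 11) (nat_lit 4) (nat_lit 419) (nat_lit 333) (nat_lit 136)))) (XT.nd (nat_lit 94) (nat_lit 84) (nat_lit 0) (XT.lf (nat_lit 0) (nat_lit 16437771035) (nat_lit 84) (nat_lit 66760716503) (nat_lit 168) (nat_lit 3627683368) (nat_lit 9) (nat_lit 5) (nat_lit 10) (nat_lit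 5) (nat_lit 11) (nat_lit 4) (nat_lit 420) (nat_lit 333) (nat_lit 135)) (XT.nd (nat_lit 94) (nat_lit 0) (nat_lit 0) (XT.lf (nat_lit 0) (nat_lit 186122671) (nat_lit 168) (nat_lit 60176390861) (nat_lit 84) (nat_lit 28860473109) (nat_lit 8) (nat_lit 5) (nat_lit 10) (nat_lit 5) (nat_lit 9) (nat_lit 5) (nat_lit 421) (nat_lit 333) (nat_lit 134)) (XT.lf (nat_lit 0) (nat_lit 4041627002) (nat_lit 168) (nat_lit 49686626035) (nat_lit 84) (nat_lit 37964742202) (nat_lit 8) (nat_lit 5) (nat_lit 10) (nat_lit 5) (nat_lit 9) (nat_lit 5) (nat_lit 422) (nat_lit 333) (nat_lit 133))))) (XT.nd (nat_lit 282) (nat_lit 168) (nat_lit 0) (XT.nd (nat_lit 94) (nat_lit 0) (nat_lit 0) (XT.lf (nat_lit 0) (nat_lit 8015513092) (nat_lit 168) (nat_lit 38873340764) (nat_lit 84) (nat_lit 47350760748) (nat_lit 8) (nat_lit 5) (nat_lit 10) (nat_lit 5) (nat_lit 9) (nat_lit 5) (nat_lit 423) (nat_lit 333) (nat_lit 132)) (XT.nd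 (nat_lit 94) (nat_lit 0) (nat_lit 0) (XT.lf (nat_lit 0) (nat_lit 12111485020) (nat_lit 168) (nat_lit 27726455933) (nat_lit 84) (nat_lit 57027277498) (nat_lit 8) (nat_lit 5) (nat_lit 10) (nat_lit 5) (nat_lit 9) (nat_lit 5) (nat_lit 424) (nat_lit 333) (nat_lit 131)) (XT.lf (nat_lit 0) (nat_lit 16333360660) (nat_lit 168) (nat_lit 16235581480) (nat_lit 84) (nat_lit 67003311981) (nat_lit 8) (nat_lit 5) (nat_lit 10) (nat_lit 5) (nat_lit 9) (nat_lit 5) (nat_lit 425) (nat_lit 333) (nat_lit 130)))) (XT.nd (nat_lit 188) (nat_lit 0) (nat_lit 0) (XT.nd (nat_lit 94) (nat_lit 168) (nat_lit 0) (XT.lf (nat_lit 0) (nat_lit 20685075243) (nat_lit 168) (nat_lit 4390006704) (nat_lit 84) (nat_lit 77288162904) (nat_lit 8) (nat_lit 5) (nat_lit 10) (nat_lit 5) (nat_lit 9) (nat_lit 5) (nat_lit 426) (nat_lit 333) (nat_lit 129)) (XT.lf (nat_lit 0) (nat_lit 7982131878) (nat_lit 168) (nat_lit 17267736880) (nat_lit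 252) (nat_lit 79988468685) (nat_lit 6) (nat_lit 5) (nat_lit 8) (nat_lit 5) (nat_lit 9) (nat_lit 5) (nat_lit 427) (nat_lit 333) (nat_lit 128))) (XT.nd (nat_lit 94) (nat_lit 0) (nat_lit 0) (XT.lf (nat_lit 0) (nat_lit 20829416308) (nat_lit 168) (nat_lit 9171585136) (nat_lit 252) (nat_lit 78200171174) (nat_lit 6) (nat_lit 5) (nat_lit 8) (nat_lit 5) (nat_lit 9) (nat_lit 5) (nat_lit 428) (nat_lit 333) (nat_lit 127)) (XT.lf (nat_lit 0) (nat_lit 34073554057) (nat_lit 168) (nat_lit 824902922) (nat_lit 252) (nat_lit 76357432861) (nat_lit 6) (nat_lit 5) (nat_lit 8) (nat_lit 5) (nat_lit 9) (nat_lit 5) (nat_lit 429) (nat_lit 333) (nat_lit 126))))))) (XT.nd (nat_lit 1222) (nat_lit 1764) (nat_lit 0) (XT.nd (nat_lit 564) (nat_lit 0) (nat_lit 84) (XT.nd (nat_lit 282) (nat_lit 0) (nat_lit 0) (XT.nd (nat_lit 94) (nat_lit 0) (nat_lit 0) (XT.lf (nat_lit 0) (nat_lit 1307024579) (nat_lit 0) (nat_lit 1307024579)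 (nat_lit 924) (nat_lit 4161487163) (nat_lit 81) (nat_lit 5) (nat_lit 81) (nat_lit 3) (nat_lit 92) (nat_lit 3) (nat_lit 334) (nat_lit 334) (nat_lit 220)) (XT.nd (nat_lit 94) (nat_lit 0) (nat_lit 0) (XT.lf (nat_lit 0) (nat_lit 5608953282) (nat_lit 924) (nat_lit 6604776388) (nat_lit 1008) (nat_lit 1536015691) (nat_lit 81) (nat_lit 5) (nat_lit 92) (nat_lit 3) (nat_lit 93) (nat_lit 5) (nat_lit 335) (nat_lit 334) (nat_lit 219)) (XT.lf (nat_lit 0) (nat_lit 6016952381) (nat_lit 924) (nat_lit 2171188091) (nat_lit 1008) (nat_lit 5766044587) (nat_lit 81) (nat_lit 5) (nat_lit 92) (nat_lit 3) (nat_lit 93) (nat_lit 5) (nat_lit 336) (nat_lit 334) (nat_lit 218)))) (XT.nd (nat_lit 94) (nat_lit 0) (nat_lit 84) (XT.lf (nat_lit 84) (nat_lit 2443027218) (nat_lit 0) (nat_lit 4007752135) (nat_lit 1008) (nat_lit 7713855538) (nat_lit 82) (nat_lit 5) (nat_lit 81) (nat_lit 5) (nat_lit 93) (nat_lit 5) (nat_lit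 337) (nat_lit 334) (nat_lit 217)) (XT.nd (nat_lit 94) (nat_lit 0) (nat_lit 0) (XT.lf (nat_lit 0) (nat_lit 6913213237) (nat_lit 924) (nat_lit 7144260050) (nat_lit 1008) (nat_lit 323744116) (nat_lit 82) (nat_lit 5) (nat_lit 93) (nat_lit 5) (nat_lit 94) (nat_lit 5) (nat_lit 338) (nat_lit 334) (nat_lit 216)) (XT.lf (nat_lit 0) (nat_lit 7420560806) (nat_lit 924) (nat_lit 2472246281) (nat_lit 1008) (nat_lit 4710835238) (nat_lit 82) (nat_lit 5) (nat_lit 93) (nat_lit 5) (nat_lit 94) (nat_lit 5) (nat_lit 339) (nat_lit 334) (nat_lit 215))))) (XT.nd (nat_lit 282) (nat_lit 0) (nat_lit 84) (XT.nd (nat_lit 94) (nat_lit 0) (nat_lit 0) (XT.lf (nat_lit 84) (nat_lit 2386631135) (nat_lit 0) (nat_lit 5570582104) (nat_lit 1008) (nat_lit 6875402275) (nat_lit 83) (nat_lit 5) (nat_lit 82) (nat_lit 5) (nat_lit 94) (nat_lit 5) (nat_lit 340) (nat_lit 334) (nat_lit 214)) (XT.nd (nat_lit 94) (nat_lit 0) (nat_lit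 84) (XT.lf (nat_lit 84) (nat_lit 7442551288) (nat_lit 0) (nat_lit 1083901398) (nat_lit 1008) (nat_lit 6541811471) (nat_lit 83) (nat_lit 5) (nat_lit 82) (nat_lit 5) (nat_lit 94) (nat_lit 5) (nat_lit 341) (nat_lit 334) (nat_lit 213)) (XT.lf (nat_lit 0) (nat_lit 9138953375) (nat_lit 924) (nat_lit 2697364348) (nat_lit 1008) (nat_lit 3474175727) (nat_lit 83) (nat_lit 5) (nat_lit 94) (nat_lit 5) (nat_lit 95) (nat_lit 5) (nat_lit 342) (nat_lit 334) (nat_lit 212)))) (XT.nd (nat_lit 188) (nat_lit 0) (nat_lit 84) (XT.nd (nat_lit 94) (nat_lit 0) (nat_lit 0) (XT.lf (nat_lit 84) (nat_lit 2415311598) (nat_lit 0) (nat_lit 7380941276) (nat_lit 1008) (nat_lit 5763246335) (nat_lit 84) (nat_lit 5) (nat_lit 83) (nat_lit 5) (nat_lit 95) (nat_lit 5) (nat_lit 343) (nat_lit 334) (nat_lit 211)) (XT.lf (nat_lit 84) (nat_lit 7737695481) (nat_lit 0) (nat_lit 2755371934) (nat_lit 1008) (nat_lit 5322628910) (nat_lit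 84) (nat_lit 5) (nat_lit 83) (nat_lit 5) (nat_lit 95) (nat_lit 5) (nat_lit 344) (nat_lit 334) (nat_lit 210))) (XT.nd (nat_lit 94) (nat_lit 0) (nat_lit 0) (XT.lf (nat_lit 0) (nat_lit 11222742506) (nat_lit 924) (nat_lit 2880889579) (nat_lit 1008) (nat_lit 1975917939) (nat_lit 84) (nat_lit 5) (nat_lit 95) (nat_lit 5) (nat_lit 96) (nat_lit 5) (nat_lit 345) (nat_lit 334) (nat_lit 209)) (XT.lf (nat_lit 84) (nat_lit 2493420788) (nat_lit 0) (nat_lit 9526079051) (nat_lit 1008) (nat_lit 4330766617) (nat_lit 85) (nat_lit 5) (nat_lit 84) (nat_lit 5) (nat_lit 96) (nat_lit 5) (nat_lit 346) (nat_lit 334) (nat_lit 208)))))) (XT.nd (nat_lit 564) (nat_lit 1260) (nat_lit 0) (XT.nd (nat_lit 282) (nat_lit 756) (nat_lit 0) (XT.nd (nat_lit 94) (nat_lit 0) (nat_lit 84) (XT.lf (nat_lit 84) (nat_lit 8089501292) (nat_lit 0) (nat_lit 4773267825) (nat_lit 1008) (nat_lit 3765989542) (nat_lit 85) (nat_lit 5) (nat_lit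 84) (nat_lit 5) (nat_lit 96) (nat_lit 5) (nat_lit 347) (nat_lit 334) (nat_lit 207)) (XT.nd (nat_lit 94) (nat_lit 0) (nat_lit 0) (XT.lf (nat_lit 0) (nat_lit 13725451230) (nat_lit 924) (nat_lit 3064140606) (nat_lit 1008) (nat_lit 126558821) (nat_lit 85) (nat_lit 5) (nat_lit 96) (nat_lit 5) (nat_lit 97) (nat_lit 5) (nat_lit 348) (nat_lit 334) (nat_lit 206)) (XT.lf (nat_lit 84) (nat_lit 2577949459) (nat_lit 0) (nat_lit 12103572881) (nat_lit 1008) (nat_lit 2528919654) (nat_lit 86) (nat_lit 5) (nat_lit 85) (nat_lit 5) (nat_lit 97) (nat_lit 5) (nat_lit 349) (nat_lit 334) (nat_lit 205)))) (XT.nd (nat_lit 94) (nat_lit 840) (nat_lit 0) (XT.lf (nat_lit 84) (nat_lit 8454086026) (nat_lit 0) (nat_lit 7237557184) (nat_lit 1008) (nat_lit 1821510914) (nat_lit 86) (nat_lit 5) (nat_lit 85) (nat_lit 5) (nat_lit 97) (nat_lit 5) (nat_lit 350) (nat_lit 334) (nat_lit 204)) (XT.nd (nat_lit 94) (nat_lit 840)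 (nat_lit 0) (XT.lf (nat_lit 84) (nat_lit 14506741253) (nat_lit 0) (nat_lit 2218992452) (nat_lit 1008) (nat_lit 1099797174) (nat_lit 86) (nat_lit 5) (nat_lit 85) (nat_lit 5) (nat_lit 97) (nat_lit 5) (nat_lit 351) (nat_lit 334) (nat_lit 203)) (XT.lf (nat_lit 0) (nat_lit 2617090145) (nat_lit 924) (nat_lit 15222961232) (nat_lit 1008) (nat_lit 306097943) (nat_lit 75) (nat_lit 5) (nat_lit 86) (nat_lit 5) (nat_lit 87) (nat_lit 5) (nat_lit 352) (nat_lit 334) (nat_lit 202))))) (XT.nd (nat_lit 282) (nat_lit 504) (nat_lit 0) (XT.nd (nat_lit 94) (nat_lit 672) (nat_lit 0) (XT.lf (nat_lit 0) (nat_lit 552507265) (nat_lit 1008) (nat_lit 9702320521) (nat_lit 84) (nat_lit 8220200629) (nat_lit 74) (nat_lit 5) (nat_lit 86) (nat_lit 5) (nat_lit 75) (nat_lit 5) (nat_lit 353) (nat_lit 334) (nat_lit 201)) (XT.nd (nat_lit 94) (nat_lit 672) (nat_lit 0) (XT.lf (nat_lit 0) (nat_lit 1424513810) (nat_lit 1008)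 (nat_lit 3703802093) (nat_lit 84) (nat_lit 13685949177) (nat_lit 74) (nat_lit 5) (nat_lit 86) (nat_lit 5) (nat_lit 75) (nat_lit 5) (nat_lit 354) (nat_lit 334) (nat_lit 200)) (XT.lf (nat_lit 0) (nat_lit 2343785964) (nat_lit 756) (nat_lit 16639301211) (nat_lit 84) (nat_lit 180349067) (nat_lit 66) (nat_lit 5) (nat_lit 75) (nat_lit 5) (nat_lit 67) (nat_lit 5) (nat_lit 355) (nat_lit 334) (nat_lit 199)))) (XT.nd (nat_lit 188) (nat_lit 504) (nat_lit 0) (XT.nd (nat_lit 94) (nat_lit 0) (nat_lit 0) (XT.lf (nat_lit 0) (nat_lit 3376566370) (nat_lit 756) (nat_lit 10557168522) (nat_lit 84) (nat_lit 5587105512) (nat_lit 66) (nat_lit 5) (nat_lit 75) (nat_lit 5) (nat_lit 67) (nat_lit 5) (nat_lit 356) (nat_lit 334) (nat_lit 198)) (XT.lf (nat_lit 0) (nat_lit 4435062977) (nat_lit 756) (nat_lit 4292063077) (nat_lit 84) (nat_lit 11162436046) (nat_lit 66) (nat_lit 5) (nat_lit 75) (nat_lit 5) (nat_lit 67)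 (nat_lit 5) (nat_lit 357) (nat_lit 334) (nat_lit 197))) (XT.nd (nat_lit 94) (nat_lit 0) (nat_lit 0) (XT.lf (nat_lit 0) (nat_lit 2206307027) (nat_lit 504) (nat_lit 3335842225) (nat_lit 588) (nat_lit 14727117272) (nat_lit 60) (nat_lit 5) (nat_lit 66) (nat_lit 5) (nat_lit 67) (nat_lit 5) (nat_lit 358) (nat_lit 334) (nat_lit 196)) (XT.lf (nat_lit 0) (nat_lit 6744888247) (nat_lit 588) (nat_lit 11690326116) (nat_lit 84) (nat_lit 2223666275) (nat_lit 60) (nat_lit 5) (nat_lit 67) (nat_lit 5) (nat_lit 61) (nat_lit 5) (nat_lit 359) (nat_lit 334) (nat_lit 195))))))))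
noncomputable def xc170 : XT := (XT.nd (nat_lit 2350) (nat_lit 1428) (nat_lit 0) (XT.nd (nat_lit 1128) (nat_lit 924) (nat_lit 0) (XT.nd (nat_lit 564) (nat_lit 840) (nat_lit 0) (XT.nd (nat_lit 282) (nat_lit 420) (nat_lit 0) (XT.nd (nat_lit 94) (nat_lit 420) (nat_lit 0) (XT.lf (nat_lit 0) (nat_lit 8013235907) (nat_lit 588) (nat_lit 5159673895) (nat_lit 84) (nat_lit 7886823917) (nat_lit 60) (nat_lit 5) (nat_lit 67) (nat_lit 5) (nat_lit 61) (nat_lit 5) (nat_lit 360) (nat_lit 334) (nat_lit 194)) (XT.nd (nat_lit 94) (nat_lit 0) (nat_lit 0) (XT.lf (nat_lit 0) (nat_lit 1600421306) (nat_lit 420) (nat_lit 7730737570) (nat_lit 504) (nat_lit 12141574215) (nat_lit 55) (nat_lit 5) (nat_lit 60) (nat_lit 5) (nat_lit 61) (nat_lit 5) (nat_lit 361) (nat_lit 334) (nat_lit 193)) (XT.lf (nat_lit 0) (nat_lit 8674262848) (nat_lit 420) (nat_lit 2064028578) (nat_lit 504) (nat_lit 11158781703) (nat_lit 55)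 (nat_lit 5) (nat_lit 60) (nat_lit 5) (nat_lit 61) (nat_lit 5) (nat_lit 362) (nat_lit 334) (nat_lit 192)))) (XT.nd (nat_lit 94) (nat_lit 420) (nat_lit 0) (XT.lf (nat_lit 0) (nat_lit 12221192693) (nat_lit 504) (nat_lit 6409902503) (nat_lit 84) (nat_lit 3702511494) (nat_lit 55) (nat_lit 5) (nat_lit 61) (nat_lit 5) (nat_lit 56) (nat_lit 5) (nat_lit 363) (nat_lit 334) (nat_lit 191)) (XT.nd (nat_lit 94) (nat_lit 0) (nat_lit 0) (XT.lf (nat_lit 0) (nat_lit 600097042) (nat_lit 420) (nat_lit 13171856357) (nat_lit 504) (nat_lit 9011075306) (nat_lit 50) (nat_lit 5) (nat_lit 55) (nat_lit 5) (nat_lit 56) (nat_lit 5) (nat_lit 364) (nat_lit 334) (nat_lit 190)) (XT.lf (nat_lit 0) (nat_lit 7958255825) (nat_lit 420) (nat_lit 7474369997) (nat_lit 504) (nat_lit 7811873450) (nat_lit 50) (nat_lit 5) (nat_lit 55) (nat_lit 5) (nat_lit 56) (nat_lit 5) (nat_lit 365) (nat_lit 334) (nat_lit 189))))) (XT.nd (nat_lit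 282) (nat_lit 504) (nat_lit 0) (XT.nd (nat_lit 94) (nat_lit 336) (nat_lit 0) (XT.lf (nat_lit 0) (nat_lit 15539631677) (nat_lit 420) (nat_lit 1600231698) (nat_lit 504) (nat_lit 6580596883) (nat_lit 50) (nat_lit 5) (nat_lit 55) (nat_lit 5) (nat_lit 56) (nat_lit 5) (nat_lit 366) (nat_lit 334) (nat_lit 188)) (XT.nd (nat_lit 94) (nat_lit 336) (nat_lit 0) (XT.lf (nat_lit 0) (nat_lit 18939461792) (nat_lit 504) (nat_lit 904268484) (nat_lit 84) (nat_lit 4366254699) (nat_lit 50) (nat_lit 5) (nat_lit 56) (nat_lit 5) (nat_lit 51) (nat_lit 5) (nat_lit 367) (nat_lit 334) (nat_lit 187)) (XT.lf (nat_lit 0) (nat_lit 6711958763) (nat_lit 336) (nat_lit 14161214794) (nat_lit 420) (nat_lit 3839113823) (nat_lit 46) (nat_lit 5) (nat_lit 50) (nat_lit 5) (nat_lit 51) (nat_lit 5) (nat_lit 368) (nat_lit 334) (nat_lit 186)))) (XT.nd (nat_lit 94) (nat_lit 504) (nat_lit 0) (XT.lf (nat_lit 0) (nat_lit 14578736751)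 (nat_lit 336) (nat_lit 8293000271) (nat_lit 420) (nat_lit 2358301638) (nat_lit 46) (nat_lit 5) (nat_lit 50) (nat_lit 5) (nat_lit 51) (nat_lit 5) (nat_lit 369) (nat_lit 334) (nat_lit 185)) (XT.nd (nat_lit 94) (nat_lit 504) (nat_lit 0) (XT.lf (nat_lit 0) (nat_lit 22684804527) (nat_lit 336) (nat_lit 2243055624) (nat_lit 420) (nat_lit 836145064) (nat_lit 46) (nat_lit 5) (nat_lit 50) (nat_lit 5) (nat_lit 51) (nat_lit 5) (nat_lit 370) (nat_lit 334) (nat_lit 184)) (XT.lf (nat_lit 0) (nat_lit 802020575) (nat_lit 504) (nat_lit 21540396292) (nat_lit 84) (nat_lit 3969317977) (nat_lit 40) (nat_lit 5) (nat_lit 46) (nat_lit 5) (nat_lit 41) (nat_lit 5) (nat_lit 371) (nat_lit 334) (nat_lit 183)))))) (XT.nd (nat_lit 564) (nat_lit 588) (nat_lit 0) (XT.nd (nat_lit 282) (nat_lit 0) (nat_lit 0) (XT.nd (nat_lit 94) (nat_lit 336) (nat_lit 0) (XT.lf (nat_lit 0) (nat_lit 2524759515) (nat_lit 504) (nat_lit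 13981415391) (nat_lit 84) (nat_lit 10368444355) (nat_lit 40) (nat_lit 5) (nat_lit 46) (nat_lit 5) (nat_lit 41) (nat_lit 5) (nat_lit 372) (nat_lit 334) (nat_lit 182)) (XT.nd (nat_lit 94) (nat_lit 336) (nat_lit 0) (XT.lf (nat_lit 0) (nat_lit 4296779618) (nat_lit 504) (nat_lit 6192633631) (nat_lit 84) (nat_lit 16965693097) (nat_lit 40) (nat_lit 5) (nat_lit 46) (nat_lit 5) (nat_lit 41) (nat_lit 5) (nat_lit 373) (nat_lit 334) (nat_lit 181)) (XT.lf (nat_lit 0) (nat_lit 1870903484) (nat_lit 336) (nat_lit 4267388704) (nat_lit 420) (nat_lit 21914869638) (nat_lit 36) (nat_lit 5) (nat_lit 40) (nat_lit 5) (nat_lit 41) (nat_lit 5) (nat_lit 374) (nat_lit 334) (nat_lit 180)))) (XT.nd (nat_lit 94) (nat_lit 0) (nat_lit 0) (XT.lf (nat_lit 0) (nat_lit 8119567972) (nat_lit 420) (nat_lit 18378515413) (nat_lit 84) (nat_lit 2169134584) (nat_lit 36) (nat_lit 5) (nat_lit 41) (nat_lit 5) (nat_lit 37) (nat_lit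 5) (nat_lit 375) (nat_lit 334) (nat_lit 179)) (XT.nd (nat_lit 94) (nat_lit 0) (nat_lit 0) (XT.lf (nat_lit 0) (nat_lit 10202099906) (nat_lit 420) (nat_lit 10380855105) (nat_lit 84) (nat_lit 8716143098) (nat_lit 36) (nat_lit 5) (nat_lit 41) (nat_lit 5) (nat_lit 37) (nat_lit 5) (nat_lit 376) (nat_lit 334) (nat_lit 178)) (XT.lf (nat_lit 0) (nat_lit 12345496102) (nat_lit 420) (nat_lit 2139489736) (nat_lit 84) (nat_lit 15465717708) (nat_lit 36) (nat_lit 5) (nat_lit 41) (nat_lit 5) (nat_lit 37) (nat_lit 5) (nat_lit 377) (nat_lit 334) (nat_lit 177))))) (XT.nd (nat_lit 282) (nat_lit 252) (nat_lit 0) (XT.nd (nat_lit 94) (nat_lit 0) (nat_lit 0) (XT.lf (nat_lit 0) (nat_lit 6483898615) (nat_lit 336) (nat_lit 8132176894) (nat_lit 420) (nat_lit 16004572186) (nat_lit 32) (nat_lit 5) (nat_lit 36) (nat_lit 5) (nat_lit 37) (nat_lit 5) (nat_lit 378) (nat_lit 334) (nat_lit 176)) (XT.nd (nat_lit 94) (nat_lit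 0) (nat_lit 0) (XT.lf (nat_lit 0) (nat_lit 15415914076) (nat_lit 336) (nat_lit 1559945058) (nat_lit 420) (nat_lit 14334938833) (nat_lit 32) (nat_lit 5) (nat_lit 36) (nat_lit 5) (nat_lit 37) (nat_lit 5) (nat_lit 379) (nat_lit 334) (nat_lit 175)) (XT.lf (nat_lit 0) (nat_lit 19457124576) (nat_lit 420) (nat_lit 7453317650) (nat_lit 84) (nat_lit 5110423013) (nat_lit 32) (nat_lit 5) (nat_lit 37) (nat_lit 5) (nat_lit 33) (nat_lit 5) (nat_lit 380) (nat_lit 334) (nat_lit 174)))) (XT.nd (nat_lit 188) (nat_lit 0) (nat_lit 0) (XT.nd (nat_lit 94) (nat_lit 0) (nat_lit 0) (XT.lf (nat_lit 0) (nat_lit 1255343677) (nat_lit 252) (nat_lit 20785060886) (nat_lit 336) (nat_lit 10711781985) (nat_lit 29) (nat_lit 5) (nat_lit 32) (nat_lit 5) (nat_lit 33) (nat_lit 5) (nat_lit 381) (nat_lit 334) (nat_lit 173)) (XT.lf (nat_lit 0) (nat_lit 10388088450) (nat_lit 252) (nat_lit 14390223709) (nat_lit 336) (nat_lit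 8725575045) (nat_lit 29) (nat_lit 5) (nat_lit 32) (nat_lit 5) (nat_lit 33) (nat_lit 5) (nat_lit 382) (nat_lit 334) (nat_lit 172))) (XT.nd (nat_lit 94) (nat_lit 0) (nat_lit 0) (XT.lf (nat_lit 0) (nat_lit 19800173845) (nat_lit 252) (nat_lit 7797767387) (nat_lit 336) (nat_lit 6681065839) (nat_lit 29) (nat_lit 5) (nat_lit 32) (nat_lit 5) (nat_lit 33) (nat_lit 5) (nat_lit 383) (nat_lit 334) (nat_lit 171)) (XT.lf (nat_lit 0) (nat_lit 29500372911) (nat_lit 252) (nat_lit 1001547061) (nat_lit 336) (nat_lit 4576348672) (nat_lit 29) (nat_lit 5) (nat_lit 32) (nat_lit 5) (nat_lit 33) (nat_lit 5) (nat_lit 384) (nat_lit 334) (nat_lit 170))))))) (XT.nd (nat_lit 1222) (nat_lit 588) (nat_lit 0) (XT.nd (nat_lit 564) (nat_lit 252) (nat_lit 0) (XT.nd (nat_lit 282) (nat_lit 252) (nat_lit 0) (XT.nd (nat_lit 94) (nat_lit 84) (nat_lit 0) (XT.lf (nat_lit 0) (nat_lit 3608444362) (nat_lit 252) (nat_lit 29979875125)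 (nat_lit 336) (nat_lit 2311141135) (nat_lit 26) (nat_lit 5) (nat_lit 29) (nat_lit 5) (nat_lit 30) (nat_lit 5) (nat_lit 385) (nat_lit 334) (nat_lit 169)) (XT.nd (nat_lit 94) (nat_lit 0) (nat_lit 0) (XT.lf (nat_lit 0) (nat_lit 89893459) (nat_lit 336) (nat_lit 23561270351) (nat_lit 84) (nat_lit 13092905904) (nat_lit 25) (nat_lit 5) (nat_lit 29) (nat_lit 5) (nat_lit 26) (nat_lit 5) (nat_lit 386) (nat_lit 334) (nat_lit 168)) (XT.lf (nat_lit 0) (nat_lit 2514475701) (nat_lit 336) (nat_lit 14588124001) (nat_lit 84) (nat_lit 20511634476) (nat_lit 25) (nat_lit 5) (nat_lit 29) (nat_lit 5) (nat_lit 26) (nat_lit 5) (nat_lit 387) (nat_lit 334) (nat_lit 167)))) (XT.nd (nat_lit 94) (nat_lit 252) (nat_lit 0) (XT.lf (nat_lit 0) (nat_lit 5011429896) (nat_lit 336) (nat_lit 5340286490) (nat_lit 84) (nat_lit 28159759439) (nat_lit 25) (nat_lit 5) (nat_lit 29) (nat_lit 5) (nat_lit 26) (nat_lit 5) (nat_lit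 388) (nat_lit 334) (nat_lit 166)) (XT.nd (nat_lit 94) (nat_lit 0) (nat_lit 0) (XT.lf (nat_lit 0) (nat_lit 4277034853) (nat_lit 252) (nat_lit 3348477329) (nat_lit 336) (nat_lit 31809803507) (nat_lit 22) (nat_lit 5) (nat_lit 25) (nat_lit 5) (nat_lit 26) (nat_lit 5) (nat_lit 389) (nat_lit 334) (nat_lit 165)) (XT.lf (nat_lit 0) (nat_lit 10412687429) (nat_lit 336) (nat_lit 26122769666) (nat_lit 84) (nat_lit 3849498416) (nat_lit 22) (nat_lit 5) (nat_lit 26) (nat_lit 5) (nat_lit 23) (nat_lit 5) (nat_lit 390) (nat_lit 334) (nat_lit 164))))) (XT.nd (nat_lit 282) (nat_lit 0) (nat_lit 0) (XT.nd (nat_lit 94) (nat_lit 252) (nat_lit 0) (XT.lf (nat_lit 0) (nat_lit 13317927588) (nat_lit 336) (nat_lit 16844729657) (nat_lit 84) (nat_lit 11200409615) (nat_lit 22) (nat_lit 5) (nat_lit 26) (nat_lit 5) (nat_lit 23) (nat_lit 5) (nat_lit 391) (nat_lit 334) (nat_lit 163)) (XT.nd (nat_lit 94) (nat_lit 252)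 (nat_lit 0) (XT.lf (nat_lit 0) (nat_lit 16310723339) (nat_lit 336) (nat_lit 7282295394) (nat_lit 84) (nat_lit 18778572441) (nat_lit 22) (nat_lit 5) (nat_lit 26) (nat_lit 5) (nat_lit 23) (nat_lit 5) (nat_lit 392) (nat_lit 334) (nat_lit 162)) (XT.lf (nat_lit 0) (nat_lit 2626361645) (nat_lit 252) (nat_lit 16793556468) (nat_lit 336) (nat_lit 23990742722) (nat_lit 19) (nat_lit 5) (nat_lit 22) (nat_lit 5) (nat_lit 23) (nat_lit 5) (nat_lit 393) (nat_lit 334) (nat_lit 161)))) (XT.nd (nat_lit 188) (nat_lit 0) (nat_lit 0) (XT.nd (nat_lit 94) (nat_lit 0) (nat_lit 0) (XT.lf (nat_lit 0) (nat_lit 12993471540) (nat_lit 252) (nat_lit 9705649529) (nat_lit 336) (nat_lit 21780551252) (nat_lit 19) (nat_lit 5) (nat_lit 22) (nat_lit 5) (nat_lit 23) (nat_lit 5) (nat_lit 394) (nat_lit 334) (nat_lit 160)) (XT.lf (nat_lit 0) (nat_lit 23678958592) (nat_lit 252) (nat_lit 2398703475) (nat_lit 336) (nat_lit 19504245524)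 (nat_lit 19) (nat_lit 5) (nat_lit 22) (nat_lit 5) (nat_lit 23) (nat_lit 5) (nat_lit 395) (nat_lit 334) (nat_lit 159))) (XT.nd (nat_lit 94) (nat_lit 0) (nat_lit 0) (XT.lf (nat_lit 0) (nat_lit 29609621095) (nat_lit 336) (nat_lit 12076542083) (nat_lit 84) (nat_lit 5030652010) (nat_lit 19) (nat_lit 5) (nat_lit 23) (nat_lit 5) (nat_lit 20) (nat_lit 5) (nat_lit 396) (nat_lit 334) (nat_lit 158)) (XT.lf (nat_lit 0) (nat_lit 33273417549) (nat_lit 336) (nat_lit 1972948033) (nat_lit 84) (nat_lit 12639858438) (nat_lit 19) (nat_lit 5) (nat_lit 23) (nat_lit 5) (nat_lit 20) (nat_lit 5) (nat_lit 397) (nat_lit 334) (nat_lit 157)))))) (XT.nd (nat_lit 564) (nat_lit 168) (nat_lit 0) (XT.nd (nat_lit 282) (nat_lit 252) (nat_lit 0) (XT.nd (nat_lit 94) (nat_lit 0) (nat_lit 0) (XT.lf (nat_lit 0) (nat_lit 8614611415) (nat_lit 168) (nat_lit 28519517632) (nat_lit 252) (nat_lit 11955183511) (nat_lit 17) (nat_lit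 5) (nat_lit 19) (nat_lit 5) (nat_lit 20) (nat_lit 5) (nat_lit 398) (nat_lit 334) (nat_lit 156)) (XT.nd (nat_lit 94) (nat_lit 0) (nat_lit 0) (XT.lf (nat_lit 0) (nat_lit 19569427892) (nat_lit 168) (nat_lit 21563603743) (nat_lit 252) (nat_lit 9196102572) (nat_lit 17) (nat_lit 5) (nat_lit 19) (nat_lit 5) (nat_lit 20) (nat_lit 5) (nat_lit 399) (nat_lit 334) (nat_lit 155)) (XT.lf (nat_lit 0) (nat_lit 30861144575) (nat_lit 168) (nat_lit 14392733806) (nat_lit 252) (nat_lit 6353585433) (nat_lit 17) (nat_lit 5) (nat_lit 19) (nat_lit 5) (nat_lit 20) (nat_lit 5) (nat_lit 400) (nat_lit 334) (nat_lit 154)))) (XT.nd (nat_lit 94) (nat_lit 252) (nat_lit 0) (XT.lf (nat_lit 0) (nat_lit 42500286527) (nat_lit 168) (nat_lit 7000223820) (nat_lit 252) (nat_lit 3424982570) (nat_lit 17) (nat_lit 5) (nat_lit 19) (nat_lit 5) (nat_lit 20) (nat_lit 5) (nat_lit 401) (nat_lit 334) (nat_lit 153)) (XT.nd (nat_lit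 94) (nat_lit 84) (nat_lit 0) (XT.lf (nat_lit 0) (nat_lit 211352289) (nat_lit 168) (nat_lit 53673788769) (nat_lit 252) (nat_lit 399053086) (nat_lit 15) (nat_lit 5) (nat_lit 17) (nat_lit 5) (nat_lit 18) (nat_lit 5) (nat_lit 402) (nat_lit 334) (nat_lit 152)) (XT.lf (nat_lit 0) (nat_lit 2845485699) (nat_lit 252) (nat_lit 44385311278) (nat_lit 84) (nat_lit 8447822769) (nat_lit 14) (nat_lit 5) (nat_lit 17) (nat_lit 5) (nat_lit 15) (nat_lit 5) (nat_lit 403) (nat_lit 334) (nat_lit 151))))) (XT.nd (nat_lit 282) (nat_lit 168) (nat_lit 0) (XT.nd (nat_lit 94) (nat_lit 0) (nat_lit 0) (XT.lf (nat_lit 0) (nat_lit 6180467792) (nat_lit 252) (nat_lit 34404094166) (nat_lit 84) (nat_lit 16531650635) (nat_lit 14) (nat_lit 5) (nat_lit 17) (nat_lit 5) (nat_lit 15) (nat_lit 5) (nat_lit 404) (nat_lit 334) (nat_lit 150)) (XT.nd (nat_lit 94) (nat_lit 0) (nat_lit 0) (XT.lf (nat_lit 0) (nat_lit 9617041775) (nat_lit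 252) (nat_lit 24115928321) (nat_lit 84) (nat_lit 24865465291) (nat_lit 14) (nat_lit 5) (nat_lit 17) (nat_lit 5) (nat_lit 15) (nat_lit 5) (nat_lit 405) (nat_lit 334) (nat_lit 149)) (XT.lf (nat_lit 0) (nat_lit 13158410896) (nat_lit 252) (nat_lit 13511224096) (nat_lit 84) (nat_lit 33457034725) (nat_lit 14) (nat_lit 5) (nat_lit 17) (nat_lit 5) (nat_lit 15) (nat_lit 5) (nat_lit 406) (nat_lit 334) (nat_lit 148)))) (XT.nd (nat_lit 188) (nat_lit 0) (nat_lit 0) (XT.nd (nat_lit 94) (nat_lit 168) (nat_lit 0) (XT.lf (nat_lit 0) (nat_lit 16807876082) (nat_lit 252) (nat_lit 2580096796) (nat_lit 84) (nat_lit 42314367179) (nat_lit 14) (nat_lit 5) (nat_lit 17) (nat_lit 5) (nat_lit 15) (nat_lit 5) (nat_lit 407) (nat_lit 334) (nat_lit 147)) (XT.lf (nat_lit 0) (nat_lit 8866278284) (nat_lit 168) (nat_lit 11790515310) (nat_lit 252) (nat_lit 42667394910) (nat_lit 12) (nat_lit 5) (nat_lit 14) (nat_lit 5)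 (nat_lit 15) (nat_lit 5) (nat_lit 408) (nat_lit 334) (nat_lit 146))) (XT.nd (nat_lit 94) (nat_lit 0) (nat_lit 0) (XT.lf (nat_lit 0) (nat_lit 20719957581) (nat_lit 168) (nat_lit 3930392272) (nat_lit 252) (nat_lit 40345187374) (nat_lit 12) (nat_lit 5) (nat_lit 14) (nat_lit 5) (nat_lit 15) (nat_lit 5) (nat_lit 409) (nat_lit 334) (nat_lit 145)) (XT.lf (nat_lit 0) (nat_lit 28807540722) (nat_lit 252) (nat_lit 33821210582) (nat_lit 84) (nat_lit 4088719319) (nat_lit 12) (nat_lit 5) (nat_lit 15) (nat_lit 5) (nat_lit 13) (nat_lit 5) (nat_lit 410) (nat_lit 334) (nat_lit 144))))))))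
noncomputable def xc171 : XT := (XT.nd (nat_lit 49350) (nat_lit 0) (nat_lit 3696) (XT.nd (nat_lit 1222) (nat_lit 168) (nat_lit 0) (XT.nd (nat_lit 564) (nat_lit 168) (nat_lit 0) (XT.nd (nat_lit 282) (nat_lit 168) (nat_lit 0) (XT.nd (nat_lit 94) (nat_lit 0) (nat_lit 0) (XT.lf (nat_lit 0) (nat_lit 33132284042) (nat_lit 252) (nat_lit 23085101365) (nat_lit 84) (nat_lit 12274206977) (nat_lit 12) (nat_lit 5) (nat_lit 15) (nat_lit 5) (nat_lit 13) (nat_lit 5) (nat_lit 411) (nat_lit 334) (nat_lit 143)) (XT.nd (nat_lit 94) (nat_lit 0) (nat_lit 0) (XT.lf (nat_lit 0) (nat_lit 37589620948) (nat_lit 252) (nat_lit 12018254838) (nat_lit 84) (nat_lit 20712889077) (nat_lit 12) (nat_lit 5) (nat_lit 15) (nat_lit 5) (nat_lit 13) (nat_lit 5) (nat_lit 412) (nat_lit 334) (nat_lit 142)) (XT.lf (nat_lit 0) (nat_lit 42183706146) (nat_lit 252) (nat_lit 610355543) (nat_lit 84) (nat_lit 29412631357) (nat_lit 12)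 (nat_lit 5) (nat_lit 15) (nat_lit 5) (nat_lit 13) (nat_lit 5) (nat_lit 413) (nat_lit 334) (nat_lit 141)))) (XT.nd (nat_lit 94) (nat_lit 0) (nat_lit 0) (XT.lf (nat_lit 0) (nat_lit 11378480912) (nat_lit 168) (nat_lit 35653216832) (nat_lit 252) (nat_lit 27115937914) (nat_lit 10) (nat_lit 5) (nat_lit 12) (nat_lit 5) (nat_lit 13) (nat_lit 5) (nat_lit 414) (nat_lit 334) (nat_lit 140)) (XT.nd (nat_lit 94) (nat_lit 0) (nat_lit 0) (XT.lf (nat_lit 0) (nat_lit 23749971593) (nat_lit 168) (nat_lit 28285012612) (nat_lit 252) (nat_lit 24113614696) (nat_lit 10) (nat_lit 5) (nat_lit 12) (nat_lit 5) (nat_lit 13) (nat_lit 5) (nat_lit 415) (nat_lit 334) (nat_lit 139)) (XT.lf (nat_lit 0) (nat_lit 36503097863) (nat_lit 168) (nat_lit 20688951953) (nat_lit 252) (nat_lit 21019589628) (nat_lit 10) (nat_lit 5) (nat_lit 12) (nat_lit 5) (nat_lit 13) (nat_lit 5) (nat_lit 416) (nat_lit 334) (nat_lit 138))))) (XT.nd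 (nat_lit 282) (nat_lit 168) (nat_lit 0) (XT.nd (nat_lit 94) (nat_lit 0) (nat_lit 0) (XT.lf (nat_lit 0) (nat_lit 49649746973) (nat_lit 168) (nat_lit 12857954530) (nat_lit 252) (nat_lit 17830978753) (nat_lit 10) (nat_lit 5) (nat_lit 12) (nat_lit 5) (nat_lit 13) (nat_lit 5) (nat_lit 417) (nat_lit 334) (nat_lit 137)) (XT.nd (nat_lit 94) (nat_lit 0) (nat_lit 0) (XT.lf (nat_lit 0) (nat_lit 63202172975) (nat_lit 168) (nat_lit 4784721032) (nat_lit 252) (nat_lit 14544809953) (nat_lit 10) (nat_lit 5) (nat_lit 12) (nat_lit 5) (nat_lit 13) (nat_lit 5) (nat_lit 418) (nat_lit 334) (nat_lit 136)) (XT.lf (nat_lit 0) (nat_lit 73669834626) (nat_lit 252) (nat_lit 7654846649) (nat_lit 84) (nat_lit 3466985309) (nat_lit 10) (nat_lit 5) (nat_lit 13) (nat_lit 5) (nat_lit 11) (nat_lit 4) (nat_lit 419) (nat_lit 334) (nat_lit 135)))) (XT.nd (nat_lit 188) (nat_lit 84) (nat_lit 0) (XT.nd (nat_lit 94) (nat_lit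 0) (nat_lit 0) (XT.lf (nat_lit 0) (nat_lit 4420171546) (nat_lit 84) (nat_lit 75200384372) (nat_lit 168) (nat_lit 7498297929) (nat_lit 9) (nat_lit 5) (nat_lit 10) (nat_lit 5) (nat_lit 11) (nat_lit 4) (nat_lit 420) (nat_lit 334) (nat_lit 134)) (XT.lf (nat_lit 0) (nat_lit 17030109738) (nat_lit 84) (nat_lit 68804383796) (nat_lit 168) (nat_lit 3681254841) (nat_lit 9) (nat_lit 5) (nat_lit 10) (nat_lit 5) (nat_lit 11) (nat_lit 4) (nat_lit 421) (nat_lit 334) (nat_lit 133))) (XT.nd (nat_lit 94) (nat_lit 0) (nat_lit 0) (XT.lf (nat_lit 0) (nat_lit 247857824) (nat_lit 168) (nat_lit 61960173754) (nat_lit 84) (nat_lit 29778877409) (nat_lit 8) (nat_lit 5) (nat_lit 10) (nat_lit 5) (nat_lit 9) (nat_lit 5) (nat_lit 422) (nat_lit 334) (nat_lit 132)) (XT.lf (nat_lit 0) (nat_lit 4221200029) (nat_lit 168) (nat_lit 51147682321) (nat_lit 84) (nat_lit 39164665344) (nat_lit 8) (nat_lit 5) (nat_lit 10) (nat_lit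 5) (nat_lit 9) (nat_lit 5) (nat_lit 423) (nat_lit 334) (nat_lit 131)))))) (XT.nd (nat_lit 47470) (nat_lit 0) (nat_lit 6300) (XT.nd (nat_lit 282) (nat_lit 168) (nat_lit 0) (XT.nd (nat_lit 94) (nat_lit 0) (nat_lit 0) (XT.lf (nat_lit 0) (nat_lit 8316644425) (nat_lit 168) (nat_lit 40001567459) (nat_lit 84) (nat_lit 48840958417) (nat_lit 8) (nat_lit 5) (nat_lit 10) (nat_lit 5) (nat_lit 9) (nat_lit 5) (nat_lit 424) (nat_lit 334) (nat_lit 130)) (XT.nd (nat_lit 94) (nat_lit 0) (nat_lit 0) (XT.lf (nat_lit 0) (nat_lit 12538008395) (nat_lit 168) (nat_lit 28511439822) (nat_lit 84) (nat_lit 58816775949) (nat_lit 8) (nat_lit 5) (nat_lit 10) (nat_lit 5) (nat_lit 9) (nat_lit 5) (nat_lit 425) (nat_lit 334) (nat_lit 129)) (XT.lf (nat_lit 0) (nat_lit 16889226692) (nat_lit 168) (nat_lit 16666589409) (nat_lit 84) (nat_lit 69101416445) (nat_lit 8) (nat_lit 5) (nat_lit 10) (nat_lit 5) (nat_lit 9) (nat_lit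 5) (nat_lit 426) (nat_lit 334) (nat_lit 128)))) (XT.nd (nat_lit 94) (nat_lit 168) (nat_lit 0) (XT.lf (nat_lit 0) (nat_lit 21374355108) (nat_lit 168) (nat_lit 4455975576) (nat_lit 84) (nat_lit 79704466267) (nat_lit 8) (nat_lit 5) (nat_lit 10) (nat_lit 5) (nat_lit 9) (nat_lit 5) (nat_lit 427) (nat_lit 334) (nat_lit 127)) (XT.nd (nat_lit 47000) (nat_lit 0) (nat_lit 6300) (XT.lf (nat_lit 0) (nat_lit 8298989387) (nat_lit 168) (nat_lit 17780911868) (nat_lit 252) (nat_lit 82419146185) (nat_lit 6) (nat_lit 5) (nat_lit 8) (nat_lit 5) (nat_lit 9) (nat_lit 5) (nat_lit 428) (nat_lit 334) (nat_lit 126)) (XT.lf (nat_lit 0) (nat_lit 1488266682) (nat_lit 0) (nat_lit 1488266682) (nat_lit 924) (nat_lit 3998265748) (nat_lit 81) (nat_lit 5) (nat_lit 81) (nat_lit 3) (nat_lit 92) (nat_lit 3) (nat_lit 335) (nat_lit 335) (nat_lit 218))))) (XT.nd (nat_lit 282) (nat_lit 0) (nat_lit 84) (XT.nd (nat_lit 94)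 (nat_lit 0) (nat_lit 0) (XT.lf (nat_lit 0) (nat_lit 6326095002) (nat_lit 924) (nat_lit 6512920810) (nat_lit 1008) (nat_lit 1316146127) (nat_lit 81) (nat_lit 5) (nat_lit 92) (nat_lit 3) (nat_lit 93) (nat_lit 5) (nat_lit 336) (nat_lit 335) (nat_lit 217)) (XT.nd (nat_lit 94) (nat_lit 0) (nat_lit 0) (XT.lf (nat_lit 0) (nat_lit 6730407263) (nat_lit 924) (nat_lit 1950809523) (nat_lit 1008) (nat_lit 5685348661) (nat_lit 81) (nat_lit 5) (nat_lit 92) (nat_lit 3) (nat_lit 93) (nat_lit 5) (nat_lit 337) (nat_lit 335) (nat_lit 216)) (XT.lf (nat_lit 84) (nat_lit 2803533904) (nat_lit 0) (nat_lit 4361130292) (nat_lit 1008) (nat_lit 7419394806) (nat_lit 82) (nat_lit 5) (nat_lit 81) (nat_lit 5) (nat_lit 93) (nat_lit 5) (nat_lit 338) (nat_lit 335) (nat_lit 215)))) (XT.nd (nat_lit 188) (nat_lit 0) (nat_lit 0) (XT.nd (nat_lit 94) (nat_lit 0) (nat_lit 0) (XT.lf (nat_lit 0) (nat_lit 7623776589) (nat_lit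 924) (nat_lit 7068229213) (nat_lit 1008) (nat_lit 116009840) (nat_lit 82) (nat_lit 5) (nat_lit 93) (nat_lit 5) (nat_lit 94) (nat_lit 5) (nat_lit 339) (nat_lit 335) (nat_lit 214)) (XT.lf (nat_lit 0) (nat_lit 8131930627) (nat_lit 924) (nat_lit 2260328303) (nat_lit 1008) (nat_lit 4645648683) (nat_lit 82) (nat_lit 5) (nat_lit 93) (nat_lit 5) (nat_lit 94) (nat_lit 5) (nat_lit 340) (nat_lit 335) (nat_lit 213))) (XT.nd (nat_lit 94) (nat_lit 0) (nat_lit 0) (XT.lf (nat_lit 84) (nat_lit 2746252926) (nat_lit 0) (nat_lit 5927327253) (nat_lit 1008) (nat_lit 6600865633) (nat_lit 83) (nat_lit 5) (nat_lit 82) (nat_lit 5) (nat_lit 94) (nat_lit 5) (nat_lit 341) (nat_lit 335) (nat_lit 212)) (XT.lf (nat_lit 84) (nat_lit 7950318124) (nat_lit 0) (nat_lit 1296025235) (nat_lit 1008) (nat_lit 6271596848) (nat_lit 83) (nat_lit 5) (nat_lit 82) (nat_lit 5) (nat_lit 94) (nat_lit 5) (nat_lit 342) (nat_lit 335)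 (nat_lit 211))))))) (XT.nd (nat_lit 1222) (nat_lit 2016) (nat_lit 0) (XT.nd (nat_lit 564) (nat_lit 756) (nat_lit 0) (XT.nd (nat_lit 282) (nat_lit 0) (nat_lit 84) (XT.nd (nat_lit 94) (nat_lit 0) (nat_lit 0) (XT.lf (nat_lit 0) (nat_lit 9862415799) (nat_lit 924) (nat_lit 2493631669) (nat_lit 1008) (nat_lit 3412208777) (nat_lit 83) (nat_lit 5) (nat_lit 94) (nat_lit 5) (nat_lit 95) (nat_lit 5) (nat_lit 343) (nat_lit 335) (nat_lit 210)) (XT.nd (nat_lit 94) (nat_lit 0) (nat_lit 0) (XT.lf (nat_lit 84) (nat_lit 2774628061) (nat_lit 0) (nat_lit 7755050689) (nat_lit 1008) (nat_lit 5495721981) (nat_lit 84) (nat_lit 5) (nat_lit 83) (nat_lit 5) (nat_lit 95) (nat_lit 5) (nat_lit 344) (nat_lit 335) (nat_lit 209)) (XT.lf (nat_lit 84) (nat_lit 8253453278) (nat_lit 0) (nat_lit 2981719825) (nat_lit 1008) (nat_lit 5054861259) (nat_lit 84) (nat_lit 5) (nat_lit 83) (nat_lit 5) (nat_lit 95) (nat_lit 5)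 (nat_lit 345) (nat_lit 335) (nat_lit 208)))) (XT.nd (nat_lit 94) (nat_lit 0) (nat_lit 0) (XT.lf (nat_lit 0) (nat_lit 11973579184) (nat_lit 924) (nat_lit 2685778298) (nat_lit 1008) (nat_lit 1903231619) (nat_lit 84) (nat_lit 5) (nat_lit 95) (nat_lit 5) (nat_lit 96) (nat_lit 5) (nat_lit 346) (nat_lit 335) (nat_lit 207)) (XT.nd (nat_lit 94) (nat_lit 0) (nat_lit 0) (XT.lf (nat_lit 84) (nat_lit 2852256205) (nat_lit 0) (nat_lit 9933457388) (nat_lit 1008) (nat_lit 4056361427) (nat_lit 85) (nat_lit 5) (nat_lit 84) (nat_lit 5) (nat_lit 96) (nat_lit 5) (nat_lit 347) (nat_lit 335) (nat_lit 206)) (XT.lf (nat_lit 84) (nat_lit 8613349908) (nat_lit 0) (nat_lit 5029939308) (nat_lit 1008) (nat_lit 3486363777) (nat_lit 85) (nat_lit 5) (nat_lit 84) (nat_lit 5) (nat_lit 96) (nat_lit 5) (nat_lit 348) (nat_lit 335) (nat_lit 205))))) (XT.nd (nat_lit 282) (nat_lit 924) (nat_lit 0) (XT.nd (nat_lit 94) (nat_lit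 0) (nat_lit 0) (XT.lf (nat_lit 0) (nat_lit 14520189430) (nat_lit 924) (nat_lit 2879061478) (nat_lit 1008) (nat_lit 27174565) (nat_lit 85) (nat_lit 5) (nat_lit 96) (nat_lit 5) (nat_lit 97) (nat_lit 5) (nat_lit 349) (nat_lit 335) (nat_lit 204)) (XT.nd (nat_lit 94) (nat_lit 0) (nat_lit 0) (XT.lf (nat_lit 84) (nat_lit 2935097948) (nat_lit 0) (nat_lit 12562448427) (nat_lit 1008) (nat_lit 2232632946) (nat_lit 86) (nat_lit 5) (nat_lit 85) (nat_lit 5) (nat_lit 97) (nat_lit 5) (nat_lit 350) (nat_lit 335) (nat_lit 203)) (XT.lf (nat_lit 84) (nat_lit 8985058963) (nat_lit 0) (nat_lit 7543070619) (nat_lit 1008) (nat_lit 1514560472) (nat_lit 86) (nat_lit 5) (nat_lit 85) (nat_lit 5) (nat_lit 97) (nat_lit 5) (nat_lit 351) (nat_lit 335) (nat_lit 202)))) (XT.nd (nat_lit 188) (nat_lit 0) (nat_lit 0) (XT.nd (nat_lit 94) (nat_lit 924) (nat_lit 0) (XT.lf (nat_lit 84) (nat_lit 15217261358) (nat_lit 0) (nat_lit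 2366490395) (nat_lit 1008) (nat_lit 781400797) (nat_lit 86) (nat_lit 5) (nat_lit 85) (nat_lit 5) (nat_lit 97) (nat_lit 5) (nat_lit 352) (nat_lit 335) (nat_lit 201)) (XT.lf (nat_lit 0) (nat_lit 27733110) (nat_lit 1008) (nat_lit 15726318845) (nat_lit 84) (nat_lit 2941979377) (nat_lit 74) (nat_lit 5) (nat_lit 86) (nat_lit 5) (nat_lit 75) (nat_lit 5) (nat_lit 353) (nat_lit 335) (nat_lit 200))) (XT.nd (nat_lit 94) (nat_lit 0) (nat_lit 0) (XT.lf (nat_lit 0) (nat_lit 896464976) (nat_lit 1008) (nat_lit 9730531349) (nat_lit 84) (nat_lit 8408395539) (nat_lit 74) (nat_lit 5) (nat_lit 86) (nat_lit 5) (nat_lit 75) (nat_lit 5) (nat_lit 354) (nat_lit 335) (nat_lit 199)) (XT.lf (nat_lit 0) (nat_lit 1785676635) (nat_lit 1008) (nat_lit 3554254189) (nat_lit 84) (nat_lit 14045585756) (nat_lit 74) (nat_lit 5) (nat_lit 86) (nat_lit 5) (nat_lit 75) (nat_lit 5) (nat_lit 355) (nat_lit 335) (nat_lit 198))))))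 (XT.nd (nat_lit 564) (nat_lit 840) (nat_lit 0) (XT.nd (nat_lit 282) (nat_lit 504) (nat_lit 0) (XT.nd (nat_lit 94) (nat_lit 0) (nat_lit 0) (XT.lf (nat_lit 0) (nat_lit 2726030690) (nat_lit 756) (nat_lit 16881239670) (nat_lit 84) (nat_lit 138536624) (nat_lit 66) (nat_lit 5) (nat_lit 75) (nat_lit 5) (nat_lit 67) (nat_lit 5) (nat_lit 356) (nat_lit 335) (nat_lit 197)) (XT.nd (nat_lit 94) (nat_lit 0) (nat_lit 0) (XT.lf (nat_lit 0) (nat_lit 3781518649) (nat_lit 756) (nat_lit 10618795859) (nat_lit 84) (nat_lit 5714327835) (nat_lit 66) (nat_lit 5) (nat_lit 75) (nat_lit 5) (nat_lit 67) (nat_lit 5) (nat_lit 357) (nat_lit 335) (nat_lit 196)) (XT.lf (nat_lit 0) (nat_lit 4863799901) (nat_lit 756) (nat_lit 4167459528) (nat_lit 84) (nat_lit 11463876075) (nat_lit 66) (nat_lit 5) (nat_lit 75) (nat_lit 5) (nat_lit 67) (nat_lit 5) (nat_lit 358) (nat_lit 335) (nat_lit 195)))) (XT.nd (nat_lit 94) (nat_lit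 0) (nat_lit 0) (XT.lf (nat_lit 0) (nat_lit 2529751499) (nat_lit 504) (nat_lit 3469227196) (nat_lit 588) (nat_lit 14887884476) (nat_lit 60) (nat_lit 5) (nat_lit 66) (nat_lit 5) (nat_lit 67) (nat_lit 5) (nat_lit 359) (nat_lit 335) (nat_lit 194)) (XT.nd (nat_lit 94) (nat_lit 0) (nat_lit 0) (XT.lf (nat_lit 0) (nat_lit 7230144158) (nat_lit 588) (nat_lit 11794630285) (nat_lit 84) (nat_lit 2264113067) (nat_lit 60) (nat_lit 5) (nat_lit 67) (nat_lit 5) (nat_lit 61) (nat_lit 5) (nat_lit 360) (nat_lit 335) (nat_lit 193)) (XT.lf (nat_lit 0) (nat_lit 8529506914) (nat_lit 588) (nat_lit 5069288247) (nat_lit 84) (nat_lit 8103685137) (nat_lit 60) (nat_lit 5) (nat_lit 67) (nat_lit 5) (nat_lit 61) (nat_lit 5) (nat_lit 361) (nat_lit 335) (nat_lit 192))))) (XT.nd (nat_lit 282) (nat_lit 420) (nat_lit 0) (XT.nd (nat_lit 94) (nat_lit 0) (nat_lit 0) (XT.lf (nat_lit 0) (nat_lit 1897835483) (nat_lit 420) (nat_lit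 7984854222) (nat_lit 504) (nat_lit 12245820581) (nat_lit 55) (nat_lit 5) (nat_lit 60) (nat_lit 5) (nat_lit 61) (nat_lit 5) (nat_lit 362) (nat_lit 335) (nat_lit 191)) (XT.nd (nat_lit 94) (nat_lit 0) (nat_lit 0) (XT.lf (nat_lit 0) (nat_lit 9183515255) (nat_lit 420) (nat_lit 2142042356) (nat_lit 504) (nat_lit 11240744251) (nat_lit 55) (nat_lit 5) (nat_lit 60) (nat_lit 5) (nat_lit 61) (nat_lit 5) (nat_lit 363) (nat_lit 335) (nat_lit 190)) (XT.lf (nat_lit 0) (nat_lit 12846645187) (nat_lit 504) (nat_lit 6366058596) (nat_lit 84) (nat_lit 3803956430) (nat_lit 55) (nat_lit 5) (nat_lit 61) (nat_lit 5) (nat_lit 56) (nat_lit 5) (nat_lit 364) (nat_lit 335) (nat_lit 189)))) (XT.nd (nat_lit 188) (nat_lit 0) (nat_lit 0) (XT.nd (nat_lit 94) (nat_lit 0) (nat_lit 0) (XT.lf (nat_lit 0) (nat_lit 858795325) (nat_lit 420) (nat_lit 13581651317) (nat_lit 504) (nat_lit 9039773114) (nat_lit 50) (nat_lit 5)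 (nat_lit 55) (nat_lit 5) (nat_lit 56) (nat_lit 5) (nat_lit 365) (nat_lit 335) (nat_lit 188)) (XT.lf (nat_lit 0) (nat_lit 8437837871) (nat_lit 420) (nat_lit 7707498758) (nat_lit 504) (nat_lit 7810932383) (nat_lit 50) (nat_lit 5) (nat_lit 55) (nat_lit 5) (nat_lit 56) (nat_lit 5) (nat_lit 366) (nat_lit 335) (nat_lit 187))) (XT.nd (nat_lit 94) (nat_lit 0) (nat_lit 0) (XT.lf (nat_lit 0) (nat_lit 16247234280) (nat_lit 420) (nat_lit 1651219376) (nat_lit 504) (nat_lit 6548796023) (nat_lit 50) (nat_lit 5) (nat_lit 55) (nat_lit 5) (nat_lit 56) (nat_lit 5) (nat_lit 367) (nat_lit 335) (nat_lit 186)) (XT.lf (nat_lit 0) (nat_lit 19746993276) (nat_lit 504) (nat_lit 704917138) (nat_lit 84) (nat_lit 4500296585) (nat_lit 50) (nat_lit 5) (nat_lit 56) (nat_lit 5) (nat_lit 51) (nat_lit 5) (nat_lit 368) (nat_lit 335) (nat_lit 185))))))))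
noncomputable def xc172 : XT := (XT.nd (nat_lit 2350) (nat_lit 1008) (nat_lit 0) (XT.nd (nat_lit 1128) (nat_lit 840) (nat_lit 0) (XT.nd (nat_lit 564) (nat_lit 672) (nat_lit 0) (XT.nd (nat_lit 282) (nat_lit 504) (nat_lit 0) (XT.nd (nat_lit 94) (nat_lit 0) (nat_lit 0) (XT.lf (nat_lit 0) (nat_lit 7145111098) (nat_lit 336) (nat_lit 14591144635) (nat_lit 420) (nat_lit 3734005015) (nat_lit 46) (nat_lit 5) (nat_lit 50) (nat_lit 5) (nat_lit 51) (nat_lit 5) (nat_lit 369) (nat_lit 335) (nat_lit 184)) (XT.nd (nat_lit 94) (nat_lit 0) (nat_lit 0) (XT.lf (nat_lit 0) (nat_lit 15248991474) (nat_lit 336) (nat_lit 8541288112) (nat_lit 420) (nat_lit 2214026510) (nat_lit 46) (nat_lit 5) (nat_lit 50) (nat_lit 5) (nat_lit 51) (nat_lit 5) (nat_lit 370) (nat_lit 335) (nat_lit 183)) (XT.lf (nat_lit 0) (nat_lit 23599783112) (nat_lit 336) (nat_lit 2304059633) (nat_lit 420) (nat_lit 651219316) (nat_lit 46)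 (nat_lit 5) (nat_lit 50) (nat_lit 5) (nat_lit 51) (nat_lit 5) (nat_lit 371) (nat_lit 335) (nat_lit 182)))) (XT.nd (nat_lit 94) (nat_lit 0) (nat_lit 0) (XT.lf (nat_lit 0) (nat_lit 1029527732) (nat_lit 504) (nat_lit 21985660695) (nat_lit 84) (nat_lit 4104679318) (nat_lit 40) (nat_lit 5) (nat_lit 46) (nat_lit 5) (nat_lit 41) (nat_lit 5) (nat_lit 372) (nat_lit 335) (nat_lit 181)) (XT.nd (nat_lit 94) (nat_lit 0) (nat_lit 0) (XT.lf (nat_lit 0) (nat_lit 2799578485) (nat_lit 504) (nat_lit 14199041128) (nat_lit 84) (nat_lit 10701808404) (nat_lit 40) (nat_lit 5) (nat_lit 46) (nat_lit 5) (nat_lit 41) (nat_lit 5) (nat_lit 373) (nat_lit 335) (nat_lit 180)) (XT.lf (nat_lit 0) (nat_lit 4620621324) (nat_lit 504) (nat_lit 6175295729) (nat_lit 84) (nat_lit 17503212777) (nat_lit 40) (nat_lit 5) (nat_lit 46) (nat_lit 5) (nat_lit 41) (nat_lit 5) (nat_lit 374) (nat_lit 335) (nat_lit 179))))) (XT.nd (nat_lit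 282) (nat_lit 336) (nat_lit 0) (XT.nd (nat_lit 94) (nat_lit 0) (nat_lit 0) (XT.lf (nat_lit 0) (nat_lit 2136091965) (nat_lit 336) (nat_lit 4379451984) (nat_lit 420) (nat_lit 22400330392) (nat_lit 36) (nat_lit 5) (nat_lit 40) (nat_lit 5) (nat_lit 41) (nat_lit 5) (nat_lit 375) (nat_lit 335) (nat_lit 178)) (XT.nd (nat_lit 94) (nat_lit 0) (nat_lit 0) (XT.lf (nat_lit 0) (nat_lit 8552812257) (nat_lit 420) (nat_lit 18740756343) (nat_lit 84) (nat_lit 2255600128) (nat_lit 36) (nat_lit 5) (nat_lit 41) (nat_lit 5) (nat_lit 37) (nat_lit 5) (nat_lit 376) (nat_lit 335) (nat_lit 177)) (XT.lf (nat_lit 0) (nat_lit 10694444224) (nat_lit 420) (nat_lit 10501407444) (nat_lit 84) (nat_lit 9004987930) (nat_lit 36) (nat_lit 5) (nat_lit 41) (nat_lit 5) (nat_lit 37) (nat_lit 5) (nat_lit 377) (nat_lit 335) (nat_lit 176)))) (XT.nd (nat_lit 94) (nat_lit 336) (nat_lit 0) (XT.lf (nat_lit 0) (nat_lit 12898991371)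 (nat_lit 420) (nat_lit 2010611039) (nat_lit 84) (nat_lit 15963238755) (nat_lit 36) (nat_lit 5) (nat_lit 41) (nat_lit 5) (nat_lit 37) (nat_lit 5) (nat_lit 378) (nat_lit 335) (nat_lit 175)) (XT.nd (nat_lit 94) (nat_lit 0) (nat_lit 0) (XT.lf (nat_lit 0) (nat_lit 6878126097) (nat_lit 336) (nat_lit 8358614331) (nat_lit 420) (nat_lit 16326944186) (nat_lit 32) (nat_lit 5) (nat_lit 36) (nat_lit 5) (nat_lit 37) (nat_lit 5) (nat_lit 379) (nat_lit 335) (nat_lit 174)) (XT.lf (nat_lit 0) (nat_lit 16081224120) (nat_lit 336) (nat_lit 1583414852) (nat_lit 420) (nat_lit 14610777090) (nat_lit 32) (nat_lit 5) (nat_lit 36) (nat_lit 5) (nat_lit 37) (nat_lit 5) (nat_lit 380) (nat_lit 335) (nat_lit 173)))))) (XT.nd (nat_lit 564) (nat_lit 336) (nat_lit 0) (XT.nd (nat_lit 282) (nat_lit 252) (nat_lit 0) (XT.nd (nat_lit 94) (nat_lit 252) (nat_lit 0) (XT.lf (nat_lit 0) (nat_lit 20218176235) (nat_lit 420) (nat_lit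 7496992755) (nat_lit 84) (nat_lit 5292499914) (nat_lit 32) (nat_lit 5) (nat_lit 37) (nat_lit 5) (nat_lit 33) (nat_lit 5) (nat_lit 381) (nat_lit 335) (nat_lit 172)) (XT.nd (nat_lit 94) (nat_lit 0) (nat_lit 0) (XT.lf (nat_lit 0) (nat_lit 1479740043) (nat_lit 252) (nat_lit 21398890708) (nat_lit 336) (nat_lit 10883149075) (nat_lit 29) (nat_lit 5) (nat_lit 32) (nat_lit 5) (nat_lit 33) (nat_lit 5) (nat_lit 382) (nat_lit 335) (nat_lit 171)) (XT.lf (nat_lit 0) (nat_lit 10890022889) (nat_lit 252) (nat_lit 14806730861) (nat_lit 336) (nat_lit 8840201575) (nat_lit 29) (nat_lit 5) (nat_lit 32) (nat_lit 5) (nat_lit 33) (nat_lit 5) (nat_lit 383) (nat_lit 335) (nat_lit 170)))) (XT.nd (nat_lit 94) (nat_lit 252) (nat_lit 0) (XT.lf (nat_lit 0) (nat_lit 20588473605) (nat_lit 252) (nat_lit 8010798096) (nat_lit 336) (nat_lit 6736999155) (nat_lit 29) (nat_lit 5) (nat_lit 32) (nat_lit 5) (nat_lit 33) (nat_lit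 5) (nat_lit 384) (nat_lit 335) (nat_lit 169)) (XT.nd (nat_lit 94) (nat_lit 252) (nat_lit 0) (XT.lf (nat_lit 0) (nat_lit 30584132164) (nat_lit 252) (nat_lit 1004757891) (nat_lit 336) (nat_lit 4571581412) (nat_lit 29) (nat_lit 5) (nat_lit 32) (nat_lit 5) (nat_lit 33) (nat_lit 5) (nat_lit 385) (nat_lit 335) (nat_lit 168)) (XT.lf (nat_lit 0) (nat_lit 3892737619) (nat_lit 252) (nat_lit 30875956804) (nat_lit 336) (nat_lit 2238521703) (nat_lit 26) (nat_lit 5) (nat_lit 29) (nat_lit 5) (nat_lit 30) (nat_lit 5) (nat_lit 386) (nat_lit 335) (nat_lit 167))))) (XT.nd (nat_lit 282) (nat_lit 252) (nat_lit 0) (XT.nd (nat_lit 94) (nat_lit 0) (nat_lit 0) (XT.lf (nat_lit 0) (nat_lit 229788006) (nat_lit 336) (nat_lit 24120837402) (nat_lit 84) (nat_lit 13527493843) (nat_lit 25) (nat_lit 5) (nat_lit 29) (nat_lit 5) (nat_lit 26) (nat_lit 5) (nat_lit 387) (nat_lit 335) (nat_lit 166)) (XT.nd (nat_lit 94)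 (nat_lit 0) (nat_lit 0) (XT.lf (nat_lit 0) (nat_lit 2725409753) (nat_lit 336) (nat_lit 14874660084) (nat_lit 84) (nat_lit 21175339815) (nat_lit 25) (nat_lit 5) (nat_lit 29) (nat_lit 5) (nat_lit 26) (nat_lit 5) (nat_lit 388) (nat_lit 335) (nat_lit 165)) (XT.lf (nat_lit 0) (nat_lit 5295770940) (nat_lit 336) (nat_lit 5345121733) (nat_lit 84) (nat_lit 29059719421) (nat_lit 25) (nat_lit 5) (nat_lit 29) (nat_lit 5) (nat_lit 26) (nat_lit 5) (nat_lit 389) (nat_lit 335) (nat_lit 164)))) (XT.nd (nat_lit 188) (nat_lit 0) (nat_lit 0) (XT.nd (nat_lit 94) (nat_lit 0) (nat_lit 0) (XT.lf (nat_lit 0) (nat_lit 4568709491) (nat_lit 252) (nat_lit 3419880085) (nat_lit 336) (nat_lit 32664594400) (nat_lit 22) (nat_lit 5) (nat_lit 25) (nat_lit 5) (nat_lit 26) (nat_lit 5) (nat_lit 390) (nat_lit 335) (nat_lit 163)) (XT.lf (nat_lit 0) (nat_lit 10858669807) (nat_lit 336) (nat_lit 26774096724) (nat_lit 84) (nat_lit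 3999625547) (nat_lit 22) (nat_lit 5) (nat_lit 26) (nat_lit 5) (nat_lit 23) (nat_lit 5) (nat_lit 391) (nat_lit 335) (nat_lit 162))) (XT.nd (nat_lit 94) (nat_lit 0) (nat_lit 0) (XT.lf (nat_lit 0) (nat_lit 13850268375) (nat_lit 336) (nat_lit 17213202599) (nat_lit 84) (nat_lit 11577489121) (nat_lit 22) (nat_lit 5) (nat_lit 26) (nat_lit 5) (nat_lit 23) (nat_lit 5) (nat_lit 392) (nat_lit 335) (nat_lit 161)) (XT.lf (nat_lit 0) (nat_lit 16932248131) (nat_lit 336) (nat_lit 7358954721) (nat_lit 84) (nat_lit 19389676962) (nat_lit 22) (nat_lit 5) (nat_lit 26) (nat_lit 5) (nat_lit 23) (nat_lit 5) (nat_lit 393) (nat_lit 335) (nat_lit 160))))))) (XT.nd (nat_lit 1222) (nat_lit 336) (nat_lit 0) (XT.nd (nat_lit 564) (nat_lit 252) (nat_lit 0) (XT.nd (nat_lit 282) (nat_lit 168) (nat_lit 0) (XT.nd (nat_lit 94) (nat_lit 0) (nat_lit 0) (XT.lf (nat_lit 0) (nat_lit 2855361266) (nat_lit 252) (nat_lit 17280446073)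 (nat_lit 336) (nat_lit 24616435118) (nat_lit 19) (nat_lit 5) (nat_lit 22) (nat_lit 5) (nat_lit 23) (nat_lit 5) (nat_lit 394) (nat_lit 335) (nat_lit 159)) (XT.nd (nat_lit 94) (nat_lit 0) (nat_lit 0) (XT.lf (nat_lit 0) (nat_lit 13539414075) (nat_lit 252) (nat_lit 9973827627) (nat_lit 336) (nat_lit 22341276345) (nat_lit 19) (nat_lit 5) (nat_lit 22) (nat_lit 5) (nat_lit 23) (nat_lit 5) (nat_lit 395) (nat_lit 335) (nat_lit 158)) (XT.lf (nat_lit 0) (nat_lit 24551847159) (nat_lit 252) (nat_lit 2441349376) (nat_lit 336) (nat_lit 19997847071) (nat_lit 19) (nat_lit 5) (nat_lit 22) (nat_lit 5) (nat_lit 23) (nat_lit 5) (nat_lit 396) (nat_lit 335) (nat_lit 157)))) (XT.nd (nat_lit 94) (nat_lit 168) (nat_lit 0) (XT.lf (nat_lit 0) (nat_lit 30631730358) (nat_lit 336) (nat_lit 12312768074) (nat_lit 84) (nat_lit 5216742806) (nat_lit 19) (nat_lit 5) (nat_lit 23) (nat_lit 5) (nat_lit 20) (nat_lit 5)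 (nat_lit 397) (nat_lit 335) (nat_lit 156)) (XT.nd (nat_lit 94) (nat_lit 168) (nat_lit 0) (XT.lf (nat_lit 0) (nat_lit 34405971096) (nat_lit 336) (nat_lit 1900116392) (nat_lit 84) (nat_lit 13060928369) (nat_lit 19) (nat_lit 5) (nat_lit 23) (nat_lit 5) (nat_lit 20) (nat_lit 5) (nat_lit 398) (nat_lit 335) (nat_lit 155)) (XT.lf (nat_lit 0) (nat_lit 9014300840) (nat_lit 168) (nat_lit 29370340391) (nat_lit 252) (nat_lit 12222828805) (nat_lit 17) (nat_lit 5) (nat_lit 19) (nat_lit 5) (nat_lit 20) (nat_lit 5) (nat_lit 399) (nat_lit 335) (nat_lit 154))))) (XT.nd (nat_lit 282) (nat_lit 252) (nat_lit 0) (XT.nd (nat_lit 94) (nat_lit 0) (nat_lit 0) (XT.lf (nat_lit 0) (nat_lit 20304728528) (nat_lit 168) (nat_lit 22199793900) (nat_lit 252) (nat_lit 9381312309) (nat_lit 17) (nat_lit 5) (nat_lit 19) (nat_lit 5) (nat_lit 20) (nat_lit 5) (nat_lit 400) (nat_lit 335) (nat_lit 153)) (XT.nd (nat_lit 94)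 (nat_lit 0) (nat_lit 0) (XT.lf (nat_lit 0) (nat_lit 31942620242) (nat_lit 168) (nat_lit 14807597634) (nat_lit 252) (nat_lit 6453680003) (nat_lit 17) (nat_lit 5) (nat_lit 19) (nat_lit 5) (nat_lit 20) (nat_lit 5) (nat_lit 401) (nat_lit 335) (nat_lit 152)) (XT.lf (nat_lit 0) (nat_lit 43938823717) (nat_lit 168) (nat_lit 7186861291) (nat_lit 252) (nat_lit 3437203025) (nat_lit 17) (nat_lit 5) (nat_lit 19) (nat_lit 5) (nat_lit 20) (nat_lit 5) (nat_lit 402) (nat_lit 335) (nat_lit 151)))) (XT.nd (nat_lit 188) (nat_lit 0) (nat_lit 0) (XT.nd (nat_lit 94) (nat_lit 84) (nat_lit 0) (XT.lf (nat_lit 0) (nat_lit 340670799) (nat_lit 168) (nat_lit 55304352622) (nat_lit 252) (nat_lit 318737844) (nat_lit 15) (nat_lit 5) (nat_lit 17) (nat_lit 5) (nat_lit 18) (nat_lit 5) (nat_lit 403) (nat_lit 335) (nat_lit 150)) (XT.lf (nat_lit 0) (nat_lit 3021783508) (nat_lit 252) (nat_lit 45639927092) (nat_lit 84) (nat_lit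 8739773323) (nat_lit 14) (nat_lit 5) (nat_lit 17) (nat_lit 5) (nat_lit 15) (nat_lit 5) (nat_lit 404) (nat_lit 335) (nat_lit 149))) (XT.nd (nat_lit 94) (nat_lit 0) (nat_lit 0) (XT.lf (nat_lit 0) (nat_lit 6457501433) (nat_lit 252) (nat_lit 35352940351) (nat_lit 84) (nat_lit 17073295770) (nat_lit 14) (nat_lit 5) (nat_lit 17) (nat_lit 5) (nat_lit 15) (nat_lit 5) (nat_lit 405) (nat_lit 335) (nat_lit 148)) (XT.lf (nat_lit 0) (nat_lit 9998040235) (nat_lit 252) (nat_lit 24749379777) (nat_lit 84) (nat_lit 25664581781) (nat_lit 14) (nat_lit 5) (nat_lit 17) (nat_lit 5) (nat_lit 15) (nat_lit 5) (nat_lit 406) (nat_lit 335) (nat_lit 147)))))) (XT.nd (nat_lit 564) (nat_lit 168) (nat_lit 0) (XT.nd (nat_lit 282) (nat_lit 0) (nat_lit 0) (XT.nd (nat_lit 94) (nat_lit 168) (nat_lit 0) (XT.lf (nat_lit 0) (nat_lit 13646700067) (nat_lit 252) (nat_lit 13819361741) (nat_lit 84) (nat_lit 34521639334) (nat_lit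 14) (nat_lit 5) (nat_lit 17) (nat_lit 5) (nat_lit 15) (nat_lit 5) (nat_lit 407) (nat_lit 335) (nat_lit 146)) (XT.nd (nat_lit 94) (nat_lit 168) (nat_lit 0) (XT.lf (nat_lit 0) (nat_lit 17406881863) (nat_lit 252) (nat_lit 2552698320) (nat_lit 84) (nat_lit 43652724136) (nat_lit 14) (nat_lit 5) (nat_lit 17) (nat_lit 5) (nat_lit 15) (nat_lit 5) (nat_lit 408) (nat_lit 335) (nat_lit 145)) (XT.lf (nat_lit 0) (nat_lit 9247427246) (nat_lit 168) (nat_lit 12126398882) (nat_lit 252) (nat_lit 43910655690) (nat_lit 12) (nat_lit 5) (nat_lit 14) (nat_lit 5) (nat_lit 15) (nat_lit 5) (nat_lit 409) (nat_lit 335) (nat_lit 144)))) (XT.nd (nat_lit 94) (nat_lit 0) (nat_lit 0) (XT.lf (nat_lit 0) (nat_lit 21465374555) (nat_lit 168) (nat_lit 4023502714) (nat_lit 252) (nat_lit 41518847967) (nat_lit 12) (nat_lit 5) (nat_lit 14) (nat_lit 5) (nat_lit 15) (nat_lit 5) (nat_lit 410) (nat_lit 335) (nat_lit 143)) (XT.nd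 (nat_lit 94) (nat_lit 0) (nat_lit 0) (XT.lf (nat_lit 0) (nat_lit 29772981461) (nat_lit 252) (nat_lit 34767352968) (nat_lit 84) (nat_lit 4242775960) (nat_lit 12) (nat_lit 5) (nat_lit 15) (nat_lit 5) (nat_lit 13) (nat_lit 5) (nat_lit 411) (nat_lit 335) (nat_lit 142)) (XT.lf (nat_lit 0) (nat_lit 34229614698) (nat_lit 252) (nat_lit 23701500766) (nat_lit 84) (nat_lit 12681192690) (nat_lit 12) (nat_lit 5) (nat_lit 15) (nat_lit 5) (nat_lit 13) (nat_lit 5) (nat_lit 412) (nat_lit 335) (nat_lit 141))))) (XT.nd (nat_lit 282) (nat_lit 0) (nat_lit 0) (XT.nd (nat_lit 94) (nat_lit 168) (nat_lit 0) (XT.lf (nat_lit 0) (nat_lit 38823017384) (nat_lit 252) (nat_lit 12294565897) (nat_lit 84) (nat_lit 21380677579) (nat_lit 12) (nat_lit 5) (nat_lit 15) (nat_lit 5) (nat_lit 13) (nat_lit 5) (nat_lit 413) (nat_lit 335) (nat_lit 140)) (XT.nd (nat_lit 94) (nat_lit 168) (nat_lit 0) (XT.lf (nat_lit 0) (nat_lit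 43557471053) (nat_lit 252) (nat_lit 535915903) (nat_lit 84) (nat_lit 30349339457) (nat_lit 12) (nat_lit 5) (nat_lit 15) (nat_lit 5) (nat_lit 13) (nat_lit 5) (nat_lit 414) (nat_lit 335) (nat_lit 139)) (XT.lf (nat_lit 0) (nat_lit 11823629288) (nat_lit 168) (nat_lit 36731051288) (nat_lit 252) (nat_lit 27889200634) (nat_lit 10) (nat_lit 5) (nat_lit 12) (nat_lit 5) (nat_lit 13) (nat_lit 5) (nat_lit 415) (nat_lit 335) (nat_lit 138)))) (XT.nd (nat_lit 188) (nat_lit 0) (nat_lit 0) (XT.nd (nat_lit 94) (nat_lit 0) (nat_lit 0) (XT.lf (nat_lit 0) (nat_lit 24575857442) (nat_lit 168) (nat_lit 29135257058) (nat_lit 252) (nat_lit 24795829909) (nat_lit 10) (nat_lit 5) (nat_lit 12) (nat_lit 5) (nat_lit 13) (nat_lit 5) (nat_lit 416) (nat_lit 335) (nat_lit 137)) (XT.lf (nat_lit 0) (nat_lit 37721635439) (nat_lit 168) (nat_lit 21304518052) (nat_lit 252) (nat_lit 21607853703) (nat_lit 10) (nat_lit 5) (nat_lit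 12) (nat_lit 5) (nat_lit 13) (nat_lit 5) (nat_lit 417) (nat_lit 335) (nat_lit 136))) (XT.nd (nat_lit 94) (nat_lit 0) (nat_lit 0) (XT.lf (nat_lit 0) (nat_lit 51273216522) (nat_lit 168) (nat_lit 13231535202) (nat_lit 252) (nat_lit 18322300488) (nat_lit 10) (nat_lit 5) (nat_lit 12) (nat_lit 5) (nat_lit 13) (nat_lit 5) (nat_lit 418) (nat_lit 335) (nat_lit 135)) (XT.lf (nat_lit 0) (nat_lit 65243232183) (nat_lit 168) (nat_lit 4908783642) (nat_lit 252) (nat_lit 14936107785) (nat_lit 10) (nat_lit 5) (nat_lit 12) (nat_lit 5) (nat_lit 13) (nat_lit 5) (nat_lit 419) (nat_lit 335) (nat_lit 134))))))))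
noncomputable def xc173 : XT := (XT.nd (nat_lit 49350) (nat_lit 0) (nat_lit 2352) (XT.nd (nat_lit 48128) (nat_lit 0) (nat_lit 6132) (XT.nd (nat_lit 564) (nat_lit 0) (nat_lit 0) (XT.nd (nat_lit 282) (nat_lit 84) (nat_lit 0) (XT.nd (nat_lit 94) (nat_lit 84) (nat_lit 0) (XT.lf (nat_lit 0) (nat_lit 76009631315) (nat_lit 252) (nat_lit 7811046681) (nat_lit 84) (nat_lit 3597521875) (nat_lit 10) (nat_lit 5) (nat_lit 13) (nat_lit 5) (nat_lit 11) (nat_lit 4) (nat_lit 420) (nat_lit 335) (nat_lit 133)) (XT.nd (nat_lit 94) (nat_lit 0) (nat_lit 0) (XT.lf (nat_lit 0) (nat_lit 4637476011) (nat_lit 84) (nat_lit 77506460577) (nat_lit 168) (nat_lit 7673629052) (nat_lit 9) (nat_lit 5) (nat_lit 10) (nat_lit 5) (nat_lit 11) (nat_lit 4) (nat_lit 421) (nat_lit 335) (nat_lit 132)) (XT.lf (nat_lit 0) (nat_lit 17635908461) (nat_lit 84) (nat_lit 70912939761) (nat_lit 168) (nat_lit 3739974990) (nat_lit 9) (nat_lit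 5) (nat_lit 10) (nat_lit 5) (nat_lit 11) (nat_lit 4) (nat_lit 422) (nat_lit 335) (nat_lit 131)))) (XT.nd (nat_lit 94) (nat_lit 0) (nat_lit 0) (XT.lf (nat_lit 0) (nat_lit 308191843) (nat_lit 168) (nat_lit 63804092272) (nat_lit 84) (nat_lit 30724346695) (nat_lit 8) (nat_lit 5) (nat_lit 10) (nat_lit 5) (nat_lit 9) (nat_lit 5) (nat_lit 423) (nat_lit 335) (nat_lit 130)) (XT.nd (nat_lit 94) (nat_lit 0) (nat_lit 0) (XT.lf (nat_lit 0) (nat_lit 4403124569) (nat_lit 168) (nat_lit 52658724228) (nat_lit 84) (nat_lit 40400422818) (nat_lit 8) (nat_lit 5) (nat_lit 10) (nat_lit 5) (nat_lit 9) (nat_lit 5) (nat_lit 424) (nat_lit 335) (nat_lit 129)) (XT.lf (nat_lit 0) (nat_lit 8623992253) (nat_lit 168) (nat_lit 41169320953) (nat_lit 84) (nat_lit 50376029921) (nat_lit 8) (nat_lit 5) (nat_lit 10) (nat_lit 5) (nat_lit 9) (nat_lit 5) (nat_lit 425) (nat_lit 335) (nat_lit 128))))) (XT.nd (nat_lit 47282)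 (nat_lit 0) (nat_lit 6132) (XT.nd (nat_lit 94) (nat_lit 0) (nat_lit 0) (XT.lf (nat_lit 0) (nat_lit 12974729188) (nat_lit 168) (nat_lit 29325173121) (nat_lit 84) (nat_lit 60660466316) (nat_lit 8) (nat_lit 5) (nat_lit 10) (nat_lit 5) (nat_lit 9) (nat_lit 5) (nat_lit 426) (nat_lit 335) (nat_lit 127)) (XT.nd (nat_lit 94) (nat_lit 0) (nat_lit 0) (XT.lf (nat_lit 0) (nat_lit 17459390715) (nat_lit 168) (nat_lit 17115240746) (nat_lit 84) (nat_lit 71263318175) (nat_lit 8) (nat_lit 5) (nat_lit 10) (nat_lit 5) (nat_lit 9) (nat_lit 5) (nat_lit 427) (nat_lit 335) (nat_lit 126)) (XT.lf (nat_lit 0) (nat_lit 22082157008) (nat_lit 168) (nat_lit 4528142890) (nat_lit 84) (nat_lit 82194468466) (nat_lit 8) (nat_lit 5) (nat_lit 10) (nat_lit 5) (nat_lit 9) (nat_lit 5) (nat_lit 428) (nat_lit 335) (nat_lit 125)))) (XT.nd (nat_lit 94) (nat_lit 0) (nat_lit 0) (XT.lf (nat_lit 0) (nat_lit 1666791946) (nat_lit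 0) (nat_lit 1666791946) (nat_lit 924) (nat_lit 3847293605) (nat_lit 81) (nat_lit 5) (nat_lit 81) (nat_lit 3) (nat_lit 92) (nat_lit 3) (nat_lit 336) (nat_lit 336) (nat_lit 216)) (XT.nd (nat_lit 94) (nat_lit 0) (nat_lit 0) (XT.lf (nat_lit 0) (nat_lit 7033289649) (nat_lit 924) (nat_lit 6435786051) (nat_lit 1008) (nat_lit 1105304263) (nat_lit 81) (nat_lit 5) (nat_lit 92) (nat_lit 3) (nat_lit 93) (nat_lit 5) (nat_lit 337) (nat_lit 336) (nat_lit 215)) (XT.lf (nat_lit 0) (nat_lit 7434768319) (nat_lit 924) (nat_lit 1740639318) (nat_lit 1008) (nat_lit 5617518433) (nat_lit 81) (nat_lit 5) (nat_lit 92) (nat_lit 3) (nat_lit 93) (nat_lit 5) (nat_lit 338) (nat_lit 336) (nat_lit 214)))))) (XT.nd (nat_lit 564) (nat_lit 0) (nat_lit 168) (XT.nd (nat_lit 282) (nat_lit 0) (nat_lit 84) (XT.nd (nat_lit 94) (nat_lit 0) (nat_lit 0) (XT.lf (nat_lit 84) (nat_lit 3158348715) (nat_lit 0) (nat_lit 4711890945)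 (nat_lit 1008) (nat_lit 7147411255) (nat_lit 82) (nat_lit 5) (nat_lit 81) (nat_lit 5) (nat_lit 93) (nat_lit 5) (nat_lit 339) (nat_lit 336) (nat_lit 213)) (XT.nd (nat_lit 94) (nat_lit 0) (nat_lit 84) (XT.lf (nat_lit 84) (nat_lit 8240818164) (nat_lit 0) (nat_lit 87018516) (nat_lit 1008) (nat_lit 6921307743) (nat_lit 82) (nat_lit 5) (nat_lit 81) (nat_lit 5) (nat_lit 93) (nat_lit 5) (nat_lit 340) (nat_lit 336) (nat_lit 212)) (XT.lf (nat_lit 0) (nat_lit 8836842768) (nat_lit 924) (nat_lit 2058932629) (nat_lit 1008) (nat_lit 4590952412) (nat_lit 82) (nat_lit 5) (nat_lit 93) (nat_lit 5) (nat_lit 94) (nat_lit 5) (nat_lit 341) (nat_lit 336) (nat_lit 211)))) (XT.nd (nat_lit 94) (nat_lit 0) (nat_lit 0) (XT.lf (nat_lit 84) (nat_lit 3100104270) (nat_lit 0) (nat_lit 6284229483) (nat_lit 1008) (nat_lit 6346704128) (nat_lit 83) (nat_lit 5) (nat_lit 82) (nat_lit 5) (nat_lit 94) (nat_lit 5) (nat_lit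 342) (nat_lit 336) (nat_lit 210)) (XT.nd (nat_lit 94) (nat_lit 0) (nat_lit 84) (XT.lf (nat_lit 84) (nat_lit 8457415720) (nat_lit 0) (nat_lit 1504150694) (nat_lit 1008) (nat_lit 6021022810) (nat_lit 83) (nat_lit 5) (nat_lit 82) (nat_lit 5) (nat_lit 94) (nat_lit 5) (nat_lit 343) (nat_lit 336) (nat_lit 209)) (XT.lf (nat_lit 0) (nat_lit 10582234432) (nat_lit 924) (nat_lit 2300603567) (nat_lit 1008) (nat_lit 3358370484) (nat_lit 83) (nat_lit 5) (nat_lit 94) (nat_lit 5) (nat_lit 95) (nat_lit 5) (nat_lit 344) (nat_lit 336) (nat_lit 208))))) (XT.nd (nat_lit 282) (nat_lit 0) (nat_lit 84) (XT.nd (nat_lit 94) (nat_lit 0) (nat_lit 0) (XT.lf (nat_lit 84) (nat_lit 3128235360) (nat_lit 0) (nat_lit 8132151112) (nat_lit 1008) (nat_lit 5246332672) (nat_lit 84) (nat_lit 5) (nat_lit 83) (nat_lit 5) (nat_lit 95) (nat_lit 5) (nat_lit 345) (nat_lit 336) (nat_lit 207)) (XT.nd (nat_lit 94) (nat_lit 0) (nat_lit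 84) (XT.lf (nat_lit 84) (nat_lit 8768858175) (nat_lit 0) (nat_lit 3206736895) (nat_lit 1008) (nat_lit 4804426468) (nat_lit 84) (nat_lit 5) (nat_lit 83) (nat_lit 5) (nat_lit 95) (nat_lit 5) (nat_lit 346) (nat_lit 336) (nat_lit 206)) (XT.lf (nat_lit 0) (nat_lit 12723825467) (nat_lit 924) (nat_lit 2501465184) (nat_lit 1008) (nat_lit 1836225506) (nat_lit 84) (nat_lit 5) (nat_lit 95) (nat_lit 5) (nat_lit 96) (nat_lit 5) (nat_lit 347) (nat_lit 336) (nat_lit 205)))) (XT.nd (nat_lit 188) (nat_lit 0) (nat_lit 0) (XT.nd (nat_lit 94) (nat_lit 0) (nat_lit 0) (XT.lf (nat_lit 84) (nat_lit 3205539461) (nat_lit 0) (nat_lit 10346826362) (nat_lit 1008) (nat_lit 3797655245) (nat_lit 85) (nat_lit 5) (nat_lit 84) (nat_lit 5) (nat_lit 96) (nat_lit 5) (nat_lit 348) (nat_lit 336) (nat_lit 204)) (XT.lf (nat_lit 84) (nat_lit 9137263186) (nat_lit 0) (nat_lit 5288129110) (nat_lit 1008) (nat_lit 3221547373)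 (nat_lit 85) (nat_lit 5) (nat_lit 84) (nat_lit 5) (nat_lit 96) (nat_lit 5) (nat_lit 349) (nat_lit 336) (nat_lit 203))) (XT.nd (nat_lit 94) (nat_lit 0) (nat_lit 84) (XT.lf (nat_lit 84) (nat_lit 15247799725) (nat_lit 0) (nat_lit 70593825) (nat_lit 1008) (nat_lit 2634940247) (nat_lit 85) (nat_lit 5) (nat_lit 84) (nat_lit 5) (nat_lit 96) (nat_lit 5) (nat_lit 350) (nat_lit 336) (nat_lit 202)) (XT.lf (nat_lit 84) (nat_lit 3286897110) (nat_lit 0) (nat_lit 13030593506) (nat_lit 1008) (nat_lit 1949354479) (nat_lit 86) (nat_lit 5) (nat_lit 85) (nat_lit 5) (nat_lit 97) (nat_lit 5) (nat_lit 351) (nat_lit 336) (nat_lit 201))))))) (XT.nd (nat_lit 1222) (nat_lit 1596) (nat_lit 0) (XT.nd (nat_lit 564) (nat_lit 924) (nat_lit 0) (XT.nd (nat_lit 282) (nat_lit 672) (nat_lit 0) (XT.nd (nat_lit 94) (nat_lit 924) (nat_lit 0) (XT.lf (nat_lit 84) (nat_lit 9516564876) (nat_lit 0) (nat_lit 7853248367) (nat_lit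 1008) (nat_lit 1219620393) (nat_lit 86) (nat_lit 5) (nat_lit 85) (nat_lit 5) (nat_lit 97) (nat_lit 5) (nat_lit 352) (nat_lit 336) (nat_lit 200)) (XT.nd (nat_lit 94) (nat_lit 924) (nat_lit 0) (XT.lf (nat_lit 84) (nat_lit 15934359296) (nat_lit 0) (nat_lit 2513898696) (nat_lit 1008) (nat_lit 474012725) (nat_lit 86) (nat_lit 5) (nat_lit 85) (nat_lit 5) (nat_lit 97) (nat_lit 5) (nat_lit 353) (nat_lit 336) (nat_lit 199)) (XT.lf (nat_lit 0) (nat_lit 345595732) (nat_lit 1008) (nat_lit 15949468960) (nat_lit 84) (nat_lit 2968552891) (nat_lit 74) (nat_lit 5) (nat_lit 86) (nat_lit 5) (nat_lit 75) (nat_lit 5) (nat_lit 354) (nat_lit 336) (nat_lit 198)))) (XT.nd (nat_lit 94) (nat_lit 672) (nat_lit 0) (XT.lf (nat_lit 0) (nat_lit 1231726677) (nat_lit 1008) (nat_lit 9775760973) (nat_lit 84) (nat_lit 8606371178) (nat_lit 74) (nat_lit 5) (nat_lit 86) (nat_lit 5) (nat_lit 75) (nat_lit 5) (nat_lit 355)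 (nat_lit 336) (nat_lit 197)) (XT.nd (nat_lit 94) (nat_lit 672) (nat_lit 0) (XT.lf (nat_lit 0) (nat_lit 2139258882) (nat_lit 1008) (nat_lit 3415729136) (nat_lit 84) (nat_lit 14420199086) (nat_lit 74) (nat_lit 5) (nat_lit 86) (nat_lit 5) (nat_lit 75) (nat_lit 5) (nat_lit 356) (nat_lit 336) (nat_lit 196)) (XT.lf (nat_lit 0) (nat_lit 3101787613) (nat_lit 756) (nat_lit 17146900596) (nat_lit 84) (nat_lit 98235771) (nat_lit 66) (nat_lit 5) (nat_lit 75) (nat_lit 5) (nat_lit 67) (nat_lit 5) (nat_lit 357) (nat_lit 336) (nat_lit 195))))) (XT.nd (nat_lit 282) (nat_lit 420) (nat_lit 0) (XT.nd (nat_lit 94) (nat_lit 504) (nat_lit 0) (XT.lf (nat_lit 0) (nat_lit 4181238425) (nat_lit 756) (nat_lit 10698068245) (nat_lit 84) (nat_lit 5848217402) (nat_lit 66) (nat_lit 5) (nat_lit 75) (nat_lit 5) (nat_lit 67) (nat_lit 5) (nat_lit 358) (nat_lit 336) (nat_lit 194)) (XT.nd (nat_lit 94) (nat_lit 504) (nat_lit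 0) (XT.lf (nat_lit 0) (nat_lit 5288576435) (nat_lit 756) (nat_lit 4054254764) (nat_lit 84) (nat_lit 11777302213) (nat_lit 66) (nat_lit 5) (nat_lit 75) (nat_lit 5) (nat_lit 67) (nat_lit 5) (nat_lit 359) (nat_lit 336) (nat_lit 193)) (XT.lf (nat_lit 0) (nat_lit 2848115763) (nat_lit 504) (nat_lit 3604971697) (nat_lit 588) (nat_lit 15071154629) (nat_lit 60) (nat_lit 5) (nat_lit 66) (nat_lit 5) (nat_lit 67) (nat_lit 5) (nat_lit 360) (nat_lit 336) (nat_lit 192)))) (XT.nd (nat_lit 188) (nat_lit 420) (nat_lit 0) (XT.nd (nat_lit 94) (nat_lit 0) (nat_lit 0) (XT.lf (nat_lit 0) (nat_lit 7714085313) (nat_lit 588) (nat_lit 11917455347) (nat_lit 84) (nat_lit 2307501036) (nat_lit 60) (nat_lit 5) (nat_lit 67) (nat_lit 5) (nat_lit 61) (nat_lit 5) (nat_lit 361) (nat_lit 336) (nat_lit 191)) (XT.lf (nat_lit 0) (nat_lit 9045916475) (nat_lit 588) (nat_lit 4990928446) (nat_lit 84) (nat_lit 8328905645) (nat_lit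 60) (nat_lit 5) (nat_lit 67) (nat_lit 5) (nat_lit 61) (nat_lit 5) (nat_lit 362) (nat_lit 336) (nat_lit 190))) (XT.nd (nat_lit 94) (nat_lit 0) (nat_lit 0) (XT.lf (nat_lit 0) (nat_lit 2189791815) (nat_lit 420) (nat_lit 8245991776) (nat_lit 504) (nat_lit 12369418046) (nat_lit 55) (nat_lit 5) (nat_lit 60) (nat_lit 5) (nat_lit 61) (nat_lit 5) (nat_lit 363) (nat_lit 336) (nat_lit 189)) (XT.lf (nat_lit 0) (nat_lit 9694318129) (nat_lit 420) (nat_lit 2221643605) (nat_lit 504) (nat_lit 11340882421) (nat_lit 55) (nat_lit 5) (nat_lit 60) (nat_lit 5) (nat_lit 61) (nat_lit 5) (nat_lit 364) (nat_lit 336) (nat_lit 188)))))) (XT.nd (nat_lit 564) (nat_lit 840) (nat_lit 0) (XT.nd (nat_lit 282) (nat_lit 336) (nat_lit 0) (XT.nd (nat_lit 94) (nat_lit 420) (nat_lit 0) (XT.lf (nat_lit 0) (nat_lit 13476880434) (nat_lit 504) (nat_lit 6335222233) (nat_lit 84) (nat_lit 3909335891) (nat_lit 55) (nat_lit 5) (nat_lit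 61) (nat_lit 5) (nat_lit 56) (nat_lit 5) (nat_lit 365) (nat_lit 336) (nat_lit 187)) (XT.nd (nat_lit 94) (nat_lit 0) (nat_lit 0) (XT.lf (nat_lit 0) (nat_lit 1111292000) (nat_lit 420) (nat_lit 14004063003) (nat_lit 504) (nat_lit 9084206717) (nat_lit 50) (nat_lit 5) (nat_lit 55) (nat_lit 5) (nat_lit 56) (nat_lit 5) (nat_lit 366) (nat_lit 336) (nat_lit 186)) (XT.lf (nat_lit 0) (nat_lit 8918493309) (nat_lit 420) (nat_lit 7947770206) (nat_lit 504) (nat_lit 7824361914) (nat_lit 50) (nat_lit 5) (nat_lit 55) (nat_lit 5) (nat_lit 56) (nat_lit 5) (nat_lit 367) (nat_lit 336) (nat_lit 185)))) (XT.nd (nat_lit 94) (nat_lit 336) (nat_lit 0) (XT.lf (nat_lit 0) (nat_lit 16963393658) (nat_lit 420) (nat_lit 1703705904) (nat_lit 504) (nat_lit 6529976136) (nat_lit 50) (nat_lit 5) (nat_lit 55) (nat_lit 5) (nat_lit 56) (nat_lit 5) (nat_lit 368) (nat_lit 336) (nat_lit 184)) (XT.nd (nat_lit 94) (nat_lit 336)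 (nat_lit 0) (XT.lf (nat_lit 0) (nat_lit 20566503082) (nat_lit 504) (nat_lit 512854224) (nat_lit 84) (nat_lit 4638571482) (nat_lit 50) (nat_lit 5) (nat_lit 56) (nat_lit 5) (nat_lit 51) (nat_lit 5) (nat_lit 369) (nat_lit 336) (nat_lit 183)) (XT.lf (nat_lit 0) (nat_lit 7578359186) (nat_lit 336) (nat_lit 15034939403) (nat_lit 420) (nat_lit 3638912925) (nat_lit 46) (nat_lit 5) (nat_lit 50) (nat_lit 5) (nat_lit 51) (nat_lit 5) (nat_lit 370) (nat_lit 336) (nat_lit 182))))) (XT.nd (nat_lit 282) (nat_lit 336) (nat_lit 0) (XT.nd (nat_lit 94) (nat_lit 504) (nat_lit 0) (XT.lf (nat_lit 0) (nat_lit 15927092987) (nat_lit 336) (nat_lit 8797793828) (nat_lit 420) (nat_lit 2078154789) (nat_lit 46) (nat_lit 5) (nat_lit 50) (nat_lit 5) (nat_lit 51) (nat_lit 5) (nat_lit 371) (nat_lit 336) (nat_lit 181)) (XT.nd (nat_lit 94) (nat_lit 504) (nat_lit 0) (XT.lf (nat_lit 0) (nat_lit 24530583738) (nat_lit 336)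 (nat_lit 2367460055) (nat_lit 420) (nat_lit 473049653) (nat_lit 46) (nat_lit 5) (nat_lit 50) (nat_lit 5) (nat_lit 51) (nat_lit 5) (nat_lit 372) (nat_lit 336) (nat_lit 180)) (XT.lf (nat_lit 0) (nat_lit 1252084629) (nat_lit 504) (nat_lit 22457906632) (nat_lit 84) (nat_lit 4243507572) (nat_lit 40) (nat_lit 5) (nat_lit 46) (nat_lit 5) (nat_lit 41) (nat_lit 5) (nat_lit 373) (nat_lit 336) (nat_lit 179)))) (XT.nd (nat_lit 188) (nat_lit 336) (nat_lit 0) (XT.nd (nat_lit 94) (nat_lit 0) (nat_lit 0) (XT.lf (nat_lit 0) (nat_lit 3071274766) (nat_lit 504) (nat_lit 14436195357) (nat_lit 84) (nat_lit 11044799377) (nat_lit 40) (nat_lit 5) (nat_lit 46) (nat_lit 5) (nat_lit 41) (nat_lit 5) (nat_lit 374) (nat_lit 336) (nat_lit 178)) (XT.lf (nat_lit 0) (nat_lit 4943210098) (nat_lit 504) (nat_lit 6169818116) (nat_lit 84) (nat_lit 18056709476) (nat_lit 40) (nat_lit 5) (nat_lit 46) (nat_lit 5) (nat_lit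 41) (nat_lit 5) (nat_lit 375) (nat_lit 336) (nat_lit 177))) (XT.nd (nat_lit 94) (nat_lit 0) (nat_lit 0) (XT.lf (nat_lit 0) (nat_lit 2397229042) (nat_lit 336) (nat_lit 4496187233) (nat_lit 420) (nat_lit 22912325470) (nat_lit 36) (nat_lit 5) (nat_lit 40) (nat_lit 5) (nat_lit 41) (nat_lit 5) (nat_lit 376) (nat_lit 336) (nat_lit 176)) (XT.lf (nat_lit 0) (nat_lit 8988734326) (nat_lit 420) (nat_lit 19126516910) (nat_lit 84) (nat_lit 2343607530) (nat_lit 36) (nat_lit 5) (nat_lit 41) (nat_lit 5) (nat_lit 37) (nat_lit 5) (nat_lit 377) (nat_lit 336) (nat_lit 175))))))))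
noncomputable def xc174 : XT := (XT.nd (nat_lit 2350) (nat_lit 756) (nat_lit 0) (XT.nd (nat_lit 1128) (nat_lit 672) (nat_lit 0) (XT.nd (nat_lit 564) (nat_lit 336) (nat_lit 0) (XT.nd (nat_lit 282) (nat_lit 252) (nat_lit 0) (XT.nd (nat_lit 94) (nat_lit 336) (nat_lit 0) (XT.lf (nat_lit 0) (nat_lit 11191621743) (nat_lit 420) (nat_lit 10637617535) (nat_lit 84) (nat_lit 9301682612) (nat_lit 36) (nat_lit 5) (nat_lit 41) (nat_lit 5) (nat_lit 37) (nat_lit 5) (nat_lit 378) (nat_lit 336) (nat_lit 174)) (XT.nd (nat_lit 94) (nat_lit 336) (nat_lit 0) (XT.lf (nat_lit 0) (nat_lit 13459529112) (nat_lit 420) (nat_lit 1889299302) (nat_lit 84) (nat_lit 16475111820) (nat_lit 36) (nat_lit 5) (nat_lit 41) (nat_lit 5) (nat_lit 37) (nat_lit 5) (nat_lit 379) (nat_lit 336) (nat_lit 173)) (XT.lf (nat_lit 0) (nat_lit 7273129488) (nat_lit 336) (nat_lit 8593591218) (nat_lit 420) (nat_lit 16669602398) (nat_lit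 32) (nat_lit 5) (nat_lit 36) (nat_lit 5) (nat_lit 37) (nat_lit 5) (nat_lit 380) (nat_lit 336) (nat_lit 172)))) (XT.nd (nat_lit 94) (nat_lit 252) (nat_lit 0) (XT.lf (nat_lit 0) (nat_lit 16756057763) (nat_lit 336) (nat_lit 1609086399) (nat_lit 420) (nat_lit 14905149533) (nat_lit 32) (nat_lit 5) (nat_lit 36) (nat_lit 5) (nat_lit 37) (nat_lit 5) (nat_lit 381) (nat_lit 336) (nat_lit 171)) (XT.nd (nat_lit 94) (nat_lit 252) (nat_lit 0) (XT.lf (nat_lit 0) (nat_lit 20993468946) (nat_lit 420) (nat_lit 7553120492) (nat_lit 84) (nat_lit 5478820144) (nat_lit 32) (nat_lit 5) (nat_lit 37) (nat_lit 5) (nat_lit 33) (nat_lit 5) (nat_lit 382) (nat_lit 336) (nat_lit 170)) (XT.lf (nat_lit 0) (nat_lit 1700106355) (nat_lit 252) (nat_lit 22033556240) (nat_lit 336) (nat_lit 11069346971) (nat_lit 29) (nat_lit 5) (nat_lit 32) (nat_lit 5) (nat_lit 33) (nat_lit 5) (nat_lit 383) (nat_lit 336) (nat_lit 169)))))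 (XT.nd (nat_lit 282) (nat_lit 336) (nat_lit 0) (XT.nd (nat_lit 94) (nat_lit 0) (nat_lit 0) (XT.lf (nat_lit 0) (nat_lit 11396861291) (nat_lit 252) (nat_lit 15237902389) (nat_lit 336) (nat_lit 8967613754) (nat_lit 29) (nat_lit 5) (nat_lit 32) (nat_lit 5) (nat_lit 33) (nat_lit 5) (nat_lit 384) (nat_lit 336) (nat_lit 168)) (XT.nd (nat_lit 94) (nat_lit 0) (nat_lit 0) (XT.lf (nat_lit 0) (nat_lit 21390875057) (nat_lit 252) (nat_lit 8232132712) (nat_lit 336) (nat_lit 6803621038) (nat_lit 29) (nat_lit 5) (nat_lit 32) (nat_lit 5) (nat_lit 33) (nat_lit 5) (nat_lit 385) (nat_lit 336) (nat_lit 167)) (XT.lf (nat_lit 0) (nat_lit 31691463123) (nat_lit 252) (nat_lit 1009717098) (nat_lit 336) (nat_lit 4575351753) (nat_lit 29) (nat_lit 5) (nat_lit 32) (nat_lit 5) (nat_lit 33) (nat_lit 5) (nat_lit 386) (nat_lit 336) (nat_lit 166)))) (XT.nd (nat_lit 94) (nat_lit 84) (nat_lit 0) (XT.lf (nat_lit 0) (nat_lit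 4175630555) (nat_lit 252) (nat_lit 31801789103) (nat_lit 336) (nat_lit 2172196120) (nat_lit 26) (nat_lit 5) (nat_lit 29) (nat_lit 5) (nat_lit 30) (nat_lit 5) (nat_lit 387) (nat_lit 336) (nat_lit 165)) (XT.nd (nat_lit 94) (nat_lit 0) (nat_lit 0) (XT.lf (nat_lit 0) (nat_lit 365898152) (nat_lit 336) (nat_lit 24707869723) (nat_lit 84) (nat_lit 13973853592) (nat_lit 25) (nat_lit 5) (nat_lit 29) (nat_lit 5) (nat_lit 26) (nat_lit 5) (nat_lit 388) (nat_lit 336) (nat_lit 164)) (XT.lf (nat_lit 0) (nat_lit 2935005813) (nat_lit 336) (nat_lit 15179893229) (nat_lit 84) (nat_lit 21857970733) (nat_lit 25) (nat_lit 5) (nat_lit 29) (nat_lit 5) (nat_lit 26) (nat_lit 5) (nat_lit 389) (nat_lit 336) (nat_lit 163)))))) (XT.nd (nat_lit 564) (nat_lit 168) (nat_lit 0) (XT.nd (nat_lit 282) (nat_lit 252) (nat_lit 0) (XT.nd (nat_lit 94) (nat_lit 252) (nat_lit 0) (XT.lf (nat_lit 0) (nat_lit 5581286452) (nat_lit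 336) (nat_lit 5359626212) (nat_lit 84) (nat_lit 29985978466) (nat_lit 25) (nat_lit 5) (nat_lit 29) (nat_lit 5) (nat_lit 26) (nat_lit 5) (nat_lit 390) (nat_lit 336) (nat_lit 162)) (XT.nd (nat_lit 94) (nat_lit 0) (nat_lit 0) (XT.lf (nat_lit 0) (nat_lit 4860003073) (nat_lit 252) (nat_lit 3495415437) (nat_lit 336) (nat_lit 33553661706) (nat_lit 22) (nat_lit 5) (nat_lit 25) (nat_lit 5) (nat_lit 26) (nat_lit 5) (nat_lit 391) (nat_lit 336) (nat_lit 161)) (XT.lf (nat_lit 0) (nat_lit 11311180939) (nat_lit 336) (nat_lit 27455001892) (nat_lit 84) (nat_lit 4152582715) (nat_lit 22) (nat_lit 5) (nat_lit 26) (nat_lit 5) (nat_lit 23) (nat_lit 5) (nat_lit 392) (nat_lit 336) (nat_lit 160)))) (XT.nd (nat_lit 94) (nat_lit 252) (nat_lit 0) (XT.lf (nat_lit 0) (nat_lit 14392034424) (nat_lit 336) (nat_lit 17602202926) (nat_lit 84) (nat_lit 11964489030) (nat_lit 22) (nat_lit 5) (nat_lit 26) (nat_lit 5) (nat_lit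 23) (nat_lit 5) (nat_lit 393) (nat_lit 336) (nat_lit 159)) (XT.nd (nat_lit 94) (nat_lit 252) (nat_lit 0) (XT.lf (nat_lit 0) (nat_lit 17566175688) (nat_lit 336) (nat_lit 7446821451) (nat_lit 84) (nat_lit 20018009854) (nat_lit 22) (nat_lit 5) (nat_lit 26) (nat_lit 5) (nat_lit 23) (nat_lit 5) (nat_lit 394) (nat_lit 336) (nat_lit 158)) (XT.lf (nat_lit 0) (nat_lit 3082718317) (nat_lit 252) (nat_lit 17784425995) (nat_lit 336) (nat_lit 25268514543) (nat_lit 19) (nat_lit 5) (nat_lit 22) (nat_lit 5) (nat_lit 23) (nat_lit 5) (nat_lit 395) (nat_lit 336) (nat_lit 157))))) (XT.nd (nat_lit 282) (nat_lit 168) (nat_lit 0) (XT.nd (nat_lit 94) (nat_lit 0) (nat_lit 0) (XT.lf (nat_lit 0) (nat_lit 14093802110) (nat_lit 252) (nat_lit 10252255948) (nat_lit 336) (nat_lit 22926164287) (nat_lit 19) (nat_lit 5) (nat_lit 22) (nat_lit 5) (nat_lit 23) (nat_lit 5) (nat_lit 396) (nat_lit 336) (nat_lit 156)) (XT.nd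 (nat_lit 94) (nat_lit 0) (nat_lit 0) (XT.lf (nat_lit 0) (nat_lit 25443571491) (nat_lit 252) (nat_lit 2487195770) (nat_lit 336) (nat_lit 20513326767) (nat_lit 19) (nat_lit 5) (nat_lit 22) (nat_lit 5) (nat_lit 23) (nat_lit 5) (nat_lit 397) (nat_lit 336) (nat_lit 155)) (XT.lf (nat_lit 0) (nat_lit 31679352412) (nat_lit 336) (nat_lit 12564499744) (nat_lit 84) (nat_lit 5406817138) (nat_lit 19) (nat_lit 5) (nat_lit 23) (nat_lit 5) (nat_lit 20) (nat_lit 5) (nat_lit 398) (nat_lit 336) (nat_lit 154)))) (XT.nd (nat_lit 188) (nat_lit 0) (nat_lit 0) (XT.nd (nat_lit 94) (nat_lit 168) (nat_lit 0) (XT.lf (nat_lit 0) (nat_lit 35567646805) (nat_lit 336) (nat_lit 1832963608) (nat_lit 84) (nat_lit 13493319870) (nat_lit 19) (nat_lit 5) (nat_lit 23) (nat_lit 5) (nat_lit 20) (nat_lit 5) (nat_lit 399) (nat_lit 336) (nat_lit 153)) (XT.lf (nat_lit 0) (nat_lit 9418524351) (nat_lit 168) (nat_lit 30249510023)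 (nat_lit 252) (nat_lit 12504869920) (nat_lit 17) (nat_lit 5) (nat_lit 19) (nat_lit 5) (nat_lit 20) (nat_lit 5) (nat_lit 400) (nat_lit 336) (nat_lit 152))) (XT.nd (nat_lit 94) (nat_lit 0) (nat_lit 0) (XT.lf (nat_lit 0) (nat_lit 21055203420) (nat_lit 168) (nat_lit 22857618044) (nat_lit 252) (nat_lit 9578178987) (nat_lit 17) (nat_lit 5) (nat_lit 19) (nat_lit 5) (nat_lit 20) (nat_lit 5) (nat_lit 401) (nat_lit 336) (nat_lit 151)) (XT.lf (nat_lit 0) (nat_lit 33050230711) (nat_lit 168) (nat_lit 15237176840) (nat_lit 252) (nat_lit 6562615078) (nat_lit 17) (nat_lit 5) (nat_lit 19) (nat_lit 5) (nat_lit 20) (nat_lit 5) (nat_lit 402) (nat_lit 336) (nat_lit 150))))))) (XT.nd (nat_lit 1222) (nat_lit 336) (nat_lit 0) (XT.nd (nat_lit 564) (nat_lit 168) (nat_lit 0) (XT.nd (nat_lit 282) (nat_lit 0) (nat_lit 0) (XT.nd (nat_lit 94) (nat_lit 252) (nat_lit 0) (XT.lf (nat_lit 0) (nat_lit 45414786846) (nat_lit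 168) (nat_lit 7381083360) (nat_lit 252) (nat_lit 3455367371) (nat_lit 17) (nat_lit 5) (nat_lit 19) (nat_lit 5) (nat_lit 20) (nat_lit 5) (nat_lit 403) (nat_lit 336) (nat_lit 149)) (XT.nd (nat_lit 94) (nat_lit 84) (nat_lit 0) (XT.lf (nat_lit 0) (nat_lit 466726507) (nat_lit 168) (nat_lit 56987437769) (nat_lit 252) (nat_lit 241422774) (nat_lit 15) (nat_lit 5) (nat_lit 17) (nat_lit 5) (nat_lit 18) (nat_lit 5) (nat_lit 404) (nat_lit 336) (nat_lit 148)) (XT.lf (nat_lit 0) (nat_lit 3198328962) (nat_lit 252) (nat_lit 46940622510) (nat_lit 84) (nat_lit 9038993361) (nat_lit 14) (nat_lit 5) (nat_lit 17) (nat_lit 5) (nat_lit 15) (nat_lit 5) (nat_lit 405) (nat_lit 336) (nat_lit 147)))) (XT.nd (nat_lit 94) (nat_lit 0) (nat_lit 0) (XT.lf (nat_lit 0) (nat_lit 6738062410) (nat_lit 252) (nat_lit 36338171200) (nat_lit 84) (nat_lit 17630004472) (nat_lit 14) (nat_lit 5) (nat_lit 17) (nat_lit 5) (nat_lit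 15) (nat_lit 5) (nat_lit 406) (nat_lit 336) (nat_lit 146)) (XT.nd (nat_lit 94) (nat_lit 0) (nat_lit 0) (XT.lf (nat_lit 0) (nat_lit 10385941105) (nat_lit 252) (nat_lit 25409229074) (nat_lit 84) (nat_lit 26486795390) (nat_lit 14) (nat_lit 5) (nat_lit 17) (nat_lit 5) (nat_lit 15) (nat_lit 5) (nat_lit 407) (nat_lit 336) (nat_lit 145)) (XT.lf (nat_lit 0) (nat_lit 14145365250) (nat_lit 252) (nat_lit 14143609213) (nat_lit 84) (nat_lit 35617621574) (nat_lit 14) (nat_lit 5) (nat_lit 17) (nat_lit 5) (nat_lit 15) (nat_lit 5) (nat_lit 408) (nat_lit 336) (nat_lit 144))))) (XT.nd (nat_lit 282) (nat_lit 0) (nat_lit 0) (XT.nd (nat_lit 94) (nat_lit 168) (nat_lit 0) (XT.lf (nat_lit 0) (nat_lit 18019839023) (nat_lit 252) (nat_lit 2530810880) (nat_lit 84) (nat_lit 45030993910) (nat_lit 14) (nat_lit 5) (nat_lit 17) (nat_lit 5) (nat_lit 15) (nat_lit 5) (nat_lit 409) (nat_lit 336) (nat_lit 143)) (XT.nd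 (nat_lit 94) (nat_lit 0) (nat_lit 0) (XT.lf (nat_lit 0) (nat_lit 9634095831) (nat_lit 168) (nat_lit 12474449432) (nat_lit 252) (nat_lit 45197162238) (nat_lit 12) (nat_lit 5) (nat_lit 14) (nat_lit 5) (nat_lit 15) (nat_lit 5) (nat_lit 410) (nat_lit 336) (nat_lit 142)) (XT.lf (nat_lit 0) (nat_lit 22227792767) (nat_lit 168) (nat_lit 4121201408) (nat_lit 252) (nat_lit 42733455262) (nat_lit 12) (nat_lit 5) (nat_lit 14) (nat_lit 5) (nat_lit 15) (nat_lit 5) (nat_lit 411) (nat_lit 336) (nat_lit 141)))) (XT.nd (nat_lit 188) (nat_lit 0) (nat_lit 0) (XT.nd (nat_lit 94) (nat_lit 0) (nat_lit 0) (XT.lf (nat_lit 0) (nat_lit 30764062073) (nat_lit 252) (nat_lit 35748886068) (nat_lit 84) (nat_lit 4399990955) (nat_lit 12) (nat_lit 5) (nat_lit 15) (nat_lit 5) (nat_lit 13) (nat_lit 5) (nat_lit 412) (nat_lit 336) (nat_lit 140)) (XT.lf (nat_lit 0) (nat_lit 35356802770) (nat_lit 252) (nat_lit 24342886628)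 (nat_lit 84) (nat_lit 13099226192) (nat_lit 12) (nat_lit 5) (nat_lit 15) (nat_lit 5) (nat_lit 13) (nat_lit 5) (nat_lit 413) (nat_lit 336) (nat_lit 139))) (XT.nd (nat_lit 94) (nat_lit 0) (nat_lit 0) (XT.lf (nat_lit 0) (nat_lit 40090614353) (nat_lit 252) (nat_lit 12585143937) (nat_lit 84) (nat_lit 22067645925) (nat_lit 12) (nat_lit 5) (nat_lit 15) (nat_lit 5) (nat_lit 13) (nat_lit 5) (nat_lit 414) (nat_lit 336) (nat_lit 138)) (XT.lf (nat_lit 0) (nat_lit 44969909232) (nat_lit 252) (nat_lit 464698547) (nat_lit 84) (nat_lit 31313609660) (nat_lit 12) (nat_lit 5) (nat_lit 15) (nat_lit 5) (nat_lit 13) (nat_lit 5) (nat_lit 415) (nat_lit 336) (nat_lit 137)))))) (XT.nd (nat_lit 564) (nat_lit 168) (nat_lit 0) (XT.nd (nat_lit 282) (nat_lit 0) (nat_lit 0) (XT.nd (nat_lit 94) (nat_lit 0) (nat_lit 0) (XT.lf (nat_lit 0) (nat_lit 12277103338) (nat_lit 168) (nat_lit 37843922466) (nat_lit 252) (nat_lit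 28690422651) (nat_lit 10) (nat_lit 5) (nat_lit 12) (nat_lit 5) (nat_lit 13) (nat_lit 5) (nat_lit 416) (nat_lit 336) (nat_lit 136)) (XT.nd (nat_lit 94) (nat_lit 0) (nat_lit 0) (XT.lf (nat_lit 0) (nat_lit 25422036415) (nat_lit 168) (nat_lit 30013434108) (nat_lit 252) (nat_lit 25503062030) (nat_lit 10) (nat_lit 5) (nat_lit 12) (nat_lit 5) (nat_lit 13) (nat_lit 5) (nat_lit 417) (nat_lit 336) (nat_lit 135)) (XT.lf (nat_lit 0) (nat_lit 38972797983) (nat_lit 168) (nat_lit 21940694369) (nat_lit 252) (nat_lit 22218105891) (nat_lit 10) (nat_lit 5) (nat_lit 12) (nat_lit 5) (nat_lit 13) (nat_lit 5) (nat_lit 418) (nat_lit 336) (nat_lit 134)))) (XT.nd (nat_lit 94) (nat_lit 0) (nat_lit 0) (XT.lf (nat_lit 0) (nat_lit 52942018770) (nat_lit 168) (nat_lit 13618178610) (nat_lit 252) (nat_lit 18832492311) (nat_lit 10) (nat_lit 5) (nat_lit 12) (nat_lit 5) (nat_lit 13) (nat_lit 5) (nat_lit 419) (nat_lit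 336) (nat_lit 133)) (XT.nd (nat_lit 94) (nat_lit 0) (nat_lit 0) (XT.lf (nat_lit 0) (nat_lit 67342719555) (nat_lit 168) (nat_lit 5038129375) (nat_lit 252) (nat_lit 15343065543) (nat_lit 10) (nat_lit 5) (nat_lit 12) (nat_lit 5) (nat_lit 13) (nat_lit 5) (nat_lit 420) (nat_lit 336) (nat_lit 132)) (XT.lf (nat_lit 0) (nat_lit 78418642842) (nat_lit 252) (nat_lit 7976892619) (nat_lit 84) (nat_lit 3730739191) (nat_lit 10) (nat_lit 5) (nat_lit 13) (nat_lit 5) (nat_lit 11) (nat_lit 4) (nat_lit 421) (nat_lit 336) (nat_lit 131))))) (XT.nd (nat_lit 282) (nat_lit 0) (nat_lit 0) (XT.nd (nat_lit 94) (nat_lit 84) (nat_lit 0) (XT.lf (nat_lit 0) (nat_lit 4856761843) (nat_lit 84) (nat_lit 79885513975) (nat_lit 168) (nat_lit 7857778526) (nat_lit 9) (nat_lit 5) (nat_lit 10) (nat_lit 5) (nat_lit 11) (nat_lit 4) (nat_lit 422) (nat_lit 336) (nat_lit 130)) (XT.nd (nat_lit 94) (nat_lit 84) (nat_lit 0) (XT.lf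 (nat_lit 0) (nat_lit 18255874849) (nat_lit 84) (nat_lit 73088305026) (nat_lit 168) (nat_lit 3803796826) (nat_lit 9) (nat_lit 5) (nat_lit 10) (nat_lit 5) (nat_lit 11) (nat_lit 4) (nat_lit 423) (nat_lit 336) (nat_lit 129)) (XT.lf (nat_lit 0) (nat_lit 367277642) (nat_lit 168) (nat_lit 65709724035) (nat_lit 84) (nat_lit 31697803235) (nat_lit 8) (nat_lit 5) (nat_lit 10) (nat_lit 5) (nat_lit 9) (nat_lit 5) (nat_lit 424) (nat_lit 336) (nat_lit 128)))) (XT.nd (nat_lit 188) (nat_lit 0) (nat_lit 0) (XT.nd (nat_lit 94) (nat_lit 0) (nat_lit 0) (XT.lf (nat_lit 0) (nat_lit 4587663964) (nat_lit 168) (nat_lit 54221023343) (nat_lit 84) (nat_lit 41673206238) (nat_lit 8) (nat_lit 5) (nat_lit 10) (nat_lit 5) (nat_lit 9) (nat_lit 5) (nat_lit 425) (nat_lit 336) (nat_lit 127)) (XT.lf (nat_lit 0) (nat_lit 8937934009) (nat_lit 168) (nat_lit 42377556968) (nat_lit 84) (nat_lit 51957444669) (nat_lit 8) (nat_lit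 5) (nat_lit 10) (nat_lit 5) (nat_lit 9) (nat_lit 5) (nat_lit 426) (nat_lit 336) (nat_lit 126))) (XT.nd (nat_lit 47282) (nat_lit 0) (nat_lit 6132) (XT.lf (nat_lit 0) (nat_lit 13422142684) (nat_lit 168) (nat_lit 30168285559) (nat_lit 84) (nat_lit 62560104516) (nat_lit 8) (nat_lit 5) (nat_lit 10) (nat_lit 5) (nat_lit 9) (nat_lit 5) (nat_lit 427) (nat_lit 336) (nat_lit 125)) (XT.lf (nat_lit 0) (nat_lit 1843009866) (nat_lit 0) (nat_lit 1843009866) (nat_lit 924) (nat_lit 3707925212) (nat_lit 81) (nat_lit 5) (nat_lit 81) (nat_lit 3) (nat_lit 92) (nat_lit 3) (nat_lit 337) (nat_lit 337) (nat_lit 214))))))))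
noncomputable def xc175 : XT := (XT.nd (nat_lit 2444) (nat_lit 2940) (nat_lit 0) (XT.nd (nat_lit 1222) (nat_lit 1764) (nat_lit 0) (XT.nd (nat_lit 564) (nat_lit 0) (nat_lit 84) (XT.nd (nat_lit 282) (nat_lit 0) (nat_lit 0) (XT.nd (nat_lit 94) (nat_lit 0) (nat_lit 0) (XT.lf (nat_lit 0) (nat_lit 7732134848) (nat_lit 924) (nat_lit 6372787853) (nat_lit 1008) (nat_lit 902831512) (nat_lit 81) (nat_lit 5) (nat_lit 92) (nat_lit 3) (nat_lit 93) (nat_lit 5) (nat_lit 338) (nat_lit 337) (nat_lit 213)) (XT.nd (nat_lit 94) (nat_lit 0) (nat_lit 0) (XT.lf (nat_lit 0) (nat_lit 8131602315) (nat_lit 924) (nat_lit 1539984622) (nat_lit 1008) (nat_lit 5562042510) (nat_lit 81) (nat_lit 5) (nat_lit 92) (nat_lit 3) (nat_lit 93) (nat_lit 5) (nat_lit 339) (nat_lit 337) (nat_lit 212)) (XT.lf (nat_lit 84) (nat_lit 3508294297) (nat_lit 0) (nat_lit 5060756859) (nat_lit 1008) (nat_lit 6896729633) (nat_lit 82) (nat_lit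 5) (nat_lit 81) (nat_lit 5) (nat_lit 93) (nat_lit 5) (nat_lit 340) (nat_lit 337) (nat_lit 211)))) (XT.nd (nat_lit 94) (nat_lit 0) (nat_lit 84) (XT.lf (nat_lit 84) (nat_lit 8740742084) (nat_lit 0) (nat_lit 286415696) (nat_lit 1008) (nat_lit 6677816517) (nat_lit 82) (nat_lit 5) (nat_lit 81) (nat_lit 5) (nat_lit 93) (nat_lit 5) (nat_lit 341) (nat_lit 337) (nat_lit 210)) (XT.nd (nat_lit 94) (nat_lit 0) (nat_lit 0) (XT.lf (nat_lit 0) (nat_lit 9536785746) (nat_lit 924) (nat_lit 1867373076) (nat_lit 1008) (nat_lit 4546330572) (nat_lit 82) (nat_lit 5) (nat_lit 93) (nat_lit 5) (nat_lit 94) (nat_lit 5) (nat_lit 342) (nat_lit 337) (nat_lit 209)) (XT.lf (nat_lit 84) (nat_lit 3449008408) (nat_lit 0) (nat_lit 6641939411) (nat_lit 1008) (nat_lit 6111838435) (nat_lit 83) (nat_lit 5) (nat_lit 82) (nat_lit 5) (nat_lit 94) (nat_lit 5) (nat_lit 343) (nat_lit 337) (nat_lit 208))))) (XT.nd (nat_lit 282)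 (nat_lit 0) (nat_lit 84) (XT.nd (nat_lit 94) (nat_lit 0) (nat_lit 84) (XT.lf (nat_lit 84) (nat_lit 8964795321) (nat_lit 0) (nat_lit 1708780155) (nat_lit 1008) (nat_lit 5789038706) (nat_lit 83) (nat_lit 5) (nat_lit 82) (nat_lit 5) (nat_lit 94) (nat_lit 5) (nat_lit 344) (nat_lit 337) (nat_lit 207)) (XT.nd (nat_lit 94) (nat_lit 0) (nat_lit 0) (XT.lf (nat_lit 0) (nat_lit 11299840553) (nat_lit 924) (nat_lit 2117603743) (nat_lit 1008) (nat_lit 3312317577) (nat_lit 83) (nat_lit 5) (nat_lit 94) (nat_lit 5) (nat_lit 95) (nat_lit 5) (nat_lit 345) (nat_lit 337) (nat_lit 206)) (XT.lf (nat_lit 84) (nat_lit 3476954444) (nat_lit 0) (nat_lit 8512845037) (nat_lit 1008) (nat_lit 5014075203) (nat_lit 84) (nat_lit 5) (nat_lit 83) (nat_lit 5) (nat_lit 95) (nat_lit 5) (nat_lit 346) (nat_lit 337) (nat_lit 205)))) (XT.nd (nat_lit 188) (nat_lit 0) (nat_lit 84) (XT.nd (nat_lit 94) (nat_lit 0) (nat_lit 84)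 (XT.lf (nat_lit 84) (nat_lit 9284867161) (nat_lit 0) (nat_lit 3430876332) (nat_lit 1008) (nat_lit 4570343531) (nat_lit 84) (nat_lit 5) (nat_lit 83) (nat_lit 5) (nat_lit 95) (nat_lit 5) (nat_lit 347) (nat_lit 337) (nat_lit 204)) (XT.lf (nat_lit 0) (nat_lit 13474876696) (nat_lit 924) (nat_lit 2327287124) (nat_lit 1008) (nat_lit 1774605772) (nat_lit 84) (nat_lit 5) (nat_lit 95) (nat_lit 5) (nat_lit 96) (nat_lit 5) (nat_lit 348) (nat_lit 337) (nat_lit 203))) (XT.nd (nat_lit 94) (nat_lit 0) (nat_lit 0) (XT.lf (nat_lit 84) (nat_lit 3554086190) (nat_lit 0) (nat_lit 10766764868) (nat_lit 1008) (nat_lit 3553701004) (nat_lit 85) (nat_lit 5) (nat_lit 84) (nat_lit 5) (nat_lit 96) (nat_lit 5) (nat_lit 349) (nat_lit 337) (nat_lit 202)) (XT.lf (nat_lit 84) (nat_lit 9662201183) (nat_lit 0) (nat_lit 5548265660) (nat_lit 1008) (nat_lit 2970608791) (nat_lit 85) (nat_lit 5) (nat_lit 84) (nat_lit 5)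 (nat_lit 96) (nat_lit 5) (nat_lit 350) (nat_lit 337) (nat_lit 201)))))) (XT.nd (nat_lit 564) (nat_lit 1176) (nat_lit 0) (XT.nd (nat_lit 282) (nat_lit 840) (nat_lit 0) (XT.nd (nat_lit 94) (nat_lit 0) (nat_lit 84) (XT.lf (nat_lit 84) (nat_lit 15954897460) (nat_lit 0) (nat_lit 166094114) (nat_lit 1008) (nat_lit 2376364859) (nat_lit 85) (nat_lit 5) (nat_lit 84) (nat_lit 5) (nat_lit 96) (nat_lit 5) (nat_lit 351) (nat_lit 337) (nat_lit 200)) (XT.nd (nat_lit 94) (nat_lit 0) (nat_lit 0) (XT.lf (nat_lit 84) (nat_lit 3634153757) (nat_lit 0) (nat_lit 13508589003) (nat_lit 1008) (nat_lit 1678172971) (nat_lit 86) (nat_lit 5) (nat_lit 85) (nat_lit 5) (nat_lit 97) (nat_lit 5) (nat_lit 352) (nat_lit 337) (nat_lit 199)) (XT.lf (nat_lit 84) (nat_lit 10049563679) (nat_lit 0) (nat_lit 8168519724) (nat_lit 1008) (nat_lit 935787988) (nat_lit 86) (nat_lit 5) (nat_lit 85) (nat_lit 5) (nat_lit 97) (nat_lit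 5) (nat_lit 353) (nat_lit 337) (nat_lit 198)))) (XT.nd (nat_lit 94) (nat_lit 924) (nat_lit 0) (XT.lf (nat_lit 84) (nat_lit 16659154010) (nat_lit 0) (nat_lit 2661490717) (nat_lit 1008) (nat_lit 176737539) (nat_lit 86) (nat_lit 5) (nat_lit 85) (nat_lit 5) (nat_lit 97) (nat_lit 5) (nat_lit 354) (nat_lit 337) (nat_lit 197)) (XT.nd (nat_lit 94) (nat_lit 0) (nat_lit 0) (XT.lf (nat_lit 0) (nat_lit 654535472) (nat_lit 1008) (nat_lit 16195195565) (nat_lit 84) (nat_lit 2999778203) (nat_lit 74) (nat_lit 5) (nat_lit 86) (nat_lit 5) (nat_lit 75) (nat_lit 5) (nat_lit 355) (nat_lit 337) (nat_lit 196)) (XT.lf (nat_lit 0) (nat_lit 1559169439) (nat_lit 1008) (nat_lit 9837580725) (nat_lit 84) (nat_lit 8814196979) (nat_lit 74) (nat_lit 5) (nat_lit 86) (nat_lit 5) (nat_lit 75) (nat_lit 5) (nat_lit 356) (nat_lit 337) (nat_lit 195))))) (XT.nd (nat_lit 282) (nat_lit 504) (nat_lit 0) (XT.nd (nat_lit 94)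 (nat_lit 672) (nat_lit 0) (XT.lf (nat_lit 0) (nat_lit 2486137727) (nat_lit 1008) (nat_lit 3287641145) (nat_lit 84) (nat_lit 14810026708) (nat_lit 74) (nat_lit 5) (nat_lit 86) (nat_lit 5) (nat_lit 75) (nat_lit 5) (nat_lit 357) (nat_lit 337) (nat_lit 194)) (XT.nd (nat_lit 94) (nat_lit 0) (nat_lit 0) (XT.lf (nat_lit 0) (nat_lit 3471941766) (nat_lit 756) (nat_lit 17436058505) (nat_lit 84) (nat_lit 59327059) (nat_lit 66) (nat_lit 5) (nat_lit 75) (nat_lit 5) (nat_lit 67) (nat_lit 5) (nat_lit 358) (nat_lit 337) (nat_lit 193)) (XT.lf (nat_lit 0) (nat_lit 4576616988) (nat_lit 756) (nat_lit 10794600689) (nat_lit 84) (nat_lit 5988819590) (nat_lit 66) (nat_lit 5) (nat_lit 75) (nat_lit 5) (nat_lit 67) (nat_lit 5) (nat_lit 359) (nat_lit 337) (nat_lit 192)))) (XT.nd (nat_lit 188) (nat_lit 0) (nat_lit 0) (XT.nd (nat_lit 94) (nat_lit 504) (nat_lit 0) (XT.lf (nat_lit 0) (nat_lit 5710291627) (nat_lit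 756) (nat_lit 3951898183) (nat_lit 84) (nat_lit 12102929569) (nat_lit 66) (nat_lit 5) (nat_lit 75) (nat_lit 5) (nat_lit 67) (nat_lit 5) (nat_lit 360) (nat_lit 337) (nat_lit 191)) (XT.lf (nat_lit 0) (nat_lit 3162137145) (nat_lit 504) (nat_lit 3743254035) (nat_lit 588) (nat_lit 15276587634) (nat_lit 60) (nat_lit 5) (nat_lit 66) (nat_lit 5) (nat_lit 67) (nat_lit 5) (nat_lit 361) (nat_lit 337) (nat_lit 190))) (XT.nd (nat_lit 94) (nat_lit 0) (nat_lit 0) (XT.lf (nat_lit 0) (nat_lit 8197639849) (nat_lit 588) (nat_lit 12058469949) (nat_lit 84) (nat_lit 2353821414) (nat_lit 60) (nat_lit 5) (nat_lit 67) (nat_lit 5) (nat_lit 61) (nat_lit 5) (nat_lit 362) (nat_lit 337) (nat_lit 189)) (XT.lf (nat_lit 0) (nat_lit 9563408645) (nat_lit 588) (nat_lit 4924089018) (nat_lit 84) (nat_lit 8562647642) (nat_lit 60) (nat_lit 5) (nat_lit 67) (nat_lit 5) (nat_lit 61) (nat_lit 5) (nat_lit 363) (nat_lit 337)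 (nat_lit 188))))))) (XT.nd (nat_lit 1222) (nat_lit 1260) (nat_lit 0) (XT.nd (nat_lit 564) (nat_lit 840) (nat_lit 0) (XT.nd (nat_lit 282) (nat_lit 420) (nat_lit 0) (XT.nd (nat_lit 94) (nat_lit 0) (nat_lit 0) (XT.lf (nat_lit 0) (nat_lit 2476990494) (nat_lit 420) (nat_lit 8514418623) (nat_lit 504) (nat_lit 12512011711) (nat_lit 55) (nat_lit 5) (nat_lit 60) (nat_lit 5) (nat_lit 61) (nat_lit 5) (nat_lit 364) (nat_lit 337) (nat_lit 187)) (XT.nd (nat_lit 94) (nat_lit 0) (nat_lit 0) (XT.lf (nat_lit 0) (nat_lit 10207562779) (nat_lit 420) (nat_lit 2302930757) (nat_lit 504) (nat_lit 11458833584) (nat_lit 55) (nat_lit 5) (nat_lit 60) (nat_lit 5) (nat_lit 61) (nat_lit 5) (nat_lit 365) (nat_lit 337) (nat_lit 186)) (XT.lf (nat_lit 0) (nat_lit 14112911853) (nat_lit 504) (nat_lit 6316945682) (nat_lit 84) (nat_lit 4018725069) (nat_lit 55) (nat_lit 5) (nat_lit 61) (nat_lit 5) (nat_lit 56) (nat_lit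 5) (nat_lit 366) (nat_lit 337) (nat_lit 185)))) (XT.nd (nat_lit 94) (nat_lit 0) (nat_lit 0) (XT.lf (nat_lit 0) (nat_lit 1358237168) (nat_lit 420) (nat_lit 14439487683) (nat_lit 504) (nat_lit 9143984562) (nat_lit 50) (nat_lit 5) (nat_lit 55) (nat_lit 5) (nat_lit 56) (nat_lit 5) (nat_lit 367) (nat_lit 337) (nat_lit 184)) (XT.nd (nat_lit 94) (nat_lit 0) (nat_lit 0) (XT.lf (nat_lit 0) (nat_lit 9401072436) (nat_lit 420) (nat_lit 8195410759) (nat_lit 504) (nat_lit 7851754609) (nat_lit 50) (nat_lit 5) (nat_lit 55) (nat_lit 5) (nat_lit 56) (nat_lit 5) (nat_lit 368) (nat_lit 337) (nat_lit 183)) (XT.lf (nat_lit 0) (nat_lit 17689167527) (nat_lit 420) (nat_lit 1757742587) (nat_lit 504) (nat_lit 6523712356) (nat_lit 50) (nat_lit 5) (nat_lit 55) (nat_lit 5) (nat_lit 56) (nat_lit 5) (nat_lit 369) (nat_lit 337) (nat_lit 182))))) (XT.nd (nat_lit 282) (nat_lit 504) (nat_lit 0) (XT.nd (nat_lit 94)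 (nat_lit 336) (nat_lit 0) (XT.lf (nat_lit 0) (nat_lit 21399135818) (nat_lit 504) (nat_lit 327507933) (nat_lit 84) (nat_lit 4781206011) (nat_lit 50) (nat_lit 5) (nat_lit 56) (nat_lit 5) (nat_lit 51) (nat_lit 5) (nat_lit 370) (nat_lit 337) (nat_lit 181)) (XT.nd (nat_lit 94) (nat_lit 0) (nat_lit 0) (XT.lf (nat_lit 0) (nat_lit 8012495671) (nat_lit 336) (nat_lit 15492997099) (nat_lit 420) (nat_lit 3553361765) (nat_lit 46) (nat_lit 5) (nat_lit 50) (nat_lit 5) (nat_lit 51) (nat_lit 5) (nat_lit 371) (nat_lit 337) (nat_lit 180)) (XT.lf (nat_lit 0) (nat_lit 16614050474) (nat_lit 336) (nat_lit 9062741318) (nat_lit 420) (nat_lit 1950184317) (nat_lit 46) (nat_lit 5) (nat_lit 50) (nat_lit 5) (nat_lit 51) (nat_lit 5) (nat_lit 372) (nat_lit 337) (nat_lit 179)))) (XT.nd (nat_lit 188) (nat_lit 0) (nat_lit 0) (XT.nd (nat_lit 94) (nat_lit 504) (nat_lit 0) (XT.lf (nat_lit 0) (nat_lit 25478439792) (nat_lit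 336) (nat_lit 2433301250) (nat_lit 420) (nat_lit 301105783) (nat_lit 46) (nat_lit 5) (nat_lit 50) (nat_lit 5) (nat_lit 51) (nat_lit 5) (nat_lit 373) (nat_lit 337) (nat_lit 178)) (XT.lf (nat_lit 0) (nat_lit 1470248766) (nat_lit 504) (nat_lit 22957189957) (nat_lit 84) (nat_lit 4385953409) (nat_lit 40) (nat_lit 5) (nat_lit 46) (nat_lit 5) (nat_lit 41) (nat_lit 5) (nat_lit 374) (nat_lit 337) (nat_lit 177))) (XT.nd (nat_lit 94) (nat_lit 0) (nat_lit 0) (XT.lf (nat_lit 0) (nat_lit 3340441134) (nat_lit 504) (nat_lit 14692726355) (nat_lit 84) (nat_lit 11397757607) (nat_lit 40) (nat_lit 5) (nat_lit 46) (nat_lit 5) (nat_lit 41) (nat_lit 5) (nat_lit 375) (nat_lit 337) (nat_lit 176)) (XT.lf (nat_lit 0) (nat_lit 5265175945) (nat_lit 504) (nat_lit 6175834118) (nat_lit 84) (nat_lit 18626719118) (nat_lit 40) (nat_lit 5) (nat_lit 46) (nat_lit 5) (nat_lit 41) (nat_lit 5) (nat_lit 376) (nat_lit 337)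 (nat_lit 175)))))) (XT.nd (nat_lit 564) (nat_lit 588) (nat_lit 0) (XT.nd (nat_lit 282) (nat_lit 336) (nat_lit 0) (XT.nd (nat_lit 94) (nat_lit 0) (nat_lit 0) (XT.lf (nat_lit 0) (nat_lit 2654916028) (nat_lit 336) (nat_lit 4617668321) (nat_lit 420) (nat_lit 23450997159) (nat_lit 36) (nat_lit 5) (nat_lit 40) (nat_lit 5) (nat_lit 41) (nat_lit 5) (nat_lit 377) (nat_lit 337) (nat_lit 174)) (XT.nd (nat_lit 94) (nat_lit 0) (nat_lit 0) (XT.lf (nat_lit 0) (nat_lit 9428054098) (nat_lit 420) (nat_lit 19535798255) (nat_lit 84) (nat_lit 2433272027) (nat_lit 36) (nat_lit 5) (nat_lit 41) (nat_lit 5) (nat_lit 37) (nat_lit 5) (nat_lit 378) (nat_lit 337) (nat_lit 173)) (XT.lf (nat_lit 0) (nat_lit 11694400046) (nat_lit 420) (nat_lit 10789264689) (nat_lit 84) (nat_lit 9606535902) (nat_lit 36) (nat_lit 5) (nat_lit 41) (nat_lit 5) (nat_lit 37) (nat_lit 5) (nat_lit 379) (nat_lit 337) (nat_lit 172)))) (XT.nd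 (nat_lit 94) (nat_lit 336) (nat_lit 0) (XT.lf (nat_lit 0) (nat_lit 14027926822) (nat_lit 420) (nat_lit 1775104254) (nat_lit 84) (nat_lit 17001845261) (nat_lit 36) (nat_lit 5) (nat_lit 41) (nat_lit 5) (nat_lit 37) (nat_lit 5) (nat_lit 380) (nat_lit 337) (nat_lit 171)) (XT.nd (nat_lit 94) (nat_lit 0) (nat_lit 0) (XT.lf (nat_lit 0) (nat_lit 7669610756) (nat_lit 336) (nat_lit 8837282251) (nat_lit 420) (nat_lit 17032566040) (nat_lit 32) (nat_lit 5) (nat_lit 36) (nat_lit 5) (nat_lit 37) (nat_lit 5) (nat_lit 381) (nat_lit 337) (nat_lit 170)) (XT.lf (nat_lit 0) (nat_lit 17441367768) (nat_lit 336) (nat_lit 1636940633) (nat_lit 420) (nat_lit 15218039399) (nat_lit 32) (nat_lit 5) (nat_lit 36) (nat_lit 5) (nat_lit 37) (nat_lit 5) (nat_lit 382) (nat_lit 337) (nat_lit 169))))) (XT.nd (nat_lit 282) (nat_lit 336) (nat_lit 0) (XT.nd (nat_lit 94) (nat_lit 252) (nat_lit 0) (XT.lf (nat_lit 0) (nat_lit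 21783998089) (nat_lit 420) (nat_lit 7621429499) (nat_lit 84) (nat_lit 5669598234) (nat_lit 32) (nat_lit 5) (nat_lit 37) (nat_lit 5) (nat_lit 33) (nat_lit 5) (nat_lit 383) (nat_lit 337) (nat_lit 168)) (XT.nd (nat_lit 94) (nat_lit 0) (nat_lit 0) (XT.lf (nat_lit 0) (nat_lit 1916968423) (nat_lit 252) (nat_lit 22689596359) (nat_lit 336) (nat_lit 11270271636) (nat_lit 29) (nat_lit 5) (nat_lit 32) (nat_lit 5) (nat_lit 33) (nat_lit 5) (nat_lit 384) (nat_lit 337) (nat_lit 167)) (XT.lf (nat_lit 0) (nat_lit 11909386853) (nat_lit 252) (nat_lit 15684089076) (nat_lit 336) (nat_lit 9107661099) (nat_lit 29) (nat_lit 5) (nat_lit 32) (nat_lit 5) (nat_lit 33) (nat_lit 5) (nat_lit 385) (nat_lit 337) (nat_lit 166)))) (XT.nd (nat_lit 188) (nat_lit 336) (nat_lit 0) (XT.nd (nat_lit 94) (nat_lit 0) (nat_lit 0) (XT.lf (nat_lit 0) (nat_lit 22208427550) (nat_lit 252) (nat_lit 8461927965) (nat_lit 336) (nat_lit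 6880732434) (nat_lit 29) (nat_lit 5) (nat_lit 32) (nat_lit 5) (nat_lit 33) (nat_lit 5) (nat_lit 386) (nat_lit 337) (nat_lit 165)) (XT.lf (nat_lit 0) (nat_lit 32823690299) (nat_lit 252) (nat_lit 1016381217) (nat_lit 336) (nat_lit 4587409912) (nat_lit 29) (nat_lit 5) (nat_lit 32) (nat_lit 5) (nat_lit 33) (nat_lit 5) (nat_lit 387) (nat_lit 337) (nat_lit 164))) (XT.nd (nat_lit 94) (nat_lit 84) (nat_lit 0) (XT.lf (nat_lit 0) (nat_lit 4457684718) (nat_lit 252) (nat_lit 32758177480) (nat_lit 336) (nat_lit 2111853357) (nat_lit 26) (nat_lit 5) (nat_lit 29) (nat_lit 5) (nat_lit 30) (nat_lit 5) (nat_lit 388) (nat_lit 337) (nat_lit 163)) (XT.lf (nat_lit 0) (nat_lit 498587607) (nat_lit 336) (nat_lit 25322619390) (nat_lit 84) (nat_lit 14432450796) (nat_lit 25) (nat_lit 5) (nat_lit 29) (nat_lit 5) (nat_lit 26) (nat_lit 5) (nat_lit 389) (nat_lit 337) (nat_lit 162))))))))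
noncomputable def xc176 : XT := (XT.nd (nat_lit 2350) (nat_lit 336) (nat_lit 0) (XT.nd (nat_lit 1128) (nat_lit 420) (nat_lit 0) (XT.nd (nat_lit 564) (nat_lit 420) (nat_lit 0) (XT.nd (nat_lit 282) (nat_lit 0) (nat_lit 0) (XT.nd (nat_lit 94) (nat_lit 252) (nat_lit 0) (XT.lf (nat_lit 0) (nat_lit 3143688969) (nat_lit 336) (nat_lit 15503821718) (nat_lit 84) (nat_lit 22560211611) (nat_lit 25) (nat_lit 5) (nat_lit 29) (nat_lit 5) (nat_lit 26) (nat_lit 5) (nat_lit 390) (nat_lit 337) (nat_lit 161)) (XT.nd (nat_lit 94) (nat_lit 252) (nat_lit 0) (XT.lf (nat_lit 0) (nat_lit 5868465377) (nat_lit 336) (nat_lit 5383535827) (nat_lit 84) (nat_lit 30939446598) (nat_lit 25) (nat_lit 5) (nat_lit 29) (nat_lit 5) (nat_lit 26) (nat_lit 5) (nat_lit 391) (nat_lit 337) (nat_lit 160)) (XT.lf (nat_lit 0) (nat_lit 5151461926) (nat_lit 252) (nat_lit 3575097822) (nat_lit 336) (nat_lit 34477607294) (nat_lit 22)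 (nat_lit 5) (nat_lit 25) (nat_lit 5) (nat_lit 26) (nat_lit 5) (nat_lit 392) (nat_lit 337) (nat_lit 159)))) (XT.nd (nat_lit 94) (nat_lit 0) (nat_lit 0) (XT.lf (nat_lit 0) (nat_lit 11770855413) (nat_lit 336) (nat_lit 28165846084) (nat_lit 84) (nat_lit 4308565685) (nat_lit 22) (nat_lit 5) (nat_lit 26) (nat_lit 5) (nat_lit 23) (nat_lit 5) (nat_lit 393) (nat_lit 337) (nat_lit 158)) (XT.nd (nat_lit 94) (nat_lit 0) (nat_lit 0) (XT.lf (nat_lit 0) (nat_lit 14943937117) (nat_lit 336) (nat_lit 18011827699) (nat_lit 84) (nat_lit 12361821658) (nat_lit 22) (nat_lit 5) (nat_lit 26) (nat_lit 5) (nat_lit 23) (nat_lit 5) (nat_lit 394) (nat_lit 337) (nat_lit 157)) (XT.lf (nat_lit 0) (nat_lit 18213297092) (nat_lit 336) (nat_lit 7545719941) (nat_lit 84) (nat_lit 20664206829) (nat_lit 22) (nat_lit 5) (nat_lit 26) (nat_lit 5) (nat_lit 23) (nat_lit 5) (nat_lit 395) (nat_lit 337) (nat_lit 156))))) (XT.nd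 (nat_lit 282) (nat_lit 168) (nat_lit 0) (XT.nd (nat_lit 94) (nat_lit 0) (nat_lit 0) (XT.lf (nat_lit 0) (nat_lit 3308899654) (nat_lit 252) (nat_lit 18305907763) (nat_lit 336) (nat_lit 25947384930) (nat_lit 19) (nat_lit 5) (nat_lit 22) (nat_lit 5) (nat_lit 23) (nat_lit 5) (nat_lit 396) (nat_lit 337) (nat_lit 155)) (XT.nd (nat_lit 94) (nat_lit 0) (nat_lit 0) (XT.lf (nat_lit 0) (nat_lit 14657399665) (nat_lit 252) (nat_lit 10541137534) (nat_lit 336) (nat_lit 23535562516) (nat_lit 19) (nat_lit 5) (nat_lit 22) (nat_lit 5) (nat_lit 23) (nat_lit 5) (nat_lit 397) (nat_lit 337) (nat_lit 154)) (XT.lf (nat_lit 0) (nat_lit 26355202604) (nat_lit 252) (nat_lit 2536230605) (nat_lit 336) (nat_lit 21050973297) (nat_lit 19) (nat_lit 5) (nat_lit 22) (nat_lit 5) (nat_lit 23) (nat_lit 5) (nat_lit 398) (nat_lit 337) (nat_lit 153)))) (XT.nd (nat_lit 94) (nat_lit 168) (nat_lit 0) (XT.lf (nat_lit 0) (nat_lit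 32753643767) (nat_lit 336) (nat_lit 12831733093) (nat_lit 84) (nat_lit 5601104241) (nat_lit 19) (nat_lit 5) (nat_lit 23) (nat_lit 5) (nat_lit 20) (nat_lit 5) (nat_lit 399) (nat_lit 337) (nat_lit 152)) (XT.nd (nat_lit 94) (nat_lit 168) (nat_lit 0) (XT.lf (nat_lit 0) (nat_lit 36759702080) (nat_lit 336) (nat_lit 1771195623) (nat_lit 84) (nat_lit 13937486473) (nat_lit 19) (nat_lit 5) (nat_lit 23) (nat_lit 5) (nat_lit 20) (nat_lit 5) (nat_lit 400) (nat_lit 337) (nat_lit 151)) (XT.lf (nat_lit 0) (nat_lit 9827887847) (nat_lit 168) (nat_lit 31157788513) (nat_lit 252) (nat_lit 12801391882) (nat_lit 17) (nat_lit 5) (nat_lit 19) (nat_lit 5) (nat_lit 20) (nat_lit 5) (nat_lit 401) (nat_lit 337) (nat_lit 150)))))) (XT.nd (nat_lit 564) (nat_lit 168) (nat_lit 0) (XT.nd (nat_lit 282) (nat_lit 252) (nat_lit 0) (XT.nd (nat_lit 94) (nat_lit 0) (nat_lit 0) (XT.lf (nat_lit 0) (nat_lit 21821774320) (nat_lit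 168) (nat_lit 23537633572) (nat_lit 252) (nat_lit 9786713588) (nat_lit 17) (nat_lit 5) (nat_lit 19) (nat_lit 5) (nat_lit 20) (nat_lit 5) (nat_lit 402) (nat_lit 337) (nat_lit 149)) (XT.nd (nat_lit 94) (nat_lit 0) (nat_lit 0) (XT.lf (nat_lit 0) (nat_lit 34185223939) (nat_lit 168) (nat_lit 15681817749) (nat_lit 252) (nat_lit 6680324867) (nat_lit 17) (nat_lit 5) (nat_lit 19) (nat_lit 5) (nat_lit 20) (nat_lit 5) (nat_lit 403) (nat_lit 337) (nat_lit 148)) (XT.lf (nat_lit 0) (nat_lit 46929760734) (nat_lit 168) (nat_lit 7583018600) (nat_lit 252) (nat_lit 3479330241) (nat_lit 17) (nat_lit 5) (nat_lit 19) (nat_lit 5) (nat_lit 20) (nat_lit 5) (nat_lit 404) (nat_lit 337) (nat_lit 147)))) (XT.nd (nat_lit 94) (nat_lit 84) (nat_lit 0) (XT.lf (nat_lit 0) (nat_lit 589848981) (nat_lit 168) (nat_lit 58724555456) (nat_lit 252) (nat_lit 166875701) (nat_lit 15) (nat_lit 5) (nat_lit 17) (nat_lit 5) (nat_lit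 18) (nat_lit 5) (nat_lit 405) (nat_lit 337) (nat_lit 146)) (XT.nd (nat_lit 94) (nat_lit 0) (nat_lit 0) (XT.lf (nat_lit 0) (nat_lit 3375438782) (nat_lit 252) (nat_lit 48288400331) (nat_lit 84) (nat_lit 9345813730) (nat_lit 14) (nat_lit 5) (nat_lit 17) (nat_lit 5) (nat_lit 15) (nat_lit 5) (nat_lit 406) (nat_lit 337) (nat_lit 145)) (XT.lf (nat_lit 0) (nat_lit 7022559826) (nat_lit 252) (nat_lit 37360501765) (nat_lit 84) (nat_lit 18202346030) (nat_lit 14) (nat_lit 5) (nat_lit 17) (nat_lit 5) (nat_lit 15) (nat_lit 5) (nat_lit 407) (nat_lit 337) (nat_lit 144))))) (XT.nd (nat_lit 282) (nat_lit 168) (nat_lit 0) (XT.nd (nat_lit 94) (nat_lit 0) (nat_lit 0) (XT.lf (nat_lit 0) (nat_lit 10781249101) (nat_lit 252) (nat_lit 26095894087) (nat_lit 84) (nat_lit 27332921372) (nat_lit 14) (nat_lit 5) (nat_lit 17) (nat_lit 5) (nat_lit 15) (nat_lit 5) (nat_lit 408) (nat_lit 337) (nat_lit 143)) (XT.nd (nat_lit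 94) (nat_lit 0) (nat_lit 0) (XT.lf (nat_lit 0) (nat_lit 14655010101) (nat_lit 252) (nat_lit 14484077502) (nat_lit 84) (nat_lit 36746050408) (nat_lit 14) (nat_lit 5) (nat_lit 17) (nat_lit 5) (nat_lit 15) (nat_lit 5) (nat_lit 409) (nat_lit 337) (nat_lit 142)) (XT.lf (nat_lit 0) (nat_lit 18647453575) (nat_lit 252) (nat_lit 2514228581) (nat_lit 84) (nat_lit 46450507161) (nat_lit 14) (nat_lit 5) (nat_lit 17) (nat_lit 5) (nat_lit 15) (nat_lit 5) (nat_lit 410) (nat_lit 337) (nat_lit 141)))) (XT.nd (nat_lit 188) (nat_lit 0) (nat_lit 0) (XT.nd (nat_lit 94) (nat_lit 0) (nat_lit 0) (XT.lf (nat_lit 0) (nat_lit 10026828069) (nat_lit 168) (nat_lit 12834940206) (nat_lit 252) (nat_lit 46527976506) (nat_lit 12) (nat_lit 5) (nat_lit 14) (nat_lit 5) (nat_lit 15) (nat_lit 5) (nat_lit 411) (nat_lit 337) (nat_lit 140)) (XT.lf (nat_lit 0) (nat_lit 23008100964) (nat_lit 168) (nat_lit 4223529789) (nat_lit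 252) (nat_lit 43990008320) (nat_lit 12) (nat_lit 5) (nat_lit 14) (nat_lit 5) (nat_lit 15) (nat_lit 5) (nat_lit 412) (nat_lit 337) (nat_lit 139))) (XT.nd (nat_lit 94) (nat_lit 0) (nat_lit 0) (XT.lf (nat_lit 0) (nat_lit 31781831427) (nat_lit 252) (nat_lit 36766548034) (nat_lit 84) (nat_lit 4560558015) (nat_lit 12) (nat_lit 5) (nat_lit 15) (nat_lit 5) (nat_lit 13) (nat_lit 5) (nat_lit 413) (nat_lit 337) (nat_lit 138)) (XT.lf (nat_lit 0) (nat_lit 36515020232) (nat_lit 252) (nat_lit 25009685365) (nat_lit 84) (nat_lit 13528742883) (nat_lit 12) (nat_lit 5) (nat_lit 15) (nat_lit 5) (nat_lit 13) (nat_lit 5) (nat_lit 414) (nat_lit 337) (nat_lit 137))))))) (XT.nd (nat_lit 48504) (nat_lit 0) (nat_lit 6132) (XT.nd (nat_lit 564) (nat_lit 168) (nat_lit 0) (XT.nd (nat_lit 282) (nat_lit 0) (nat_lit 0) (XT.nd (nat_lit 94) (nat_lit 168) (nat_lit 0) (XT.lf (nat_lit 0) (nat_lit 41393711057) (nat_lit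 252) (nat_lit 12890093536) (nat_lit 84) (nat_lit 22774478816) (nat_lit 12) (nat_lit 5) (nat_lit 15) (nat_lit 5) (nat_lit 13) (nat_lit 5) (nat_lit 415) (nat_lit 337) (nat_lit 136)) (XT.nd (nat_lit 94) (nat_lit 168) (nat_lit 0) (XT.lf (nat_lit 0) (nat_lit 46422451354) (nat_lit 252) (nat_lit 396475819) (nat_lit 84) (nat_lit 32306383807) (nat_lit 12) (nat_lit 5) (nat_lit 15) (nat_lit 5) (nat_lit 13) (nat_lit 5) (nat_lit 416) (nat_lit 337) (nat_lit 135)) (XT.lf (nat_lit 0) (nat_lit 12739485387) (nat_lit 168) (nat_lit 38992820320) (nat_lit 252) (nat_lit 29520234476) (nat_lit 10) (nat_lit 5) (nat_lit 12) (nat_lit 5) (nat_lit 13) (nat_lit 5) (nat_lit 417) (nat_lit 337) (nat_lit 134)))) (XT.nd (nat_lit 94) (nat_lit 0) (nat_lit 0) (XT.lf (nat_lit 0) (nat_lit 26289452081) (nat_lit 168) (nat_lit 30920316382) (nat_lit 252) (nat_lit 26235857460) (nat_lit 10) (nat_lit 5) (nat_lit 12) (nat_lit 5)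 (nat_lit 13) (nat_lit 5) (nat_lit 418) (nat_lit 337) (nat_lit 133)) (XT.nd (nat_lit 94) (nat_lit 0) (nat_lit 0) (XT.lf (nat_lit 0) (nat_lit 40257901895) (nat_lit 168) (nat_lit 22598029334) (nat_lit 252) (nat_lit 22850805590) (nat_lit 10) (nat_lit 5) (nat_lit 12) (nat_lit 5) (nat_lit 13) (nat_lit 5) (nat_lit 419) (nat_lit 337) (nat_lit 132)) (XT.lf (nat_lit 0) (nat_lit 54657854887) (nat_lit 168) (nat_lit 14018201934) (nat_lit 252) (nat_lit 19361923643) (nat_lit 10) (nat_lit 5) (nat_lit 12) (nat_lit 5) (nat_lit 13) (nat_lit 5) (nat_lit 420) (nat_lit 337) (nat_lit 131))))) (XT.nd (nat_lit 282) (nat_lit 84) (nat_lit 0) (XT.nd (nat_lit 94) (nat_lit 84) (nat_lit 0) (XT.lf (nat_lit 0) (nat_lit 69502733323) (nat_lit 168) (nat_lit 5172836882) (nat_lit 252) (nat_lit 15765959615) (nat_lit 10) (nat_lit 5) (nat_lit 12) (nat_lit 5) (nat_lit 13) (nat_lit 5) (nat_lit 421) (nat_lit 337) (nat_lit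 130)) (XT.nd (nat_lit 94) (nat_lit 84) (nat_lit 0) (XT.lf (nat_lit 0) (nat_lit 80899211446) (nat_lit 252) (nat_lit 8152398954) (nat_lit 84) (nat_lit 3866801262) (nat_lit 10) (nat_lit 5) (nat_lit 13) (nat_lit 5) (nat_lit 11) (nat_lit 4) (nat_lit 422) (nat_lit 337) (nat_lit 129)) (XT.lf (nat_lit 0) (nat_lit 5078372115) (nat_lit 84) (nat_lit 82339718674) (nat_lit 168) (nat_lit 8050819332) (nat_lit 9) (nat_lit 5) (nat_lit 10) (nat_lit 5) (nat_lit 11) (nat_lit 4) (nat_lit 423) (nat_lit 337) (nat_lit 128)))) (XT.nd (nat_lit 188) (nat_lit 0) (nat_lit 0) (XT.nd (nat_lit 94) (nat_lit 84) (nat_lit 0) (XT.lf (nat_lit 0) (nat_lit 18890721281) (nat_lit 84) (nat_lit 75332465145) (nat_lit 168) (nat_lit 3872684142) (nat_lit 9) (nat_lit 5) (nat_lit 10) (nat_lit 5) (nat_lit 11) (nat_lit 4) (nat_lit 424) (nat_lit 337) (nat_lit 127)) (XT.lf (nat_lit 0) (nat_lit 425261244) (nat_lit 168) (nat_lit 67678712546)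 (nat_lit 84) (nat_lit 32700192956) (nat_lit 8) (nat_lit 5) (nat_lit 10) (nat_lit 5) (nat_lit 9) (nat_lit 5) (nat_lit 425) (nat_lit 337) (nat_lit 126))) (XT.nd (nat_lit 94) (nat_lit 0) (nat_lit 0) (XT.lf (nat_lit 0) (nat_lit 4775078438) (nat_lit 168) (nat_lit 55835907138) (nat_lit 84) (nat_lit 42984239376) (nat_lit 8) (nat_lit 5) (nat_lit 10) (nat_lit 5) (nat_lit 9) (nat_lit 5) (nat_lit 426) (nat_lit 337) (nat_lit 125)) (XT.lf (nat_lit 0) (nat_lit 9258847879) (nat_lit 168) (nat_lit 43627276822) (nat_lit 84) (nat_lit 53586712985) (nat_lit 8) (nat_lit 5) (nat_lit 10) (nat_lit 5) (nat_lit 9) (nat_lit 5) (nat_lit 427) (nat_lit 337) (nat_lit 124)))))) (XT.nd (nat_lit 564) (nat_lit 0) (nat_lit 84) (XT.nd (nat_lit 282) (nat_lit 0) (nat_lit 0) (XT.nd (nat_lit 94) (nat_lit 0) (nat_lit 0) (XT.lf (nat_lit 0) (nat_lit 2017313389) (nat_lit 0) (nat_lit 2017313389) (nat_lit 924) (nat_lit 3579555763)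 (nat_lit 81) (nat_lit 5) (nat_lit 81) (nat_lit 3) (nat_lit 92) (nat_lit 3) (nat_lit 338) (nat_lit 338) (nat_lit 212)) (XT.nd (nat_lit 94) (nat_lit 0) (nat_lit 0) (XT.lf (nat_lit 0) (nat_lit 8424164859) (nat_lit 924) (nat_lit 6323385484) (nat_lit 1008) (nat_lit 708104453) (nat_lit 81) (nat_lit 5) (nat_lit 92) (nat_lit 3) (nat_lit 93) (nat_lit 5) (nat_lit 339) (nat_lit 338) (nat_lit 211)) (XT.lf (nat_lit 0) (nat_lit 8822415091) (nat_lit 924) (nat_lit 1348190884) (nat_lit 1008) (nat_lit 5518447559) (nat_lit 81) (nat_lit 5) (nat_lit 92) (nat_lit 3) (nat_lit 93) (nat_lit 5) (nat_lit 340) (nat_lit 338) (nat_lit 210)))) (XT.nd (nat_lit 94) (nat_lit 0) (nat_lit 0) (XT.lf (nat_lit 84) (nat_lit 3854159623) (nat_lit 0) (nat_lit 5408425584) (nat_lit 1008) (nat_lit 6666249138) (nat_lit 82) (nat_lit 5) (nat_lit 81) (nat_lit 5) (nat_lit 93) (nat_lit 5) (nat_lit 341) (nat_lit 338) (nat_lit 209))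 (XT.nd (nat_lit 94) (nat_lit 0) (nat_lit 84) (XT.lf (nat_lit 84) (nat_lit 9241683946) (nat_lit 0) (nat_lit 480343335) (nat_lit 1008) (nat_lit 6453908253) (nat_lit 82) (nat_lit 5) (nat_lit 81) (nat_lit 5) (nat_lit 93) (nat_lit 5) (nat_lit 342) (nat_lit 338) (nat_lit 208)) (XT.lf (nat_lit 0) (nat_lit 10233194196) (nat_lit 924) (nat_lit 1685002155) (nat_lit 1008) (nat_lit 4511398311) (nat_lit 82) (nat_lit 5) (nat_lit 93) (nat_lit 5) (nat_lit 94) (nat_lit 5) (nat_lit 343) (nat_lit 338) (nat_lit 207))))) (XT.nd (nat_lit 282) (nat_lit 0) (nat_lit 84) (XT.nd (nat_lit 94) (nat_lit 0) (nat_lit 0) (XT.lf (nat_lit 84) (nat_lit 3793754744) (nat_lit 0) (nat_lit 7001089571) (nat_lit 1008) (nat_lit 5895257113) (nat_lit 83) (nat_lit 5) (nat_lit 82) (nat_lit 5) (nat_lit 94) (nat_lit 5) (nat_lit 344) (nat_lit 338) (nat_lit 206)) (XT.nd (nat_lit 94) (nat_lit 0) (nat_lit 84) (XT.lf (nat_lit 84) (nat_lit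 9473380092) (nat_lit 0) (nat_lit 1910394472) (nat_lit 1008) (nat_lit 5574659611) (nat_lit 83) (nat_lit 5) (nat_lit 82) (nat_lit 5) (nat_lit 94) (nat_lit 5) (nat_lit 345) (nat_lit 338) (nat_lit 205)) (XT.lf (nat_lit 0) (nat_lit 12016618344) (nat_lit 924) (nat_lit 1943994647) (nat_lit 1008) (nat_lit 3273731407) (nat_lit 83) (nat_lit 5) (nat_lit 94) (nat_lit 5) (nat_lit 95) (nat_lit 5) (nat_lit 346) (nat_lit 338) (nat_lit 204)))) (XT.nd (nat_lit 188) (nat_lit 0) (nat_lit 84) (XT.nd (nat_lit 94) (nat_lit 0) (nat_lit 0) (XT.lf (nat_lit 84) (nat_lit 3821572604) (nat_lit 0) (nat_lit 8897723440) (nat_lit 1008) (nat_lit 4798007986) (nat_lit 84) (nat_lit 5) (nat_lit 83) (nat_lit 5) (nat_lit 95) (nat_lit 5) (nat_lit 347) (nat_lit 338) (nat_lit 203)) (XT.lf (nat_lit 84) (nat_lit 9802409558) (nat_lit 0) (nat_lit 3654576084) (nat_lit 1008) (nat_lit 4351690962) (nat_lit 84) (nat_lit 5) (nat_lit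 83) (nat_lit 5) (nat_lit 95) (nat_lit 5) (nat_lit 348) (nat_lit 338) (nat_lit 202))) (XT.nd (nat_lit 94) (nat_lit 0) (nat_lit 0) (XT.lf (nat_lit 0) (nat_lit 14228087736) (nat_lit 924) (nat_lit 2162619558) (nat_lit 1008) (nat_lit 1718097315) (nat_lit 84) (nat_lit 5) (nat_lit 95) (nat_lit 5) (nat_lit 96) (nat_lit 5) (nat_lit 349) (nat_lit 338) (nat_lit 201)) (XT.lf (nat_lit 84) (nat_lit 3898678806) (nat_lit 0) (nat_lit 11193846459) (nat_lit 1008) (nat_lit 3323607200) (nat_lit 85) (nat_lit 5) (nat_lit 84) (nat_lit 5) (nat_lit 96) (nat_lit 5) (nat_lit 350) (nat_lit 338) (nat_lit 200))))))))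
noncomputable def xc177 : XT := (XT.nd (nat_lit 2350) (nat_lit 1764) (nat_lit 0) (XT.nd (nat_lit 1128) (nat_lit 1680) (nat_lit 0) (XT.nd (nat_lit 564) (nat_lit 1092) (nat_lit 0) (XT.nd (nat_lit 282) (nat_lit 924) (nat_lit 0) (XT.nd (nat_lit 94) (nat_lit 0) (nat_lit 0) (XT.lf (nat_lit 84) (nat_lit 10189096970) (nat_lit 0) (nat_lit 5810768084) (nat_lit 1008) (nat_lit 2732669986) (nat_lit 85) (nat_lit 5) (nat_lit 84) (nat_lit 5) (nat_lit 96) (nat_lit 5) (nat_lit 351) (nat_lit 338) (nat_lit 199)) (XT.nd (nat_lit 94) (nat_lit 0) (nat_lit 84) (XT.lf (nat_lit 84) (nat_lit 16670030368) (nat_lit 0) (nat_lit 259027889) (nat_lit 1008) (nat_lit 2129927729) (nat_lit 85) (nat_lit 5) (nat_lit 84) (nat_lit 5) (nat_lit 96) (nat_lit 5) (nat_lit 352) (nat_lit 338) (nat_lit 198)) (XT.lf (nat_lit 84) (nat_lit 3977642099) (nat_lit 0) (nat_lit 13997016424) (nat_lit 1008) (nat_lit 1418226753) (nat_lit 86)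 (nat_lit 5) (nat_lit 85) (nat_lit 5) (nat_lit 97) (nat_lit 5) (nat_lit 353) (nat_lit 338) (nat_lit 197)))) (XT.nd (nat_lit 94) (nat_lit 1008) (nat_lit 0) (XT.lf (nat_lit 84) (nat_lit 10584989170) (nat_lit 0) (nat_lit 8489310433) (nat_lit 1008) (nat_lit 662208104) (nat_lit 86) (nat_lit 5) (nat_lit 85) (nat_lit 5) (nat_lit 97) (nat_lit 5) (nat_lit 354) (nat_lit 338) (nat_lit 196)) (XT.nd (nat_lit 94) (nat_lit 0) (nat_lit 84) (XT.lf (nat_lit 0) (nat_lit 109032747) (nat_lit 1008) (nat_lit 2699361116) (nat_lit 1092) (nat_lit 17282574104) (nat_lit 73) (nat_lit 5) (nat_lit 85) (nat_lit 5) (nat_lit 86) (nat_lit 5) (nat_lit 355) (nat_lit 338) (nat_lit 195)) (XT.lf (nat_lit 0) (nat_lit 955387891) (nat_lit 1008) (nat_lit 16463271033) (nat_lit 84) (nat_lit 3035572777) (nat_lit 74) (nat_lit 5) (nat_lit 86) (nat_lit 5) (nat_lit 75) (nat_lit 5) (nat_lit 356) (nat_lit 338) (nat_lit 194))))) (XT.nd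 (nat_lit 282) (nat_lit 504) (nat_lit 0) (XT.nd (nat_lit 94) (nat_lit 672) (nat_lit 0) (XT.lf (nat_lit 0) (nat_lit 1879629607) (nat_lit 1008) (nat_lit 9915605286) (nat_lit 84) (nat_lit 9031958375) (nat_lit 74) (nat_lit 5) (nat_lit 86) (nat_lit 5) (nat_lit 75) (nat_lit 5) (nat_lit 357) (nat_lit 338) (nat_lit 193)) (XT.nd (nat_lit 94) (nat_lit 672) (nat_lit 0) (XT.lf (nat_lit 0) (nat_lit 2827151658) (nat_lit 1008) (nat_lit 3169441200) (nat_lit 84) (nat_lit 15215326953) (nat_lit 74) (nat_lit 5) (nat_lit 86) (nat_lit 5) (nat_lit 75) (nat_lit 5) (nat_lit 358) (nat_lit 338) (nat_lit 192)) (XT.lf (nat_lit 0) (nat_lit 3837341284) (nat_lit 756) (nat_lit 17748537840) (nat_lit 84) (nat_lit 21697185) (nat_lit 66) (nat_lit 5) (nat_lit 75) (nat_lit 5) (nat_lit 67) (nat_lit 5) (nat_lit 359) (nat_lit 338) (nat_lit 191)))) (XT.nd (nat_lit 94) (nat_lit 504) (nat_lit 0) (XT.lf (nat_lit 0) (nat_lit 4968510856)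 (nat_lit 756) (nat_lit 10908051469) (nat_lit 84) (nat_lit 6136190735) (nat_lit 66) (nat_lit 5) (nat_lit 75) (nat_lit 5) (nat_lit 67) (nat_lit 5) (nat_lit 360) (nat_lit 338) (nat_lit 190)) (XT.nd (nat_lit 94) (nat_lit 504) (nat_lit 0) (XT.lf (nat_lit 0) (nat_lit 6129811872) (nat_lit 756) (nat_lit 3859875658) (nat_lit 84) (nat_lit 12440989190) (nat_lit 66) (nat_lit 5) (nat_lit 75) (nat_lit 5) (nat_lit 67) (nat_lit 5) (nat_lit 361) (nat_lit 338) (nat_lit 189)) (XT.lf (nat_lit 0) (nat_lit 3472522828) (nat_lit 504) (nat_lit 3884251814) (nat_lit 588) (nat_lit 15503894313) (nat_lit 60) (nat_lit 5) (nat_lit 66) (nat_lit 5) (nat_lit 67) (nat_lit 5) (nat_lit 362) (nat_lit 338) (nat_lit 188)))))) (XT.nd (nat_lit 564) (nat_lit 840) (nat_lit 0) (XT.nd (nat_lit 282) (nat_lit 420) (nat_lit 0) (XT.nd (nat_lit 94) (nat_lit 420) (nat_lit 0) (XT.lf (nat_lit 0) (nat_lit 8681707286) (nat_lit 588) (nat_lit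 12217386096) (nat_lit 84) (nat_lit 2403071082) (nat_lit 60) (nat_lit 5) (nat_lit 67) (nat_lit 5) (nat_lit 61) (nat_lit 5) (nat_lit 363) (nat_lit 338) (nat_lit 187)) (XT.nd (nat_lit 94) (nat_lit 420) (nat_lit 0) (XT.lf (nat_lit 0) (nat_lit 10082901085) (nat_lit 588) (nat_lit 4868300840) (nat_lit 84) (nat_lit 8805084098) (nat_lit 60) (nat_lit 5) (nat_lit 67) (nat_lit 5) (nat_lit 61) (nat_lit 5) (nat_lit 364) (nat_lit 338) (nat_lit 186)) (XT.lf (nat_lit 0) (nat_lit 2760101920) (nat_lit 420) (nat_lit 8790408471) (nat_lit 504) (nat_lit 12673292229) (nat_lit 55) (nat_lit 5) (nat_lit 60) (nat_lit 5) (nat_lit 61) (nat_lit 5) (nat_lit 365) (nat_lit 338) (nat_lit 185)))) (XT.nd (nat_lit 94) (nat_lit 420) (nat_lit 0) (XT.lf (nat_lit 0) (nat_lit 10724118196) (nat_lit 420) (nat_lit 2386002378) (nat_lit 504) (nat_lit 11594278721) (nat_lit 55) (nat_lit 5) (nat_lit 60) (nat_lit 5) (nat_lit 61) (nat_lit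 5) (nat_lit 366) (nat_lit 338) (nat_lit 184)) (XT.nd (nat_lit 94) (nat_lit 420) (nat_lit 0) (XT.lf (nat_lit 0) (nat_lit 14755733036) (nat_lit 504) (nat_lit 6310817737) (nat_lit 84) (nat_lit 4132204261) (nat_lit 55) (nat_lit 5) (nat_lit 61) (nat_lit 5) (nat_lit 56) (nat_lit 5) (nat_lit 367) (nat_lit 338) (nat_lit 183)) (XT.lf (nat_lit 0) (nat_lit 1600251186) (nat_lit 420) (nat_lit 14888333602) (nat_lit 504) (nat_lit 9218755042) (nat_lit 50) (nat_lit 5) (nat_lit 55) (nat_lit 5) (nat_lit 56) (nat_lit 5) (nat_lit 368) (nat_lit 338) (nat_lit 182))))) (XT.nd (nat_lit 282) (nat_lit 840) (nat_lit 0) (XT.nd (nat_lit 94) (nat_lit 0) (nat_lit 0) (XT.lf (nat_lit 0) (nat_lit 9886403514) (nat_lit 420) (nat_lit 8450653556) (nat_lit 504) (nat_lit 7892740921) (nat_lit 50) (nat_lit 5) (nat_lit 55) (nat_lit 5) (nat_lit 56) (nat_lit 5) (nat_lit 369) (nat_lit 338) (nat_lit 181)) (XT.nd (nat_lit 94) (nat_lit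 0) (nat_lit 0) (XT.lf (nat_lit 0) (nat_lit 18425599453) (nat_lit 420) (nat_lit 1813382039) (nat_lit 504) (nat_lit 6529615644) (nat_lit 50) (nat_lit 5) (nat_lit 55) (nat_lit 5) (nat_lit 56) (nat_lit 5) (nat_lit 370) (nat_lit 338) (nat_lit 180)) (XT.lf (nat_lit 0) (nat_lit 22246025772) (nat_lit 504) (nat_lit 148335978) (nat_lit 84) (nat_lit 4928330989) (nat_lit 50) (nat_lit 5) (nat_lit 56) (nat_lit 5) (nat_lit 51) (nat_lit 5) (nat_lit 371) (nat_lit 338) (nat_lit 179)))) (XT.nd (nat_lit 188) (nat_lit 504) (nat_lit 0) (XT.nd (nat_lit 94) (nat_lit 0) (nat_lit 0) (XT.lf (nat_lit 0) (nat_lit 8448290994) (nat_lit 336) (nat_lit 15965729942) (nat_lit 420) (nat_lit 3476907570) (nat_lit 46) (nat_lit 5) (nat_lit 50) (nat_lit 5) (nat_lit 51) (nat_lit 5) (nat_lit 372) (nat_lit 338) (nat_lit 178)) (XT.lf (nat_lit 0) (nat_lit 17310859034) (nat_lit 336) (nat_lit 9336363247) (nat_lit 420) (nat_lit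 1829642544) (nat_lit 46) (nat_lit 5) (nat_lit 50) (nat_lit 5) (nat_lit 51) (nat_lit 5) (nat_lit 373) (nat_lit 338) (nat_lit 177))) (XT.nd (nat_lit 94) (nat_lit 504) (nat_lit 0) (XT.lf (nat_lit 0) (nat_lit 26444578889) (nat_lit 336) (nat_lit 2501630726) (nat_lit 420) (nat_lit 134884789) (nat_lit 46) (nat_lit 5) (nat_lit 50) (nat_lit 5) (nat_lit 51) (nat_lit 5) (nat_lit 374) (nat_lit 338) (nat_lit 176)) (XT.lf (nat_lit 0) (nat_lit 1684552811) (nat_lit 504) (nat_lit 23483614486) (nat_lit 84) (nat_lit 4532169613) (nat_lit 40) (nat_lit 5) (nat_lit 46) (nat_lit 5) (nat_lit 41) (nat_lit 5) (nat_lit 375) (nat_lit 338) (nat_lit 175))))))) (XT.nd (nat_lit 1222) (nat_lit 840) (nat_lit 0) (XT.nd (nat_lit 564) (nat_lit 588) (nat_lit 0) (XT.nd (nat_lit 282) (nat_lit 0) (nat_lit 0) (XT.nd (nat_lit 94) (nat_lit 336) (nat_lit 0) (XT.lf (nat_lit 0) (nat_lit 3607647898) (nat_lit 504) (nat_lit 14968522541)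 (nat_lit 84) (nat_lit 11761031496) (nat_lit 40) (nat_lit 5) (nat_lit 46) (nat_lit 5) (nat_lit 41) (nat_lit 5) (nat_lit 376) (nat_lit 338) (nat_lit 174)) (XT.nd (nat_lit 94) (nat_lit 336) (nat_lit 0) (XT.lf (nat_lit 0) (nat_lit 5587128784) (nat_lit 504) (nat_lit 6193009194) (nat_lit 84) (nat_lit 19213791837) (nat_lit 40) (nat_lit 5) (nat_lit 46) (nat_lit 5) (nat_lit 41) (nat_lit 5) (nat_lit 377) (nat_lit 338) (nat_lit 173)) (XT.lf (nat_lit 0) (nat_lit 2909729821) (nat_lit 336) (nat_lit 4743975614) (nat_lit 420) (nat_lit 24016532447) (nat_lit 36) (nat_lit 5) (nat_lit 40) (nat_lit 5) (nat_lit 41) (nat_lit 5) (nat_lit 378) (nat_lit 338) (nat_lit 172)))) (XT.nd (nat_lit 94) (nat_lit 0) (nat_lit 0) (XT.lf (nat_lit 0) (nat_lit 9871476083) (nat_lit 420) (nat_lit 19968644675) (nat_lit 84) (nat_lit 2524708434) (nat_lit 36) (nat_lit 5) (nat_lit 41) (nat_lit 5) (nat_lit 37) (nat_lit 5) (nat_lit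 379) (nat_lit 338) (nat_lit 171)) (XT.nd (nat_lit 94) (nat_lit 0) (nat_lit 0) (XT.lf (nat_lit 0) (nat_lit 12203533923) (nat_lit 420) (nat_lit 10956163197) (nat_lit 84) (nat_lit 9919862253) (nat_lit 36) (nat_lit 5) (nat_lit 41) (nat_lit 5) (nat_lit 37) (nat_lit 5) (nat_lit 380) (nat_lit 338) (nat_lit 170)) (XT.lf (nat_lit 0) (nat_lit 14604991852) (nat_lit 420) (nat_lit 1667602226) (nat_lit 84) (nat_lit 17543959436) (nat_lit 36) (nat_lit 5) (nat_lit 41) (nat_lit 5) (nat_lit 37) (nat_lit 5) (nat_lit 381) (nat_lit 338) (nat_lit 169))))) (XT.nd (nat_lit 282) (nat_lit 252) (nat_lit 0) (XT.nd (nat_lit 94) (nat_lit 0) (nat_lit 0) (XT.lf (nat_lit 0) (nat_lit 8068253475) (nat_lit 336) (nat_lit 9089872876) (nat_lit 420) (nat_lit 17415891039) (nat_lit 32) (nat_lit 5) (nat_lit 36) (nat_lit 5) (nat_lit 37) (nat_lit 5) (nat_lit 382) (nat_lit 338) (nat_lit 168)) (XT.nd (nat_lit 94) (nat_lit 0) (nat_lit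 0) (XT.lf (nat_lit 0) (nat_lit 18138097489) (nat_lit 336) (nat_lit 1666963072) (nat_lit 420) (nat_lit 15549464432) (nat_lit 32) (nat_lit 5) (nat_lit 36) (nat_lit 5) (nat_lit 37) (nat_lit 5) (nat_lit 383) (nat_lit 338) (nat_lit 167)) (XT.lf (nat_lit 0) (nat_lit 22590757093) (nat_lit 420) (nat_lit 7701678937) (nat_lit 84) (nat_lit 5865050448) (nat_lit 32) (nat_lit 5) (nat_lit 37) (nat_lit 5) (nat_lit 33) (nat_lit 5) (nat_lit 384) (nat_lit 338) (nat_lit 166)))) (XT.nd (nat_lit 188) (nat_lit 0) (nat_lit 0) (XT.nd (nat_lit 94) (nat_lit 0) (nat_lit 0) (XT.lf (nat_lit 0) (nat_lit 2130829809) (nat_lit 252) (nat_lit 23367572985) (nat_lit 336) (nat_lit 11485849201) (nat_lit 29) (nat_lit 5) (nat_lit 32) (nat_lit 5) (nat_lit 33) (nat_lit 5) (nat_lit 385) (nat_lit 338) (nat_lit 165)) (XT.lf (nat_lit 0) (nat_lit 12428369665) (nat_lit 252) (nat_lit 16145658726) (nat_lit 336) (nat_lit 9260220847)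 (nat_lit 29) (nat_lit 5) (nat_lit 32) (nat_lit 5) (nat_lit 33) (nat_lit 5) (nat_lit 386) (nat_lit 338) (nat_lit 164))) (XT.nd (nat_lit 94) (nat_lit 0) (nat_lit 0) (XT.lf (nat_lit 0) (nat_lit 23042176699) (nat_lit 252) (nat_lit 8700351408) (nat_lit 336) (nat_lit 6968159538) (nat_lit 29) (nat_lit 5) (nat_lit 32) (nat_lit 5) (nat_lit 33) (nat_lit 5) (nat_lit 387) (nat_lit 338) (nat_lit 163)) (XT.lf (nat_lit 0) (nat_lit 33982144091) (nat_lit 252) (nat_lit 1024711222) (nat_lit 336) (nat_lit 4607528832) (nat_lit 29) (nat_lit 5) (nat_lit 32) (nat_lit 5) (nat_lit 33) (nat_lit 5) (nat_lit 388) (nat_lit 338) (nat_lit 162)))))) (XT.nd (nat_lit 564) (nat_lit 252) (nat_lit 0) (XT.nd (nat_lit 282) (nat_lit 252) (nat_lit 0) (XT.nd (nat_lit 94) (nat_lit 84) (nat_lit 0) (XT.lf (nat_lit 0) (nat_lit 4739443231) (nat_lit 252) (nat_lit 33745959283) (nat_lit 336) (nat_lit 2057202724) (nat_lit 26) (nat_lit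 5) (nat_lit 29) (nat_lit 5) (nat_lit 30) (nat_lit 5) (nat_lit 389) (nat_lit 338) (nat_lit 161)) (XT.nd (nat_lit 94) (nat_lit 0) (nat_lit 0) (XT.lf (nat_lit 0) (nat_lit 628202869) (nat_lit 336) (nat_lit 25965381794) (nat_lit 84) (nat_lit 14903759570) (nat_lit 25) (nat_lit 5) (nat_lit 29) (nat_lit 5) (nat_lit 26) (nat_lit 5) (nat_lit 390) (nat_lit 338) (nat_lit 160)) (XT.lf (nat_lit 0) (nat_lit 3351869850) (nat_lit 336) (nat_lit 15846478215) (nat_lit 84) (nat_lit 23282762263) (nat_lit 25) (nat_lit 5) (nat_lit 29) (nat_lit 5) (nat_lit 26) (nat_lit 5) (nat_lit 391) (nat_lit 338) (nat_lit 159)))) (XT.nd (nat_lit 94) (nat_lit 252) (nat_lit 0) (XT.lf (nat_lit 0) (nat_lit 6157785013) (nat_lit 336) (nat_lit 5416611688) (nat_lit 84) (nat_lit 31921056437) (nat_lit 25) (nat_lit 5) (nat_lit 29) (nat_lit 5) (nat_lit 26) (nat_lit 5) (nat_lit 392) (nat_lit 338) (nat_lit 158)) (XT.nd (nat_lit 94)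 (nat_lit 0) (nat_lit 0) (XT.lf (nat_lit 0) (nat_lit 5443616252) (nat_lit 252) (nat_lit 3658948860) (nat_lit 336) (nat_lit 35437078982) (nat_lit 22) (nat_lit 5) (nat_lit 25) (nat_lit 5) (nat_lit 26) (nat_lit 5) (nat_lit 393) (nat_lit 338) (nat_lit 157)) (XT.lf (nat_lit 0) (nat_lit 12238321889) (nat_lit 336) (nat_lit 28907034338) (nat_lit 84) (nat_lit 4467769891) (nat_lit 22) (nat_lit 5) (nat_lit 26) (nat_lit 5) (nat_lit 23) (nat_lit 5) (nat_lit 394) (nat_lit 338) (nat_lit 156))))) (XT.nd (nat_lit 282) (nat_lit 0) (nat_lit 0) (XT.nd (nat_lit 94) (nat_lit 252) (nat_lit 0) (XT.lf (nat_lit 0) (nat_lit 15506685063) (nat_lit 336) (nat_lit 18442208931) (nat_lit 84) (nat_lit 12769905899) (nat_lit 22) (nat_lit 5) (nat_lit 26) (nat_lit 5) (nat_lit 23) (nat_lit 5) (nat_lit 395) (nat_lit 338) (nat_lit 155)) (XT.nd (nat_lit 94) (nat_lit 252) (nat_lit 0) (XT.lf (nat_lit 0) (nat_lit 18874403865)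 (nat_lit 336) (nat_lit 7655500084) (nat_lit 84) (nat_lit 21328917288) (nat_lit 22) (nat_lit 5) (nat_lit 26) (nat_lit 5) (nat_lit 23) (nat_lit 5) (nat_lit 396) (nat_lit 338) (nat_lit 154)) (XT.lf (nat_lit 0) (nat_lit 3534355941) (nat_lit 252) (nat_lit 18845322671) (nat_lit 336) (nat_lit 26653487263) (nat_lit 19) (nat_lit 5) (nat_lit 22) (nat_lit 5) (nat_lit 23) (nat_lit 5) (nat_lit 397) (nat_lit 338) (nat_lit 153)))) (XT.nd (nat_lit 188) (nat_lit 0) (nat_lit 0) (XT.nd (nat_lit 94) (nat_lit 0) (nat_lit 0) (XT.lf (nat_lit 0) (nat_lit 15230964697) (nat_lit 252) (nat_lit 10840688517) (nat_lit 336) (nat_lit 24169853024) (nat_lit 19) (nat_lit 5) (nat_lit 22) (nat_lit 5) (nat_lit 23) (nat_lit 5) (nat_lit 398) (nat_lit 338) (nat_lit 152)) (XT.lf (nat_lit 0) (nat_lit 27287815866) (nat_lit 252) (nat_lit 2588448050) (nat_lit 336) (nat_lit 21611107368) (nat_lit 19) (nat_lit 5) (nat_lit 22) (nat_lit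 5) (nat_lit 23) (nat_lit 5) (nat_lit 399) (nat_lit 338) (nat_lit 151))) (XT.nd (nat_lit 94) (nat_lit 0) (nat_lit 0) (XT.lf (nat_lit 0) (nat_lit 33855775128) (nat_lit 336) (nat_lit 13114492709) (nat_lit 84) (nat_lit 5799834193) (nat_lit 19) (nat_lit 5) (nat_lit 23) (nat_lit 5) (nat_lit 20) (nat_lit 5) (nat_lit 400) (nat_lit 338) (nat_lit 150)) (XT.lf (nat_lit 0) (nat_lit 37983412306) (nat_lit 336) (nat_lit 1714537110) (nat_lit 84) (nat_lit 14393889699) (nat_lit 19) (nat_lit 5) (nat_lit 23) (nat_lit 5) (nat_lit 20) (nat_lit 5) (nat_lit 401) (nat_lit 338) (nat_lit 149))))))))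
noncomputable def xc178 : XT := (XT.nd (nat_lit 2350) (nat_lit 0) (nat_lit 0) (XT.nd (nat_lit 1128) (nat_lit 336) (nat_lit 0) (XT.nd (nat_lit 564) (nat_lit 168) (nat_lit 0) (XT.nd (nat_lit 282) (nat_lit 252) (nat_lit 0) (XT.nd (nat_lit 94) (nat_lit 0) (nat_lit 0) (XT.lf (nat_lit 0) (nat_lit 10242988446) (nat_lit 168) (nat_lit 32095968384) (nat_lit 252) (nat_lit 13112503753) (nat_lit 17) (nat_lit 5) (nat_lit 19) (nat_lit 5) (nat_lit 20) (nat_lit 5) (nat_lit 402) (nat_lit 338) (nat_lit 148)) (XT.nd (nat_lit 94) (nat_lit 0) (nat_lit 0) (XT.lf (nat_lit 0) (nat_lit 22605364819) (nat_lit 168) (nat_lit 24240421869) (nat_lit 252) (nat_lit 10006948190) (nat_lit 17) (nat_lit 5) (nat_lit 19) (nat_lit 5) (nat_lit 20) (nat_lit 5) (nat_lit 403) (nat_lit 338) (nat_lit 147)) (XT.lf (nat_lit 0) (nat_lit 35348860638) (nat_lit 168) (nat_lit 16141883930) (nat_lit 252) (nat_lit 6806761671) (nat_lit 17)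 (nat_lit 5) (nat_lit 19) (nat_lit 5) (nat_lit 20) (nat_lit 5) (nat_lit 404) (nat_lit 338) (nat_lit 146)))) (XT.nd (nat_lit 94) (nat_lit 252) (nat_lit 0) (XT.lf (nat_lit 0) (nat_lit 48485354177) (nat_lit 168) (nat_lit 7792805883) (nat_lit 252) (nat_lit 3508961285) (nat_lit 17) (nat_lit 5) (nat_lit 19) (nat_lit 5) (nat_lit 20) (nat_lit 5) (nat_lit 405) (nat_lit 338) (nat_lit 145)) (XT.nd (nat_lit 94) (nat_lit 84) (nat_lit 0) (XT.lf (nat_lit 0) (nat_lit 710352492) (nat_lit 168) (nat_lit 60517270706) (nat_lit 252) (nat_lit 94876517) (nat_lit 15) (nat_lit 5) (nat_lit 17) (nat_lit 5) (nat_lit 18) (nat_lit 5) (nat_lit 406) (nat_lit 338) (nat_lit 144)) (XT.lf (nat_lit 0) (nat_lit 3553421207) (nat_lit 252) (nat_lit 49684319653) (nat_lit 84) (nat_lit 9660569281) (nat_lit 14) (nat_lit 5) (nat_lit 17) (nat_lit 5) (nat_lit 15) (nat_lit 5) (nat_lit 407) (nat_lit 338) (nat_lit 143))))) (XT.nd (nat_lit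 282) (nat_lit 168) (nat_lit 0) (XT.nd (nat_lit 94) (nat_lit 0) (nat_lit 0) (XT.lf (nat_lit 0) (nat_lit 7311397708) (nat_lit 252) (nat_lit 38420693724) (nat_lit 84) (nat_lit 18790901323) (nat_lit 14) (nat_lit 5) (nat_lit 17) (nat_lit 5) (nat_lit 15) (nat_lit 5) (nat_lit 408) (nat_lit 338) (nat_lit 142)) (XT.nd (nat_lit 94) (nat_lit 0) (nat_lit 0) (XT.lf (nat_lit 0) (nat_lit 11184467365) (nat_lit 252) (nat_lit 26809829368) (nat_lit 84) (nat_lit 28203794375) (nat_lit 14) (nat_lit 5) (nat_lit 17) (nat_lit 5) (nat_lit 15) (nat_lit 5) (nat_lit 409) (nat_lit 338) (nat_lit 141)) (XT.lf (nat_lit 0) (nat_lit 15176240285) (nat_lit 252) (nat_lit 14840904045) (nat_lit 84) (nat_lit 37908022239) (nat_lit 14) (nat_lit 5) (nat_lit 17) (nat_lit 5) (nat_lit 15) (nat_lit 5) (nat_lit 410) (nat_lit 338) (nat_lit 140)))) (XT.nd (nat_lit 94) (nat_lit 168) (nat_lit 0) (XT.lf (nat_lit 0) (nat_lit 19290437217)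 (nat_lit 252) (nat_lit 2502761461) (nat_lit 84) (nat_lit 47912630271) (nat_lit 14) (nat_lit 5) (nat_lit 17) (nat_lit 5) (nat_lit 15) (nat_lit 5) (nat_lit 411) (nat_lit 338) (nat_lit 139)) (XT.nd (nat_lit 94) (nat_lit 0) (nat_lit 0) (XT.lf (nat_lit 0) (nat_lit 10426162767) (nat_lit 168) (nat_lit 13208159082) (nat_lit 252) (nat_lit 47904209874) (nat_lit 12) (nat_lit 5) (nat_lit 14) (nat_lit 5) (nat_lit 15) (nat_lit 5) (nat_lit 412) (nat_lit 338) (nat_lit 138)) (XT.lf (nat_lit 0) (nat_lit 23807194023) (nat_lit 168) (nat_lit 4330536544) (nat_lit 252) (nat_lit 45289553181) (nat_lit 12) (nat_lit 5) (nat_lit 14) (nat_lit 5) (nat_lit 15) (nat_lit 5) (nat_lit 413) (nat_lit 338) (nat_lit 137)))))) (XT.nd (nat_lit 564) (nat_lit 168) (nat_lit 0) (XT.nd (nat_lit 282) (nat_lit 168) (nat_lit 0) (XT.nd (nat_lit 94) (nat_lit 0) (nat_lit 0) (XT.lf (nat_lit 0) (nat_lit 32827355860) (nat_lit 252) (nat_lit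 37821121159) (nat_lit 84) (nat_lit 4724671181) (nat_lit 12) (nat_lit 5) (nat_lit 15) (nat_lit 5) (nat_lit 13) (nat_lit 5) (nat_lit 414) (nat_lit 338) (nat_lit 136)) (XT.nd (nat_lit 94) (nat_lit 0) (nat_lit 0) (XT.lf (nat_lit 0) (nat_lit 37705460795) (nat_lit 252) (nat_lit 25702357227) (nat_lit 84) (nat_lit 13970186161) (nat_lit 12) (nat_lit 5) (nat_lit 15) (nat_lit 5) (nat_lit 13) (nat_lit 5) (nat_lit 415) (nat_lit 338) (nat_lit 135)) (XT.lf (nat_lit 0) (nat_lit 42733632817) (nat_lit 252) (nat_lit 13209542514) (nat_lit 84) (nat_lit 23501876842) (nat_lit 12) (nat_lit 5) (nat_lit 15) (nat_lit 5) (nat_lit 13) (nat_lit 5) (nat_lit 416) (nat_lit 338) (nat_lit 134)))) (XT.nd (nat_lit 94) (nat_lit 168) (nat_lit 0) (XT.lf (nat_lit 0) (nat_lit 47916558711) (nat_lit 252) (nat_lit 331032406) (nat_lit 84) (nat_lit 33328627761) (nat_lit 12) (nat_lit 5) (nat_lit 15) (nat_lit 5) (nat_lit 13) (nat_lit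 5) (nat_lit 417) (nat_lit 338) (nat_lit 133)) (XT.nd (nat_lit 94) (nat_lit 0) (nat_lit 0) (XT.lf (nat_lit 0) (nat_lit 13211356608) (nat_lit 168) (nat_lit 40178771190) (nat_lit 252) (nat_lit 30379300161) (nat_lit 10) (nat_lit 5) (nat_lit 12) (nat_lit 5) (nat_lit 13) (nat_lit 5) (nat_lit 418) (nat_lit 338) (nat_lit 132)) (XT.lf (nat_lit 0) (nat_lit 27179058630) (nat_lit 168) (nat_lit 31856705977) (nat_lit 252) (nat_lit 26994793112) (nat_lit 10) (nat_lit 5) (nat_lit 12) (nat_lit 5) (nat_lit 13) (nat_lit 5) (nat_lit 419) (nat_lit 338) (nat_lit 131))))) (XT.nd (nat_lit 282) (nat_lit 168) (nat_lit 0) (XT.nd (nat_lit 94) (nat_lit 0) (nat_lit 0) (XT.lf (nat_lit 0) (nat_lit 41578286315) (nat_lit 168) (nat_lit 23277093740) (nat_lit 252) (nat_lit 23506439603) (nat_lit 10) (nat_lit 5) (nat_lit 12) (nat_lit 5) (nat_lit 13) (nat_lit 5) (nat_lit 420) (nat_lit 338) (nat_lit 130)) (XT.nd (nat_lit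 94) (nat_lit 0) (nat_lit 0) (XT.lf (nat_lit 0) (nat_lit 56422461251) (nat_lit 168) (nat_lit 14431937383) (nat_lit 252) (nat_lit 19910988125) (nat_lit 10) (nat_lit 5) (nat_lit 12) (nat_lit 5) (nat_lit 13) (nat_lit 5) (nat_lit 421) (nat_lit 338) (nat_lit 129)) (XT.lf (nat_lit 0) (nat_lit 71725419766) (nat_lit 168) (nat_lit 5312992294) (nat_lit 252) (nat_lit 16205087340) (nat_lit 10) (nat_lit 5) (nat_lit 12) (nat_lit 5) (nat_lit 13) (nat_lit 5) (nat_lit 422) (nat_lit 338) (nat_lit 128)))) (XT.nd (nat_lit 188) (nat_lit 84) (nat_lit 0) (XT.nd (nat_lit 94) (nat_lit 84) (nat_lit 0) (XT.lf (nat_lit 0) (nat_lit 83453740337) (nat_lit 252) (nat_lit 8337597480) (nat_lit 84) (nat_lit 4005872388) (nat_lit 10) (nat_lit 5) (nat_lit 13) (nat_lit 5) (nat_lit 11) (nat_lit 4) (nat_lit 423) (nat_lit 338) (nat_lit 127)) (XT.lf (nat_lit 0) (nat_lit 5302643854) (nat_lit 84) (nat_lit 84871321401) (nat_lit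 168) (nat_lit 8252838585) (nat_lit 9) (nat_lit 5) (nat_lit 10) (nat_lit 5) (nat_lit 11) (nat_lit 4) (nat_lit 424) (nat_lit 338) (nat_lit 126))) (XT.nd (nat_lit 94) (nat_lit 84) (nat_lit 0) (XT.lf (nat_lit 0) (nat_lit 19541166040) (nat_lit 84) (nat_lit 77647472291) (nat_lit 168) (nat_lit 3946611118) (nat_lit 9) (nat_lit 5) (nat_lit 10) (nat_lit 5) (nat_lit 11) (nat_lit 4) (nat_lit 425) (nat_lit 338) (nat_lit 125)) (XT.lf (nat_lit 0) (nat_lit 482282259) (nat_lit 168) (nat_lit 69712768223) (nat_lit 84) (nat_lit 33732486468) (nat_lit 8) (nat_lit 5) (nat_lit 10) (nat_lit 5) (nat_lit 9) (nat_lit 5) (nat_lit 426) (nat_lit 338) (nat_lit 124))))))) (XT.nd (nat_lit 48504) (nat_lit 0) (nat_lit 4872) (XT.nd (nat_lit 47846) (nat_lit 0) (nat_lit 6132) (XT.nd (nat_lit 47564) (nat_lit 0) (nat_lit 6132) (XT.nd (nat_lit 94) (nat_lit 0) (nat_lit 0) (XT.lf (nat_lit 0) (nat_lit 4965625672) (nat_lit 168)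 (nat_lit 57504759724) (nat_lit 84) (nat_lit 44334779439) (nat_lit 8) (nat_lit 5) (nat_lit 10) (nat_lit 5) (nat_lit 9) (nat_lit 5) (nat_lit 427) (nat_lit 338) (nat_lit 123)) (XT.nd (nat_lit 47376) (nat_lit 0) (nat_lit 6132) (XT.lf (nat_lit 0) (nat_lit 9587113485) (nat_lit 168) (nat_lit 44919527898) (nat_lit 84) (nat_lit 55265387647) (nat_lit 8) (nat_lit 5) (nat_lit 10) (nat_lit 5) (nat_lit 9) (nat_lit 5) (nat_lit 428) (nat_lit 338) (nat_lit 122)) (XT.lf (nat_lit 0) (nat_lit 2190080127) (nat_lit 0) (nat_lit 2190080127) (nat_lit 924) (nat_lit 3461618832) (nat_lit 81) (nat_lit 5) (nat_lit 81) (nat_lit 3) (nat_lit 92) (nat_lit 3) (nat_lit 339) (nat_lit 339) (nat_lit 210)))) (XT.nd (nat_lit 94) (nat_lit 0) (nat_lit 0) (XT.lf (nat_lit 0) (nat_lit 9110855292) (nat_lit 924) (nat_lit 6287079433) (nat_lit 1008) (nat_lit 520532637) (nat_lit 81) (nat_lit 5) (nat_lit 92) (nat_lit 3) (nat_lit 93)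 (nat_lit 5) (nat_lit 340) (nat_lit 339) (nat_lit 209)) (XT.nd (nat_lit 94) (nat_lit 0) (nat_lit 0) (XT.lf (nat_lit 0) (nat_lit 9508656150) (nat_lit 924) (nat_lit 1164639505) (nat_lit 1008) (nat_lit 5486296297) (nat_lit 81) (nat_lit 5) (nat_lit 92) (nat_lit 3) (nat_lit 93) (nat_lit 5) (nat_lit 341) (nat_lit 339) (nat_lit 208)) (XT.lf (nat_lit 84) (nat_lit 4196702449) (nat_lit 0) (nat_lit 5755571503) (nat_lit 1008) (nat_lit 6454939160) (nat_lit 82) (nat_lit 5) (nat_lit 81) (nat_lit 5) (nat_lit 93) (nat_lit 5) (nat_lit 342) (nat_lit 339) (nat_lit 207))))) (XT.nd (nat_lit 282) (nat_lit 0) (nat_lit 84) (XT.nd (nat_lit 94) (nat_lit 0) (nat_lit 84) (XT.lf (nat_lit 84) (nat_lit 9744532965) (nat_lit 0) (nat_lit 669321975) (nat_lit 1008) (nat_lit 6248582996) (nat_lit 82) (nat_lit 5) (nat_lit 81) (nat_lit 5) (nat_lit 93) (nat_lit 5) (nat_lit 343) (nat_lit 339) (nat_lit 206)) (XT.nd (nat_lit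 94) (nat_lit 0) (nat_lit 0) (XT.lf (nat_lit 0) (nat_lit 10927453128) (nat_lit 924) (nat_lit 1511208716) (nat_lit 1008) (nat_lit 4485800144) (nat_lit 82) (nat_lit 5) (nat_lit 93) (nat_lit 5) (nat_lit 94) (nat_lit 5) (nat_lit 344) (nat_lit 339) (nat_lit 205)) (XT.lf (nat_lit 84) (nat_lit 4135101312) (nat_lit 0) (nat_lit 7362296123) (nat_lit 1008) (nat_lit 5696012707) (nat_lit 83) (nat_lit 5) (nat_lit 82) (nat_lit 5) (nat_lit 94) (nat_lit 5) (nat_lit 345) (nat_lit 339) (nat_lit 204)))) (XT.nd (nat_lit 188) (nat_lit 0) (nat_lit 84) (XT.nd (nat_lit 94) (nat_lit 0) (nat_lit 84) (XT.lf (nat_lit 84) (nat_lit 9984067649) (nat_lit 0) (nat_lit 2109454505) (nat_lit 1008) (nat_lit 5376962539) (nat_lit 83) (nat_lit 5) (nat_lit 82) (nat_lit 5) (nat_lit 94) (nat_lit 5) (nat_lit 346) (nat_lit 339) (nat_lit 203)) (XT.lf (nat_lit 0) (nat_lit 12733908848) (nat_lit 924) (nat_lit 1779175141) (nat_lit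 1008) (nat_lit 3242316611) (nat_lit 83) (nat_lit 5) (nat_lit 94) (nat_lit 5) (nat_lit 95) (nat_lit 5) (nat_lit 347) (nat_lit 339) (nat_lit 202))) (XT.nd (nat_lit 94) (nat_lit 0) (nat_lit 0) (XT.lf (nat_lit 84) (nat_lit 4162845928) (nat_lit 0) (nat_lit 9287367208) (nat_lit 1008) (nat_lit 4597247477) (nat_lit 84) (nat_lit 5) (nat_lit 83) (nat_lit 5) (nat_lit 95) (nat_lit 5) (nat_lit 348) (nat_lit 339) (nat_lit 201)) (XT.lf (nat_lit 84) (nat_lit 10322389563) (nat_lit 0) (nat_lit 3878260126) (nat_lit 1008) (nat_lit 4147603318) (nat_lit 84) (nat_lit 5) (nat_lit 83) (nat_lit 5) (nat_lit 95) (nat_lit 5) (nat_lit 349) (nat_lit 339) (nat_lit 200)))))) (XT.nd (nat_lit 564) (nat_lit 1512) (nat_lit 0) (XT.nd (nat_lit 282) (nat_lit 0) (nat_lit 0) (XT.nd (nat_lit 94) (nat_lit 0) (nat_lit 0) (XT.lf (nat_lit 0) (nat_lit 14984776680) (nat_lit 924) (nat_lit 2006874164) (nat_lit 1008) (nat_lit 1666442690)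 (nat_lit 84) (nat_lit 5) (nat_lit 95) (nat_lit 5) (nat_lit 96) (nat_lit 5) (nat_lit 350) (nat_lit 339) (nat_lit 199)) (XT.nd (nat_lit 94) (nat_lit 0) (nat_lit 0) (XT.lf (nat_lit 84) (nat_lit 4240068935) (nat_lit 0) (nat_lit 11628640557) (nat_lit 1008) (nat_lit 3106534583) (nat_lit 85) (nat_lit 5) (nat_lit 84) (nat_lit 5) (nat_lit 96) (nat_lit 5) (nat_lit 351) (nat_lit 339) (nat_lit 198)) (XT.lf (nat_lit 84) (nat_lit 10718859156) (nat_lit 0) (nat_lit 6076047246) (nat_lit 1008) (nat_lit 2506903182) (nat_lit 85) (nat_lit 5) (nat_lit 84) (nat_lit 5) (nat_lit 96) (nat_lit 5) (nat_lit 352) (nat_lit 339) (nat_lit 197)))) (XT.nd (nat_lit 94) (nat_lit 0) (nat_lit 84) (XT.lf (nat_lit 84) (nat_lit 17394269961) (nat_lit 0) (nat_lit 349642964) (nat_lit 1008) (nat_lit 1894811383) (nat_lit 85) (nat_lit 5) (nat_lit 84) (nat_lit 5) (nat_lit 96) (nat_lit 5) (nat_lit 353) (nat_lit 339) (nat_lit 196))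 (XT.nd (nat_lit 94) (nat_lit 0) (nat_lit 0) (XT.lf (nat_lit 84) (nat_lit 4318106149) (nat_lit 0) (nat_lit 14496458945) (nat_lit 1008) (nat_lit 1168700694) (nat_lit 86) (nat_lit 5) (nat_lit 85) (nat_lit 5) (nat_lit 97) (nat_lit 5) (nat_lit 354) (nat_lit 339) (nat_lit 195)) (XT.lf (nat_lit 84) (nat_lit 11123751520) (nat_lit 0) (nat_lit 8816043568) (nat_lit 1008) (nat_lit 398070126) (nat_lit 86) (nat_lit 5) (nat_lit 85) (nat_lit 5) (nat_lit 97) (nat_lit 5) (nat_lit 355) (nat_lit 339) (nat_lit 194))))) (XT.nd (nat_lit 282) (nat_lit 588) (nat_lit 0) (XT.nd (nat_lit 94) (nat_lit 0) (nat_lit 84) (XT.lf (nat_lit 0) (nat_lit 382956927) (nat_lit 1008) (nat_lit 2571326480) (nat_lit 1092) (nat_lit 17749260364) (nat_lit 73) (nat_lit 5) (nat_lit 85) (nat_lit 5) (nat_lit 86) (nat_lit 5) (nat_lit 356) (nat_lit 339) (nat_lit 193)) (XT.nd (nat_lit 94) (nat_lit 0) (nat_lit 0) (XT.lf (nat_lit 0) (nat_lit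 1248948577) (nat_lit 1008) (nat_lit 16753515615) (nat_lit 84) (nat_lit 3075864951) (nat_lit 74) (nat_lit 5) (nat_lit 86) (nat_lit 5) (nat_lit 75) (nat_lit 5) (nat_lit 357) (nat_lit 339) (nat_lit 192)) (XT.lf (nat_lit 0) (nat_lit 2193905557) (nat_lit 1008) (nat_lit 10009490680) (nat_lit 84) (nat_lit 9259756474) (nat_lit 74) (nat_lit 5) (nat_lit 86) (nat_lit 5) (nat_lit 75) (nat_lit 5) (nat_lit 358) (nat_lit 339) (nat_lit 191)))) (XT.nd (nat_lit 188) (nat_lit 0) (nat_lit 0) (XT.nd (nat_lit 94) (nat_lit 672) (nat_lit 0) (XT.lf (nat_lit 0) (nat_lit 3163103187) (nat_lit 1008) (nat_lit 3060614954) (nat_lit 84) (nat_lit 15636378800) (nat_lit 74) (nat_lit 5) (nat_lit 86) (nat_lit 5) (nat_lit 75) (nat_lit 5) (nat_lit 359) (nat_lit 339) (nat_lit 190)) (XT.lf (nat_lit 0) (nat_lit 4183884593) (nat_lit 672) (nat_lit 15064921) (nat_lit 756) (nat_lit 18069295668) (nat_lit 66) (nat_lit 5) (nat_lit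 74) (nat_lit 5) (nat_lit 75) (nat_lit 5) (nat_lit 360) (nat_lit 339) (nat_lit 189))) (XT.nd (nat_lit 94) (nat_lit 0) (nat_lit 0) (XT.lf (nat_lit 0) (nat_lit 5357744396) (nat_lit 756) (nat_lit 11038120202) (nat_lit 84) (nat_lit 6290397909) (nat_lit 66) (nat_lit 5) (nat_lit 75) (nat_lit 5) (nat_lit 67) (nat_lit 5) (nat_lit 361) (nat_lit 339) (nat_lit 188)) (XT.lf (nat_lit 0) (nat_lit 6547973483) (nat_lit 756) (nat_lit 3777707494) (nat_lit 84) (nat_lit 12791728004) (nat_lit 66) (nat_lit 5) (nat_lit 75) (nat_lit 5) (nat_lit 67) (nat_lit 5) (nat_lit 362) (nat_lit 339) (nat_lit 187))))))))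
noncomputable def xc179 : XT := (XT.nd (nat_lit 2444) (nat_lit 1428) (nat_lit 0) (XT.nd (nat_lit 1222) (nat_lit 1344) (nat_lit 0) (XT.nd (nat_lit 564) (nat_lit 840) (nat_lit 0) (XT.nd (nat_lit 282) (nat_lit 420) (nat_lit 0) (XT.nd (nat_lit 94) (nat_lit 0) (nat_lit 0) (XT.lf (nat_lit 0) (nat_lit 3779952055) (nat_lit 504) (nat_lit 4028142284) (nat_lit 588) (nat_lit 15752834346) (nat_lit 60) (nat_lit 5) (nat_lit 66) (nat_lit 5) (nat_lit 67) (nat_lit 5) (nat_lit 363) (nat_lit 339) (nat_lit 186)) (XT.nd (nat_lit 94) (nat_lit 0) (nat_lit 0) (XT.lf (nat_lit 0) (nat_lit 9167161038) (nat_lit 588) (nat_lit 12393957327) (nat_lit 84) (nat_lit 2455252396) (nat_lit 60) (nat_lit 5) (nat_lit 67) (nat_lit 5) (nat_lit 61) (nat_lit 5) (nat_lit 364) (nat_lit 339) (nat_lit 185)) (XT.lf (nat_lit 0) (nat_lit 10605287532) (nat_lit 588) (nat_lit 4823129186) (nat_lit 84) (nat_lit 9056398747) (nat_lit 60)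 (nat_lit 5) (nat_lit 67) (nat_lit 5) (nat_lit 61) (nat_lit 5) (nat_lit 365) (nat_lit 339) (nat_lit 184)))) (XT.nd (nat_lit 94) (nat_lit 0) (nat_lit 0) (XT.lf (nat_lit 0) (nat_lit 3039768835) (nat_lit 420) (nat_lit 9074240685) (nat_lit 504) (nat_lit 12852993866) (nat_lit 55) (nat_lit 5) (nat_lit 60) (nat_lit 5) (nat_lit 61) (nat_lit 5) (nat_lit 366) (nat_lit 339) (nat_lit 183)) (XT.nd (nat_lit 94) (nat_lit 0) (nat_lit 0) (XT.lf (nat_lit 0) (nat_lit 11244833324) (nat_lit 420) (nat_lit 2470957348) (nat_lit 504) (nat_lit 11746940525) (nat_lit 55) (nat_lit 5) (nat_lit 60) (nat_lit 5) (nat_lit 61) (nat_lit 5) (nat_lit 367) (nat_lit 339) (nat_lit 182)) (XT.lf (nat_lit 0) (nat_lit 15406320167) (nat_lit 504) (nat_lit 6316461863) (nat_lit 84) (nat_lit 4249858855) (nat_lit 55) (nat_lit 5) (nat_lit 61) (nat_lit 5) (nat_lit 56) (nat_lit 5) (nat_lit 368) (nat_lit 339) (nat_lit 181))))) (XT.nd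 (nat_lit 282) (nat_lit 420) (nat_lit 0) (XT.nd (nat_lit 94) (nat_lit 0) (nat_lit 0) (XT.lf (nat_lit 0) (nat_lit 1837926706) (nat_lit 420) (nat_lit 15351021375) (nat_lit 504) (nat_lit 9308204654) (nat_lit 50) (nat_lit 5) (nat_lit 55) (nat_lit 5) (nat_lit 56) (nat_lit 5) (nat_lit 369) (nat_lit 339) (nat_lit 180)) (XT.nd (nat_lit 94) (nat_lit 0) (nat_lit 0) (XT.lf (nat_lit 0) (nat_lit 10375294955) (nat_lit 420) (nat_lit 8713738687) (nat_lit 504) (nat_lit 7946987379) (nat_lit 50) (nat_lit 5) (nat_lit 55) (nat_lit 5) (nat_lit 56) (nat_lit 5) (nat_lit 370) (nat_lit 339) (nat_lit 179)) (XT.lf (nat_lit 0) (nat_lit 19173721196) (nat_lit 420) (nat_lit 1870678231) (nat_lit 504) (nat_lit 6547331003) (nat_lit 50) (nat_lit 5) (nat_lit 55) (nat_lit 5) (nat_lit 56) (nat_lit 5) (nat_lit 371) (nat_lit 339) (nat_lit 178)))) (XT.nd (nat_lit 188) (nat_lit 84) (nat_lit 0) (XT.nd (nat_lit 94) (nat_lit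 0) (nat_lit 0) (XT.lf (nat_lit 0) (nat_lit 25693955) (nat_lit 336) (nat_lit 23082860234) (nat_lit 420) (nat_lit 5054642478) (nat_lit 46) (nat_lit 5) (nat_lit 50) (nat_lit 5) (nat_lit 51) (nat_lit 5) (nat_lit 372) (nat_lit 339) (nat_lit 177)) (XT.lf (nat_lit 0) (nat_lit 8886495479) (nat_lit 336) (nat_lit 16453564707) (nat_lit 420) (nat_lit 3409136431) (nat_lit 46) (nat_lit 5) (nat_lit 50) (nat_lit 5) (nat_lit 51) (nat_lit 5) (nat_lit 373) (nat_lit 339) (nat_lit 176))) (XT.nd (nat_lit 94) (nat_lit 84) (nat_lit 0) (XT.lf (nat_lit 0) (nat_lit 18018501933) (nat_lit 336) (nat_lit 9618901213) (nat_lit 420) (nat_lit 1716084767) (nat_lit 46) (nat_lit 5) (nat_lit 50) (nat_lit 5) (nat_lit 51) (nat_lit 5) (nat_lit 374) (nat_lit 339) (nat_lit 175)) (XT.lf (nat_lit 0) (nat_lit 25564948) (nat_lit 420) (nat_lit 2546667336) (nat_lit 84) (nat_lit 27404393511) (nat_lit 45) (nat_lit 5) (nat_lit 50)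 (nat_lit 5) (nat_lit 46) (nat_lit 5) (nat_lit 375) (nat_lit 339) (nat_lit 174)))))) (XT.nd (nat_lit 564) (nat_lit 588) (nat_lit 0) (XT.nd (nat_lit 282) (nat_lit 336) (nat_lit 0) (XT.nd (nat_lit 94) (nat_lit 0) (nat_lit 0) (XT.lf (nat_lit 0) (nat_lit 1895506333) (nat_lit 504) (nat_lit 24037330754) (nat_lit 84) (nat_lit 4682311297) (nat_lit 40) (nat_lit 5) (nat_lit 46) (nat_lit 5) (nat_lit 41) (nat_lit 5) (nat_lit 376) (nat_lit 339) (nat_lit 173)) (XT.nd (nat_lit 94) (nat_lit 0) (nat_lit 0) (XT.lf (nat_lit 0) (nat_lit 3873444618) (nat_lit 504) (nat_lit 15263511064) (nat_lit 84) (nat_lit 12134977910) (nat_lit 40) (nat_lit 5) (nat_lit 46) (nat_lit 5) (nat_lit 41) (nat_lit 5) (nat_lit 377) (nat_lit 339) (nat_lit 172)) (XT.lf (nat_lit 0) (nat_lit 5909660170) (nat_lit 504) (nat_lit 6221039351) (nat_lit 84) (nat_lit 19818492553) (nat_lit 40) (nat_lit 5) (nat_lit 46) (nat_lit 5) (nat_lit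 41) (nat_lit 5) (nat_lit 378) (nat_lit 339) (nat_lit 171)))) (XT.nd (nat_lit 94) (nat_lit 0) (nat_lit 0) (XT.lf (nat_lit 0) (nat_lit 3162224696) (nat_lit 336) (nat_lit 4875195919) (nat_lit 420) (nat_lit 24609162030) (nat_lit 36) (nat_lit 5) (nat_lit 40) (nat_lit 5) (nat_lit 41) (nat_lit 5) (nat_lit 379) (nat_lit 339) (nat_lit 170)) (XT.nd (nat_lit 94) (nat_lit 0) (nat_lit 0) (XT.lf (nat_lit 0) (nat_lit 10319691140) (nat_lit 420) (nat_lit 20425142400) (nat_lit 84) (nat_lit 2618031368) (nat_lit 36) (nat_lit 5) (nat_lit 41) (nat_lit 5) (nat_lit 37) (nat_lit 5) (nat_lit 380) (nat_lit 339) (nat_lit 169)) (XT.lf (nat_lit 0) (nat_lit 12719767139) (nat_lit 420) (nat_lit 11138160940) (nat_lit 84) (nat_lit 10241982224) (nat_lit 36) (nat_lit 5) (nat_lit 41) (nat_lit 5) (nat_lit 37) (nat_lit 5) (nat_lit 381) (nat_lit 339) (nat_lit 168))))) (XT.nd (nat_lit 282) (nat_lit 252) (nat_lit 0) (XT.nd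 (nat_lit 94) (nat_lit 336) (nat_lit 0) (XT.lf (nat_lit 0) (nat_lit 15191523189) (nat_lit 420) (nat_lit 1566394582) (nat_lit 84) (nat_lit 18101987301) (nat_lit 36) (nat_lit 5) (nat_lit 41) (nat_lit 5) (nat_lit 37) (nat_lit 5) (nat_lit 382) (nat_lit 339) (nat_lit 167)) (XT.nd (nat_lit 94) (nat_lit 0) (nat_lit 0) (XT.lf (nat_lit 0) (nat_lit 8469724638) (nat_lit 336) (nat_lit 9351559303) (nat_lit 420) (nat_lit 17819669026) (nat_lit 32) (nat_lit 5) (nat_lit 36) (nat_lit 5) (nat_lit 37) (nat_lit 5) (nat_lit 383) (nat_lit 339) (nat_lit 166)) (XT.lf (nat_lit 0) (nat_lit 18847182880) (nat_lit 336) (nat_lit 1699143649) (nat_lit 420) (nat_lit 15899475875) (nat_lit 32) (nat_lit 5) (nat_lit 36) (nat_lit 5) (nat_lit 37) (nat_lit 5) (nat_lit 384) (nat_lit 339) (nat_lit 165)))) (XT.nd (nat_lit 188) (nat_lit 0) (nat_lit 0) (XT.nd (nat_lit 94) (nat_lit 252) (nat_lit 0) (XT.lf (nat_lit 0) (nat_lit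 23414739318) (nat_lit 420) (nat_lit 7793657136) (nat_lit 84) (nat_lit 6065395133) (nat_lit 32) (nat_lit 5) (nat_lit 37) (nat_lit 5) (nat_lit 33) (nat_lit 5) (nat_lit 385) (nat_lit 339) (nat_lit 164)) (XT.lf (nat_lit 0) (nat_lit 2342173428) (nat_lit 252) (nat_lit 24068071422) (nat_lit 336) (nat_lit 11716034925) (nat_lit 29) (nat_lit 5) (nat_lit 32) (nat_lit 5) (nat_lit 33) (nat_lit 5) (nat_lit 386) (nat_lit 339) (nat_lit 163))) (XT.nd (nat_lit 94) (nat_lit 0) (nat_lit 0) (XT.lf (nat_lit 0) (nat_lit 12954568518) (nat_lit 252) (nat_lit 16622996334) (nat_lit 336) (nat_lit 9425196906) (nat_lit 29) (nat_lit 5) (nat_lit 32) (nat_lit 5) (nat_lit 33) (nat_lit 5) (nat_lit 387) (nat_lit 339) (nat_lit 162)) (XT.lf (nat_lit 0) (nat_lit 23893166420) (nat_lit 252) (nat_lit 8947581397) (nat_lit 336) (nat_lit 7065752709) (nat_lit 29) (nat_lit 5) (nat_lit 32) (nat_lit 5) (nat_lit 33) (nat_lit 5) (nat_lit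 388) (nat_lit 339) (nat_lit 161))))))) (XT.nd (nat_lit 1222) (nat_lit 588) (nat_lit 0) (XT.nd (nat_lit 564) (nat_lit 252) (nat_lit 0) (XT.nd (nat_lit 282) (nat_lit 252) (nat_lit 0) (XT.nd (nat_lit 94) (nat_lit 336) (nat_lit 0) (XT.lf (nat_lit 0) (nat_lit 35168163055) (nat_lit 252) (nat_lit 1034672319) (nat_lit 336) (nat_lit 4635503085) (nat_lit 29) (nat_lit 5) (nat_lit 32) (nat_lit 5) (nat_lit 33) (nat_lit 5) (nat_lit 389) (nat_lit 339) (nat_lit 160)) (XT.nd (nat_lit 94) (nat_lit 84) (nat_lit 0) (XT.lf (nat_lit 0) (nat_lit 5021432344) (nat_lit 252) (nat_lit 34766004325) (nat_lit 336) (nat_lit 2007972721) (nat_lit 26) (nat_lit 5) (nat_lit 29) (nat_lit 5) (nat_lit 30) (nat_lit 5) (nat_lit 390) (nat_lit 339) (nat_lit 159)) (XT.lf (nat_lit 0) (nat_lit 755074367) (nat_lit 336) (nat_lit 26636494879) (nat_lit 84) (nat_lit 15388263112) (nat_lit 25) (nat_lit 5) (nat_lit 29) (nat_lit 5) (nat_lit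 26) (nat_lit 5) (nat_lit 391) (nat_lit 339) (nat_lit 158)))) (XT.nd (nat_lit 94) (nat_lit 252) (nat_lit 0) (XT.lf (nat_lit 0) (nat_lit 3559945817) (nat_lit 336) (nat_lit 16207928788) (nat_lit 84) (nat_lit 24026338752) (nat_lit 25) (nat_lit 5) (nat_lit 29) (nat_lit 5) (nat_lit 26) (nat_lit 5) (nat_lit 392) (nat_lit 339) (nat_lit 157)) (XT.nd (nat_lit 94) (nat_lit 252) (nat_lit 0) (XT.lf (nat_lit 0) (nat_lit 6449712238) (nat_lit 336) (nat_lit 5458638917) (nat_lit 84) (nat_lit 32931764239) (nat_lit 25) (nat_lit 5) (nat_lit 29) (nat_lit 5) (nat_lit 26) (nat_lit 5) (nat_lit 393) (nat_lit 339) (nat_lit 156)) (XT.lf (nat_lit 0) (nat_lit 5736981588) (nat_lit 252) (nat_lit 3746997173) (nat_lit 336) (nat_lit 36432770341) (nat_lit 22) (nat_lit 5) (nat_lit 25) (nat_lit 5) (nat_lit 26) (nat_lit 5) (nat_lit 394) (nat_lit 339) (nat_lit 155))))) (XT.nd (nat_lit 282) (nat_lit 252) (nat_lit 0) (XT.nd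 (nat_lit 94) (nat_lit 0) (nat_lit 0) (XT.lf (nat_lit 0) (nat_lit 12714204431) (nat_lit 336) (nat_lit 29679015228) (nat_lit 84) (nat_lit 4630390805) (nat_lit 22) (nat_lit 5) (nat_lit 26) (nat_lit 5) (nat_lit 23) (nat_lit 5) (nat_lit 395) (nat_lit 339) (nat_lit 154)) (XT.nd (nat_lit 94) (nat_lit 0) (nat_lit 0) (XT.lf (nat_lit 0) (nat_lit 16080985475) (nat_lit 336) (nat_lit 18893512777) (nat_lit 84) (nat_lit 13189167790) (nat_lit 22) (nat_lit 5) (nat_lit 26) (nat_lit 5) (nat_lit 23) (nat_lit 5) (nat_lit 396) (nat_lit 339) (nat_lit 153)) (XT.lf (nat_lit 0) (nat_lit 19550289410) (nat_lit 336) (nat_lit 7776036270) (nat_lit 84) (nat_lit 22012805100) (nat_lit 22) (nat_lit 5) (nat_lit 26) (nat_lit 5) (nat_lit 23) (nat_lit 5) (nat_lit 397) (nat_lit 339) (nat_lit 152)))) (XT.nd (nat_lit 188) (nat_lit 0) (nat_lit 0) (XT.nd (nat_lit 94) (nat_lit 0) (nat_lit 0) (XT.lf (nat_lit 0) (nat_lit 3759522956)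 (nat_lit 252) (nat_lit 19403121970) (nat_lit 336) (nat_lit 27387299267) (nat_lit 19) (nat_lit 5) (nat_lit 22) (nat_lit 5) (nat_lit 23) (nat_lit 5) (nat_lit 398) (nat_lit 339) (nat_lit 151)) (XT.lf (nat_lit 0) (nat_lit 15815250675) (nat_lit 252) (nat_lit 11151138121) (nat_lit 336) (nat_lit 24829452026) (nat_lit 19) (nat_lit 5) (nat_lit 22) (nat_lit 5) (nat_lit 23) (nat_lit 5) (nat_lit 399) (nat_lit 339) (nat_lit 150))) (XT.nd (nat_lit 94) (nat_lit 0) (nat_lit 0) (XT.lf (nat_lit 0) (nat_lit 28242492835) (nat_lit 252) (nat_lit 2643848291) (nat_lit 336) (nat_lit 22194081336) (nat_lit 19) (nat_lit 5) (nat_lit 22) (nat_lit 5) (nat_lit 23) (nat_lit 5) (nat_lit 400) (nat_lit 339) (nat_lit 149)) (XT.lf (nat_lit 0) (nat_lit 34986933120) (nat_lit 336) (nat_lit 13412830949) (nat_lit 84) (nat_lit 6003238311) (nat_lit 19) (nat_lit 5) (nat_lit 23) (nat_lit 5) (nat_lit 20) (nat_lit 5) (nat_lit 401)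 (nat_lit 339) (nat_lit 148)))))) (XT.nd (nat_lit 564) (nat_lit 252) (nat_lit 0) (XT.nd (nat_lit 282) (nat_lit 168) (nat_lit 0) (XT.nd (nat_lit 94) (nat_lit 168) (nat_lit 0) (XT.lf (nat_lit 0) (nat_lit 39240072640) (nat_lit 336) (nat_lit 1662730404) (nat_lit 84) (nat_lit 14862999657) (nat_lit 19) (nat_lit 5) (nat_lit 23) (nat_lit 5) (nat_lit 20) (nat_lit 5) (nat_lit 402) (nat_lit 339) (nat_lit 147)) (XT.nd (nat_lit 94) (nat_lit 0) (nat_lit 0) (XT.lf (nat_lit 0) (nat_lit 10664415845) (nat_lit 168) (nat_lit 33064873235) (nat_lit 252) (nat_lit 13438338101) (nat_lit 17) (nat_lit 5) (nat_lit 19) (nat_lit 5) (nat_lit 20) (nat_lit 5) (nat_lit 403) (nat_lit 339) (nat_lit 146)) (XT.lf (nat_lit 0) (nat_lit 23406901989) (nat_lit 168) (nat_lit 24966588653) (nat_lit 252) (nat_lit 10238935390) (nat_lit 17) (nat_lit 5) (nat_lit 19) (nat_lit 5) (nat_lit 20) (nat_lit 5) (nat_lit 404) (nat_lit 339)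 (nat_lit 145)))) (XT.nd (nat_lit 94) (nat_lit 168) (nat_lit 0) (XT.lf (nat_lit 0) (nat_lit 36542416211) (nat_lit 168) (nat_lit 16617756344) (nat_lit 252) (nat_lit 6941895246) (nat_lit 17) (nat_lit 5) (nat_lit 19) (nat_lit 5) (nat_lit 20) (nat_lit 5) (nat_lit 405) (nat_lit 339) (nat_lit 144)) (XT.nd (nat_lit 94) (nat_lit 168) (nat_lit 0) (XT.lf (nat_lit 0) (nat_lit 50083202187) (nat_lit 168) (nat_lit 8010594322) (nat_lit 252) (nat_lit 3544144481) (nat_lit 17) (nat_lit 5) (nat_lit 19) (nat_lit 5) (nat_lit 20) (nat_lit 5) (nat_lit 406) (nat_lit 339) (nat_lit 143)) (XT.lf (nat_lit 0) (nat_lit 828537053) (nat_lit 168) (nat_lit 62367203570) (nat_lit 252) (nat_lit 25216407) (nat_lit 15) (nat_lit 5) (nat_lit 17) (nat_lit 5) (nat_lit 18) (nat_lit 5) (nat_lit 407) (nat_lit 339) (nat_lit 142))))) (XT.nd (nat_lit 282) (nat_lit 168) (nat_lit 0) (XT.nd (nat_lit 94) (nat_lit 0) (nat_lit 0) (XT.lf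 (nat_lit 0) (nat_lit 3732576806) (nat_lit 252) (nat_lit 51129496127) (nat_lit 84) (nat_lit 9983599368) (nat_lit 14) (nat_lit 5) (nat_lit 17) (nat_lit 5) (nat_lit 15) (nat_lit 5) (nat_lit 408) (nat_lit 339) (nat_lit 141)) (XT.nd (nat_lit 94) (nat_lit 0) (nat_lit 0) (XT.lf (nat_lit 0) (nat_lit 7604975908) (nat_lit 252) (nat_lit 39519555369) (nat_lit 84) (nat_lit 19396263532) (nat_lit 14) (nat_lit 5) (nat_lit 17) (nat_lit 5) (nat_lit 15) (nat_lit 5) (nat_lit 409) (nat_lit 339) (nat_lit 140)) (XT.lf (nat_lit 0) (nat_lit 11596098435) (nat_lit 252) (nat_lit 27551525873) (nat_lit 84) (nat_lit 29100269389) (nat_lit 14) (nat_lit 5) (nat_lit 17) (nat_lit 5) (nat_lit 15) (nat_lit 5) (nat_lit 410) (nat_lit 339) (nat_lit 139)))) (XT.nd (nat_lit 188) (nat_lit 168) (nat_lit 0) (XT.nd (nat_lit 94) (nat_lit 0) (nat_lit 0) (XT.lf (nat_lit 0) (nat_lit 15709664530) (nat_lit 252) (nat_lit 15214252181)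 (nat_lit 84) (nat_lit 39104662091) (nat_lit 14) (nat_lit 5) (nat_lit 17) (nat_lit 5) (nat_lit 15) (nat_lit 5) (nat_lit 411) (nat_lit 339) (nat_lit 138)) (XT.lf (nat_lit 0) (nat_lit 19949508468) (nat_lit 252) (nat_lit 2496234662) (nat_lit 84) (nat_lit 49418766778) (nat_lit 14) (nat_lit 5) (nat_lit 17) (nat_lit 5) (nat_lit 15) (nat_lit 5) (nat_lit 412) (nat_lit 339) (nat_lit 137))) (XT.nd (nat_lit 94) (nat_lit 0) (nat_lit 0) (XT.lf (nat_lit 0) (nat_lit 10832634655) (nat_lit 168) (nat_lit 13594408650) (nat_lit 252) (nat_lit 49327023700) (nat_lit 12) (nat_lit 5) (nat_lit 14) (nat_lit 5) (nat_lit 15) (nat_lit 5) (nat_lit 413) (nat_lit 339) (nat_lit 136)) (XT.lf (nat_lit 0) (nat_lit 24625974401) (nat_lit 168) (nat_lit 4442277490) (nat_lit 252) (nat_lit 46633183374) (nat_lit 12) (nat_lit 5) (nat_lit 14) (nat_lit 5) (nat_lit 15) (nat_lit 5) (nat_lit 414) (nat_lit 339) (nat_lit 135))))))))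
noncomputable def xc180 : XT := (XT.nd (nat_lit 49820) (nat_lit 0) (nat_lit 2688) (XT.nd (nat_lit 1128) (nat_lit 84) (nat_lit 0) (XT.nd (nat_lit 564) (nat_lit 84) (nat_lit 0) (XT.nd (nat_lit 282) (nat_lit 168) (nat_lit 0) (XT.nd (nat_lit 94) (nat_lit 0) (nat_lit 0) (XT.lf (nat_lit 0) (nat_lit 33901720609) (nat_lit 252) (nat_lit 38913431993) (nat_lit 84) (nat_lit 4892525171) (nat_lit 12) (nat_lit 5) (nat_lit 15) (nat_lit 5) (nat_lit 13) (nat_lit 5) (nat_lit 415) (nat_lit 339) (nat_lit 134)) (XT.nd (nat_lit 94) (nat_lit 0) (nat_lit 0) (XT.lf (nat_lit 0) (nat_lit 38929341445) (nat_lit 252) (nat_lit 26421396139) (nat_lit 84) (nat_lit 14424007987) (nat_lit 12) (nat_lit 5) (nat_lit 15) (nat_lit 5) (nat_lit 13) (nat_lit 5) (nat_lit 416) (nat_lit 339) (nat_lit 133)) (XT.lf (nat_lit 0) (nat_lit 44111732724) (nat_lit 252) (nat_lit 13543641471) (nat_lit 84) (nat_lit 24250557290) (nat_lit 12)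 (nat_lit 5) (nat_lit 15) (nat_lit 5) (nat_lit 13) (nat_lit 5) (nat_lit 417) (nat_lit 339) (nat_lit 132)))) (XT.nd (nat_lit 94) (nat_lit 168) (nat_lit 0) (XT.lf (nat_lit 0) (nat_lit 49453724979) (nat_lit 252) (nat_lit 268164575) (nat_lit 84) (nat_lit 34381332452) (nat_lit 12) (nat_lit 5) (nat_lit 15) (nat_lit 5) (nat_lit 13) (nat_lit 5) (nat_lit 418) (nat_lit 339) (nat_lit 131)) (XT.nd (nat_lit 94) (nat_lit 0) (nat_lit 0) (XT.lf (nat_lit 0) (nat_lit 13693298124) (nat_lit 168) (nat_lit 41402838594) (nat_lit 252) (nat_lit 31268317506) (nat_lit 10) (nat_lit 5) (nat_lit 12) (nat_lit 5) (nat_lit 13) (nat_lit 5) (nat_lit 419) (nat_lit 339) (nat_lit 130)) (XT.lf (nat_lit 0) (nat_lit 28091822310) (nat_lit 168) (nat_lit 32823435052) (nat_lit 252) (nat_lit 27780476548) (nat_lit 10) (nat_lit 5) (nat_lit 12) (nat_lit 5) (nat_lit 13) (nat_lit 5) (nat_lit 420) (nat_lit 339) (nat_lit 129))))) (XT.nd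 (nat_lit 282) (nat_lit 84) (nat_lit 0) (XT.nd (nat_lit 94) (nat_lit 0) (nat_lit 0) (XT.lf (nat_lit 0) (nat_lit 42935314900) (nat_lit 168) (nat_lit 23978481115) (nat_lit 252) (nat_lit 24185522208) (nat_lit 10) (nat_lit 5) (nat_lit 12) (nat_lit 5) (nat_lit 13) (nat_lit 5) (nat_lit 421) (nat_lit 339) (nat_lit 128)) (XT.nd (nat_lit 94) (nat_lit 0) (nat_lit 0) (XT.lf (nat_lit 0) (nat_lit 58237611585) (nat_lit 168) (nat_lit 14859732358) (nat_lit 252) (nat_lit 20480103614) (nat_lit 10) (nat_lit 5) (nat_lit 12) (nat_lit 5) (nat_lit 13) (nat_lit 5) (nat_lit 422) (nat_lit 339) (nat_lit 127)) (XT.lf (nat_lit 0) (nat_lit 74012975707) (nat_lit 168) (nat_lit 5458689154) (nat_lit 252) (nat_lit 16660766926) (nat_lit 10) (nat_lit 5) (nat_lit 12) (nat_lit 5) (nat_lit 13) (nat_lit 5) (nat_lit 423) (nat_lit 339) (nat_lit 126)))) (XT.nd (nat_lit 94) (nat_lit 84) (nat_lit 0) (XT.lf (nat_lit 0) (nat_lit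 86084696267) (nat_lit 252) (nat_lit 8532536831) (nat_lit 84) (nat_lit 4148117453) (nat_lit 10) (nat_lit 5) (nat_lit 13) (nat_lit 5) (nat_lit 11) (nat_lit 4) (nat_lit 424) (nat_lit 339) (nat_lit 125)) (XT.nd (nat_lit 94) (nat_lit 0) (nat_lit 0) (XT.lf (nat_lit 0) (nat_lit 5529908839) (nat_lit 84) (nat_lit 87482643447) (nat_lit 168) (nat_lit 8463937268) (nat_lit 9) (nat_lit 5) (nat_lit 10) (nat_lit 5) (nat_lit 11) (nat_lit 4) (nat_lit 425) (nat_lit 339) (nat_lit 124)) (XT.lf (nat_lit 0) (nat_lit 20207934452) (nat_lit 84) (nat_lit 80035447018) (nat_lit 168) (nat_lit 4025561966) (nat_lit 9) (nat_lit 5) (nat_lit 10) (nat_lit 5) (nat_lit 11) (nat_lit 4) (nat_lit 426) (nat_lit 339) (nat_lit 123)))))) (XT.nd (nat_lit 48034) (nat_lit 0) (nat_lit 6216) (XT.nd (nat_lit 47752) (nat_lit 0) (nat_lit 6132) (XT.nd (nat_lit 47564) (nat_lit 0) (nat_lit 6132) (XT.lf (nat_lit 0) (nat_lit 538474331)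 (nat_lit 168) (nat_lit 71813669532) (nat_lit 84) (nat_lit 34795680109) (nat_lit 8) (nat_lit 5) (nat_lit 10) (nat_lit 5) (nat_lit 9) (nat_lit 5) (nat_lit 427) (nat_lit 339) (nat_lit 122)) (XT.nd (nat_lit 94) (nat_lit 0) (nat_lit 0) (XT.lf (nat_lit 0) (nat_lit 2361673522) (nat_lit 0) (nat_lit 2361673522) (nat_lit 924) (nat_lit 3353584183) (nat_lit 81) (nat_lit 5) (nat_lit 81) (nat_lit 3) (nat_lit 92) (nat_lit 3) (nat_lit 340) (nat_lit 340) (nat_lit 208)) (XT.lf (nat_lit 0) (nat_lit 9793627588) (nat_lit 924) (nat_lit 6263409258) (nat_lit 1008) (nat_lit 339556504) (nat_lit 81) (nat_lit 5) (nat_lit 92) (nat_lit 3) (nat_lit 93) (nat_lit 5) (nat_lit 341) (nat_lit 340) (nat_lit 207)))) (XT.nd (nat_lit 94) (nat_lit 0) (nat_lit 0) (XT.lf (nat_lit 0) (nat_lit 10191723018) (nat_lit 924) (nat_lit 988745621) (nat_lit 1008) (nat_lit 5465185599) (nat_lit 81) (nat_lit 5) (nat_lit 92) (nat_lit 3)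 (nat_lit 93) (nat_lit 5) (nat_lit 342) (nat_lit 340) (nat_lit 206)) (XT.nd (nat_lit 94) (nat_lit 0) (nat_lit 0) (XT.lf (nat_lit 84) (nat_lit 4536651647) (nat_lit 0) (nat_lit 6102847757) (nat_lit 1008) (nat_lit 6261835278) (nat_lit 82) (nat_lit 5) (nat_lit 81) (nat_lit 5) (nat_lit 93) (nat_lit 5) (nat_lit 343) (nat_lit 340) (nat_lit 205)) (XT.lf (nat_lit 84) (nat_lit 10250155119) (nat_lit 0) (nat_lit 853847424) (nat_lit 1008) (nat_lit 6060904980) (nat_lit 82) (nat_lit 5) (nat_lit 81) (nat_lit 5) (nat_lit 93) (nat_lit 5) (nat_lit 344) (nat_lit 340) (nat_lit 204))))) (XT.nd (nat_lit 282) (nat_lit 0) (nat_lit 84) (XT.nd (nat_lit 94) (nat_lit 0) (nat_lit 0) (XT.lf (nat_lit 0) (nat_lit 11620901960) (nat_lit 924) (nat_lit 1345415735) (nat_lit 1008) (nat_lit 4469208410) (nat_lit 82) (nat_lit 5) (nat_lit 93) (nat_lit 5) (nat_lit 94) (nat_lit 5) (nat_lit 345) (nat_lit 340) (nat_lit 203)) (XT.nd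 (nat_lit 94) (nat_lit 0) (nat_lit 0) (XT.lf (nat_lit 84) (nat_lit 4473777109) (nat_lit 0) (nat_lit 7726160479) (nat_lit 1008) (nat_lit 5513218083) (nat_lit 83) (nat_lit 5) (nat_lit 82) (nat_lit 5) (nat_lit 94) (nat_lit 5) (nat_lit 346) (nat_lit 340) (nat_lit 202)) (XT.lf (nat_lit 84) (nat_lit 10497732482) (nat_lit 0) (nat_lit 2306402566) (nat_lit 1008) (nat_lit 5195082890) (nat_lit 83) (nat_lit 5) (nat_lit 82) (nat_lit 5) (nat_lit 94) (nat_lit 5) (nat_lit 347) (nat_lit 340) (nat_lit 201)))) (XT.nd (nat_lit 188) (nat_lit 0) (nat_lit 0) (XT.nd (nat_lit 94) (nat_lit 0) (nat_lit 0) (XT.lf (nat_lit 0) (nat_lit 13453013723) (nat_lit 924) (nat_lit 1622578302) (nat_lit 1008) (nat_lit 3217799879) (nat_lit 83) (nat_lit 5) (nat_lit 94) (nat_lit 5) (nat_lit 95) (nat_lit 5) (nat_lit 348) (nat_lit 340) (nat_lit 200)) (XT.lf (nat_lit 84) (nat_lit 4501501629) (nat_lit 0) (nat_lit 9682348515) (nat_lit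 1008) (nat_lit 4410964802) (nat_lit 84) (nat_lit 5) (nat_lit 83) (nat_lit 5) (nat_lit 95) (nat_lit 5) (nat_lit 349) (nat_lit 340) (nat_lit 199))) (XT.nd (nat_lit 94) (nat_lit 0) (nat_lit 84) (XT.lf (nat_lit 84) (nat_lit 10845688661) (nat_lit 0) (nat_lit 4102339656) (nat_lit 1008) (nat_lit 3957267918) (nat_lit 84) (nat_lit 5) (nat_lit 83) (nat_lit 5) (nat_lit 95) (nat_lit 5) (nat_lit 350) (nat_lit 340) (nat_lit 198)) (XT.lf (nat_lit 0) (nat_lit 15746228373) (nat_lit 924) (nat_lit 1859496694) (nat_lit 1008) (nat_lit 1619401104) (nat_lit 84) (nat_lit 5) (nat_lit 95) (nat_lit 5) (nat_lit 96) (nat_lit 5) (nat_lit 351) (nat_lit 340) (nat_lit 197))))))) (XT.nd (nat_lit 1222) (nat_lit 1680) (nat_lit 0) (XT.nd (nat_lit 564) (nat_lit 1092) (nat_lit 0) (XT.nd (nat_lit 282) (nat_lit 924) (nat_lit 0) (XT.nd (nat_lit 94) (nat_lit 0) (nat_lit 0) (XT.lf (nat_lit 84) (nat_lit 4578979724) (nat_lit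 0) (nat_lit 12071713624) (nat_lit 1008) (nat_lit 2901693049) (nat_lit 85) (nat_lit 5) (nat_lit 84) (nat_lit 5) (nat_lit 96) (nat_lit 5) (nat_lit 352) (nat_lit 340) (nat_lit 196)) (XT.nd (nat_lit 94) (nat_lit 0) (nat_lit 0) (XT.lf (nat_lit 84) (nat_lit 11252374296) (nat_lit 0) (nat_lit 6344506758) (nat_lit 1008) (nat_lit 2292527844) (nat_lit 85) (nat_lit 5) (nat_lit 84) (nat_lit 5) (nat_lit 96) (nat_lit 5) (nat_lit 353) (nat_lit 340) (nat_lit 195)) (XT.lf (nat_lit 84) (nat_lit 18128672259) (nat_lit 0) (nat_lit 438175442) (nat_lit 1008) (nat_lit 1670243711) (nat_lit 85) (nat_lit 5) (nat_lit 84) (nat_lit 5) (nat_lit 96) (nat_lit 5) (nat_lit 354) (nat_lit 340) (nat_lit 194)))) (XT.nd (nat_lit 94) (nat_lit 1008) (nat_lit 0) (XT.lf (nat_lit 84) (nat_lit 4656261995) (nat_lit 0) (nat_lit 15007502434) (nat_lit 1008) (nat_lit 928823308) (nat_lit 86) (nat_lit 5) (nat_lit 85) (nat_lit 5) (nat_lit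 97) (nat_lit 5) (nat_lit 355) (nat_lit 340) (nat_lit 193)) (XT.nd (nat_lit 94) (nat_lit 1008) (nat_lit 0) (XT.lf (nat_lit 84) (nat_lit 11666739665) (nat_lit 0) (nat_lit 9149140396) (nat_lit 1008) (nat_lit 142605152) (nat_lit 86) (nat_lit 5) (nat_lit 85) (nat_lit 5) (nat_lit 97) (nat_lit 5) (nat_lit 356) (nat_lit 340) (nat_lit 192)) (XT.lf (nat_lit 0) (nat_lit 649347963) (nat_lit 1008) (nat_lit 2451863003) (nat_lit 1092) (nat_lit 18234505243) (nat_lit 73) (nat_lit 5) (nat_lit 85) (nat_lit 5) (nat_lit 86) (nat_lit 5) (nat_lit 357) (nat_lit 340) (nat_lit 191))))) (XT.nd (nat_lit 282) (nat_lit 1176) (nat_lit 0) (XT.nd (nat_lit 94) (nat_lit 0) (nat_lit 0) (XT.lf (nat_lit 0) (nat_lit 1535975810) (nat_lit 1008) (nat_lit 17065795675) (nat_lit 84) (nat_lit 3120593475) (nat_lit 74) (nat_lit 5) (nat_lit 86) (nat_lit 5) (nat_lit 75) (nat_lit 5) (nat_lit 358) (nat_lit 340) (nat_lit 190)) (XT.nd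 (nat_lit 94) (nat_lit 0) (nat_lit 0) (XT.lf (nat_lit 0) (nat_lit 2502760303) (nat_lit 1008) (nat_lit 10118932394) (nat_lit 84) (nat_lit 9497707771) (nat_lit 74) (nat_lit 5) (nat_lit 86) (nat_lit 5) (nat_lit 75) (nat_lit 5) (nat_lit 359) (nat_lit 340) (nat_lit 189)) (XT.lf (nat_lit 0) (nat_lit 3494761397) (nat_lit 1008) (nat_lit 2960680733) (nat_lit 84) (nat_lit 16073481757) (nat_lit 74) (nat_lit 5) (nat_lit 86) (nat_lit 5) (nat_lit 75) (nat_lit 5) (nat_lit 360) (nat_lit 340) (nat_lit 188)))) (XT.nd (nat_lit 188) (nat_lit 504) (nat_lit 0) (XT.nd (nat_lit 94) (nat_lit 0) (nat_lit 0) (XT.lf (nat_lit 0) (nat_lit 4506425990) (nat_lit 672) (nat_lit 51182055) (nat_lit 756) (nat_lit 18392323057) (nat_lit 66) (nat_lit 5) (nat_lit 74) (nat_lit 5) (nat_lit 75) (nat_lit 5) (nat_lit 361) (nat_lit 340) (nat_lit 187)) (XT.lf (nat_lit 0) (nat_lit 5745112303) (nat_lit 756) (nat_lit 11184546052) (nat_lit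 84) (nat_lit 6451518720) (nat_lit 66) (nat_lit 5) (nat_lit 75) (nat_lit 5) (nat_lit 67) (nat_lit 5) (nat_lit 362) (nat_lit 340) (nat_lit 186))) (XT.nd (nat_lit 94) (nat_lit 504) (nat_lit 0) (XT.lf (nat_lit 0) (nat_lit 6965585133) (nat_lit 756) (nat_lit 3704946517) (nat_lit 84) (nat_lit 13155408795) (nat_lit 66) (nat_lit 5) (nat_lit 75) (nat_lit 5) (nat_lit 67) (nat_lit 5) (nat_lit 363) (nat_lit 340) (nat_lit 185)) (XT.lf (nat_lit 0) (nat_lit 4085078216) (nat_lit 504) (nat_lit 4175102677) (nat_lit 588) (nat_lit 16023214364) (nat_lit 60) (nat_lit 5) (nat_lit 66) (nat_lit 5) (nat_lit 67) (nat_lit 5) (nat_lit 364) (nat_lit 340) (nat_lit 184)))))) (XT.nd (nat_lit 564) (nat_lit 840) (nat_lit 0) (XT.nd (nat_lit 282) (nat_lit 420) (nat_lit 0) (XT.nd (nat_lit 94) (nat_lit 420) (nat_lit 0) (XT.lf (nat_lit 0) (nat_lit 9654850803) (nat_lit 588) (nat_lit 12587977007) (nat_lit 84) (nat_lit 2510373019)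 (nat_lit 60) (nat_lit 5) (nat_lit 67) (nat_lit 5) (nat_lit 61) (nat_lit 5) (nat_lit 365) (nat_lit 340) (nat_lit 183)) (XT.nd (nat_lit 94) (nat_lit 420) (nat_lit 0) (XT.lf (nat_lit 0) (nat_lit 11131440168) (nat_lit 588) (nat_lit 4788171897) (nat_lit 84) (nat_lit 9316786099) (nat_lit 60) (nat_lit 5) (nat_lit 67) (nat_lit 5) (nat_lit 61) (nat_lit 5) (nat_lit 366) (nat_lit 340) (nat_lit 182)) (XT.lf (nat_lit 0) (nat_lit 3316608326) (nat_lit 420) (nat_lit 9366200629) (nat_lit 504) (nat_lit 13050892703) (nat_lit 55) (nat_lit 5) (nat_lit 60) (nat_lit 5) (nat_lit 61) (nat_lit 5) (nat_lit 367) (nat_lit 340) (nat_lit 181)))) (XT.nd (nat_lit 94) (nat_lit 420) (nat_lit 0) (XT.lf (nat_lit 0) (nat_lit 11770539216) (nat_lit 420) (nat_lit 2557895030) (nat_lit 504) (nat_lit 11916581643) (nat_lit 55) (nat_lit 5) (nat_lit 60) (nat_lit 5) (nat_lit 61) (nat_lit 5) (nat_lit 368) (nat_lit 340) (nat_lit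 180)) (XT.nd (nat_lit 94) (nat_lit 420) (nat_lit 0) (XT.lf (nat_lit 0) (nat_lit 16065634336) (nat_lit 504) (nat_lit 6333534462) (nat_lit 84) (nat_lit 4371779342) (nat_lit 55) (nat_lit 5) (nat_lit 61) (nat_lit 5) (nat_lit 56) (nat_lit 5) (nat_lit 369) (nat_lit 340) (nat_lit 179)) (XT.lf (nat_lit 0) (nat_lit 2071830593) (nat_lit 420) (nat_lit 15827984386) (nat_lit 504) (nat_lit 9412056272) (nat_lit 50) (nat_lit 5) (nat_lit 55) (nat_lit 5) (nat_lit 56) (nat_lit 5) (nat_lit 370) (nat_lit 340) (nat_lit 178))))) (XT.nd (nat_lit 282) (nat_lit 504) (nat_lit 0) (XT.nd (nat_lit 94) (nat_lit 336) (nat_lit 0) (XT.lf (nat_lit 0) (nat_lit 10868537401) (nat_lit 420) (nat_lit 8984913421) (nat_lit 504) (nat_lit 8014194883) (nat_lit 50) (nat_lit 5) (nat_lit 55) (nat_lit 5) (nat_lit 56) (nat_lit 5) (nat_lit 371) (nat_lit 340) (nat_lit 177)) (XT.nd (nat_lit 94) (nat_lit 336) (nat_lit 0) (XT.lf (nat_lit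 0) (nat_lit 19934554955) (nat_lit 420) (nat_lit 1929686554) (nat_lit 504) (nat_lit 6576535796) (nat_lit 50) (nat_lit 5) (nat_lit 55) (nat_lit 5) (nat_lit 56) (nat_lit 5) (nat_lit 372) (nat_lit 340) (nat_lit 176)) (XT.lf (nat_lit 0) (nat_lit 197496737) (nat_lit 336) (nat_lit 23791539607) (nat_lit 420) (nat_lit 5041059699) (nat_lit 46) (nat_lit 5) (nat_lit 50) (nat_lit 5) (nat_lit 51) (nat_lit 5) (nat_lit 373) (nat_lit 340) (nat_lit 175)))) (XT.nd (nat_lit 188) (nat_lit 504) (nat_lit 0) (XT.nd (nat_lit 94) (nat_lit 0) (nat_lit 0) (XT.lf (nat_lit 0) (nat_lit 9327841309) (nat_lit 336) (nat_lit 16956943064) (nat_lit 420) (nat_lit 3349662826) (nat_lit 46) (nat_lit 5) (nat_lit 50) (nat_lit 5) (nat_lit 51) (nat_lit 5) (nat_lit 374) (nat_lit 340) (nat_lit 174)) (XT.lf (nat_lit 0) (nat_lit 18737952768) (nat_lit 336) (nat_lit 9910605920) (nat_lit 420) (nat_lit 1609092479) (nat_lit 46) (nat_lit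 5) (nat_lit 50) (nat_lit 5) (nat_lit 51) (nat_lit 5) (nat_lit 375) (nat_lit 340) (nat_lit 173))) (XT.nd (nat_lit 94) (nat_lit 420) (nat_lit 0) (XT.lf (nat_lit 0) (nat_lit 178601327) (nat_lit 420) (nat_lit 2465494690) (nat_lit 84) (nat_lit 28256136763) (nat_lit 45) (nat_lit 5) (nat_lit 50) (nat_lit 5) (nat_lit 46) (nat_lit 5) (nat_lit 376) (nat_lit 340) (nat_lit 172)) (XT.lf (nat_lit 0) (nat_lit 2103597423) (nat_lit 504) (nat_lit 24618534879) (nat_lit 84) (nat_lit 4836536117) (nat_lit 40) (nat_lit 5) (nat_lit 46) (nat_lit 5) (nat_lit 41) (nat_lit 5) (nat_lit 377) (nat_lit 340) (nat_lit 171))))))))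
noncomputable def xc181 : XT := (XT.nd (nat_lit 2350) (nat_lit 840) (nat_lit 0) (XT.nd (nat_lit 1128) (nat_lit 840) (nat_lit 0) (XT.nd (nat_lit 564) (nat_lit 588) (nat_lit 0) (XT.nd (nat_lit 282) (nat_lit 0) (nat_lit 0) (XT.nd (nat_lit 94) (nat_lit 336) (nat_lit 0) (XT.lf (nat_lit 0) (nat_lit 4138361744) (nat_lit 504) (nat_lit 15577656503) (nat_lit 84) (nat_lit 12519962584) (nat_lit 40) (nat_lit 5) (nat_lit 46) (nat_lit 5) (nat_lit 41) (nat_lit 5) (nat_lit 378) (nat_lit 340) (nat_lit 170)) (XT.nd (nat_lit 94) (nat_lit 336) (nat_lit 0) (XT.lf (nat_lit 0) (nat_lit 6233344934) (nat_lit 504) (nat_lit 6259649666) (nat_lit 84) (nat_lit 20441401573) (nat_lit 40) (nat_lit 5) (nat_lit 46) (nat_lit 5) (nat_lit 41) (nat_lit 5) (nat_lit 379) (nat_lit 340) (nat_lit 169)) (XT.lf (nat_lit 0) (nat_lit 3412934005) (nat_lit 336) (nat_lit 5011422459) (nat_lit 420) (nat_lit 25229159416) (nat_lit 36)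 (nat_lit 5) (nat_lit 40) (nat_lit 5) (nat_lit 41) (nat_lit 5) (nat_lit 380) (nat_lit 340) (nat_lit 168)))) (XT.nd (nat_lit 94) (nat_lit 0) (nat_lit 0) (XT.lf (nat_lit 0) (nat_lit 10773378155) (nat_lit 420) (nat_lit 20905418501) (nat_lit 84) (nat_lit 2713355463) (nat_lit 36) (nat_lit 5) (nat_lit 41) (nat_lit 5) (nat_lit 37) (nat_lit 5) (nat_lit 381) (nat_lit 340) (nat_lit 167)) (XT.nd (nat_lit 94) (nat_lit 0) (nat_lit 0) (XT.lf (nat_lit 0) (nat_lit 13243834130) (nat_lit 420) (nat_lit 11335138096) (nat_lit 84) (nat_lit 10573222880) (nat_lit 36) (nat_lit 5) (nat_lit 41) (nat_lit 5) (nat_lit 37) (nat_lit 5) (nat_lit 382) (nat_lit 340) (nat_lit 166)) (XT.lf (nat_lit 0) (nat_lit 15788313181) (nat_lit 420) (nat_lit 1471106225) (nat_lit 84) (nat_lit 18676475005) (nat_lit 36) (nat_lit 5) (nat_lit 41) (nat_lit 5) (nat_lit 37) (nat_lit 5) (nat_lit 383) (nat_lit 340) (nat_lit 165))))) (XT.nd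 (nat_lit 282) (nat_lit 252) (nat_lit 0) (XT.nd (nat_lit 94) (nat_lit 0) (nat_lit 0) (XT.lf (nat_lit 0) (nat_lit 8874676373) (nat_lit 336) (nat_lit 9622548544) (nat_lit 420) (nat_lit 18244026434) (nat_lit 32) (nat_lit 5) (nat_lit 36) (nat_lit 5) (nat_lit 37) (nat_lit 5) (nat_lit 384) (nat_lit 340) (nat_lit 164)) (XT.nd (nat_lit 94) (nat_lit 0) (nat_lit 0) (XT.lf (nat_lit 0) (nat_lit 19569554445) (nat_lit 336) (nat_lit 1733476562) (nat_lit 420) (nat_lit 16268157559) (nat_lit 32) (nat_lit 5) (nat_lit 36) (nat_lit 5) (nat_lit 37) (nat_lit 5) (nat_lit 385) (nat_lit 340) (nat_lit 163)) (XT.lf (nat_lit 0) (nat_lit 24256939880) (nat_lit 420) (nat_lit 7897180326) (nat_lit 84) (nat_lit 6270853050) (nat_lit 32) (nat_lit 5) (nat_lit 37) (nat_lit 5) (nat_lit 33) (nat_lit 5) (nat_lit 386) (nat_lit 340) (nat_lit 162)))) (XT.nd (nat_lit 94) (nat_lit 0) (nat_lit 0) (XT.lf (nat_lit 0) (nat_lit 2551463048)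 (nat_lit 252) (nat_lit 24791700732) (nat_lit 336) (nat_lit 11960812233) (nat_lit 29) (nat_lit 5) (nat_lit 32) (nat_lit 5) (nat_lit 33) (nat_lit 5) (nat_lit 387) (nat_lit 340) (nat_lit 161)) (XT.nd (nat_lit 94) (nat_lit 0) (nat_lit 0) (XT.lf (nat_lit 0) (nat_lit 13488732638) (nat_lit 252) (nat_lit 17116504270) (nat_lit 336) (nat_lit 9602518869) (nat_lit 29) (nat_lit 5) (nat_lit 32) (nat_lit 5) (nat_lit 33) (nat_lit 5) (nat_lit 388) (nat_lit 340) (nat_lit 160)) (XT.lf (nat_lit 0) (nat_lit 24762440900) (nat_lit 252) (nat_lit 9203807098) (nat_lit 336) (nat_lit 7173385475) (nat_lit 29) (nat_lit 5) (nat_lit 32) (nat_lit 5) (nat_lit 33) (nat_lit 5) (nat_lit 389) (nat_lit 340) (nat_lit 159)))))) (XT.nd (nat_lit 564) (nat_lit 252) (nat_lit 0) (XT.nd (nat_lit 282) (nat_lit 252) (nat_lit 0) (XT.nd (nat_lit 94) (nat_lit 336) (nat_lit 0) (XT.lf (nat_lit 0) (nat_lit 36383096110) (nat_lit 252)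 (nat_lit 1046233755) (nat_lit 336) (nat_lit 4671147843) (nat_lit 29) (nat_lit 5) (nat_lit 32) (nat_lit 5) (nat_lit 33) (nat_lit 5) (nat_lit 390) (nat_lit 340) (nat_lit 158)) (XT.nd (nat_lit 94) (nat_lit 84) (nat_lit 0) (XT.lf (nat_lit 0) (nat_lit 5304162907) (nat_lit 252) (nat_lit 35819215509) (nat_lit 336) (nat_lit 1963909966) (nat_lit 26) (nat_lit 5) (nat_lit 29) (nat_lit 5) (nat_lit 30) (nat_lit 5) (nat_lit 391) (nat_lit 340) (nat_lit 157)) (XT.lf (nat_lit 0) (nat_lit 879517562) (nat_lit 336) (nat_lit 27336338488) (nat_lit 84) (nat_lit 15886454320) (nat_lit 25) (nat_lit 5) (nat_lit 29) (nat_lit 5) (nat_lit 26) (nat_lit 5) (nat_lit 392) (nat_lit 340) (nat_lit 156)))) (XT.nd (nat_lit 94) (nat_lit 252) (nat_lit 0) (XT.lf (nat_lit 0) (nat_lit 3768302090) (nat_lit 336) (nat_lit 16588272027) (nat_lit 84) (nat_lit 24791674217) (nat_lit 25) (nat_lit 5) (nat_lit 29) (nat_lit 5) (nat_lit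 26) (nat_lit 5) (nat_lit 393) (nat_lit 340) (nat_lit 155)) (XT.nd (nat_lit 94) (nat_lit 252) (nat_lit 0) (XT.lf (nat_lit 0) (nat_lit 6744704678) (nat_lit 336) (nat_lit 5509425537) (nat_lit 84) (nat_lit 33972550932) (nat_lit 25) (nat_lit 5) (nat_lit 29) (nat_lit 5) (nat_lit 26) (nat_lit 5) (nat_lit 394) (nat_lit 340) (nat_lit 154)) (XT.lf (nat_lit 0) (nat_lit 6032060195) (nat_lit 252) (nat_lit 3839278232) (nat_lit 336) (nat_lit 37465420593) (nat_lit 22) (nat_lit 5) (nat_lit 25) (nat_lit 5) (nat_lit 26) (nat_lit 5) (nat_lit 395) (nat_lit 340) (nat_lit 153))))) (XT.nd (nat_lit 282) (nat_lit 252) (nat_lit 0) (XT.nd (nat_lit 94) (nat_lit 0) (nat_lit 0) (XT.lf (nat_lit 0) (nat_lit 13199123794) (nat_lit 336) (nat_lit 30482280383) (nat_lit 84) (nat_lit 4796624296) (nat_lit 22) (nat_lit 5) (nat_lit 26) (nat_lit 5) (nat_lit 23) (nat_lit 5) (nat_lit 396) (nat_lit 340) (nat_lit 152)) (XT.nd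 (nat_lit 94) (nat_lit 0) (nat_lit 0) (XT.lf (nat_lit 0) (nat_lit 16667545516) (nat_lit 336) (nat_lit 19365938815) (nat_lit 84) (nat_lit 13620041085) (nat_lit 22) (nat_lit 5) (nat_lit 26) (nat_lit 5) (nat_lit 23) (nat_lit 5) (nat_lit 397) (nat_lit 340) (nat_lit 151)) (XT.lf (nat_lit 0) (nat_lit 20241750410) (nat_lit 336) (nat_lit 7907226412) (nat_lit 84) (nat_lit 22716549385) (nat_lit 22) (nat_lit 5) (nat_lit 26) (nat_lit 5) (nat_lit 23) (nat_lit 5) (nat_lit 398) (nat_lit 340) (nat_lit 150)))) (XT.nd (nat_lit 188) (nat_lit 0) (nat_lit 0) (XT.nd (nat_lit 94) (nat_lit 0) (nat_lit 0) (XT.lf (nat_lit 0) (nat_lit 3984822845) (nat_lit 252) (nat_lit 19979777102) (nat_lit 336) (nat_lit 28149335184) (nat_lit 19) (nat_lit 5) (nat_lit 22) (nat_lit 5) (nat_lit 23) (nat_lit 5) (nat_lit 399) (nat_lit 340) (nat_lit 149)) (XT.lf (nat_lit 0) (nat_lit 16411008099) (nat_lit 252) (nat_lit 11472728690)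 (nat_lit 336) (nat_lit 25514809694) (nat_lit 19) (nat_lit 5) (nat_lit 22) (nat_lit 5) (nat_lit 23) (nat_lit 5) (nat_lit 400) (nat_lit 340) (nat_lit 148))) (XT.nd (nat_lit 94) (nat_lit 0) (nat_lit 0) (XT.lf (nat_lit 0) (nat_lit 29220323065) (nat_lit 252) (nat_lit 2702437353) (nat_lit 336) (nat_lit 22800278901) (nat_lit 19) (nat_lit 5) (nat_lit 22) (nat_lit 5) (nat_lit 23) (nat_lit 5) (nat_lit 401) (nat_lit 340) (nat_lit 147)) (XT.lf (nat_lit 0) (nat_lit 36148321987) (nat_lit 336) (nat_lit 13726827198) (nat_lit 84) (nat_lit 6211549540) (nat_lit 19) (nat_lit 5) (nat_lit 23) (nat_lit 5) (nat_lit 20) (nat_lit 5) (nat_lit 402) (nat_lit 340) (nat_lit 146))))))) (XT.nd (nat_lit 1222) (nat_lit 252) (nat_lit 0) (XT.nd (nat_lit 564) (nat_lit 168) (nat_lit 0) (XT.nd (nat_lit 282) (nat_lit 252) (nat_lit 0) (XT.nd (nat_lit 94) (nat_lit 168) (nat_lit 0) (XT.lf (nat_lit 0) (nat_lit 40530999799)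 (nat_lit 336) (nat_lit 1615534494) (nat_lit 84) (nat_lit 15345295654) (nat_lit 19) (nat_lit 5) (nat_lit 23) (nat_lit 5) (nat_lit 20) (nat_lit 5) (nat_lit 403) (nat_lit 340) (nat_lit 145)) (XT.nd (nat_lit 94) (nat_lit 0) (nat_lit 0) (XT.lf (nat_lit 0) (nat_lit 11092753630) (nat_lit 168) (nat_lit 34065358317) (nat_lit 252) (nat_lit 13779050546) (nat_lit 17) (nat_lit 5) (nat_lit 19) (nat_lit 5) (nat_lit 20) (nat_lit 5) (nat_lit 404) (nat_lit 340) (nat_lit 144)) (XT.lf (nat_lit 0) (nat_lit 24227317981) (nat_lit 168) (nat_lit 25716764358) (nat_lit 252) (nat_lit 10482747784) (nat_lit 17) (nat_lit 5) (nat_lit 19) (nat_lit 5) (nat_lit 20) (nat_lit 5) (nat_lit 405) (nat_lit 340) (nat_lit 143)))) (XT.nd (nat_lit 94) (nat_lit 252) (nat_lit 0) (XT.lf (nat_lit 0) (nat_lit 37767182647) (nat_lit 168) (nat_lit 17109833519) (nat_lit 252) (nat_lit 7085712230) (nat_lit 17) (nat_lit 5) (nat_lit 19)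 (nat_lit 5) (nat_lit 20) (nat_lit 5) (nat_lit 406) (nat_lit 340) (nat_lit 142)) (XT.nd (nat_lit 94) (nat_lit 252) (nat_lit 0) (XT.lf (nat_lit 0) (nat_lit 51724968199) (nat_lit 168) (nat_lit 8236543239) (nat_lit 252) (nat_lit 3584777490) (nat_lit 17) (nat_lit 5) (nat_lit 19) (nat_lit 5) (nat_lit 20) (nat_lit 5) (nat_lit 407) (nat_lit 340) (nat_lit 141)) (XT.lf (nat_lit 0) (nat_lit 41450559) (nat_lit 252) (nat_lit 64234147231) (nat_lit 84) (nat_lit 902806181) (nat_lit 14) (nat_lit 5) (nat_lit 17) (nat_lit 5) (nat_lit 15) (nat_lit 5) (nat_lit 408) (nat_lit 340) (nat_lit 140))))) (XT.nd (nat_lit 282) (nat_lit 168) (nat_lit 0) (XT.nd (nat_lit 94) (nat_lit 0) (nat_lit 0) (XT.lf (nat_lit 0) (nat_lit 3913199268) (nat_lit 252) (nat_lit 52625102301) (nat_lit 84) (nat_lit 10315248338) (nat_lit 14) (nat_lit 5) (nat_lit 17) (nat_lit 5) (nat_lit 15) (nat_lit 5) (nat_lit 409) (nat_lit 340) (nat_lit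 139)) (XT.nd (nat_lit 94) (nat_lit 0) (nat_lit 0) (XT.lf (nat_lit 0) (nat_lit 7903690958) (nat_lit 252) (nat_lit 40657941696) (nat_lit 84) (nat_lit 20019038864) (nat_lit 14) (nat_lit 5) (nat_lit 17) (nat_lit 5) (nat_lit 15) (nat_lit 5) (nat_lit 410) (nat_lit 340) (nat_lit 138)) (XT.lf (nat_lit 0) (nat_lit 12016645184) (nat_lit 252) (nat_lit 28321510770) (nat_lit 84) (nat_lit 30023222709) (nat_lit 14) (nat_lit 5) (nat_lit 17) (nat_lit 5) (nat_lit 15) (nat_lit 5) (nat_lit 411) (nat_lit 340) (nat_lit 137)))) (XT.nd (nat_lit 188) (nat_lit 168) (nat_lit 0) (XT.nd (nat_lit 94) (nat_lit 0) (nat_lit 0) (XT.lf (nat_lit 0) (nat_lit 16255895651) (nat_lit 252) (nat_lit 15604310677) (nat_lit 84) (nat_lit 40337124820) (nat_lit 14) (nat_lit 5) (nat_lit 17) (nat_lit 5) (nat_lit 15) (nat_lit 5) (nat_lit 412) (nat_lit 340) (nat_lit 136)) (XT.lf (nat_lit 0) (nat_lit 20625393784) (nat_lit 252) (nat_lit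 2494487653) (nat_lit 84) (nat_lit 50970358834) (nat_lit 14) (nat_lit 5) (nat_lit 17) (nat_lit 5) (nat_lit 15) (nat_lit 5) (nat_lit 413) (nat_lit 340) (nat_lit 135))) (XT.nd (nat_lit 94) (nat_lit 0) (nat_lit 0) (XT.lf (nat_lit 0) (nat_lit 11246775489) (nat_lit 168) (nat_lit 13994006329) (nat_lit 252) (nat_lit 50797629955) (nat_lit 12) (nat_lit 5) (nat_lit 14) (nat_lit 5) (nat_lit 15) (nat_lit 5) (nat_lit 414) (nat_lit 340) (nat_lit 134)) (XT.lf (nat_lit 0) (nat_lit 25465353575) (nat_lit 168) (nat_lit 4558815455) (nat_lit 252) (nat_lit 48022040498) (nat_lit 12) (nat_lit 5) (nat_lit 14) (nat_lit 5) (nat_lit 15) (nat_lit 5) (nat_lit 415) (nat_lit 340) (nat_lit 133)))))) (XT.nd (nat_lit 564) (nat_lit 84) (nat_lit 0) (XT.nd (nat_lit 282) (nat_lit 168) (nat_lit 0) (XT.nd (nat_lit 94) (nat_lit 0) (nat_lit 0) (XT.lf (nat_lit 0) (nat_lit 35006031238) (nat_lit 252) (nat_lit 40044351525) (nat_lit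 84) (nat_lit 5064315716) (nat_lit 12) (nat_lit 5) (nat_lit 15) (nat_lit 5) (nat_lit 13) (nat_lit 5) (nat_lit 416) (nat_lit 340) (nat_lit 132)) (XT.nd (nat_lit 94) (nat_lit 0) (nat_lit 0) (XT.lf (nat_lit 0) (nat_lit 40187903977) (nat_lit 252) (nat_lit 27167329583) (nat_lit 84) (nat_lit 14890669466) (nat_lit 12) (nat_lit 5) (nat_lit 15) (nat_lit 5) (nat_lit 13) (nat_lit 5) (nat_lit 417) (nat_lit 340) (nat_lit 131)) (XT.lf (nat_lit 0) (nat_lit 45529393284) (nat_lit 252) (nat_lit 13892563382) (nat_lit 84) (nat_lit 25021254955) (nat_lit 12) (nat_lit 5) (nat_lit 15) (nat_lit 5) (nat_lit 13) (nat_lit 5) (nat_lit 418) (nat_lit 340) (nat_lit 130)))) (XT.nd (nat_lit 94) (nat_lit 168) (nat_lit 0) (XT.lf (nat_lit 0) (nat_lit 51035477985) (nat_lit 252) (nat_lit 207679447) (nat_lit 84) (nat_lit 35465514950) (nat_lit 12) (nat_lit 5) (nat_lit 15) (nat_lit 5) (nat_lit 13) (nat_lit 5) (nat_lit 419)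 (nat_lit 340) (nat_lit 129)) (XT.nd (nat_lit 94) (nat_lit 0) (nat_lit 0) (XT.lf (nat_lit 0) (nat_lit 14185892076) (nat_lit 168) (nat_lit 42666124058) (nat_lit 252) (nat_lit 32188018326) (nat_lit 10) (nat_lit 5) (nat_lit 12) (nat_lit 5) (nat_lit 13) (nat_lit 5) (nat_lit 420) (nat_lit 340) (nat_lit 128)) (XT.lf (nat_lit 0) (nat_lit 29028722836) (nat_lit 168) (nat_lit 33821366454) (nat_lit 252) (nat_lit 28593546177) (nat_lit 10) (nat_lit 5) (nat_lit 12) (nat_lit 5) (nat_lit 13) (nat_lit 5) (nat_lit 421) (nat_lit 340) (nat_lit 127))))) (XT.nd (nat_lit 282) (nat_lit 84) (nat_lit 0) (XT.nd (nat_lit 94) (nat_lit 0) (nat_lit 0) (XT.lf (nat_lit 0) (nat_lit 44330377591) (nat_lit 168) (nat_lit 24702808128) (nat_lit 252) (nat_lit 24888595275) (nat_lit 10) (nat_lit 5) (nat_lit 12) (nat_lit 5) (nat_lit 13) (nat_lit 5) (nat_lit 422) (nat_lit 340) (nat_lit 126)) (XT.nd (nat_lit 94) (nat_lit 0) (nat_lit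 0) (XT.lf (nat_lit 0) (nat_lit 60105119085) (nat_lit 168) (nat_lit 15301949627) (nat_lit 252) (nat_lit 21069712217) (nat_lit 10) (nat_lit 5) (nat_lit 12) (nat_lit 5) (nat_lit 13) (nat_lit 5) (nat_lit 423) (nat_lit 340) (nat_lit 125)) (XT.lf (nat_lit 0) (nat_lit 76367651030) (nat_lit 168) (nat_lit 5610028368) (nat_lit 252) (nat_lit 17133337405) (nat_lit 10) (nat_lit 5) (nat_lit 12) (nat_lit 5) (nat_lit 13) (nat_lit 5) (nat_lit 424) (nat_lit 340) (nat_lit 124)))) (XT.nd (nat_lit 188) (nat_lit 0) (nat_lit 0) (XT.nd (nat_lit 94) (nat_lit 84) (nat_lit 0) (XT.lf (nat_lit 0) (nat_lit 88794612152) (nat_lit 252) (nat_lit 8737282066) (nat_lit 84) (nat_lit 4293702211) (nat_lit 10) (nat_lit 5) (nat_lit 13) (nat_lit 5) (nat_lit 11) (nat_lit 4) (nat_lit 425) (nat_lit 340) (nat_lit 123)) (XT.lf (nat_lit 0) (nat_lit 5760494368) (nat_lit 84) (nat_lit 90176082684) (nat_lit 168) (nat_lit 8684229996)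 (nat_lit 9) (nat_lit 5) (nat_lit 10) (nat_lit 5) (nat_lit 11) (nat_lit 4) (nat_lit 426) (nat_lit 340) (nat_lit 122))) (XT.nd (nat_lit 47658) (nat_lit 0) (nat_lit 6048) (XT.lf (nat_lit 0) (nat_lit 20891760008) (nat_lit 84) (nat_lit 82498580105) (nat_lit 168) (nat_lit 4109530597) (nat_lit 9) (nat_lit 5) (nat_lit 10) (nat_lit 5) (nat_lit 11) (nat_lit 4) (nat_lit 427) (nat_lit 340) (nat_lit 121)) (XT.lf (nat_lit 0) (nat_lit 2532443929) (nat_lit 0) (nat_lit 2532443929) (nat_lit 924) (nat_lit 3254955703) (nat_lit 81) (nat_lit 5) (nat_lit 81) (nat_lit 3) (nat_lit 92) (nat_lit 3) (nat_lit 341) (nat_lit 341) (nat_lit 206))))))))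
noncomputable def xc182 : XT := (XT.nd (nat_lit 2350) (nat_lit 2856) (nat_lit 0) (XT.nd (nat_lit 1128) (nat_lit 1764) (nat_lit 0) (XT.nd (nat_lit 564) (nat_lit 0) (nat_lit 84) (XT.nd (nat_lit 282) (nat_lit 0) (nat_lit 0) (XT.nd (nat_lit 94) (nat_lit 0) (nat_lit 0) (XT.lf (nat_lit 0) (nat_lit 10473853251) (nat_lit 924) (nat_lit 6251951561) (nat_lit 1008) (nat_lit 164645431) (nat_lit 81) (nat_lit 5) (nat_lit 92) (nat_lit 3) (nat_lit 93) (nat_lit 5) (nat_lit 342) (nat_lit 341) (nat_lit 205)) (XT.nd (nat_lit 94) (nat_lit 0) (nat_lit 0) (XT.lf (nat_lit 0) (nat_lit 10872965372) (nat_lit 924) (nat_lit 819956013) (nat_lit 1008) (nat_lit 5454744738) (nat_lit 81) (nat_lit 5) (nat_lit 92) (nat_lit 3) (nat_lit 93) (nat_lit 5) (nat_lit 343) (nat_lit 341) (nat_lit 204)) (XT.lf (nat_lit 84) (nat_lit 4874709411) (nat_lit 0) (nat_lit 6450888091) (nat_lit 1008) (nat_lit 6086035500) (nat_lit 82) (nat_lit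 5) (nat_lit 81) (nat_lit 5) (nat_lit 93) (nat_lit 5) (nat_lit 344) (nat_lit 341) (nat_lit 203)))) (XT.nd (nat_lit 94) (nat_lit 0) (nat_lit 84) (XT.lf (nat_lit 84) (nat_lit 10759395440) (nat_lit 0) (nat_lit 1034392401) (nat_lit 1008) (nat_lit 5889998978) (nat_lit 82) (nat_lit 5) (nat_lit 81) (nat_lit 5) (nat_lit 93) (nat_lit 5) (nat_lit 345) (nat_lit 341) (nat_lit 202)) (XT.nd (nat_lit 94) (nat_lit 0) (nat_lit 0) (XT.lf (nat_lit 0) (nat_lit 12314838349) (nat_lit 924) (nat_lit 1187078231) (nat_lit 1008) (nat_lit 4461321839) (nat_lit 82) (nat_lit 5) (nat_lit 93) (nat_lit 5) (nat_lit 94) (nat_lit 5) (nat_lit 346) (nat_lit 341) (nat_lit 201)) (XT.lf (nat_lit 84) (nat_lit 4810484312) (nat_lit 0) (nat_lit 8093270844) (nat_lit 1008) (nat_lit 5346042987) (nat_lit 83) (nat_lit 5) (nat_lit 82) (nat_lit 5) (nat_lit 94) (nat_lit 5) (nat_lit 347) (nat_lit 341) (nat_lit 200))))) (XT.nd (nat_lit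 282) (nat_lit 0) (nat_lit 84) (XT.nd (nat_lit 94) (nat_lit 0) (nat_lit 84) (XT.lf (nat_lit 84) (nat_lit 11015228254) (nat_lit 0) (nat_lit 2501663790) (nat_lit 1008) (nat_lit 5028211103) (nat_lit 83) (nat_lit 5) (nat_lit 82) (nat_lit 5) (nat_lit 94) (nat_lit 5) (nat_lit 348) (nat_lit 341) (nat_lit 199)) (XT.nd (nat_lit 94) (nat_lit 0) (nat_lit 0) (XT.lf (nat_lit 0) (nat_lit 14175198825) (nat_lit 924) (nat_lit 1473669351) (nat_lit 1008) (nat_lit 3199928783) (nat_lit 83) (nat_lit 5) (nat_lit 94) (nat_lit 5) (nat_lit 95) (nat_lit 5) (nat_lit 349) (nat_lit 341) (nat_lit 198)) (XT.lf (nat_lit 84) (nat_lit 4838240247) (nat_lit 0) (nat_lit 10083232129) (nat_lit 1008) (nat_lit 4238382594) (nat_lit 84) (nat_lit 5) (nat_lit 83) (nat_lit 5) (nat_lit 95) (nat_lit 5) (nat_lit 350) (nat_lit 341) (nat_lit 197)))) (XT.nd (nat_lit 94) (nat_lit 0) (nat_lit 84) (XT.lf (nat_lit 84) (nat_lit 11373167926)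 (nat_lit 0) (nat_lit 4327214233) (nat_lit 1008) (nat_lit 3779921772) (nat_lit 84) (nat_lit 5) (nat_lit 83) (nat_lit 5) (nat_lit 95) (nat_lit 5) (nat_lit 351) (nat_lit 341) (nat_lit 196)) (XT.nd (nat_lit 94) (nat_lit 0) (nat_lit 0) (XT.lf (nat_lit 0) (nat_lit 16513697774) (nat_lit 924) (nat_lit 1719964932) (nat_lit 1008) (nat_lit 1576747477) (nat_lit 84) (nat_lit 5) (nat_lit 95) (nat_lit 5) (nat_lit 96) (nat_lit 5) (nat_lit 352) (nat_lit 341) (nat_lit 195)) (XT.lf (nat_lit 84) (nat_lit 4916108024) (nat_lit 0) (nat_lit 12523630294) (nat_lit 1008) (nat_lit 2708338708) (nat_lit 85) (nat_lit 5) (nat_lit 84) (nat_lit 5) (nat_lit 96) (nat_lit 5) (nat_lit 353) (nat_lit 341) (nat_lit 194)))))) (XT.nd (nat_lit 564) (nat_lit 1092) (nat_lit 0) (XT.nd (nat_lit 282) (nat_lit 924) (nat_lit 0) (XT.nd (nat_lit 94) (nat_lit 0) (nat_lit 0) (XT.lf (nat_lit 84) (nat_lit 11790509179) (nat_lit 0) (nat_lit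 6616543933) (nat_lit 1008) (nat_lit 2088807822) (nat_lit 85) (nat_lit 5) (nat_lit 84) (nat_lit 5) (nat_lit 96) (nat_lit 5) (nat_lit 354) (nat_lit 341) (nat_lit 193)) (XT.nd (nat_lit 94) (nat_lit 0) (nat_lit 84) (XT.lf (nat_lit 84) (nat_lit 18874280186) (nat_lit 0) (nat_lit 524850506) (nat_lit 1008) (nat_lit 1455495189) (nat_lit 85) (nat_lit 5) (nat_lit 84) (nat_lit 5) (nat_lit 96) (nat_lit 5) (nat_lit 355) (nat_lit 341) (nat_lit 192)) (XT.lf (nat_lit 84) (nat_lit 4992799956) (nat_lit 0) (nat_lit 15530736442) (nat_lit 1008) (nat_lit 697864019) (nat_lit 86) (nat_lit 5) (nat_lit 85) (nat_lit 5) (nat_lit 97) (nat_lit 5) (nat_lit 356) (nat_lit 341) (nat_lit 191)))) (XT.nd (nat_lit 94) (nat_lit 0) (nat_lit 0) (XT.lf (nat_lit 0) (nat_lit 102802841) (nat_lit 1008) (nat_lit 9385145308) (nat_lit 1092) (nat_lit 12110947677) (nat_lit 73) (nat_lit 5) (nat_lit 85) (nat_lit 5) (nat_lit 86) (nat_lit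 5) (nat_lit 357) (nat_lit 341) (nat_lit 190)) (XT.nd (nat_lit 94) (nat_lit 0) (nat_lit 84) (XT.lf (nat_lit 0) (nat_lit 908921503) (nat_lit 1008) (nat_lit 2340493610) (nat_lit 1092) (nat_lit 18738641720) (nat_lit 73) (nat_lit 5) (nat_lit 85) (nat_lit 5) (nat_lit 86) (nat_lit 5) (nat_lit 358) (nat_lit 341) (nat_lit 189)) (XT.lf (nat_lit 0) (nat_lit 1817193072) (nat_lit 1008) (nat_lit 17400022057) (nat_lit 84) (nat_lit 3169707088) (nat_lit 74) (nat_lit 5) (nat_lit 86) (nat_lit 5) (nat_lit 75) (nat_lit 5) (nat_lit 359) (nat_lit 341) (nat_lit 188))))) (XT.nd (nat_lit 282) (nat_lit 504) (nat_lit 0) (XT.nd (nat_lit 94) (nat_lit 672) (nat_lit 0) (XT.lf (nat_lit 0) (nat_lit 2806923962) (nat_lit 1008) (nat_lit 10243663640) (nat_lit 84) (nat_lit 9745943904) (nat_lit 74) (nat_lit 5) (nat_lit 86) (nat_lit 5) (nat_lit 75) (nat_lit 5) (nat_lit 360) (nat_lit 341) (nat_lit 187)) (XT.nd (nat_lit 94)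 (nat_lit 672) (nat_lit 0) (XT.lf (nat_lit 0) (nat_lit 3822864364) (nat_lit 1008) (nat_lit 2869187675) (nat_lit 84) (nat_lit 16526955804) (nat_lit 74) (nat_lit 5) (nat_lit 86) (nat_lit 5) (nat_lit 75) (nat_lit 5) (nat_lit 361) (nat_lit 341) (nat_lit 186)) (XT.lf (nat_lit 0) (nat_lit 4827543870) (nat_lit 672) (nat_lit 86307202) (nat_lit 756) (nat_lit 18739409365) (nat_lit 66) (nat_lit 5) (nat_lit 74) (nat_lit 5) (nat_lit 75) (nat_lit 5) (nat_lit 362) (nat_lit 341) (nat_lit 185)))) (XT.nd (nat_lit 188) (nat_lit 504) (nat_lit 0) (XT.nd (nat_lit 94) (nat_lit 0) (nat_lit 0) (XT.lf (nat_lit 0) (nat_lit 6131381950) (nat_lit 756) (nat_lit 11347106059) (nat_lit 84) (nat_lit 6619641138) (nat_lit 66) (nat_lit 5) (nat_lit 75) (nat_lit 5) (nat_lit 67) (nat_lit 5) (nat_lit 363) (nat_lit 341) (nat_lit 184)) (XT.lf (nat_lit 0) (nat_lit 7383430168) (nat_lit 756) (nat_lit 3641176269) (nat_lit 84) (nat_lit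 13532310208) (nat_lit 66) (nat_lit 5) (nat_lit 75) (nat_lit 5) (nat_lit 67) (nat_lit 5) (nat_lit 364) (nat_lit 341) (nat_lit 183))) (XT.nd (nat_lit 94) (nat_lit 0) (nat_lit 0) (XT.lf (nat_lit 0) (nat_lit 4388530827) (nat_lit 504) (nat_lit 4325310533) (nat_lit 588) (nat_lit 16314886180) (nat_lit 60) (nat_lit 5) (nat_lit 66) (nat_lit 5) (nat_lit 67) (nat_lit 5) (nat_lit 365) (nat_lit 341) (nat_lit 182)) (XT.lf (nat_lit 0) (nat_lit 10145604836) (nat_lit 588) (nat_lit 12799276755) (nat_lit 84) (nat_lit 2568445787) (nat_lit 60) (nat_lit 5) (nat_lit 67) (nat_lit 5) (nat_lit 61) (nat_lit 5) (nat_lit 366) (nat_lit 341) (nat_lit 181))))))) (XT.nd (nat_lit 1222) (nat_lit 1176) (nat_lit 0) (XT.nd (nat_lit 564) (nat_lit 840) (nat_lit 0) (XT.nd (nat_lit 282) (nat_lit 420) (nat_lit 0) (XT.nd (nat_lit 94) (nat_lit 420) (nat_lit 0) (XT.lf (nat_lit 0) (nat_lit 11662211864) (nat_lit 588) (nat_lit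 4763057660) (nat_lit 84) (nat_lit 9586451476) (nat_lit 60) (nat_lit 5) (nat_lit 67) (nat_lit 5) (nat_lit 61) (nat_lit 5) (nat_lit 367) (nat_lit 341) (nat_lit 180)) (XT.nd (nat_lit 94) (nat_lit 0) (nat_lit 0) (XT.lf (nat_lit 0) (nat_lit 3591213736) (nat_lit 420) (nat_lit 9666580011) (nat_lit 504) (nat_lit 13266804967) (nat_lit 55) (nat_lit 5) (nat_lit 60) (nat_lit 5) (nat_lit 61) (nat_lit 5) (nat_lit 368) (nat_lit 341) (nat_lit 179)) (XT.lf (nat_lit 0) (nat_lit 12302051104) (nat_lit 420) (nat_lit 2646915442) (nat_lit 504) (nat_lit 12103003036) (nat_lit 55) (nat_lit 5) (nat_lit 60) (nat_lit 5) (nat_lit 61) (nat_lit 5) (nat_lit 369) (nat_lit 341) (nat_lit 178)))) (XT.nd (nat_lit 94) (nat_lit 420) (nat_lit 0) (XT.lf (nat_lit 0) (nat_lit 16734623761) (nat_lit 504) (nat_lit 6361723253) (nat_lit 84) (nat_lit 4498061324) (nat_lit 55) (nat_lit 5) (nat_lit 61) (nat_lit 5) (nat_lit 56) (nat_lit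 5) (nat_lit 370) (nat_lit 341) (nat_lit 177)) (XT.nd (nat_lit 94) (nat_lit 0) (nat_lit 0) (XT.lf (nat_lit 0) (nat_lit 2302505743) (nat_lit 420) (nat_lit 16319669200) (nat_lit 504) (nat_lit 9530067549) (nat_lit 50) (nat_lit 5) (nat_lit 55) (nat_lit 5) (nat_lit 56) (nat_lit 5) (nat_lit 371) (nat_lit 341) (nat_lit 176)) (XT.lf (nat_lit 0) (nat_lit 11366905709) (nat_lit 420) (nat_lit 9264432447) (nat_lit 504) (nat_lit 8094097129) (nat_lit 50) (nat_lit 5) (nat_lit 55) (nat_lit 5) (nat_lit 56) (nat_lit 5) (nat_lit 372) (nat_lit 341) (nat_lit 175))))) (XT.nd (nat_lit 282) (nat_lit 504) (nat_lit 0) (XT.nd (nat_lit 94) (nat_lit 336) (nat_lit 0) (XT.lf (nat_lit 0) (nat_lit 20709115536) (nat_lit 420) (nat_lit 1990463880) (nat_lit 504) (nat_lit 6616938187) (nat_lit 50) (nat_lit 5) (nat_lit 55) (nat_lit 5) (nat_lit 56) (nat_lit 5) (nat_lit 373) (nat_lit 341) (nat_lit 174)) (XT.nd (nat_lit 94)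 (nat_lit 0) (nat_lit 0) (XT.lf (nat_lit 0) (nat_lit 364496411) (nat_lit 336) (nat_lit 24522596104) (nat_lit 420) (nat_lit 5037141634) (nat_lit 46) (nat_lit 5) (nat_lit 50) (nat_lit 5) (nat_lit 51) (nat_lit 5) (nat_lit 374) (nat_lit 341) (nat_lit 173)) (XT.lf (nat_lit 0) (nat_lit 9773044424) (nat_lit 336) (nat_lit 17476321946) (nat_lit 420) (nat_lit 3298128062) (nat_lit 46) (nat_lit 5) (nat_lit 50) (nat_lit 5) (nat_lit 51) (nat_lit 5) (nat_lit 375) (nat_lit 341) (nat_lit 172)))) (XT.nd (nat_lit 188) (nat_lit 420) (nat_lit 0) (XT.nd (nat_lit 94) (nat_lit 84) (nat_lit 0) (XT.lf (nat_lit 0) (nat_lit 19470177542) (nat_lit 336) (nat_lit 10211737368) (nat_lit 420) (nat_lit 1508271812) (nat_lit 46) (nat_lit 5) (nat_lit 50) (nat_lit 5) (nat_lit 51) (nat_lit 5) (nat_lit 376) (nat_lit 341) (nat_lit 171)) (XT.lf (nat_lit 0) (nat_lit 327364170) (nat_lit 420) (nat_lit 2391289835) (nat_lit 84)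 (nat_lit 29134153330) (nat_lit 45) (nat_lit 5) (nat_lit 50) (nat_lit 5) (nat_lit 46) (nat_lit 5) (nat_lit 377) (nat_lit 341) (nat_lit 170))) (XT.nd (nat_lit 94) (nat_lit 0) (nat_lit 0) (XT.lf (nat_lit 0) (nat_lit 2309294242) (nat_lit 504) (nat_lit 25227467556) (nat_lit 84) (nat_lit 4995004487) (nat_lit 40) (nat_lit 5) (nat_lit 46) (nat_lit 5) (nat_lit 41) (nat_lit 5) (nat_lit 378) (nat_lit 341) (nat_lit 169)) (XT.lf (nat_lit 0) (nat_lit 4402912160) (nat_lit 504) (nat_lit 15910959680) (nat_lit 84) (nat_lit 12916360523) (nat_lit 40) (nat_lit 5) (nat_lit 46) (nat_lit 5) (nat_lit 41) (nat_lit 5) (nat_lit 379) (nat_lit 341) (nat_lit 168)))))) (XT.nd (nat_lit 564) (nat_lit 504) (nat_lit 0) (XT.nd (nat_lit 282) (nat_lit 336) (nat_lit 0) (XT.nd (nat_lit 94) (nat_lit 336) (nat_lit 0) (XT.lf (nat_lit 0) (nat_lit 6558742741) (nat_lit 504) (nat_lit 6308592914) (nat_lit 84) (nat_lit 21083115185)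 (nat_lit 40) (nat_lit 5) (nat_lit 46) (nat_lit 5) (nat_lit 41) (nat_lit 5) (nat_lit 380) (nat_lit 341) (nat_lit 167)) (XT.nd (nat_lit 94) (nat_lit 0) (nat_lit 0) (XT.lf (nat_lit 0) (nat_lit 3662371784) (nat_lit 336) (nat_lit 5152754842) (nat_lit 420) (nat_lit 25876840141) (nat_lit 36) (nat_lit 5) (nat_lit 40) (nat_lit 5) (nat_lit 41) (nat_lit 5) (nat_lit 381) (nat_lit 341) (nat_lit 166)) (XT.lf (nat_lit 0) (nat_lit 11233205651) (nat_lit 420) (nat_lit 21409639886) (nat_lit 84) (nat_lit 2810795580) (nat_lit 36) (nat_lit 5) (nat_lit 41) (nat_lit 5) (nat_lit 37) (nat_lit 5) (nat_lit 382) (nat_lit 341) (nat_lit 165)))) (XT.nd (nat_lit 94) (nat_lit 336) (nat_lit 0) (XT.lf (nat_lit 0) (nat_lit 13776461633) (nat_lit 420) (nat_lit 11547005953) (nat_lit 84) (nat_lit 10913918199) (nat_lit 36) (nat_lit 5) (nat_lit 41) (nat_lit 5) (nat_lit 37) (nat_lit 5) (nat_lit 383) (nat_lit 341) (nat_lit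 164)) (XT.nd (nat_lit 94) (nat_lit 336) (nat_lit 0) (XT.lf (nat_lit 0) (nat_lit 16396149188) (nat_lit 420) (nat_lit 1381384209) (nat_lit 84) (nat_lit 19267982500) (nat_lit 36) (nat_lit 5) (nat_lit 41) (nat_lit 5) (nat_lit 37) (nat_lit 5) (nat_lit 384) (nat_lit 341) (nat_lit 163)) (XT.lf (nat_lit 0) (nat_lit 9283747592) (nat_lit 336) (nat_lit 9903058471) (nat_lit 420) (nat_lit 18689123680) (nat_lit 32) (nat_lit 5) (nat_lit 36) (nat_lit 5) (nat_lit 37) (nat_lit 5) (nat_lit 385) (nat_lit 341) (nat_lit 162))))) (XT.nd (nat_lit 282) (nat_lit 252) (nat_lit 0) (XT.nd (nat_lit 94) (nat_lit 252) (nat_lit 0) (XT.lf (nat_lit 0) (nat_lit 20306139102) (nat_lit 336) (nat_lit 1769960137) (nat_lit 420) (nat_lit 16655625077) (nat_lit 32) (nat_lit 5) (nat_lit 36) (nat_lit 5) (nat_lit 37) (nat_lit 5) (nat_lit 386) (nat_lit 341) (nat_lit 161)) (XT.nd (nat_lit 94) (nat_lit 252) (nat_lit 0) (XT.lf (nat_lit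 0) (nat_lit 25118357426) (nat_lit 420) (nat_lit 8012091460) (nat_lit 84) (nat_lit 6481647714) (nat_lit 32) (nat_lit 5) (nat_lit 37) (nat_lit 5) (nat_lit 33) (nat_lit 5) (nat_lit 387) (nat_lit 341) (nat_lit 160)) (XT.lf (nat_lit 0) (nat_lit 2759144723) (nat_lit 252) (nat_lit 25539094133) (nat_lit 336) (nat_lit 12220191844) (nat_lit 29) (nat_lit 5) (nat_lit 32) (nat_lit 5) (nat_lit 33) (nat_lit 5) (nat_lit 388) (nat_lit 341) (nat_lit 159)))) (XT.nd (nat_lit 188) (nat_lit 252) (nat_lit 0) (XT.nd (nat_lit 94) (nat_lit 0) (nat_lit 0) (XT.lf (nat_lit 0) (nat_lit 14031603350) (nat_lit 252) (nat_lit 17626602496) (nat_lit 336) (nat_lit 9792141117) (nat_lit 29) (nat_lit 5) (nat_lit 32) (nat_lit 5) (nat_lit 33) (nat_lit 5) (nat_lit 389) (nat_lit 341) (nat_lit 158)) (XT.lf (nat_lit 0) (nat_lit 25651046500) (nat_lit 252) (nat_lit 9469228507) (nat_lit 336) (nat_lit 7290953599) (nat_lit 29) (nat_lit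 5) (nat_lit 32) (nat_lit 5) (nat_lit 33) (nat_lit 5) (nat_lit 390) (nat_lit 341) (nat_lit 157))) (XT.nd (nat_lit 94) (nat_lit 252) (nat_lit 0) (XT.lf (nat_lit 0) (nat_lit 37628304710) (nat_lit 252) (nat_lit 1059368639) (nat_lit 336) (nat_lit 4714297921) (nat_lit 29) (nat_lit 5) (nat_lit 32) (nat_lit 5) (nat_lit 33) (nat_lit 5) (nat_lit 391) (nat_lit 341) (nat_lit 156)) (XT.lf (nat_lit 0) (nat_lit 5588131772) (nat_lit 252) (nat_lit 36906529487) (nat_lit 336) (nat_lit 1924778183) (nat_lit 26) (nat_lit 5) (nat_lit 29) (nat_lit 5) (nat_lit 30) (nat_lit 5) (nat_lit 392) (nat_lit 341) (nat_lit 155))))))))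
noncomputable def xc183 : XT := (XT.nd (nat_lit 2444) (nat_lit 252) (nat_lit 0) (XT.nd (nat_lit 1222) (nat_lit 420) (nat_lit 0) (XT.nd (nat_lit 564) (nat_lit 420) (nat_lit 0) (XT.nd (nat_lit 282) (nat_lit 252) (nat_lit 0) (XT.nd (nat_lit 94) (nat_lit 0) (nat_lit 0) (XT.lf (nat_lit 0) (nat_lit 1001833966) (nat_lit 336) (nat_lit 28065333795) (nat_lit 84) (nat_lit 16398836406) (nat_lit 25) (nat_lit 5) (nat_lit 29) (nat_lit 5) (nat_lit 26) (nat_lit 5) (nat_lit 393) (nat_lit 341) (nat_lit 154)) (XT.nd (nat_lit 94) (nat_lit 0) (nat_lit 0) (XT.lf (nat_lit 0) (nat_lit 3977312821) (nat_lit 336) (nat_lit 16987638249) (nat_lit 84) (nat_lit 25579519709) (nat_lit 25) (nat_lit 5) (nat_lit 29) (nat_lit 5) (nat_lit 26) (nat_lit 5) (nat_lit 394) (nat_lit 341) (nat_lit 153)) (XT.lf (nat_lit 0) (nat_lit 7043211828) (nat_lit 336) (nat_lit 5568801424) (nat_lit 84) (nat_lit 35044423184) (nat_lit 25) (nat_lit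 5) (nat_lit 29) (nat_lit 5) (nat_lit 26) (nat_lit 5) (nat_lit 395) (nat_lit 341) (nat_lit 152)))) (XT.nd (nat_lit 94) (nat_lit 0) (nat_lit 0) (XT.lf (nat_lit 0) (nat_lit 6329342375) (nat_lit 252) (nat_lit 3935834211) (nat_lit 336) (nat_lit 38535814597) (nat_lit 22) (nat_lit 5) (nat_lit 25) (nat_lit 5) (nat_lit 26) (nat_lit 5) (nat_lit 396) (nat_lit 341) (nat_lit 151)) (XT.nd (nat_lit 94) (nat_lit 0) (nat_lit 0) (XT.lf (nat_lit 0) (nat_lit 13693698660) (nat_lit 336) (nat_lit 31317364092) (nat_lit 84) (nat_lit 4966666975) (nat_lit 22) (nat_lit 5) (nat_lit 26) (nat_lit 5) (nat_lit 23) (nat_lit 5) (nat_lit 397) (nat_lit 341) (nat_lit 150)) (XT.lf (nat_lit 0) (nat_lit 17267073596) (nat_lit 336) (nat_lit 19859719405) (nat_lit 84) (nat_lit 14062967816) (nat_lit 22) (nat_lit 5) (nat_lit 26) (nat_lit 5) (nat_lit 23) (nat_lit 5) (nat_lit 398) (nat_lit 341) (nat_lit 149))))) (XT.nd (nat_lit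 282) (nat_lit 168) (nat_lit 0) (XT.nd (nat_lit 94) (nat_lit 252) (nat_lit 0) (XT.lf (nat_lit 0) (nat_lit 20949588193) (nat_lit 336) (nat_lit 8048991058) (nat_lit 84) (nat_lit 23440845304) (nat_lit 22) (nat_lit 5) (nat_lit 26) (nat_lit 5) (nat_lit 23) (nat_lit 5) (nat_lit 399) (nat_lit 341) (nat_lit 148)) (XT.nd (nat_lit 94) (nat_lit 0) (nat_lit 0) (XT.lf (nat_lit 0) (nat_lit 4210665305) (nat_lit 252) (nat_lit 20575779957) (nat_lit 336) (nat_lit 28940145618) (nat_lit 19) (nat_lit 5) (nat_lit 22) (nat_lit 5) (nat_lit 23) (nat_lit 5) (nat_lit 400) (nat_lit 341) (nat_lit 147)) (XT.lf (nat_lit 0) (nat_lit 17018985967) (nat_lit 252) (nat_lit 11805715738) (nat_lit 336) (nat_lit 26226409962) (nat_lit 19) (nat_lit 5) (nat_lit 22) (nat_lit 5) (nat_lit 23) (nat_lit 5) (nat_lit 401) (nat_lit 341) (nat_lit 146)))) (XT.nd (nat_lit 188) (nat_lit 168) (nat_lit 0) (XT.nd (nat_lit 94) (nat_lit 0)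 (nat_lit 0) (XT.lf (nat_lit 0) (nat_lit 30222405860) (nat_lit 252) (nat_lit 2764226935) (nat_lit 336) (nat_lit 23430114867) (nat_lit 19) (nat_lit 5) (nat_lit 22) (nat_lit 5) (nat_lit 23) (nat_lit 5) (nat_lit 402) (nat_lit 341) (nat_lit 145)) (XT.lf (nat_lit 0) (nat_lit 37341165272) (nat_lit 336) (nat_lit 14056587210) (nat_lit 84) (nat_lit 6425002831) (nat_lit 19) (nat_lit 5) (nat_lit 23) (nat_lit 5) (nat_lit 20) (nat_lit 5) (nat_lit 403) (nat_lit 341) (nat_lit 144))) (XT.nd (nat_lit 94) (nat_lit 168) (nat_lit 0) (XT.lf (nat_lit 0) (nat_lit 41857533832) (nat_lit 336) (nat_lit 1572724083) (nat_lit 84) (nat_lit 15841266798) (nat_lit 19) (nat_lit 5) (nat_lit 23) (nat_lit 5) (nat_lit 20) (nat_lit 5) (nat_lit 404) (nat_lit 341) (nat_lit 143)) (XT.lf (nat_lit 0) (nat_lit 11528580525) (nat_lit 168) (nat_lit 35098311153) (nat_lit 252) (nat_lit 14134819344) (nat_lit 17) (nat_lit 5) (nat_lit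 19) (nat_lit 5) (nat_lit 20) (nat_lit 5) (nat_lit 405) (nat_lit 341) (nat_lit 142)))))) (XT.nd (nat_lit 564) (nat_lit 168) (nat_lit 0) (XT.nd (nat_lit 282) (nat_lit 252) (nat_lit 0) (XT.nd (nat_lit 94) (nat_lit 0) (nat_lit 0) (XT.lf (nat_lit 0) (nat_lit 25067551582) (nat_lit 168) (nat_lit 26491604546) (nat_lit 252) (nat_lit 10738477496) (nat_lit 17) (nat_lit 5) (nat_lit 19) (nat_lit 5) (nat_lit 20) (nat_lit 5) (nat_lit 406) (nat_lit 341) (nat_lit 141)) (XT.nd (nat_lit 94) (nat_lit 0) (nat_lit 0) (XT.lf (nat_lit 0) (nat_lit 39024470395) (nat_lit 168) (nat_lit 17618531756) (nat_lit 252) (nat_lit 7238215604) (nat_lit 17) (nat_lit 5) (nat_lit 19) (nat_lit 5) (nat_lit 20) (nat_lit 5) (nat_lit 407) (nat_lit 341) (nat_lit 140)) (XT.lf (nat_lit 0) (nat_lit 53412346273) (nat_lit 168) (nat_lit 8470822149) (nat_lit 252) (nat_lit 3630771058) (nat_lit 17) (nat_lit 5) (nat_lit 19) (nat_lit 5)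 (nat_lit 20) (nat_lit 5) (nat_lit 408) (nat_lit 341) (nat_lit 139)))) (XT.nd (nat_lit 94) (nat_lit 0) (nat_lit 0) (XT.lf (nat_lit 0) (nat_lit 105696323) (nat_lit 252) (nat_lit 66138685906) (nat_lit 84) (nat_lit 952284335) (nat_lit 14) (nat_lit 5) (nat_lit 17) (nat_lit 5) (nat_lit 15) (nat_lit 5) (nat_lit 409) (nat_lit 341) (nat_lit 138)) (XT.nd (nat_lit 94) (nat_lit 0) (nat_lit 0) (XT.lf (nat_lit 0) (nat_lit 4095576144) (nat_lit 252) (nat_lit 54172368067) (nat_lit 84) (nat_lit 10655866005) (nat_lit 14) (nat_lit 5) (nat_lit 17) (nat_lit 5) (nat_lit 15) (nat_lit 5) (nat_lit 410) (nat_lit 341) (nat_lit 137)) (XT.lf (nat_lit 0) (nat_lit 8207936898) (nat_lit 252) (nat_lit 41836754567) (nat_lit 84) (nat_lit 20659847273) (nat_lit 14) (nat_lit 5) (nat_lit 17) (nat_lit 5) (nat_lit 15) (nat_lit 5) (nat_lit 411) (nat_lit 341) (nat_lit 136))))) (XT.nd (nat_lit 282) (nat_lit 168) (nat_lit 0)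 (XT.nd (nat_lit 94) (nat_lit 0) (nat_lit 0) (XT.lf (nat_lit 0) (nat_lit 12446611739) (nat_lit 252) (nat_lit 29120347321) (nat_lit 84) (nat_lit 30973552898) (nat_lit 14) (nat_lit 5) (nat_lit 17) (nat_lit 5) (nat_lit 15) (nat_lit 5) (nat_lit 412) (nat_lit 341) (nat_lit 135)) (XT.nd (nat_lit 94) (nat_lit 0) (nat_lit 0) (XT.lf (nat_lit 0) (nat_lit 16815551553) (nat_lit 252) (nat_lit 16011293306) (nat_lit 84) (nat_lit 41606596335) (nat_lit 14) (nat_lit 5) (nat_lit 17) (nat_lit 5) (nat_lit 15) (nat_lit 5) (nat_lit 413) (nat_lit 341) (nat_lit 134)) (XT.lf (nat_lit 0) (nat_lit 21318828651) (nat_lit 252) (nat_lit 2497373510) (nat_lit 84) (nat_lit 52568888692) (nat_lit 14) (nat_lit 5) (nat_lit 17) (nat_lit 5) (nat_lit 15) (nat_lit 5) (nat_lit 414) (nat_lit 341) (nat_lit 133)))) (XT.nd (nat_lit 188) (nat_lit 0) (nat_lit 0) (XT.nd (nat_lit 94) (nat_lit 0) (nat_lit 0) (XT.lf (nat_lit 0) (nat_lit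 11669115119) (nat_lit 168) (nat_lit 14407284505) (nat_lit 252) (nat_lit 52317291923) (nat_lit 12) (nat_lit 5) (nat_lit 14) (nat_lit 5) (nat_lit 15) (nat_lit 5) (nat_lit 415) (nat_lit 341) (nat_lit 132)) (XT.lf (nat_lit 0) (nat_lit 26326253434) (nat_lit 168) (nat_lit 4680220189) (nat_lit 252) (nat_lit 49457314869) (nat_lit 12) (nat_lit 5) (nat_lit 14) (nat_lit 5) (nat_lit 15) (nat_lit 5) (nat_lit 416) (nat_lit 341) (nat_lit 131))) (XT.nd (nat_lit 94) (nat_lit 0) (nat_lit 0) (XT.lf (nat_lit 0) (nat_lit 36141415052) (nat_lit 252) (nat_lit 41214795447) (nat_lit 84) (nat_lit 5240239893) (nat_lit 12) (nat_lit 5) (nat_lit 15) (nat_lit 5) (nat_lit 13) (nat_lit 5) (nat_lit 417) (nat_lit 341) (nat_lit 130)) (XT.lf (nat_lit 0) (nat_lit 41482416533) (nat_lit 252) (nat_lit 27940718571) (nat_lit 84) (nat_lit 15370641411) (nat_lit 12) (nat_lit 5) (nat_lit 15) (nat_lit 5) (nat_lit 13) (nat_lit 5)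 (nat_lit 418) (nat_lit 341) (nat_lit 129))))))) (XT.nd (nat_lit 48880) (nat_lit 0) (nat_lit 5376) (XT.nd (nat_lit 564) (nat_lit 84) (nat_lit 0) (XT.nd (nat_lit 282) (nat_lit 0) (nat_lit 0) (XT.nd (nat_lit 94) (nat_lit 168) (nat_lit 0) (XT.lf (nat_lit 0) (nat_lit 46988028076) (nat_lit 252) (nat_lit 14256503235) (nat_lit 84) (nat_lit 25814722968) (nat_lit 12) (nat_lit 5) (nat_lit 15) (nat_lit 5) (nat_lit 13) (nat_lit 5) (nat_lit 419) (nat_lit 341) (nat_lit 128)) (XT.nd (nat_lit 94) (nat_lit 168) (nat_lit 0) (XT.lf (nat_lit 0) (nat_lit 52663381489) (nat_lit 252) (nat_lit 149394317) (nat_lit 84) (nat_lit 36582219541) (nat_lit 12) (nat_lit 5) (nat_lit 15) (nat_lit 5) (nat_lit 13) (nat_lit 5) (nat_lit 420) (nat_lit 341) (nat_lit 127)) (XT.lf (nat_lit 0) (nat_lit 14689722659) (nat_lit 168) (nat_lit 43969768003) (nat_lit 252) (nat_lit 33139168773) (nat_lit 10) (nat_lit 5) (nat_lit 12) (nat_lit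 5) (nat_lit 13) (nat_lit 5) (nat_lit 421) (nat_lit 341) (nat_lit 126)))) (XT.nd (nat_lit 94) (nat_lit 0) (nat_lit 0) (XT.lf (nat_lit 0) (nat_lit 29990754786) (nat_lit 168) (nat_lit 34851394381) (nat_lit 252) (nat_lit 29434671500) (nat_lit 10) (nat_lit 5) (nat_lit 12) (nat_lit 5) (nat_lit 13) (nat_lit 5) (nat_lit 422) (nat_lit 341) (nat_lit 125)) (XT.nd (nat_lit 94) (nat_lit 0) (nat_lit 0) (XT.lf (nat_lit 0) (nat_lit 45764892372) (nat_lit 168) (nat_lit 25450715031) (nat_lit 252) (nat_lit 25616228432) (nat_lit 10) (nat_lit 5) (nat_lit 12) (nat_lit 5) (nat_lit 13) (nat_lit 5) (nat_lit 423) (nat_lit 341) (nat_lit 124)) (XT.lf (nat_lit 0) (nat_lit 62026838568) (nat_lit 168) (nat_lit 15758967535) (nat_lit 252) (nat_lit 21680280380) (nat_lit 10) (nat_lit 5) (nat_lit 12) (nat_lit 5) (nat_lit 13) (nat_lit 5) (nat_lit 424) (nat_lit 341) (nat_lit 123))))) (XT.nd (nat_lit 47940) (nat_lit 0)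 (nat_lit 6048) (XT.nd (nat_lit 94) (nat_lit 84) (nat_lit 0) (XT.lf (nat_lit 0) (nat_lit 78791751210) (nat_lit 168) (nat_lit 5767118170) (nat_lit 252) (nat_lit 17623158627) (nat_lit 10) (nat_lit 5) (nat_lit 12) (nat_lit 5) (nat_lit 13) (nat_lit 5) (nat_lit 425) (nat_lit 341) (nat_lit 122)) (XT.nd (nat_lit 94) (nat_lit 84) (nat_lit 0) (XT.lf (nat_lit 0) (nat_lit 91586089734) (nat_lit 252) (nat_lit 8951914293) (nat_lit 84) (nat_lit 4442793566) (nat_lit 10) (nat_lit 5) (nat_lit 13) (nat_lit 5) (nat_lit 11) (nat_lit 4) (nat_lit 426) (nat_lit 341) (nat_lit 121)) (XT.lf (nat_lit 0) (nat_lit 5994723999) (nat_lit 84) (nat_lit 92954115669) (nat_lit 168) (nat_lit 8913844821) (nat_lit 9) (nat_lit 5) (nat_lit 10) (nat_lit 5) (nat_lit 11) (nat_lit 4) (nat_lit 427) (nat_lit 341) (nat_lit 120)))) (XT.nd (nat_lit 188) (nat_lit 0) (nat_lit 0) (XT.nd (nat_lit 94) (nat_lit 0) (nat_lit 0) (XT.lf (nat_lit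 0) (nat_lit 2702729661) (nat_lit 0) (nat_lit 2702729661) (nat_lit 924) (nat_lit 3165269468) (nat_lit 81) (nat_lit 5) (nat_lit 81) (nat_lit 3) (nat_lit 92) (nat_lit 3) (nat_lit 342) (nat_lit 342) (nat_lit 204)) (XT.lf (nat_lit 0) (nat_lit 11148104655) (nat_lit 0) (nat_lit 4800841) (nat_lit 924) (nat_lit 6247564884) (nat_lit 81) (nat_lit 5) (nat_lit 81) (nat_lit 3) (nat_lit 92) (nat_lit 3) (nat_lit 343) (nat_lit 342) (nat_lit 203))) (XT.nd (nat_lit 94) (nat_lit 0) (nat_lit 0) (XT.lf (nat_lit 0) (nat_lit 11553688957) (nat_lit 924) (nat_lit 657747144) (nat_lit 1008) (nat_lit 5454633721) (nat_lit 81) (nat_lit 5) (nat_lit 92) (nat_lit 3) (nat_lit 93) (nat_lit 5) (nat_lit 344) (nat_lit 342) (nat_lit 202)) (XT.lf (nat_lit 84) (nat_lit 5211553349) (nat_lit 0) (nat_lit 6800308596) (nat_lit 1008) (nat_lit 5926696726) (nat_lit 82) (nat_lit 5) (nat_lit 81) (nat_lit 5) (nat_lit 93) (nat_lit 5)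 (nat_lit 345) (nat_lit 342) (nat_lit 201)))))) (XT.nd (nat_lit 564) (nat_lit 672) (nat_lit 0) (XT.nd (nat_lit 282) (nat_lit 0) (nat_lit 84) (XT.nd (nat_lit 94) (nat_lit 0) (nat_lit 84) (XT.lf (nat_lit 84) (nat_lit 11273080196) (nat_lit 0) (nat_lit 1211408104) (nat_lit 1008) (nat_lit 5735046877) (nat_lit 82) (nat_lit 5) (nat_lit 81) (nat_lit 5) (nat_lit 93) (nat_lit 5) (nat_lit 346) (nat_lit 342) (nat_lit 200)) (XT.nd (nat_lit 94) (nat_lit 0) (nat_lit 0) (XT.lf (nat_lit 0) (nat_lit 13010521828) (nat_lit 924) (nat_lit 1035681294) (nat_lit 1008) (nat_lit 4461864204) (nat_lit 82) (nat_lit 5) (nat_lit 93) (nat_lit 5) (nat_lit 94) (nat_lit 5) (nat_lit 347) (nat_lit 342) (nat_lit 199)) (XT.lf (nat_lit 84) (nat_lit 5145900368) (nat_lit 0) (nat_lit 8464203700) (nat_lit 1008) (nat_lit 5193710807) (nat_lit 83) (nat_lit 5) (nat_lit 82) (nat_lit 5) (nat_lit 94) (nat_lit 5) (nat_lit 348) (nat_lit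 342) (nat_lit 198)))) (XT.nd (nat_lit 94) (nat_lit 0) (nat_lit 84) (XT.lf (nat_lit 84) (nat_lit 11537389993) (nat_lit 0) (nat_lit 2695647434) (nat_lit 1008) (nat_lit 4875589515) (nat_lit 83) (nat_lit 5) (nat_lit 82) (nat_lit 5) (nat_lit 94) (nat_lit 5) (nat_lit 349) (nat_lit 342) (nat_lit 197)) (XT.nd (nat_lit 94) (nat_lit 0) (nat_lit 0) (XT.lf (nat_lit 0) (nat_lit 14901697601) (nat_lit 924) (nat_lit 1331943705) (nat_lit 1008) (nat_lit 3188470688) (nat_lit 83) (nat_lit 5) (nat_lit 94) (nat_lit 5) (nat_lit 95) (nat_lit 5) (nat_lit 350) (nat_lit 342) (nat_lit 196)) (XT.lf (nat_lit 84) (nat_lit 5173737738) (nat_lit 0) (nat_lit 10490576677) (nat_lit 1008) (nat_lit 4078772017) (nat_lit 84) (nat_lit 5) (nat_lit 83) (nat_lit 5) (nat_lit 95) (nat_lit 5) (nat_lit 351) (nat_lit 342) (nat_lit 195))))) (XT.nd (nat_lit 282) (nat_lit 840) (nat_lit 0) (XT.nd (nat_lit 94) (nat_lit 0) (nat_lit 84)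 (XT.lf (nat_lit 84) (nat_lit 11905670219) (nat_lit 0) (nat_lit 4553272861) (nat_lit 1008) (nat_lit 3614848679) (nat_lit 84) (nat_lit 5) (nat_lit 83) (nat_lit 5) (nat_lit 95) (nat_lit 5) (nat_lit 352) (nat_lit 342) (nat_lit 194)) (XT.nd (nat_lit 94) (nat_lit 0) (nat_lit 0) (XT.lf (nat_lit 0) (nat_lit 17288413158) (nat_lit 924) (nat_lit 1587786766) (nat_lit 1008) (nat_lit 1538271551) (nat_lit 84) (nat_lit 5) (nat_lit 95) (nat_lit 5) (nat_lit 96) (nat_lit 5) (nat_lit 353) (nat_lit 342) (nat_lit 193)) (XT.lf (nat_lit 84) (nat_lit 5252126460) (nat_lit 0) (nat_lit 12984954458) (nat_lit 1008) (nat_lit 2525771131) (nat_lit 85) (nat_lit 5) (nat_lit 84) (nat_lit 5) (nat_lit 96) (nat_lit 5) (nat_lit 354) (nat_lit 342) (nat_lit 192)))) (XT.nd (nat_lit 188) (nat_lit 924) (nat_lit 0) (XT.nd (nat_lit 94) (nat_lit 0) (nat_lit 0) (XT.lf (nat_lit 84) (nat_lit 12334113011) (nat_lit 0) (nat_lit 6892550708)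 (nat_lit 1008) (nat_lit 1895048666) (nat_lit 85) (nat_lit 5) (nat_lit 84) (nat_lit 5) (nat_lit 96) (nat_lit 5) (nat_lit 355) (nat_lit 342) (nat_lit 191)) (XT.lf (nat_lit 84) (nat_lit 19632125886) (nat_lit 0) (nat_lit 609883154) (nat_lit 1008) (nat_lit 1249876259) (nat_lit 85) (nat_lit 5) (nat_lit 84) (nat_lit 5) (nat_lit 96) (nat_lit 5) (nat_lit 356) (nat_lit 342) (nat_lit 190))) (XT.nd (nat_lit 94) (nat_lit 1008) (nat_lit 0) (XT.lf (nat_lit 84) (nat_lit 5328386623) (nat_lit 0) (nat_lit 16066755180) (nat_lit 1008) (nat_lit 475130596) (nat_lit 86) (nat_lit 5) (nat_lit 85) (nat_lit 5) (nat_lit 97) (nat_lit 5) (nat_lit 357) (nat_lit 342) (nat_lit 189)) (XT.lf (nat_lit 0) (nat_lit 338233913) (nat_lit 1008) (nat_lit 9494341703) (nat_lit 1092) (nat_lit 12427092015) (nat_lit 73) (nat_lit 5) (nat_lit 85) (nat_lit 5) (nat_lit 86) (nat_lit 5) (nat_lit 358) (nat_lit 342) (nat_lit 188))))))))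
noncomputable def xc184 : XT := (XT.nd (nat_lit 2350) (nat_lit 1596) (nat_lit 0) (XT.nd (nat_lit 1128) (nat_lit 1596) (nat_lit 0) (XT.nd (nat_lit 564) (nat_lit 924) (nat_lit 0) (XT.nd (nat_lit 282) (nat_lit 588) (nat_lit 0) (XT.nd (nat_lit 94) (nat_lit 0) (nat_lit 84) (XT.lf (nat_lit 0) (nat_lit 1162359159) (nat_lit 1008) (nat_lit 2236770435) (nat_lit 1092) (nat_lit 19262027450) (nat_lit 73) (nat_lit 5) (nat_lit 85) (nat_lit 5) (nat_lit 86) (nat_lit 5) (nat_lit 359) (nat_lit 342) (nat_lit 187)) (XT.nd (nat_lit 94) (nat_lit 0) (nat_lit 0) (XT.lf (nat_lit 0) (nat_lit 2093291421) (nat_lit 1008) (nat_lit 17756148580) (nat_lit 84) (nat_lit 3223164120) (nat_lit 74) (nat_lit 5) (nat_lit 86) (nat_lit 5) (nat_lit 75) (nat_lit 5) (nat_lit 360) (nat_lit 342) (nat_lit 186)) (XT.lf (nat_lit 0) (nat_lit 3107096087) (nat_lit 1008) (nat_lit 10383453721) (nat_lit 84) (nat_lit 10004611436) (nat_lit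 74) (nat_lit 5) (nat_lit 86) (nat_lit 5) (nat_lit 75) (nat_lit 5) (nat_lit 361) (nat_lit 342) (nat_lit 185)))) (XT.nd (nat_lit 94) (nat_lit 672) (nat_lit 0) (XT.lf (nat_lit 0) (nat_lit 4148121444) (nat_lit 1008) (nat_lit 2785713976) (nat_lit 84) (nat_lit 16997141358) (nat_lit 74) (nat_lit 5) (nat_lit 86) (nat_lit 5) (nat_lit 75) (nat_lit 5) (nat_lit 362) (nat_lit 342) (nat_lit 184)) (XT.nd (nat_lit 94) (nat_lit 0) (nat_lit 0) (XT.lf (nat_lit 0) (nat_lit 5147870665) (nat_lit 672) (nat_lit 120534686) (nat_lit 756) (nat_lit 19110468504) (nat_lit 66) (nat_lit 5) (nat_lit 74) (nat_lit 5) (nat_lit 75) (nat_lit 5) (nat_lit 363) (nat_lit 342) (nat_lit 183)) (XT.lf (nat_lit 0) (nat_lit 6517295621) (nat_lit 756) (nat_lit 11525613592) (nat_lit 84) (nat_lit 6794863341) (nat_lit 66) (nat_lit 5) (nat_lit 75) (nat_lit 5) (nat_lit 67) (nat_lit 5) (nat_lit 364) (nat_lit 342) (nat_lit 182))))) (XT.nd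 (nat_lit 282) (nat_lit 420) (nat_lit 0) (XT.nd (nat_lit 94) (nat_lit 504) (nat_lit 0) (XT.lf (nat_lit 0) (nat_lit 7802268813) (nat_lit 756) (nat_lit 3586009325) (nat_lit 84) (nat_lit 13922726788) (nat_lit 66) (nat_lit 5) (nat_lit 75) (nat_lit 5) (nat_lit 67) (nat_lit 5) (nat_lit 365) (nat_lit 342) (nat_lit 181)) (XT.nd (nat_lit 94) (nat_lit 0) (nat_lit 0) (XT.lf (nat_lit 0) (nat_lit 4690917402) (nat_lit 504) (nat_lit 4478944017) (nat_lit 588) (nat_lit 16627745155) (nat_lit 60) (nat_lit 5) (nat_lit 66) (nat_lit 5) (nat_lit 67) (nat_lit 5) (nat_lit 366) (nat_lit 342) (nat_lit 180)) (XT.lf (nat_lit 0) (nat_lit 10640232117) (nat_lit 588) (nat_lit 13027724979) (nat_lit 84) (nat_lit 2629488565) (nat_lit 60) (nat_lit 5) (nat_lit 67) (nat_lit 5) (nat_lit 61) (nat_lit 5) (nat_lit 367) (nat_lit 342) (nat_lit 179)))) (XT.nd (nat_lit 94) (nat_lit 420) (nat_lit 0) (XT.lf (nat_lit 0) (nat_lit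 12198438328) (nat_lit 588) (nat_lit 4747444402) (nat_lit 84) (nat_lit 9865611063) (nat_lit 60) (nat_lit 5) (nat_lit 67) (nat_lit 5) (nat_lit 61) (nat_lit 5) (nat_lit 368) (nat_lit 342) (nat_lit 178)) (XT.nd (nat_lit 94) (nat_lit 0) (nat_lit 0) (XT.lf (nat_lit 0) (nat_lit 3864156466) (nat_lit 420) (nat_lit 9975677228) (nat_lit 504) (nat_lit 13500585486) (nat_lit 55) (nat_lit 5) (nat_lit 60) (nat_lit 5) (nat_lit 61) (nat_lit 5) (nat_lit 369) (nat_lit 342) (nat_lit 177)) (XT.lf (nat_lit 0) (nat_lit 12840170366) (nat_lit 420) (nat_lit 2738119420) (nat_lit 504) (nat_lit 12306042459) (nat_lit 55) (nat_lit 5) (nat_lit 60) (nat_lit 5) (nat_lit 61) (nat_lit 5) (nat_lit 370) (nat_lit 342) (nat_lit 176)))))) (XT.nd (nat_lit 564) (nat_lit 840) (nat_lit 0) (XT.nd (nat_lit 282) (nat_lit 336) (nat_lit 0) (XT.nd (nat_lit 94) (nat_lit 420) (nat_lit 0) (XT.lf (nat_lit 0) (nat_lit 17414225916) (nat_lit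 504) (nat_lit 6400745755) (nat_lit 84) (nat_lit 4628805536) (nat_lit 55) (nat_lit 5) (nat_lit 61) (nat_lit 5) (nat_lit 56) (nat_lit 5) (nat_lit 371) (nat_lit 342) (nat_lit 175)) (XT.nd (nat_lit 94) (nat_lit 0) (nat_lit 0) (XT.lf (nat_lit 0) (nat_lit 2530472799) (nat_lit 420) (nat_lit 16826535988) (nat_lit 504) (nat_lit 9662029423) (nat_lit 50) (nat_lit 5) (nat_lit 55) (nat_lit 5) (nat_lit 56) (nat_lit 5) (nat_lit 372) (nat_lit 342) (nat_lit 174)) (XT.lf (nat_lit 0) (nat_lit 11871160851) (nat_lit 420) (nat_lit 9552558119) (nat_lit 504) (nat_lit 8186459126) (nat_lit 50) (nat_lit 5) (nat_lit 55) (nat_lit 5) (nat_lit 56) (nat_lit 5) (nat_lit 373) (nat_lit 342) (nat_lit 173)))) (XT.nd (nat_lit 94) (nat_lit 336) (nat_lit 0) (XT.lf (nat_lit 0) (nat_lit 21498412438) (nat_lit 420) (nat_lit 2053068615) (nat_lit 504) (nat_lit 6668275672) (nat_lit 50) (nat_lit 5) (nat_lit 55) (nat_lit 5) (nat_lit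 56) (nat_lit 5) (nat_lit 374) (nat_lit 342) (nat_lit 172)) (XT.nd (nat_lit 94) (nat_lit 0) (nat_lit 0) (XT.lf (nat_lit 0) (nat_lit 527144038) (nat_lit 336) (nat_lit 25276699247) (nat_lit 420) (nat_lit 5042590491) (nat_lit 46) (nat_lit 5) (nat_lit 50) (nat_lit 5) (nat_lit 51) (nat_lit 5) (nat_lit 375) (nat_lit 342) (nat_lit 171)) (XT.lf (nat_lit 0) (nat_lit 10222806316) (nat_lit 336) (nat_lit 18012173924) (nat_lit 420) (nat_lit 3254198806) (nat_lit 46) (nat_lit 5) (nat_lit 50) (nat_lit 5) (nat_lit 51) (nat_lit 5) (nat_lit 376) (nat_lit 342) (nat_lit 170))))) (XT.nd (nat_lit 282) (nat_lit 336) (nat_lit 0) (XT.nd (nat_lit 94) (nat_lit 504) (nat_lit 0) (XT.lf (nat_lit 0) (nat_lit 20216136669) (nat_lit 336) (nat_lit 10522565046) (nat_lit 420) (nat_lit 1413252074) (nat_lit 46) (nat_lit 5) (nat_lit 50) (nat_lit 5) (nat_lit 51) (nat_lit 5) (nat_lit 377) (nat_lit 342) (nat_lit 169)) (XT.nd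 (nat_lit 94) (nat_lit 420) (nat_lit 0) (XT.lf (nat_lit 0) (nat_lit 472255127) (nat_lit 420) (nat_lit 2323707009) (nat_lit 84) (nat_lit 30039265425) (nat_lit 45) (nat_lit 5) (nat_lit 50) (nat_lit 5) (nat_lit 46) (nat_lit 5) (nat_lit 378) (nat_lit 342) (nat_lit 168)) (XT.lf (nat_lit 0) (nat_lit 2513046477) (nat_lit 504) (nat_lit 25864413158) (nat_lit 84) (nat_lit 5157879790) (nat_lit 40) (nat_lit 5) (nat_lit 46) (nat_lit 5) (nat_lit 41) (nat_lit 5) (nat_lit 379) (nat_lit 342) (nat_lit 167)))) (XT.nd (nat_lit 188) (nat_lit 336) (nat_lit 0) (XT.nd (nat_lit 94) (nat_lit 0) (nat_lit 0) (XT.lf (nat_lit 0) (nat_lit 4667592654) (nat_lit 504) (nat_lit 16263456567) (nat_lit 84) (nat_lit 13324556412) (nat_lit 40) (nat_lit 5) (nat_lit 46) (nat_lit 5) (nat_lit 41) (nat_lit 5) (nat_lit 380) (nat_lit 342) (nat_lit 166)) (XT.lf (nat_lit 0) (nat_lit 6886399573) (nat_lit 504) (nat_lit 6367648272) (nat_lit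 84) (nat_lit 21744246279) (nat_lit 40) (nat_lit 5) (nat_lit 46) (nat_lit 5) (nat_lit 41) (nat_lit 5) (nat_lit 381) (nat_lit 342) (nat_lit 165))) (XT.nd (nat_lit 94) (nat_lit 0) (nat_lit 0) (XT.lf (nat_lit 0) (nat_lit 3911034280) (nat_lit 336) (nat_lit 5299299059) (nat_lit 420) (nat_lit 26552561086) (nat_lit 36) (nat_lit 5) (nat_lit 40) (nat_lit 5) (nat_lit 41) (nat_lit 5) (nat_lit 382) (nat_lit 342) (nat_lit 164)) (XT.lf (nat_lit 0) (nat_lit 11699833325) (nat_lit 420) (nat_lit 21938012414) (nat_lit 84) (nat_lit 2910467013) (nat_lit 36) (nat_lit 5) (nat_lit 41) (nat_lit 5) (nat_lit 37) (nat_lit 5) (nat_lit 383) (nat_lit 342) (nat_lit 163))))))) (XT.nd (nat_lit 1222) (nat_lit 672) (nat_lit 0) (XT.nd (nat_lit 564) (nat_lit 336) (nat_lit 0) (XT.nd (nat_lit 282) (nat_lit 252) (nat_lit 0) (XT.nd (nat_lit 94) (nat_lit 336) (nat_lit 0) (XT.lf (nat_lit 0) (nat_lit 14318370255) (nat_lit 420)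 (nat_lit 11773705805) (nat_lit 84) (nat_lit 11264409479) (nat_lit 36) (nat_lit 5) (nat_lit 41) (nat_lit 5) (nat_lit 37) (nat_lit 5) (nat_lit 384) (nat_lit 342) (nat_lit 162)) (XT.nd (nat_lit 94) (nat_lit 336) (nat_lit 0) (XT.lf (nat_lit 0) (nat_lit 17015815177) (nat_lit 420) (nat_lit 1296896420) (nat_lit 84) (nat_lit 19877084154) (nat_lit 36) (nat_lit 5) (nat_lit 41) (nat_lit 5) (nat_lit 37) (nat_lit 5) (nat_lit 385) (nat_lit 342) (nat_lit 161)) (XT.lf (nat_lit 0) (nat_lit 9697565561) (nat_lit 336) (nat_lit 10193317883) (nat_lit 420) (nat_lit 19155154442) (nat_lit 32) (nat_lit 5) (nat_lit 36) (nat_lit 5) (nat_lit 37) (nat_lit 5) (nat_lit 386) (nat_lit 342) (nat_lit 160)))) (XT.nd (nat_lit 94) (nat_lit 252) (nat_lit 0) (XT.lf (nat_lit 0) (nat_lit 21057861997) (nat_lit 336) (nat_lit 1808596699) (nat_lit 420) (nat_lit 17062025038) (nat_lit 32) (nat_lit 5) (nat_lit 36) (nat_lit 5) (nat_lit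 37) (nat_lit 5) (nat_lit 387) (nat_lit 342) (nat_lit 159)) (XT.nd (nat_lit 94) (nat_lit 252) (nat_lit 0) (XT.lf (nat_lit 0) (nat_lit 25999995863) (nat_lit 420) (nat_lit 8138259125) (nat_lit 84) (nat_lit 6698005719) (nat_lit 32) (nat_lit 5) (nat_lit 37) (nat_lit 5) (nat_lit 33) (nat_lit 5) (nat_lit 388) (nat_lit 342) (nat_lit 158)) (XT.lf (nat_lit 0) (nat_lit 2965648142) (nat_lit 252) (nat_lit 26310909439) (nat_lit 336) (nat_lit 12494210965) (nat_lit 29) (nat_lit 5) (nat_lit 32) (nat_lit 5) (nat_lit 33) (nat_lit 5) (nat_lit 389) (nat_lit 342) (nat_lit 157))))) (XT.nd (nat_lit 282) (nat_lit 336) (nat_lit 0) (XT.nd (nat_lit 94) (nat_lit 0) (nat_lit 0) (XT.lf (nat_lit 0) (nat_lit 14583915675) (nat_lit 252) (nat_lit 18153728811) (nat_lit 336) (nat_lit 9994041986) (nat_lit 29) (nat_lit 5) (nat_lit 32) (nat_lit 5) (nat_lit 33) (nat_lit 5) (nat_lit 390) (nat_lit 342) (nat_lit 156)) (XT.nd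 (nat_lit 94) (nat_lit 0) (nat_lit 0) (XT.lf (nat_lit 0) (nat_lit 26560033618) (nat_lit 252) (nat_lit 9744056489) (nat_lit 336) (nat_lit 7418374222) (nat_lit 29) (nat_lit 5) (nat_lit 32) (nat_lit 5) (nat_lit 33) (nat_lit 5) (nat_lit 391) (nat_lit 342) (nat_lit 155)) (XT.lf (nat_lit 0) (nat_lit 38905164966) (nat_lit 252) (nat_lit 1074053779) (nat_lit 336) (nat_lit 4764806881) (nat_lit 29) (nat_lit 5) (nat_lit 32) (nat_lit 5) (nat_lit 33) (nat_lit 5) (nat_lit 392) (nat_lit 342) (nat_lit 154)))) (XT.nd (nat_lit 188) (nat_lit 0) (nat_lit 0) (XT.nd (nat_lit 94) (nat_lit 84) (nat_lit 0) (XT.lf (nat_lit 0) (nat_lit 5873823123) (nat_lit 252) (nat_lit 38028917366) (nat_lit 336) (nat_lit 1890357256) (nat_lit 26) (nat_lit 5) (nat_lit 29) (nat_lit 5) (nat_lit 30) (nat_lit 5) (nat_lit 393) (nat_lit 342) (nat_lit 153)) (XT.lf (nat_lit 0) (nat_lit 1122312125) (nat_lit 336) (nat_lit 28823942838)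 (nat_lit 84) (nat_lit 16925923507) (nat_lit 25) (nat_lit 5) (nat_lit 29) (nat_lit 5) (nat_lit 26) (nat_lit 5) (nat_lit 394) (nat_lit 342) (nat_lit 152))) (XT.nd (nat_lit 94) (nat_lit 0) (nat_lit 0) (XT.lf (nat_lit 0) (nat_lit 4187342113) (nat_lit 336) (nat_lit 17406188784) (nat_lit 84) (nat_lit 26390645026) (nat_lit 25) (nat_lit 5) (nat_lit 29) (nat_lit 5) (nat_lit 26) (nat_lit 5) (nat_lit 395) (nat_lit 342) (nat_lit 151)) (XT.lf (nat_lit 0) (nat_lit 7345676123) (nat_lit 336) (nat_lit 5636617342) (nat_lit 84) (nat_lit 36148414469) (nat_lit 25) (nat_lit 5) (nat_lit 29) (nat_lit 5) (nat_lit 26) (nat_lit 5) (nat_lit 396) (nat_lit 342) (nat_lit 150)))))) (XT.nd (nat_lit 564) (nat_lit 168) (nat_lit 0) (XT.nd (nat_lit 282) (nat_lit 252) (nat_lit 0) (XT.nd (nat_lit 94) (nat_lit 0) (nat_lit 0) (XT.lf (nat_lit 0) (nat_lit 6629307738) (nat_lit 252) (nat_lit 4036713868) (nat_lit 336) (nat_lit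 39644782916) (nat_lit 22) (nat_lit 5) (nat_lit 25) (nat_lit 5) (nat_lit 26) (nat_lit 5) (nat_lit 397) (nat_lit 342) (nat_lit 149)) (XT.nd (nat_lit 94) (nat_lit 0) (nat_lit 0) (XT.lf (nat_lit 0) (nat_lit 14198546838) (nat_lit 336) (nat_lit 32184843007) (nat_lit 84) (nat_lit 5140716540) (nat_lit 22) (nat_lit 5) (nat_lit 26) (nat_lit 5) (nat_lit 23) (nat_lit 5) (nat_lit 398) (nat_lit 342) (nat_lit 148)) (XT.lf (nat_lit 0) (nat_lit 17880280636) (nat_lit 336) (nat_lit 20375119133) (nat_lit 84) (nat_lit 14518398856) (nat_lit 22) (nat_lit 5) (nat_lit 26) (nat_lit 5) (nat_lit 23) (nat_lit 5) (nat_lit 399) (nat_lit 342) (nat_lit 147)))) (XT.nd (nat_lit 94) (nat_lit 252) (nat_lit 0) (XT.lf (nat_lit 0) (nat_lit 21674610063) (nat_lit 336) (nat_lit 8201272561) (nat_lit 84) (nat_lit 24186404852) (nat_lit 22) (nat_lit 5) (nat_lit 26) (nat_lit 5) (nat_lit 23) (nat_lit 5) (nat_lit 400) (nat_lit 342)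 (nat_lit 146)) (XT.nd (nat_lit 94) (nat_lit 0) (nat_lit 0) (XT.lf (nat_lit 0) (nat_lit 4437448710) (nat_lit 252) (nat_lit 21191643159) (nat_lit 336) (nat_lit 29760317452) (nat_lit 19) (nat_lit 5) (nat_lit 22) (nat_lit 5) (nat_lit 23) (nat_lit 5) (nat_lit 401) (nat_lit 342) (nat_lit 145)) (XT.lf (nat_lit 0) (nat_lit 17639933194) (nat_lit 252) (nat_lit 12150368021) (nat_lit 336) (nat_lit 26964770397) (nat_lit 19) (nat_lit 5) (nat_lit 22) (nat_lit 5) (nat_lit 23) (nat_lit 5) (nat_lit 402) (nat_lit 342) (nat_lit 144))))) (XT.nd (nat_lit 282) (nat_lit 168) (nat_lit 0) (XT.nd (nat_lit 94) (nat_lit 0) (nat_lit 0) (XT.lf (nat_lit 0) (nat_lit 31249852005) (nat_lit 252) (nat_lit 2829234260) (nat_lit 336) (nat_lit 24084034971) (nat_lit 19) (nat_lit 5) (nat_lit 22) (nat_lit 5) (nat_lit 23) (nat_lit 5) (nat_lit 403) (nat_lit 342) (nat_lit 143)) (XT.nd (nat_lit 94) (nat_lit 0) (nat_lit 0) (XT.lf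 (nat_lit 0) (nat_lit 38566707485) (nat_lit 336) (nat_lit 14402242499) (nat_lit 84) (nat_lit 6643835512) (nat_lit 19) (nat_lit 5) (nat_lit 23) (nat_lit 5) (nat_lit 20) (nat_lit 5) (nat_lit 404) (nat_lit 342) (nat_lit 142)) (XT.lf (nat_lit 0) (nat_lit 43221039874) (nat_lit 336) (nat_lit 1534088700) (nat_lit 84) (nat_lit 16351412599) (nat_lit 19) (nat_lit 5) (nat_lit 23) (nat_lit 5) (nat_lit 20) (nat_lit 5) (nat_lit 405) (nat_lit 342) (nat_lit 141)))) (XT.nd (nat_lit 188) (nat_lit 0) (nat_lit 0) (XT.nd (nat_lit 94) (nat_lit 0) (nat_lit 0) (XT.lf (nat_lit 0) (nat_lit 11972471607) (nat_lit 168) (nat_lit 36164652197) (nat_lit 252) (nat_lit 14505845039) (nat_lit 17) (nat_lit 5) (nat_lit 19) (nat_lit 5) (nat_lit 20) (nat_lit 5) (nat_lit 406) (nat_lit 342) (nat_lit 140)) (XT.lf (nat_lit 0) (nat_lit 25928549742) (nat_lit 168) (nat_lit 27291790357) (nat_lit 252) (nat_lit 11006235764) (nat_lit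 17) (nat_lit 5) (nat_lit 19) (nat_lit 5) (nat_lit 20) (nat_lit 5) (nat_lit 407) (nat_lit 342) (nat_lit 139))) (XT.nd (nat_lit 94) (nat_lit 0) (nat_lit 0) (XT.lf (nat_lit 0) (nat_lit 40315610219) (nat_lit 168) (nat_lit 18144285357) (nat_lit 252) (nat_lit 7399424212) (nat_lit 17) (nat_lit 5) (nat_lit 19) (nat_lit 5) (nat_lit 20) (nat_lit 5) (nat_lit 408) (nat_lit 342) (nat_lit 138)) (XT.lf (nat_lit 0) (nat_lit 55147063286) (nat_lit 168) (nat_lit 8713610765) (nat_lit 252) (nat_lit 3682048457) (nat_lit 17) (nat_lit 5) (nat_lit 19) (nat_lit 5) (nat_lit 20) (nat_lit 5) (nat_lit 409) (nat_lit 342) (nat_lit 137))))))))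
noncomputable def xc185 : XT := (XT.nd (nat_lit 50196) (nat_lit 0) (nat_lit 3024) (XT.nd (nat_lit 1128) (nat_lit 168) (nat_lit 0) (XT.nd (nat_lit 564) (nat_lit 168) (nat_lit 0) (XT.nd (nat_lit 282) (nat_lit 0) (nat_lit 0) (XT.nd (nat_lit 94) (nat_lit 0) (nat_lit 0) (XT.lf (nat_lit 0) (nat_lit 168204430) (nat_lit 252) (nat_lit 68107401847) (nat_lit 84) (nat_lit 1002023353) (nat_lit 14) (nat_lit 5) (nat_lit 17) (nat_lit 5) (nat_lit 15) (nat_lit 5) (nat_lit 410) (nat_lit 342) (nat_lit 136)) (XT.nd (nat_lit 94) (nat_lit 0) (nat_lit 0) (XT.lf (nat_lit 0) (nat_lit 4279989558) (nat_lit 252) (nat_lit 55772581194) (nat_lit 84) (nat_lit 11005808136) (nat_lit 14) (nat_lit 5) (nat_lit 17) (nat_lit 5) (nat_lit 15) (nat_lit 5) (nat_lit 411) (nat_lit 342) (nat_lit 135)) (XT.lf (nat_lit 0) (nat_lit 8518106079) (nat_lit 252) (nat_lit 43056942956) (nat_lit 84) (nat_lit 21319323184) (nat_lit 14) (nat_lit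 5) (nat_lit 17) (nat_lit 5) (nat_lit 15) (nat_lit 5) (nat_lit 412) (nat_lit 342) (nat_lit 134)))) (XT.nd (nat_lit 94) (nat_lit 0) (nat_lit 0) (XT.lf (nat_lit 0) (nat_lit 12886504361) (nat_lit 252) (nat_lit 29948634827) (nat_lit 84) (nat_lit 31952181773) (nat_lit 14) (nat_lit 5) (nat_lit 17) (nat_lit 5) (nat_lit 15) (nat_lit 5) (nat_lit 413) (nat_lit 342) (nat_lit 133)) (XT.nd (nat_lit 94) (nat_lit 0) (nat_lit 0) (XT.lf (nat_lit 0) (nat_lit 17389256210) (nat_lit 252) (nat_lit 16435438490) (nat_lit 84) (nat_lit 42914294841) (nat_lit 14) (nat_lit 5) (nat_lit 17) (nat_lit 5) (nat_lit 15) (nat_lit 5) (nat_lit 414) (nat_lit 342) (nat_lit 132)) (XT.lf (nat_lit 0) (nat_lit 22030558662) (nat_lit 252) (nat_lit 2504758230) (nat_lit 84) (nat_lit 54215880226) (nat_lit 14) (nat_lit 5) (nat_lit 17) (nat_lit 5) (nat_lit 15) (nat_lit 5) (nat_lit 415) (nat_lit 342) (nat_lit 131))))) (XT.nd (nat_lit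 282) (nat_lit 0) (nat_lit 0) (XT.nd (nat_lit 94) (nat_lit 0) (nat_lit 0) (XT.lf (nat_lit 0) (nat_lit 12100182517) (nat_lit 168) (nat_lit 14834590688) (nat_lit 252) (nat_lit 53887324981) (nat_lit 12) (nat_lit 5) (nat_lit 14) (nat_lit 5) (nat_lit 15) (nat_lit 5) (nat_lit 416) (nat_lit 342) (nat_lit 130)) (XT.nd (nat_lit 94) (nat_lit 0) (nat_lit 0) (XT.lf (nat_lit 0) (nat_lit 27209607668) (nat_lit 168) (nat_lit 4806568279) (nat_lit 252) (nat_lit 50940246245) (nat_lit 12) (nat_lit 5) (nat_lit 14) (nat_lit 5) (nat_lit 15) (nat_lit 5) (nat_lit 417) (nat_lit 342) (nat_lit 129)) (XT.lf (nat_lit 0) (nat_lit 37309022519) (nat_lit 252) (nat_lit 42425724494) (nat_lit 84) (nat_lit 5420496439) (nat_lit 12) (nat_lit 5) (nat_lit 15) (nat_lit 5) (nat_lit 13) (nat_lit 5) (nat_lit 418) (nat_lit 342) (nat_lit 128)))) (XT.nd (nat_lit 94) (nat_lit 0) (nat_lit 0) (XT.lf (nat_lit 0) (nat_lit 42814175132)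 (nat_lit 252) (nat_lit 28742157653) (nat_lit 84) (nat_lit 15864404922) (nat_lit 12) (nat_lit 5) (nat_lit 15) (nat_lit 5) (nat_lit 13) (nat_lit 5) (nat_lit 419) (nat_lit 342) (nat_lit 127)) (XT.nd (nat_lit 94) (nat_lit 0) (nat_lit 0) (XT.lf (nat_lit 0) (nat_lit 48489083413) (nat_lit 252) (nat_lit 14635677732) (nat_lit 84) (nat_lit 26631733626) (nat_lit 12) (nat_lit 5) (nat_lit 15) (nat_lit 5) (nat_lit 13) (nat_lit 5) (nat_lit 420) (nat_lit 342) (nat_lit 126)) (XT.lf (nat_lit 0) (nat_lit 54339036971) (nat_lit 252) (nat_lit 93136013) (nat_lit 84) (nat_lit 37732518828) (nat_lit 12) (nat_lit 5) (nat_lit 15) (nat_lit 5) (nat_lit 13) (nat_lit 5) (nat_lit 421) (nat_lit 342) (nat_lit 125)))))) (XT.nd (nat_lit 48410) (nat_lit 0) (nat_lit 5964) (XT.nd (nat_lit 282) (nat_lit 0) (nat_lit 0) (XT.nd (nat_lit 94) (nat_lit 0) (nat_lit 0) (XT.lf (nat_lit 0) (nat_lit 15205377137) (nat_lit 168) (nat_lit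 45314950662) (nat_lit 252) (nat_lit 34122569708) (nat_lit 10) (nat_lit 5) (nat_lit 12) (nat_lit 5) (nat_lit 13) (nat_lit 5) (nat_lit 422) (nat_lit 342) (nat_lit 124)) (XT.nd (nat_lit 94) (nat_lit 0) (nat_lit 0) (XT.lf (nat_lit 0) (nat_lit 30978928975) (nat_lit 168) (nat_lit 35914445076) (nat_lit 252) (nat_lit 30304553401) (nat_lit 10) (nat_lit 5) (nat_lit 12) (nat_lit 5) (nat_lit 13) (nat_lit 5) (nat_lit 423) (nat_lit 342) (nat_lit 123)) (XT.lf (nat_lit 0) (nat_lit 47240307034) (nat_lit 168) (nat_lit 26222866119) (nat_lit 252) (nat_lit 26369019277) (nat_lit 10) (nat_lit 5) (nat_lit 12) (nat_lit 5) (nat_lit 13) (nat_lit 5) (nat_lit 424) (nat_lit 342) (nat_lit 122)))) (XT.nd (nat_lit 94) (nat_lit 0) (nat_lit 0) (XT.lf (nat_lit 0) (nat_lit 64004668622) (nat_lit 168) (nat_lit 16231180226) (nat_lit 252) (nat_lit 22312299007) (nat_lit 10) (nat_lit 5) (nat_lit 12) (nat_lit 5) (nat_lit 13)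 (nat_lit 5) (nat_lit 425) (nat_lit 342) (nat_lit 121)) (XT.nd (nat_lit 47940) (nat_lit 0) (nat_lit 5964) (XT.lf (nat_lit 0) (nat_lit 81287639880) (nat_lit 168) (nat_lit 5930074097) (nat_lit 252) (nat_lit 18130611303) (nat_lit 10) (nat_lit 5) (nat_lit 12) (nat_lit 5) (nat_lit 13) (nat_lit 5) (nat_lit 426) (nat_lit 342) (nat_lit 120)) (XT.lf (nat_lit 0) (nat_lit 2872857965) (nat_lit 0) (nat_lit 2872857965) (nat_lit 924) (nat_lit 3084091924) (nat_lit 81) (nat_lit 5) (nat_lit 81) (nat_lit 3) (nat_lit 92) (nat_lit 3) (nat_lit 343) (nat_lit 343) (nat_lit 202))))) (XT.nd (nat_lit 282) (nat_lit 0) (nat_lit 0) (XT.nd (nat_lit 94) (nat_lit 0) (nat_lit 0) (XT.lf (nat_lit 0) (nat_lit 11661190923) (nat_lit 0) (nat_lit 172444691) (nat_lit 924) (nat_lit 6093420001) (nat_lit 81) (nat_lit 5) (nat_lit 81) (nat_lit 3) (nat_lit 92) (nat_lit 3) (nat_lit 344) (nat_lit 343) (nat_lit 201)) (XT.nd (nat_lit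 94) (nat_lit 0) (nat_lit 0) (XT.lf (nat_lit 0) (nat_lit 12235159305) (nat_lit 924) (nat_lit 501623298) (nat_lit 1008) (nat_lit 5464541748) (nat_lit 81) (nat_lit 5) (nat_lit 92) (nat_lit 3) (nat_lit 93) (nat_lit 5) (nat_lit 345) (nat_lit 343) (nat_lit 200)) (XT.lf (nat_lit 84) (nat_lit 5547838465) (nat_lit 0) (nat_lit 7151709374) (nat_lit 1008) (nat_lit 5783031434) (nat_lit 82) (nat_lit 5) (nat_lit 81) (nat_lit 5) (nat_lit 93) (nat_lit 5) (nat_lit 346) (nat_lit 343) (nat_lit 199)))) (XT.nd (nat_lit 188) (nat_lit 0) (nat_lit 84) (XT.nd (nat_lit 94) (nat_lit 0) (nat_lit 84) (XT.lf (nat_lit 84) (nat_lit 11792018972) (nat_lit 0) (nat_lit 1385325684) (nat_lit 1008) (nat_lit 5595284455) (nat_lit 82) (nat_lit 5) (nat_lit 81) (nat_lit 5) (nat_lit 93) (nat_lit 5) (nat_lit 347) (nat_lit 343) (nat_lit 198)) (XT.lf (nat_lit 0) (nat_lit 13709177270) (nat_lit 924) (nat_lit 890738246) (nat_lit 1008)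 (nat_lit 4470583062) (nat_lit 82) (nat_lit 5) (nat_lit 93) (nat_lit 5) (nat_lit 94) (nat_lit 5) (nat_lit 348) (nat_lit 343) (nat_lit 197))) (XT.nd (nat_lit 94) (nat_lit 0) (nat_lit 0) (XT.lf (nat_lit 84) (nat_lit 5480679985) (nat_lit 0) (nat_lit 8839525214) (nat_lit 1008) (nat_lit 5055495540) (nat_lit 83) (nat_lit 5) (nat_lit 82) (nat_lit 5) (nat_lit 94) (nat_lit 5) (nat_lit 349) (nat_lit 343) (nat_lit 196)) (XT.lf (nat_lit 84) (nat_lit 12065036187) (nat_lit 0) (nat_lit 2888748100) (nat_lit 1008) (nat_lit 4736509412) (nat_lit 83) (nat_lit 5) (nat_lit 82) (nat_lit 5) (nat_lit 94) (nat_lit 5) (nat_lit 350) (nat_lit 343) (nat_lit 195))))))) (XT.nd (nat_lit 1222) (nat_lit 2268) (nat_lit 0) (XT.nd (nat_lit 564) (nat_lit 840) (nat_lit 0) (XT.nd (nat_lit 282) (nat_lit 0) (nat_lit 84) (XT.nd (nat_lit 94) (nat_lit 0) (nat_lit 0) (XT.lf (nat_lit 0) (nat_lit 15633714332) (nat_lit 924) (nat_lit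 1196925144) (nat_lit 1008) (nat_lit 3183211731) (nat_lit 83) (nat_lit 5) (nat_lit 94) (nat_lit 5) (nat_lit 95) (nat_lit 5) (nat_lit 351) (nat_lit 343) (nat_lit 194)) (XT.nd (nat_lit 94) (nat_lit 0) (nat_lit 0) (XT.lf (nat_lit 84) (nat_lit 5508647455) (nat_lit 0) (nat_lit 10904935852) (nat_lit 1008) (nat_lit 3931449965) (nat_lit 84) (nat_lit 5) (nat_lit 83) (nat_lit 5) (nat_lit 95) (nat_lit 5) (nat_lit 352) (nat_lit 343) (nat_lit 193)) (XT.lf (nat_lit 84) (nat_lit 12444022279) (nat_lit 0) (nat_lit 4780895026) (nat_lit 1008) (nat_lit 3461376511) (nat_lit 84) (nat_lit 5) (nat_lit 83) (nat_lit 5) (nat_lit 95) (nat_lit 5) (nat_lit 353) (nat_lit 343) (nat_lit 192)))) (XT.nd (nat_lit 94) (nat_lit 0) (nat_lit 0) (XT.lf (nat_lit 0) (nat_lit 18071579172) (nat_lit 924) (nat_lit 1462498387) (nat_lit 1008) (nat_lit 1503777064) (nat_lit 84) (nat_lit 5) (nat_lit 95) (nat_lit 5) (nat_lit 96) (nat_lit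 5) (nat_lit 354) (nat_lit 343) (nat_lit 191)) (XT.nd (nat_lit 94) (nat_lit 0) (nat_lit 0) (XT.lf (nat_lit 84) (nat_lit 5587685395) (nat_lit 0) (nat_lit 13456250329) (nat_lit 1008) (nat_lit 2353330756) (nat_lit 85) (nat_lit 5) (nat_lit 84) (nat_lit 5) (nat_lit 96) (nat_lit 5) (nat_lit 355) (nat_lit 343) (nat_lit 190)) (XT.lf (nat_lit 84) (nat_lit 12884019510) (nat_lit 0) (nat_lit 7172914526) (nat_lit 1008) (nat_lit 1710595096) (nat_lit 85) (nat_lit 5) (nat_lit 84) (nat_lit 5) (nat_lit 96) (nat_lit 5) (nat_lit 356) (nat_lit 343) (nat_lit 189))))) (XT.nd (nat_lit 282) (nat_lit 0) (nat_lit 0) (XT.nd (nat_lit 94) (nat_lit 924) (nat_lit 0) (XT.lf (nat_lit 84) (nat_lit 20403232939) (nat_lit 0) (nat_lit 693478907) (nat_lit 1008) (nat_lit 1052734859) (nat_lit 85) (nat_lit 5) (nat_lit 84) (nat_lit 5) (nat_lit 96) (nat_lit 5) (nat_lit 357) (nat_lit 343) (nat_lit 188)) (XT.nd (nat_lit 94) (nat_lit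 1008) (nat_lit 0) (XT.lf (nat_lit 84) (nat_lit 5663666799) (nat_lit 0) (nat_lit 16616158468) (nat_lit 1008) (nat_lit 259966724) (nat_lit 86) (nat_lit 5) (nat_lit 85) (nat_lit 5) (nat_lit 97) (nat_lit 5) (nat_lit 358) (nat_lit 343) (nat_lit 187)) (XT.lf (nat_lit 0) (nat_lit 567207127) (nat_lit 1008) (nat_lit 9617688141) (nat_lit 1092) (nat_lit 12756548975) (nat_lit 73) (nat_lit 5) (nat_lit 85) (nat_lit 5) (nat_lit 86) (nat_lit 5) (nat_lit 359) (nat_lit 343) (nat_lit 186)))) (XT.nd (nat_lit 188) (nat_lit 0) (nat_lit 84) (XT.nd (nat_lit 94) (nat_lit 0) (nat_lit 84) (XT.lf (nat_lit 0) (nat_lit 1410310783) (nat_lit 1008) (nat_lit 2140273117) (nat_lit 1092) (nat_lit 19805044682) (nat_lit 73) (nat_lit 5) (nat_lit 85) (nat_lit 5) (nat_lit 86) (nat_lit 5) (nat_lit 360) (nat_lit 343) (nat_lit 185)) (XT.lf (nat_lit 0) (nat_lit 2364931740) (nat_lit 1008) (nat_lit 18134170668) (nat_lit 84) (nat_lit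 3280932131) (nat_lit 74) (nat_lit 5) (nat_lit 86) (nat_lit 5) (nat_lit 75) (nat_lit 5) (nat_lit 361) (nat_lit 343) (nat_lit 184))) (XT.nd (nat_lit 94) (nat_lit 0) (nat_lit 0) (XT.lf (nat_lit 0) (nat_lit 3403947865) (nat_lit 1008) (nat_lit 10538106530) (nat_lit 84) (nat_lit 10273871678) (nat_lit 74) (nat_lit 5) (nat_lit 86) (nat_lit 5) (nat_lit 75) (nat_lit 5) (nat_lit 362) (nat_lit 343) (nat_lit 183)) (XT.lf (nat_lit 0) (nat_lit 4471215439) (nat_lit 1008) (nat_lit 2709865235) (nat_lit 84) (nat_lit 17484399284) (nat_lit 74) (nat_lit 5) (nat_lit 86) (nat_lit 5) (nat_lit 75) (nat_lit 5) (nat_lit 363) (nat_lit 343) (nat_lit 182)))))) (XT.nd (nat_lit 564) (nat_lit 1176) (nat_lit 0) (XT.nd (nat_lit 282) (nat_lit 504) (nat_lit 0) (XT.nd (nat_lit 94) (nat_lit 0) (nat_lit 0) (XT.lf (nat_lit 0) (nat_lit 5468018341) (nat_lit 672) (nat_lit 153954346) (nat_lit 756) (nat_lit 19505460995) (nat_lit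 66) (nat_lit 5) (nat_lit 74) (nat_lit 5) (nat_lit 75) (nat_lit 5) (nat_lit 364) (nat_lit 343) (nat_lit 181)) (XT.nd (nat_lit 94) (nat_lit 0) (nat_lit 0) (XT.lf (nat_lit 0) (nat_lit 6903572628) (nat_lit 756) (nat_lit 11719916917) (nat_lit 84) (nat_lit 6977293594) (nat_lit 66) (nat_lit 5) (nat_lit 75) (nat_lit 5) (nat_lit 67) (nat_lit 5) (nat_lit 365) (nat_lit 343) (nat_lit 180)) (XT.lf (nat_lit 0) (nat_lit 8222840255) (nat_lit 756) (nat_lit 3539085704) (nat_lit 84) (nat_lit 14326969039) (nat_lit 66) (nat_lit 5) (nat_lit 75) (nat_lit 5) (nat_lit 67) (nat_lit 5) (nat_lit 366) (nat_lit 343) (nat_lit 179)))) (XT.nd (nat_lit 94) (nat_lit 0) (nat_lit 0) (XT.lf (nat_lit 0) (nat_lit 4992825233) (nat_lit 504) (nat_lit 4636182227) (nat_lit 588) (nat_lit 16961728704) (nat_lit 60) (nat_lit 5) (nat_lit 66) (nat_lit 5) (nat_lit 67) (nat_lit 5) (nat_lit 367) (nat_lit 343) (nat_lit 178)) (XT.nd (nat_lit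 94) (nat_lit 0) (nat_lit 0) (XT.lf (nat_lit 0) (nat_lit 11139524411) (nat_lit 588) (nat_lit 13273225534) (nat_lit 84) (nat_lit 2693524137) (nat_lit 60) (nat_lit 5) (nat_lit 67) (nat_lit 5) (nat_lit 61) (nat_lit 5) (nat_lit 368) (nat_lit 343) (nat_lit 177)) (XT.lf (nat_lit 0) (nat_lit 12740940157) (nat_lit 588) (nat_lit 4741017778) (nat_lit 84) (nat_lit 10154491977) (nat_lit 60) (nat_lit 5) (nat_lit 67) (nat_lit 5) (nat_lit 61) (nat_lit 5) (nat_lit 369) (nat_lit 343) (nat_lit 176))))) (XT.nd (nat_lit 282) (nat_lit 756) (nat_lit 0) (XT.nd (nat_lit 94) (nat_lit 0) (nat_lit 0) (XT.lf (nat_lit 0) (nat_lit 4135987680) (nat_lit 420) (nat_lit 10293797712) (nat_lit 504) (nat_lit 13752126264) (nat_lit 55) (nat_lit 5) (nat_lit 60) (nat_lit 5) (nat_lit 61) (nat_lit 5) (nat_lit 370) (nat_lit 343) (nat_lit 175)) (XT.nd (nat_lit 94) (nat_lit 0) (nat_lit 0) (XT.lf (nat_lit 0) (nat_lit 13385686418)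 (nat_lit 420) (nat_lit 2831608774) (nat_lit 504) (nat_lit 12525573061) (nat_lit 55) (nat_lit 5) (nat_lit 60) (nat_lit 5) (nat_lit 61) (nat_lit 5) (nat_lit 371) (nat_lit 343) (nat_lit 174)) (XT.lf (nat_lit 0) (nat_lit 18105369571) (nat_lit 504) (nat_lit 6450347874) (nat_lit 84) (nat_lit 4764117880) (nat_lit 55) (nat_lit 5) (nat_lit 61) (nat_lit 5) (nat_lit 56) (nat_lit 5) (nat_lit 372) (nat_lit 343) (nat_lit 173)))) (XT.nd (nat_lit 188) (nat_lit 336) (nat_lit 0) (XT.nd (nat_lit 94) (nat_lit 0) (nat_lit 0) (XT.lf (nat_lit 0) (nat_lit 2756231777) (nat_lit 420) (nat_lit 17349058958) (nat_lit 504) (nat_lit 9807764737) (nat_lit 50) (nat_lit 5) (nat_lit 55) (nat_lit 5) (nat_lit 56) (nat_lit 5) (nat_lit 373) (nat_lit 343) (nat_lit 172)) (XT.lf (nat_lit 0) (nat_lit 12382051726) (nat_lit 420) (nat_lit 9849560704) (nat_lit 504) (nat_lit 8291075830) (nat_lit 50) (nat_lit 5) (nat_lit 55) (nat_lit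 5) (nat_lit 56) (nat_lit 5) (nat_lit 374) (nat_lit 343) (nat_lit 171))) (XT.nd (nat_lit 94) (nat_lit 336) (nat_lit 0) (XT.lf (nat_lit 0) (nat_lit 22303451865) (nat_lit 420) (nat_lit 2117560767) (nat_lit 504) (nat_lit 6730313723) (nat_lit 50) (nat_lit 5) (nat_lit 55) (nat_lit 5) (nat_lit 56) (nat_lit 5) (nat_lit 375) (nat_lit 343) (nat_lit 170)) (XT.lf (nat_lit 0) (nat_lit 685869126) (nat_lit 336) (nat_lit 26054540744) (nat_lit 420) (nat_lit 5057134631) (nat_lit 46) (nat_lit 5) (nat_lit 50) (nat_lit 5) (nat_lit 51) (nat_lit 5) (nat_lit 376) (nat_lit 343) (nat_lit 169))))))))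
noncomputable def xc186 : XT := (XT.nd (nat_lit 2350) (nat_lit 1008) (nat_lit 0) (XT.nd (nat_lit 1128) (nat_lit 840) (nat_lit 0) (XT.nd (nat_lit 564) (nat_lit 672) (nat_lit 0) (XT.nd (nat_lit 282) (nat_lit 420) (nat_lit 0) (XT.nd (nat_lit 94) (nat_lit 84) (nat_lit 0) (XT.lf (nat_lit 0) (nat_lit 10677815759) (nat_lit 336) (nat_lit 18564987611) (nat_lit 420) (nat_lit 3217565715) (nat_lit 46) (nat_lit 5) (nat_lit 50) (nat_lit 5) (nat_lit 51) (nat_lit 5) (nat_lit 377) (nat_lit 343) (nat_lit 168)) (XT.nd (nat_lit 94) (nat_lit 84) (nat_lit 0) (XT.lf (nat_lit 0) (nat_lit 20976786903) (nat_lit 336) (nat_lit 10843368146) (nat_lit 420) (nat_lit 1323684368) (nat_lit 46) (nat_lit 5) (nat_lit 50) (nat_lit 5) (nat_lit 51) (nat_lit 5) (nat_lit 378) (nat_lit 343) (nat_lit 167)) (XT.lf (nat_lit 0) (nat_lit 613656665) (nat_lit 420) (nat_lit 2262423008) (nat_lit 84) (nat_lit 30972320296) (nat_lit 45)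 (nat_lit 5) (nat_lit 50) (nat_lit 5) (nat_lit 46) (nat_lit 5) (nat_lit 379) (nat_lit 343) (nat_lit 166)))) (XT.nd (nat_lit 94) (nat_lit 0) (nat_lit 0) (XT.lf (nat_lit 0) (nat_lit 2715286725) (nat_lit 504) (nat_lit 26529698944) (nat_lit 84) (nat_lit 5325328586) (nat_lit 40) (nat_lit 5) (nat_lit 46) (nat_lit 5) (nat_lit 41) (nat_lit 5) (nat_lit 380) (nat_lit 343) (nat_lit 165)) (XT.nd (nat_lit 94) (nat_lit 0) (nat_lit 0) (XT.lf (nat_lit 0) (nat_lit 4932885317) (nat_lit 504) (nat_lit 16635217298) (nat_lit 84) (nat_lit 13744945036) (nat_lit 40) (nat_lit 5) (nat_lit 46) (nat_lit 5) (nat_lit 41) (nat_lit 5) (nat_lit 381) (nat_lit 343) (nat_lit 164)) (XT.lf (nat_lit 0) (nat_lit 7216849144) (nat_lit 504) (nat_lit 6436620129) (nat_lit 84) (nat_lit 22425424969) (nat_lit 40) (nat_lit 5) (nat_lit 46) (nat_lit 5) (nat_lit 41) (nat_lit 5) (nat_lit 382) (nat_lit 343) (nat_lit 163))))) (XT.nd (nat_lit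 282) (nat_lit 336) (nat_lit 0) (XT.nd (nat_lit 94) (nat_lit 0) (nat_lit 0) (XT.lf (nat_lit 0) (nat_lit 4159401392) (nat_lit 336) (nat_lit 5451167483) (nat_lit 420) (nat_lit 27256719887) (nat_lit 36) (nat_lit 5) (nat_lit 40) (nat_lit 5) (nat_lit 41) (nat_lit 5) (nat_lit 383) (nat_lit 343) (nat_lit 162)) (XT.nd (nat_lit 94) (nat_lit 0) (nat_lit 0) (XT.lf (nat_lit 0) (nat_lit 12173913522) (nat_lit 420) (nat_lit 22490780099) (nat_lit 84) (nat_lit 3012485686) (nat_lit 36) (nat_lit 5) (nat_lit 41) (nat_lit 5) (nat_lit 37) (nat_lit 5) (nat_lit 384) (nat_lit 343) (nat_lit 161)) (XT.lf (nat_lit 0) (nat_lit 14870275973) (nat_lit 420) (nat_lit 12015207950) (nat_lit 84) (nat_lit 11625045742) (nat_lit 36) (nat_lit 5) (nat_lit 41) (nat_lit 5) (nat_lit 37) (nat_lit 5) (nat_lit 385) (nat_lit 343) (nat_lit 160)))) (XT.nd (nat_lit 94) (nat_lit 336) (nat_lit 0) (XT.lf (nat_lit 0) (nat_lit 17648093266)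 (nat_lit 420) (nat_lit 1217330340) (nat_lit 84) (nat_lit 20504369368) (nat_lit 36) (nat_lit 5) (nat_lit 41) (nat_lit 5) (nat_lit 37) (nat_lit 5) (nat_lit 386) (nat_lit 343) (nat_lit 159)) (XT.nd (nat_lit 94) (nat_lit 0) (nat_lit 0) (XT.lf (nat_lit 0) (nat_lit 10116747400) (nat_lit 336) (nat_lit 10493566603) (nat_lit 420) (nat_lit 19642345010) (nat_lit 32) (nat_lit 5) (nat_lit 36) (nat_lit 5) (nat_lit 37) (nat_lit 5) (nat_lit 387) (nat_lit 343) (nat_lit 158)) (XT.lf (nat_lit 0) (nat_lit 21825648257) (nat_lit 336) (nat_lit 1849392455) (nat_lit 420) (nat_lit 17487534410) (nat_lit 32) (nat_lit 5) (nat_lit 36) (nat_lit 5) (nat_lit 37) (nat_lit 5) (nat_lit 388) (nat_lit 343) (nat_lit 157)))))) (XT.nd (nat_lit 564) (nat_lit 336) (nat_lit 0) (XT.nd (nat_lit 282) (nat_lit 252) (nat_lit 0) (XT.nd (nat_lit 94) (nat_lit 252) (nat_lit 0) (XT.lf (nat_lit 0) (nat_lit 26902866039) (nat_lit 420)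 (nat_lit 8275576527) (nat_lit 84) (nat_lit 6920157058) (nat_lit 32) (nat_lit 5) (nat_lit 37) (nat_lit 5) (nat_lit 33) (nat_lit 5) (nat_lit 389) (nat_lit 343) (nat_lit 156)) (XT.nd (nat_lit 94) (nat_lit 0) (nat_lit 0) (XT.lf (nat_lit 0) (nat_lit 3171387911) (nat_lit 252) (nat_lit 27107829531) (nat_lit 336) (nat_lit 12782932567) (nat_lit 29) (nat_lit 5) (nat_lit 32) (nat_lit 5) (nat_lit 33) (nat_lit 5) (nat_lit 390) (nat_lit 343) (nat_lit 155)) (XT.lf (nat_lit 0) (nat_lit 15146399871) (nat_lit 252) (nat_lit 18698339117) (nat_lit 336) (nat_lit 10208223012) (nat_lit 29) (nat_lit 5) (nat_lit 32) (nat_lit 5) (nat_lit 33) (nat_lit 5) (nat_lit 391) (nat_lit 343) (nat_lit 154)))) (XT.nd (nat_lit 94) (nat_lit 252) (nat_lit 0) (XT.lf (nat_lit 0) (nat_lit 27490458490) (nat_lit 252) (nat_lit 10028512845) (nat_lit 336) (nat_lit 7555585069) (nat_lit 29) (nat_lit 5) (nat_lit 32) (nat_lit 5) (nat_lit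 33) (nat_lit 5) (nat_lit 392) (nat_lit 343) (nat_lit 153)) (XT.nd (nat_lit 94) (nat_lit 252) (nat_lit 0) (XT.lf (nat_lit 0) (nat_lit 40215069726) (nat_lit 252) (nat_lit 1090269528) (nat_lit 336) (nat_lit 4822546201) (nat_lit 29) (nat_lit 5) (nat_lit 32) (nat_lit 5) (nat_lit 33) (nat_lit 5) (nat_lit 393) (nat_lit 343) (nat_lit 152)) (XT.lf (nat_lit 0) (nat_lit 6161709751) (nat_lit 252) (nat_lit 39187385459) (nat_lit 336) (nat_lit 1860442336) (nat_lit 26) (nat_lit 5) (nat_lit 29) (nat_lit 5) (nat_lit 30) (nat_lit 5) (nat_lit 394) (nat_lit 343) (nat_lit 151))))) (XT.nd (nat_lit 282) (nat_lit 252) (nat_lit 0) (XT.nd (nat_lit 94) (nat_lit 0) (nat_lit 0) (XT.lf (nat_lit 0) (nat_lit 1241228529) (nat_lit 336) (nat_lit 29612668139) (nat_lit 84) (nat_lit 17468241303) (nat_lit 25) (nat_lit 5) (nat_lit 29) (nat_lit 5) (nat_lit 26) (nat_lit 5) (nat_lit 395) (nat_lit 343) (nat_lit 150)) (XT.nd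 (nat_lit 94) (nat_lit 0) (nat_lit 0) (XT.lf (nat_lit 0) (nat_lit 4398744994) (nat_lit 336) (nat_lit 17844115335) (nat_lit 84) (nat_lit 27225839567) (nat_lit 25) (nat_lit 5) (nat_lit 29) (nat_lit 5) (nat_lit 26) (nat_lit 5) (nat_lit 396) (nat_lit 343) (nat_lit 149)) (XT.lf (nat_lit 0) (nat_lit 7652533960) (nat_lit 336) (nat_lit 5712744040) (nat_lit 84) (nat_lit 37285586167) (nat_lit 25) (nat_lit 5) (nat_lit 29) (nat_lit 5) (nat_lit 26) (nat_lit 5) (nat_lit 397) (nat_lit 343) (nat_lit 148)))) (XT.nd (nat_lit 188) (nat_lit 0) (nat_lit 0) (XT.nd (nat_lit 94) (nat_lit 0) (nat_lit 0) (XT.lf (nat_lit 0) (nat_lit 6932426396) (nat_lit 252) (nat_lit 4141972431) (nat_lit 336) (nat_lit 40793201972) (nat_lit 22) (nat_lit 5) (nat_lit 25) (nat_lit 5) (nat_lit 26) (nat_lit 5) (nat_lit 398) (nat_lit 343) (nat_lit 147)) (XT.lf (nat_lit 0) (nat_lit 14714286425) (nat_lit 336) (nat_lit 33085335920) (nat_lit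 84) (nat_lit 5318972096) (nat_lit 22) (nat_lit 5) (nat_lit 26) (nat_lit 5) (nat_lit 23) (nat_lit 5) (nat_lit 399) (nat_lit 343) (nat_lit 146))) (XT.nd (nat_lit 94) (nat_lit 0) (nat_lit 0) (XT.lf (nat_lit 0) (nat_lit 18507881301) (nat_lit 336) (nat_lit 20912434324) (nat_lit 84) (nat_lit 14986794482) (nat_lit 22) (nat_lit 5) (nat_lit 26) (nat_lit 5) (nat_lit 23) (nat_lit 5) (nat_lit 400) (nat_lit 343) (nat_lit 145)) (XT.lf (nat_lit 0) (nat_lit 22417630603) (nat_lit 336) (nat_lit 8364034317) (nat_lit 84) (nat_lit 24953957662) (nat_lit 22) (nat_lit 5) (nat_lit 26) (nat_lit 5) (nat_lit 23) (nat_lit 5) (nat_lit 401) (nat_lit 343) (nat_lit 144))))))) (XT.nd (nat_lit 1222) (nat_lit 336) (nat_lit 0) (XT.nd (nat_lit 564) (nat_lit 252) (nat_lit 0) (XT.nd (nat_lit 282) (nat_lit 168) (nat_lit 0) (XT.nd (nat_lit 94) (nat_lit 0) (nat_lit 0) (XT.lf (nat_lit 0) (nat_lit 4665561183) (nat_lit 252)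 (nat_lit 21827900388) (nat_lit 336) (nat_lit 30610473837) (nat_lit 19) (nat_lit 5) (nat_lit 22) (nat_lit 5) (nat_lit 23) (nat_lit 5) (nat_lit 402) (nat_lit 343) (nat_lit 143)) (XT.nd (nat_lit 94) (nat_lit 0) (nat_lit 0) (XT.lf (nat_lit 0) (nat_lit 18274599992) (nat_lit 252) (nat_lit 12506967636) (nat_lit 336) (nat_lit 27730442143) (nat_lit 19) (nat_lit 5) (nat_lit 22) (nat_lit 5) (nat_lit 23) (nat_lit 5) (nat_lit 403) (nat_lit 343) (nat_lit 142)) (XT.lf (nat_lit 0) (nat_lit 32303785457) (nat_lit 252) (nat_lit 2897481945) (nat_lit 336) (nat_lit 24762515772) (nat_lit 19) (nat_lit 5) (nat_lit 22) (nat_lit 5) (nat_lit 23) (nat_lit 5) (nat_lit 404) (nat_lit 343) (nat_lit 141)))) (XT.nd (nat_lit 94) (nat_lit 168) (nat_lit 0) (XT.lf (nat_lit 0) (nat_lit 39826215760) (nat_lit 336) (nat_lit 14763949815) (nat_lit 84) (nat_lit 6868287653) (nat_lit 19) (nat_lit 5) (nat_lit 23) (nat_lit 5) (nat_lit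 20) (nat_lit 5) (nat_lit 405) (nat_lit 343) (nat_lit 140)) (XT.nd (nat_lit 94) (nat_lit 168) (nat_lit 0) (XT.lf (nat_lit 0) (nat_lit 44622909901) (nat_lit 336) (nat_lit 1499431869) (nat_lit 84) (nat_lit 16876243577) (nat_lit 19) (nat_lit 5) (nat_lit 23) (nat_lit 5) (nat_lit 20) (nat_lit 5) (nat_lit 406) (nat_lit 343) (nat_lit 139)) (XT.lf (nat_lit 0) (nat_lit 12424999469) (nat_lit 168) (nat_lit 37265335532) (nat_lit 252) (nat_lit 14892350160) (nat_lit 17) (nat_lit 5) (nat_lit 19) (nat_lit 5) (nat_lit 20) (nat_lit 5) (nat_lit 407) (nat_lit 343) (nat_lit 138))))) (XT.nd (nat_lit 282) (nat_lit 252) (nat_lit 0) (XT.nd (nat_lit 94) (nat_lit 0) (nat_lit 0) (XT.lf (nat_lit 0) (nat_lit 26811269063) (nat_lit 168) (nat_lit 28118028987) (nat_lit 252) (nat_lit 11286152569) (nat_lit 17) (nat_lit 5) (nat_lit 19) (nat_lit 5) (nat_lit 20) (nat_lit 5) (nat_lit 408) (nat_lit 343) (nat_lit 137)) (XT.nd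 (nat_lit 94) (nat_lit 0) (nat_lit 0) (XT.lf (nat_lit 0) (nat_lit 41641955027) (nat_lit 168) (nat_lit 18687546884) (nat_lit 252) (nat_lit 7569372314) (nat_lit 17) (nat_lit 5) (nat_lit 19) (nat_lit 5) (nat_lit 20) (nat_lit 5) (nat_lit 409) (nat_lit 343) (nat_lit 136)) (XT.lf (nat_lit 0) (nat_lit 56930881115) (nat_lit 168) (nat_lit 8965099024) (nat_lit 252) (nat_lit 3738544968) (nat_lit 17) (nat_lit 5) (nat_lit 19) (nat_lit 5) (nat_lit 20) (nat_lit 5) (nat_lit 410) (nat_lit 343) (nat_lit 135)))) (XT.nd (nat_lit 188) (nat_lit 0) (nat_lit 0) (XT.nd (nat_lit 94) (nat_lit 0) (nat_lit 0) (XT.lf (nat_lit 0) (nat_lit 229141903) (nat_lit 252) (nat_lit 70141980303) (nat_lit 84) (nat_lit 1052106723) (nat_lit 14) (nat_lit 5) (nat_lit 17) (nat_lit 5) (nat_lit 15) (nat_lit 5) (nat_lit 411) (nat_lit 343) (nat_lit 134)) (XT.lf (nat_lit 0) (nat_lit 4466716893) (nat_lit 252) (nat_lit 57427087951) (nat_lit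 84) (nat_lit 11365436923) (nat_lit 14) (nat_lit 5) (nat_lit 17) (nat_lit 5) (nat_lit 15) (nat_lit 5) (nat_lit 412) (nat_lit 343) (nat_lit 133))) (XT.nd (nat_lit 94) (nat_lit 0) (nat_lit 0) (XT.lf (nat_lit 0) (nat_lit 8834589927) (nat_lit 252) (nat_lit 44319503279) (nat_lit 84) (nat_lit 21998116223) (nat_lit 14) (nat_lit 5) (nat_lit 17) (nat_lit 5) (nat_lit 15) (nat_lit 5) (nat_lit 413) (nat_lit 343) (nat_lit 132)) (XT.lf (nat_lit 0) (nat_lit 13336832320) (nat_lit 252) (nat_lit 30807008648) (nat_lit 84) (nat_lit 32960055392) (nat_lit 14) (nat_lit 5) (nat_lit 17) (nat_lit 5) (nat_lit 15) (nat_lit 5) (nat_lit 414) (nat_lit 343) (nat_lit 131)))))) (XT.nd (nat_lit 564) (nat_lit 168) (nat_lit 0) (XT.nd (nat_lit 282) (nat_lit 0) (nat_lit 0) (XT.nd (nat_lit 94) (nat_lit 168) (nat_lit 0) (XT.lf (nat_lit 0) (nat_lit 17977640635) (nat_lit 252) (nat_lit 16877008994) (nat_lit 84) (nat_lit 44261472108)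 (nat_lit 14) (nat_lit 5) (nat_lit 17) (nat_lit 5) (nat_lit 15) (nat_lit 5) (nat_lit 415) (nat_lit 343) (nat_lit 130)) (XT.nd (nat_lit 94) (nat_lit 168) (nat_lit 0) (XT.lf (nat_lit 0) (nat_lit 22761340590) (nat_lit 252) (nat_lit 2516520101) (nat_lit 84) (nat_lit 55912900473) (nat_lit 14) (nat_lit 5) (nat_lit 17) (nat_lit 5) (nat_lit 15) (nat_lit 5) (nat_lit 416) (nat_lit 343) (nat_lit 129)) (XT.lf (nat_lit 0) (nat_lit 12540506776) (nat_lit 168) (nat_lit 15276287698) (nat_lit 252) (nat_lit 55509097444) (nat_lit 12) (nat_lit 5) (nat_lit 14) (nat_lit 5) (nat_lit 15) (nat_lit 5) (nat_lit 417) (nat_lit 343) (nat_lit 128)))) (XT.nd (nat_lit 94) (nat_lit 0) (nat_lit 0) (XT.lf (nat_lit 0) (nat_lit 28116363121) (nat_lit 168) (nat_lit 4937943087) (nat_lit 252) (nat_lit 52472124614) (nat_lit 12) (nat_lit 5) (nat_lit 14) (nat_lit 5) (nat_lit 15) (nat_lit 5) (nat_lit 418) (nat_lit 343) (nat_lit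 127)) (XT.nd (nat_lit 94) (nat_lit 0) (nat_lit 0) (XT.lf (nat_lit 0) (nat_lit 38510028683) (nat_lit 252) (nat_lit 43678144850) (nat_lit 84) (nat_lit 5605286074) (nat_lit 12) (nat_lit 5) (nat_lit 15) (nat_lit 5) (nat_lit 13) (nat_lit 5) (nat_lit 419) (nat_lit 343) (nat_lit 126)) (XT.lf (nat_lit 0) (nat_lit 44184505216) (nat_lit 252) (nat_lit 29572275013) (nat_lit 84) (nat_lit 16372451956) (nat_lit 12) (nat_lit 5) (nat_lit 15) (nat_lit 5) (nat_lit 13) (nat_lit 5) (nat_lit 420) (nat_lit 343) (nat_lit 125))))) (XT.nd (nat_lit 282) (nat_lit 0) (nat_lit 0) (XT.nd (nat_lit 94) (nat_lit 168) (nat_lit 0) (XT.lf (nat_lit 0) (nat_lit 50034040009) (nat_lit 252) (nat_lit 15030325034) (nat_lit 84) (nat_lit 27473079231) (nat_lit 12) (nat_lit 5) (nat_lit 15) (nat_lit 5) (nat_lit 13) (nat_lit 5) (nat_lit 421) (nat_lit 343) (nat_lit 124)) (XT.nd (nat_lit 94) (nat_lit 168) (nat_lit 0) (XT.lf (nat_lit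 0) (nat_lit 56064085439) (nat_lit 252) (nat_lit 38740293) (nat_lit 84) (nat_lit 38917514848) (nat_lit 12) (nat_lit 5) (nat_lit 15) (nat_lit 5) (nat_lit 13) (nat_lit 5) (nat_lit 422) (nat_lit 343) (nat_lit 123)) (XT.lf (nat_lit 0) (nat_lit 15733446827) (nat_lit 168) (nat_lit 46702893055) (nat_lit 252) (nat_lit 35139057133) (nat_lit 10) (nat_lit 5) (nat_lit 12) (nat_lit 5) (nat_lit 13) (nat_lit 5) (nat_lit 423) (nat_lit 343) (nat_lit 122)))) (XT.nd (nat_lit 188) (nat_lit 0) (nat_lit 0) (XT.nd (nat_lit 94) (nat_lit 0) (nat_lit 0) (XT.lf (nat_lit 0) (nat_lit 31994273832) (nat_lit 168) (nat_lit 37011477570) (nat_lit 252) (nat_lit 31203924492) (nat_lit 10) (nat_lit 5) (nat_lit 12) (nat_lit 5) (nat_lit 13) (nat_lit 5) (nat_lit 424) (nat_lit 343) (nat_lit 121)) (XT.lf (nat_lit 0) (nat_lit 48758100935) (nat_lit 168) (nat_lit 27019950233) (nat_lit 252) (nat_lit 27147593633) (nat_lit 10) (nat_lit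 5) (nat_lit 12) (nat_lit 5) (nat_lit 13) (nat_lit 5) (nat_lit 425) (nat_lit 343) (nat_lit 120))) (XT.nd (nat_lit 48034) (nat_lit 0) (nat_lit 5964) (XT.lf (nat_lit 0) (nat_lit 66040553779) (nat_lit 168) (nat_lit 16718997893) (nat_lit 252) (nat_lit 22966283630) (nat_lit 10) (nat_lit 5) (nat_lit 12) (nat_lit 5) (nat_lit 13) (nat_lit 5) (nat_lit 426) (nat_lit 343) (nat_lit 119)) (XT.lf (nat_lit 0) (nat_lit 3043145962) (nat_lit 0) (nat_lit 3043145962) (nat_lit 924) (nat_lit 3011018175) (nat_lit 81) (nat_lit 5) (nat_lit 81) (nat_lit 3) (nat_lit 92) (nat_lit 3) (nat_lit 344) (nat_lit 344) (nat_lit 200))))))))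
noncomputable def xc187 : XT := (XT.nd (nat_lit 2444) (nat_lit 2940) (nat_lit 0) (XT.nd (nat_lit 1222) (nat_lit 1764) (nat_lit 0) (XT.nd (nat_lit 564) (nat_lit 0) (nat_lit 84) (XT.nd (nat_lit 282) (nat_lit 0) (nat_lit 0) (XT.nd (nat_lit 94) (nat_lit 0) (nat_lit 0) (XT.lf (nat_lit 0) (nat_lit 12180261848) (nat_lit 0) (nat_lit 335364483) (nat_lit 924) (nat_lit 5955098565) (nat_lit 81) (nat_lit 5) (nat_lit 81) (nat_lit 3) (nat_lit 92) (nat_lit 3) (nat_lit 345) (nat_lit 344) (nat_lit 199)) (XT.nd (nat_lit 94) (nat_lit 0) (nat_lit 0) (XT.lf (nat_lit 0) (nat_lit 12918605267) (nat_lit 924) (nat_lit 351114839) (nat_lit 1008) (nat_lit 5484185761) (nat_lit 81) (nat_lit 5) (nat_lit 92) (nat_lit 3) (nat_lit 93) (nat_lit 5) (nat_lit 346) (nat_lit 344) (nat_lit 198)) (XT.lf (nat_lit 84) (nat_lit 5884199042) (nat_lit 0) (nat_lit 7505676117) (nat_lit 1008) (nat_lit 5654304560) (nat_lit 82) (nat_lit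 5) (nat_lit 81) (nat_lit 5) (nat_lit 93) (nat_lit 5) (nat_lit 347) (nat_lit 344) (nat_lit 197)))) (XT.nd (nat_lit 94) (nat_lit 0) (nat_lit 84) (XT.lf (nat_lit 84) (nat_lit 12317006657) (nat_lit 0) (nat_lit 1556557641) (nat_lit 1008) (nat_lit 5469998361) (nat_lit 82) (nat_lit 5) (nat_lit 81) (nat_lit 5) (nat_lit 93) (nat_lit 5) (nat_lit 348) (nat_lit 344) (nat_lit 196)) (XT.nd (nat_lit 94) (nat_lit 0) (nat_lit 0) (XT.lf (nat_lit 0) (nat_lit 14411998172) (nat_lit 924) (nat_lit 751788888) (nat_lit 1008) (nat_lit 4487248570) (nat_lit 82) (nat_lit 5) (nat_lit 93) (nat_lit 5) (nat_lit 94) (nat_lit 5) (nat_lit 349) (nat_lit 344) (nat_lit 195)) (XT.lf (nat_lit 84) (nat_lit 5815457014) (nat_lit 0) (nat_lit 9219792586) (nat_lit 1008) (nat_lit 4930718929) (nat_lit 83) (nat_lit 5) (nat_lit 82) (nat_lit 5) (nat_lit 94) (nat_lit 5) (nat_lit 350) (nat_lit 344) (nat_lit 194))))) (XT.nd (nat_lit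 282) (nat_lit 0) (nat_lit 84) (XT.nd (nat_lit 94) (nat_lit 0) (nat_lit 84) (XT.lf (nat_lit 84) (nat_lit 12598970786) (nat_lit 0) (nat_lit 3081346905) (nat_lit 1008) (nat_lit 4610308253) (nat_lit 83) (nat_lit 5) (nat_lit 82) (nat_lit 5) (nat_lit 94) (nat_lit 5) (nat_lit 351) (nat_lit 344) (nat_lit 193)) (XT.nd (nat_lit 94) (nat_lit 0) (nat_lit 0) (XT.lf (nat_lit 0) (nat_lit 16372427223) (nat_lit 924) (nat_lit 1068164081) (nat_lit 1008) (nat_lit 3183955858) (nat_lit 83) (nat_lit 5) (nat_lit 94) (nat_lit 5) (nat_lit 95) (nat_lit 5) (nat_lit 352) (nat_lit 344) (nat_lit 192)) (XT.lf (nat_lit 84) (nat_lit 5843602028) (nat_lit 0) (nat_lit 11326859576) (nat_lit 1008) (nat_lit 3795776439) (nat_lit 84) (nat_lit 5) (nat_lit 83) (nat_lit 5) (nat_lit 95) (nat_lit 5) (nat_lit 353) (nat_lit 344) (nat_lit 191)))) (XT.nd (nat_lit 188) (nat_lit 0) (nat_lit 84) (XT.nd (nat_lit 94) (nat_lit 0) (nat_lit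 84) (XT.lf (nat_lit 84) (nat_lit 12989036728) (nat_lit 0) (nat_lit 5010451669) (nat_lit 1008) (nat_lit 3318874649) (nat_lit 84) (nat_lit 5) (nat_lit 83) (nat_lit 5) (nat_lit 95) (nat_lit 5) (nat_lit 354) (nat_lit 344) (nat_lit 190)) (XT.lf (nat_lit 0) (nat_lit 18864379761) (nat_lit 924) (nat_lit 1343662580) (nat_lit 1008) (nat_lit 1473080963) (nat_lit 84) (nat_lit 5) (nat_lit 95) (nat_lit 5) (nat_lit 96) (nat_lit 5) (nat_lit 355) (nat_lit 344) (nat_lit 189))) (XT.nd (nat_lit 94) (nat_lit 0) (nat_lit 0) (XT.lf (nat_lit 84) (nat_lit 5923414792) (nat_lit 0) (nat_lit 13938083464) (nat_lit 1008) (nat_lit 2190396445) (nat_lit 85) (nat_lit 5) (nat_lit 84) (nat_lit 5) (nat_lit 96) (nat_lit 5) (nat_lit 356) (nat_lit 344) (nat_lit 188)) (XT.lf (nat_lit 84) (nat_lit 13441048897) (nat_lit 0) (nat_lit 7458019178) (nat_lit 1008) (nat_lit 1534828623) (nat_lit 85) (nat_lit 5) (nat_lit 84) (nat_lit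 5) (nat_lit 96) (nat_lit 5) (nat_lit 357) (nat_lit 344) (nat_lit 187)))))) (XT.nd (nat_lit 564) (nat_lit 1092) (nat_lit 0) (XT.nd (nat_lit 282) (nat_lit 0) (nat_lit 0) (XT.nd (nat_lit 94) (nat_lit 924) (nat_lit 0) (XT.lf (nat_lit 84) (nat_lit 21188618496) (nat_lit 0) (nat_lit 775834466) (nat_lit 1008) (nat_lit 863454100) (nat_lit 85) (nat_lit 5) (nat_lit 84) (nat_lit 5) (nat_lit 96) (nat_lit 5) (nat_lit 358) (nat_lit 344) (nat_lit 186)) (XT.nd (nat_lit 94) (nat_lit 1008) (nat_lit 0) (XT.lf (nat_lit 84) (nat_lit 5999265335) (nat_lit 0) (nat_lit 17179552663) (nat_lit 1008) (nat_lit 51749725) (nat_lit 86) (nat_lit 5) (nat_lit 85) (nat_lit 5) (nat_lit 97) (nat_lit 5) (nat_lit 359) (nat_lit 344) (nat_lit 185)) (XT.lf (nat_lit 0) (nat_lit 790337095) (nat_lit 1008) (nat_lit 9754985648) (nat_lit 1092) (nat_lit 13099523216) (nat_lit 73) (nat_lit 5) (nat_lit 85) (nat_lit 5) (nat_lit 86) (nat_lit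 5) (nat_lit 360) (nat_lit 344) (nat_lit 184)))) (XT.nd (nat_lit 94) (nat_lit 0) (nat_lit 84) (XT.lf (nat_lit 0) (nat_lit 1653396612) (nat_lit 1008) (nat_lit 2050607205) (nat_lit 1092) (nat_lit 20368100217) (nat_lit 73) (nat_lit 5) (nat_lit 85) (nat_lit 5) (nat_lit 86) (nat_lit 5) (nat_lit 361) (nat_lit 344) (nat_lit 183)) (XT.nd (nat_lit 94) (nat_lit 0) (nat_lit 0) (XT.lf (nat_lit 0) (nat_lit 2632746854) (nat_lit 1008) (nat_lit 18534124085) (nat_lit 84) (nat_lit 3342987572) (nat_lit 74) (nat_lit 5) (nat_lit 86) (nat_lit 5) (nat_lit 75) (nat_lit 5) (nat_lit 362) (nat_lit 344) (nat_lit 182)) (XT.lf (nat_lit 0) (nat_lit 3698124206) (nat_lit 1008) (nat_lit 10707459148) (nat_lit 84) (nat_lit 10553900541) (nat_lit 74) (nat_lit 5) (nat_lit 86) (nat_lit 5) (nat_lit 75) (nat_lit 5) (nat_lit 363) (nat_lit 344) (nat_lit 181))))) (XT.nd (nat_lit 282) (nat_lit 504) (nat_lit 0) (XT.nd (nat_lit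 94) (nat_lit 672) (nat_lit 0) (XT.lf (nat_lit 0) (nat_lit 4792804648) (nat_lit 1008) (nat_lit 2641272915) (nat_lit 84) (nat_lit 17989110949) (nat_lit 74) (nat_lit 5) (nat_lit 86) (nat_lit 5) (nat_lit 75) (nat_lit 5) (nat_lit 364) (nat_lit 344) (nat_lit 180)) (XT.nd (nat_lit 94) (nat_lit 0) (nat_lit 0) (XT.lf (nat_lit 0) (nat_lit 5788580132) (nat_lit 672) (nat_lit 186651835) (nat_lit 756) (nat_lit 19924392491) (nat_lit 66) (nat_lit 5) (nat_lit 74) (nat_lit 5) (nat_lit 75) (nat_lit 5) (nat_lit 365) (nat_lit 344) (nat_lit 179)) (XT.lf (nat_lit 0) (nat_lit 7290911322) (nat_lit 756) (nat_lit 11929897862) (nat_lit 84) (nat_lit 7167050142) (nat_lit 66) (nat_lit 5) (nat_lit 75) (nat_lit 5) (nat_lit 67) (nat_lit 5) (nat_lit 366) (nat_lit 344) (nat_lit 178)))) (XT.nd (nat_lit 188) (nat_lit 0) (nat_lit 0) (XT.nd (nat_lit 94) (nat_lit 504) (nat_lit 0) (XT.lf (nat_lit 0) (nat_lit 8645864639)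 (nat_lit 756) (nat_lit 3500071388) (nat_lit 84) (nat_lit 14745363515) (nat_lit 66) (nat_lit 5) (nat_lit 75) (nat_lit 5) (nat_lit 67) (nat_lit 5) (nat_lit 367) (nat_lit 344) (nat_lit 177)) (XT.lf (nat_lit 0) (nat_lit 5294823072) (nat_lit 504) (nat_lit 4797205494) (nat_lit 588) (nat_lit 17316814910) (nat_lit 60) (nat_lit 5) (nat_lit 66) (nat_lit 5) (nat_lit 67) (nat_lit 5) (nat_lit 368) (nat_lit 344) (nat_lit 176))) (XT.nd (nat_lit 94) (nat_lit 0) (nat_lit 0) (XT.lf (nat_lit 0) (nat_lit 11644258243) (nat_lit 588) (nat_lit 13535716476) (nat_lit 84) (nat_lit 2760580098) (nat_lit 60) (nat_lit 5) (nat_lit 67) (nat_lit 5) (nat_lit 61) (nat_lit 5) (nat_lit 369) (nat_lit 344) (nat_lit 175)) (XT.lf (nat_lit 0) (nat_lit 13290524796) (nat_lit 588) (nat_lit 4743489766) (nat_lit 84) (nat_lit 10453332356) (nat_lit 60) (nat_lit 5) (nat_lit 67) (nat_lit 5) (nat_lit 61) (nat_lit 5) (nat_lit 370) (nat_lit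 344) (nat_lit 174))))))) (XT.nd (nat_lit 1222) (nat_lit 1260) (nat_lit 0) (XT.nd (nat_lit 564) (nat_lit 840) (nat_lit 0) (XT.nd (nat_lit 282) (nat_lit 420) (nat_lit 0) (XT.nd (nat_lit 94) (nat_lit 0) (nat_lit 0) (XT.lf (nat_lit 0) (nat_lit 4407239933) (nat_lit 420) (nat_lit 10621254279) (nat_lit 504) (nat_lit 14021355162) (nat_lit 55) (nat_lit 5) (nat_lit 60) (nat_lit 5) (nat_lit 61) (nat_lit 5) (nat_lit 371) (nat_lit 344) (nat_lit 173)) (XT.nd (nat_lit 94) (nat_lit 0) (nat_lit 0) (XT.lf (nat_lit 0) (nat_lit 13939378521) (nat_lit 420) (nat_lit 2927486453) (nat_lit 504) (nat_lit 12761502086) (nat_lit 55) (nat_lit 5) (nat_lit 60) (nat_lit 5) (nat_lit 61) (nat_lit 5) (nat_lit 372) (nat_lit 344) (nat_lit 172)) (XT.lf (nat_lit 0) (nat_lit 18808976764) (nat_lit 504) (nat_lit 6510302581) (nat_lit 84) (nat_lit 4904109459) (nat_lit 55) (nat_lit 5) (nat_lit 61) (nat_lit 5) (nat_lit 56) (nat_lit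 5) (nat_lit 373) (nat_lit 344) (nat_lit 171)))) (XT.nd (nat_lit 94) (nat_lit 0) (nat_lit 0) (XT.lf (nat_lit 0) (nat_lit 2980263603) (nat_lit 420) (nat_lit 17887726811) (nat_lit 504) (nat_lit 9967126949) (nat_lit 50) (nat_lit 5) (nat_lit 55) (nat_lit 5) (nat_lit 56) (nat_lit 5) (nat_lit 374) (nat_lit 344) (nat_lit 170)) (XT.nd (nat_lit 94) (nat_lit 0) (nat_lit 0) (XT.lf (nat_lit 0) (nat_lit 12900316903) (nat_lit 420) (nat_lit 10155718643) (nat_lit 504) (nat_lit 8407770863) (nat_lit 50) (nat_lit 5) (nat_lit 55) (nat_lit 5) (nat_lit 56) (nat_lit 5) (nat_lit 375) (nat_lit 344) (nat_lit 169)) (XT.lf (nat_lit 0) (nat_lit 23125238672) (nat_lit 420) (nat_lit 2184002006) (nat_lit 504) (nat_lit 6802844508) (nat_lit 50) (nat_lit 5) (nat_lit 55) (nat_lit 5) (nat_lit 56) (nat_lit 5) (nat_lit 376) (nat_lit 344) (nat_lit 168))))) (XT.nd (nat_lit 282) (nat_lit 504) (nat_lit 0) (XT.nd (nat_lit 94)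 (nat_lit 0) (nat_lit 0) (XT.lf (nat_lit 0) (nat_lit 841081067) (nat_lit 336) (nat_lit 26856835090) (nat_lit 420) (nat_lit 5080527285) (nat_lit 46) (nat_lit 5) (nat_lit 50) (nat_lit 5) (nat_lit 51) (nat_lit 5) (nat_lit 377) (nat_lit 344) (nat_lit 167)) (XT.nd (nat_lit 94) (nat_lit 0) (nat_lit 0) (XT.lf (nat_lit 0) (nat_lit 11138750451) (nat_lit 336) (nat_lit 19135268069) (nat_lit 420) (nat_lit 3187942144) (nat_lit 46) (nat_lit 5) (nat_lit 50) (nat_lit 5) (nat_lit 51) (nat_lit 5) (nat_lit 378) (nat_lit 344) (nat_lit 166)) (XT.lf (nat_lit 0) (nat_lit 21753083207) (nat_lit 336) (nat_lit 11174435781) (nat_lit 420) (nat_lit 1239240302) (nat_lit 46) (nat_lit 5) (nat_lit 50) (nat_lit 5) (nat_lit 51) (nat_lit 5) (nat_lit 379) (nat_lit 344) (nat_lit 165)))) (XT.nd (nat_lit 188) (nat_lit 0) (nat_lit 0) (XT.nd (nat_lit 94) (nat_lit 420) (nat_lit 0) (XT.lf (nat_lit 0) (nat_lit 751933343) (nat_lit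 420) (nat_lit 2207135911) (nat_lit 84) (nat_lit 31934191021) (nat_lit 45) (nat_lit 5) (nat_lit 50) (nat_lit 5) (nat_lit 46) (nat_lit 5) (nat_lit 380) (nat_lit 344) (nat_lit 164)) (XT.lf (nat_lit 0) (nat_lit 2916431798) (nat_lit 504) (nat_lit 27223694371) (nat_lit 84) (nat_lit 5497520828) (nat_lit 40) (nat_lit 5) (nat_lit 46) (nat_lit 5) (nat_lit 41) (nat_lit 5) (nat_lit 381) (nat_lit 344) (nat_lit 163))) (XT.nd (nat_lit 94) (nat_lit 0) (nat_lit 0) (XT.lf (nat_lit 0) (nat_lit 5199258869) (nat_lit 504) (nat_lit 17026345271) (nat_lit 84) (nat_lit 14177931693) (nat_lit 40) (nat_lit 5) (nat_lit 46) (nat_lit 5) (nat_lit 41) (nat_lit 5) (nat_lit 382) (nat_lit 344) (nat_lit 162)) (XT.lf (nat_lit 0) (nat_lit 7550614249) (nat_lit 504) (nat_lit 6515336960) (nat_lit 84) (nat_lit 23127299236) (nat_lit 40) (nat_lit 5) (nat_lit 46) (nat_lit 5) (nat_lit 41) (nat_lit 5) (nat_lit 383) (nat_lit 344)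 (nat_lit 161)))))) (XT.nd (nat_lit 564) (nat_lit 588) (nat_lit 0) (XT.nd (nat_lit 282) (nat_lit 336) (nat_lit 0) (XT.nd (nat_lit 94) (nat_lit 0) (nat_lit 0) (XT.lf (nat_lit 0) (nat_lit 4407938051) (nat_lit 336) (nat_lit 5608478885) (nat_lit 420) (nat_lit 27989754443) (nat_lit 36) (nat_lit 5) (nat_lit 40) (nat_lit 5) (nat_lit 41) (nat_lit 5) (nat_lit 384) (nat_lit 344) (nat_lit 160)) (XT.nd (nat_lit 94) (nat_lit 0) (nat_lit 0) (XT.lf (nat_lit 0) (nat_lit 12656092660) (nat_lit 420) (nat_lit 23068224412) (nat_lit 84) (nat_lit 3116968348) (nat_lit 36) (nat_lit 5) (nat_lit 41) (nat_lit 5) (nat_lit 37) (nat_lit 5) (nat_lit 385) (nat_lit 344) (nat_lit 159)) (XT.lf (nat_lit 0) (nat_lit 15432891598) (nat_lit 420) (nat_lit 12271510756) (nat_lit 84) (nat_lit 11996184144) (nat_lit 36) (nat_lit 5) (nat_lit 41) (nat_lit 5) (nat_lit 37) (nat_lit 5) (nat_lit 386) (nat_lit 344) (nat_lit 158)))) (XT.nd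 (nat_lit 94) (nat_lit 336) (nat_lit 0) (XT.lf (nat_lit 0) (nat_lit 18293765214) (nat_lit 420) (nat_lit 1142391885) (nat_lit 84) (nat_lit 21150443212) (nat_lit 36) (nat_lit 5) (nat_lit 41) (nat_lit 5) (nat_lit 37) (nat_lit 5) (nat_lit 387) (nat_lit 344) (nat_lit 157)) (XT.nd (nat_lit 94) (nat_lit 0) (nat_lit 0) (XT.lf (nat_lit 0) (nat_lit 10541901524) (nat_lit 336) (nat_lit 10804055585) (nat_lit 420) (nat_lit 20150953724) (nat_lit 32) (nat_lit 5) (nat_lit 36) (nat_lit 5) (nat_lit 37) (nat_lit 5) (nat_lit 388) (nat_lit 344) (nat_lit 156)) (XT.lf (nat_lit 0) (nat_lit 22610424687) (nat_lit 336) (nat_lit 1892357392) (nat_lit 420) (nat_lit 17932359926) (nat_lit 32) (nat_lit 5) (nat_lit 36) (nat_lit 5) (nat_lit 37) (nat_lit 5) (nat_lit 389) (nat_lit 344) (nat_lit 155))))) (XT.nd (nat_lit 282) (nat_lit 336) (nat_lit 0) (XT.nd (nat_lit 94) (nat_lit 252) (nat_lit 0) (XT.lf (nat_lit 0) (nat_lit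 27827987398) (nat_lit 420) (nat_lit 8423960558) (nat_lit 84) (nat_lit 7148335449) (nat_lit 32) (nat_lit 5) (nat_lit 37) (nat_lit 5) (nat_lit 33) (nat_lit 5) (nat_lit 390) (nat_lit 344) (nat_lit 154)) (XT.nd (nat_lit 94) (nat_lit 0) (nat_lit 0) (XT.lf (nat_lit 0) (nat_lit 3376764767) (nat_lit 252) (nat_lit 27930562851) (nat_lit 336) (nat_lit 13086444722) (nat_lit 29) (nat_lit 5) (nat_lit 32) (nat_lit 5) (nat_lit 33) (nat_lit 5) (nat_lit 391) (nat_lit 344) (nat_lit 153)) (XT.lf (nat_lit 0) (nat_lit 15719782913) (nat_lit 252) (nat_lit 19260907711) (nat_lit 336) (nat_lit 10434708232) (nat_lit 29) (nat_lit 5) (nat_lit 32) (nat_lit 5) (nat_lit 33) (nat_lit 5) (nat_lit 392) (nat_lit 344) (nat_lit 152)))) (XT.nd (nat_lit 188) (nat_lit 336) (nat_lit 0) (XT.nd (nat_lit 94) (nat_lit 0) (nat_lit 0) (XT.lf (nat_lit 0) (nat_lit 28443384960) (nat_lit 252) (nat_lit 10322830381) (nat_lit 336) (nat_lit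 7702543712) (nat_lit 29) (nat_lit 5) (nat_lit 32) (nat_lit 5) (nat_lit 33) (nat_lit 5) (nat_lit 393) (nat_lit 344) (nat_lit 151)) (XT.lf (nat_lit 0) (nat_lit 41559430638) (nat_lit 252) (nat_lit 1107999638) (nat_lit 336) (nat_lit 4887404498) (nat_lit 29) (nat_lit 5) (nat_lit 32) (nat_lit 5) (nat_lit 33) (nat_lit 5) (nat_lit 394) (nat_lit 344) (nat_lit 150))) (XT.nd (nat_lit 94) (nat_lit 84) (nat_lit 0) (XT.lf (nat_lit 0) (nat_lit 6452254262) (nat_lit 252) (nat_lit 40382976069) (nat_lit 336) (nat_lit 1834843008) (nat_lit 26) (nat_lit 5) (nat_lit 29) (nat_lit 5) (nat_lit 30) (nat_lit 5) (nat_lit 395) (nat_lit 344) (nat_lit 149)) (XT.lf (nat_lit 0) (nat_lit 1358848490) (nat_lit 336) (nat_lit 30432052411) (nat_lit 84) (nat_lit 18026327633) (nat_lit 25) (nat_lit 5) (nat_lit 29) (nat_lit 5) (nat_lit 26) (nat_lit 5) (nat_lit 396) (nat_lit 344) (nat_lit 148))))))))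
noncomputable def xc188 : XT := (XT.nd (nat_lit 2350) (nat_lit 168) (nat_lit 0) (XT.nd (nat_lit 1128) (nat_lit 420) (nat_lit 0) (XT.nd (nat_lit 564) (nat_lit 420) (nat_lit 0) (XT.nd (nat_lit 282) (nat_lit 0) (nat_lit 0) (XT.nd (nat_lit 94) (nat_lit 252) (nat_lit 0) (XT.lf (nat_lit 0) (nat_lit 4611868336) (nat_lit 336) (nat_lit 18301639418) (nat_lit 84) (nat_lit 28085913193) (nat_lit 25) (nat_lit 5) (nat_lit 29) (nat_lit 5) (nat_lit 26) (nat_lit 5) (nat_lit 397) (nat_lit 344) (nat_lit 147)) (XT.nd (nat_lit 94) (nat_lit 252) (nat_lit 0) (XT.lf (nat_lit 0) (nat_lit 7964216680) (nat_lit 336) (nat_lit 5797071412) (nat_lit 84) (nat_lit 38457028668) (nat_lit 25) (nat_lit 5) (nat_lit 29) (nat_lit 5) (nat_lit 26) (nat_lit 5) (nat_lit 398) (nat_lit 344) (nat_lit 146)) (XT.lf (nat_lit 0) (nat_lit 7239160118) (nat_lit 252) (nat_lit 4251671511) (nat_lit 336) (nat_lit 41981994270) (nat_lit 22)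 (nat_lit 5) (nat_lit 25) (nat_lit 5) (nat_lit 26) (nat_lit 5) (nat_lit 399) (nat_lit 344) (nat_lit 145)))) (XT.nd (nat_lit 94) (nat_lit 0) (nat_lit 0) (XT.lf (nat_lit 0) (nat_lit 15241536933) (nat_lit 336) (nat_lit 34019503640) (nat_lit 84) (nat_lit 5501634490) (nat_lit 22) (nat_lit 5) (nat_lit 26) (nat_lit 5) (nat_lit 23) (nat_lit 5) (nat_lit 400) (nat_lit 344) (nat_lit 144)) (XT.nd (nat_lit 94) (nat_lit 0) (nat_lit 0) (XT.lf (nat_lit 0) (nat_lit 19150595193) (nat_lit 336) (nat_lit 21471992637) (nat_lit 84) (nat_lit 15468624935) (nat_lit 22) (nat_lit 5) (nat_lit 26) (nat_lit 5) (nat_lit 23) (nat_lit 5) (nat_lit 401) (nat_lit 344) (nat_lit 143)) (XT.lf (nat_lit 0) (nat_lit 23179472953) (nat_lit 336) (nat_lit 8537260069) (nat_lit 84) (nat_lit 25744251808) (nat_lit 22) (nat_lit 5) (nat_lit 26) (nat_lit 5) (nat_lit 23) (nat_lit 5) (nat_lit 402) (nat_lit 344) (nat_lit 142))))) (XT.nd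 (nat_lit 282) (nat_lit 168) (nat_lit 0) (XT.nd (nat_lit 94) (nat_lit 0) (nat_lit 0) (XT.lf (nat_lit 0) (nat_lit 4895381619) (nat_lit 252) (nat_lit 22485106722) (nat_lit 336) (nat_lit 31491274242) (nat_lit 19) (nat_lit 5) (nat_lit 22) (nat_lit 5) (nat_lit 23) (nat_lit 5) (nat_lit 403) (nat_lit 344) (nat_lit 141)) (XT.nd (nat_lit 94) (nat_lit 0) (nat_lit 0) (XT.lf (nat_lit 0) (nat_lit 18923739206) (nat_lit 252) (nat_lit 12875810134) (nat_lit 336) (nat_lit 28524009920) (nat_lit 19) (nat_lit 5) (nat_lit 22) (nat_lit 5) (nat_lit 23) (nat_lit 5) (nat_lit 404) (nat_lit 344) (nat_lit 140)) (XT.lf (nat_lit 0) (nat_lit 33385345012) (nat_lit 252) (nat_lit 2968997872) (nat_lit 336) (nat_lit 25466064596) (nat_lit 19) (nat_lit 5) (nat_lit 22) (nat_lit 5) (nat_lit 23) (nat_lit 5) (nat_lit 405) (nat_lit 344) (nat_lit 139)))) (XT.nd (nat_lit 94) (nat_lit 168) (nat_lit 0) (XT.lf (nat_lit 0) (nat_lit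 41120981495) (nat_lit 336) (nat_lit 15141890668) (nat_lit 84) (nat_lit 7098602424) (nat_lit 19) (nat_lit 5) (nat_lit 23) (nat_lit 5) (nat_lit 20) (nat_lit 5) (nat_lit 406) (nat_lit 344) (nat_lit 138)) (XT.nd (nat_lit 94) (nat_lit 168) (nat_lit 0) (XT.lf (nat_lit 0) (nat_lit 46064564479) (nat_lit 336) (nat_lit 1468570328) (nat_lit 84) (nat_lit 17416281866) (nat_lit 19) (nat_lit 5) (nat_lit 23) (nat_lit 5) (nat_lit 20) (nat_lit 5) (nat_lit 407) (nat_lit 344) (nat_lit 137)) (XT.lf (nat_lit 0) (nat_lit 12886735344) (nat_lit 168) (nat_lit 38401349614) (nat_lit 252) (nat_lit 15294578966) (nat_lit 17) (nat_lit 5) (nat_lit 19) (nat_lit 5) (nat_lit 20) (nat_lit 5) (nat_lit 408) (nat_lit 344) (nat_lit 136)))))) (XT.nd (nat_lit 564) (nat_lit 168) (nat_lit 0) (XT.nd (nat_lit 282) (nat_lit 252) (nat_lit 0) (XT.nd (nat_lit 94) (nat_lit 0) (nat_lit 0) (XT.lf (nat_lit 0) (nat_lit 27716677270) (nat_lit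 168) (nat_lit 28971054211) (nat_lit 252) (nat_lit 11578376307) (nat_lit 17) (nat_lit 5) (nat_lit 19) (nat_lit 5) (nat_lit 20) (nat_lit 5) (nat_lit 409) (nat_lit 344) (nat_lit 135)) (XT.nd (nat_lit 94) (nat_lit 0) (nat_lit 0) (XT.lf (nat_lit 0) (nat_lit 43004881691) (nat_lit 168) (nat_lit 19248787437) (nat_lit 252) (nat_lit 7748109188) (nat_lit 17) (nat_lit 5) (nat_lit 19) (nat_lit 5) (nat_lit 20) (nat_lit 5) (nat_lit 410) (nat_lit 344) (nat_lit 134)) (XT.lf (nat_lit 0) (nat_lit 58765598816) (nat_lit 168) (nat_lit 9225487123) (nat_lit 252) (nat_lit 3800207400) (nat_lit 17) (nat_lit 5) (nat_lit 19) (nat_lit 5) (nat_lit 20) (nat_lit 5) (nat_lit 411) (nat_lit 344) (nat_lit 133)))) (XT.nd (nat_lit 94) (nat_lit 0) (nat_lit 0) (XT.lf (nat_lit 0) (nat_lit 288667862) (nat_lit 252) (nat_lit 72244176784) (nat_lit 84) (nat_lit 1102616051) (nat_lit 14) (nat_lit 5) (nat_lit 17) (nat_lit 5) (nat_lit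 15) (nat_lit 5) (nat_lit 412) (nat_lit 344) (nat_lit 132)) (XT.nd (nat_lit 94) (nat_lit 0) (nat_lit 0) (XT.lf (nat_lit 0) (nat_lit 4656031440) (nat_lit 252) (nat_lit 59137293818) (nat_lit 84) (nat_lit 11735121452) (nat_lit 14) (nat_lit 5) (nat_lit 17) (nat_lit 5) (nat_lit 15) (nat_lit 5) (nat_lit 413) (nat_lit 344) (nat_lit 131)) (XT.lf (nat_lit 0) (nat_lit 9157779696) (nat_lit 252) (nat_lit 45625479793) (nat_lit 84) (nat_lit 22696891952) (nat_lit 14) (nat_lit 5) (nat_lit 17) (nat_lit 5) (nat_lit 15) (nat_lit 5) (nat_lit 414) (nat_lit 344) (nat_lit 130))))) (XT.nd (nat_lit 282) (nat_lit 168) (nat_lit 0) (XT.nd (nat_lit 94) (nat_lit 0) (nat_lit 0) (XT.lf (nat_lit 0) (nat_lit 13798108731) (nat_lit 252) (nat_lit 31696140282) (nat_lit 84) (nat_lit 33998145069) (nat_lit 14) (nat_lit 5) (nat_lit 17) (nat_lit 5) (nat_lit 15) (nat_lit 5) (nat_lit 415) (nat_lit 344) (nat_lit 129)) (XT.nd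 (nat_lit 94) (nat_lit 0) (nat_lit 0) (XT.lf (nat_lit 0) (nat_lit 18581343817) (nat_lit 252) (nat_lit 17336291682) (nat_lit 84) (nat_lit 45649414755) (nat_lit 14) (nat_lit 5) (nat_lit 17) (nat_lit 5) (nat_lit 15) (nat_lit 5) (nat_lit 416) (nat_lit 344) (nat_lit 128)) (XT.lf (nat_lit 0) (nat_lit 23511943431) (nat_lit 252) (nat_lit 2532549109) (nat_lit 84) (nat_lit 57661561215) (nat_lit 14) (nat_lit 5) (nat_lit 17) (nat_lit 5) (nat_lit 15) (nat_lit 5) (nat_lit 417) (nat_lit 344) (nat_lit 127)))) (XT.nd (nat_lit 188) (nat_lit 0) (nat_lit 0) (XT.nd (nat_lit 94) (nat_lit 0) (nat_lit 0) (XT.lf (nat_lit 0) (nat_lit 12990618077) (nat_lit 168) (nat_lit 15732753870) (nat_lit 252) (nat_lit 57184031488) (nat_lit 12) (nat_lit 5) (nat_lit 14) (nat_lit 5) (nat_lit 15) (nat_lit 5) (nat_lit 418) (nat_lit 344) (nat_lit 126)) (XT.lf (nat_lit 0) (nat_lit 29047481135) (nat_lit 168) (nat_lit 5074434699)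 (nat_lit 252) (nat_lit 54054291052) (nat_lit 12) (nat_lit 5) (nat_lit 14) (nat_lit 5) (nat_lit 15) (nat_lit 5) (nat_lit 419) (nat_lit 344) (nat_lit 125))) (XT.nd (nat_lit 94) (nat_lit 0) (nat_lit 0) (XT.lf (nat_lit 0) (nat_lit 39745634582) (nat_lit 252) (nat_lit 44973108633) (nat_lit 84) (nat_lit 5794811806) (nat_lit 12) (nat_lit 5) (nat_lit 15) (nat_lit 5) (nat_lit 13) (nat_lit 5) (nat_lit 420) (nat_lit 344) (nat_lit 124)) (XT.lf (nat_lit 0) (nat_lit 45594763200) (nat_lit 252) (nat_lit 30431732602) (nat_lit 84) (nat_lit 16895285903) (nat_lit 12) (nat_lit 5) (nat_lit 15) (nat_lit 5) (nat_lit 13) (nat_lit 5) (nat_lit 421) (nat_lit 344) (nat_lit 123))))))) (XT.nd (nat_lit 49350) (nat_lit 0) (nat_lit 4704) (XT.nd (nat_lit 48692) (nat_lit 0) (nat_lit 5964) (XT.nd (nat_lit 282) (nat_lit 0) (nat_lit 0) (XT.nd (nat_lit 94) (nat_lit 168) (nat_lit 0) (XT.lf (nat_lit 0) (nat_lit 51624414669)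 (nat_lit 252) (nat_lit 15440704551) (nat_lit 84) (nat_lit 28339572948) (nat_lit 12) (nat_lit 5) (nat_lit 15) (nat_lit 5) (nat_lit 13) (nat_lit 5) (nat_lit 422) (nat_lit 344) (nat_lit 122)) (XT.nd (nat_lit 94) (nat_lit 0) (nat_lit 0) (XT.lf (nat_lit 0) (nat_lit 14235541) (nat_lit 168) (nat_lit 57826114932) (nat_lit 252) (nat_lit 40124245891) (nat_lit 10) (nat_lit 5) (nat_lit 12) (nat_lit 5) (nat_lit 13) (nat_lit 5) (nat_lit 423) (nat_lit 344) (nat_lit 121)) (XT.lf (nat_lit 0) (nat_lit 16274528061) (nat_lit 168) (nat_lit 48134858004) (nat_lit 252) (nat_lit 36189502662) (nat_lit 10) (nat_lit 5) (nat_lit 12) (nat_lit 5) (nat_lit 13) (nat_lit 5) (nat_lit 424) (nat_lit 344) (nat_lit 120)))) (XT.nd (nat_lit 48222) (nat_lit 0) (nat_lit 5964) (XT.lf (nat_lit 0) (nat_lit 33037836750) (nat_lit 168) (nat_lit 38143484455) (nat_lit 252) (nat_lit 32133549505) (nat_lit 10) (nat_lit 5) (nat_lit 12)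 (nat_lit 5) (nat_lit 13) (nat_lit 5) (nat_lit 425) (nat_lit 344) (nat_lit 119)) (XT.nd (nat_lit 94) (nat_lit 0) (nat_lit 0) (XT.lf (nat_lit 0) (nat_lit 3213901531) (nat_lit 0) (nat_lit 3213901531) (nat_lit 924) (nat_lit 2945670381) (nat_lit 81) (nat_lit 5) (nat_lit 81) (nat_lit 3) (nat_lit 92) (nat_lit 3) (nat_lit 345) (nat_lit 345) (nat_lit 198)) (XT.lf (nat_lit 0) (nat_lit 12706090594) (nat_lit 0) (nat_lit 494001411) (nat_lit 924) (nat_lit 5831870815) (nat_lit 81) (nat_lit 5) (nat_lit 81) (nat_lit 3) (nat_lit 92) (nat_lit 3) (nat_lit 346) (nat_lit 345) (nat_lit 197))))) (XT.nd (nat_lit 282) (nat_lit 0) (nat_lit 84) (XT.nd (nat_lit 94) (nat_lit 0) (nat_lit 0) (XT.lf (nat_lit 0) (nat_lit 13605222372) (nat_lit 924) (nat_lit 205776564) (nat_lit 1008) (nat_lit 5513309088) (nat_lit 81) (nat_lit 5) (nat_lit 92) (nat_lit 3) (nat_lit 93) (nat_lit 5) (nat_lit 347) (nat_lit 345) (nat_lit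 196)) (XT.nd (nat_lit 94) (nat_lit 0) (nat_lit 0) (XT.lf (nat_lit 84) (nat_lit 6221250431) (nat_lit 0) (nat_lit 7862781621) (nat_lit 1008) (nat_lit 5539830570) (nat_lit 82) (nat_lit 5) (nat_lit 81) (nat_lit 5) (nat_lit 93) (nat_lit 5) (nat_lit 348) (nat_lit 345) (nat_lit 195)) (XT.lf (nat_lit 84) (nat_lit 12848825346) (nat_lit 0) (nat_lit 1725499138) (nat_lit 1008) (nat_lit 5358523275) (nat_lit 82) (nat_lit 5) (nat_lit 81) (nat_lit 5) (nat_lit 93) (nat_lit 5) (nat_lit 349) (nat_lit 345) (nat_lit 194)))) (XT.nd (nat_lit 188) (nat_lit 0) (nat_lit 0) (XT.nd (nat_lit 94) (nat_lit 0) (nat_lit 0) (XT.lf (nat_lit 0) (nat_lit 15120149796) (nat_lit 924) (nat_lit 618397867) (nat_lit 1008) (nat_lit 4511652392) (nat_lit 82) (nat_lit 5) (nat_lit 93) (nat_lit 5) (nat_lit 94) (nat_lit 5) (nat_lit 350) (nat_lit 345) (nat_lit 193)) (XT.lf (nat_lit 84) (nat_lit 6150846247) (nat_lit 0) (nat_lit 9605555346)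 (nat_lit 1008) (nat_lit 4818747792) (nat_lit 83) (nat_lit 5) (nat_lit 82) (nat_lit 5) (nat_lit 94) (nat_lit 5) (nat_lit 351) (nat_lit 345) (nat_lit 192))) (XT.nd (nat_lit 94) (nat_lit 0) (nat_lit 84) (XT.lf (nat_lit 84) (nat_lit 13139985113) (nat_lit 0) (nat_lit 3273812587) (nat_lit 1008) (nat_lit 4496367068) (nat_lit 83) (nat_lit 5) (nat_lit 82) (nat_lit 5) (nat_lit 94) (nat_lit 5) (nat_lit 352) (nat_lit 345) (nat_lit 191)) (XT.lf (nat_lit 0) (nat_lit 17118991346) (nat_lit 924) (nat_lit 945235936) (nat_lit 1008) (nat_lit 3190523937) (nat_lit 83) (nat_lit 5) (nat_lit 94) (nat_lit 5) (nat_lit 95) (nat_lit 5) (nat_lit 353) (nat_lit 345) (nat_lit 190)))))) (XT.nd (nat_lit 564) (nat_lit 1428) (nat_lit 0) (XT.nd (nat_lit 282) (nat_lit 0) (nat_lit 84) (XT.nd (nat_lit 94) (nat_lit 0) (nat_lit 0) (XT.lf (nat_lit 84) (nat_lit 6179215144) (nat_lit 0) (nat_lit 11756895131) (nat_lit 1008) (nat_lit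 3671152071) (nat_lit 84) (nat_lit 5) (nat_lit 83) (nat_lit 5) (nat_lit 95) (nat_lit 5) (nat_lit 354) (nat_lit 345) (nat_lit 189)) (XT.nd (nat_lit 94) (nat_lit 0) (nat_lit 84) (XT.lf (nat_lit 84) (nat_lit 13541513990) (nat_lit 0) (nat_lit 5242306134) (nat_lit 1008) (nat_lit 3186751579) (nat_lit 84) (nat_lit 5) (nat_lit 83) (nat_lit 5) (nat_lit 95) (nat_lit 5) (nat_lit 355) (nat_lit 345) (nat_lit 188)) (XT.lf (nat_lit 0) (nat_lit 19667980960) (nat_lit 924) (nat_lit 1230867126) (nat_lit 1008) (nat_lit 1446012676) (nat_lit 84) (nat_lit 5) (nat_lit 95) (nat_lit 5) (nat_lit 96) (nat_lit 5) (nat_lit 356) (nat_lit 345) (nat_lit 187)))) (XT.nd (nat_lit 94) (nat_lit 0) (nat_lit 0) (XT.lf (nat_lit 84) (nat_lit 6259925987) (nat_lit 0) (nat_lit 14431021764) (nat_lit 1008) (nat_lit 2036383195) (nat_lit 85) (nat_lit 5) (nat_lit 84) (nat_lit 5) (nat_lit 96) (nat_lit 5) (nat_lit 357) (nat_lit 345)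 (nat_lit 186)) (XT.nd (nat_lit 94) (nat_lit 0) (nat_lit 0) (XT.lf (nat_lit 84) (nat_lit 14006009808) (nat_lit 0) (nat_lit 7748245622) (nat_lit 1008) (nat_lit 1367165304) (nat_lit 85) (nat_lit 5) (nat_lit 84) (nat_lit 5) (nat_lit 96) (nat_lit 5) (nat_lit 358) (nat_lit 345) (nat_lit 185)) (XT.lf (nat_lit 84) (nat_lit 21989295346) (nat_lit 0) (nat_lit 857138341) (nat_lit 1008) (nat_lit 681450075) (nat_lit 85) (nat_lit 5) (nat_lit 84) (nat_lit 5) (nat_lit 96) (nat_lit 5) (nat_lit 359) (nat_lit 345) (nat_lit 184))))) (XT.nd (nat_lit 282) (nat_lit 588) (nat_lit 0) (XT.nd (nat_lit 94) (nat_lit 0) (nat_lit 0) (XT.lf (nat_lit 0) (nat_lit 147087191) (nat_lit 1008) (nat_lit 17608929105) (nat_lit 1092) (nat_lit 6187166398) (nat_lit 73) (nat_lit 5) (nat_lit 85) (nat_lit 5) (nat_lit 86) (nat_lit 5) (nat_lit 360) (nat_lit 345) (nat_lit 183)) (XT.nd (nat_lit 94) (nat_lit 0) (nat_lit 0) (XT.lf (nat_lit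 0) (nat_lit 1008209217) (nat_lit 1008) (nat_lit 9906066848) (nat_lit 1092) (nat_lit 13456238067) (nat_lit 73) (nat_lit 5) (nat_lit 85) (nat_lit 5) (nat_lit 86) (nat_lit 5) (nat_lit 361) (nat_lit 345) (nat_lit 182)) (XT.lf (nat_lit 0) (nat_lit 1892209300) (nat_lit 1008) (nat_lit 1967402647) (nat_lit 1092) (nat_lit 20951625418) (nat_lit 73) (nat_lit 5) (nat_lit 85) (nat_lit 5) (nat_lit 86) (nat_lit 5) (nat_lit 362) (nat_lit 345) (nat_lit 181)))) (XT.nd (nat_lit 188) (nat_lit 672) (nat_lit 0) (XT.nd (nat_lit 94) (nat_lit 0) (nat_lit 0) (XT.lf (nat_lit 0) (nat_lit 2897343537) (nat_lit 1008) (nat_lit 18956083790) (nat_lit 84) (nat_lit 3409315473) (nat_lit 74) (nat_lit 5) (nat_lit 86) (nat_lit 5) (nat_lit 75) (nat_lit 5) (nat_lit 363) (nat_lit 345) (nat_lit 180)) (XT.lf (nat_lit 0) (nat_lit 3990245717) (nat_lit 1008) (nat_lit 10891380544) (nat_lit 84) (nat_lit 10844888418) (nat_lit 74)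 (nat_lit 5) (nat_lit 86) (nat_lit 5) (nat_lit 75) (nat_lit 5) (nat_lit 364) (nat_lit 345) (nat_lit 179))) (XT.nd (nat_lit 94) (nat_lit 672) (nat_lit 0) (XT.lf (nat_lit 0) (nat_lit 5113524813) (nat_lit 1008) (nat_lit 2579592883) (nat_lit 84) (nat_lit 18511678297) (nat_lit 74) (nat_lit 5) (nat_lit 86) (nat_lit 5) (nat_lit 75) (nat_lit 5) (nat_lit 365) (nat_lit 345) (nat_lit 178)) (XT.lf (nat_lit 0) (nat_lit 6110132198) (nat_lit 672) (nat_lit 218708906) (nat_lit 756) (nat_lit 20367312430) (nat_lit 66) (nat_lit 5) (nat_lit 74) (nat_lit 5) (nat_lit 75) (nat_lit 5) (nat_lit 366) (nat_lit 345) (nat_lit 177))))))))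
noncomputable def xc189 : XT := (XT.nd (nat_lit 2350) (nat_lit 1512) (nat_lit 0) (XT.nd (nat_lit 1128) (nat_lit 1176) (nat_lit 0) (XT.nd (nat_lit 564) (nat_lit 756) (nat_lit 0) (XT.nd (nat_lit 282) (nat_lit 420) (nat_lit 0) (XT.nd (nat_lit 94) (nat_lit 504) (nat_lit 0) (XT.lf (nat_lit 0) (nat_lit 7679991005) (nat_lit 756) (nat_lit 12155470599) (nat_lit 84) (nat_lit 7364261126) (nat_lit 66) (nat_lit 5) (nat_lit 75) (nat_lit 5) (nat_lit 67) (nat_lit 5) (nat_lit 367) (nat_lit 345) (nat_lit 176)) (XT.nd (nat_lit 94) (nat_lit 504) (nat_lit 0) (XT.lf (nat_lit 0) (nat_lit 9072044961) (nat_lit 756) (nat_lit 3468656921) (nat_lit 84) (nat_lit 15178252935) (nat_lit 66) (nat_lit 5) (nat_lit 75) (nat_lit 5) (nat_lit 67) (nat_lit 5) (nat_lit 368) (nat_lit 345) (nat_lit 175)) (XT.lf (nat_lit 0) (nat_lit 5597462737) (nat_lit 504) (nat_lit 4962195678) (nat_lit 588) (nat_lit 17693021264) (nat_lit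 60) (nat_lit 5) (nat_lit 66) (nat_lit 5) (nat_lit 67) (nat_lit 5) (nat_lit 369) (nat_lit 345) (nat_lit 174)))) (XT.nd (nat_lit 94) (nat_lit 420) (nat_lit 0) (XT.lf (nat_lit 0) (nat_lit 12155196781) (nat_lit 588) (nat_lit 13815168921) (nat_lit 84) (nat_lit 2830688758) (nat_lit 60) (nat_lit 5) (nat_lit 67) (nat_lit 5) (nat_lit 61) (nat_lit 5) (nat_lit 370) (nat_lit 345) (nat_lit 173)) (XT.nd (nat_lit 94) (nat_lit 420) (nat_lit 0) (XT.lf (nat_lit 0) (nat_lit 13847988419) (nat_lit 588) (nat_lit 4754597343) (nat_lit 84) (nat_lit 10762381466) (nat_lit 60) (nat_lit 5) (nat_lit 67) (nat_lit 5) (nat_lit 61) (nat_lit 5) (nat_lit 371) (nat_lit 345) (nat_lit 172)) (XT.lf (nat_lit 0) (nat_lit 4678428701) (nat_lit 420) (nat_lit 10958367484) (nat_lit 504) (nat_lit 14308234688) (nat_lit 55) (nat_lit 5) (nat_lit 60) (nat_lit 5) (nat_lit 61) (nat_lit 5) (nat_lit 372) (nat_lit 345) (nat_lit 171)))))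 (XT.nd (nat_lit 282) (nat_lit 336) (nat_lit 0) (XT.nd (nat_lit 94) (nat_lit 420) (nat_lit 0) (XT.lf (nat_lit 0) (nat_lit 14502017519) (nat_lit 420) (nat_lit 3025856692) (nat_lit 504) (nat_lit 13013769675) (nat_lit 55) (nat_lit 5) (nat_lit 60) (nat_lit 5) (nat_lit 61) (nat_lit 5) (nat_lit 373) (nat_lit 345) (nat_lit 170)) (XT.nd (nat_lit 94) (nat_lit 420) (nat_lit 0) (XT.lf (nat_lit 0) (nat_lit 19525964695) (nat_lit 504) (nat_lit 6580408683) (nat_lit 84) (nat_lit 5048896629) (nat_lit 55) (nat_lit 5) (nat_lit 61) (nat_lit 5) (nat_lit 56) (nat_lit 5) (nat_lit 374) (nat_lit 345) (nat_lit 169)) (XT.lf (nat_lit 0) (nat_lit 3203031574) (nat_lit 420) (nat_lit 18443043197) (nat_lit 504) (nat_lit 10139998944) (nat_lit 50) (nat_lit 5) (nat_lit 55) (nat_lit 5) (nat_lit 56) (nat_lit 5) (nat_lit 375) (nat_lit 345) (nat_lit 168)))) (XT.nd (nat_lit 94) (nat_lit 336) (nat_lit 0) (XT.lf (nat_lit 0)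 (nat_lit 13426686279) (nat_lit 420) (nat_lit 10471318816) (nat_lit 504) (nat_lit 8536395329) (nat_lit 50) (nat_lit 5) (nat_lit 55) (nat_lit 5) (nat_lit 56) (nat_lit 5) (nat_lit 376) (nat_lit 345) (nat_lit 167)) (XT.nd (nat_lit 94) (nat_lit 336) (nat_lit 0) (XT.lf (nat_lit 0) (nat_lit 23964778251) (nat_lit 420) (nat_lit 2252455723) (nat_lit 504) (nat_lit 6885685712) (nat_lit 50) (nat_lit 5) (nat_lit 55) (nat_lit 5) (nat_lit 56) (nat_lit 5) (nat_lit 377) (nat_lit 345) (nat_lit 166)) (XT.lf (nat_lit 0) (nat_lit 993170490) (nat_lit 336) (nat_lit 27684320200) (nat_lit 420) (nat_lit 5112545350) (nat_lit 46) (nat_lit 5) (nat_lit 50) (nat_lit 5) (nat_lit 51) (nat_lit 5) (nat_lit 378) (nat_lit 345) (nat_lit 165)))))) (XT.nd (nat_lit 564) (nat_lit 672) (nat_lit 0) (XT.nd (nat_lit 282) (nat_lit 420) (nat_lit 0) (XT.nd (nat_lit 94) (nat_lit 84) (nat_lit 0) (XT.lf (nat_lit 0) (nat_lit 11606278591)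 (nat_lit 336) (nat_lit 19723537250) (nat_lit 420) (nat_lit 3165062937) (nat_lit 46) (nat_lit 5) (nat_lit 50) (nat_lit 5) (nat_lit 51) (nat_lit 5) (nat_lit 379) (nat_lit 345) (nat_lit 164)) (XT.nd (nat_lit 94) (nat_lit 84) (nat_lit 0) (XT.lf (nat_lit 0) (nat_lit 22545980558) (nat_lit 336) (nat_lit 11516067219) (nat_lit 420) (nat_lit 1159610764) (nat_lit 46) (nat_lit 5) (nat_lit 50) (nat_lit 5) (nat_lit 51) (nat_lit 5) (nat_lit 380) (nat_lit 345) (nat_lit 163)) (XT.lf (nat_lit 0) (nat_lit 887433019) (nat_lit 420) (nat_lit 2157563886) (nat_lit 84) (nat_lit 32925777338) (nat_lit 45) (nat_lit 5) (nat_lit 50) (nat_lit 5) (nat_lit 46) (nat_lit 5) (nat_lit 381) (nat_lit 345) (nat_lit 162)))) (XT.nd (nat_lit 94) (nat_lit 0) (nat_lit 0) (XT.lf (nat_lit 0) (nat_lit 3116883965) (nat_lit 504) (nat_lit 27946810503) (nat_lit 84) (nat_lit 5674630066) (nat_lit 40) (nat_lit 5) (nat_lit 46) (nat_lit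 5) (nat_lit 41) (nat_lit 5) (nat_lit 382) (nat_lit 345) (nat_lit 161)) (XT.nd (nat_lit 94) (nat_lit 0) (nat_lit 0) (XT.lf (nat_lit 0) (nat_lit 5467169920) (nat_lit 504) (nat_lit 17436976336) (nat_lit 84) (nat_lit 14623932632) (nat_lit 40) (nat_lit 5) (nat_lit 46) (nat_lit 5) (nat_lit 41) (nat_lit 5) (nat_lit 383) (nat_lit 345) (nat_lit 160)) (XT.lf (nat_lit 0) (nat_lit 7888208049) (nat_lit 504) (nat_lit 6603650292) (nat_lit 84) (nat_lit 23850535576) (nat_lit 40) (nat_lit 5) (nat_lit 46) (nat_lit 5) (nat_lit 41) (nat_lit 5) (nat_lit 384) (nat_lit 345) (nat_lit 159))))) (XT.nd (nat_lit 282) (nat_lit 336) (nat_lit 0) (XT.nd (nat_lit 94) (nat_lit 0) (nat_lit 0) (XT.lf (nat_lit 0) (nat_lit 4657095517) (nat_lit 336) (nat_lit 5771358458) (nat_lit 420) (nat_lit 28752142507) (nat_lit 36) (nat_lit 5) (nat_lit 40) (nat_lit 5) (nat_lit 41) (nat_lit 5) (nat_lit 385) (nat_lit 345) (nat_lit 158))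 (XT.nd (nat_lit 94) (nat_lit 0) (nat_lit 0) (XT.lf (nat_lit 0) (nat_lit 13147012588) (nat_lit 420) (nat_lit 23670663674) (nat_lit 84) (nat_lit 3224032760) (nat_lit 36) (nat_lit 5) (nat_lit 41) (nat_lit 5) (nat_lit 37) (nat_lit 5) (nat_lit 386) (nat_lit 345) (nat_lit 157)) (XT.lf (nat_lit 0) (nat_lit 16006928169) (nat_lit 420) (nat_lit 12542639815) (nat_lit 84) (nat_lit 12378190385) (nat_lit 36) (nat_lit 5) (nat_lit 41) (nat_lit 5) (nat_lit 37) (nat_lit 5) (nat_lit 387) (nat_lit 345) (nat_lit 156)))) (XT.nd (nat_lit 188) (nat_lit 0) (nat_lit 0) (XT.nd (nat_lit 94) (nat_lit 336) (nat_lit 0) (XT.lf (nat_lit 0) (nat_lit 18953613867) (nat_lit 420) (nat_lit 1071804313) (nat_lit 84) (nat_lit 21815927061) (nat_lit 36) (nat_lit 5) (nat_lit 41) (nat_lit 5) (nat_lit 37) (nat_lit 5) (nat_lit 388) (nat_lit 345) (nat_lit 155)) (XT.lf (nat_lit 0) (nat_lit 10973629020) (nat_lit 336) (nat_lit 11125047041)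 (nat_lit 420) (nat_lit 20681270485) (nat_lit 32) (nat_lit 5) (nat_lit 36) (nat_lit 5) (nat_lit 37) (nat_lit 5) (nat_lit 389) (nat_lit 345) (nat_lit 154))) (XT.nd (nat_lit 94) (nat_lit 0) (nat_lit 0) (XT.lf (nat_lit 0) (nat_lit 23413121419) (nat_lit 336) (nat_lit 1937505178) (nat_lit 420) (nat_lit 18396737570) (nat_lit 32) (nat_lit 5) (nat_lit 36) (nat_lit 5) (nat_lit 37) (nat_lit 5) (nat_lit 390) (nat_lit 345) (nat_lit 153)) (XT.lf (nat_lit 0) (nat_lit 28776389583) (nat_lit 420) (nat_lit 8583350927) (nat_lit 84) (nat_lit 7382778649) (nat_lit 32) (nat_lit 5) (nat_lit 37) (nat_lit 5) (nat_lit 33) (nat_lit 5) (nat_lit 391) (nat_lit 345) (nat_lit 152))))))) (XT.nd (nat_lit 1222) (nat_lit 420) (nat_lit 0) (XT.nd (nat_lit 564) (nat_lit 504) (nat_lit 0) (XT.nd (nat_lit 282) (nat_lit 336) (nat_lit 0) (XT.nd (nat_lit 94) (nat_lit 0) (nat_lit 0) (XT.lf (nat_lit 0) (nat_lit 3582166731) (nat_lit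 252) (nat_lit 28779843938) (nat_lit 336) (nat_lit 13404860014) (nat_lit 29) (nat_lit 5) (nat_lit 32) (nat_lit 5) (nat_lit 33) (nat_lit 5) (nat_lit 392) (nat_lit 345) (nat_lit 151)) (XT.nd (nat_lit 94) (nat_lit 0) (nat_lit 0) (XT.lf (nat_lit 0) (nat_lit 16304789934) (nat_lit 252) (nat_lit 19841927604) (nat_lit 336) (nat_lit 10673543552) (nat_lit 29) (nat_lit 5) (nat_lit 32) (nat_lit 5) (nat_lit 33) (nat_lit 5) (nat_lit 393) (nat_lit 345) (nat_lit 150)) (XT.lf (nat_lit 0) (nat_lit 29419886199) (nat_lit 252) (nat_lit 10627253016) (nat_lit 336) (nat_lit 7859226898) (nat_lit 29) (nat_lit 5) (nat_lit 32) (nat_lit 5) (nat_lit 33) (nat_lit 5) (nat_lit 394) (nat_lit 345) (nat_lit 149)))) (XT.nd (nat_lit 94) (nat_lit 336) (nat_lit 0) (XT.lf (nat_lit 0) (nat_lit 42939680170) (nat_lit 252) (nat_lit 1127231131) (nat_lit 336) (nat_lit 4959286813) (nat_lit 29) (nat_lit 5) (nat_lit 32) (nat_lit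 5) (nat_lit 33) (nat_lit 5) (nat_lit 395) (nat_lit 345) (nat_lit 148)) (XT.nd (nat_lit 94) (nat_lit 84) (nat_lit 0) (XT.lf (nat_lit 0) (nat_lit 6745910230) (nat_lit 252) (nat_lit 41616768322) (nat_lit 336) (nat_lit 1813382504) (nat_lit 26) (nat_lit 5) (nat_lit 29) (nat_lit 5) (nat_lit 30) (nat_lit 5) (nat_lit 396) (nat_lit 345) (nat_lit 147)) (XT.lf (nat_lit 0) (nat_lit 1475426961) (nat_lit 336) (nat_lit 31282678343) (nat_lit 84) (nat_lit 18600733119) (nat_lit 25) (nat_lit 5) (nat_lit 29) (nat_lit 5) (nat_lit 26) (nat_lit 5) (nat_lit 397) (nat_lit 345) (nat_lit 146))))) (XT.nd (nat_lit 282) (nat_lit 252) (nat_lit 0) (XT.nd (nat_lit 94) (nat_lit 252) (nat_lit 0) (XT.lf (nat_lit 0) (nat_lit 4827051742) (nat_lit 336) (nat_lit 18779011876) (nat_lit 84) (nat_lit 28971697093) (nat_lit 25) (nat_lit 5) (nat_lit 29) (nat_lit 5) (nat_lit 26) (nat_lit 5) (nat_lit 398) (nat_lit 345) (nat_lit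 145)) (XT.nd (nat_lit 94) (nat_lit 252) (nat_lit 0) (XT.lf (nat_lit 0) (nat_lit 8281151518) (nat_lit 336) (nat_lit 5889507721) (nat_lit 84) (nat_lit 39663862504) (nat_lit 25) (nat_lit 5) (nat_lit 29) (nat_lit 5) (nat_lit 26) (nat_lit 5) (nat_lit 399) (nat_lit 345) (nat_lit 144)) (XT.lf (nat_lit 0) (nat_lit 7549963426) (nat_lit 252) (nat_lit 4365879017) (nat_lit 336) (nat_lit 43212128714) (nat_lit 22) (nat_lit 5) (nat_lit 25) (nat_lit 5) (nat_lit 26) (nat_lit 5) (nat_lit 400) (nat_lit 345) (nat_lit 143)))) (XT.nd (nat_lit 188) (nat_lit 252) (nat_lit 0) (XT.nd (nat_lit 94) (nat_lit 0) (nat_lit 0) (XT.lf (nat_lit 0) (nat_lit 15780920379) (nat_lit 336) (nat_lit 34988048941) (nat_lit 84) (nat_lit 5688906619) (nat_lit 22) (nat_lit 5) (nat_lit 26) (nat_lit 5) (nat_lit 23) (nat_lit 5) (nat_lit 401) (nat_lit 345) (nat_lit 142)) (XT.lf (nat_lit 0) (nat_lit 19809148029) (nat_lit 336) (nat_lit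 22054152719) (nat_lit 84) (nat_lit 15964370988) (nat_lit 22) (nat_lit 5) (nat_lit 26) (nat_lit 5) (nat_lit 23) (nat_lit 5) (nat_lit 402) (nat_lit 345) (nat_lit 141))) (XT.nd (nat_lit 94) (nat_lit 252) (nat_lit 0) (XT.lf (nat_lit 0) (nat_lit 23960970064) (nat_lit 336) (nat_lit 8720953259) (nat_lit 84) (nat_lit 26558054633) (nat_lit 22) (nat_lit 5) (nat_lit 26) (nat_lit 5) (nat_lit 23) (nat_lit 5) (nat_lit 403) (nat_lit 345) (nat_lit 140)) (XT.lf (nat_lit 0) (nat_lit 5127280655) (nat_lit 252) (nat_lit 23163839018) (nat_lit 336) (nat_lit 32403414578) (nat_lit 19) (nat_lit 5) (nat_lit 22) (nat_lit 5) (nat_lit 23) (nat_lit 5) (nat_lit 404) (nat_lit 345) (nat_lit 139)))))) (XT.nd (nat_lit 564) (nat_lit 252) (nat_lit 0) (XT.nd (nat_lit 282) (nat_lit 168) (nat_lit 0) (XT.nd (nat_lit 94) (nat_lit 0) (nat_lit 0) (XT.lf (nat_lit 0) (nat_lit 19588107619) (nat_lit 252) (nat_lit 13257204658) (nat_lit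 336) (nat_lit 29346092089) (nat_lit 19) (nat_lit 5) (nat_lit 22) (nat_lit 5) (nat_lit 23) (nat_lit 5) (nat_lit 405) (nat_lit 345) (nat_lit 138)) (XT.nd (nat_lit 94) (nat_lit 0) (nat_lit 0) (XT.lf (nat_lit 0) (nat_lit 34495685953) (nat_lit 252) (nat_lit 3043815090) (nat_lit 336) (nat_lit 26195219544) (nat_lit 19) (nat_lit 5) (nat_lit 22) (nat_lit 5) (nat_lit 23) (nat_lit 5) (nat_lit 406) (nat_lit 345) (nat_lit 137)) (XT.lf (nat_lit 0) (nat_lit 42452322000) (nat_lit 336) (nat_lit 15536270919) (nat_lit 84) (nat_lit 7335026449) (nat_lit 19) (nat_lit 5) (nat_lit 23) (nat_lit 5) (nat_lit 20) (nat_lit 5) (nat_lit 407) (nat_lit 345) (nat_lit 136)))) (XT.nd (nat_lit 94) (nat_lit 168) (nat_lit 0) (XT.lf (nat_lit 0) (nat_lit 47547454512) (nat_lit 336) (nat_lit 1441333292) (nat_lit 84) (nat_lit 17972061821) (nat_lit 19) (nat_lit 5) (nat_lit 23) (nat_lit 5) (nat_lit 20) (nat_lit 5) (nat_lit 408)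 (nat_lit 345) (nat_lit 135)) (XT.nd (nat_lit 94) (nat_lit 0) (nat_lit 0) (XT.lf (nat_lit 0) (nat_lit 13358250198) (nat_lit 168) (nat_lit 39573718052) (nat_lit 252) (nat_lit 15712797246) (nat_lit 17) (nat_lit 5) (nat_lit 19) (nat_lit 5) (nat_lit 20) (nat_lit 5) (nat_lit 409) (nat_lit 345) (nat_lit 134)) (XT.lf (nat_lit 0) (nat_lit 28645754652) (nat_lit 168) (nat_lit 29851626920) (nat_lit 252) (nat_lit 11883073510) (nat_lit 17) (nat_lit 5) (nat_lit 19) (nat_lit 5) (nat_lit 20) (nat_lit 5) (nat_lit 410) (nat_lit 345) (nat_lit 133))))) (XT.nd (nat_lit 282) (nat_lit 0) (nat_lit 0) (XT.nd (nat_lit 94) (nat_lit 252) (nat_lit 0) (XT.lf (nat_lit 0) (nat_lit 44405792856) (nat_lit 168) (nat_lit 19828496966) (nat_lit 252) (nat_lit 7935698767) (nat_lit 17) (nat_lit 5) (nat_lit 19) (nat_lit 5) (nat_lit 20) (nat_lit 5) (nat_lit 411) (nat_lit 345) (nat_lit 132)) (XT.nd (nat_lit 94) (nat_lit 252)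 (nat_lit 0) (XT.lf (nat_lit 0) (nat_lit 60653054816) (nat_lit 168) (nat_lit 9494985583) (nat_lit 252) (nat_lit 3866993649) (nat_lit 17) (nat_lit 5) (nat_lit 19) (nat_lit 5) (nat_lit 20) (nat_lit 5) (nat_lit 412) (nat_lit 345) (nat_lit 131)) (XT.lf (nat_lit 0) (nat_lit 346934047) (nat_lit 252) (nat_lit 74415818176) (nat_lit 84) (nat_lit 1153631275) (nat_lit 14) (nat_lit 5) (nat_lit 17) (nat_lit 5) (nat_lit 15) (nat_lit 5) (nat_lit 413) (nat_lit 345) (nat_lit 130)))) (XT.nd (nat_lit 188) (nat_lit 0) (nat_lit 0) (XT.nd (nat_lit 94) (nat_lit 0) (nat_lit 0) (XT.lf (nat_lit 0) (nat_lit 4848203023) (nat_lit 252) (nat_lit 60904664293) (nat_lit 84) (nat_lit 12115238177) (nat_lit 14) (nat_lit 5) (nat_lit 17) (nat_lit 5) (nat_lit 15) (nat_lit 5) (nat_lit 414) (nat_lit 345) (nat_lit 129)) (XT.lf (nat_lit 0) (nat_lit 9488067189) (nat_lit 252) (nat_lit 46975965075) (nat_lit 84) (nat_lit 23416332615)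 (nat_lit 14) (nat_lit 5) (nat_lit 17) (nat_lit 5) (nat_lit 15) (nat_lit 5) (nat_lit 415) (nat_lit 345) (nat_lit 128))) (XT.nd (nat_lit 94) (nat_lit 0) (nat_lit 0) (XT.lf (nat_lit 0) (nat_lit 14270851384) (nat_lit 252) (nat_lit 32616737516) (nat_lit 84) (nat_lit 35067448393) (nat_lit 14) (nat_lit 5) (nat_lit 17) (nat_lit 5) (nat_lit 15) (nat_lit 5) (nat_lit 416) (nat_lit 345) (nat_lit 127)) (XT.lf (nat_lit 0) (nat_lit 19201013664) (nat_lit 252) (nat_lit 17813597311) (nat_lit 84) (nat_lit 47079445572) (nat_lit 14) (nat_lit 5) (nat_lit 17) (nat_lit 5) (nat_lit 15) (nat_lit 5) (nat_lit 417) (nat_lit 345) (nat_lit 126))))))))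
noncomputable def xc190 : XT := (XT.nd (nat_lit 50572) (nat_lit 0) (nat_lit 2184) (XT.nd (nat_lit 49350) (nat_lit 0) (nat_lit 5292) (XT.nd (nat_lit 564) (nat_lit 168) (nat_lit 0) (XT.nd (nat_lit 282) (nat_lit 0) (nat_lit 0) (XT.nd (nat_lit 94) (nat_lit 168) (nat_lit 0) (XT.lf (nat_lit 0) (nat_lit 24283149457) (nat_lit 252) (nat_lit 2552746383) (nat_lit 84) (nat_lit 59463520591) (nat_lit 14) (nat_lit 5) (nat_lit 17) (nat_lit 5) (nat_lit 15) (nat_lit 5) (nat_lit 418) (nat_lit 345) (nat_lit 125)) (XT.nd (nat_lit 94) (nat_lit 0) (nat_lit 0) (XT.lf (nat_lit 0) (nat_lit 13451048632) (nat_lit 168) (nat_lit 16204383280) (nat_lit 252) (nat_lit 58913604141) (nat_lit 12) (nat_lit 5) (nat_lit 14) (nat_lit 5) (nat_lit 15) (nat_lit 5) (nat_lit 419) (nat_lit 345) (nat_lit 124)) (XT.lf (nat_lit 0) (nat_lit 30003938884) (nat_lit 168) (nat_lit 5216139887) (nat_lit 252) (nat_lit 55688138649) (nat_lit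 12) (nat_lit 5) (nat_lit 14) (nat_lit 5) (nat_lit 15) (nat_lit 5) (nat_lit 420) (nat_lit 345) (nat_lit 123)))) (XT.nd (nat_lit 94) (nat_lit 0) (nat_lit 0) (XT.lf (nat_lit 0) (nat_lit 41017068674) (nat_lit 252) (nat_lit 46311714442) (nat_lit 84) (nat_lit 5989279232) (nat_lit 12) (nat_lit 5) (nat_lit 15) (nat_lit 5) (nat_lit 13) (nat_lit 5) (nat_lit 421) (nat_lit 345) (nat_lit 122)) (XT.nd (nat_lit 94) (nat_lit 0) (nat_lit 0) (XT.lf (nat_lit 0) (nat_lit 47046338027) (nat_lit 252) (nat_lit 31321226342) (nat_lit 84) (nat_lit 17433422173) (nat_lit 12) (nat_lit 5) (nat_lit 15) (nat_lit 5) (nat_lit 13) (nat_lit 5) (nat_lit 422) (nat_lit 345) (nat_lit 121)) (XT.lf (nat_lit 0) (nat_lit 53261761987) (nat_lit 252) (nat_lit 15867096780) (nat_lit 84) (nat_lit 29232049667) (nat_lit 12) (nat_lit 5) (nat_lit 15) (nat_lit 5) (nat_lit 13) (nat_lit 5) (nat_lit 423) (nat_lit 345) (nat_lit 120))))) (XT.nd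 (nat_lit 48504) (nat_lit 0) (nat_lit 5964) (XT.nd (nat_lit 94) (nat_lit 0) (nat_lit 0) (XT.lf (nat_lit 0) (nat_lit 66417272) (nat_lit 168) (nat_lit 59603375576) (nat_lit 252) (nat_lit 41330400868) (nat_lit 10) (nat_lit 5) (nat_lit 12) (nat_lit 5) (nat_lit 13) (nat_lit 5) (nat_lit 424) (nat_lit 345) (nat_lit 119)) (XT.nd (nat_lit 48316) (nat_lit 0) (nat_lit 5964) (XT.lf (nat_lit 0) (nat_lit 16829223134) (nat_lit 168) (nat_lit 49612151192) (nat_lit 252) (nat_lit 37274814057) (nat_lit 10) (nat_lit 5) (nat_lit 12) (nat_lit 5) (nat_lit 13) (nat_lit 5) (nat_lit 425) (nat_lit 345) (nat_lit 118)) (XT.lf (nat_lit 0) (nat_lit 3385424151) (nat_lit 0) (nat_lit 3385424151) (nat_lit 924) (nat_lit 2887696247) (nat_lit 81) (nat_lit 5) (nat_lit 81) (nat_lit 3) (nat_lit 92) (nat_lit 3) (nat_lit 346) (nat_lit 346) (nat_lit 196)))) (XT.nd (nat_lit 94) (nat_lit 0) (nat_lit 0) (XT.lf (nat_lit 0) (nat_lit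 13239439485) (nat_lit 0) (nat_lit 648775537) (nat_lit 924) (nat_lit 5723056646) (nat_lit 81) (nat_lit 5) (nat_lit 81) (nat_lit 3) (nat_lit 92) (nat_lit 3) (nat_lit 347) (nat_lit 346) (nat_lit 195)) (XT.nd (nat_lit 94) (nat_lit 0) (nat_lit 0) (XT.lf (nat_lit 0) (nat_lit 14296176024) (nat_lit 924) (nat_lit 65186149) (nat_lit 1008) (nat_lit 5551680184) (nat_lit 81) (nat_lit 5) (nat_lit 92) (nat_lit 3) (nat_lit 93) (nat_lit 5) (nat_lit 348) (nat_lit 346) (nat_lit 194)) (XT.lf (nat_lit 84) (nat_lit 6559590749) (nat_lit 0) (nat_lit 8223587221) (nat_lit 1008) (nat_lit 5438970715) (nat_lit 82) (nat_lit 5) (nat_lit 81) (nat_lit 5) (nat_lit 93) (nat_lit 5) (nat_lit 349) (nat_lit 346) (nat_lit 193)))))) (XT.nd (nat_lit 564) (nat_lit 672) (nat_lit 0) (XT.nd (nat_lit 282) (nat_lit 0) (nat_lit 84) (XT.nd (nat_lit 94) (nat_lit 0) (nat_lit 84) (XT.lf (nat_lit 84) (nat_lit 13388246162) (nat_lit 0)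 (nat_lit 1892529252) (nat_lit 1008) (nat_lit 5260239240) (nat_lit 82) (nat_lit 5) (nat_lit 81) (nat_lit 5) (nat_lit 93) (nat_lit 5) (nat_lit 350) (nat_lit 346) (nat_lit 192)) (XT.nd (nat_lit 94) (nat_lit 0) (nat_lit 0) (XT.lf (nat_lit 0) (nat_lit 15834772154) (nat_lit 924) (nat_lit 490153125) (nat_lit 1008) (nat_lit 4543606662) (nat_lit 82) (nat_lit 5) (nat_lit 93) (nat_lit 5) (nat_lit 94) (nat_lit 5) (nat_lit 351) (nat_lit 346) (nat_lit 191)) (XT.lf (nat_lit 84) (nat_lit 6487445112) (nat_lit 0) (nat_lit 9997356589) (nat_lit 1008) (nat_lit 4718991494) (nat_lit 83) (nat_lit 5) (nat_lit 82) (nat_lit 5) (nat_lit 94) (nat_lit 5) (nat_lit 352) (nat_lit 346) (nat_lit 190)))) (XT.nd (nat_lit 94) (nat_lit 0) (nat_lit 84) (XT.lf (nat_lit 84) (nat_lit 13688859696) (nat_lit 0) (nat_lit 3466502550) (nat_lit 1008) (nat_lit 4394108007) (nat_lit 83) (nat_lit 5) (nat_lit 82) (nat_lit 5) (nat_lit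 94) (nat_lit 5) (nat_lit 353) (nat_lit 346) (nat_lit 189)) (XT.nd (nat_lit 94) (nat_lit 0) (nat_lit 0) (XT.lf (nat_lit 0) (nat_lit 17874541459) (nat_lit 924) (nat_lit 827739608) (nat_lit 1008) (nat_lit 3202752914) (nat_lit 83) (nat_lit 5) (nat_lit 94) (nat_lit 5) (nat_lit 95) (nat_lit 5) (nat_lit 354) (nat_lit 346) (nat_lit 188)) (XT.lf (nat_lit 84) (nat_lit 6516083251) (nat_lit 0) (nat_lit 12195588233) (nat_lit 1008) (nat_lit 3557015803) (nat_lit 84) (nat_lit 5) (nat_lit 83) (nat_lit 5) (nat_lit 95) (nat_lit 5) (nat_lit 355) (nat_lit 346) (nat_lit 187))))) (XT.nd (nat_lit 282) (nat_lit 840) (nat_lit 0) (XT.nd (nat_lit 94) (nat_lit 0) (nat_lit 84) (XT.lf (nat_lit 84) (nat_lit 14102244121) (nat_lit 0) (nat_lit 5476815057) (nat_lit 1008) (nat_lit 3064452631) (nat_lit 84) (nat_lit 5) (nat_lit 83) (nat_lit 5) (nat_lit 95) (nat_lit 5) (nat_lit 356) (nat_lit 346) (nat_lit 186)) (XT.nd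 (nat_lit 94) (nat_lit 0) (nat_lit 0) (XT.lf (nat_lit 0) (nat_lit 20483533576) (nat_lit 924) (nat_lit 1123723292) (nat_lit 1008) (nat_lit 1422413419) (nat_lit 84) (nat_lit 5) (nat_lit 95) (nat_lit 5) (nat_lit 96) (nat_lit 5) (nat_lit 357) (nat_lit 346) (nat_lit 185)) (XT.lf (nat_lit 84) (nat_lit 6597813369) (nat_lit 0) (nat_lit 14935636445) (nat_lit 1008) (nat_lit 1890739972) (nat_lit 85) (nat_lit 5) (nat_lit 84) (nat_lit 5) (nat_lit 96) (nat_lit 5) (nat_lit 358) (nat_lit 346) (nat_lit 184)))) (XT.nd (nat_lit 188) (nat_lit 924) (nat_lit 0) (XT.nd (nat_lit 94) (nat_lit 0) (nat_lit 0) (XT.lf (nat_lit 84) (nat_lit 14579701133) (nat_lit 0) (nat_lit 8043972765) (nat_lit 1008) (nat_lit 1207053633) (nat_lit 85) (nat_lit 5) (nat_lit 84) (nat_lit 5) (nat_lit 96) (nat_lit 5) (nat_lit 359) (nat_lit 346) (nat_lit 183)) (XT.lf (nat_lit 84) (nat_lit 22806273899) (nat_lit 0) (nat_lit 937571442)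 (nat_lit 1008) (nat_lit 506169795) (nat_lit 85) (nat_lit 5) (nat_lit 84) (nat_lit 5) (nat_lit 96) (nat_lit 5) (nat_lit 360) (nat_lit 346) (nat_lit 182))) (XT.nd (nat_lit 94) (nat_lit 0) (nat_lit 0) (XT.lf (nat_lit 0) (nat_lit 339204288) (nat_lit 1008) (nat_lit 18008032526) (nat_lit 1092) (nat_lit 6331082651) (nat_lit 73) (nat_lit 5) (nat_lit 85) (nat_lit 5) (nat_lit 86) (nat_lit 5) (nat_lit 361) (nat_lit 346) (nat_lit 181)) (XT.lf (nat_lit 0) (nat_lit 1221381641) (nat_lit 1008) (nat_lit 10070794706) (nat_lit 1092) (nat_lit 13826935369) (nat_lit 73) (nat_lit 5) (nat_lit 85) (nat_lit 5) (nat_lit 86) (nat_lit 5) (nat_lit 362) (nat_lit 346) (nat_lit 180))))))) (XT.nd (nat_lit 1222) (nat_lit 1596) (nat_lit 0) (XT.nd (nat_lit 564) (nat_lit 924) (nat_lit 0) (XT.nd (nat_lit 282) (nat_lit 588) (nat_lit 0) (XT.nd (nat_lit 94) (nat_lit 0) (nat_lit 84) (XT.lf (nat_lit 0) (nat_lit 2127315837)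 (nat_lit 1008) (nat_lit 1890312387) (nat_lit 1092) (nat_lit 21556076264) (nat_lit 73) (nat_lit 5) (nat_lit 85) (nat_lit 5) (nat_lit 86) (nat_lit 5) (nat_lit 363) (nat_lit 346) (nat_lit 179)) (XT.nd (nat_lit 94) (nat_lit 0) (nat_lit 0) (XT.lf (nat_lit 0) (nat_lit 3159304407) (nat_lit 1008) (nat_lit 19400162894) (nat_lit 84) (nat_lit 3479909162) (nat_lit 74) (nat_lit 5) (nat_lit 86) (nat_lit 5) (nat_lit 75) (nat_lit 5) (nat_lit 364) (nat_lit 346) (nat_lit 178)) (XT.lf (nat_lit 0) (nat_lit 4280910571) (nat_lit 1008) (nat_lit 11089770380) (nat_lit 84) (nat_lit 11147040103) (nat_lit 74) (nat_lit 5) (nat_lit 86) (nat_lit 5) (nat_lit 75) (nat_lit 5) (nat_lit 365) (nat_lit 346) (nat_lit 177)))) (XT.nd (nat_lit 94) (nat_lit 672) (nat_lit 0) (XT.lf (nat_lit 0) (nat_lit 5433990965) (nat_lit 1008) (nat_lit 2524504044) (nat_lit 84) (nat_lit 19052523975) (nat_lit 74) (nat_lit 5) (nat_lit 86) (nat_lit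 5) (nat_lit 75) (nat_lit 5) (nat_lit 366) (nat_lit 346) (nat_lit 176)) (XT.nd (nat_lit 94) (nat_lit 0) (nat_lit 0) (XT.lf (nat_lit 0) (nat_lit 6433235192) (nat_lit 672) (nat_lit 250203678) (nat_lit 756) (nat_lit 20834312813) (nat_lit 66) (nat_lit 5) (nat_lit 74) (nat_lit 5) (nat_lit 75) (nat_lit 5) (nat_lit 367) (nat_lit 346) (nat_lit 175)) (XT.lf (nat_lit 0) (nat_lit 8071473750) (nat_lit 756) (nat_lit 12396580508) (nat_lit 84) (nat_lit 7569064522) (nat_lit 66) (nat_lit 5) (nat_lit 75) (nat_lit 5) (nat_lit 67) (nat_lit 5) (nat_lit 368) (nat_lit 346) (nat_lit 174))))) (XT.nd (nat_lit 282) (nat_lit 420) (nat_lit 0) (XT.nd (nat_lit 94) (nat_lit 504) (nat_lit 0) (XT.lf (nat_lit 0) (nat_lit 9502068872) (nat_lit 756) (nat_lit 3444556110) (nat_lit 84) (nat_lit 15625996334) (nat_lit 66) (nat_lit 5) (nat_lit 75) (nat_lit 5) (nat_lit 67) (nat_lit 5) (nat_lit 369) (nat_lit 346) (nat_lit 173))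 (XT.nd (nat_lit 94) (nat_lit 0) (nat_lit 0) (XT.lf (nat_lit 0) (nat_lit 5901280630) (nat_lit 504) (nat_lit 5131336454) (nat_lit 588) (nat_lit 18090403511) (nat_lit 60) (nat_lit 5) (nat_lit 66) (nat_lit 5) (nat_lit 67) (nat_lit 5) (nat_lit 370) (nat_lit 346) (nat_lit 172)) (XT.lf (nat_lit 0) (nat_lit 12673091638) (nat_lit 588) (nat_lit 14111585999) (nat_lit 84) (nat_lit 2903887061) (nat_lit 60) (nat_lit 5) (nat_lit 67) (nat_lit 5) (nat_lit 61) (nat_lit 5) (nat_lit 371) (nat_lit 346) (nat_lit 171)))) (XT.nd (nat_lit 188) (nat_lit 0) (nat_lit 0) (XT.nd (nat_lit 94) (nat_lit 420) (nat_lit 0) (XT.lf (nat_lit 0) (nat_lit 14414117726) (nat_lit 588) (nat_lit 4774101249) (nat_lit 84) (nat_lit 11081899823) (nat_lit 60) (nat_lit 5) (nat_lit 67) (nat_lit 5) (nat_lit 61) (nat_lit 5) (nat_lit 372) (nat_lit 346) (nat_lit 170)) (XT.lf (nat_lit 0) (nat_lit 4950053845) (nat_lit 420) (nat_lit 11305465974)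 (nat_lit 504) (nat_lit 14612760889) (nat_lit 55) (nat_lit 5) (nat_lit 60) (nat_lit 5) (nat_lit 61) (nat_lit 5) (nat_lit 373) (nat_lit 346) (nat_lit 169))) (XT.nd (nat_lit 94) (nat_lit 0) (nat_lit 0) (XT.lf (nat_lit 0) (nat_lit 15074367505) (nat_lit 420) (nat_lit 3126825173) (nat_lit 504) (nat_lit 13282347772) (nat_lit 55) (nat_lit 5) (nat_lit 60) (nat_lit 5) (nat_lit 61) (nat_lit 5) (nat_lit 374) (nat_lit 346) (nat_lit 168)) (XT.lf (nat_lit 0) (nat_lit 20257247554) (nat_lit 504) (nat_lit 6660489678) (nat_lit 84) (nat_lit 5198601051) (nat_lit 55) (nat_lit 5) (nat_lit 61) (nat_lit 5) (nat_lit 56) (nat_lit 5) (nat_lit 375) (nat_lit 346) (nat_lit 167)))))) (XT.nd (nat_lit 564) (nat_lit 840) (nat_lit 0) (XT.nd (nat_lit 282) (nat_lit 336) (nat_lit 0) (XT.nd (nat_lit 94) (nat_lit 0) (nat_lit 0) (XT.lf (nat_lit 0) (nat_lit 3424982733) (nat_lit 420) (nat_lit 19015527192) (nat_lit 504) (nat_lit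 10326291936) (nat_lit 50) (nat_lit 5) (nat_lit 55) (nat_lit 5) (nat_lit 56) (nat_lit 5) (nat_lit 376) (nat_lit 346) (nat_lit 166)) (XT.nd (nat_lit 94) (nat_lit 0) (nat_lit 0) (XT.lf (nat_lit 0) (nat_lit 13961882691) (nat_lit 420) (nat_lit 10796656814) (nat_lit 504) (nat_lit 8676826712) (nat_lit 50) (nat_lit 5) (nat_lit 55) (nat_lit 5) (nat_lit 56) (nat_lit 5) (nat_lit 377) (nat_lit 346) (nat_lit 165)) (XT.lf (nat_lit 0) (nat_lit 24823078362) (nat_lit 420) (nat_lit 2322987103) (nat_lit 504) (nat_lit 6978679436) (nat_lit 50) (nat_lit 5) (nat_lit 55) (nat_lit 5) (nat_lit 56) (nat_lit 5) (nat_lit 378) (nat_lit 346) (nat_lit 164)))) (XT.nd (nat_lit 94) (nat_lit 0) (nat_lit 0) (XT.lf (nat_lit 0) (nat_lit 1142510546) (nat_lit 336) (nat_lit 28537758055) (nat_lit 420) (nat_lit 5152988267) (nat_lit 46) (nat_lit 5) (nat_lit 50) (nat_lit 5) (nat_lit 51) (nat_lit 5) (nat_lit 379) (nat_lit 346)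 (nat_lit 163)) (XT.nd (nat_lit 94) (nat_lit 0) (nat_lit 0) (XT.lf (nat_lit 0) (nat_lit 12081060397) (nat_lit 336) (nat_lit 20330334439) (nat_lit 420) (nat_lit 3148683295) (nat_lit 46) (nat_lit 5) (nat_lit 50) (nat_lit 5) (nat_lit 51) (nat_lit 5) (nat_lit 380) (nat_lit 346) (nat_lit 162)) (XT.lf (nat_lit 0) (nat_lit 23356435703) (nat_lit 336) (nat_lit 11868572126) (nat_lit 420) (nat_lit 1084504775) (nat_lit 46) (nat_lit 5) (nat_lit 50) (nat_lit 5) (nat_lit 51) (nat_lit 5) (nat_lit 381) (nat_lit 346) (nat_lit 161))))) (XT.nd (nat_lit 282) (nat_lit 336) (nat_lit 0) (XT.nd (nat_lit 94) (nat_lit 420) (nat_lit 0) (XT.lf (nat_lit 0) (nat_lit 1020487994) (nat_lit 420) (nat_lit 2113444070) (nat_lit 84) (nat_lit 33948006498) (nat_lit 45) (nat_lit 5) (nat_lit 50) (nat_lit 5) (nat_lit 46) (nat_lit 5) (nat_lit 382) (nat_lit 346) (nat_lit 160)) (XT.nd (nat_lit 94) (nat_lit 0) (nat_lit 0) (XT.lf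 (nat_lit 0) (nat_lit 3317032126) (nat_lit 504) (nat_lit 28699499516) (nat_lit 84) (nat_lit 5856833662) (nat_lit 40) (nat_lit 5) (nat_lit 46) (nat_lit 5) (nat_lit 41) (nat_lit 5) (nat_lit 383) (nat_lit 346) (nat_lit 159)) (XT.lf (nat_lit 0) (nat_lit 5737064175) (nat_lit 504) (nat_lit 17867278070) (nat_lit 84) (nat_lit 15083375478) (nat_lit 40) (nat_lit 5) (nat_lit 46) (nat_lit 5) (nat_lit 41) (nat_lit 5) (nat_lit 384) (nat_lit 346) (nat_lit 158)))) (XT.nd (nat_lit 188) (nat_lit 0) (nat_lit 0) (XT.nd (nat_lit 94) (nat_lit 336) (nat_lit 0) (XT.lf (nat_lit 0) (nat_lit 8230135308) (nat_lit 504) (nat_lit 6701433740) (nat_lit 84) (nat_lit 24595819672) (nat_lit 40) (nat_lit 5) (nat_lit 46) (nat_lit 5) (nat_lit 41) (nat_lit 5) (nat_lit 385) (nat_lit 346) (nat_lit 157)) (XT.lf (nat_lit 0) (nat_lit 4907312622) (nat_lit 336) (nat_lit 5939937856) (nat_lit 420) (nat_lit 29544401363) (nat_lit 36)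 (nat_lit 5) (nat_lit 40) (nat_lit 5) (nat_lit 41) (nat_lit 5) (nat_lit 386) (nat_lit 346) (nat_lit 156))) (XT.nd (nat_lit 94) (nat_lit 0) (nat_lit 0) (XT.lf (nat_lit 0) (nat_lit 13647311911) (nat_lit 420) (nat_lit 24298452528) (nat_lit 84) (nat_lit 3333797886) (nat_lit 36) (nat_lit 5) (nat_lit 41) (nat_lit 5) (nat_lit 37) (nat_lit 5) (nat_lit 387) (nat_lit 346) (nat_lit 155)) (XT.lf (nat_lit 0) (nat_lit 16593096319) (nat_lit 420) (nat_lit 12828647178) (nat_lit 84) (nat_lit 12771439127) (nat_lit 36) (nat_lit 5) (nat_lit 41) (nat_lit 5) (nat_lit 37) (nat_lit 5) (nat_lit 388) (nat_lit 346) (nat_lit 154))))))))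
noncomputable def xc191 : XT := (XT.nd (nat_lit 2444) (nat_lit 168) (nat_lit 0) (XT.nd (nat_lit 1222) (nat_lit 672) (nat_lit 0) (XT.nd (nat_lit 564) (nat_lit 588) (nat_lit 0) (XT.nd (nat_lit 282) (nat_lit 252) (nat_lit 0) (XT.nd (nat_lit 94) (nat_lit 336) (nat_lit 0) (XT.lf (nat_lit 0) (nat_lit 19628424565) (nat_lit 420) (nat_lit 1005307190) (nat_lit 84) (nat_lit 22501459248) (nat_lit 36) (nat_lit 5) (nat_lit 41) (nat_lit 5) (nat_lit 37) (nat_lit 5) (nat_lit 389) (nat_lit 346) (nat_lit 153)) (XT.nd (nat_lit 94) (nat_lit 0) (nat_lit 0) (XT.lf (nat_lit 0) (nat_lit 11412524970) (nat_lit 336) (nat_lit 11456814583) (nat_lit 420) (nat_lit 21233616337) (nat_lit 32) (nat_lit 5) (nat_lit 36) (nat_lit 5) (nat_lit 37) (nat_lit 5) (nat_lit 390) (nat_lit 346) (nat_lit 152)) (XT.lf (nat_lit 0) (nat_lit 24234673528) (nat_lit 336) (nat_lit 1984853080) (nat_lit 420) (nat_lit 18880932134) (nat_lit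 32) (nat_lit 5) (nat_lit 36) (nat_lit 5) (nat_lit 37) (nat_lit 5) (nat_lit 391) (nat_lit 346) (nat_lit 151)))) (XT.nd (nat_lit 94) (nat_lit 252) (nat_lit 0) (XT.lf (nat_lit 0) (nat_lit 29749114031) (nat_lit 420) (nat_lit 8753709367) (nat_lit 84) (nat_lit 7623728769) (nat_lit 32) (nat_lit 5) (nat_lit 37) (nat_lit 5) (nat_lit 33) (nat_lit 5) (nat_lit 392) (nat_lit 346) (nat_lit 150)) (XT.nd (nat_lit 94) (nat_lit 0) (nat_lit 0) (XT.lf (nat_lit 0) (nat_lit 3787970204) (nat_lit 252) (nat_lit 29656433993) (nat_lit 336) (nat_lit 13738315006) (nat_lit 29) (nat_lit 5) (nat_lit 32) (nat_lit 5) (nat_lit 33) (nat_lit 5) (nat_lit 393) (nat_lit 346) (nat_lit 149)) (XT.lf (nat_lit 0) (nat_lit 16902145604) (nat_lit 252) (nat_lit 20441910864) (nat_lit 336) (nat_lit 10924796178) (nat_lit 29) (nat_lit 5) (nat_lit 32) (nat_lit 5) (nat_lit 33) (nat_lit 5) (nat_lit 394) (nat_lit 346) (nat_lit 148)))))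 (XT.nd (nat_lit 282) (nat_lit 336) (nat_lit 0) (XT.nd (nat_lit 94) (nat_lit 252) (nat_lit 0) (XT.lf (nat_lit 0) (nat_lit 30421046398) (nat_lit 252) (nat_lit 10942035885) (nat_lit 336) (nat_lit 8025629930) (nat_lit 29) (nat_lit 5) (nat_lit 32) (nat_lit 5) (nat_lit 33) (nat_lit 5) (nat_lit 395) (nat_lit 346) (nat_lit 147)) (XT.nd (nat_lit 94) (nat_lit 252) (nat_lit 0) (XT.lf (nat_lit 0) (nat_lit 44357273617) (nat_lit 252) (nat_lit 1147954176) (nat_lit 336) (nat_lit 5038113936) (nat_lit 29) (nat_lit 5) (nat_lit 32) (nat_lit 5) (nat_lit 33) (nat_lit 5) (nat_lit 396) (nat_lit 346) (nat_lit 146)) (XT.lf (nat_lit 0) (nat_lit 7043123308) (nat_lit 252) (nat_lit 42889879046) (nat_lit 336) (nat_lit 1795896976) (nat_lit 26) (nat_lit 5) (nat_lit 29) (nat_lit 5) (nat_lit 30) (nat_lit 5) (nat_lit 397) (nat_lit 346) (nat_lit 145)))) (XT.nd (nat_lit 188) (nat_lit 252) (nat_lit 0) (XT.nd (nat_lit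 94) (nat_lit 0) (nat_lit 0) (XT.lf (nat_lit 0) (nat_lit 1591209317) (nat_lit 336) (nat_lit 32165168467) (nat_lit 84) (nat_lit 19192021793) (nat_lit 25) (nat_lit 5) (nat_lit 29) (nat_lit 5) (nat_lit 26) (nat_lit 5) (nat_lit 398) (nat_lit 346) (nat_lit 144)) (XT.lf (nat_lit 0) (nat_lit 5044628387) (nat_lit 336) (nat_lit 19276512453) (nat_lit 84) (nat_lit 29884044676) (nat_lit 25) (nat_lit 5) (nat_lit 29) (nat_lit 5) (nat_lit 26) (nat_lit 5) (nat_lit 399) (nat_lit 346) (nat_lit 143))) (XT.nd (nat_lit 94) (nat_lit 252) (nat_lit 0) (XT.lf (nat_lit 0) (nat_lit 8603762502) (nat_lit 336) (nat_lit 5989978880) (nat_lit 84) (nat_lit 40907239499) (nat_lit 25) (nat_lit 5) (nat_lit 29) (nat_lit 5) (nat_lit 26) (nat_lit 5) (nat_lit 400) (nat_lit 346) (nat_lit 142)) (XT.lf (nat_lit 0) (nat_lit 7865284648) (nat_lit 252) (nat_lit 4484669097) (nat_lit 336) (nat_lit 44484620984) (nat_lit 22) (nat_lit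 5) (nat_lit 25) (nat_lit 5) (nat_lit 26) (nat_lit 5) (nat_lit 401) (nat_lit 346) (nat_lit 141)))))) (XT.nd (nat_lit 564) (nat_lit 420) (nat_lit 0) (XT.nd (nat_lit 282) (nat_lit 252) (nat_lit 0) (XT.nd (nat_lit 94) (nat_lit 0) (nat_lit 0) (XT.lf (nat_lit 0) (nat_lit 16333062360) (nat_lit 336) (nat_lit 35991716586) (nat_lit 84) (nat_lit 5880993743) (nat_lit 22) (nat_lit 5) (nat_lit 26) (nat_lit 5) (nat_lit 23) (nat_lit 5) (nat_lit 402) (nat_lit 346) (nat_lit 140)) (XT.nd (nat_lit 94) (nat_lit 0) (nat_lit 0) (XT.lf (nat_lit 0) (nat_lit 20484272791) (nat_lit 336) (nat_lit 22659303934) (nat_lit 84) (nat_lit 16474524509) (nat_lit 22) (nat_lit 5) (nat_lit 26) (nat_lit 5) (nat_lit 23) (nat_lit 5) (nat_lit 403) (nat_lit 346) (nat_lit 139)) (XT.lf (nat_lit 0) (nat_lit 24762965928) (nat_lit 336) (nat_lit 8915136448) (nat_lit 84) (nat_lit 27396153570) (nat_lit 22) (nat_lit 5) (nat_lit 26) (nat_lit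 5) (nat_lit 23) (nat_lit 5) (nat_lit 404) (nat_lit 346) (nat_lit 138)))) (XT.nd (nat_lit 94) (nat_lit 0) (nat_lit 0) (XT.lf (nat_lit 0) (nat_lit 5361621601) (nat_lit 252) (nat_lit 23864696311) (nat_lit 336) (nat_lit 33347627376) (nat_lit 19) (nat_lit 5) (nat_lit 22) (nat_lit 5) (nat_lit 23) (nat_lit 5) (nat_lit 405) (nat_lit 346) (nat_lit 137)) (XT.nd (nat_lit 94) (nat_lit 0) (nat_lit 0) (XT.lf (nat_lit 0) (nat_lit 20268467225) (nat_lit 252) (nat_lit 13651474107) (nat_lit 336) (nat_lit 30197340774) (nat_lit 19) (nat_lit 5) (nat_lit 22) (nat_lit 5) (nat_lit 23) (nat_lit 5) (nat_lit 406) (nat_lit 346) (nat_lit 136)) (XT.lf (nat_lit 0) (nat_lit 35635981674) (nat_lit 252) (nat_lit 3121971713) (nat_lit 336) (nat_lit 26950549556) (nat_lit 19) (nat_lit 5) (nat_lit 22) (nat_lit 5) (nat_lit 23) (nat_lit 5) (nat_lit 407) (nat_lit 346) (nat_lit 135))))) (XT.nd (nat_lit 282) (nat_lit 252) (nat_lit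 0) (XT.nd (nat_lit 94) (nat_lit 168) (nat_lit 0) (XT.lf (nat_lit 0) (nat_lit 43821582133) (nat_lit 336) (nat_lit 15947320423) (nat_lit 84) (nat_lit 7577810152) (nat_lit 19) (nat_lit 5) (nat_lit 23) (nat_lit 5) (nat_lit 20) (nat_lit 5) (nat_lit 408) (nat_lit 346) (nat_lit 134)) (XT.nd (nat_lit 94) (nat_lit 168) (nat_lit 0) (XT.lf (nat_lit 0) (nat_lit 49073062994) (nat_lit 336) (nat_lit 1417561769) (nat_lit 84) (nat_lit 18544130639) (nat_lit 19) (nat_lit 5) (nat_lit 23) (nat_lit 5) (nat_lit 20) (nat_lit 5) (nat_lit 409) (nat_lit 346) (nat_lit 133)) (XT.lf (nat_lit 0) (nat_lit 13840115786) (nat_lit 168) (nat_lit 40783500430) (nat_lit 252) (nat_lit 16147292155) (nat_lit 17) (nat_lit 5) (nat_lit 19) (nat_lit 5) (nat_lit 20) (nat_lit 5) (nat_lit 410) (nat_lit 346) (nat_lit 132)))) (XT.nd (nat_lit 188) (nat_lit 252) (nat_lit 0) (XT.nd (nat_lit 94) (nat_lit 0) (nat_lit 0) (XT.lf (nat_lit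 0) (nat_lit 29599495483) (nat_lit 168) (nat_lit 30760535714) (nat_lit 252) (nat_lit 12200428609) (nat_lit 17) (nat_lit 5) (nat_lit 19) (nat_lit 5) (nat_lit 20) (nat_lit 5) (nat_lit 411) (nat_lit 346) (nat_lit 131)) (XT.lf (nat_lit 0) (nat_lit 45846118736) (nat_lit 168) (nat_lit 20427184601) (nat_lit 252) (nat_lit 8132219318) (nat_lit 17) (nat_lit 5) (nat_lit 19) (nat_lit 5) (nat_lit 20) (nat_lit 5) (nat_lit 412) (nat_lit 346) (nat_lit 130))) (XT.nd (nat_lit 94) (nat_lit 252) (nat_lit 0) (XT.lf (nat_lit 0) (nat_lit 62595129099) (nat_lit 168) (nat_lit 9773815323) (nat_lit 252) (nat_lit 3938872285) (nat_lit 17) (nat_lit 5) (nat_lit 19) (nat_lit 5) (nat_lit 20) (nat_lit 5) (nat_lit 413) (nat_lit 346) (nat_lit 129)) (XT.lf (nat_lit 0) (nat_lit 404085325) (nat_lit 252) (nat_lit 76658803948) (nat_lit 84) (nat_lit 1205230857) (nat_lit 14) (nat_lit 5) (nat_lit 17) (nat_lit 5) (nat_lit 15)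 (nat_lit 5) (nat_lit 414) (nat_lit 346) (nat_lit 128))))))) (XT.nd (nat_lit 49632) (nat_lit 0) (nat_lit 5124) (XT.nd (nat_lit 564) (nat_lit 0) (nat_lit 0) (XT.nd (nat_lit 282) (nat_lit 168) (nat_lit 0) (XT.nd (nat_lit 94) (nat_lit 0) (nat_lit 0) (XT.lf (nat_lit 0) (nat_lit 5043498600) (nat_lit 252) (nat_lit 62730725771) (nat_lit 84) (nat_lit 12506171387) (nat_lit 14) (nat_lit 5) (nat_lit 17) (nat_lit 5) (nat_lit 15) (nat_lit 5) (nat_lit 415) (nat_lit 346) (nat_lit 127)) (XT.nd (nat_lit 94) (nat_lit 0) (nat_lit 0) (XT.lf (nat_lit 0) (nat_lit 9825845461) (nat_lit 252) (nat_lit 48372100579) (nat_lit 84) (nat_lit 24157137885) (nat_lit 14) (nat_lit 5) (nat_lit 17) (nat_lit 5) (nat_lit 15) (nat_lit 5) (nat_lit 416) (nat_lit 346) (nat_lit 126)) (XT.lf (nat_lit 0) (nat_lit 14755583557) (nat_lit 252) (nat_lit 33569544630) (nat_lit 84) (nat_lit 36168990272) (nat_lit 14) (nat_lit 5) (nat_lit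 17) (nat_lit 5) (nat_lit 15) (nat_lit 5) (nat_lit 417) (nat_lit 346) (nat_lit 125)))) (XT.nd (nat_lit 94) (nat_lit 168) (nat_lit 0) (XT.lf (nat_lit 0) (nat_lit 19837307920) (nat_lit 252) (nat_lit 18309260391) (nat_lit 84) (nat_lit 48552924853) (nat_lit 14) (nat_lit 5) (nat_lit 17) (nat_lit 5) (nat_lit 15) (nat_lit 5) (nat_lit 418) (nat_lit 346) (nat_lit 124)) (XT.nd (nat_lit 94) (nat_lit 168) (nat_lit 0) (XT.lf (nat_lit 0) (nat_lit 25075755249) (nat_lit 252) (nat_lit 2577023677) (nat_lit 84) (nat_lit 61320484752) (nat_lit 14) (nat_lit 5) (nat_lit 17) (nat_lit 5) (nat_lit 15) (nat_lit 5) (nat_lit 419) (nat_lit 346) (nat_lit 123)) (XT.lf (nat_lit 0) (nat_lit 13922333598) (nat_lit 168) (nat_lit 16691586002) (nat_lit 252) (nat_lit 60699348347) (nat_lit 12) (nat_lit 5) (nat_lit 14) (nat_lit 5) (nat_lit 15) (nat_lit 5) (nat_lit 420) (nat_lit 346) (nat_lit 122))))) (XT.nd (nat_lit 282)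 (nat_lit 0) (nat_lit 0) (XT.nd (nat_lit 94) (nat_lit 0) (nat_lit 0) (XT.lf (nat_lit 0) (nat_lit 30986730687) (nat_lit 168) (nat_lit 5363162085) (nat_lit 252) (nat_lit 57375113507) (nat_lit 12) (nat_lit 5) (nat_lit 14) (nat_lit 5) (nat_lit 15) (nat_lit 5) (nat_lit 421) (nat_lit 346) (nat_lit 121)) (XT.nd (nat_lit 94) (nat_lit 0) (nat_lit 0) (XT.lf (nat_lit 0) (nat_lit 42325588267) (nat_lit 252) (nat_lit 47695107977) (nat_lit 84) (nat_lit 6188896846) (nat_lit 12) (nat_lit 5) (nat_lit 15) (nat_lit 5) (nat_lit 13) (nat_lit 5) (nat_lit 422) (nat_lit 346) (nat_lit 120)) (XT.lf (nat_lit 0) (nat_lit 48540652744) (nat_lit 252) (nat_lit 32241486384) (nat_lit 84) (nat_lit 17987388772) (nat_lit 12) (nat_lit 5) (nat_lit 15) (nat_lit 5) (nat_lit 13) (nat_lit 5) (nat_lit 423) (nat_lit 346) (nat_lit 119)))) (XT.nd (nat_lit 48598) (nat_lit 0) (nat_lit 5796) (XT.nd (nat_lit 48504) (nat_lit 0) (nat_lit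 5796) (XT.lf (nat_lit 0) (nat_lit 54947676064) (nat_lit 252) (nat_lit 16309803187) (nat_lit 84) (nat_lit 30151366885) (nat_lit 12) (nat_lit 5) (nat_lit 15) (nat_lit 5) (nat_lit 13) (nat_lit 5) (nat_lit 424) (nat_lit 346) (nat_lit 118)) (XT.lf (nat_lit 0) (nat_lit 3558005705) (nat_lit 0) (nat_lit 3558005705) (nat_lit 924) (nat_lit 2836767612) (nat_lit 81) (nat_lit 5) (nat_lit 81) (nat_lit 3) (nat_lit 92) (nat_lit 3) (nat_lit 347) (nat_lit 347) (nat_lit 194))) (XT.nd (nat_lit 94) (nat_lit 0) (nat_lit 0) (XT.lf (nat_lit 0) (nat_lit 13781061732) (nat_lit 0) (nat_lit 800087202) (nat_lit 924) (nat_lit 5628022870) (nat_lit 81) (nat_lit 5) (nat_lit 81) (nat_lit 3) (nat_lit 92) (nat_lit 3) (nat_lit 348) (nat_lit 347) (nat_lit 193)) (XT.lf (nat_lit 84) (nat_lit 72518398) (nat_lit 0) (nat_lit 14920805544) (nat_lit 1008) (nat_lit 5527292435) (nat_lit 82) (nat_lit 5) (nat_lit 81) (nat_lit 5)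 (nat_lit 93) (nat_lit 5) (nat_lit 349) (nat_lit 347) (nat_lit 192)))))) (XT.nd (nat_lit 564) (nat_lit 672) (nat_lit 0) (XT.nd (nat_lit 282) (nat_lit 0) (nat_lit 84) (XT.nd (nat_lit 94) (nat_lit 0) (nat_lit 0) (XT.lf (nat_lit 84) (nat_lit 6899802495) (nat_lit 0) (nat_lit 8588644168) (nat_lit 1008) (nat_lit 5351130450) (nat_lit 82) (nat_lit 5) (nat_lit 81) (nat_lit 5) (nat_lit 93) (nat_lit 5) (nat_lit 350) (nat_lit 347) (nat_lit 191)) (XT.nd (nat_lit 94) (nat_lit 0) (nat_lit 84) (XT.lf (nat_lit 84) (nat_lit 13936031001) (nat_lit 0) (nat_lit 2058012152) (nat_lit 1008) (nat_lit 5174569162) (nat_lit 82) (nat_lit 5) (nat_lit 81) (nat_lit 5) (nat_lit 93) (nat_lit 5) (nat_lit 351) (nat_lit 347) (nat_lit 190)) (XT.lf (nat_lit 0) (nat_lit 16556982863) (nat_lit 924) (nat_lit 366664443) (nat_lit 1008) (nat_lit 4582943027) (nat_lit 82) (nat_lit 5) (nat_lit 93) (nat_lit 5) (nat_lit 94) (nat_lit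 5) (nat_lit 352) (nat_lit 347) (nat_lit 189)))) (XT.nd (nat_lit 94) (nat_lit 0) (nat_lit 0) (XT.lf (nat_lit 84) (nat_lit 6825835293) (nat_lit 0) (nat_lit 10395734171) (nat_lit 1008) (nat_lit 4630899591) (nat_lit 83) (nat_lit 5) (nat_lit 82) (nat_lit 5) (nat_lit 94) (nat_lit 5) (nat_lit 353) (nat_lit 347) (nat_lit 188)) (XT.nd (nat_lit 94) (nat_lit 0) (nat_lit 84) (XT.lf (nat_lit 84) (nat_lit 14246366028) (nat_lit 0) (nat_lit 3659763865) (nat_lit 1008) (nat_lit 4302992048) (nat_lit 83) (nat_lit 5) (nat_lit 82) (nat_lit 5) (nat_lit 94) (nat_lit 5) (nat_lit 354) (nat_lit 347) (nat_lit 187)) (XT.lf (nat_lit 0) (nat_lit 18640194702) (nat_lit 924) (nat_lit 715296029) (nat_lit 1008) (nat_lit 3220495032) (nat_lit 83) (nat_lit 5) (nat_lit 94) (nat_lit 5) (nat_lit 95) (nat_lit 5) (nat_lit 355) (nat_lit 347) (nat_lit 186))))) (XT.nd (nat_lit 282) (nat_lit 840) (nat_lit 0) (XT.nd (nat_lit 94)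 (nat_lit 0) (nat_lit 0) (XT.lf (nat_lit 84) (nat_lit 6854787165) (nat_lit 0) (nat_lit 12643484090) (nat_lit 1008) (nat_lit 3452842705) (nat_lit 84) (nat_lit 5) (nat_lit 83) (nat_lit 5) (nat_lit 95) (nat_lit 5) (nat_lit 356) (nat_lit 347) (nat_lit 185)) (XT.nd (nat_lit 94) (nat_lit 0) (nat_lit 84) (XT.lf (nat_lit 84) (nat_lit 14672008581) (nat_lit 0) (nat_lit 5714329225) (nat_lit 1008) (nat_lit 2951457852) (nat_lit 84) (nat_lit 5) (nat_lit 83) (nat_lit 5) (nat_lit 95) (nat_lit 5) (nat_lit 357) (nat_lit 347) (nat_lit 184)) (XT.lf (nat_lit 0) (nat_lit 21312175759) (nat_lit 924) (nat_lit 1021864409) (nat_lit 1008) (nat_lit 1402135554) (nat_lit 84) (nat_lit 5) (nat_lit 95) (nat_lit 5) (nat_lit 96) (nat_lit 5) (nat_lit 358) (nat_lit 347) (nat_lit 183)))) (XT.nd (nat_lit 188) (nat_lit 924) (nat_lit 0) (XT.nd (nat_lit 94) (nat_lit 0) (nat_lit 0) (XT.lf (nat_lit 84) (nat_lit 6937655981) (nat_lit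 0) (nat_lit 15452502987) (nat_lit 1008) (nat_lit 1752947679) (nat_lit 85) (nat_lit 5) (nat_lit 84) (nat_lit 5) (nat_lit 96) (nat_lit 5) (nat_lit 359) (nat_lit 347) (nat_lit 182)) (XT.lf (nat_lit 84) (nat_lit 15162913767) (nat_lit 0) (nat_lit 8345578222) (nat_lit 1008) (nat_lit 1053972556) (nat_lit 85) (nat_lit 5) (nat_lit 84) (nat_lit 5) (nat_lit 96) (nat_lit 5) (nat_lit 360) (nat_lit 347) (nat_lit 181))) (XT.nd (nat_lit 94) (nat_lit 924) (nat_lit 0) (XT.lf (nat_lit 84) (nat_lit 23640564122) (nat_lit 0) (nat_lit 1017307642) (nat_lit 1008) (nat_lit 337089244) (nat_lit 85) (nat_lit 5) (nat_lit 84) (nat_lit 5) (nat_lit 96) (nat_lit 5) (nat_lit 361) (nat_lit 347) (nat_lit 180)) (XT.lf (nat_lit 0) (nat_lit 526167669) (nat_lit 1008) (nat_lit 18428201793) (nat_lit 1092) (nat_lit 6482296671) (nat_lit 73) (nat_lit 5) (nat_lit 85) (nat_lit 5) (nat_lit 86) (nat_lit 5) (nat_lit 362) (nat_lit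 347) (nat_lit 179))))))))
noncomputable def xc192 : XT := (XT.nd (nat_lit 2350) (nat_lit 1596) (nat_lit 0) (XT.nd (nat_lit 1128) (nat_lit 1596) (nat_lit 0) (XT.nd (nat_lit 564) (nat_lit 924) (nat_lit 0) (XT.nd (nat_lit 282) (nat_lit 588) (nat_lit 0) (XT.nd (nat_lit 94) (nat_lit 0) (nat_lit 0) (XT.lf (nat_lit 0) (nat_lit 1430387098) (nat_lit 1008) (nat_lit 10249061367) (nat_lit 1092) (nat_lit 14211875369) (nat_lit 73) (nat_lit 5) (nat_lit 85) (nat_lit 5) (nat_lit 86) (nat_lit 5) (nat_lit 363) (nat_lit 347) (nat_lit 178)) (XT.nd (nat_lit 94) (nat_lit 0) (nat_lit 84) (XT.lf (nat_lit 0) (nat_lit 2359259356) (nat_lit 1008) (nat_lit 1819011029) (nat_lit 1092) (nat_lit 22181933448) (nat_lit 73) (nat_lit 5) (nat_lit 85) (nat_lit 5) (nat_lit 86) (nat_lit 5) (nat_lit 364) (nat_lit 347) (nat_lit 177)) (XT.lf (nat_lit 0) (nat_lit 3419189727) (nat_lit 1008) (nat_lit 19866511726) (nat_lit 84)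 (nat_lit 3554769997) (nat_lit 74) (nat_lit 5) (nat_lit 86) (nat_lit 5) (nat_lit 75) (nat_lit 5) (nat_lit 365) (nat_lit 347) (nat_lit 176)))) (XT.nd (nat_lit 94) (nat_lit 672) (nat_lit 0) (XT.lf (nat_lit 0) (nat_lit 4570696280) (nat_lit 1008) (nat_lit 11302557900) (nat_lit 84) (nat_lit 11460574730) (nat_lit 74) (nat_lit 5) (nat_lit 86) (nat_lit 5) (nat_lit 75) (nat_lit 5) (nat_lit 366) (nat_lit 347) (nat_lit 175)) (XT.nd (nat_lit 94) (nat_lit 672) (nat_lit 0) (XT.lf (nat_lit 0) (nat_lit 5754799177) (nat_lit 1008) (nat_lit 2475707062) (nat_lit 84) (nat_lit 19612091484) (nat_lit 74) (nat_lit 5) (nat_lit 86) (nat_lit 5) (nat_lit 75) (nat_lit 5) (nat_lit 367) (nat_lit 347) (nat_lit 174)) (XT.lf (nat_lit 0) (nat_lit 6758435756) (nat_lit 672) (nat_lit 281210889) (nat_lit 756) (nat_lit 21325527091) (nat_lit 66) (nat_lit 5) (nat_lit 74) (nat_lit 5) (nat_lit 75) (nat_lit 5) (nat_lit 368) (nat_lit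 347) (nat_lit 173))))) (XT.nd (nat_lit 282) (nat_lit 420) (nat_lit 0) (XT.nd (nat_lit 94) (nat_lit 504) (nat_lit 0) (XT.lf (nat_lit 0) (nat_lit 8466006137) (nat_lit 756) (nat_lit 12653203141) (nat_lit 84) (nat_lit 7781608100) (nat_lit 66) (nat_lit 5) (nat_lit 75) (nat_lit 5) (nat_lit 67) (nat_lit 5) (nat_lit 369) (nat_lit 347) (nat_lit 172)) (XT.nd (nat_lit 94) (nat_lit 504) (nat_lit 0) (XT.lf (nat_lit 0) (nat_lit 9936610408) (nat_lit 756) (nat_lit 3427504796) (nat_lit 84) (nat_lit 16088969221) (nat_lit 66) (nat_lit 5) (nat_lit 75) (nat_lit 5) (nat_lit 67) (nat_lit 5) (nat_lit 370) (nat_lit 347) (nat_lit 171)) (XT.lf (nat_lit 0) (nat_lit 6206799189) (nat_lit 504) (nat_lit 5304813596) (nat_lit 588) (nat_lit 18509054602) (nat_lit 60) (nat_lit 5) (nat_lit 66) (nat_lit 5) (nat_lit 67) (nat_lit 5) (nat_lit 371) (nat_lit 347) (nat_lit 170)))) (XT.nd (nat_lit 94) (nat_lit 420) (nat_lit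 0) (XT.lf (nat_lit 0) (nat_lit 13198684604) (nat_lit 588) (nat_lit 14425001895) (nat_lit 84) (nat_lit 2980216514) (nat_lit 60) (nat_lit 5) (nat_lit 67) (nat_lit 5) (nat_lit 61) (nat_lit 5) (nat_lit 372) (nat_lit 347) (nat_lit 169)) (XT.nd (nat_lit 94) (nat_lit 420) (nat_lit 0) (XT.lf (nat_lit 0) (nat_lit 14989691675) (nat_lit 588) (nat_lit 4801784837) (nat_lit 84) (nat_lit 11412159332) (nat_lit 60) (nat_lit 5) (nat_lit 67) (nat_lit 5) (nat_lit 61) (nat_lit 5) (nat_lit 373) (nat_lit 347) (nat_lit 168)) (XT.lf (nat_lit 0) (nat_lit 5222600998) (nat_lit 420) (nat_lit 11662886847) (nat_lit 504) (nat_lit 14934962332) (nat_lit 55) (nat_lit 5) (nat_lit 60) (nat_lit 5) (nat_lit 61) (nat_lit 5) (nat_lit 374) (nat_lit 347) (nat_lit 167)))))) (XT.nd (nat_lit 564) (nat_lit 840) (nat_lit 0) (XT.nd (nat_lit 282) (nat_lit 336) (nat_lit 0) (XT.nd (nat_lit 94) (nat_lit 420) (nat_lit 0) (XT.lf (nat_lit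 0) (nat_lit 15657187431) (nat_lit 420) (nat_lit 3230499167) (nat_lit 504) (nat_lit 13567239114) (nat_lit 55) (nat_lit 5) (nat_lit 60) (nat_lit 5) (nat_lit 61) (nat_lit 5) (nat_lit 375) (nat_lit 347) (nat_lit 166)) (XT.nd (nat_lit 94) (nat_lit 420) (nat_lit 0) (XT.lf (nat_lit 0) (nat_lit 21003738291) (nat_lit 504) (nat_lit 6750392684) (nat_lit 84) (nat_lit 5353349760) (nat_lit 55) (nat_lit 5) (nat_lit 61) (nat_lit 5) (nat_lit 56) (nat_lit 5) (nat_lit 376) (nat_lit 347) (nat_lit 165)) (XT.lf (nat_lit 0) (nat_lit 3646549183) (nat_lit 420) (nat_lit 19605713787) (nat_lit 504) (nat_lit 10525944453) (nat_lit 50) (nat_lit 5) (nat_lit 55) (nat_lit 5) (nat_lit 56) (nat_lit 5) (nat_lit 377) (nat_lit 347) (nat_lit 164)))) (XT.nd (nat_lit 94) (nat_lit 336) (nat_lit 0) (XT.lf (nat_lit 0) (nat_lit 14506623446) (nat_lit 420) (nat_lit 11132037222) (nat_lit 504) (nat_lit 8828967862) (nat_lit 50) (nat_lit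 5) (nat_lit 55) (nat_lit 5) (nat_lit 56) (nat_lit 5) (nat_lit 378) (nat_lit 347) (nat_lit 163)) (XT.nd (nat_lit 94) (nat_lit 336) (nat_lit 0) (XT.lf (nat_lit 0) (nat_lit 25701150912) (nat_lit 420) (nat_lit 2395663182) (nat_lit 504) (nat_lit 7081691168) (nat_lit 50) (nat_lit 5) (nat_lit 55) (nat_lit 5) (nat_lit 56) (nat_lit 5) (nat_lit 379) (nat_lit 347) (nat_lit 162)) (XT.lf (nat_lit 0) (nat_lit 1289458121) (nat_lit 336) (nat_lit 29417935379) (nat_lit 420) (nat_lit 5201676982) (nat_lit 46) (nat_lit 5) (nat_lit 50) (nat_lit 5) (nat_lit 51) (nat_lit 5) (nat_lit 380) (nat_lit 347) (nat_lit 161))))) (XT.nd (nat_lit 282) (nat_lit 756) (nat_lit 0) (XT.nd (nat_lit 94) (nat_lit 84) (nat_lit 0) (XT.lf (nat_lit 0) (nat_lit 12563749552) (nat_lit 336) (nat_lit 20956216731) (nat_lit 420) (nat_lit 3138577712) (nat_lit 46) (nat_lit 5) (nat_lit 50) (nat_lit 5) (nat_lit 51) (nat_lit 5) (nat_lit 381)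 (nat_lit 347) (nat_lit 160)) (XT.nd (nat_lit 94) (nat_lit 84) (nat_lit 0) (XT.lf (nat_lit 0) (nat_lit 24185408859) (nat_lit 336) (nat_lit 12232270824) (nat_lit 420) (nat_lit 1013648415) (nat_lit 46) (nat_lit 5) (nat_lit 50) (nat_lit 5) (nat_lit 51) (nat_lit 5) (nat_lit 382) (nat_lit 347) (nat_lit 159)) (XT.lf (nat_lit 0) (nat_lit 1151416089) (nat_lit 420) (nat_lit 2074531514) (nat_lit 84) (nat_lit 35001834133) (nat_lit 45) (nat_lit 5) (nat_lit 50) (nat_lit 5) (nat_lit 46) (nat_lit 5) (nat_lit 383) (nat_lit 347) (nat_lit 158)))) (XT.nd (nat_lit 188) (nat_lit 336) (nat_lit 0) (XT.nd (nat_lit 94) (nat_lit 0) (nat_lit 0) (XT.lf (nat_lit 0) (nat_lit 3517252932) (nat_lit 504) (nat_lit 29482254289) (nat_lit 84) (nat_lit 6044312998) (nat_lit 40) (nat_lit 5) (nat_lit 46) (nat_lit 5) (nat_lit 41) (nat_lit 5) (nat_lit 384) (nat_lit 347) (nat_lit 157)) (XT.lf (nat_lit 0) (nat_lit 6009377577)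 (nat_lit 504) (nat_lit 18317449130) (nat_lit 84) (nat_lit 15556699684) (nat_lit 40) (nat_lit 5) (nat_lit 46) (nat_lit 5) (nat_lit 41) (nat_lit 5) (nat_lit 385) (nat_lit 347) (nat_lit 156))) (XT.nd (nat_lit 94) (nat_lit 336) (nat_lit 0) (XT.lf (nat_lit 0) (nat_lit 8576893570) (nat_lit 504) (nat_lit 6808582104) (nat_lit 84) (nat_lit 25363857071) (nat_lit 40) (nat_lit 5) (nat_lit 46) (nat_lit 5) (nat_lit 41) (nat_lit 5) (nat_lit 386) (nat_lit 347) (nat_lit 155)) (XT.lf (nat_lit 0) (nat_lit 5159016950) (nat_lit 336) (nat_lit 6114355240) (nat_lit 420) (nat_lit 30367087593) (nat_lit 36) (nat_lit 5) (nat_lit 40) (nat_lit 5) (nat_lit 41) (nat_lit 5) (nat_lit 387) (nat_lit 347) (nat_lit 154))))))) (XT.nd (nat_lit 1222) (nat_lit 672) (nat_lit 0) (XT.nd (nat_lit 564) (nat_lit 588) (nat_lit 0) (XT.nd (nat_lit 282) (nat_lit 336) (nat_lit 0) (XT.nd (nat_lit 94) (nat_lit 0) (nat_lit 0) (XT.lf (nat_lit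 0) (nat_lit 14157627248) (nat_lit 420) (nat_lit 24951981499) (nat_lit 84) (nat_lit 3446384068) (nat_lit 36) (nat_lit 5) (nat_lit 41) (nat_lit 5) (nat_lit 37) (nat_lit 5) (nat_lit 388) (nat_lit 347) (nat_lit 153)) (XT.nd (nat_lit 94) (nat_lit 0) (nat_lit 0) (XT.lf (nat_lit 0) (nat_lit 17192107590) (nat_lit 420) (nat_lit 13129610646) (nat_lit 84) (nat_lit 13176314407) (nat_lit 36) (nat_lit 5) (nat_lit 41) (nat_lit 5) (nat_lit 37) (nat_lit 5) (nat_lit 389) (nat_lit 347) (nat_lit 152)) (XT.lf (nat_lit 0) (nat_lit 20318986507) (nat_lit 420) (nat_lit 942655423) (nat_lit 84) (nat_lit 23207695724) (nat_lit 36) (nat_lit 5) (nat_lit 41) (nat_lit 5) (nat_lit 37) (nat_lit 5) (nat_lit 390) (nat_lit 347) (nat_lit 151)))) (XT.nd (nat_lit 94) (nat_lit 0) (nat_lit 0) (XT.lf (nat_lit 0) (nat_lit 11859179728) (nat_lit 336) (nat_lit 11799643382) (nat_lit 420) (nat_lit 21808343118) (nat_lit 32) (nat_lit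 5) (nat_lit 36) (nat_lit 5) (nat_lit 37) (nat_lit 5) (nat_lit 391) (nat_lit 347) (nat_lit 150)) (XT.nd (nat_lit 94) (nat_lit 0) (nat_lit 0) (XT.lf (nat_lit 0) (nat_lit 25076022592) (nat_lit 336) (nat_lit 2034421883) (nat_lit 420) (nat_lit 19385236835) (nat_lit 32) (nat_lit 5) (nat_lit 36) (nat_lit 5) (nat_lit 37) (nat_lit 5) (nat_lit 392) (nat_lit 347) (nat_lit 149)) (XT.lf (nat_lit 0) (nat_lit 30747215521) (nat_lit 420) (nat_lit 8935018900) (nat_lit 84) (nat_lit 7871432587) (nat_lit 32) (nat_lit 5) (nat_lit 37) (nat_lit 5) (nat_lit 33) (nat_lit 5) (nat_lit 393) (nat_lit 347) (nat_lit 148))))) (XT.nd (nat_lit 282) (nat_lit 336) (nat_lit 0) (XT.nd (nat_lit 94) (nat_lit 0) (nat_lit 0) (XT.lf (nat_lit 0) (nat_lit 3994541007) (nat_lit 252) (nat_lit 30561121472) (nat_lit 336) (nat_lit 14086969769) (nat_lit 29) (nat_lit 5) (nat_lit 32) (nat_lit 5) (nat_lit 33) (nat_lit 5) (nat_lit 394)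 (nat_lit 347) (nat_lit 147)) (XT.nd (nat_lit 94) (nat_lit 0) (nat_lit 0) (XT.lf (nat_lit 0) (nat_lit 17512575480) (nat_lit 252) (nat_lit 21061388981) (nat_lit 336) (nat_lit 11188554091) (nat_lit 29) (nat_lit 5) (nat_lit 32) (nat_lit 5) (nat_lit 33) (nat_lit 5) (nat_lit 395) (nat_lit 347) (nat_lit 146)) (XT.lf (nat_lit 0) (nat_lit 31447962427) (nat_lit 252) (nat_lit 11267445476) (nat_lit 336) (nat_lit 8201766099) (nat_lit 29) (nat_lit 5) (nat_lit 32) (nat_lit 5) (nat_lit 33) (nat_lit 5) (nat_lit 396) (nat_lit 347) (nat_lit 145)))) (XT.nd (nat_lit 188) (nat_lit 84) (nat_lit 0) (XT.nd (nat_lit 94) (nat_lit 252) (nat_lit 0) (XT.lf (nat_lit 0) (nat_lit 45813691089) (nat_lit 252) (nat_lit 1170161977) (nat_lit 336) (nat_lit 5123821793) (nat_lit 29) (nat_lit 5) (nat_lit 32) (nat_lit 5) (nat_lit 33) (nat_lit 5) (nat_lit 397) (nat_lit 347) (nat_lit 144)) (XT.lf (nat_lit 0) (nat_lit 7344332278)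 (nat_lit 252) (nat_lit 44203463679) (nat_lit 336) (nat_lit 1782234796) (nat_lit 26) (nat_lit 5) (nat_lit 29) (nat_lit 5) (nat_lit 30) (nat_lit 5) (nat_lit 398) (nat_lit 347) (nat_lit 143))) (XT.nd (nat_lit 94) (nat_lit 0) (nat_lit 0) (XT.lf (nat_lit 0) (nat_lit 1706432093) (nat_lit 336) (nat_lit 33080185109) (nat_lit 84) (nat_lit 19800771726) (nat_lit 25) (nat_lit 5) (nat_lit 29) (nat_lit 5) (nat_lit 26) (nat_lit 5) (nat_lit 399) (nat_lit 347) (nat_lit 142)) (XT.lf (nat_lit 0) (nat_lit 5264925821) (nat_lit 336) (nat_lit 19794449440) (nat_lit 84) (nat_lit 30823832464) (nat_lit 25) (nat_lit 5) (nat_lit 29) (nat_lit 5) (nat_lit 26) (nat_lit 5) (nat_lit 400) (nat_lit 347) (nat_lit 141)))))) (XT.nd (nat_lit 564) (nat_lit 168) (nat_lit 0) (XT.nd (nat_lit 282) (nat_lit 252) (nat_lit 0) (XT.nd (nat_lit 94) (nat_lit 252) (nat_lit 0) (XT.lf (nat_lit 0) (nat_lit 8932471335) (nat_lit 336) (nat_lit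 6098427780) (nat_lit 84) (nat_lit 42188343947) (nat_lit 25) (nat_lit 5) (nat_lit 29) (nat_lit 5) (nat_lit 26) (nat_lit 5) (nat_lit 401) (nat_lit 347) (nat_lit 140)) (XT.nd (nat_lit 94) (nat_lit 0) (nat_lit 0) (XT.lf (nat_lit 0) (nat_lit 8185566927) (nat_lit 252) (nat_lit 4608122083) (nat_lit 336) (nat_lit 45800533998) (nat_lit 22) (nat_lit 5) (nat_lit 25) (nat_lit 5) (nat_lit 26) (nat_lit 5) (nat_lit 402) (nat_lit 347) (nat_lit 139)) (XT.lf (nat_lit 0) (nat_lit 16898593086) (nat_lit 336) (nat_lit 37031293438) (nat_lit 84) (nat_lit 6078103792) (nat_lit 22) (nat_lit 5) (nat_lit 26) (nat_lit 5) (nat_lit 23) (nat_lit 5) (nat_lit 403) (nat_lit 347) (nat_lit 138)))) (XT.nd (nat_lit 94) (nat_lit 252) (nat_lit 0) (XT.lf (nat_lit 0) (nat_lit 21176710847) (nat_lit 336) (nat_lit 23287866156) (nat_lit 84) (nat_lit 16999589030) (nat_lit 22) (nat_lit 5) (nat_lit 26) (nat_lit 5) (nat_lit 23) (nat_lit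 5) (nat_lit 404) (nat_lit 347) (nat_lit 137)) (XT.nd (nat_lit 94) (nat_lit 252) (nat_lit 0) (XT.lf (nat_lit 0) (nat_lit 25586316805) (nat_lit 336) (nat_lit 9119850780) (nat_lit 84) (nat_lit 28259356990) (nat_lit 22) (nat_lit 5) (nat_lit 26) (nat_lit 5) (nat_lit 23) (nat_lit 5) (nat_lit 405) (nat_lit 347) (nat_lit 136)) (XT.lf (nat_lit 0) (nat_lit 5598761327) (nat_lit 252) (nat_lit 24588300252) (nat_lit 336) (nat_lit 34324682031) (nat_lit 19) (nat_lit 5) (nat_lit 22) (nat_lit 5) (nat_lit 23) (nat_lit 5) (nat_lit 406) (nat_lit 347) (nat_lit 135))))) (XT.nd (nat_lit 282) (nat_lit 168) (nat_lit 0) (XT.nd (nat_lit 94) (nat_lit 0) (nat_lit 0) (XT.lf (nat_lit 0) (nat_lit 20965586466) (nat_lit 252) (nat_lit 14058955309) (nat_lit 336) (nat_lit 31078442050) (nat_lit 19) (nat_lit 5) (nat_lit 22) (nat_lit 5) (nat_lit 23) (nat_lit 5) (nat_lit 407) (nat_lit 347) (nat_lit 134)) (XT.nd (nat_lit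 94) (nat_lit 0) (nat_lit 0) (XT.lf (nat_lit 0) (nat_lit 36807425289) (nat_lit 252) (nat_lit 3203510843) (nat_lit 336) (nat_lit 27732654528) (nat_lit 19) (nat_lit 5) (nat_lit 22) (nat_lit 5) (nat_lit 23) (nat_lit 5) (nat_lit 408) (nat_lit 347) (nat_lit 133)) (XT.lf (nat_lit 0) (nat_lit 45230135944) (nat_lit 336) (nat_lit 16375292734) (nat_lit 84) (nat_lit 7827208107) (nat_lit 19) (nat_lit 5) (nat_lit 23) (nat_lit 5) (nat_lit 20) (nat_lit 5) (nat_lit 409) (nat_lit 347) (nat_lit 132)))) (XT.nd (nat_lit 188) (nat_lit 0) (nat_lit 0) (XT.nd (nat_lit 94) (nat_lit 168) (nat_lit 0) (XT.lf (nat_lit 0) (nat_lit 50642906768) (nat_lit 336) (nat_lit 1397107908) (nat_lit 84) (nat_lit 19133048970) (nat_lit 19) (nat_lit 5) (nat_lit 23) (nat_lit 5) (nat_lit 20) (nat_lit 5) (nat_lit 410) (nat_lit 347) (nat_lit 131)) (XT.lf (nat_lit 0) (nat_lit 14332905677) (nat_lit 168) (nat_lit 42031793172) (nat_lit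 252) (nat_lit 16598372101) (nat_lit 17) (nat_lit 5) (nat_lit 19) (nat_lit 5) (nat_lit 20) (nat_lit 5) (nat_lit 411) (nat_lit 347) (nat_lit 130))) (XT.nd (nat_lit 94) (nat_lit 0) (nat_lit 0) (XT.lf (nat_lit 0) (nat_lit 30578909427) (nat_lit 168) (nat_lit 31698597509) (nat_lit 252) (nat_lit 12530643728) (nat_lit 17) (nat_lit 5) (nat_lit 19) (nat_lit 5) (nat_lit 20) (nat_lit 5) (nat_lit 412) (nat_lit 347) (nat_lit 129)) (XT.lf (nat_lit 0) (nat_lit 47327318915) (nat_lit 168) (nat_lit 21045379009) (nat_lit 252) (nat_lit 8337763153) (nat_lit 17) (nat_lit 5) (nat_lit 19) (nat_lit 5) (nat_lit 20) (nat_lit 5) (nat_lit 413) (nat_lit 347) (nat_lit 128))))))))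
noncomputable def xc193 : XT := (XT.nd (nat_lit 50948) (nat_lit 0) (nat_lit 2016) (XT.nd (nat_lit 49726) (nat_lit 0) (nat_lit 5796) (XT.nd (nat_lit 564) (nat_lit 168) (nat_lit 0) (XT.nd (nat_lit 282) (nat_lit 0) (nat_lit 0) (XT.nd (nat_lit 94) (nat_lit 252) (nat_lit 0) (XT.lf (nat_lit 0) (nat_lit 64593745413) (nat_lit 168) (nat_lit 10062207755) (nat_lit 252) (nat_lit 4015822172) (nat_lit 17) (nat_lit 5) (nat_lit 19) (nat_lit 5) (nat_lit 20) (nat_lit 5) (nat_lit 414) (nat_lit 347) (nat_lit 127)) (XT.nd (nat_lit 94) (nat_lit 0) (nat_lit 0) (XT.lf (nat_lit 0) (nat_lit 460260159) (nat_lit 252) (nat_lit 78975107457) (nat_lit 84) (nat_lit 1257491973) (nat_lit 14) (nat_lit 5) (nat_lit 17) (nat_lit 5) (nat_lit 15) (nat_lit 5) (nat_lit 415) (nat_lit 347) (nat_lit 126)) (XT.lf (nat_lit 0) (nat_lit 5242182836) (nat_lit 252) (nat_lit 64617066521) (nat_lit 84) (nat_lit 12908313679) (nat_lit 14)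 (nat_lit 5) (nat_lit 17) (nat_lit 5) (nat_lit 15) (nat_lit 5) (nat_lit 416) (nat_lit 347) (nat_lit 125)))) (XT.nd (nat_lit 94) (nat_lit 0) (nat_lit 0) (XT.lf (nat_lit 0) (nat_lit 10171509503) (nat_lit 252) (nat_lit 49815077260) (nat_lit 84) (nat_lit 24920025628) (nat_lit 14) (nat_lit 5) (nat_lit 17) (nat_lit 5) (nat_lit 15) (nat_lit 5) (nat_lit 417) (nat_lit 347) (nat_lit 124)) (XT.nd (nat_lit 94) (nat_lit 0) (nat_lit 0) (XT.lf (nat_lit 0) (nat_lit 15252834807) (nat_lit 252) (nat_lit 34555342670) (nat_lit 84) (nat_lit 37303823993) (nat_lit 14) (nat_lit 5) (nat_lit 17) (nat_lit 5) (nat_lit 15) (nat_lit 5) (nat_lit 418) (nat_lit 347) (nat_lit 123)) (XT.lf (nat_lit 0) (nat_lit 20490895076) (nat_lit 252) (nat_lit 18823639079) (nat_lit 84) (nat_lit 50071251772) (nat_lit 14) (nat_lit 5) (nat_lit 17) (nat_lit 5) (nat_lit 15) (nat_lit 5) (nat_lit 419) (nat_lit 347) (nat_lit 122))))) (XT.nd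 (nat_lit 282) (nat_lit 0) (nat_lit 0) (XT.nd (nat_lit 94) (nat_lit 168) (nat_lit 0) (XT.lf (nat_lit 0) (nat_lit 25890572731) (nat_lit 252) (nat_lit 2605302891) (nat_lit 84) (nat_lit 63234209545) (nat_lit 14) (nat_lit 5) (nat_lit 17) (nat_lit 5) (nat_lit 15) (nat_lit 5) (nat_lit 420) (nat_lit 347) (nat_lit 121)) (XT.nd (nat_lit 94) (nat_lit 0) (nat_lit 0) (XT.lf (nat_lit 0) (nat_lit 14405011969) (nat_lit 168) (nat_lit 17194788371) (nat_lit 252) (nat_lit 62542854100) (nat_lit 12) (nat_lit 5) (nat_lit 14) (nat_lit 5) (nat_lit 15) (nat_lit 5) (nat_lit 421) (nat_lit 347) (nat_lit 120)) (XT.lf (nat_lit 0) (nat_lit 31996869319) (nat_lit 168) (nat_lit 5515611383) (nat_lit 252) (nat_lit 59116715793) (nat_lit 12) (nat_lit 5) (nat_lit 14) (nat_lit 5) (nat_lit 15) (nat_lit 5) (nat_lit 422) (nat_lit 347) (nat_lit 119)))) (XT.nd (nat_lit 48692) (nat_lit 0) (nat_lit 5796) (XT.lf (nat_lit 0) (nat_lit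 43672480958) (nat_lit 252) (nat_lit 49124482731) (nat_lit 84) (nat_lit 6393876326) (nat_lit 12) (nat_lit 5) (nat_lit 15) (nat_lit 5) (nat_lit 13) (nat_lit 5) (nat_lit 423) (nat_lit 347) (nat_lit 118)) (XT.nd (nat_lit 94) (nat_lit 0) (nat_lit 0) (XT.lf (nat_lit 0) (nat_lit 3731931245) (nat_lit 0) (nat_lit 3731931245) (nat_lit 924) (nat_lit 2792579119) (nat_lit 81) (nat_lit 5) (nat_lit 81) (nat_lit 3) (nat_lit 92) (nat_lit 3) (nat_lit 348) (nat_lit 348) (nat_lit 192)) (XT.lf (nat_lit 0) (nat_lit 14331703090) (nat_lit 0) (nat_lit 948318349) (nat_lit 924) (nat_lit 5546180640) (nat_lit 81) (nat_lit 5) (nat_lit 81) (nat_lit 3) (nat_lit 92) (nat_lit 3) (nat_lit 349) (nat_lit 348) (nat_lit 191)))))) (XT.nd (nat_lit 564) (nat_lit 0) (nat_lit 168) (XT.nd (nat_lit 282) (nat_lit 0) (nat_lit 84) (XT.nd (nat_lit 94) (nat_lit 0) (nat_lit 0) (XT.lf (nat_lit 84) (nat_lit 207515676) (nat_lit 0) (nat_lit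 15490165009) (nat_lit 1008) (nat_lit 5449901006) (nat_lit 82) (nat_lit 5) (nat_lit 81) (nat_lit 5) (nat_lit 93) (nat_lit 5) (nat_lit 350) (nat_lit 348) (nat_lit 190)) (XT.nd (nat_lit 94) (nat_lit 0) (nat_lit 0) (XT.lf (nat_lit 84) (nat_lit 7242454091) (nat_lit 0) (nat_lit 8958494943) (nat_lit 1008) (nat_lit 5275757011) (nat_lit 82) (nat_lit 5) (nat_lit 81) (nat_lit 5) (nat_lit 93) (nat_lit 5) (nat_lit 351) (nat_lit 348) (nat_lit 189)) (XT.lf (nat_lit 84) (nat_lit 14492934207) (nat_lit 0) (nat_lit 2222298216) (nat_lit 1008) (nat_lit 5100976458) (nat_lit 82) (nat_lit 5) (nat_lit 81) (nat_lit 5) (nat_lit 93) (nat_lit 5) (nat_lit 352) (nat_lit 348) (nat_lit 188)))) (XT.nd (nat_lit 94) (nat_lit 0) (nat_lit 0) (XT.lf (nat_lit 0) (nat_lit 17287879868) (nat_lit 924) (nat_lit 247562070) (nat_lit 1008) (nat_lit 4629511754) (nat_lit 82) (nat_lit 5) (nat_lit 93) (nat_lit 5) (nat_lit 94) (nat_lit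 5) (nat_lit 353) (nat_lit 348) (nat_lit 187)) (XT.nd (nat_lit 94) (nat_lit 0) (nat_lit 0) (XT.lf (nat_lit 84) (nat_lit 7166584278) (nat_lit 0) (nat_lit 10801221849) (nat_lit 1008) (nat_lit 4553959605) (nat_lit 83) (nat_lit 5) (nat_lit 82) (nat_lit 5) (nat_lit 94) (nat_lit 5) (nat_lit 354) (nat_lit 348) (nat_lit 186)) (XT.lf (nat_lit 84) (nat_lit 14813268254) (nat_lit 0) (nat_lit 3853934216) (nat_lit 1008) (nat_lit 4222516835) (nat_lit 83) (nat_lit 5) (nat_lit 82) (nat_lit 5) (nat_lit 94) (nat_lit 5) (nat_lit 355) (nat_lit 348) (nat_lit 185))))) (XT.nd (nat_lit 282) (nat_lit 0) (nat_lit 84) (XT.nd (nat_lit 94) (nat_lit 0) (nat_lit 0) (XT.lf (nat_lit 0) (nat_lit 19417053172) (nat_lit 924) (nat_lit 607546807) (nat_lit 1008) (nat_lit 3243617100) (nat_lit 83) (nat_lit 5) (nat_lit 94) (nat_lit 5) (nat_lit 95) (nat_lit 5) (nat_lit 356) (nat_lit 348) (nat_lit 184)) (XT.nd (nat_lit 94) (nat_lit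 0) (nat_lit 0) (XT.lf (nat_lit 84) (nat_lit 7195893609) (nat_lit 0) (nat_lit 13101128412) (nat_lit 1008) (nat_lit 3358141923) (nat_lit 84) (nat_lit 5) (nat_lit 83) (nat_lit 5) (nat_lit 95) (nat_lit 5) (nat_lit 357) (nat_lit 348) (nat_lit 183)) (XT.lf (nat_lit 84) (nat_lit 15251581915) (nat_lit 0) (nat_lit 5955194397) (nat_lit 1008) (nat_lit 2847280004) (nat_lit 84) (nat_lit 5) (nat_lit 83) (nat_lit 5) (nat_lit 95) (nat_lit 5) (nat_lit 358) (nat_lit 348) (nat_lit 182)))) (XT.nd (nat_lit 188) (nat_lit 0) (nat_lit 0) (XT.nd (nat_lit 94) (nat_lit 0) (nat_lit 0) (XT.lf (nat_lit 0) (nat_lit 22155035472) (nat_lit 924) (nat_lit 924944538) (nat_lit 1008) (nat_lit 1385041979) (nat_lit 84) (nat_lit 5) (nat_lit 95) (nat_lit 5) (nat_lit 96) (nat_lit 5) (nat_lit 359) (nat_lit 348) (nat_lit 181)) (XT.lf (nat_lit 84) (nat_lit 7280019048) (nat_lit 0) (nat_lit 15982202065) (nat_lit 1008) (nat_lit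 1622517243) (nat_lit 85) (nat_lit 5) (nat_lit 84) (nat_lit 5) (nat_lit 96) (nat_lit 5) (nat_lit 360) (nat_lit 348) (nat_lit 180))) (XT.nd (nat_lit 94) (nat_lit 0) (nat_lit 0) (XT.lf (nat_lit 84) (nat_lit 15756432311) (nat_lit 0) (nat_lit 8653439047) (nat_lit 1008) (nat_lit 907429590) (nat_lit 85) (nat_lit 5) (nat_lit 84) (nat_lit 5) (nat_lit 96) (nat_lit 5) (nat_lit 361) (nat_lit 348) (nat_lit 179)) (XT.lf (nat_lit 84) (nat_lit 24493177397) (nat_lit 0) (nat_lit 1096514305) (nat_lit 1008) (nat_lit 173711547) (nat_lit 85) (nat_lit 5) (nat_lit 84) (nat_lit 5) (nat_lit 96) (nat_lit 5) (nat_lit 362) (nat_lit 348) (nat_lit 178))))))) (XT.nd (nat_lit 1222) (nat_lit 1596) (nat_lit 0) (XT.nd (nat_lit 564) (nat_lit 1512) (nat_lit 0) (XT.nd (nat_lit 282) (nat_lit 0) (nat_lit 84) (XT.nd (nat_lit 94) (nat_lit 0) (nat_lit 0) (XT.lf (nat_lit 0) (nat_lit 708475594) (nat_lit 1008) (nat_lit 18869575006)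 (nat_lit 1092) (nat_lit 6640866688) (nat_lit 73) (nat_lit 5) (nat_lit 85) (nat_lit 5) (nat_lit 86) (nat_lit 5) (nat_lit 363) (nat_lit 348) (nat_lit 177)) (XT.nd (nat_lit 94) (nat_lit 0) (nat_lit 0) (XT.lf (nat_lit 0) (nat_lit 1635734654) (nat_lit 1008) (nat_lit 10440787078) (nat_lit 1092) (nat_lit 14611336638) (nat_lit 73) (nat_lit 5) (nat_lit 85) (nat_lit 5) (nat_lit 86) (nat_lit 5) (nat_lit 364) (nat_lit 348) (nat_lit 176)) (XT.lf (nat_lit 0) (nat_lit 2588560853) (nat_lit 1008) (nat_lit 1753193589) (nat_lit 1092) (nat_lit 22829702515) (nat_lit 73) (nat_lit 5) (nat_lit 85) (nat_lit 5) (nat_lit 86) (nat_lit 5) (nat_lit 365) (nat_lit 348) (nat_lit 175)))) (XT.nd (nat_lit 94) (nat_lit 0) (nat_lit 0) (XT.lf (nat_lit 0) (nat_lit 3677539100) (nat_lit 1008) (nat_lit 20355316982) (nat_lit 84) (nat_lit 3633907132) (nat_lit 74) (nat_lit 5) (nat_lit 86) (nat_lit 5) (nat_lit 75) (nat_lit 5)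 (nat_lit 366) (nat_lit 348) (nat_lit 174)) (XT.nd (nat_lit 94) (nat_lit 0) (nat_lit 0) (XT.lf (nat_lit 0) (nat_lit 4860161378) (nat_lit 1008) (nat_lit 11529700912) (nat_lit 84) (nat_lit 11785725743) (nat_lit 74) (nat_lit 5) (nat_lit 86) (nat_lit 5) (nat_lit 75) (nat_lit 5) (nat_lit 367) (nat_lit 348) (nat_lit 173)) (XT.lf (nat_lit 0) (nat_lit 6076528226) (nat_lit 1008) (nat_lit 2432923154) (nat_lit 84) (nat_lit 20190845367) (nat_lit 74) (nat_lit 5) (nat_lit 86) (nat_lit 5) (nat_lit 75) (nat_lit 5) (nat_lit 368) (nat_lit 348) (nat_lit 172))))) (XT.nd (nat_lit 282) (nat_lit 924) (nat_lit 0) (XT.nd (nat_lit 94) (nat_lit 0) (nat_lit 0) (XT.lf (nat_lit 0) (nat_lit 7086267949) (nat_lit 672) (nat_lit 311802132) (nat_lit 756) (nat_lit 21841129161) (nat_lit 66) (nat_lit 5) (nat_lit 74) (nat_lit 5) (nat_lit 75) (nat_lit 5) (nat_lit 369) (nat_lit 348) (nat_lit 171)) (XT.nd (nat_lit 94) (nat_lit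 0) (nat_lit 0) (XT.lf (nat_lit 0) (nat_lit 8864220902) (nat_lit 756) (nat_lit 12925343269) (nat_lit 84) (nat_lit 8002049397) (nat_lit 66) (nat_lit 5) (nat_lit 75) (nat_lit 5) (nat_lit 67) (nat_lit 5) (nat_lit 370) (nat_lit 348) (nat_lit 170)) (XT.lf (nat_lit 0) (nat_lit 10376331630) (nat_lit 756) (nat_lit 3417259705) (nat_lit 84) (nat_lit 16567563780) (nat_lit 66) (nat_lit 5) (nat_lit 75) (nat_lit 5) (nat_lit 67) (nat_lit 5) (nat_lit 371) (nat_lit 348) (nat_lit 169)))) (XT.nd (nat_lit 188) (nat_lit 420) (nat_lit 0) (XT.nd (nat_lit 94) (nat_lit 0) (nat_lit 0) (XT.lf (nat_lit 0) (nat_lit 6514528269) (nat_lit 504) (nat_lit 5482815255) (nat_lit 588) (nat_lit 18949103749) (nat_lit 60) (nat_lit 5) (nat_lit 66) (nat_lit 5) (nat_lit 67) (nat_lit 5) (nat_lit 372) (nat_lit 348) (nat_lit 168)) (XT.lf (nat_lit 0) (nat_lit 13732709297) (nat_lit 588) (nat_lit 14755480979) (nat_lit 84) (nat_lit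 3059723123) (nat_lit 60) (nat_lit 5) (nat_lit 67) (nat_lit 5) (nat_lit 61) (nat_lit 5) (nat_lit 373) (nat_lit 348) (nat_lit 167))) (XT.nd (nat_lit 94) (nat_lit 420) (nat_lit 0) (XT.lf (nat_lit 0) (nat_lit 15575483145) (nat_lit 588) (nat_lit 4837452995) (nat_lit 84) (nat_lit 11753443446) (nat_lit 60) (nat_lit 5) (nat_lit 67) (nat_lit 5) (nat_lit 61) (nat_lit 5) (nat_lit 374) (nat_lit 348) (nat_lit 166)) (XT.lf (nat_lit 0) (nat_lit 5496542883) (nat_lit 420) (nat_lit 12030976023) (nat_lit 504) (nat_lit 15274899182) (nat_lit 55) (nat_lit 5) (nat_lit 60) (nat_lit 5) (nat_lit 61) (nat_lit 5) (nat_lit 375) (nat_lit 348) (nat_lit 165)))))) (XT.nd (nat_lit 564) (nat_lit 840) (nat_lit 0) (XT.nd (nat_lit 282) (nat_lit 336) (nat_lit 0) (XT.nd (nat_lit 94) (nat_lit 420) (nat_lit 0) (XT.lf (nat_lit 0) (nat_lit 16251232651) (nat_lit 420) (nat_lit 3336987690) (nat_lit 504) (nat_lit 13868476307)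 (nat_lit 55) (nat_lit 5) (nat_lit 60) (nat_lit 5) (nat_lit 61) (nat_lit 5) (nat_lit 376) (nat_lit 348) (nat_lit 164)) (XT.nd (nat_lit 94) (nat_lit 420) (nat_lit 0) (XT.lf (nat_lit 0) (nat_lit 21766350332) (nat_lit 504) (nat_lit 6849987453) (nat_lit 84) (nat_lit 5513275232) (nat_lit 55) (nat_lit 5) (nat_lit 61) (nat_lit 5) (nat_lit 56) (nat_lit 5) (nat_lit 377) (nat_lit 348) (nat_lit 163)) (XT.lf (nat_lit 0) (nat_lit 3868149328) (nat_lit 420) (nat_lit 20214154393) (nat_lit 504) (nat_lit 10738921400) (nat_lit 50) (nat_lit 5) (nat_lit 55) (nat_lit 5) (nat_lit 56) (nat_lit 5) (nat_lit 378) (nat_lit 348) (nat_lit 162)))) (XT.nd (nat_lit 94) (nat_lit 336) (nat_lit 0) (XT.lf (nat_lit 0) (nat_lit 15061621809) (nat_lit 420) (nat_lit 11477773905) (nat_lit 504) (nat_lit 8992746049) (nat_lit 50) (nat_lit 5) (nat_lit 55) (nat_lit 5) (nat_lit 56) (nat_lit 5) (nat_lit 379) (nat_lit 348) (nat_lit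 161)) (XT.nd (nat_lit 94) (nat_lit 336) (nat_lit 0) (XT.lf (nat_lit 0) (nat_lit 26600013687) (nat_lit 420) (nat_lit 2470552920) (nat_lit 504) (nat_lit 7194608834) (nat_lit 50) (nat_lit 5) (nat_lit 55) (nat_lit 5) (nat_lit 56) (nat_lit 5) (nat_lit 380) (nat_lit 348) (nat_lit 160)) (XT.lf (nat_lit 0) (nat_lit 1434354972) (nat_lit 336) (nat_lit 30325664337) (nat_lit 420) (nat_lit 5258452960) (nat_lit 46) (nat_lit 5) (nat_lit 50) (nat_lit 5) (nat_lit 51) (nat_lit 5) (nat_lit 381) (nat_lit 348) (nat_lit 159))))) (XT.nd (nat_lit 282) (nat_lit 756) (nat_lit 0) (XT.nd (nat_lit 94) (nat_lit 84) (nat_lit 0) (XT.lf (nat_lit 0) (nat_lit 13054994604) (nat_lit 336) (nat_lit 21601759510) (nat_lit 420) (nat_lit 3134538987) (nat_lit 46) (nat_lit 5) (nat_lit 50) (nat_lit 5) (nat_lit 51) (nat_lit 5) (nat_lit 382) (nat_lit 348) (nat_lit 158)) (XT.nd (nat_lit 94) (nat_lit 84) (nat_lit 0) (XT.lf (nat_lit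 0) (nat_lit 25033865375) (nat_lit 336) (nat_lit 12607494556) (nat_lit 420) (nat_lit 946783801) (nat_lit 46) (nat_lit 5) (nat_lit 50) (nat_lit 5) (nat_lit 51) (nat_lit 5) (nat_lit 383) (nat_lit 348) (nat_lit 157)) (XT.lf (nat_lit 0) (nat_lit 1280521663) (nat_lit 420) (nat_lit 2040598196) (nat_lit 84) (nat_lit 36088245165) (nat_lit 45) (nat_lit 5) (nat_lit 50) (nat_lit 5) (nat_lit 46) (nat_lit 5) (nat_lit 384) (nat_lit 348) (nat_lit 156)))) (XT.nd (nat_lit 188) (nat_lit 336) (nat_lit 0) (XT.nd (nat_lit 94) (nat_lit 0) (nat_lit 0) (XT.lf (nat_lit 0) (nat_lit 3717911840) (nat_lit 504) (nat_lit 30295608091) (nat_lit 84) (nat_lit 6237253691) (nat_lit 40) (nat_lit 5) (nat_lit 46) (nat_lit 5) (nat_lit 41) (nat_lit 5) (nat_lit 385) (nat_lit 348) (nat_lit 155)) (XT.lf (nat_lit 0) (nat_lit 6284537407) (nat_lit 504) (nat_lit 18787718684) (nat_lit 84) (nat_lit 16044356976) (nat_lit 40) (nat_lit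 5) (nat_lit 46) (nat_lit 5) (nat_lit 41) (nat_lit 5) (nat_lit 386) (nat_lit 348) (nat_lit 154))) (XT.nd (nat_lit 94) (nat_lit 336) (nat_lit 0) (XT.lf (nat_lit 0) (nat_lit 8928974287) (nat_lit 504) (nat_lit 6925010546) (nat_lit 84) (nat_lit 26155373887) (nat_lit 40) (nat_lit 5) (nat_lit 46) (nat_lit 5) (nat_lit 41) (nat_lit 5) (nat_lit 387) (nat_lit 348) (nat_lit 153)) (XT.lf (nat_lit 0) (nat_lit 5412625958) (nat_lit 336) (nat_lit 6294755335) (nat_lit 420) (nat_lit 31220796912) (nat_lit 36) (nat_lit 5) (nat_lit 40) (nat_lit 5) (nat_lit 41) (nat_lit 5) (nat_lit 388) (nat_lit 348) (nat_lit 152))))))))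
noncomputable def xc194 : XT := (XT.nd (nat_lit 2350) (nat_lit 420) (nat_lit 0) (XT.nd (nat_lit 1128) (nat_lit 672) (nat_lit 0) (XT.nd (nat_lit 564) (nat_lit 588) (nat_lit 0) (XT.nd (nat_lit 282) (nat_lit 336) (nat_lit 0) (XT.nd (nat_lit 94) (nat_lit 0) (nat_lit 0) (XT.lf (nat_lit 0) (nat_lit 14678594473) (nat_lit 420) (nat_lit 25631676636) (nat_lit 84) (nat_lit 3561913213) (nat_lit 36) (nat_lit 5) (nat_lit 41) (nat_lit 5) (nat_lit 37) (nat_lit 5) (nat_lit 389) (nat_lit 348) (nat_lit 151)) (XT.nd (nat_lit 94) (nat_lit 0) (nat_lit 0) (XT.lf (nat_lit 0) (nat_lit 17804675709) (nat_lit 420) (nat_lit 13445633144) (nat_lit 84) (nat_lit 13593210065) (nat_lit 36) (nat_lit 5) (nat_lit 41) (nat_lit 5) (nat_lit 37) (nat_lit 5) (nat_lit 390) (nat_lit 348) (nat_lit 150)) (XT.lf (nat_lit 0) (nat_lit 21026094084) (nat_lit 420) (nat_lit 883618351) (nat_lit 84) (nat_lit 23935310733) (nat_lit 36)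 (nat_lit 5) (nat_lit 41) (nat_lit 5) (nat_lit 37) (nat_lit 5) (nat_lit 391) (nat_lit 348) (nat_lit 149)))) (XT.nd (nat_lit 94) (nat_lit 0) (nat_lit 0) (XT.lf (nat_lit 0) (nat_lit 12314180142) (nat_lit 336) (nat_lit 12153830347) (nat_lit 420) (nat_lit 22405833185) (nat_lit 32) (nat_lit 5) (nat_lit 36) (nat_lit 5) (nat_lit 37) (nat_lit 5) (nat_lit 392) (nat_lit 348) (nat_lit 148)) (XT.nd (nat_lit 94) (nat_lit 0) (nat_lit 0) (XT.lf (nat_lit 0) (nat_lit 25938118228) (nat_lit 336) (nat_lit 2086235828) (nat_lit 420) (nat_lit 19909972999) (nat_lit 32) (nat_lit 5) (nat_lit 36) (nat_lit 5) (nat_lit 37) (nat_lit 5) (nat_lit 393) (nat_lit 348) (nat_lit 147)) (XT.lf (nat_lit 0) (nat_lit 31771763718) (nat_lit 420) (nat_lit 9127283168) (nat_lit 84) (nat_lit 8126141864) (nat_lit 32) (nat_lit 5) (nat_lit 37) (nat_lit 5) (nat_lit 33) (nat_lit 5) (nat_lit 394) (nat_lit 348) (nat_lit 146))))) (XT.nd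 (nat_lit 282) (nat_lit 336) (nat_lit 0) (XT.nd (nat_lit 94) (nat_lit 0) (nat_lit 0) (XT.lf (nat_lit 0) (nat_lit 4202235370) (nat_lit 252) (nat_lit 31494722716) (nat_lit 336) (nat_lit 14451007473) (nat_lit 29) (nat_lit 5) (nat_lit 32) (nat_lit 5) (nat_lit 33) (nat_lit 5) (nat_lit 395) (nat_lit 348) (nat_lit 145)) (XT.nd (nat_lit 94) (nat_lit 0) (nat_lit 0) (XT.lf (nat_lit 0) (nat_lit 18136807309) (nat_lit 252) (nat_lit 21700913261) (nat_lit 336) (nat_lit 11464925593) (nat_lit 29) (nat_lit 5) (nat_lit 32) (nat_lit 5) (nat_lit 33) (nat_lit 5) (nat_lit 396) (nat_lit 348) (nat_lit 144)) (XT.lf (nat_lit 0) (nat_lit 32501745469) (nat_lit 252) (nat_lit 11603759779) (nat_lit 336) (nat_lit 8387666168) (nat_lit 29) (nat_lit 5) (nat_lit 32) (nat_lit 5) (nat_lit 33) (nat_lit 5) (nat_lit 397) (nat_lit 348) (nat_lit 143)))) (XT.nd (nat_lit 94) (nat_lit 336) (nat_lit 0) (XT.lf (nat_lit 0) (nat_lit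 47310439477) (nat_lit 252) (nat_lit 1193850667) (nat_lit 336) (nat_lit 5216360870) (nat_lit 29) (nat_lit 5) (nat_lit 32) (nat_lit 5) (nat_lit 33) (nat_lit 5) (nat_lit 398) (nat_lit 348) (nat_lit 142)) (XT.nd (nat_lit 94) (nat_lit 84) (nat_lit 0) (XT.lf (nat_lit 0) (nat_lit 7649970067) (nat_lit 252) (nat_lit 45558717239) (nat_lit 336) (nat_lit 1772255918) (nat_lit 26) (nat_lit 5) (nat_lit 29) (nat_lit 5) (nat_lit 30) (nat_lit 5) (nat_lit 399) (nat_lit 348) (nat_lit 141)) (XT.lf (nat_lit 0) (nat_lit 1821323684) (nat_lit 336) (nat_lit 34028430403) (nat_lit 84) (nat_lit 20427575672) (nat_lit 25) (nat_lit 5) (nat_lit 29) (nat_lit 5) (nat_lit 26) (nat_lit 5) (nat_lit 400) (nat_lit 348) (nat_lit 140)))))) (XT.nd (nat_lit 564) (nat_lit 420) (nat_lit 0) (XT.nd (nat_lit 282) (nat_lit 0) (nat_lit 0) (XT.nd (nat_lit 94) (nat_lit 252) (nat_lit 0) (XT.lf (nat_lit 0) (nat_lit 5488266743) (nat_lit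 336) (nat_lit 20333159385) (nat_lit 84) (nat_lit 31791961012) (nat_lit 25) (nat_lit 5) (nat_lit 29) (nat_lit 5) (nat_lit 26) (nat_lit 5) (nat_lit 401) (nat_lit 348) (nat_lit 139)) (XT.nd (nat_lit 94) (nat_lit 252) (nat_lit 0) (XT.lf (nat_lit 0) (nat_lit 9267698239) (nat_lit 336) (nat_lit 6214813681) (nat_lit 84) (nat_lit 43508393803) (nat_lit 25) (nat_lit 5) (nat_lit 29) (nat_lit 5) (nat_lit 26) (nat_lit 5) (nat_lit 402) (nat_lit 348) (nat_lit 138)) (XT.lf (nat_lit 0) (nat_lit 8511249191) (nat_lit 252) (nat_lit 4736324453) (nat_lit 336) (nat_lit 47160978443) (nat_lit 22) (nat_lit 5) (nat_lit 25) (nat_lit 5) (nat_lit 26) (nat_lit 5) (nat_lit 403) (nat_lit 348) (nat_lit 137)))) (XT.nd (nat_lit 94) (nat_lit 0) (nat_lit 0) (XT.lf (nat_lit 0) (nat_lit 17478148404) (nat_lit 336) (nat_lit 38107608637) (nat_lit 84) (nat_lit 6280447668) (nat_lit 22) (nat_lit 5) (nat_lit 26) (nat_lit 5) (nat_lit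 23) (nat_lit 5) (nat_lit 404) (nat_lit 348) (nat_lit 136)) (XT.nd (nat_lit 94) (nat_lit 0) (nat_lit 0) (XT.lf (nat_lit 0) (nat_lit 21887213066) (nat_lit 336) (nat_lit 23940289621) (nat_lit 84) (nat_lit 17540080324) (nat_lit 22) (nat_lit 5) (nat_lit 26) (nat_lit 5) (nat_lit 23) (nat_lit 5) (nat_lit 405) (nat_lit 348) (nat_lit 135)) (XT.lf (nat_lit 0) (nat_lit 26431892415) (nat_lit 336) (nat_lit 9335155499) (nat_lit 84) (nat_lit 29148495052) (nat_lit 22) (nat_lit 5) (nat_lit 26) (nat_lit 5) (nat_lit 23) (nat_lit 5) (nat_lit 406) (nat_lit 348) (nat_lit 134))))) (XT.nd (nat_lit 282) (nat_lit 168) (nat_lit 0) (XT.nd (nat_lit 94) (nat_lit 0) (nat_lit 0) (XT.lf (nat_lit 0) (nat_lit 5839051112) (nat_lit 252) (nat_lit 25335295566) (nat_lit 336) (nat_lit 35335385110) (nat_lit 19) (nat_lit 5) (nat_lit 22) (nat_lit 5) (nat_lit 23) (nat_lit 5) (nat_lit 407) (nat_lit 348) (nat_lit 133)) (XT.nd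 (nat_lit 94) (nat_lit 0) (nat_lit 0) (XT.lf (nat_lit 0) (nat_lit 21680241454) (nat_lit 252) (nat_lit 14479999225) (nat_lit 336) (nat_lit 31990116174) (nat_lit 19) (nat_lit 5) (nat_lit 22) (nat_lit 5) (nat_lit 23) (nat_lit 5) (nat_lit 408) (nat_lit 348) (nat_lit 132)) (XT.lf (nat_lit 0) (nat_lit 38011231232) (nat_lit 252) (nat_lit 3288480495) (nat_lit 336) (nat_lit 28542165480) (nat_lit 19) (nat_lit 5) (nat_lit 22) (nat_lit 5) (nat_lit 23) (nat_lit 5) (nat_lit 409) (nat_lit 348) (nat_lit 131)))) (XT.nd (nat_lit 188) (nat_lit 168) (nat_lit 0) (XT.nd (nat_lit 94) (nat_lit 0) (nat_lit 0) (XT.lf (nat_lit 0) (nat_lit 46679388316) (nat_lit 336) (nat_lit 16820464854) (nat_lit 84) (nat_lit 8083479377) (nat_lit 19) (nat_lit 5) (nat_lit 23) (nat_lit 5) (nat_lit 20) (nat_lit 5) (nat_lit 410) (nat_lit 348) (nat_lit 130)) (XT.lf (nat_lit 0) (nat_lit 52258538292) (nat_lit 336) (nat_lit 1379834397)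 (nat_lit 84) (nat_lit 19739391547) (nat_lit 19) (nat_lit 5) (nat_lit 23) (nat_lit 5) (nat_lit 20) (nat_lit 5) (nat_lit 411) (nat_lit 348) (nat_lit 129))) (XT.nd (nat_lit 94) (nat_lit 0) (nat_lit 0) (XT.lf (nat_lit 0) (nat_lit 14837196251) (nat_lit 168) (nat_lit 43319730445) (nat_lit 252) (nat_lit 17066366672) (nat_lit 17) (nat_lit 5) (nat_lit 19) (nat_lit 5) (nat_lit 20) (nat_lit 5) (nat_lit 412) (nat_lit 348) (nat_lit 128)) (XT.lf (nat_lit 0) (nat_lit 31585022931) (nat_lit 168) (nat_lit 32666658188) (nat_lit 252) (nat_lit 12873938530) (nat_lit 17) (nat_lit 5) (nat_lit 19) (nat_lit 5) (nat_lit 20) (nat_lit 5) (nat_lit 413) (nat_lit 348) (nat_lit 127))))))) (XT.nd (nat_lit 49914) (nat_lit 0) (nat_lit 5124) (XT.nd (nat_lit 564) (nat_lit 168) (nat_lit 0) (XT.nd (nat_lit 282) (nat_lit 0) (nat_lit 0) (XT.nd (nat_lit 94) (nat_lit 252) (nat_lit 0) (XT.lf (nat_lit 0) (nat_lit 48850884144)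 (nat_lit 168) (nat_lit 21683628780) (nat_lit 252) (nat_lit 8552436378) (nat_lit 17) (nat_lit 5) (nat_lit 19) (nat_lit 5) (nat_lit 20) (nat_lit 5) (nat_lit 414) (nat_lit 348) (nat_lit 126)) (XT.nd (nat_lit 94) (nat_lit 252) (nat_lit 0) (XT.lf (nat_lit 0) (nat_lit 66650873483) (nat_lit 168) (nat_lit 10360404888) (nat_lit 252) (nat_lit 4097832122) (nat_lit 17) (nat_lit 5) (nat_lit 19) (nat_lit 5) (nat_lit 20) (nat_lit 5) (nat_lit 415) (nat_lit 348) (nat_lit 125)) (XT.lf (nat_lit 0) (nat_lit 515591056) (nat_lit 252) (nat_lit 81366777351) (nat_lit 84) (nat_lit 1310490692) (nat_lit 14) (nat_lit 5) (nat_lit 17) (nat_lit 5) (nat_lit 15) (nat_lit 5) (nat_lit 416) (nat_lit 348) (nat_lit 124)))) (XT.nd (nat_lit 94) (nat_lit 0) (nat_lit 0) (XT.lf (nat_lit 0) (nat_lit 5444518664) (nat_lit 252) (nat_lit 66565337739) (nat_lit 84) (nat_lit 13322066426) (nat_lit 14) (nat_lit 5) (nat_lit 17) (nat_lit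 5) (nat_lit 15) (nat_lit 5) (nat_lit 417) (nat_lit 348) (nat_lit 123)) (XT.nd (nat_lit 94) (nat_lit 0) (nat_lit 0) (XT.lf (nat_lit 0) (nat_lit 10525456907) (nat_lit 252) (nat_lit 51306136271) (nat_lit 84) (nat_lit 25705732671) (nat_lit 14) (nat_lit 5) (nat_lit 17) (nat_lit 5) (nat_lit 15) (nat_lit 5) (nat_lit 418) (nat_lit 348) (nat_lit 122)) (XT.lf (nat_lit 0) (nat_lit 15763141755) (nat_lit 252) (nat_lit 35574949773) (nat_lit 84) (nat_lit 38473032303) (nat_lit 14) (nat_lit 5) (nat_lit 17) (nat_lit 5) (nat_lit 15) (nat_lit 5) (nat_lit 419) (nat_lit 348) (nat_lit 121))))) (XT.nd (nat_lit 282) (nat_lit 0) (nat_lit 0) (XT.nd (nat_lit 94) (nat_lit 168) (nat_lit 0) (XT.lf (nat_lit 0) (nat_lit 21162455276) (nat_lit 252) (nat_lit 19357115130) (nat_lit 84) (nat_lit 51635865782) (nat_lit 14) (nat_lit 5) (nat_lit 17) (nat_lit 5) (nat_lit 15) (nat_lit 5) (nat_lit 420) (nat_lit 348) (nat_lit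 120)) (XT.nd (nat_lit 94) (nat_lit 168) (nat_lit 0) (XT.lf (nat_lit 0) (nat_lit 26728430198) (nat_lit 252) (nat_lit 2637515622) (nat_lit 84) (nat_lit 65206502248) (nat_lit 14) (nat_lit 5) (nat_lit 17) (nat_lit 5) (nat_lit 15) (nat_lit 5) (nat_lit 421) (nat_lit 348) (nat_lit 119)) (XT.lf (nat_lit 0) (nat_lit 14899627457) (nat_lit 168) (nat_lit 17714433283) (nat_lit 252) (nat_lit 64445769646) (nat_lit 12) (nat_lit 5) (nat_lit 14) (nat_lit 5) (nat_lit 15) (nat_lit 5) (nat_lit 422) (nat_lit 348) (nat_lit 118)))) (XT.nd (nat_lit 48880) (nat_lit 0) (nat_lit 5796) (XT.nd (nat_lit 48786) (nat_lit 0) (nat_lit 5796) (XT.lf (nat_lit 0) (nat_lit 33035387318) (nat_lit 168) (nat_lit 5673604524) (nat_lit 252) (nat_lit 60914500877) (nat_lit 12) (nat_lit 5) (nat_lit 14) (nat_lit 5) (nat_lit 15) (nat_lit 5) (nat_lit 423) (nat_lit 348) (nat_lit 117)) (XT.lf (nat_lit 0) (nat_lit 3907479720) (nat_lit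 0) (nat_lit 3907479720) (nat_lit 924) (nat_lit 2754846968) (nat_lit 81) (nat_lit 5) (nat_lit 81) (nat_lit 3) (nat_lit 92) (nat_lit 3) (nat_lit 349) (nat_lit 349) (nat_lit 190))) (XT.nd (nat_lit 94) (nat_lit 0) (nat_lit 0) (XT.lf (nat_lit 0) (nat_lit 14892103452) (nat_lit 0) (nat_lit 1093833785) (nat_lit 924) (nat_lit 5476983037) (nat_lit 81) (nat_lit 5) (nat_lit 81) (nat_lit 3) (nat_lit 92) (nat_lit 3) (nat_lit 350) (nat_lit 349) (nat_lit 189)) (XT.lf (nat_lit 84) (nat_lit 338834907) (nat_lit 0) (nat_lit 16070847812) (nat_lit 1008) (nat_lit 5384843590) (nat_lit 82) (nat_lit 5) (nat_lit 81) (nat_lit 5) (nat_lit 93) (nat_lit 5) (nat_lit 351) (nat_lit 349) (nat_lit 188)))))) (XT.nd (nat_lit 564) (nat_lit 672) (nat_lit 0) (XT.nd (nat_lit 282) (nat_lit 0) (nat_lit 84) (XT.nd (nat_lit 94) (nat_lit 0) (nat_lit 0) (XT.lf (nat_lit 84) (nat_lit 7588101346) (nat_lit 0) (nat_lit 9333674521)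 (nat_lit 1008) (nat_lit 5212337150) (nat_lit 82) (nat_lit 5) (nat_lit 81) (nat_lit 5) (nat_lit 93) (nat_lit 5) (nat_lit 352) (nat_lit 349) (nat_lit 187)) (XT.nd (nat_lit 94) (nat_lit 0) (nat_lit 84) (XT.lf (nat_lit 84) (nat_lit 15059704186) (nat_lit 0) (nat_lit 2385725091) (nat_lit 1008) (nat_lit 5038962859) (nat_lit 82) (nat_lit 5) (nat_lit 81) (nat_lit 5) (nat_lit 93) (nat_lit 5) (nat_lit 353) (nat_lit 349) (nat_lit 186)) (XT.lf (nat_lit 0) (nat_lit 18028544051) (nat_lit 924) (nat_lit 132495423) (nat_lit 1008) (nat_lit 4683180888) (nat_lit 82) (nat_lit 5) (nat_lit 93) (nat_lit 5) (nat_lit 94) (nat_lit 5) (nat_lit 354) (nat_lit 349) (nat_lit 185)))) (XT.nd (nat_lit 94) (nat_lit 0) (nat_lit 0) (XT.lf (nat_lit 84) (nat_lit 7510246819) (nat_lit 0) (nat_lit 11214350386) (nat_lit 1008) (nat_lit 4487694946) (nat_lit 83) (nat_lit 5) (nat_lit 82) (nat_lit 5) (nat_lit 94) (nat_lit 5) (nat_lit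 355) (nat_lit 349) (nat_lit 184)) (XT.nd (nat_lit 94) (nat_lit 0) (nat_lit 84) (XT.lf (nat_lit 84) (nat_lit 15390324796) (nat_lit 0) (nat_lit 4049342801) (nat_lit 1008) (nat_lit 4152214657) (nat_lit 83) (nat_lit 5) (nat_lit 82) (nat_lit 5) (nat_lit 94) (nat_lit 5) (nat_lit 356) (nat_lit 349) (nat_lit 183)) (XT.lf (nat_lit 0) (nat_lit 20206206408) (nat_lit 924) (nat_lit 504152943) (nat_lit 1008) (nat_lit 3271999811) (nat_lit 83) (nat_lit 5) (nat_lit 94) (nat_lit 5) (nat_lit 95) (nat_lit 5) (nat_lit 357) (nat_lit 349) (nat_lit 182))))) (XT.nd (nat_lit 282) (nat_lit 840) (nat_lit 0) (XT.nd (nat_lit 94) (nat_lit 0) (nat_lit 0) (XT.lf (nat_lit 84) (nat_lit 7539956678) (nat_lit 0) (nat_lit 13569068403) (nat_lit 1008) (nat_lit 3272454759) (nat_lit 84) (nat_lit 5) (nat_lit 83) (nat_lit 5) (nat_lit 95) (nat_lit 5) (nat_lit 358) (nat_lit 349) (nat_lit 181)) (XT.nd (nat_lit 94) (nat_lit 0)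 (nat_lit 84) (XT.lf (nat_lit 84) (nat_lit 15841733396) (nat_lit 0) (nat_lit 6199752087) (nat_lit 1008) (nat_lit 2751462692) (nat_lit 84) (nat_lit 5) (nat_lit 83) (nat_lit 5) (nat_lit 95) (nat_lit 5) (nat_lit 359) (nat_lit 349) (nat_lit 180)) (XT.lf (nat_lit 0) (nat_lit 23013232869) (nat_lit 924) (nat_lit 832637211) (nat_lit 1008) (nat_lit 1371005562) (nat_lit 84) (nat_lit 5) (nat_lit 95) (nat_lit 5) (nat_lit 96) (nat_lit 5) (nat_lit 360) (nat_lit 349) (nat_lit 179)))) (XT.nd (nat_lit 188) (nat_lit 924) (nat_lit 0) (XT.nd (nat_lit 94) (nat_lit 0) (nat_lit 0) (XT.lf (nat_lit 84) (nat_lit 7625455426) (nat_lit 0) (nat_lit 16525320455) (nat_lit 1008) (nat_lit 1498987814) (nat_lit 85) (nat_lit 5) (nat_lit 84) (nat_lit 5) (nat_lit 96) (nat_lit 5) (nat_lit 361) (nat_lit 349) (nat_lit 178)) (XT.lf (nat_lit 84) (nat_lit 16361036695) (nat_lit 0) (nat_lit 8967932443) (nat_lit 1008) (nat_lit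 766959070) (nat_lit 85) (nat_lit 5) (nat_lit 84) (nat_lit 5) (nat_lit 96) (nat_lit 5) (nat_lit 362) (nat_lit 349) (nat_lit 177))) (XT.nd (nat_lit 94) (nat_lit 924) (nat_lit 0) (XT.lf (nat_lit 84) (nat_lit 25365128343) (nat_lit 0) (nat_lit 1175352792) (nat_lit 1008) (nat_lit 15565240) (nat_lit 85) (nat_lit 5) (nat_lit 84) (nat_lit 5) (nat_lit 96) (nat_lit 5) (nat_lit 363) (nat_lit 349) (nat_lit 176)) (XT.lf (nat_lit 0) (nat_lit 886602795) (nat_lit 1008) (nat_lit 19332325049) (nat_lit 1092) (nat_lit 6806862685) (nat_lit 73) (nat_lit 5) (nat_lit 85) (nat_lit 5) (nat_lit 86) (nat_lit 5) (nat_lit 364) (nat_lit 349) (nat_lit 175))))))))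
noncomputable def xc195 : XT := (XT.nd (nat_lit 2350) (nat_lit 1596) (nat_lit 0) (XT.nd (nat_lit 1128) (nat_lit 1596) (nat_lit 0) (XT.nd (nat_lit 564) (nat_lit 924) (nat_lit 0) (XT.nd (nat_lit 282) (nat_lit 588) (nat_lit 0) (XT.nd (nat_lit 94) (nat_lit 0) (nat_lit 0) (XT.lf (nat_lit 0) (nat_lit 1837911349) (nat_lit 1008) (nat_lit 10645919197) (nat_lit 1092) (nat_lit 15025616037) (nat_lit 73) (nat_lit 5) (nat_lit 85) (nat_lit 5) (nat_lit 86) (nat_lit 5) (nat_lit 365) (nat_lit 349) (nat_lit 174)) (XT.nd (nat_lit 94) (nat_lit 0) (nat_lit 84) (XT.lf (nat_lit 0) (nat_lit 2815720809) (nat_lit 1008) (nat_lit 1692574326) (nat_lit 1092) (nat_lit 23499914042) (nat_lit 73) (nat_lit 5) (nat_lit 85) (nat_lit 5) (nat_lit 86) (nat_lit 5) (nat_lit 366) (nat_lit 349) (nat_lit 173)) (XT.lf (nat_lit 0) (nat_lit 3934873087) (nat_lit 1008) (nat_lit 20866800981) (nat_lit 84) (nat_lit 3717337300) (nat_lit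 74) (nat_lit 5) (nat_lit 86) (nat_lit 5) (nat_lit 75) (nat_lit 5) (nat_lit 367) (nat_lit 349) (nat_lit 172)))) (XT.nd (nat_lit 94) (nat_lit 672) (nat_lit 0) (XT.lf (nat_lit 0) (nat_lit 5149847015) (nat_lit 1008) (nat_lit 11771184854) (nat_lit 84) (nat_lit 12122740900) (nat_lit 74) (nat_lit 5) (nat_lit 86) (nat_lit 5) (nat_lit 75) (nat_lit 5) (nat_lit 368) (nat_lit 349) (nat_lit 171)) (XT.nd (nat_lit 94) (nat_lit 672) (nat_lit 0) (XT.lf (nat_lit 0) (nat_lit 6399741178) (nat_lit 1008) (nat_lit 2395892960) (nat_lit 84) (nat_lit 20789271427) (nat_lit 74) (nat_lit 5) (nat_lit 86) (nat_lit 5) (nat_lit 75) (nat_lit 5) (nat_lit 369) (nat_lit 349) (nat_lit 170)) (XT.lf (nat_lit 0) (nat_lit 7417254604) (nat_lit 672) (nat_lit 342046087) (nat_lit 756) (nat_lit 22381332474) (nat_lit 66) (nat_lit 5) (nat_lit 74) (nat_lit 5) (nat_lit 75) (nat_lit 5) (nat_lit 370) (nat_lit 349) (nat_lit 169)))))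 (XT.nd (nat_lit 282) (nat_lit 420) (nat_lit 0) (XT.nd (nat_lit 94) (nat_lit 504) (nat_lit 0) (XT.lf (nat_lit 0) (nat_lit 9266738520) (nat_lit 756) (nat_lit 13213034012) (nat_lit 84) (nat_lit 8230555715) (nat_lit 66) (nat_lit 5) (nat_lit 75) (nat_lit 5) (nat_lit 67) (nat_lit 5) (nat_lit 371) (nat_lit 349) (nat_lit 168)) (XT.nd (nat_lit 94) (nat_lit 504) (nat_lit 0) (XT.lf (nat_lit 0) (nat_lit 10821884206) (nat_lit 756) (nat_lit 3413597377) (nat_lit 84) (nat_lit 17062189089) (nat_lit 66) (nat_lit 5) (nat_lit 75) (nat_lit 5) (nat_lit 67) (nat_lit 5) (nat_lit 372) (nat_lit 349) (nat_lit 167)) (XT.lf (nat_lit 0) (nat_lit 6824966449) (nat_lit 504) (nat_lit 5665532231) (nat_lit 588) (nat_lit 19410715569) (nat_lit 60) (nat_lit 5) (nat_lit 66) (nat_lit 5) (nat_lit 67) (nat_lit 5) (nat_lit 373) (nat_lit 349) (nat_lit 166)))) (XT.nd (nat_lit 94) (nat_lit 420) (nat_lit 0) (XT.lf (nat_lit 0)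 (nat_lit 14275892760) (nat_lit 588) (nat_lit 15103117016) (nat_lit 84) (nat_lit 3142457348) (nat_lit 60) (nat_lit 5) (nat_lit 67) (nat_lit 5) (nat_lit 61) (nat_lit 5) (nat_lit 374) (nat_lit 349) (nat_lit 165)) (XT.nd (nat_lit 94) (nat_lit 420) (nat_lit 0) (XT.lf (nat_lit 0) (nat_lit 16172260538) (nat_lit 588) (nat_lit 4880931135) (nat_lit 84) (nat_lit 12106047339) (nat_lit 60) (nat_lit 5) (nat_lit 67) (nat_lit 5) (nat_lit 61) (nat_lit 5) (nat_lit 375) (nat_lit 349) (nat_lit 164)) (XT.lf (nat_lit 0) (nat_lit 5772340571) (nat_lit 420) (nat_lit 12410088607) (nat_lit 504) (nat_lit 15632662357) (nat_lit 55) (nat_lit 5) (nat_lit 60) (nat_lit 5) (nat_lit 61) (nat_lit 5) (nat_lit 376) (nat_lit 349) (nat_lit 163)))))) (XT.nd (nat_lit 564) (nat_lit 840) (nat_lit 0) (XT.nd (nat_lit 282) (nat_lit 336) (nat_lit 0) (XT.nd (nat_lit 94) (nat_lit 420) (nat_lit 0) (XT.lf (nat_lit 0) (nat_lit 16857256420)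 (nat_lit 420) (nat_lit 3446401648) (nat_lit 504) (nat_lit 14186120993) (nat_lit 55) (nat_lit 5) (nat_lit 60) (nat_lit 5) (nat_lit 61) (nat_lit 5) (nat_lit 377) (nat_lit 349) (nat_lit 162)) (XT.nd (nat_lit 94) (nat_lit 420) (nat_lit 0) (XT.lf (nat_lit 0) (nat_lit 22545999238) (nat_lit 504) (nat_lit 6959165448) (nat_lit 84) (nat_lit 5678515464) (nat_lit 55) (nat_lit 5) (nat_lit 61) (nat_lit 5) (nat_lit 56) (nat_lit 5) (nat_lit 378) (nat_lit 349) (nat_lit 161)) (XT.lf (nat_lit 0) (nat_lit 4090189053) (nat_lit 420) (nat_lit 20841417359) (nat_lit 504) (nat_lit 10965213204) (nat_lit 50) (nat_lit 5) (nat_lit 55) (nat_lit 5) (nat_lit 56) (nat_lit 5) (nat_lit 379) (nat_lit 349) (nat_lit 160)))) (XT.nd (nat_lit 94) (nat_lit 336) (nat_lit 0) (XT.lf (nat_lit 0) (nat_lit 15627588434) (nat_lit 420) (nat_lit 11834190308) (nat_lit 504) (nat_lit 9168112098) (nat_lit 50) (nat_lit 5) (nat_lit 55) (nat_lit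 5) (nat_lit 56) (nat_lit 5) (nat_lit 380) (nat_lit 349) (nat_lit 159)) (XT.nd (nat_lit 94) (nat_lit 336) (nat_lit 0) (XT.lf (nat_lit 0) (nat_lit 27520692045) (nat_lit 420) (nat_lit 2547727269) (nat_lit 504) (nat_lit 7317341924) (nat_lit 50) (nat_lit 5) (nat_lit 55) (nat_lit 5) (nat_lit 56) (nat_lit 5) (nat_lit 381) (nat_lit 349) (nat_lit 158)) (XT.lf (nat_lit 0) (nat_lit 1577528818) (nat_lit 336) (nat_lit 31261783269) (nat_lit 420) (nat_lit 5323177286) (nat_lit 46) (nat_lit 5) (nat_lit 50) (nat_lit 5) (nat_lit 51) (nat_lit 5) (nat_lit 382) (nat_lit 349) (nat_lit 157))))) (XT.nd (nat_lit 282) (nat_lit 756) (nat_lit 0) (XT.nd (nat_lit 94) (nat_lit 84) (nat_lit 0) (XT.lf (nat_lit 0) (nat_lit 13555440312) (nat_lit 336) (nat_lit 22267556961) (nat_lit 420) (nat_lit 3136377285) (nat_lit 46) (nat_lit 5) (nat_lit 50) (nat_lit 5) (nat_lit 51) (nat_lit 5) (nat_lit 383) (nat_lit 349) (nat_lit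 156)) (XT.nd (nat_lit 94) (nat_lit 84) (nat_lit 0) (XT.lf (nat_lit 0) (nat_lit 25902777350) (nat_lit 336) (nat_lit 12994585769) (nat_lit 420) (nat_lit 883668133) (nat_lit 46) (nat_lit 5) (nat_lit 50) (nat_lit 5) (nat_lit 51) (nat_lit 5) (nat_lit 384) (nat_lit 349) (nat_lit 155)) (XT.lf (nat_lit 0) (nat_lit 1408096576) (nat_lit 420) (nat_lit 2011432094) (nat_lit 84) (nat_lit 37208254728) (nat_lit 45) (nat_lit 5) (nat_lit 50) (nat_lit 5) (nat_lit 46) (nat_lit 5) (nat_lit 385) (nat_lit 349) (nat_lit 154)))) (XT.nd (nat_lit 188) (nat_lit 336) (nat_lit 0) (XT.nd (nat_lit 94) (nat_lit 0) (nat_lit 0) (XT.lf (nat_lit 0) (nat_lit 3919364124) (nat_lit 504) (nat_lit 31140134338) (nat_lit 84) (nat_lit 6435845802) (nat_lit 40) (nat_lit 5) (nat_lit 46) (nat_lit 5) (nat_lit 41) (nat_lit 5) (nat_lit 386) (nat_lit 349) (nat_lit 153)) (XT.lf (nat_lit 0) (nat_lit 6562963320) (nat_lit 504) (nat_lit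 19278345913) (nat_lit 84) (nat_lit 16546811817) (nat_lit 40) (nat_lit 5) (nat_lit 46) (nat_lit 5) (nat_lit 41) (nat_lit 5) (nat_lit 387) (nat_lit 349) (nat_lit 152))) (XT.nd (nat_lit 94) (nat_lit 336) (nat_lit 0) (XT.lf (nat_lit 0) (nat_lit 9286863910) (nat_lit 504) (nat_lit 7050653817) (nat_lit 84) (nat_lit 26971117514) (nat_lit 40) (nat_lit 5) (nat_lit 46) (nat_lit 5) (nat_lit 41) (nat_lit 5) (nat_lit 388) (nat_lit 349) (nat_lit 151)) (XT.lf (nat_lit 0) (nat_lit 5668548049) (nat_lit 336) (nat_lit 6481289503) (nat_lit 420) (nat_lit 32106164088) (nat_lit 36) (nat_lit 5) (nat_lit 40) (nat_lit 5) (nat_lit 41) (nat_lit 5) (nat_lit 389) (nat_lit 349) (nat_lit 150))))))) (XT.nd (nat_lit 1222) (nat_lit 672) (nat_lit 0) (XT.nd (nat_lit 564) (nat_lit 588) (nat_lit 0) (XT.nd (nat_lit 282) (nat_lit 336) (nat_lit 0) (XT.nd (nat_lit 94) (nat_lit 0) (nat_lit 0) (XT.lf (nat_lit 0) (nat_lit 15210849897)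 (nat_lit 420) (nat_lit 26337999222) (nat_lit 84) (nat_lit 3680508964) (nat_lit 36) (nat_lit 5) (nat_lit 41) (nat_lit 5) (nat_lit 37) (nat_lit 5) (nat_lit 390) (nat_lit 349) (nat_lit 149)) (XT.nd (nat_lit 94) (nat_lit 0) (nat_lit 0) (XT.lf (nat_lit 0) (nat_lit 18431517838) (nat_lit 420) (nat_lit 13776842156) (nat_lit 84) (nat_lit 14022530171) (nat_lit 36) (nat_lit 5) (nat_lit 41) (nat_lit 5) (nat_lit 37) (nat_lit 5) (nat_lit 391) (nat_lit 349) (nat_lit 148)) (XT.lf (nat_lit 0) (nat_lit 21750548183) (nat_lit 420) (nat_lit 827978885) (nat_lit 84) (nat_lit 24684997503) (nat_lit 36) (nat_lit 5) (nat_lit 41) (nat_lit 5) (nat_lit 37) (nat_lit 5) (nat_lit 392) (nat_lit 349) (nat_lit 147)))) (XT.nd (nat_lit 94) (nat_lit 0) (nat_lit 0) (XT.lf (nat_lit 0) (nat_lit 12778110742) (nat_lit 336) (nat_lit 12519684312) (nat_lit 420) (nat_lit 23026499195) (nat_lit 32) (nat_lit 5) (nat_lit 36) (nat_lit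 5) (nat_lit 37) (nat_lit 5) (nat_lit 393) (nat_lit 349) (nat_lit 146)) (XT.nd (nat_lit 94) (nat_lit 0) (nat_lit 0) (XT.lf (nat_lit 0) (nat_lit 26821919597) (nat_lit 336) (nat_lit 2140322548) (nat_lit 420) (nat_lit 20455489806) (nat_lit 32) (nat_lit 5) (nat_lit 36) (nat_lit 5) (nat_lit 37) (nat_lit 5) (nat_lit 394) (nat_lit 349) (nat_lit 145)) (XT.lf (nat_lit 0) (nat_lit 32823844681) (nat_lit 420) (nat_lit 9330525816) (nat_lit 84) (nat_lit 8388113654) (nat_lit 32) (nat_lit 5) (nat_lit 37) (nat_lit 5) (nat_lit 33) (nat_lit 5) (nat_lit 395) (nat_lit 349) (nat_lit 144))))) (XT.nd (nat_lit 282) (nat_lit 336) (nat_lit 0) (XT.nd (nat_lit 94) (nat_lit 0) (nat_lit 0) (XT.lf (nat_lit 0) (nat_lit 4411400873) (nat_lit 252) (nat_lit 32458082614) (nat_lit 336) (nat_lit 14830634025) (nat_lit 29) (nat_lit 5) (nat_lit 32) (nat_lit 5) (nat_lit 33) (nat_lit 5) (nat_lit 396) (nat_lit 349) (nat_lit 143))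 (XT.nd (nat_lit 94) (nat_lit 0) (nat_lit 0) (XT.lf (nat_lit 0) (nat_lit 18775572300) (nat_lit 252) (nat_lit 22361055241) (nat_lit 336) (nat_lit 11754038888) (nat_lit 29) (nat_lit 5) (nat_lit 32) (nat_lit 5) (nat_lit 33) (nat_lit 5) (nat_lit 397) (nat_lit 349) (nat_lit 142)) (XT.lf (nat_lit 0) (nat_lit 33583522628) (nat_lit 252) (nat_lit 11951268446) (nat_lit 336) (nat_lit 8583377904) (nat_lit 29) (nat_lit 5) (nat_lit 32) (nat_lit 5) (nat_lit 33) (nat_lit 5) (nat_lit 398) (nat_lit 349) (nat_lit 141)))) (XT.nd (nat_lit 188) (nat_lit 84) (nat_lit 0) (XT.nd (nat_lit 94) (nat_lit 252) (nat_lit 0) (XT.lf (nat_lit 0) (nat_lit 48849054419) (nat_lit 252) (nat_lit 1219019217) (nat_lit 336) (nat_lit 5315695685) (nat_lit 29) (nat_lit 5) (nat_lit 32) (nat_lit 5) (nat_lit 33) (nat_lit 5) (nat_lit 399) (nat_lit 349) (nat_lit 140)) (XT.lf (nat_lit 0) (nat_lit 7960464717) (nat_lit 252) (nat_lit 46956875323)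 (nat_lit 336) (nat_lit 1765831271) (nat_lit 26) (nat_lit 5) (nat_lit 29) (nat_lit 5) (nat_lit 30) (nat_lit 5) (nat_lit 400) (nat_lit 349) (nat_lit 139))) (XT.nd (nat_lit 94) (nat_lit 0) (nat_lit 0) (XT.lf (nat_lit 0) (nat_lit 1936105010) (nat_lit 336) (nat_lit 35010646384) (nat_lit 84) (nat_lit 21073041712) (nat_lit 25) (nat_lit 5) (nat_lit 29) (nat_lit 5) (nat_lit 26) (nat_lit 5) (nat_lit 401) (nat_lit 349) (nat_lit 138)) (XT.lf (nat_lit 0) (nat_lit 5714969736) (nat_lit 336) (nat_lit 20893006860) (nat_lit 84) (nat_lit 32789355832) (nat_lit 25) (nat_lit 5) (nat_lit 29) (nat_lit 5) (nat_lit 26) (nat_lit 5) (nat_lit 402) (nat_lit 349) (nat_lit 137)))))) (XT.nd (nat_lit 564) (nat_lit 168) (nat_lit 0) (XT.nd (nat_lit 282) (nat_lit 252) (nat_lit 0) (XT.nd (nat_lit 94) (nat_lit 252) (nat_lit 0) (XT.lf (nat_lit 0) (nat_lit 9609862766) (nat_lit 336) (nat_lit 6339111637) (nat_lit 84) (nat_lit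 44868641914) (nat_lit 25) (nat_lit 5) (nat_lit 29) (nat_lit 5) (nat_lit 26) (nat_lit 5) (nat_lit 403) (nat_lit 349) (nat_lit 136)) (XT.nd (nat_lit 94) (nat_lit 0) (nat_lit 0) (XT.lf (nat_lit 0) (nat_lit 8842767087) (nat_lit 252) (nat_lit 4869368807) (nat_lit 336) (nat_lit 48567113377) (nat_lit 22) (nat_lit 5) (nat_lit 25) (nat_lit 5) (nat_lit 26) (nat_lit 5) (nat_lit 404) (nat_lit 349) (nat_lit 135)) (XT.lf (nat_lit 0) (nat_lit 18072370794) (nat_lit 336) (nat_lit 39221533849) (nat_lit 84) (nat_lit 6488239542) (nat_lit 22) (nat_lit 5) (nat_lit 26) (nat_lit 5) (nat_lit 23) (nat_lit 5) (nat_lit 405) (nat_lit 349) (nat_lit 134)))) (XT.nd (nat_lit 94) (nat_lit 252) (nat_lit 0) (XT.lf (nat_lit 0) (nat_lit 22616540909) (nat_lit 336) (nat_lit 24617054840) (nat_lit 84) (nat_lit 18096526981) (nat_lit 22) (nat_lit 5) (nat_lit 26) (nat_lit 5) (nat_lit 23) (nat_lit 5) (nat_lit 406) (nat_lit 349)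 (nat_lit 133)) (XT.nd (nat_lit 94) (nat_lit 252) (nat_lit 0) (XT.lf (nat_lit 0) (nat_lit 27300577140) (nat_lit 336) (nat_lit 9561127512) (nat_lit 84) (nat_lit 30064420578) (nat_lit 22) (nat_lit 5) (nat_lit 26) (nat_lit 5) (nat_lit 23) (nat_lit 5) (nat_lit 407) (nat_lit 349) (nat_lit 132)) (XT.lf (nat_lit 0) (nat_lit 6082837455) (nat_lit 252) (nat_lit 26106350545) (nat_lit 336) (nat_lit 36380580710) (nat_lit 19) (nat_lit 5) (nat_lit 22) (nat_lit 5) (nat_lit 23) (nat_lit 5) (nat_lit 408) (nat_lit 349) (nat_lit 131))))) (XT.nd (nat_lit 282) (nat_lit 168) (nat_lit 0) (XT.nd (nat_lit 94) (nat_lit 0) (nat_lit 0) (XT.lf (nat_lit 0) (nat_lit 22413217162) (nat_lit 252) (nat_lit 14914971166) (nat_lit 336) (nat_lit 32933117885) (nat_lit 19) (nat_lit 5) (nat_lit 22) (nat_lit 5) (nat_lit 23) (nat_lit 5) (nat_lit 409) (nat_lit 349) (nat_lit 130)) (XT.nd (nat_lit 94) (nat_lit 0) (nat_lit 0) (XT.lf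 (nat_lit 0) (nat_lit 39248636843) (nat_lit 252) (nat_lit 3376933540) (nat_lit 336) (nat_lit 29379744783) (nat_lit 19) (nat_lit 5) (nat_lit 22) (nat_lit 5) (nat_lit 23) (nat_lit 5) (nat_lit 410) (nat_lit 349) (nat_lit 129)) (XT.lf (nat_lit 0) (nat_lit 48170776623) (nat_lit 336) (nat_lit 17283137038) (nat_lit 84) (nat_lit 8346887858) (nat_lit 19) (nat_lit 5) (nat_lit 23) (nat_lit 5) (nat_lit 20) (nat_lit 5) (nat_lit 411) (nat_lit 349) (nat_lit 128)))) (XT.nd (nat_lit 188) (nat_lit 0) (nat_lit 0) (XT.nd (nat_lit 94) (nat_lit 168) (nat_lit 0) (XT.lf (nat_lit 0) (nat_lit 53921547420) (nat_lit 336) (nat_lit 1365613893) (nat_lit 84) (nat_lit 20363747816) (nat_lit 19) (nat_lit 5) (nat_lit 23) (nat_lit 5) (nat_lit 20) (nat_lit 5) (nat_lit 412) (nat_lit 349) (nat_lit 127)) (XT.lf (nat_lit 0) (nat_lit 15353567678) (nat_lit 168) (nat_lit 44648485112) (nat_lit 252) (nat_lit 17551626606) (nat_lit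 17) (nat_lit 5) (nat_lit 19) (nat_lit 5) (nat_lit 20) (nat_lit 5) (nat_lit 413) (nat_lit 349) (nat_lit 126))) (XT.nd (nat_lit 94) (nat_lit 0) (nat_lit 0) (XT.lf (nat_lit 0) (nat_lit 32618880604) (nat_lit 168) (nat_lit 33665593285) (nat_lit 252) (nat_lit 13230550088) (nat_lit 17) (nat_lit 5) (nat_lit 19) (nat_lit 5) (nat_lit 20) (nat_lit 5) (nat_lit 414) (nat_lit 349) (nat_lit 125)) (XT.lf (nat_lit 0) (nat_lit 50418338141) (nat_lit 168) (nat_lit 22342502837) (nat_lit 252) (nat_lit 8776358669) (nat_lit 17) (nat_lit 5) (nat_lit 19) (nat_lit 5) (nat_lit 20) (nat_lit 5) (nat_lit 415) (nat_lit 349) (nat_lit 124))))))))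
noncomputable def xc196 : XT := (XT.nd (nat_lit 51136) (nat_lit 0) (nat_lit 2016) (XT.nd (nat_lit 49914) (nat_lit 0) (nat_lit 5040) (XT.nd (nat_lit 564) (nat_lit 168) (nat_lit 0) (XT.nd (nat_lit 282) (nat_lit 0) (nat_lit 0) (XT.nd (nat_lit 94) (nat_lit 252) (nat_lit 0) (XT.lf (nat_lit 0) (nat_lit 68768531248) (nat_lit 168) (nat_lit 10668659462) (nat_lit 252) (nat_lit 4184900576) (nat_lit 17) (nat_lit 5) (nat_lit 19) (nat_lit 5) (nat_lit 20) (nat_lit 5) (nat_lit 416) (nat_lit 349) (nat_lit 123)) (XT.nd (nat_lit 94) (nat_lit 0) (nat_lit 0) (XT.lf (nat_lit 0) (nat_lit 570204989) (nat_lit 252) (nat_lit 83835939065) (nat_lit 84) (nat_lit 1364302153) (nat_lit 14) (nat_lit 5) (nat_lit 17) (nat_lit 5) (nat_lit 15) (nat_lit 5) (nat_lit 417) (nat_lit 349) (nat_lit 122)) (XT.lf (nat_lit 0) (nat_lit 5650767811) (nat_lit 252) (nat_lit 68577254689) (nat_lit 84) (nat_lit 13747840251) (nat_lit 14)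 (nat_lit 5) (nat_lit 17) (nat_lit 5) (nat_lit 15) (nat_lit 5) (nat_lit 418) (nat_lit 349) (nat_lit 121)))) (XT.nd (nat_lit 94) (nat_lit 0) (nat_lit 0) (XT.lf (nat_lit 0) (nat_lit 10888088525) (nat_lit 252) (nat_lit 52846569735) (nat_lit 84) (nat_lit 26515015589) (nat_lit 14) (nat_lit 5) (nat_lit 17) (nat_lit 5) (nat_lit 15) (nat_lit 5) (nat_lit 419) (nat_lit 349) (nat_lit 120)) (XT.nd (nat_lit 94) (nat_lit 0) (nat_lit 0) (XT.lf (nat_lit 0) (nat_lit 16287048861) (nat_lit 252) (nat_lit 36629221556) (nat_lit 84) (nat_lit 39677728511) (nat_lit 14) (nat_lit 5) (nat_lit 17) (nat_lit 5) (nat_lit 15) (nat_lit 5) (nat_lit 420) (nat_lit 349) (nat_lit 119)) (XT.lf (nat_lit 0) (nat_lit 21852681217) (nat_lit 252) (nat_lit 19910093886) (nat_lit 84) (nat_lit 53248248044) (nat_lit 14) (nat_lit 5) (nat_lit 17) (nat_lit 5) (nat_lit 15) (nat_lit 5) (nat_lit 421) (nat_lit 349) (nat_lit 118))))) (XT.nd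 (nat_lit 49068) (nat_lit 0) (nat_lit 5796) (XT.nd (nat_lit 94) (nat_lit 168) (nat_lit 0) (XT.lf (nat_lit 0) (nat_lit 27590173345) (nat_lit 252) (nat_lit 2673602745) (nat_lit 84) (nat_lit 67239223335) (nat_lit 14) (nat_lit 5) (nat_lit 17) (nat_lit 5) (nat_lit 15) (nat_lit 5) (nat_lit 422) (nat_lit 349) (nat_lit 117)) (XT.nd (nat_lit 48880) (nat_lit 0) (nat_lit 5796) (XT.lf (nat_lit 0) (nat_lit 15406729343) (nat_lit 168) (nat_lit 18250980509) (nat_lit 252) (nat_lit 66409802758) (nat_lit 12) (nat_lit 5) (nat_lit 14) (nat_lit 5) (nat_lit 15) (nat_lit 5) (nat_lit 423) (nat_lit 349) (nat_lit 116)) (XT.lf (nat_lit 0) (nat_lit 4084924669) (nat_lit 0) (nat_lit 4084924669) (nat_lit 924) (nat_lit 2723307746) (nat_lit 81) (nat_lit 5) (nat_lit 81) (nat_lit 3) (nat_lit 92) (nat_lit 3) (nat_lit 350) (nat_lit 350) (nat_lit 188)))) (XT.nd (nat_lit 94) (nat_lit 0) (nat_lit 0) (XT.lf (nat_lit 0) (nat_lit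 15462998384) (nat_lit 0) (nat_lit 1236982356) (nat_lit 924) (nat_lit 5419922804) (nat_lit 81) (nat_lit 5) (nat_lit 81) (nat_lit 3) (nat_lit 92) (nat_lit 3) (nat_lit 351) (nat_lit 350) (nat_lit 187)) (XT.nd (nat_lit 94) (nat_lit 0) (nat_lit 0) (XT.lf (nat_lit 84) (nat_lit 466827807) (nat_lit 0) (nat_lit 16663579725) (nat_lit 1008) (nat_lit 5331629872) (nat_lit 82) (nat_lit 5) (nat_lit 81) (nat_lit 5) (nat_lit 93) (nat_lit 5) (nat_lit 352) (nat_lit 350) (nat_lit 186)) (XT.lf (nat_lit 84) (nat_lit 7937288859) (nat_lit 0) (nat_lit 9714711574) (nat_lit 1008) (nat_lit 5160394995) (nat_lit 82) (nat_lit 5) (nat_lit 81) (nat_lit 5) (nat_lit 93) (nat_lit 5) (nat_lit 353) (nat_lit 350) (nat_lit 185)))))) (XT.nd (nat_lit 564) (nat_lit 756) (nat_lit 0) (XT.nd (nat_lit 282) (nat_lit 0) (nat_lit 84) (XT.nd (nat_lit 94) (nat_lit 0) (nat_lit 84) (XT.lf (nat_lit 84) (nat_lit 15637084959) (nat_lit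 0) (nat_lit 2548618692) (nat_lit 1008) (nat_lit 4988066337) (nat_lit 82) (nat_lit 5) (nat_lit 81) (nat_lit 5) (nat_lit 93) (nat_lit 5) (nat_lit 354) (nat_lit 350) (nat_lit 184)) (XT.nd (nat_lit 94) (nat_lit 0) (nat_lit 0) (XT.lf (nat_lit 0) (nat_lit 18780041728) (nat_lit 924) (nat_lit 21131874) (nat_lit 1008) (nat_lit 4743835482) (nat_lit 82) (nat_lit 5) (nat_lit 93) (nat_lit 5) (nat_lit 94) (nat_lit 5) (nat_lit 355) (nat_lit 350) (nat_lit 183)) (XT.lf (nat_lit 84) (nat_lit 7857366338) (nat_lit 0) (nat_lit 11635648619) (nat_lit 1008) (nat_lit 4431662955) (nat_lit 83) (nat_lit 5) (nat_lit 82) (nat_lit 5) (nat_lit 94) (nat_lit 5) (nat_lit 356) (nat_lit 350) (nat_lit 182)))) (XT.nd (nat_lit 94) (nat_lit 0) (nat_lit 84) (XT.lf (nat_lit 84) (nat_lit 15978289916) (nat_lit 0) (nat_lit 4246311196) (nat_lit 1008) (nat_lit 4091650543) (nat_lit 83) (nat_lit 5) (nat_lit 82) (nat_lit 5) (nat_lit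 94) (nat_lit 5) (nat_lit 357) (nat_lit 350) (nat_lit 181)) (XT.nd (nat_lit 94) (nat_lit 0) (nat_lit 0) (XT.lf (nat_lit 0) (nat_lit 21008733762) (nat_lit 924) (nat_lit 404793633) (nat_lit 1008) (nat_lit 3305537105) (nat_lit 83) (nat_lit 5) (nat_lit 94) (nat_lit 5) (nat_lit 95) (nat_lit 5) (nat_lit 358) (nat_lit 350) (nat_lit 180)) (XT.lf (nat_lit 84) (nat_lit 7887519236) (nat_lit 0) (nat_lit 14047853718) (nat_lit 1008) (nat_lit 3195352852) (nat_lit 84) (nat_lit 5) (nat_lit 83) (nat_lit 5) (nat_lit 95) (nat_lit 5) (nat_lit 359) (nat_lit 350) (nat_lit 179))))) (XT.nd (nat_lit 282) (nat_lit 924) (nat_lit 0) (XT.nd (nat_lit 94) (nat_lit 0) (nat_lit 84) (XT.lf (nat_lit 84) (nat_lit 16443228587) (nat_lit 0) (nat_lit 6448340322) (nat_lit 1008) (nat_lit 2663578595) (nat_lit 84) (nat_lit 5) (nat_lit 83) (nat_lit 5) (nat_lit 95) (nat_lit 5) (nat_lit 360) (nat_lit 350) (nat_lit 178)) (XT.nd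 (nat_lit 94) (nat_lit 0) (nat_lit 0) (XT.lf (nat_lit 0) (nat_lit 23887882585) (nat_lit 924) (nat_lit 744634246) (nat_lit 1008) (nat_lit 1359908608) (nat_lit 84) (nat_lit 5) (nat_lit 95) (nat_lit 5) (nat_lit 96) (nat_lit 5) (nat_lit 361) (nat_lit 350) (nat_lit 177)) (XT.lf (nat_lit 84) (nat_lit 7974506991) (nat_lit 0) (nat_lit 17082451933) (nat_lit 1008) (nat_lit 1381925071) (nat_lit 85) (nat_lit 5) (nat_lit 84) (nat_lit 5) (nat_lit 96) (nat_lit 5) (nat_lit 362) (nat_lit 350) (nat_lit 176)))) (XT.nd (nat_lit 188) (nat_lit 0) (nat_lit 84) (XT.nd (nat_lit 94) (nat_lit 1008) (nat_lit 0) (XT.lf (nat_lit 84) (nat_lit 16977503757) (nat_lit 0) (nat_lit 9289436451) (nat_lit 1008) (nat_lit 632120480) (nat_lit 85) (nat_lit 5) (nat_lit 84) (nat_lit 5) (nat_lit 96) (nat_lit 5) (nat_lit 363) (nat_lit 350) (nat_lit 175)) (XT.lf (nat_lit 0) (nat_lit 135021049) (nat_lit 1008) (nat_lit 1117548542)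 (nat_lit 1092) (nat_lit 26121006187) (nat_lit 72) (nat_lit 5) (nat_lit 84) (nat_lit 5) (nat_lit 85) (nat_lit 5) (nat_lit 364) (nat_lit 350) (nat_lit 174))) (XT.nd (nat_lit 94) (nat_lit 0) (nat_lit 0) (XT.lf (nat_lit 0) (nat_lit 1061002051) (nat_lit 1008) (nat_lit 19816658862) (nat_lit 1092) (nat_lit 6980366178) (nat_lit 73) (nat_lit 5) (nat_lit 85) (nat_lit 5) (nat_lit 86) (nat_lit 5) (nat_lit 365) (nat_lit 350) (nat_lit 173)) (XT.lf (nat_lit 0) (nat_lit 2037383758) (nat_lit 1008) (nat_lit 10864431281) (nat_lit 1092) (nat_lit 15455028708) (nat_lit 73) (nat_lit 5) (nat_lit 85) (nat_lit 5) (nat_lit 86) (nat_lit 5) (nat_lit 366) (nat_lit 350) (nat_lit 172))))))) (XT.nd (nat_lit 1222) (nat_lit 1596) (nat_lit 0) (XT.nd (nat_lit 564) (nat_lit 924) (nat_lit 0) (XT.nd (nat_lit 282) (nat_lit 588) (nat_lit 0) (XT.nd (nat_lit 94) (nat_lit 0) (nat_lit 84) (XT.lf (nat_lit 0) (nat_lit 3041220722)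 (nat_lit 1008) (nat_lit 1636885633) (nat_lit 1092) (nat_lit 24193123864) (nat_lit 73) (nat_lit 5) (nat_lit 85) (nat_lit 5) (nat_lit 86) (nat_lit 5) (nat_lit 367) (nat_lit 350) (nat_lit 171)) (XT.nd (nat_lit 94) (nat_lit 0) (nat_lit 0) (XT.lf (nat_lit 0) (nat_lit 4191694729) (nat_lit 1008) (nat_lit 21401221000) (nat_lit 84) (nat_lit 3805084610) (nat_lit 74) (nat_lit 5) (nat_lit 86) (nat_lit 5) (nat_lit 75) (nat_lit 5) (nat_lit 368) (nat_lit 350) (nat_lit 170)) (XT.lf (nat_lit 0) (nat_lit 5440278477) (nat_lit 1008) (nat_lit 12027021932) (nat_lit 84) (nat_lit 12471882292) (nat_lit 74) (nat_lit 5) (nat_lit 86) (nat_lit 5) (nat_lit 75) (nat_lit 5) (nat_lit 369) (nat_lit 350) (nat_lit 169)))) (XT.nd (nat_lit 94) (nat_lit 672) (nat_lit 0) (XT.lf (nat_lit 0) (nat_lit 6724986893) (nat_lit 1008) (nat_lit 2364375484) (nat_lit 84) (nat_lit 21407876983) (nat_lit 74) (nat_lit 5) (nat_lit 86) (nat_lit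 5) (nat_lit 75) (nat_lit 5) (nat_lit 370) (nat_lit 350) (nat_lit 168)) (XT.nd (nat_lit 94) (nat_lit 0) (nat_lit 0) (XT.lf (nat_lit 0) (nat_lit 7751908623) (nat_lit 672) (nat_lit 372008729) (nat_lit 756) (nat_lit 22946389234) (nat_lit 66) (nat_lit 5) (nat_lit 74) (nat_lit 5) (nat_lit 75) (nat_lit 5) (nat_lit 371) (nat_lit 350) (nat_lit 167)) (XT.lf (nat_lit 0) (nat_lit 9674168708) (nat_lit 756) (nat_lit 13516336050) (nat_lit 84) (nat_lit 8467304137) (nat_lit 66) (nat_lit 5) (nat_lit 75) (nat_lit 5) (nat_lit 67) (nat_lit 5) (nat_lit 372) (nat_lit 350) (nat_lit 166))))) (XT.nd (nat_lit 282) (nat_lit 420) (nat_lit 0) (XT.nd (nat_lit 94) (nat_lit 504) (nat_lit 0) (XT.lf (nat_lit 0) (nat_lit 11273910913) (nat_lit 756) (nat_lit 3416313157) (nat_lit 84) (nat_lit 17573271359) (nat_lit 66) (nat_lit 5) (nat_lit 75) (nat_lit 5) (nat_lit 67) (nat_lit 5) (nat_lit 373) (nat_lit 350) (nat_lit 165))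 (XT.nd (nat_lit 94) (nat_lit 0) (nat_lit 0) (XT.lf (nat_lit 0) (nat_lit 7138602295) (nat_lit 504) (nat_lit 5853158246) (nat_lit 588) (nat_lit 19894089319) (nat_lit 60) (nat_lit 5) (nat_lit 66) (nat_lit 5) (nat_lit 67) (nat_lit 5) (nat_lit 374) (nat_lit 350) (nat_lit 164)) (XT.lf (nat_lit 0) (nat_lit 14828956992) (nat_lit 588) (nat_lit 15468032458) (nat_lit 84) (nat_lit 3228474056) (nat_lit 60) (nat_lit 5) (nat_lit 67) (nat_lit 5) (nat_lit 61) (nat_lit 5) (nat_lit 375) (nat_lit 350) (nat_lit 163)))) (XT.nd (nat_lit 188) (nat_lit 0) (nat_lit 0) (XT.nd (nat_lit 94) (nat_lit 420) (nat_lit 0) (XT.lf (nat_lit 0) (nat_lit 16780789321) (nat_lit 588) (nat_lit 4932064262) (nat_lit 84) (nat_lit 12470278095) (nat_lit 60) (nat_lit 5) (nat_lit 67) (nat_lit 5) (nat_lit 61) (nat_lit 5) (nat_lit 376) (nat_lit 350) (nat_lit 162)) (XT.lf (nat_lit 0) (nat_lit 6050444678) (nat_lit 420) (nat_lit 12800589268)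 (nat_lit 504) (nat_lit 16008372776) (nat_lit 55) (nat_lit 5) (nat_lit 60) (nat_lit 5) (nat_lit 61) (nat_lit 5) (nat_lit 377) (nat_lit 350) (nat_lit 161))) (XT.nd (nat_lit 94) (nat_lit 0) (nat_lit 0) (XT.lf (nat_lit 0) (nat_lit 17476011338) (nat_lit 420) (nat_lit 3558853983) (nat_lit 504) (nat_lit 14520263088) (nat_lit 55) (nat_lit 5) (nat_lit 60) (nat_lit 5) (nat_lit 61) (nat_lit 5) (nat_lit 378) (nat_lit 350) (nat_lit 160)) (XT.lf (nat_lit 0) (nat_lit 23343604325) (nat_lit 504) (nat_lit 7077838992) (nat_lit 84) (nat_lit 5849214063) (nat_lit 55) (nat_lit 5) (nat_lit 61) (nat_lit 5) (nat_lit 56) (nat_lit 5) (nat_lit 379) (nat_lit 350) (nat_lit 159)))))) (XT.nd (nat_lit 564) (nat_lit 840) (nat_lit 0) (XT.nd (nat_lit 282) (nat_lit 336) (nat_lit 0) (XT.nd (nat_lit 94) (nat_lit 0) (nat_lit 0) (XT.lf (nat_lit 0) (nat_lit 4313062848) (nat_lit 420) (nat_lit 21488088506) (nat_lit 504) (nat_lit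 11204835028) (nat_lit 50) (nat_lit 5) (nat_lit 55) (nat_lit 5) (nat_lit 56) (nat_lit 5) (nat_lit 380) (nat_lit 350) (nat_lit 158)) (XT.nd (nat_lit 94) (nat_lit 0) (nat_lit 0) (XT.lf (nat_lit 0) (nat_lit 16205232748) (nat_lit 420) (nat_lit 12201619760) (nat_lit 504) (nat_lit 9355039592) (nat_lit 50) (nat_lit 5) (nat_lit 55) (nat_lit 5) (nat_lit 56) (nat_lit 5) (nat_lit 381) (nat_lit 350) (nat_lit 157)) (XT.lf (nat_lit 0) (nat_lit 28464220571) (nat_lit 420) (nat_lit 2627259242) (nat_lit 504) (nat_lit 7449820667) (nat_lit 50) (nat_lit 5) (nat_lit 55) (nat_lit 5) (nat_lit 56) (nat_lit 5) (nat_lit 382) (nat_lit 350) (nat_lit 156)))) (XT.nd (nat_lit 94) (nat_lit 0) (nat_lit 0) (XT.lf (nat_lit 0) (nat_lit 1719294359) (nat_lit 336) (nat_lit 32227157431) (nat_lit 420) (nat_lit 5395729817) (nat_lit 46) (nat_lit 5) (nat_lit 50) (nat_lit 5) (nat_lit 51) (nat_lit 5) (nat_lit 383) (nat_lit 350)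 (nat_lit 155)) (XT.nd (nat_lit 94) (nat_lit 0) (nat_lit 0) (XT.lf (nat_lit 0) (nat_lit 14065728940) (nat_lit 336) (nat_lit 22954222596) (nat_lit 420) (nat_lit 3143919272) (nat_lit 46) (nat_lit 5) (nat_lit 50) (nat_lit 5) (nat_lit 51) (nat_lit 5) (nat_lit 384) (nat_lit 350) (nat_lit 154)) (XT.lf (nat_lit 0) (nat_lit 26793125212) (nat_lit 336) (nat_lit 13393898402) (nat_lit 420) (nat_lit 824072797) (nat_lit 46) (nat_lit 5) (nat_lit 50) (nat_lit 5) (nat_lit 51) (nat_lit 5) (nat_lit 385) (nat_lit 350) (nat_lit 153))))) (XT.nd (nat_lit 282) (nat_lit 336) (nat_lit 0) (XT.nd (nat_lit 94) (nat_lit 420) (nat_lit 0) (XT.lf (nat_lit 0) (nat_lit 1534421103) (nat_lit 420) (nat_lit 1986836313) (nat_lit 84) (nat_lit 38362909129) (nat_lit 45) (nat_lit 5) (nat_lit 50) (nat_lit 5) (nat_lit 46) (nat_lit 5) (nat_lit 386) (nat_lit 350) (nat_lit 152)) (XT.nd (nat_lit 94) (nat_lit 0) (nat_lit 0) (XT.lf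 (nat_lit 0) (nat_lit 4121955831) (nat_lit 504) (nat_lit 32016446447) (nat_lit 84) (nat_lit 6640284058) (nat_lit 40) (nat_lit 5) (nat_lit 46) (nat_lit 5) (nat_lit 41) (nat_lit 5) (nat_lit 387) (nat_lit 350) (nat_lit 151)) (XT.lf (nat_lit 0) (nat_lit 6845068354) (nat_lit 504) (nat_lit 19789619587) (nat_lit 84) (nat_lit 17064541873) (nat_lit 40) (nat_lit 5) (nat_lit 46) (nat_lit 5) (nat_lit 41) (nat_lit 5) (nat_lit 388) (nat_lit 350) (nat_lit 150)))) (XT.nd (nat_lit 188) (nat_lit 0) (nat_lit 0) (XT.nd (nat_lit 94) (nat_lit 336) (nat_lit 0) (XT.lf (nat_lit 0) (nat_lit 9651044927) (nat_lit 504) (nat_lit 7185465550) (nat_lit 84) (nat_lit 27811857356) (nat_lit 40) (nat_lit 5) (nat_lit 46) (nat_lit 5) (nat_lit 41) (nat_lit 5) (nat_lit 389) (nat_lit 350) (nat_lit 149)) (XT.lf (nat_lit 0) (nat_lit 5927183594) (nat_lit 336) (nat_lit 6674115815) (nat_lit 420) (nat_lit 33023862931) (nat_lit 36)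 (nat_lit 5) (nat_lit 40) (nat_lit 5) (nat_lit 41) (nat_lit 5) (nat_lit 390) (nat_lit 350) (nat_lit 148))) (XT.nd (nat_lit 94) (nat_lit 0) (nat_lit 0) (XT.lf (nat_lit 0) (nat_lit 15755031426) (nat_lit 420) (nat_lit 27071445562) (nat_lit 84) (nat_lit 3802296879) (nat_lit 36) (nat_lit 5) (nat_lit 41) (nat_lit 5) (nat_lit 37) (nat_lit 5) (nat_lit 391) (nat_lit 350) (nat_lit 147)) (XT.lf (nat_lit 0) (nat_lit 19073355786) (nat_lit 420) (nat_lit 14123389214) (nat_lit 84) (nat_lit 14464689457) (nat_lit 36) (nat_lit 5) (nat_lit 41) (nat_lit 5) (nat_lit 37) (nat_lit 5) (nat_lit 392) (nat_lit 350) (nat_lit 146))))))))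
noncomputable def xc197 : XT := (XT.nd (nat_lit 2350) (nat_lit 420) (nat_lit 0) (XT.nd (nat_lit 1128) (nat_lit 672) (nat_lit 0) (XT.nd (nat_lit 564) (nat_lit 336) (nat_lit 0) (XT.nd (nat_lit 282) (nat_lit 252) (nat_lit 0) (XT.nd (nat_lit 94) (nat_lit 336) (nat_lit 0) (XT.lf (nat_lit 0) (nat_lit 22493157460) (nat_lit 420) (nat_lit 775532701) (nat_lit 84) (nat_lit 25457468944) (nat_lit 36) (nat_lit 5) (nat_lit 41) (nat_lit 5) (nat_lit 37) (nat_lit 5) (nat_lit 393) (nat_lit 350) (nat_lit 145)) (XT.nd (nat_lit 94) (nat_lit 0) (nat_lit 0) (XT.lf (nat_lit 0) (nat_lit 13251554875) (nat_lit 336) (nat_lit 12897526251) (nat_lit 420) (nat_lit 23670783952) (nat_lit 32) (nat_lit 5) (nat_lit 36) (nat_lit 5) (nat_lit 37) (nat_lit 5) (nat_lit 394) (nat_lit 350) (nat_lit 144)) (XT.lf (nat_lit 0) (nat_lit 27728396874) (nat_lit 336) (nat_lit 2196713018) (nat_lit 420) (nat_lit 21022164095) (nat_lit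 32) (nat_lit 5) (nat_lit 36) (nat_lit 5) (nat_lit 37) (nat_lit 5) (nat_lit 395) (nat_lit 350) (nat_lit 143)))) (XT.nd (nat_lit 94) (nat_lit 252) (nat_lit 0) (XT.lf (nat_lit 0) (nat_lit 33904562372) (nat_lit 420) (nat_lit 9544789940) (nat_lit 84) (nat_lit 8657610615) (nat_lit 32) (nat_lit 5) (nat_lit 37) (nat_lit 5) (nat_lit 33) (nat_lit 5) (nat_lit 396) (nat_lit 350) (nat_lit 142)) (XT.nd (nat_lit 94) (nat_lit 0) (nat_lit 0) (XT.lf (nat_lit 0) (nat_lit 4622377350) (nat_lit 252) (nat_lit 33452075288) (nat_lit 336) (nat_lit 15226077764) (nat_lit 29) (nat_lit 5) (nat_lit 32) (nat_lit 5) (nat_lit 33) (nat_lit 5) (nat_lit 397) (nat_lit 350) (nat_lit 141)) (XT.lf (nat_lit 0) (nat_lit 19429606360) (nat_lit 252) (nat_lit 23042407133) (nat_lit 336) (nat_lit 12056041721) (nat_lit 29) (nat_lit 5) (nat_lit 32) (nat_lit 5) (nat_lit 33) (nat_lit 5) (nat_lit 398) (nat_lit 350) (nat_lit 140)))))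 (XT.nd (nat_lit 282) (nat_lit 84) (nat_lit 0) (XT.nd (nat_lit 94) (nat_lit 252) (nat_lit 0) (XT.lf (nat_lit 0) (nat_lit 34694438521) (nat_lit 252) (nat_lit 12310272976) (nat_lit 336) (nat_lit 8788965653) (nat_lit 29) (nat_lit 5) (nat_lit 32) (nat_lit 5) (nat_lit 33) (nat_lit 5) (nat_lit 399) (nat_lit 350) (nat_lit 139)) (XT.nd (nat_lit 94) (nat_lit 252) (nat_lit 0) (XT.lf (nat_lit 0) (nat_lit 50431102256) (nat_lit 252) (nat_lit 1245669344) (nat_lit 336) (nat_lit 5421804302) (nat_lit 29) (nat_lit 5) (nat_lit 32) (nat_lit 5) (nat_lit 33) (nat_lit 5) (nat_lit 400) (nat_lit 350) (nat_lit 138)) (XT.lf (nat_lit 0) (nat_lit 8276240316) (nat_lit 252) (nat_lit 48399215156) (nat_lit 336) (nat_lit 1762842189) (nat_lit 26) (nat_lit 5) (nat_lit 29) (nat_lit 5) (nat_lit 30) (nat_lit 5) (nat_lit 401) (nat_lit 350) (nat_lit 137)))) (XT.nd (nat_lit 94) (nat_lit 0) (nat_lit 0) (XT.lf (nat_lit 0) (nat_lit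 2050990147) (nat_lit 336) (nat_lit 36027615155) (nat_lit 84) (nat_lit 21737793909) (nat_lit 25) (nat_lit 5) (nat_lit 29) (nat_lit 5) (nat_lit 26) (nat_lit 5) (nat_lit 402) (nat_lit 350) (nat_lit 136)) (XT.nd (nat_lit 94) (nat_lit 0) (nat_lit 0) (XT.lf (nat_lit 0) (nat_lit 5945349977) (nat_lit 336) (nat_lit 21474384284) (nat_lit 84) (nat_lit 33816968349) (nat_lit 25) (nat_lit 5) (nat_lit 29) (nat_lit 5) (nat_lit 26) (nat_lit 5) (nat_lit 403) (nat_lit 350) (nat_lit 135)) (XT.lf (nat_lit 0) (nat_lit 9959384593) (nat_lit 336) (nat_lit 6471311986) (nat_lit 84) (nat_lit 46270377269) (nat_lit 25) (nat_lit 5) (nat_lit 29) (nat_lit 5) (nat_lit 26) (nat_lit 5) (nat_lit 404) (nat_lit 350) (nat_lit 134)))))) (XT.nd (nat_lit 564) (nat_lit 168) (nat_lit 0) (XT.nd (nat_lit 282) (nat_lit 252) (nat_lit 0) (XT.nd (nat_lit 94) (nat_lit 0) (nat_lit 0) (XT.lf (nat_lit 0) (nat_lit 9180553877) (nat_lit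 252) (nat_lit 5007353849) (nat_lit 336) (nat_lit 50020146904) (nat_lit 22) (nat_lit 5) (nat_lit 25) (nat_lit 5) (nat_lit 26) (nat_lit 5) (nat_lit 405) (nat_lit 350) (nat_lit 133)) (XT.nd (nat_lit 94) (nat_lit 0) (nat_lit 0) (XT.lf (nat_lit 0) (nat_lit 18681910349) (nat_lit 336) (nat_lit 40373983591) (nat_lit 84) (nat_lit 6701697147) (nat_lit 22) (nat_lit 5) (nat_lit 26) (nat_lit 5) (nat_lit 23) (nat_lit 5) (nat_lit 406) (nat_lit 350) (nat_lit 132)) (XT.lf (nat_lit 0) (nat_lit 23365467508) (nat_lit 336) (nat_lit 25318672573) (nat_lit 84) (nat_lit 18669470994) (nat_lit 22) (nat_lit 5) (nat_lit 26) (nat_lit 5) (nat_lit 23) (nat_lit 5) (nat_lit 407) (nat_lit 350) (nat_lit 131)))) (XT.nd (nat_lit 94) (nat_lit 252) (nat_lit 0) (XT.lf (nat_lit 0) (nat_lit 28193271201) (nat_lit 336) (nat_lit 9797861003) (nat_lit 84) (nat_lit 31008009931) (nat_lit 22) (nat_lit 5) (nat_lit 26) (nat_lit 5)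 (nat_lit 23) (nat_lit 5) (nat_lit 408) (nat_lit 350) (nat_lit 130)) (XT.nd (nat_lit 94) (nat_lit 0) (nat_lit 0) (XT.lf (nat_lit 0) (nat_lit 6330462859) (nat_lit 252) (nat_lit 26902157562) (nat_lit 336) (nat_lit 37461150885) (nat_lit 19) (nat_lit 5) (nat_lit 22) (nat_lit 5) (nat_lit 23) (nat_lit 5) (nat_lit 409) (nat_lit 350) (nat_lit 129)) (XT.lf (nat_lit 0) (nat_lit 23165308605) (nat_lit 252) (nat_lit 15364251034) (nat_lit 336) (nat_lit 33908236754) (nat_lit 19) (nat_lit 5) (nat_lit 22) (nat_lit 5) (nat_lit 23) (nat_lit 5) (nat_lit 410) (nat_lit 350) (nat_lit 128))))) (XT.nd (nat_lit 282) (nat_lit 168) (nat_lit 0) (XT.nd (nat_lit 94) (nat_lit 0) (nat_lit 0) (XT.lf (nat_lit 0) (nat_lit 40520903955) (nat_lit 252) (nat_lit 3468927657) (nat_lit 336) (nat_lit 30246086429) (nat_lit 19) (nat_lit 5) (nat_lit 22) (nat_lit 5) (nat_lit 23) (nat_lit 5) (nat_lit 411) (nat_lit 350) (nat_lit 127))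 (XT.nd (nat_lit 94) (nat_lit 0) (nat_lit 0) (XT.lf (nat_lit 0) (nat_lit 49705772387) (nat_lit 336) (nat_lit 17763632646) (nat_lit 84) (nat_lit 8617702614) (nat_lit 19) (nat_lit 5) (nat_lit 23) (nat_lit 5) (nat_lit 20) (nat_lit 5) (nat_lit 412) (nat_lit 350) (nat_lit 126)) (XT.lf (nat_lit 0) (nat_lit 55633563197) (nat_lit 336) (nat_lit 1354328487) (nat_lit 84) (nat_lit 21006722576) (nat_lit 19) (nat_lit 5) (nat_lit 23) (nat_lit 5) (nat_lit 20) (nat_lit 5) (nat_lit 413) (nat_lit 350) (nat_lit 125)))) (XT.nd (nat_lit 188) (nat_lit 0) (nat_lit 0) (XT.nd (nat_lit 94) (nat_lit 0) (nat_lit 0) (XT.lf (nat_lit 0) (nat_lit 15882604864) (nat_lit 168) (nat_lit 46019269715) (nat_lit 252) (nat_lit 18054523794) (nat_lit 17) (nat_lit 5) (nat_lit 19) (nat_lit 5) (nat_lit 20) (nat_lit 5) (nat_lit 414) (nat_lit 350) (nat_lit 124)) (XT.lf (nat_lit 0) (nat_lit 33681546590) (nat_lit 168) (nat_lit 34696308699)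 (nat_lit 252) (nat_lit 13600732798) (nat_lit 17) (nat_lit 5) (nat_lit 19) (nat_lit 5) (nat_lit 20) (nat_lit 5) (nat_lit 415) (nat_lit 350) (nat_lit 123))) (XT.nd (nat_lit 94) (nat_lit 0) (nat_lit 0) (XT.lf (nat_lit 0) (nat_lit 52031239394) (nat_lit 168) (nat_lit 23022590864) (nat_lit 252) (nat_lit 9009663089) (nat_lit 17) (nat_lit 5) (nat_lit 19) (nat_lit 5) (nat_lit 20) (nat_lit 5) (nat_lit 416) (nat_lit 350) (nat_lit 122)) (XT.lf (nat_lit 0) (nat_lit 70948787114) (nat_lit 168) (nat_lit 10987235081) (nat_lit 252) (nat_lit 4277035308) (nat_lit 17) (nat_lit 5) (nat_lit 19) (nat_lit 5) (nat_lit 20) (nat_lit 5) (nat_lit 417) (nat_lit 350) (nat_lit 121))))))) (XT.nd (nat_lit 50008) (nat_lit 0) (nat_lit 5040) (XT.nd (nat_lit 564) (nat_lit 168) (nat_lit 0) (XT.nd (nat_lit 282) (nat_lit 0) (nat_lit 0) (XT.nd (nat_lit 94) (nat_lit 0) (nat_lit 0) (XT.lf (nat_lit 0) (nat_lit 624223797) (nat_lit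 252) (nat_lit 86384796415) (nat_lit 84) (nat_lit 1419000724) (nat_lit 14) (nat_lit 5) (nat_lit 17) (nat_lit 5) (nat_lit 15) (nat_lit 5) (nat_lit 418) (nat_lit 350) (nat_lit 120)) (XT.nd (nat_lit 94) (nat_lit 0) (nat_lit 0) (XT.lf (nat_lit 0) (nat_lit 5861191325) (nat_lit 252) (nat_lit 70654597926) (nat_lit 84) (nat_lit 14186055505) (nat_lit 14) (nat_lit 5) (nat_lit 17) (nat_lit 5) (nat_lit 15) (nat_lit 5) (nat_lit 419) (nat_lit 350) (nat_lit 119)) (XT.lf (nat_lit 0) (nat_lit 11259809096) (nat_lit 252) (nat_lit 54437721584) (nat_lit 84) (nat_lit 27348651495) (nat_lit 14) (nat_lit 5) (nat_lit 17) (nat_lit 5) (nat_lit 15) (nat_lit 5) (nat_lit 420) (nat_lit 350) (nat_lit 118)))) (XT.nd (nat_lit 94) (nat_lit 0) (nat_lit 0) (XT.lf (nat_lit 0) (nat_lit 16825109187) (nat_lit 252) (nat_lit 37719051564) (nat_lit 84) (nat_lit 40919057613) (nat_lit 14) (nat_lit 5) (nat_lit 17) (nat_lit 5) (nat_lit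 15) (nat_lit 5) (nat_lit 421) (nat_lit 350) (nat_lit 117)) (XT.nd (nat_lit 94) (nat_lit 0) (nat_lit 0) (XT.lf (nat_lit 0) (nat_lit 22562279040) (nat_lit 252) (nat_lit 20483004312) (nat_lit 84) (nat_lit 54909922898) (nat_lit 14) (nat_lit 5) (nat_lit 17) (nat_lit 5) (nat_lit 15) (nat_lit 5) (nat_lit 422) (nat_lit 350) (nat_lit 116)) (XT.lf (nat_lit 0) (nat_lit 28476666299) (nat_lit 252) (nat_lit 2713514028) (nat_lit 84) (nat_lit 69334288302) (nat_lit 14) (nat_lit 5) (nat_lit 17) (nat_lit 5) (nat_lit 15) (nat_lit 5) (nat_lit 423) (nat_lit 350) (nat_lit 115))))) (XT.nd (nat_lit 49068) (nat_lit 0) (nat_lit 5796) (XT.nd (nat_lit 48880) (nat_lit 0) (nat_lit 5796) (XT.lf (nat_lit 0) (nat_lit 15926873317) (nat_lit 168) (nat_lit 18804907030) (nat_lit 252) (nat_lit 68436722084) (nat_lit 12) (nat_lit 5) (nat_lit 14) (nat_lit 5) (nat_lit 15) (nat_lit 5) (nat_lit 424) (nat_lit 350) (nat_lit 114))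 (XT.nd (nat_lit 94) (nat_lit 0) (nat_lit 0) (XT.lf (nat_lit 0) (nat_lit 4264534891) (nat_lit 0) (nat_lit 4264534891) (nat_lit 924) (nat_lit 2697717334) (nat_lit 81) (nat_lit 5) (nat_lit 81) (nat_lit 3) (nat_lit 92) (nat_lit 3) (nat_lit 351) (nat_lit 351) (nat_lit 186)) (XT.lf (nat_lit 0) (nat_lit 16045120602) (nat_lit 0) (nat_lit 1378098078) (nat_lit 924) (nat_lit 5374530222) (nat_lit 81) (nat_lit 5) (nat_lit 81) (nat_lit 3) (nat_lit 92) (nat_lit 3) (nat_lit 352) (nat_lit 351) (nat_lit 185)))) (XT.nd (nat_lit 188) (nat_lit 0) (nat_lit 0) (XT.nd (nat_lit 94) (nat_lit 0) (nat_lit 0) (XT.lf (nat_lit 84) (nat_lit 591829413) (nat_lit 0) (nat_lit 17269086819) (nat_lit 1008) (nat_lit 5289806027) (nat_lit 82) (nat_lit 5) (nat_lit 81) (nat_lit 5) (nat_lit 93) (nat_lit 5) (nat_lit 353) (nat_lit 351) (nat_lit 184)) (XT.lf (nat_lit 84) (nat_lit 8290551354) (nat_lit 0) (nat_lit 10102129634) (nat_lit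 1008) (nat_lit 5119490061) (nat_lit 82) (nat_lit 5) (nat_lit 81) (nat_lit 5) (nat_lit 93) (nat_lit 5) (nat_lit 354) (nat_lit 351) (nat_lit 183))) (XT.nd (nat_lit 94) (nat_lit 0) (nat_lit 84) (XT.lf (nat_lit 84) (nat_lit 16225817658) (nat_lit 0) (nat_lit 2711294156) (nat_lit 1008) (nat_lit 4947859169) (nat_lit 82) (nat_lit 5) (nat_lit 81) (nat_lit 5) (nat_lit 93) (nat_lit 5) (nat_lit 355) (nat_lit 351) (nat_lit 182)) (XT.lf (nat_lit 84) (nat_lit 88630104) (nat_lit 0) (nat_lit 19455676163) (nat_lit 1008) (nat_lit 4723625987) (nat_lit 83) (nat_lit 5) (nat_lit 82) (nat_lit 5) (nat_lit 94) (nat_lit 5) (nat_lit 356) (nat_lit 351) (nat_lit 181)))))) (XT.nd (nat_lit 564) (nat_lit 840) (nat_lit 0) (XT.nd (nat_lit 282) (nat_lit 0) (nat_lit 84) (XT.nd (nat_lit 94) (nat_lit 0) (nat_lit 0) (XT.lf (nat_lit 84) (nat_lit 8208476267) (nat_lit 0) (nat_lit 12065644481) (nat_lit 1008) (nat_lit 4385453073)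 (nat_lit 83) (nat_lit 5) (nat_lit 82) (nat_lit 5) (nat_lit 94) (nat_lit 5) (nat_lit 357) (nat_lit 351) (nat_lit 180)) (XT.nd (nat_lit 94) (nat_lit 0) (nat_lit 84) (XT.lf (nat_lit 84) (nat_lit 16577915228) (nat_lit 0) (nat_lit 4445154171) (nat_lit 1008) (nat_lit 4040420484) (nat_lit 83) (nat_lit 5) (nat_lit 82) (nat_lit 5) (nat_lit 94) (nat_lit 5) (nat_lit 358) (nat_lit 351) (nat_lit 179)) (XT.lf (nat_lit 0) (nat_lit 21825706689) (nat_lit 924) (nat_lit 309165123) (nat_lit 1008) (nat_lit 3344135574) (nat_lit 83) (nat_lit 5) (nat_lit 94) (nat_lit 5) (nat_lit 95) (nat_lit 5) (nat_lit 359) (nat_lit 351) (nat_lit 178)))) (XT.nd (nat_lit 94) (nat_lit 0) (nat_lit 0) (XT.lf (nat_lit 84) (nat_lit 8239114249) (nat_lit 0) (nat_lit 14538037397) (nat_lit 1008) (nat_lit 3126436491) (nat_lit 84) (nat_lit 5) (nat_lit 83) (nat_lit 5) (nat_lit 95) (nat_lit 5) (nat_lit 360) (nat_lit 351) (nat_lit 177))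 (XT.nd (nat_lit 94) (nat_lit 0) (nat_lit 84) (XT.lf (nat_lit 84) (nat_lit 17056830862) (nat_lit 0) (nat_lit 6701294365) (nat_lit 1008) (nat_lit 2583227805) (nat_lit 84) (nat_lit 5) (nat_lit 83) (nat_lit 5) (nat_lit 95) (nat_lit 5) (nat_lit 361) (nat_lit 351) (nat_lit 176)) (XT.lf (nat_lit 0) (nat_lit 24780095950) (nat_lit 924) (nat_lit 660644630) (nat_lit 1008) (nat_lit 1351642357) (nat_lit 84) (nat_lit 5) (nat_lit 95) (nat_lit 5) (nat_lit 96) (nat_lit 5) (nat_lit 362) (nat_lit 351) (nat_lit 175))))) (XT.nd (nat_lit 282) (nat_lit 0) (nat_lit 84) (XT.nd (nat_lit 94) (nat_lit 1008) (nat_lit 0) (XT.lf (nat_lit 84) (nat_lit 8327705965) (nat_lit 0) (nat_lit 17654198148) (nat_lit 1008) (nat_lit 1270919626) (nat_lit 85) (nat_lit 5) (nat_lit 84) (nat_lit 5) (nat_lit 96) (nat_lit 5) (nat_lit 363) (nat_lit 351) (nat_lit 174)) (XT.nd (nat_lit 94) (nat_lit 1008) (nat_lit 0) (XT.lf (nat_lit 84)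 (nat_lit 17606608757) (nat_lit 0) (nat_lit 9618330616) (nat_lit 1008) (nat_lit 502496892) (nat_lit 85) (nat_lit 5) (nat_lit 84) (nat_lit 5) (nat_lit 96) (nat_lit 5) (nat_lit 364) (nat_lit 351) (nat_lit 173)) (XT.lf (nat_lit 0) (nat_lit 281023274) (nat_lit 1008) (nat_lit 1048586907) (nat_lit 1092) (nat_lit 26887171864) (nat_lit 72) (nat_lit 5) (nat_lit 84) (nat_lit 5) (nat_lit 85) (nat_lit 5) (nat_lit 365) (nat_lit 351) (nat_lit 172)))) (XT.nd (nat_lit 188) (nat_lit 0) (nat_lit 0) (XT.nd (nat_lit 94) (nat_lit 0) (nat_lit 0) (XT.lf (nat_lit 0) (nat_lit 1232105683) (nat_lit 1008) (nat_lit 20322816789) (nat_lit 1092) (nat_lit 7161470016) (nat_lit 73) (nat_lit 5) (nat_lit 85) (nat_lit 5) (nat_lit 86) (nat_lit 5) (nat_lit 366) (nat_lit 351) (nat_lit 171)) (XT.lf (nat_lit 0) (nat_lit 2234599462) (nat_lit 1008) (nat_lit 11096322252) (nat_lit 1092) (nat_lit 15899908106) (nat_lit 73) (nat_lit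 5) (nat_lit 85) (nat_lit 5) (nat_lit 86) (nat_lit 5) (nat_lit 367) (nat_lit 351) (nat_lit 170))) (XT.nd (nat_lit 94) (nat_lit 0) (nat_lit 84) (XT.lf (nat_lit 0) (nat_lit 3265524565) (nat_lit 1008) (nat_lit 1585877003) (nat_lit 1092) (nat_lit 24909913331) (nat_lit 73) (nat_lit 5) (nat_lit 85) (nat_lit 5) (nat_lit 86) (nat_lit 5) (nat_lit 368) (nat_lit 351) (nat_lit 169)) (XT.lf (nat_lit 0) (nat_lit 4448491005) (nat_lit 1008) (nat_lit 21958868694) (nat_lit 84) (nat_lit 3897180375) (nat_lit 74) (nat_lit 5) (nat_lit 86) (nat_lit 5) (nat_lit 75) (nat_lit 5) (nat_lit 369) (nat_lit 351) (nat_lit 168))))))))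
noncomputable def xc198 : XT := (XT.nd (nat_lit 2350) (nat_lit 1848) (nat_lit 0) (XT.nd (nat_lit 1128) (nat_lit 1176) (nat_lit 0) (XT.nd (nat_lit 564) (nat_lit 840) (nat_lit 0) (XT.nd (nat_lit 282) (nat_lit 504) (nat_lit 0) (XT.nd (nat_lit 94) (nat_lit 672) (nat_lit 0) (XT.lf (nat_lit 0) (nat_lit 5731966624) (nat_lit 1008) (nat_lit 12297250342) (nat_lit 84) (nat_lit 12833426397) (nat_lit 74) (nat_lit 5) (nat_lit 86) (nat_lit 5) (nat_lit 75) (nat_lit 5) (nat_lit 370) (nat_lit 351) (nat_lit 167)) (XT.nd (nat_lit 94) (nat_lit 672) (nat_lit 0) (XT.lf (nat_lit 0) (nat_lit 7052801461) (nat_lit 1008) (nat_lit 2338147099) (nat_lit 84) (nat_lit 22047191153) (nat_lit 74) (nat_lit 5) (nat_lit 86) (nat_lit 5) (nat_lit 75) (nat_lit 5) (nat_lit 371) (nat_lit 351) (nat_lit 166)) (XT.lf (nat_lit 0) (nat_lit 8090734224) (nat_lit 672) (nat_lit 401753534) (nat_lit 756) (nat_lit 23536589698) (nat_lit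 66) (nat_lit 5) (nat_lit 74) (nat_lit 5) (nat_lit 75) (nat_lit 5) (nat_lit 372) (nat_lit 351) (nat_lit 165)))) (XT.nd (nat_lit 94) (nat_lit 504) (nat_lit 0) (XT.lf (nat_lit 0) (nat_lit 10087111873) (nat_lit 756) (nat_lit 13835336902) (nat_lit 84) (nat_lit 8712481553) (nat_lit 66) (nat_lit 5) (nat_lit 75) (nat_lit 5) (nat_lit 67) (nat_lit 5) (nat_lit 373) (nat_lit 351) (nat_lit 164)) (XT.nd (nat_lit 94) (nat_lit 504) (nat_lit 0) (XT.lf (nat_lit 0) (nat_lit 11733047094) (nat_lit 756) (nat_lit 3425220256) (nat_lit 84) (nat_lit 18101254204) (nat_lit 66) (nat_lit 5) (nat_lit 75) (nat_lit 5) (nat_lit 67) (nat_lit 5) (nat_lit 374) (nat_lit 351) (nat_lit 163)) (XT.lf (nat_lit 0) (nat_lit 7455915551) (nat_lit 504) (nat_lit 6045890213) (nat_lit 588) (nat_lit 20399458229) (nat_lit 60) (nat_lit 5) (nat_lit 66) (nat_lit 5) (nat_lit 67) (nat_lit 5) (nat_lit 375) (nat_lit 351) (nat_lit 162)))))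 (XT.nd (nat_lit 282) (nat_lit 420) (nat_lit 0) (XT.nd (nat_lit 94) (nat_lit 420) (nat_lit 0) (XT.lf (nat_lit 0) (nat_lit 15392620427) (nat_lit 588) (nat_lit 15850377800) (nat_lit 84) (nat_lit 3317832492) (nat_lit 60) (nat_lit 5) (nat_lit 67) (nat_lit 5) (nat_lit 61) (nat_lit 5) (nat_lit 376) (nat_lit 351) (nat_lit 161)) (XT.nd (nat_lit 94) (nat_lit 420) (nat_lit 0) (XT.lf (nat_lit 0) (nat_lit 17401833526) (nat_lit 588) (nat_lit 4990716097) (nat_lit 84) (nat_lit 12846454912) (nat_lit 60) (nat_lit 5) (nat_lit 67) (nat_lit 5) (nat_lit 61) (nat_lit 5) (nat_lit 377) (nat_lit 351) (nat_lit 160)) (XT.lf (nat_lit 0) (nat_lit 6331296503) (nat_lit 420) (nat_lit 13202852621) (nat_lit 504) (nat_lit 16402180678) (nat_lit 55) (nat_lit 5) (nat_lit 60) (nat_lit 5) (nat_lit 61) (nat_lit 5) (nat_lit 378) (nat_lit 351) (nat_lit 159)))) (XT.nd (nat_lit 94) (nat_lit 420) (nat_lit 0) (XT.lf (nat_lit 0)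 (nat_lit 18108250755) (nat_lit 420) (nat_lit 3674459820) (nat_lit 504) (nat_lit 14871020094) (nat_lit 55) (nat_lit 5) (nat_lit 60) (nat_lit 5) (nat_lit 61) (nat_lit 5) (nat_lit 379) (nat_lit 351) (nat_lit 158)) (XT.nd (nat_lit 94) (nat_lit 420) (nat_lit 0) (XT.lf (nat_lit 0) (nat_lit 24160090237) (nat_lit 504) (nat_lit 7205940480) (nat_lit 84) (nat_lit 6025520343) (nat_lit 55) (nat_lit 5) (nat_lit 61) (nat_lit 5) (nat_lit 56) (nat_lit 5) (nat_lit 380) (nat_lit 351) (nat_lit 157)) (XT.lf (nat_lit 0) (nat_lit 4537154869) (nat_lit 420) (nat_lit 22154771677) (nat_lit 504) (nat_lit 11457826058) (nat_lit 50) (nat_lit 5) (nat_lit 55) (nat_lit 5) (nat_lit 56) (nat_lit 5) (nat_lit 381) (nat_lit 351) (nat_lit 156)))))) (XT.nd (nat_lit 564) (nat_lit 756) (nat_lit 0) (XT.nd (nat_lit 282) (nat_lit 84) (nat_lit 0) (XT.nd (nat_lit 94) (nat_lit 336) (nat_lit 0) (XT.lf (nat_lit 0) (nat_lit 16795264287)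 (nat_lit 420) (nat_lit 12580405790) (nat_lit 504) (nat_lit 9553524135) (nat_lit 50) (nat_lit 5) (nat_lit 55) (nat_lit 5) (nat_lit 56) (nat_lit 5) (nat_lit 382) (nat_lit 351) (nat_lit 155)) (XT.nd (nat_lit 94) (nat_lit 336) (nat_lit 0) (XT.lf (nat_lit 0) (nat_lit 29431644701) (nat_lit 420) (nat_lit 2709223985) (nat_lit 504) (nat_lit 7591995287) (nat_lit 50) (nat_lit 5) (nat_lit 55) (nat_lit 5) (nat_lit 56) (nat_lit 5) (nat_lit 383) (nat_lit 351) (nat_lit 154)) (XT.lf (nat_lit 0) (nat_lit 1859954249) (nat_lit 336) (nat_lit 33222679786) (nat_lit 420) (nat_lit 5476008393) (nat_lit 46) (nat_lit 5) (nat_lit 50) (nat_lit 5) (nat_lit 51) (nat_lit 5) (nat_lit 384) (nat_lit 351) (nat_lit 153)))) (XT.nd (nat_lit 94) (nat_lit 84) (nat_lit 0) (XT.lf (nat_lit 0) (nat_lit 14586501517) (nat_lit 336) (nat_lit 23662389796) (nat_lit 420) (nat_lit 3157007299) (nat_lit 46) (nat_lit 5) (nat_lit 50) (nat_lit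 5) (nat_lit 51) (nat_lit 5) (nat_lit 385) (nat_lit 351) (nat_lit 152)) (XT.nd (nat_lit 94) (nat_lit 84) (nat_lit 0) (XT.lf (nat_lit 0) (nat_lit 27705899271) (nat_lit 336) (nat_lit 13805798194) (nat_lit 420) (nat_lit 767782516) (nat_lit 46) (nat_lit 5) (nat_lit 50) (nat_lit 5) (nat_lit 51) (nat_lit 5) (nat_lit 386) (nat_lit 351) (nat_lit 151)) (XT.lf (nat_lit 0) (nat_lit 1659764796) (nat_lit 420) (nat_lit 1966628270) (nat_lit 84) (nat_lit 39553286828) (nat_lit 45) (nat_lit 5) (nat_lit 50) (nat_lit 5) (nat_lit 46) (nat_lit 5) (nat_lit 387) (nat_lit 351) (nat_lit 150))))) (XT.nd (nat_lit 282) (nat_lit 336) (nat_lit 0) (XT.nd (nat_lit 94) (nat_lit 0) (nat_lit 0) (XT.lf (nat_lit 0) (nat_lit 4326024698) (nat_lit 504) (nat_lit 32925197752) (nat_lit 84) (nat_lit 6850768063) (nat_lit 40) (nat_lit 5) (nat_lit 46) (nat_lit 5) (nat_lit 41) (nat_lit 5) (nat_lit 388) (nat_lit 351) (nat_lit 149))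 (XT.nd (nat_lit 94) (nat_lit 0) (nat_lit 0) (XT.lf (nat_lit 0) (nat_lit 7131259883) (nat_lit 504) (nat_lit 20321857702) (nat_lit 84) (nat_lit 17598038500) (nat_lit 40) (nat_lit 5) (nat_lit 46) (nat_lit 5) (nat_lit 41) (nat_lit 5) (nat_lit 389) (nat_lit 351) (nat_lit 148)) (XT.lf (nat_lit 0) (nat_lit 10021996873) (nat_lit 504) (nat_lit 7329417609) (nat_lit 84) (nat_lit 28678385582) (nat_lit 40) (nat_lit 5) (nat_lit 46) (nat_lit 5) (nat_lit 41) (nat_lit 5) (nat_lit 390) (nat_lit 351) (nat_lit 147)))) (XT.nd (nat_lit 188) (nat_lit 0) (nat_lit 0) (XT.nd (nat_lit 94) (nat_lit 0) (nat_lit 0) (XT.lf (nat_lit 0) (nat_lit 6188925906) (nat_lit 336) (nat_lit 6873399144) (nat_lit 420) (nat_lit 33974606360) (nat_lit 36) (nat_lit 5) (nat_lit 40) (nat_lit 5) (nat_lit 41) (nat_lit 5) (nat_lit 391) (nat_lit 351) (nat_lit 146)) (XT.lf (nat_lit 0) (nat_lit 16311779683) (nat_lit 420) (nat_lit 27832546845)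 (nat_lit 84) (nat_lit 3927404601) (nat_lit 36) (nat_lit 5) (nat_lit 41) (nat_lit 5) (nat_lit 37) (nat_lit 5) (nat_lit 392) (nat_lit 351) (nat_lit 145))) (XT.nd (nat_lit 94) (nat_lit 0) (nat_lit 0) (XT.lf (nat_lit 0) (nat_lit 19730917190) (nat_lit 420) (nat_lit 14485449459) (nat_lit 84) (nat_lit 14920113762) (nat_lit 36) (nat_lit 5) (nat_lit 41) (nat_lit 5) (nat_lit 37) (nat_lit 5) (nat_lit 393) (nat_lit 351) (nat_lit 144)) (XT.lf (nat_lit 0) (nat_lit 23254739594) (nat_lit 420) (nat_lit 726087483) (nat_lit 84) (nat_lit 26253458368) (nat_lit 36) (nat_lit 5) (nat_lit 41) (nat_lit 5) (nat_lit 37) (nat_lit 5) (nat_lit 394) (nat_lit 351) (nat_lit 143))))))) (XT.nd (nat_lit 1222) (nat_lit 672) (nat_lit 0) (XT.nd (nat_lit 564) (nat_lit 588) (nat_lit 0) (XT.nd (nat_lit 282) (nat_lit 252) (nat_lit 0) (XT.nd (nat_lit 94) (nat_lit 0) (nat_lit 0) (XT.lf (nat_lit 0) (nat_lit 13735095820) (nat_lit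 336) (nat_lit 13287689498) (nat_lit 420) (nat_lit 24339160316) (nat_lit 32) (nat_lit 5) (nat_lit 36) (nat_lit 5) (nat_lit 37) (nat_lit 5) (nat_lit 395) (nat_lit 351) (nat_lit 142)) (XT.nd (nat_lit 94) (nat_lit 0) (nat_lit 0) (XT.lf (nat_lit 0) (nat_lit 28658532700) (nat_lit 336) (nat_lit 2255441512) (nat_lit 420) (nat_lit 21610400223) (nat_lit 32) (nat_lit 5) (nat_lit 36) (nat_lit 5) (nat_lit 37) (nat_lit 5) (nat_lit 396) (nat_lit 351) (nat_lit 141)) (XT.lf (nat_lit 0) (nat_lit 35015040141) (nat_lit 420) (nat_lit 9770137574) (nat_lit 84) (nat_lit 8934901329) (nat_lit 32) (nat_lit 5) (nat_lit 37) (nat_lit 5) (nat_lit 33) (nat_lit 5) (nat_lit 397) (nat_lit 351) (nat_lit 140)))) (XT.nd (nat_lit 94) (nat_lit 0) (nat_lit 0) (XT.lf (nat_lit 0) (nat_lit 4835497739) (nat_lit 252) (nat_lit 34477604830) (nat_lit 336) (nat_lit 15637589209) (nat_lit 29) (nat_lit 5) (nat_lit 32) (nat_lit 5) (nat_lit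 33) (nat_lit 5) (nat_lit 398) (nat_lit 351) (nat_lit 139)) (XT.nd (nat_lit 94) (nat_lit 0) (nat_lit 0) (XT.lf (nat_lit 0) (nat_lit 20099651307) (nat_lit 252) (nat_lit 23745582285) (nat_lit 336) (nat_lit 12371101066) (nat_lit 29) (nat_lit 5) (nat_lit 32) (nat_lit 5) (nat_lit 33) (nat_lit 5) (nat_lit 399) (nat_lit 351) (nat_lit 138)) (XT.lf (nat_lit 0) (nat_lit 35835656852) (nat_lit 252) (nat_lit 12681086910) (nat_lit 336) (nat_lit 9004509961) (nat_lit 29) (nat_lit 5) (nat_lit 32) (nat_lit 5) (nat_lit 33) (nat_lit 5) (nat_lit 400) (nat_lit 351) (nat_lit 137))))) (XT.nd (nat_lit 282) (nat_lit 252) (nat_lit 0) (XT.nd (nat_lit 94) (nat_lit 336) (nat_lit 0) (XT.lf (nat_lit 0) (nat_lit 52058181980) (nat_lit 252) (nat_lit 1273805435) (nat_lit 336) (nat_lit 5534677881) (nat_lit 29) (nat_lit 5) (nat_lit 32) (nat_lit 5) (nat_lit 33) (nat_lit 5) (nat_lit 401) (nat_lit 351) (nat_lit 136)) (XT.nd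 (nat_lit 94) (nat_lit 84) (nat_lit 0) (XT.lf (nat_lit 0) (nat_lit 8597717901) (nat_lit 252) (nat_lit 49887056686) (nat_lit 336) (nat_lit 1763179883) (nat_lit 26) (nat_lit 5) (nat_lit 29) (nat_lit 5) (nat_lit 30) (nat_lit 5) (nat_lit 402) (nat_lit 351) (nat_lit 135)) (XT.lf (nat_lit 0) (nat_lit 2166186923) (nat_lit 336) (nat_lit 37080159112) (nat_lit 84) (nat_lit 22422472976) (nat_lit 25) (nat_lit 5) (nat_lit 29) (nat_lit 5) (nat_lit 26) (nat_lit 5) (nat_lit 403) (nat_lit 351) (nat_lit 134)))) (XT.nd (nat_lit 188) (nat_lit 252) (nat_lit 0) (XT.nd (nat_lit 94) (nat_lit 0) (nat_lit 0) (XT.lf (nat_lit 0) (nat_lit 6179719921) (nat_lit 336) (nat_lit 22077711815) (nat_lit 84) (nat_lit 34875776866) (nat_lit 25) (nat_lit 5) (nat_lit 29) (nat_lit 5) (nat_lit 26) (nat_lit 5) (nat_lit 404) (nat_lit 351) (nat_lit 133)) (XT.lf (nat_lit 0) (nat_lit 10316684288) (nat_lit 336) (nat_lit 6611419861)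 (nat_lit 84) (nat_lit 47714926276) (nat_lit 25) (nat_lit 5) (nat_lit 29) (nat_lit 5) (nat_lit 26) (nat_lit 5) (nat_lit 405) (nat_lit 351) (nat_lit 132))) (XT.nd (nat_lit 94) (nat_lit 0) (nat_lit 0) (XT.lf (nat_lit 0) (nat_lit 9525041307) (nat_lit 252) (nat_lit 5150384390) (nat_lit 336) (nat_lit 51521336920) (nat_lit 22) (nat_lit 5) (nat_lit 25) (nat_lit 5) (nat_lit 26) (nat_lit 5) (nat_lit 406) (nat_lit 351) (nat_lit 131)) (XT.lf (nat_lit 0) (nat_lit 19307425739) (nat_lit 336) (nat_lit 41565915621) (nat_lit 84) (nat_lit 6921042074) (nat_lit 22) (nat_lit 5) (nat_lit 26) (nat_lit 5) (nat_lit 23) (nat_lit 5) (nat_lit 407) (nat_lit 351) (nat_lit 130)))))) (XT.nd (nat_lit 564) (nat_lit 420) (nat_lit 0) (XT.nd (nat_lit 282) (nat_lit 0) (nat_lit 0) (XT.nd (nat_lit 94) (nat_lit 252) (nat_lit 0) (XT.lf (nat_lit 0) (nat_lit 24134778737) (nat_lit 336) (nat_lit 26045683856) (nat_lit 84) (nat_lit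 19259468354) (nat_lit 22) (nat_lit 5) (nat_lit 26) (nat_lit 5) (nat_lit 23) (nat_lit 5) (nat_lit 408) (nat_lit 351) (nat_lit 129)) (XT.nd (nat_lit 94) (nat_lit 252) (nat_lit 0) (XT.lf (nat_lit 0) (nat_lit 29110891838) (nat_lit 336) (nat_lit 10045467083) (nat_lit 84) (nat_lit 31980163922) (nat_lit 22) (nat_lit 5) (nat_lit 26) (nat_lit 5) (nat_lit 23) (nat_lit 5) (nat_lit 409) (nat_lit 351) (nat_lit 128)) (XT.lf (nat_lit 0) (nat_lit 6582266577) (nat_lit 252) (nat_lit 27723433624) (nat_lit 336) (nat_lit 38578016120) (nat_lit 19) (nat_lit 5) (nat_lit 22) (nat_lit 5) (nat_lit 23) (nat_lit 5) (nat_lit 410) (nat_lit 351) (nat_lit 127)))) (XT.nd (nat_lit 94) (nat_lit 0) (nat_lit 0) (XT.lf (nat_lit 0) (nat_lit 23937321987) (nat_lit 252) (nat_lit 15828233580) (nat_lit 336) (nat_lit 34916297582) (nat_lit 19) (nat_lit 5) (nat_lit 22) (nat_lit 5) (nat_lit 23) (nat_lit 5) (nat_lit 411) (nat_lit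 351) (nat_lit 126)) (XT.nd (nat_lit 94) (nat_lit 0) (nat_lit 0) (XT.lf (nat_lit 0) (nat_lit 41829320470) (nat_lit 252) (nat_lit 3564525291) (nat_lit 336) (nat_lit 31141916358) (nat_lit 19) (nat_lit 5) (nat_lit 22) (nat_lit 5) (nat_lit 23) (nat_lit 5) (nat_lit 412) (nat_lit 351) (nat_lit 125)) (XT.lf (nat_lit 0) (nat_lit 51285882958) (nat_lit 336) (nat_lit 18262298045) (nat_lit 84) (nat_lit 8896198221) (nat_lit 19) (nat_lit 5) (nat_lit 23) (nat_lit 5) (nat_lit 20) (nat_lit 5) (nat_lit 413) (nat_lit 351) (nat_lit 124))))) (XT.nd (nat_lit 282) (nat_lit 252) (nat_lit 0) (XT.nd (nat_lit 94) (nat_lit 168) (nat_lit 0) (XT.lf (nat_lit 0) (nat_lit 57396255671) (nat_lit 336) (nat_lit 1345869205) (nat_lit 84) (nat_lit 21668936626) (nat_lit 19) (nat_lit 5) (nat_lit 23) (nat_lit 5) (nat_lit 20) (nat_lit 5) (nat_lit 414) (nat_lit 351) (nat_lit 123)) (XT.nd (nat_lit 94) (nat_lit 0) (nat_lit 0)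 (XT.lf (nat_lit 0) (nat_lit 16424898386) (nat_lit 168) (nat_lit 47433337514) (nat_lit 252) (nat_lit 18575451333) (nat_lit 17) (nat_lit 5) (nat_lit 19) (nat_lit 5) (nat_lit 20) (nat_lit 5) (nat_lit 415) (nat_lit 351) (nat_lit 122)) (XT.lf (nat_lit 0) (nat_lit 34774105932) (nat_lit 168) (nat_lit 35759741444) (nat_lit 252) (nat_lit 13984758330) (nat_lit 17) (nat_lit 5) (nat_lit 19) (nat_lit 5) (nat_lit 20) (nat_lit 5) (nat_lit 416) (nat_lit 351) (nat_lit 121)))) (XT.nd (nat_lit 188) (nat_lit 252) (nat_lit 0) (XT.nd (nat_lit 94) (nat_lit 0) (nat_lit 0) (XT.lf (nat_lit 0) (nat_lit 53691182983) (nat_lit 168) (nat_lit 23724503766) (nat_lit 252) (nat_lit 9252495928) (nat_lit 17) (nat_lit 5) (nat_lit 19) (nat_lit 5) (nat_lit 20) (nat_lit 5) (nat_lit 417) (nat_lit 351) (nat_lit 120)) (XT.lf (nat_lit 0) (nat_lit 73193762238) (nat_lit 168) (nat_lit 11316406377) (nat_lit 252) (nat_lit 4374253163)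 (nat_lit 17) (nat_lit 5) (nat_lit 19) (nat_lit 5) (nat_lit 20) (nat_lit 5) (nat_lit 418) (nat_lit 351) (nat_lit 119))) (XT.nd (nat_lit 94) (nat_lit 0) (nat_lit 0) (XT.lf (nat_lit 0) (nat_lit 677764562) (nat_lit 252) (nat_lit 89015633292) (nat_lit 84) (nat_lit 1474660170) (nat_lit 14) (nat_lit 5) (nat_lit 17) (nat_lit 5) (nat_lit 15) (nat_lit 5) (nat_lit 419) (nat_lit 351) (nat_lit 118)) (XT.lf (nat_lit 0) (nat_lit 6076050068) (nat_lit 252) (nat_lit 72799214600) (nat_lit 84) (nat_lit 14637142744) (nat_lit 14) (nat_lit 5) (nat_lit 17) (nat_lit 5) (nat_lit 15) (nat_lit 5) (nat_lit 420) (nat_lit 351) (nat_lit 117))))))))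
noncomputable def xc199 : XT := (XT.nd (nat_lit 51324) (nat_lit 0) (nat_lit 1260) (XT.nd (nat_lit 50102) (nat_lit 0) (nat_lit 4368) (XT.nd (nat_lit 49444) (nat_lit 0) (nat_lit 5628) (XT.nd (nat_lit 282) (nat_lit 0) (nat_lit 0) (XT.nd (nat_lit 94) (nat_lit 0) (nat_lit 0) (XT.lf (nat_lit 0) (nat_lit 11641027884) (nat_lit 252) (nat_lit 56080988469) (nat_lit 84) (nat_lit 28207438855) (nat_lit 14) (nat_lit 5) (nat_lit 17) (nat_lit 5) (nat_lit 15) (nat_lit 5) (nat_lit 421) (nat_lit 351) (nat_lit 116)) (XT.nd (nat_lit 94) (nat_lit 0) (nat_lit 0) (XT.lf (nat_lit 0) (nat_lit 17377885152) (nat_lit 252) (nat_lit 38845371760) (nat_lit 84) (nat_lit 42198197442) (nat_lit 14) (nat_lit 5) (nat_lit 17) (nat_lit 5) (nat_lit 15) (nat_lit 5) (nat_lit 422) (nat_lit 351) (nat_lit 115)) (XT.lf (nat_lit 0) (nat_lit 23291969225) (nat_lit 252) (nat_lit 21076299074) (nat_lit 84) (nat_lit 56622459357) (nat_lit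 14) (nat_lit 5) (nat_lit 17) (nat_lit 5) (nat_lit 15) (nat_lit 5) (nat_lit 423) (nat_lit 351) (nat_lit 114)))) (XT.nd (nat_lit 48974) (nat_lit 0) (nat_lit 5628) (XT.lf (nat_lit 0) (nat_lit 29388792649) (nat_lit 252) (nat_lit 2757207772) (nat_lit 84) (nat_lit 71493669522) (nat_lit 14) (nat_lit 5) (nat_lit 17) (nat_lit 5) (nat_lit 15) (nat_lit 5) (nat_lit 424) (nat_lit 351) (nat_lit 113)) (XT.nd (nat_lit 94) (nat_lit 0) (nat_lit 0) (XT.lf (nat_lit 0) (nat_lit 4446575079) (nat_lit 0) (nat_lit 4446575079) (nat_lit 924) (nat_lit 2677849874) (nat_lit 81) (nat_lit 5) (nat_lit 81) (nat_lit 3) (nat_lit 92) (nat_lit 3) (nat_lit 352) (nat_lit 352) (nat_lit 184)) (XT.lf (nat_lit 0) (nat_lit 16639201409) (nat_lit 0) (nat_lit 1517501187) (nat_lit 924) (nat_lit 5340371121) (nat_lit 81) (nat_lit 5) (nat_lit 81) (nat_lit 3) (nat_lit 92) (nat_lit 3) (nat_lit 353) (nat_lit 352) (nat_lit 183))))) (XT.nd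 (nat_lit 282) (nat_lit 0) (nat_lit 84) (XT.nd (nat_lit 94) (nat_lit 0) (nat_lit 0) (XT.lf (nat_lit 84) (nat_lit 714159190) (nat_lit 0) (nat_lit 17888096795) (nat_lit 1008) (nat_lit 5258952789) (nat_lit 82) (nat_lit 5) (nat_lit 81) (nat_lit 5) (nat_lit 93) (nat_lit 5) (nat_lit 354) (nat_lit 352) (nat_lit 182)) (XT.nd (nat_lit 94) (nat_lit 0) (nat_lit 0) (XT.lf (nat_lit 84) (nat_lit 8648414960) (nat_lit 0) (nat_lit 10496448207) (nat_lit 1008) (nat_lit 5089215374) (nat_lit 82) (nat_lit 5) (nat_lit 81) (nat_lit 5) (nat_lit 93) (nat_lit 5) (nat_lit 355) (nat_lit 352) (nat_lit 181)) (XT.lf (nat_lit 84) (nat_lit 16826641976) (nat_lit 0) (nat_lit 2874056743) (nat_lit 1008) (nat_lit 4917946121) (nat_lit 82) (nat_lit 5) (nat_lit 81) (nat_lit 5) (nat_lit 93) (nat_lit 5) (nat_lit 356) (nat_lit 352) (nat_lit 180)))) (XT.nd (nat_lit 188) (nat_lit 0) (nat_lit 0) (XT.nd (nat_lit 94) (nat_lit 0)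 (nat_lit 0) (XT.lf (nat_lit 84) (nat_lit 195675962) (nat_lit 0) (nat_lit 20126009452) (nat_lit 1008) (nat_lit 4691987167) (nat_lit 83) (nat_lit 5) (nat_lit 82) (nat_lit 5) (nat_lit 94) (nat_lit 5) (nat_lit 357) (nat_lit 352) (nat_lit 179)) (XT.lf (nat_lit 84) (nat_lit 8564101325) (nat_lit 0) (nat_lit 12504866005) (nat_lit 1008) (nat_lit 4348685119) (nat_lit 83) (nat_lit 5) (nat_lit 82) (nat_lit 5) (nat_lit 94) (nat_lit 5) (nat_lit 358) (nat_lit 352) (nat_lit 178))) (XT.nd (nat_lit 94) (nat_lit 0) (nat_lit 84) (XT.lf (nat_lit 84) (nat_lit 17189951156) (nat_lit 0) (nat_lit 4646180473) (nat_lit 1008) (nat_lit 3998149757) (nat_lit 83) (nat_lit 5) (nat_lit 82) (nat_lit 5) (nat_lit 94) (nat_lit 5) (nat_lit 359) (nat_lit 352) (nat_lit 177)) (XT.lf (nat_lit 0) (nat_lit 22658190952) (nat_lit 924) (nat_lit 216979645) (nat_lit 1008) (nat_lit 3387713913) (nat_lit 83) (nat_lit 5) (nat_lit 94)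 (nat_lit 5) (nat_lit 95) (nat_lit 5) (nat_lit 360) (nat_lit 352) (nat_lit 176)))))) (XT.nd (nat_lit 564) (nat_lit 504) (nat_lit 0) (XT.nd (nat_lit 282) (nat_lit 924) (nat_lit 0) (XT.nd (nat_lit 94) (nat_lit 0) (nat_lit 0) (XT.lf (nat_lit 84) (nat_lit 8595266061) (nat_lit 0) (nat_lit 15040176782) (nat_lit 1008) (nat_lit 3065333010) (nat_lit 84) (nat_lit 5) (nat_lit 83) (nat_lit 5) (nat_lit 95) (nat_lit 5) (nat_lit 361) (nat_lit 352) (nat_lit 175)) (XT.nd (nat_lit 94) (nat_lit 0) (nat_lit 84) (XT.lf (nat_lit 84) (nat_lit 17683302872) (nat_lit 0) (nat_lit 6958947416) (nat_lit 1008) (nat_lit 2510036274) (nat_lit 84) (nat_lit 5) (nat_lit 83) (nat_lit 5) (nat_lit 95) (nat_lit 5) (nat_lit 362) (nat_lit 352) (nat_lit 174)) (XT.lf (nat_lit 0) (nat_lit 25690983131) (nat_lit 924) (nat_lit 580393469) (nat_lit 1008) (nat_lit 1346106518) (nat_lit 84) (nat_lit 5) (nat_lit 95) (nat_lit 5) (nat_lit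 96) (nat_lit 5) (nat_lit 363) (nat_lit 352) (nat_lit 173)))) (XT.nd (nat_lit 94) (nat_lit 1008) (nat_lit 0) (XT.lf (nat_lit 84) (nat_lit 8685576183) (nat_lit 0) (nat_lit 18241169498) (nat_lit 1008) (nat_lit 1165585522) (nat_lit 85) (nat_lit 5) (nat_lit 84) (nat_lit 5) (nat_lit 96) (nat_lit 5) (nat_lit 364) (nat_lit 352) (nat_lit 172)) (XT.nd (nat_lit 94) (nat_lit 1008) (nat_lit 0) (XT.lf (nat_lit 84) (nat_lit 18249126851) (nat_lit 0) (nat_lit 9954996642) (nat_lit 1008) (nat_lit 377693488) (nat_lit 85) (nat_lit 5) (nat_lit 84) (nat_lit 5) (nat_lit 96) (nat_lit 5) (nat_lit 365) (nat_lit 352) (nat_lit 171)) (XT.lf (nat_lit 0) (nat_lit 423151530) (nat_lit 1008) (nat_lit 983624201) (nat_lit 1092) (nat_lit 27679670322) (nat_lit 72) (nat_lit 5) (nat_lit 84) (nat_lit 5) (nat_lit 85) (nat_lit 5) (nat_lit 366) (nat_lit 352) (nat_lit 170))))) (XT.nd (nat_lit 282) (nat_lit 588) (nat_lit 0) (XT.nd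 (nat_lit 94) (nat_lit 0) (nat_lit 0) (XT.lf (nat_lit 0) (nat_lit 1400326960) (nat_lit 1008) (nat_lit 20851072025) (nat_lit 1092) (nat_lit 7350278213) (nat_lit 73) (nat_lit 5) (nat_lit 85) (nat_lit 5) (nat_lit 86) (nat_lit 5) (nat_lit 367) (nat_lit 352) (nat_lit 169)) (XT.nd (nat_lit 94) (nat_lit 0) (nat_lit 0) (XT.lf (nat_lit 0) (nat_lit 2429988438) (nat_lit 1008) (nat_lit 11341615629) (nat_lit 1092) (nat_lit 16360606059) (nat_lit 73) (nat_lit 5) (nat_lit 85) (nat_lit 5) (nat_lit 86) (nat_lit 5) (nat_lit 368) (nat_lit 352) (nat_lit 168)) (XT.lf (nat_lit 0) (nat_lit 3489080165) (nat_lit 1008) (nat_lit 1539314056) (nat_lit 1092) (nat_lit 25650889608) (nat_lit 73) (nat_lit 5) (nat_lit 85) (nat_lit 5) (nat_lit 86) (nat_lit 5) (nat_lit 369) (nat_lit 352) (nat_lit 167)))) (XT.nd (nat_lit 188) (nat_lit 672) (nat_lit 0) (XT.nd (nat_lit 94) (nat_lit 0) (nat_lit 0) (XT.lf (nat_lit 0) (nat_lit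 4705734200) (nat_lit 1008) (nat_lit 22540069599) (nat_lit 84) (nat_lit 3993662950) (nat_lit 74) (nat_lit 5) (nat_lit 86) (nat_lit 5) (nat_lit 75) (nat_lit 5) (nat_lit 370) (nat_lit 352) (nat_lit 166)) (XT.lf (nat_lit 0) (nat_lit 6025409262) (nat_lit 1008) (nat_lit 12581933555) (nat_lit 84) (nat_lit 13207664152) (nat_lit 74) (nat_lit 5) (nat_lit 86) (nat_lit 5) (nat_lit 75) (nat_lit 5) (nat_lit 371) (nat_lit 352) (nat_lit 165))) (XT.nd (nat_lit 94) (nat_lit 672) (nat_lit 0) (XT.lf (nat_lit 0) (nat_lit 7383709570) (nat_lit 1008) (nat_lit 2317000613) (nat_lit 84) (nat_lit 22707765172) (nat_lit 74) (nat_lit 5) (nat_lit 86) (nat_lit 5) (nat_lit 75) (nat_lit 5) (nat_lit 372) (nat_lit 352) (nat_lit 164)) (XT.lf (nat_lit 0) (nat_lit 8434228122) (nat_lit 672) (nat_lit 431341668) (nat_lit 756) (nat_lit 24152261564) (nat_lit 66) (nat_lit 5) (nat_lit 74) (nat_lit 5) (nat_lit 75) (nat_lit 5)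 (nat_lit 373) (nat_lit 352) (nat_lit 163))))))) (XT.nd (nat_lit 1222) (nat_lit 1428) (nat_lit 0) (XT.nd (nat_lit 564) (nat_lit 756) (nat_lit 0) (XT.nd (nat_lit 282) (nat_lit 420) (nat_lit 0) (XT.nd (nat_lit 94) (nat_lit 504) (nat_lit 0) (XT.lf (nat_lit 0) (nat_lit 10506160491) (nat_lit 756) (nat_lit 14170150281) (nat_lit 84) (nat_lit 8966284711) (nat_lit 66) (nat_lit 5) (nat_lit 75) (nat_lit 5) (nat_lit 67) (nat_lit 5) (nat_lit 374) (nat_lit 352) (nat_lit 162)) (XT.nd (nat_lit 94) (nat_lit 504) (nat_lit 0) (XT.lf (nat_lit 0) (nat_lit 12199922038) (nat_lit 756) (nat_lit 3440148868) (nat_lit 84) (nat_lit 18646598932) (nat_lit 66) (nat_lit 5) (nat_lit 75) (nat_lit 5) (nat_lit 67) (nat_lit 5) (nat_lit 375) (nat_lit 352) (nat_lit 161)) (XT.lf (nat_lit 0) (nat_lit 7777378292) (nat_lit 504) (nat_lit 6243928495) (nat_lit 588) (nat_lit 20927088899) (nat_lit 60) (nat_lit 5) (nat_lit 66) (nat_lit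 5) (nat_lit 67) (nat_lit 5) (nat_lit 376) (nat_lit 352) (nat_lit 160)))) (XT.nd (nat_lit 94) (nat_lit 420) (nat_lit 0) (XT.lf (nat_lit 0) (nat_lit 15967599357) (nat_lit 588) (nat_lit 16250331017) (nat_lit 84) (nat_lit 3410596256) (nat_lit 60) (nat_lit 5) (nat_lit 67) (nat_lit 5) (nat_lit 61) (nat_lit 5) (nat_lit 377) (nat_lit 352) (nat_lit 159)) (XT.nd (nat_lit 94) (nat_lit 420) (nat_lit 0) (XT.lf (nat_lit 0) (nat_lit 18036157191) (nat_lit 588) (nat_lit 5056768263) (nat_lit 84) (nat_lit 13234909327) (nat_lit 60) (nat_lit 5) (nat_lit 67) (nat_lit 5) (nat_lit 61) (nat_lit 5) (nat_lit 378) (nat_lit 352) (nat_lit 158)) (XT.lf (nat_lit 0) (nat_lit 6615329125) (nat_lit 420) (nat_lit 13617263617) (nat_lit 504) (nat_lit 16814265011) (nat_lit 55) (nat_lit 5) (nat_lit 60) (nat_lit 5) (nat_lit 61) (nat_lit 5) (nat_lit 379) (nat_lit 352) (nat_lit 157))))) (XT.nd (nat_lit 282) (nat_lit 336) (nat_lit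 0) (XT.nd (nat_lit 94) (nat_lit 420) (nat_lit 0) (XT.lf (nat_lit 0) (nat_lit 18754730127) (nat_lit 420) (nat_lit 3793336614) (nat_lit 504) (nat_lit 15238536491) (nat_lit 55) (nat_lit 5) (nat_lit 60) (nat_lit 5) (nat_lit 61) (nat_lit 5) (nat_lit 380) (nat_lit 352) (nat_lit 156)) (XT.nd (nat_lit 94) (nat_lit 420) (nat_lit 0) (XT.lf (nat_lit 0) (nat_lit 24996388485) (nat_lit 504) (nat_lit 7343421653) (nat_lit 84) (nat_lit 6207589423) (nat_lit 55) (nat_lit 5) (nat_lit 61) (nat_lit 5) (nat_lit 56) (nat_lit 5) (nat_lit 381) (nat_lit 352) (nat_lit 155)) (XT.lf (nat_lit 0) (nat_lit 4762839962) (nat_lit 420) (nat_lit 22842089305) (nat_lit 504) (nat_lit 11724248846) (nat_lit 50) (nat_lit 5) (nat_lit 55) (nat_lit 5) (nat_lit 56) (nat_lit 5) (nat_lit 382) (nat_lit 352) (nat_lit 154)))) (XT.nd (nat_lit 188) (nat_lit 336) (nat_lit 0) (XT.nd (nat_lit 94) (nat_lit 0) (nat_lit 0) (XT.lf (nat_lit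 0) (nat_lit 17398394000) (nat_lit 420) (nat_lit 12970902449) (nat_lit 504) (nat_lit 9763582685) (nat_lit 50) (nat_lit 5) (nat_lit 55) (nat_lit 5) (nat_lit 56) (nat_lit 5) (nat_lit 383) (nat_lit 352) (nat_lit 153)) (XT.lf (nat_lit 0) (nat_lit 30424022311) (nat_lit 420) (nat_lit 2793698851) (nat_lit 504) (nat_lit 7743835310) (nat_lit 50) (nat_lit 5) (nat_lit 55) (nat_lit 5) (nat_lit 56) (nat_lit 5) (nat_lit 384) (nat_lit 352) (nat_lit 152))) (XT.nd (nat_lit 94) (nat_lit 0) (nat_lit 0) (XT.lf (nat_lit 0) (nat_lit 1999800008) (nat_lit 336) (nat_lit 34249271801) (nat_lit 420) (nat_lit 5563928115) (nat_lit 46) (nat_lit 5) (nat_lit 50) (nat_lit 5) (nat_lit 51) (nat_lit 5) (nat_lit 385) (nat_lit 352) (nat_lit 151)) (XT.lf (nat_lit 0) (nat_lit 15118399046) (nat_lit 336) (nat_lit 24392712378) (nat_lit 420) (nat_lit 3175498640) (nat_lit 46) (nat_lit 5) (nat_lit 50) (nat_lit 5) (nat_lit 51)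 (nat_lit 5) (nat_lit 386) (nat_lit 352) (nat_lit 150)))))) (XT.nd (nat_lit 564) (nat_lit 588) (nat_lit 0) (XT.nd (nat_lit 282) (nat_lit 336) (nat_lit 0) (XT.nd (nat_lit 94) (nat_lit 504) (nat_lit 0) (XT.lf (nat_lit 0) (nat_lit 28642101239) (nat_lit 336) (nat_lit 14230663000) (nat_lit 420) (nat_lit 714594554) (nat_lit 46) (nat_lit 5) (nat_lit 50) (nat_lit 5) (nat_lit 51) (nat_lit 5) (nat_lit 387) (nat_lit 352) (nat_lit 149)) (XT.nd (nat_lit 94) (nat_lit 420) (nat_lit 0) (XT.lf (nat_lit 0) (nat_lit 1784387299) (nat_lit 420) (nat_lit 1950638930) (nat_lit 84) (nat_lit 40780499450) (nat_lit 45) (nat_lit 5) (nat_lit 50) (nat_lit 5) (nat_lit 46) (nat_lit 5) (nat_lit 388) (nat_lit 352) (nat_lit 148)) (XT.lf (nat_lit 0) (nat_lit 4531901017) (nat_lit 504) (nat_lit 33867081508) (nat_lit 84) (nat_lit 7067502522) (nat_lit 40) (nat_lit 5) (nat_lit 46) (nat_lit 5) (nat_lit 41) (nat_lit 5) (nat_lit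 389) (nat_lit 352) (nat_lit 147)))) (XT.nd (nat_lit 94) (nat_lit 336) (nat_lit 0) (XT.lf (nat_lit 0) (nat_lit 7421940533) (nat_lit 504) (nat_lit 20875407188) (nat_lit 84) (nat_lit 18147807226) (nat_lit 40) (nat_lit 5) (nat_lit 46) (nat_lit 5) (nat_lit 41) (nat_lit 5) (nat_lit 390) (nat_lit 352) (nat_lit 146)) (XT.nd (nat_lit 94) (nat_lit 336) (nat_lit 0) (XT.lf (nat_lit 0) (nat_lit 10400197296) (nat_lit 504) (nat_lit 7482499485) (nat_lit 84) (nat_lit 29571517895) (nat_lit 40) (nat_lit 5) (nat_lit 46) (nat_lit 5) (nat_lit 41) (nat_lit 5) (nat_lit 391) (nat_lit 352) (nat_lit 145)) (XT.lf (nat_lit 0) (nat_lit 6454162179) (nat_lit 336) (nat_lit 7079311262) (nat_lit 420) (nat_lit 34959146532) (nat_lit 36) (nat_lit 5) (nat_lit 40) (nat_lit 5) (nat_lit 41) (nat_lit 5) (nat_lit 392) (nat_lit 352) (nat_lit 144))))) (XT.nd (nat_lit 282) (nat_lit 588) (nat_lit 0) (XT.nd (nat_lit 94) (nat_lit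 0) (nat_lit 0) (XT.lf (nat_lit 0) (nat_lit 16881739106) (nat_lit 420) (nat_lit 28621869066) (nat_lit 84) (nat_lit 4055962031) (nat_lit 36) (nat_lit 5) (nat_lit 41) (nat_lit 5) (nat_lit 37) (nat_lit 5) (nat_lit 393) (nat_lit 352) (nat_lit 143)) (XT.nd (nat_lit 94) (nat_lit 0) (nat_lit 0) (XT.lf (nat_lit 0) (nat_lit 20404936683) (nat_lit 420) (nat_lit 14863221253) (nat_lit 84) (nat_lit 15389240477) (nat_lit 36) (nat_lit 5) (nat_lit 41) (nat_lit 5) (nat_lit 37) (nat_lit 5) (nat_lit 394) (nat_lit 352) (nat_lit 142)) (XT.lf (nat_lit 0) (nat_lit 24036122516) (nat_lit 420) (nat_lit 679462209) (nat_lit 84) (nat_lit 27073720222) (nat_lit 36) (nat_lit 5) (nat_lit 41) (nat_lit 5) (nat_lit 37) (nat_lit 5) (nat_lit 395) (nat_lit 352) (nat_lit 141)))) (XT.nd (nat_lit 188) (nat_lit 252) (nat_lit 0) (XT.nd (nat_lit 94) (nat_lit 0) (nat_lit 0) (XT.lf (nat_lit 0) (nat_lit 14229317857) (nat_lit 336)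 (nat_lit 13690519987) (nat_lit 420) (nat_lit 25032131164) (nat_lit 32) (nat_lit 5) (nat_lit 36) (nat_lit 5) (nat_lit 37) (nat_lit 5) (nat_lit 396) (nat_lit 352) (nat_lit 140)) (XT.lf (nat_lit 0) (nat_lit 29613323613) (nat_lit 336) (nat_lit 2316545568) (nat_lit 420) (nat_lit 22220629980) (nat_lit 32) (nat_lit 5) (nat_lit 36) (nat_lit 5) (nat_lit 37) (nat_lit 5) (nat_lit 397) (nat_lit 352) (nat_lit 139))) (XT.nd (nat_lit 94) (nat_lit 252) (nat_lit 0) (XT.lf (nat_lit 0) (nat_lit 36156422204) (nat_lit 420) (nat_lit 10006649240) (nat_lit 84) (nat_lit 9220260608) (nat_lit 32) (nat_lit 5) (nat_lit 37) (nat_lit 5) (nat_lit 33) (nat_lit 5) (nat_lit 398) (nat_lit 352) (nat_lit 138)) (XT.lf (nat_lit 0) (nat_lit 5051088905) (nat_lit 252) (nat_lit 35535606051) (nat_lit 336) (nat_lit 16065440848) (nat_lit 29) (nat_lit 5) (nat_lit 32) (nat_lit 5) (nat_lit 33) (nat_lit 5) (nat_lit 399) (nat_lit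 352) (nat_lit 137))))))))
noncomputable def xc200 : XT := (XT.nd (nat_lit 2350) (nat_lit 0) (nat_lit 0) (XT.nd (nat_lit 1128) (nat_lit 420) (nat_lit 0) (XT.nd (nat_lit 564) (nat_lit 504) (nat_lit 0) (XT.nd (nat_lit 282) (nat_lit 336) (nat_lit 0) (XT.nd (nat_lit 94) (nat_lit 0) (nat_lit 0) (XT.lf (nat_lit 0) (nat_lit 20786456052) (nat_lit 252) (nat_lit 24471215677) (nat_lit 336) (nat_lit 12699402845) (nat_lit 29) (nat_lit 5) (nat_lit 32) (nat_lit 5) (nat_lit 33) (nat_lit 5) (nat_lit 400) (nat_lit 352) (nat_lit 136)) (XT.nd (nat_lit 94) (nat_lit 0) (nat_lit 0) (XT.lf (nat_lit 0) (nat_lit 37008361976) (nat_lit 252) (nat_lit 13064036046) (nat_lit 336) (nat_lit 9230107235) (nat_lit 29) (nat_lit 5) (nat_lit 32) (nat_lit 5) (nat_lit 33) (nat_lit 5) (nat_lit 401) (nat_lit 352) (nat_lit 135)) (XT.lf (nat_lit 0) (nat_lit 53731927195) (nat_lit 252) (nat_lit 1303434473) (nat_lit 336) (nat_lit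 5654320271) (nat_lit 29) (nat_lit 5) (nat_lit 32) (nat_lit 5) (nat_lit 33) (nat_lit 5) (nat_lit 402) (nat_lit 352) (nat_lit 134)))) (XT.nd (nat_lit 94) (nat_lit 84) (nat_lit 0) (XT.lf (nat_lit 0) (nat_lit 8925316315) (nat_lit 252) (nat_lit 51421763721) (nat_lit 336) (nat_lit 1766744944) (nat_lit 26) (nat_lit 5) (nat_lit 29) (nat_lit 5) (nat_lit 30) (nat_lit 5) (nat_lit 403) (nat_lit 352) (nat_lit 133)) (XT.nd (nat_lit 94) (nat_lit 0) (nat_lit 0) (XT.lf (nat_lit 0) (nat_lit 2281897491) (nat_lit 336) (nat_lit 38169141249) (nat_lit 84) (nat_lit 23127736950) (nat_lit 25) (nat_lit 5) (nat_lit 29) (nat_lit 5) (nat_lit 26) (nat_lit 5) (nat_lit 404) (nat_lit 352) (nat_lit 132)) (XT.lf (nat_lit 0) (nat_lit 6418389951) (nat_lit 336) (nat_lit 22703437277) (nat_lit 84) (nat_lit 35966787551) (nat_lit 25) (nat_lit 5) (nat_lit 29) (nat_lit 5) (nat_lit 26) (nat_lit 5) (nat_lit 405) (nat_lit 352)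 (nat_lit 131))))) (XT.nd (nat_lit 282) (nat_lit 252) (nat_lit 0) (XT.nd (nat_lit 94) (nat_lit 252) (nat_lit 0) (XT.lf (nat_lit 0) (nat_lit 10682184054) (nat_lit 336) (nat_lit 6759454765) (nat_lit 84) (nat_lit 49203654075) (nat_lit 25) (nat_lit 5) (nat_lit 29) (nat_lit 5) (nat_lit 26) (nat_lit 5) (nat_lit 406) (nat_lit 352) (nat_lit 130)) (XT.nd (nat_lit 94) (nat_lit 0) (nat_lit 0) (XT.lf (nat_lit 0) (nat_lit 9876660444) (nat_lit 252) (nat_lit 5298571353) (nat_lit 336) (nat_lit 53071991918) (nat_lit 22) (nat_lit 5) (nat_lit 25) (nat_lit 5) (nat_lit 26) (nat_lit 5) (nat_lit 407) (nat_lit 352) (nat_lit 129)) (XT.lf (nat_lit 0) (nat_lit 19949585167) (nat_lit 336) (nat_lit 42798331394) (nat_lit 84) (nat_lit 7146500061) (nat_lit 22) (nat_lit 5) (nat_lit 26) (nat_lit 5) (nat_lit 23) (nat_lit 5) (nat_lit 408) (nat_lit 352) (nat_lit 128)))) (XT.nd (nat_lit 94) (nat_lit 252) (nat_lit 0) (XT.lf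 (nat_lit 0) (nat_lit 24925274269) (nat_lit 336) (nat_lit 26798660084) (nat_lit 84) (nat_lit 19867089645) (nat_lit 22) (nat_lit 5) (nat_lit 26) (nat_lit 5) (nat_lit 23) (nat_lit 5) (nat_lit 409) (nat_lit 352) (nat_lit 127)) (XT.nd (nat_lit 94) (nat_lit 252) (nat_lit 0) (XT.lf (nat_lit 0) (nat_lit 30054374481) (nat_lit 336) (nat_lit 10304073486) (nat_lit 84) (nat_lit 32981808724) (nat_lit 22) (nat_lit 5) (nat_lit 26) (nat_lit 5) (nat_lit 23) (nat_lit 5) (nat_lit 410) (nat_lit 352) (nat_lit 126)) (XT.lf (nat_lit 0) (nat_lit 6838585334) (nat_lit 252) (nat_lit 28570920942) (nat_lit 336) (nat_lit 39732135869) (nat_lit 19) (nat_lit 5) (nat_lit 22) (nat_lit 5) (nat_lit 23) (nat_lit 5) (nat_lit 411) (nat_lit 352) (nat_lit 125)))))) (XT.nd (nat_lit 564) (nat_lit 252) (nat_lit 0) (XT.nd (nat_lit 282) (nat_lit 168) (nat_lit 0) (XT.nd (nat_lit 94) (nat_lit 0) (nat_lit 0) (XT.lf (nat_lit 0) (nat_lit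 24730075858) (nat_lit 252) (nat_lit 16307328681) (nat_lit 336) (nat_lit 35958160856) (nat_lit 19) (nat_lit 5) (nat_lit 22) (nat_lit 5) (nat_lit 23) (nat_lit 5) (nat_lit 412) (nat_lit 352) (nat_lit 124)) (XT.nd (nat_lit 94) (nat_lit 0) (nat_lit 0) (XT.lf (nat_lit 0) (nat_lit 43175201946) (nat_lit 252) (nat_lit 3663793626) (nat_lit 336) (nat_lit 32067992826) (nat_lit 19) (nat_lit 5) (nat_lit 22) (nat_lit 5) (nat_lit 23) (nat_lit 5) (nat_lit 413) (nat_lit 352) (nat_lit 123)) (XT.lf (nat_lit 0) (nat_lit 52912653200) (nat_lit 336) (nat_lit 18779502548) (nat_lit 84) (nat_lit 9182655099) (nat_lit 19) (nat_lit 5) (nat_lit 23) (nat_lit 5) (nat_lit 20) (nat_lit 5) (nat_lit 414) (nat_lit 352) (nat_lit 122)))) (XT.nd (nat_lit 94) (nat_lit 168) (nat_lit 0) (XT.lf (nat_lit 0) (nat_lit 59211337725) (nat_lit 336) (nat_lit 1340135537) (nat_lit 84) (nat_lit 22351027428) (nat_lit 19) (nat_lit 5) (nat_lit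 23) (nat_lit 5) (nat_lit 20) (nat_lit 5) (nat_lit 415) (nat_lit 352) (nat_lit 121)) (XT.nd (nat_lit 94) (nat_lit 0) (nat_lit 0) (XT.lf (nat_lit 0) (nat_lit 16981045404) (nat_lit 168) (nat_lit 48891983563) (nat_lit 252) (nat_lit 19114823607) (nat_lit 17) (nat_lit 5) (nat_lit 19) (nat_lit 5) (nat_lit 20) (nat_lit 5) (nat_lit 416) (nat_lit 352) (nat_lit 120)) (XT.lf (nat_lit 0) (nat_lit 35897665939) (nat_lit 168) (nat_lit 36856860438) (nat_lit 252) (nat_lit 14382915598) (nat_lit 17) (nat_lit 5) (nat_lit 19) (nat_lit 5) (nat_lit 20) (nat_lit 5) (nat_lit 417) (nat_lit 352) (nat_lit 119))))) (XT.nd (nat_lit 282) (nat_lit 0) (nat_lit 0) (XT.nd (nat_lit 94) (nat_lit 252) (nat_lit 0) (XT.lf (nat_lit 0) (nat_lit 55399802403) (nat_lit 168) (nat_lit 24448874157) (nat_lit 252) (nat_lit 9505016570) (nat_lit 17) (nat_lit 5) (nat_lit 19) (nat_lit 5) (nat_lit 20) (nat_lit 5) (nat_lit 418) (nat_lit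 352) (nat_lit 118)) (XT.nd (nat_lit 94) (nat_lit 252) (nat_lit 0) (XT.lf (nat_lit 0) (nat_lit 75505632832) (nat_lit 168) (nat_lit 11656459179) (nat_lit 252) (nat_lit 4476579811) (nat_lit 17) (nat_lit 5) (nat_lit 19) (nat_lit 5) (nat_lit 20) (nat_lit 5) (nat_lit 419) (nat_lit 352) (nat_lit 117)) (XT.lf (nat_lit 0) (nat_lit 730939969) (nat_lit 252) (nat_lit 91730815439) (nat_lit 84) (nat_lit 1531353799) (nat_lit 14) (nat_lit 5) (nat_lit 17) (nat_lit 5) (nat_lit 15) (nat_lit 5) (nat_lit 420) (nat_lit 352) (nat_lit 116)))) (XT.nd (nat_lit 188) (nat_lit 0) (nat_lit 0) (XT.nd (nat_lit 94) (nat_lit 0) (nat_lit 0) (XT.lf (nat_lit 0) (nat_lit 6295605200) (nat_lit 252) (nat_lit 75013019851) (nat_lit 84) (nat_lit 15101543213) (nat_lit 14) (nat_lit 5) (nat_lit 17) (nat_lit 5) (nat_lit 15) (nat_lit 5) (nat_lit 421) (nat_lit 352) (nat_lit 115)) (XT.lf (nat_lit 0) (nat_lit 12032159283) (nat_lit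 252) (nat_lit 57777820740) (nat_lit 84) (nat_lit 29092198309) (nat_lit 14) (nat_lit 5) (nat_lit 17) (nat_lit 5) (nat_lit 15) (nat_lit 5) (nat_lit 422) (nat_lit 352) (nat_lit 114))) (XT.nd (nat_lit 94) (nat_lit 0) (nat_lit 0) (XT.lf (nat_lit 0) (nat_lit 17945949286) (nat_lit 252) (nat_lit 40009153094) (nat_lit 84) (nat_lit 43516359846) (nat_lit 14) (nat_lit 5) (nat_lit 17) (nat_lit 5) (nat_lit 15) (nat_lit 5) (nat_lit 423) (nat_lit 352) (nat_lit 113)) (XT.lf (nat_lit 0) (nat_lit 24042487482) (nat_lit 252) (nat_lit 21690454654) (nat_lit 84) (nat_lit 58387472651) (nat_lit 14) (nat_lit 5) (nat_lit 17) (nat_lit 5) (nat_lit 15) (nat_lit 5) (nat_lit 424) (nat_lit 352) (nat_lit 112))))))) (XT.nd (nat_lit 50102) (nat_lit 0) (nat_lit 3864) (XT.nd (nat_lit 49444) (nat_lit 0) (nat_lit 5712) (XT.nd (nat_lit 49162) (nat_lit 0) (nat_lit 5628) (XT.nd (nat_lit 48974) (nat_lit 0) (nat_lit 5628) (XT.lf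 (nat_lit 0) (nat_lit 30327456483) (nat_lit 252) (nat_lit 2804650475) (nat_lit 84) (nat_lit 73719398160) (nat_lit 14) (nat_lit 5) (nat_lit 17) (nat_lit 5) (nat_lit 15) (nat_lit 5) (nat_lit 425) (nat_lit 352) (nat_lit 111)) (XT.nd (nat_lit 94) (nat_lit 0) (nat_lit 0) (XT.lf (nat_lit 0) (nat_lit 4631306428) (nat_lit 0) (nat_lit 4631306428) (nat_lit 924) (nat_lit 2663496810) (nat_lit 81) (nat_lit 5) (nat_lit 81) (nat_lit 3) (nat_lit 92) (nat_lit 3) (nat_lit 353) (nat_lit 353) (nat_lit 182)) (XT.lf (nat_lit 0) (nat_lit 17245972077) (nat_lit 0) (nat_lit 1655499147) (nat_lit 924) (nat_lit 5317045011) (nat_lit 81) (nat_lit 5) (nat_lit 81) (nat_lit 3) (nat_lit 92) (nat_lit 3) (nat_lit 354) (nat_lit 353) (nat_lit 181)))) (XT.nd (nat_lit 94) (nat_lit 0) (nat_lit 0) (XT.lf (nat_lit 84) (nat_lit 834122095) (nat_lit 0) (nat_lit 18521340264) (nat_lit 1008) (nat_lit 5238683643) (nat_lit 82) (nat_lit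 5) (nat_lit 81) (nat_lit 5) (nat_lit 93) (nat_lit 5) (nat_lit 355) (nat_lit 353) (nat_lit 180)) (XT.nd (nat_lit 94) (nat_lit 0) (nat_lit 0) (XT.lf (nat_lit 84) (nat_lit 9011398433) (nat_lit 0) (nat_lit 10898183852) (nat_lit 1008) (nat_lit 5069195714) (nat_lit 82) (nat_lit 5) (nat_lit 81) (nat_lit 5) (nat_lit 93) (nat_lit 5) (nat_lit 356) (nat_lit 353) (nat_lit 179)) (XT.lf (nat_lit 84) (nat_lit 17440297566) (nat_lit 0) (nat_lit 3037202696) (nat_lit 1008) (nat_lit 4897962745) (nat_lit 82) (nat_lit 5) (nat_lit 81) (nat_lit 5) (nat_lit 93) (nat_lit 5) (nat_lit 357) (nat_lit 353) (nat_lit 178))))) (XT.nd (nat_lit 282) (nat_lit 0) (nat_lit 84) (XT.nd (nat_lit 94) (nat_lit 0) (nat_lit 0) (XT.lf (nat_lit 84) (nat_lit 299862473) (nat_lit 0) (nat_lit 20813142268) (nat_lit 1008) (nat_lit 4669915007) (nat_lit 83) (nat_lit 5) (nat_lit 82) (nat_lit 5) (nat_lit 94) (nat_lit 5) (nat_lit 358) (nat_lit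 353) (nat_lit 177)) (XT.nd (nat_lit 94) (nat_lit 0) (nat_lit 0) (XT.lf (nat_lit 84) (nat_lit 8924758744) (nat_lit 0) (nat_lit 12953842285) (nat_lit 1008) (nat_lit 4321007683) (nat_lit 83) (nat_lit 5) (nat_lit 82) (nat_lit 5) (nat_lit 94) (nat_lit 5) (nat_lit 359) (nat_lit 353) (nat_lit 176)) (XT.lf (nat_lit 84) (nat_lit 17815148350) (nat_lit 0) (nat_lit 4849693576) (nat_lit 1008) (nat_lit 3964491357) (nat_lit 83) (nat_lit 5) (nat_lit 82) (nat_lit 5) (nat_lit 94) (nat_lit 5) (nat_lit 360) (nat_lit 353) (nat_lit 175)))) (XT.nd (nat_lit 188) (nat_lit 0) (nat_lit 0) (XT.nd (nat_lit 94) (nat_lit 0) (nat_lit 0) (XT.lf (nat_lit 0) (nat_lit 23507248753) (nat_lit 924) (nat_lit 127964405) (nat_lit 1008) (nat_lit 3436202406) (nat_lit 83) (nat_lit 5) (nat_lit 94) (nat_lit 5) (nat_lit 95) (nat_lit 5) (nat_lit 361) (nat_lit 353) (nat_lit 174)) (XT.lf (nat_lit 84) (nat_lit 8956491621) (nat_lit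 0) (nat_lit 15554834412) (nat_lit 1008) (nat_lit 3011695294) (nat_lit 84) (nat_lit 5) (nat_lit 83) (nat_lit 5) (nat_lit 95) (nat_lit 5) (nat_lit 362) (nat_lit 353) (nat_lit 173))) (XT.nd (nat_lit 94) (nat_lit 0) (nat_lit 84) (XT.lf (nat_lit 84) (nat_lit 18323407969) (nat_lit 0) (nat_lit 7221631284) (nat_lit 1008) (nat_lit 2443654344) (nat_lit 84) (nat_lit 5) (nat_lit 83) (nat_lit 5) (nat_lit 95) (nat_lit 5) (nat_lit 363) (nat_lit 353) (nat_lit 172)) (XT.lf (nat_lit 0) (nat_lit 26621655200) (nat_lit 924) (nat_lit 503621000) (nat_lit 1008) (nat_lit 1343208828) (nat_lit 84) (nat_lit 5) (nat_lit 95) (nat_lit 5) (nat_lit 96) (nat_lit 5) (nat_lit 364) (nat_lit 353) (nat_lit 171)))))) (XT.nd (nat_lit 564) (nat_lit 1008) (nat_lit 0) (XT.nd (nat_lit 282) (nat_lit 0) (nat_lit 84) (XT.nd (nat_lit 94) (nat_lit 1008) (nat_lit 0) (XT.lf (nat_lit 84) (nat_lit 9048634303) (nat_lit 0) (nat_lit 18843985982)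 (nat_lit 1008) (nat_lit 1065558821) (nat_lit 85) (nat_lit 5) (nat_lit 84) (nat_lit 5) (nat_lit 96) (nat_lit 5) (nat_lit 365) (nat_lit 353) (nat_lit 170)) (XT.nd (nat_lit 94) (nat_lit 1008) (nat_lit 0) (XT.lf (nat_lit 84) (nat_lit 18905834516) (nat_lit 0) (nat_lit 10299819025) (nat_lit 1008) (nat_lit 257336175) (nat_lit 85) (nat_lit 5) (nat_lit 84) (nat_lit 5) (nat_lit 96) (nat_lit 5) (nat_lit 366) (nat_lit 353) (nat_lit 169)) (XT.lf (nat_lit 0) (nat_lit 561783272) (nat_lit 1008) (nat_lit 922420901) (nat_lit 1092) (nat_lit 28499164961) (nat_lit 72) (nat_lit 5) (nat_lit 84) (nat_lit 5) (nat_lit 85) (nat_lit 5) (nat_lit 367) (nat_lit 353) (nat_lit 168)))) (XT.nd (nat_lit 94) (nat_lit 0) (nat_lit 0) (XT.lf (nat_lit 0) (nat_lit 1566061434) (nat_lit 1008) (nat_lit 21401730124) (nat_lit 1092) (nat_lit 7546905801) (nat_lit 73) (nat_lit 5) (nat_lit 85) (nat_lit 5) (nat_lit 86) (nat_lit 5)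 (nat_lit 368) (nat_lit 353) (nat_lit 167)) (XT.nd (nat_lit 94) (nat_lit 0) (nat_lit 0) (XT.lf (nat_lit 0) (nat_lit 2623964382) (nat_lit 1008) (nat_lit 11600358832) (nat_lit 1092) (nat_lit 16837492862) (nat_lit 73) (nat_lit 5) (nat_lit 85) (nat_lit 5) (nat_lit 86) (nat_lit 5) (nat_lit 369) (nat_lit 353) (nat_lit 166)) (XT.lf (nat_lit 0) (nat_lit 3712320508) (nat_lit 1008) (nat_lit 1496977622) (nat_lit 1092) (nat_lit 26416686017) (nat_lit 73) (nat_lit 5) (nat_lit 85) (nat_lit 5) (nat_lit 86) (nat_lit 5) (nat_lit 370) (nat_lit 353) (nat_lit 165))))) (XT.nd (nat_lit 282) (nat_lit 1176) (nat_lit 0) (XT.nd (nat_lit 94) (nat_lit 0) (nat_lit 0) (XT.lf (nat_lit 0) (nat_lit 4963883224) (nat_lit 1008) (nat_lit 23145182709) (nat_lit 84) (nat_lit 4094577594) (nat_lit 74) (nat_lit 5) (nat_lit 86) (nat_lit 5) (nat_lit 75) (nat_lit 5) (nat_lit 371) (nat_lit 353) (nat_lit 164)) (XT.nd (nat_lit 94)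 (nat_lit 0) (nat_lit 0) (XT.lf (nat_lit 0) (nat_lit 6321092452) (nat_lit 1008) (nat_lit 12881159677) (nat_lit 84) (nat_lit 13594901054) (nat_lit 74) (nat_lit 5) (nat_lit 86) (nat_lit 5) (nat_lit 75) (nat_lit 5) (nat_lit 372) (nat_lit 353) (nat_lit 163)) (XT.lf (nat_lit 0) (nat_lit 7718225811) (nat_lit 1008) (nat_lit 2300744394) (nat_lit 84) (nat_lit 23390172734) (nat_lit 74) (nat_lit 5) (nat_lit 86) (nat_lit 5) (nat_lit 75) (nat_lit 5) (nat_lit 373) (nat_lit 353) (nat_lit 162)))) (XT.nd (nat_lit 188) (nat_lit 504) (nat_lit 0) (XT.nd (nat_lit 94) (nat_lit 0) (nat_lit 0) (XT.lf (nat_lit 0) (nat_lit 8782880668) (nat_lit 672) (nat_lit 460832172) (nat_lit 756) (nat_lit 24793769447) (nat_lit 66) (nat_lit 5) (nat_lit 74) (nat_lit 5) (nat_lit 75) (nat_lit 5) (nat_lit 374) (nat_lit 353) (nat_lit 161)) (XT.lf (nat_lit 0) (nat_lit 10931900433) (nat_lit 756) (nat_lit 14520915516) (nat_lit 84)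 (nat_lit 9228920282) (nat_lit 66) (nat_lit 5) (nat_lit 75) (nat_lit 5) (nat_lit 67) (nat_lit 5) (nat_lit 375) (nat_lit 353) (nat_lit 160))) (XT.nd (nat_lit 94) (nat_lit 504) (nat_lit 0) (XT.lf (nat_lit 0) (nat_lit 12675160326) (nat_lit 756) (nat_lit 3460945352) (nat_lit 84) (nat_lit 19209784862) (nat_lit 66) (nat_lit 5) (nat_lit 75) (nat_lit 5) (nat_lit 67) (nat_lit 5) (nat_lit 376) (nat_lit 353) (nat_lit 159)) (XT.lf (nat_lit 0) (nat_lit 8103456015) (nat_lit 504) (nat_lit 6447477180) (nat_lit 588) (nat_lit 21477280792) (nat_lit 60) (nat_lit 5) (nat_lit 66) (nat_lit 5) (nat_lit 67) (nat_lit 5) (nat_lit 377) (nat_lit 353) (nat_lit 158))))))))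
noncomputable def xc201 : XT := (XT.nd (nat_lit 2350) (nat_lit 1260) (nat_lit 0) (XT.nd (nat_lit 1128) (nat_lit 1344) (nat_lit 0) (XT.nd (nat_lit 564) (nat_lit 420) (nat_lit 0) (XT.nd (nat_lit 282) (nat_lit 420) (nat_lit 0) (XT.nd (nat_lit 94) (nat_lit 420) (nat_lit 0) (XT.lf (nat_lit 0) (nat_lit 16554609317) (nat_lit 588) (nat_lit 16668097066) (nat_lit 84) (nat_lit 3506833287) (nat_lit 60) (nat_lit 5) (nat_lit 67) (nat_lit 5) (nat_lit 61) (nat_lit 5) (nat_lit 378) (nat_lit 353) (nat_lit 157)) (XT.nd (nat_lit 94) (nat_lit 420) (nat_lit 0) (XT.lf (nat_lit 0) (nat_lit 18684525765) (nat_lit 588) (nat_lit 5130119531) (nat_lit 84) (nat_lit 13635985452) (nat_lit 60) (nat_lit 5) (nat_lit 67) (nat_lit 5) (nat_lit 61) (nat_lit 5) (nat_lit 379) (nat_lit 353) (nat_lit 156)) (XT.lf (nat_lit 0) (nat_lit 6902968438) (nat_lit 420) (nat_lit 14044217935) (nat_lit 504) (nat_lit 17244832904) (nat_lit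 55) (nat_lit 5) (nat_lit 60) (nat_lit 5) (nat_lit 61) (nat_lit 5) (nat_lit 380) (nat_lit 353) (nat_lit 155)))) (XT.nd (nat_lit 94) (nat_lit 420) (nat_lit 0) (XT.lf (nat_lit 0) (nat_lit 19416208343) (nat_lit 420) (nat_lit 3915604293) (nat_lit 504) (nat_lit 15622983187) (nat_lit 55) (nat_lit 5) (nat_lit 60) (nat_lit 5) (nat_lit 61) (nat_lit 5) (nat_lit 381) (nat_lit 353) (nat_lit 154)) (XT.nd (nat_lit 94) (nat_lit 420) (nat_lit 0) (XT.lf (nat_lit 0) (nat_lit 25853438950) (nat_lit 504) (nat_lit 7490252922) (nat_lit 84) (nat_lit 6395582339) (nat_lit 55) (nat_lit 5) (nat_lit 61) (nat_lit 5) (nat_lit 56) (nat_lit 5) (nat_lit 382) (nat_lit 353) (nat_lit 153)) (XT.lf (nat_lit 0) (nat_lit 4990484625) (nat_lit 420) (nat_lit 23550682996) (nat_lit 504) (nat_lit 12004188728) (nat_lit 50) (nat_lit 5) (nat_lit 55) (nat_lit 5) (nat_lit 56) (nat_lit 5) (nat_lit 383) (nat_lit 353) (nat_lit 152)))))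 (XT.nd (nat_lit 282) (nat_lit 84) (nat_lit 0) (XT.nd (nat_lit 94) (nat_lit 336) (nat_lit 0) (XT.lf (nat_lit 0) (nat_lit 18015335509) (nat_lit 420) (nat_lit 13373474647) (nat_lit 504) (nat_lit 9985252942) (nat_lit 50) (nat_lit 5) (nat_lit 55) (nat_lit 5) (nat_lit 56) (nat_lit 5) (nat_lit 384) (nat_lit 353) (nat_lit 151)) (XT.nd (nat_lit 94) (nat_lit 336) (nat_lit 0) (XT.lf (nat_lit 0) (nat_lit 31442425290) (nat_lit 420) (nat_lit 2880763479) (nat_lit 504) (nat_lit 7905328922) (nat_lit 50) (nat_lit 5) (nat_lit 55) (nat_lit 5) (nat_lit 56) (nat_lit 5) (nat_lit 385) (nat_lit 353) (nat_lit 150)) (XT.lf (nat_lit 0) (nat_lit 2139112898) (nat_lit 336) (nat_lit 35307884288) (nat_lit 420) (nat_lit 5659420667) (nat_lit 46) (nat_lit 5) (nat_lit 50) (nat_lit 5) (nat_lit 51) (nat_lit 5) (nat_lit 386) (nat_lit 353) (nat_lit 149)))) (XT.nd (nat_lit 94) (nat_lit 84) (nat_lit 0) (XT.lf (nat_lit 0)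 (nat_lit 15662063684) (nat_lit 336) (nat_lit 25145865182) (nat_lit 420) (nat_lit 3199264782) (nat_lit 46) (nat_lit 5) (nat_lit 50) (nat_lit 5) (nat_lit 51) (nat_lit 5) (nat_lit 387) (nat_lit 353) (nat_lit 148)) (XT.nd (nat_lit 94) (nat_lit 84) (nat_lit 0) (XT.lf (nat_lit 0) (nat_lit 29602745725) (nat_lit 336) (nat_lit 14668883117) (nat_lit 420) (nat_lit 664317969) (nat_lit 46) (nat_lit 5) (nat_lit 50) (nat_lit 5) (nat_lit 51) (nat_lit 5) (nat_lit 388) (nat_lit 353) (nat_lit 147)) (XT.lf (nat_lit 0) (nat_lit 1908539128) (nat_lit 420) (nat_lit 1938712086) (nat_lit 84) (nat_lit 42045692834) (nat_lit 45) (nat_lit 5) (nat_lit 50) (nat_lit 5) (nat_lit 46) (nat_lit 5) (nat_lit 389) (nat_lit 353) (nat_lit 146)))))) (XT.nd (nat_lit 564) (nat_lit 588) (nat_lit 0) (XT.nd (nat_lit 282) (nat_lit 336) (nat_lit 0) (XT.nd (nat_lit 94) (nat_lit 0) (nat_lit 0) (XT.lf (nat_lit 0) (nat_lit 4739908468)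 (nat_lit 504) (nat_lit 34842830965) (nat_lit 84) (nat_lit 7290697460) (nat_lit 40) (nat_lit 5) (nat_lit 46) (nat_lit 5) (nat_lit 41) (nat_lit 5) (nat_lit 390) (nat_lit 353) (nat_lit 145)) (XT.nd (nat_lit 94) (nat_lit 0) (nat_lit 0) (XT.lf (nat_lit 0) (nat_lit 7717509069) (nat_lit 504) (nat_lit 21450643676) (nat_lit 84) (nat_lit 18714368261) (nat_lit 40) (nat_lit 5) (nat_lit 46) (nat_lit 5) (nat_lit 41) (nat_lit 5) (nat_lit 391) (nat_lit 353) (nat_lit 144)) (XT.lf (nat_lit 0) (nat_lit 10786122694) (nat_lit 504) (nat_lit 7644717749) (nat_lit 84) (nat_lit 30492094320) (nat_lit 40) (nat_lit 5) (nat_lit 46) (nat_lit 5) (nat_lit 41) (nat_lit 5) (nat_lit 392) (nat_lit 353) (nat_lit 143)))) (XT.nd (nat_lit 94) (nat_lit 0) (nat_lit 0) (XT.lf (nat_lit 0) (nat_lit 6723274379) (nat_lit 336) (nat_lit 7292030948) (nat_lit 420) (nat_lit 35978275047) (nat_lit 36) (nat_lit 5) (nat_lit 40) (nat_lit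 5) (nat_lit 41) (nat_lit 5) (nat_lit 393) (nat_lit 353) (nat_lit 142)) (XT.nd (nat_lit 94) (nat_lit 0) (nat_lit 0) (XT.lf (nat_lit 0) (nat_lit 17465559013) (nat_lit 420) (nat_lit 29440013021) (nat_lit 84) (nat_lit 4188101499) (nat_lit 36) (nat_lit 5) (nat_lit 41) (nat_lit 5) (nat_lit 37) (nat_lit 5) (nat_lit 394) (nat_lit 353) (nat_lit 141)) (XT.lf (nat_lit 0) (nat_lit 21096157028) (nat_lit 420) (nat_lit 15256925839) (nat_lit 84) (nat_lit 15872519002) (nat_lit 36) (nat_lit 5) (nat_lit 41) (nat_lit 5) (nat_lit 37) (nat_lit 5) (nat_lit 395) (nat_lit 353) (nat_lit 140))))) (XT.nd (nat_lit 282) (nat_lit 252) (nat_lit 0) (XT.nd (nat_lit 94) (nat_lit 336) (nat_lit 0) (XT.lf (nat_lit 0) (nat_lit 24838145619) (nat_lit 420) (nat_lit 635486475) (nat_lit 84) (nat_lit 27919030836) (nat_lit 36) (nat_lit 5) (nat_lit 41) (nat_lit 5) (nat_lit 37) (nat_lit 5) (nat_lit 396) (nat_lit 353) (nat_lit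 139)) (XT.nd (nat_lit 94) (nat_lit 0) (nat_lit 0) (XT.lf (nat_lit 0) (nat_lit 14734807311) (nat_lit 336) (nat_lit 14106376513) (nat_lit 420) (nat_lit 25750229412) (nat_lit 32) (nat_lit 5) (nat_lit 36) (nat_lit 5) (nat_lit 37) (nat_lit 5) (nat_lit 397) (nat_lit 353) (nat_lit 138)) (XT.lf (nat_lit 0) (nat_lit 30593781455) (nat_lit 336) (nat_lit 2380065955) (nat_lit 420) (nat_lit 22853312557) (nat_lit 32) (nat_lit 5) (nat_lit 36) (nat_lit 5) (nat_lit 37) (nat_lit 5) (nat_lit 398) (nat_lit 353) (nat_lit 137)))) (XT.nd (nat_lit 188) (nat_lit 0) (nat_lit 0) (XT.nd (nat_lit 94) (nat_lit 252) (nat_lit 0) (XT.lf (nat_lit 0) (nat_lit 37329875122) (nat_lit 420) (nat_lit 10254423539) (nat_lit 84) (nat_lit 9513969822) (nat_lit 32) (nat_lit 5) (nat_lit 37) (nat_lit 5) (nat_lit 33) (nat_lit 5) (nat_lit 399) (nat_lit 353) (nat_lit 136)) (XT.lf (nat_lit 0) (nat_lit 5269472423) (nat_lit 252) (nat_lit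 36627045281) (nat_lit 336) (nat_lit 16509926979) (nat_lit 29) (nat_lit 5) (nat_lit 32) (nat_lit 5) (nat_lit 33) (nat_lit 5) (nat_lit 400) (nat_lit 353) (nat_lit 135))) (XT.nd (nat_lit 94) (nat_lit 0) (nat_lit 0) (XT.lf (nat_lit 0) (nat_lit 21490777762) (nat_lit 252) (nat_lit 25219964432) (nat_lit 336) (nat_lit 13041151709) (nat_lit 29) (nat_lit 5) (nat_lit 32) (nat_lit 5) (nat_lit 33) (nat_lit 5) (nat_lit 401) (nat_lit 353) (nat_lit 134)) (XT.lf (nat_lit 0) (nat_lit 38213760454) (nat_lit 252) (nat_lit 13459458670) (nat_lit 336) (nat_lit 9465869440) (nat_lit 29) (nat_lit 5) (nat_lit 32) (nat_lit 5) (nat_lit 33) (nat_lit 5) (nat_lit 402) (nat_lit 353) (nat_lit 133))))))) (XT.nd (nat_lit 1222) (nat_lit 420) (nat_lit 0) (XT.nd (nat_lit 564) (nat_lit 252) (nat_lit 0) (XT.nd (nat_lit 282) (nat_lit 252) (nat_lit 0) (XT.nd (nat_lit 94) (nat_lit 336) (nat_lit 0) (XT.lf (nat_lit 0) (nat_lit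 55454008069) (nat_lit 252) (nat_lit 1334565972) (nat_lit 336) (nat_lit 5780747634) (nat_lit 29) (nat_lit 5) (nat_lit 32) (nat_lit 5) (nat_lit 33) (nat_lit 5) (nat_lit 403) (nat_lit 353) (nat_lit 132)) (XT.nd (nat_lit 94) (nat_lit 84) (nat_lit 0) (XT.lf (nat_lit 0) (nat_lit 9259453049) (nat_lit 252) (nat_lit 53004745119) (nat_lit 336) (nat_lit 1773446879) (nat_lit 26) (nat_lit 5) (nat_lit 29) (nat_lit 5) (nat_lit 30) (nat_lit 5) (nat_lit 404) (nat_lit 353) (nat_lit 131)) (XT.lf (nat_lit 0) (nat_lit 2398318866) (nat_lit 336) (nat_lit 39295465516) (nat_lit 84) (nat_lit 23854261879) (nat_lit 25) (nat_lit 5) (nat_lit 29) (nat_lit 5) (nat_lit 26) (nat_lit 5) (nat_lit 405) (nat_lit 353) (nat_lit 130)))) (XT.nd (nat_lit 94) (nat_lit 252) (nat_lit 0) (XT.lf (nat_lit 0) (nat_lit 6661669015) (nat_lit 336) (nat_lit 23352036158) (nat_lit 84) (nat_lit 37091035447) (nat_lit 25) (nat_lit 5) (nat_lit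 29) (nat_lit 5) (nat_lit 26) (nat_lit 5) (nat_lit 406) (nat_lit 353) (nat_lit 129)) (XT.nd (nat_lit 94) (nat_lit 252) (nat_lit 0) (XT.lf (nat_lit 0) (nat_lit 11056308458) (nat_lit 336) (nat_lit 6915450168) (nat_lit 84) (nat_lit 50737965879) (nat_lit 25) (nat_lit 5) (nat_lit 29) (nat_lit 5) (nat_lit 26) (nat_lit 5) (nat_lit 407) (nat_lit 353) (nat_lit 128)) (XT.lf (nat_lit 0) (nat_lit 10235842491) (nat_lit 252) (nat_lit 5452031792) (nat_lit 336) (nat_lit 54673471877) (nat_lit 22) (nat_lit 5) (nat_lit 25) (nat_lit 5) (nat_lit 26) (nat_lit 5) (nat_lit 408) (nat_lit 353) (nat_lit 127))))) (XT.nd (nat_lit 282) (nat_lit 252) (nat_lit 0) (XT.nd (nat_lit 94) (nat_lit 0) (nat_lit 0) (XT.lf (nat_lit 0) (nat_lit 20609067304) (nat_lit 336) (nat_lit 44072276591) (nat_lit 84) (nat_lit 7378301283) (nat_lit 22) (nat_lit 5) (nat_lit 26) (nat_lit 5) (nat_lit 23) (nat_lit 5) (nat_lit 409) (nat_lit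 353) (nat_lit 126)) (XT.nd (nat_lit 94) (nat_lit 0) (nat_lit 0) (XT.lf (nat_lit 0) (nat_lit 25737768630) (nat_lit 336) (nat_lit 27578203147) (nat_lit 84) (nat_lit 20492920656) (nat_lit 22) (nat_lit 5) (nat_lit 26) (nat_lit 5) (nat_lit 23) (nat_lit 5) (nat_lit 410) (nat_lit 353) (nat_lit 125)) (XT.lf (nat_lit 0) (nat_lit 31024673921) (nat_lit 336) (nat_lit 10573824304) (nat_lit 84) (nat_lit 34013896814) (nat_lit 22) (nat_lit 5) (nat_lit 26) (nat_lit 5) (nat_lit 23) (nat_lit 5) (nat_lit 411) (nat_lit 353) (nat_lit 124)))) (XT.nd (nat_lit 188) (nat_lit 0) (nat_lit 0) (XT.nd (nat_lit 94) (nat_lit 0) (nat_lit 0) (XT.lf (nat_lit 0) (nat_lit 7099754020) (nat_lit 252) (nat_lit 29445387543) (nat_lit 336) (nat_lit 40924509142) (nat_lit 19) (nat_lit 5) (nat_lit 22) (nat_lit 5) (nat_lit 23) (nat_lit 5) (nat_lit 412) (nat_lit 353) (nat_lit 123)) (XT.lf (nat_lit 0) (nat_lit 25544402236) (nat_lit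 252) (nat_lit 16801961643) (nat_lit 336) (nat_lit 37034723262) (nat_lit 19) (nat_lit 5) (nat_lit 22) (nat_lit 5) (nat_lit 23) (nat_lit 5) (nat_lit 413) (nat_lit 353) (nat_lit 122))) (XT.nd (nat_lit 94) (nat_lit 0) (nat_lit 0) (XT.lf (nat_lit 0) (nat_lit 44559893173) (nat_lit 252) (nat_lit 3766804567) (nat_lit 336) (nat_lit 33025106829) (nat_lit 19) (nat_lit 5) (nat_lit 22) (nat_lit 5) (nat_lit 23) (nat_lit 5) (nat_lit 414) (nat_lit 353) (nat_lit 121)) (XT.lf (nat_lit 0) (nat_lit 54587667203) (nat_lit 336) (nat_lit 19315638404) (nat_lit 84) (nat_lit 9477359858) (nat_lit 19) (nat_lit 5) (nat_lit 23) (nat_lit 5) (nat_lit 20) (nat_lit 5) (nat_lit 415) (nat_lit 353) (nat_lit 120)))))) (XT.nd (nat_lit 564) (nat_lit 0) (nat_lit 0) (XT.nd (nat_lit 282) (nat_lit 252) (nat_lit 0) (XT.nd (nat_lit 94) (nat_lit 168) (nat_lit 0) (XT.lf (nat_lit 0) (nat_lit 61080566938) (nat_lit 336) (nat_lit 1337035003)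 (nat_lit 84) (nat_lit 23053649773) (nat_lit 19) (nat_lit 5) (nat_lit 23) (nat_lit 5) (nat_lit 20) (nat_lit 5) (nat_lit 416) (nat_lit 353) (nat_lit 119)) (XT.nd (nat_lit 94) (nat_lit 0) (nat_lit 0) (XT.lf (nat_lit 0) (nat_lit 17551650559) (nat_lit 168) (nat_lit 50396545828) (nat_lit 252) (nat_lit 19673076408) (nat_lit 17) (nat_lit 5) (nat_lit 19) (nat_lit 5) (nat_lit 20) (nat_lit 5) (nat_lit 417) (nat_lit 353) (nat_lit 118)) (XT.lf (nat_lit 0) (nat_lit 37053357548) (nat_lit 168) (nat_lit 37988667316) (nat_lit 252) (nat_lit 14795510782) (nat_lit 17) (nat_lit 5) (nat_lit 19) (nat_lit 5) (nat_lit 20) (nat_lit 5) (nat_lit 418) (nat_lit 353) (nat_lit 117)))) (XT.nd (nat_lit 94) (nat_lit 252) (nat_lit 0) (XT.lf (nat_lit 0) (nat_lit 57158771414) (nat_lit 168) (nat_lit 25196356865) (nat_lit 252) (nat_lit 9767397399) (nat_lit 17) (nat_lit 5) (nat_lit 19) (nat_lit 5) (nat_lit 20) (nat_lit 5)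 (nat_lit 419) (nat_lit 353) (nat_lit 116)) (XT.nd (nat_lit 94) (nat_lit 252) (nat_lit 0) (XT.lf (nat_lit 0) (nat_lit 77886632509) (nat_lit 168) (nat_lit 12007690702) (nat_lit 252) (nat_lit 4584049532) (nat_lit 17) (nat_lit 5) (nat_lit 19) (nat_lit 5) (nat_lit 20) (nat_lit 5) (nat_lit 420) (nat_lit 353) (nat_lit 115)) (XT.lf (nat_lit 0) (nat_lit 783858643) (nat_lit 252) (nat_lit 94532792346) (nat_lit 84) (nat_lit 1589154616) (nat_lit 14) (nat_lit 5) (nat_lit 17) (nat_lit 5) (nat_lit 15) (nat_lit 5) (nat_lit 421) (nat_lit 353) (nat_lit 114))))) (XT.nd (nat_lit 282) (nat_lit 0) (nat_lit 0) (XT.nd (nat_lit 94) (nat_lit 0) (nat_lit 0) (XT.lf (nat_lit 0) (nat_lit 6520118656) (nat_lit 252) (nat_lit 77297998275) (nat_lit 84) (nat_lit 15579709335) (nat_lit 14) (nat_lit 5) (nat_lit 17) (nat_lit 5) (nat_lit 15) (nat_lit 5) (nat_lit 422) (nat_lit 353) (nat_lit 113)) (XT.nd (nat_lit 94) (nat_lit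 0) (nat_lit 0) (XT.lf (nat_lit 0) (nat_lit 12433623431) (nat_lit 252) (nat_lit 59529723492) (nat_lit 84) (nat_lit 30003773511) (nat_lit 14) (nat_lit 5) (nat_lit 17) (nat_lit 5) (nat_lit 15) (nat_lit 5) (nat_lit 423) (nat_lit 353) (nat_lit 112)) (XT.lf (nat_lit 0) (nat_lit 18529884976) (nat_lit 252) (nat_lit 41211406102) (nat_lit 84) (nat_lit 44874791883) (nat_lit 14) (nat_lit 5) (nat_lit 17) (nat_lit 5) (nat_lit 15) (nat_lit 5) (nat_lit 424) (nat_lit 353) (nat_lit 111)))) (XT.nd (nat_lit 49162) (nat_lit 0) (nat_lit 5628) (XT.nd (nat_lit 49068) (nat_lit 0) (nat_lit 5628) (XT.lf (nat_lit 0) (nat_lit 24814585643) (nat_lit 252) (nat_lit 22325971515) (nat_lit 84) (nat_lit 60206625799) (nat_lit 14) (nat_lit 5) (nat_lit 17) (nat_lit 5) (nat_lit 15) (nat_lit 5) (nat_lit 425) (nat_lit 353) (nat_lit 110)) (XT.lf (nat_lit 0) (nat_lit 4818987220) (nat_lit 0) (nat_lit 4818987220) (nat_lit 924)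 (nat_lit 2654465981) (nat_lit 81) (nat_lit 5) (nat_lit 81) (nat_lit 3) (nat_lit 92) (nat_lit 3) (nat_lit 354) (nat_lit 354) (nat_lit 180))) (XT.nd (nat_lit 94) (nat_lit 0) (nat_lit 0) (XT.lf (nat_lit 0) (nat_lit 17866165190) (nat_lit 0) (nat_lit 1792387600) (nat_lit 924) (nat_lit 5304183337) (nat_lit 81) (nat_lit 5) (nat_lit 81) (nat_lit 3) (nat_lit 92) (nat_lit 3) (nat_lit 355) (nat_lit 354) (nat_lit 179)) (XT.lf (nat_lit 84) (nat_lit 952009569) (nat_lit 0) (nat_lit 19169552006) (nat_lit 1008) (nat_lit 5228643131) (nat_lit 82) (nat_lit 5) (nat_lit 81) (nat_lit 5) (nat_lit 93) (nat_lit 5) (nat_lit 356) (nat_lit 354) (nat_lit 178))))))))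
noncomputable def xc202 : XT := (XT.nd (nat_lit 2350) (nat_lit 2520) (nat_lit 0) (XT.nd (nat_lit 1128) (nat_lit 1428) (nat_lit 0) (XT.nd (nat_lit 564) (nat_lit 756) (nat_lit 0) (XT.nd (nat_lit 282) (nat_lit 0) (nat_lit 84) (XT.nd (nat_lit 94) (nat_lit 0) (nat_lit 0) (XT.lf (nat_lit 84) (nat_lit 9380014334) (nat_lit 0) (nat_lit 11307851212) (nat_lit 1008) (nat_lit 5059085974) (nat_lit 82) (nat_lit 5) (nat_lit 81) (nat_lit 5) (nat_lit 93) (nat_lit 5) (nat_lit 357) (nat_lit 354) (nat_lit 177)) (XT.nd (nat_lit 94) (nat_lit 0) (nat_lit 84) (XT.lf (nat_lit 84) (nat_lit 18067525404) (nat_lit 0) (nat_lit 3201020054) (nat_lit 1008) (nat_lit 4887573783) (nat_lit 82) (nat_lit 5) (nat_lit 81) (nat_lit 5) (nat_lit 93) (nat_lit 5) (nat_lit 358) (nat_lit 354) (nat_lit 176)) (XT.lf (nat_lit 84) (nat_lit 401466918) (nat_lit 0) (nat_lit 21517831186) (nat_lit 1008) (nat_lit 4657081329) (nat_lit 83)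 (nat_lit 5) (nat_lit 82) (nat_lit 5) (nat_lit 94) (nat_lit 5) (nat_lit 359) (nat_lit 354) (nat_lit 175)))) (XT.nd (nat_lit 94) (nat_lit 0) (nat_lit 0) (XT.lf (nat_lit 84) (nat_lit 9290959444) (nat_lit 0) (nat_lit 13413104420) (nat_lit 1008) (nat_lit 4302096610) (nat_lit 83) (nat_lit 5) (nat_lit 82) (nat_lit 5) (nat_lit 94) (nat_lit 5) (nat_lit 360) (nat_lit 354) (nat_lit 174)) (XT.nd (nat_lit 94) (nat_lit 0) (nat_lit 84) (XT.lf (nat_lit 84) (nat_lit 18454259053) (nat_lit 0) (nat_lit 5055992393) (nat_lit 1008) (nat_lit 3939124525) (nat_lit 83) (nat_lit 5) (nat_lit 82) (nat_lit 5) (nat_lit 94) (nat_lit 5) (nat_lit 361) (nat_lit 354) (nat_lit 173)) (XT.lf (nat_lit 0) (nat_lit 24373940784) (nat_lit 924) (nat_lit 41860632) (nat_lit 1008) (nat_lit 3489542449) (nat_lit 83) (nat_lit 5) (nat_lit 94) (nat_lit 5) (nat_lit 95) (nat_lit 5) (nat_lit 362) (nat_lit 354) (nat_lit 172))))) (XT.nd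 (nat_lit 282) (nat_lit 924) (nat_lit 0) (XT.nd (nat_lit 94) (nat_lit 0) (nat_lit 0) (XT.lf (nat_lit 84) (nat_lit 9323301646) (nat_lit 0) (nat_lit 16082578893) (nat_lit 1008) (nat_lit 2965200375) (nat_lit 84) (nat_lit 5) (nat_lit 83) (nat_lit 5) (nat_lit 95) (nat_lit 5) (nat_lit 363) (nat_lit 354) (nat_lit 171)) (XT.nd (nat_lit 94) (nat_lit 0) (nat_lit 84) (XT.lf (nat_lit 84) (nat_lit 18977911584) (nat_lit 0) (nat_lit 7489677037) (nat_lit 1008) (nat_lit 2383755376) (nat_lit 84) (nat_lit 5) (nat_lit 83) (nat_lit 5) (nat_lit 95) (nat_lit 5) (nat_lit 364) (nat_lit 354) (nat_lit 170)) (XT.lf (nat_lit 0) (nat_lit 27573226151) (nat_lit 924) (nat_lit 430081658) (nat_lit 1008) (nat_lit 1342864643) (nat_lit 84) (nat_lit 5) (nat_lit 95) (nat_lit 5) (nat_lit 96) (nat_lit 5) (nat_lit 365) (nat_lit 354) (nat_lit 169)))) (XT.nd (nat_lit 94) (nat_lit 1008) (nat_lit 0) (XT.lf (nat_lit 84) (nat_lit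 9417390980) (nat_lit 0) (nat_lit 19463278051) (nat_lit 1008) (nat_lit 970496274) (nat_lit 85) (nat_lit 5) (nat_lit 84) (nat_lit 5) (nat_lit 96) (nat_lit 5) (nat_lit 366) (nat_lit 354) (nat_lit 168)) (XT.nd (nat_lit 94) (nat_lit 1008) (nat_lit 0) (XT.lf (nat_lit 84) (nat_lit 19577510937) (nat_lit 0) (nat_lit 10653185678) (nat_lit 1008) (nat_lit 141070268) (nat_lit 85) (nat_lit 5) (nat_lit 84) (nat_lit 5) (nat_lit 96) (nat_lit 5) (nat_lit 367) (nat_lit 354) (nat_lit 167)) (XT.lf (nat_lit 0) (nat_lit 697278186) (nat_lit 1008) (nat_lit 864751590) (nat_lit 1092) (nat_lit 29346348806) (nat_lit 72) (nat_lit 5) (nat_lit 84) (nat_lit 5) (nat_lit 85) (nat_lit 5) (nat_lit 368) (nat_lit 354) (nat_lit 166)))))) (XT.nd (nat_lit 564) (nat_lit 1512) (nat_lit 0) (XT.nd (nat_lit 282) (nat_lit 0) (nat_lit 84) (XT.nd (nat_lit 94) (nat_lit 0) (nat_lit 0) (XT.lf (nat_lit 0) (nat_lit 1729688197) (nat_lit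 1008) (nat_lit 21975128587) (nat_lit 1092) (nat_lit 7751478713) (nat_lit 73) (nat_lit 5) (nat_lit 85) (nat_lit 5) (nat_lit 86) (nat_lit 5) (nat_lit 369) (nat_lit 354) (nat_lit 165)) (XT.nd (nat_lit 94) (nat_lit 0) (nat_lit 0) (XT.lf (nat_lit 0) (nat_lit 2816925957) (nat_lit 1008) (nat_lit 11872622555) (nat_lit 1092) (nat_lit 17330957402) (nat_lit 73) (nat_lit 5) (nat_lit 85) (nat_lit 5) (nat_lit 86) (nat_lit 5) (nat_lit 370) (nat_lit 354) (nat_lit 164)) (XT.lf (nat_lit 0) (nat_lit 3935664985) (nat_lit 1008) (nat_lit 1458662879) (nat_lit 1092) (nat_lit 27207962412) (nat_lit 73) (nat_lit 5) (nat_lit 85) (nat_lit 5) (nat_lit 86) (nat_lit 5) (nat_lit 371) (nat_lit 354) (nat_lit 163)))) (XT.nd (nat_lit 94) (nat_lit 0) (nat_lit 0) (XT.lf (nat_lit 0) (nat_lit 5223384848) (nat_lit 1008) (nat_lit 23774600135) (nat_lit 84) (nat_lit 4199976342) (nat_lit 74) (nat_lit 5) (nat_lit 86) (nat_lit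 5) (nat_lit 75) (nat_lit 5) (nat_lit 372) (nat_lit 354) (nat_lit 162)) (XT.nd (nat_lit 94) (nat_lit 0) (nat_lit 0) (XT.lf (nat_lit 0) (nat_lit 6619491754) (nat_lit 1008) (nat_lit 13195040867) (nat_lit 84) (nat_lit 13995457286) (nat_lit 74) (nat_lit 5) (nat_lit 86) (nat_lit 5) (nat_lit 75) (nat_lit 5) (nat_lit 373) (nat_lit 354) (nat_lit 161)) (XT.lf (nat_lit 0) (nat_lit 8056855929) (nat_lit 1008) (nat_lit 2289201553) (nat_lit 84) (nat_lit 24095010376) (nat_lit 74) (nat_lit 5) (nat_lit 86) (nat_lit 5) (nat_lit 75) (nat_lit 5) (nat_lit 374) (nat_lit 354) (nat_lit 160))))) (XT.nd (nat_lit 282) (nat_lit 924) (nat_lit 0) (XT.nd (nat_lit 94) (nat_lit 0) (nat_lit 0) (XT.lf (nat_lit 0) (nat_lit 9137176943) (nat_lit 672) (nat_lit 490282130) (nat_lit 756) (nat_lit 25461514438) (nat_lit 66) (nat_lit 5) (nat_lit 74) (nat_lit 5) (nat_lit 75) (nat_lit 5) (nat_lit 375) (nat_lit 354) (nat_lit 159))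 (XT.nd (nat_lit 94) (nat_lit 0) (nat_lit 0) (XT.lf (nat_lit 0) (nat_lit 11364912241) (nat_lit 756) (nat_lit 14887797038) (nat_lit 84) (nat_lit 9500604942) (nat_lit 66) (nat_lit 5) (nat_lit 75) (nat_lit 5) (nat_lit 67) (nat_lit 5) (nat_lit 376) (nat_lit 354) (nat_lit 158)) (XT.lf (nat_lit 0) (nat_lit 13159383114) (nat_lit 756) (nat_lit 3487471458) (nat_lit 84) (nat_lit 19791309659) (nat_lit 66) (nat_lit 5) (nat_lit 75) (nat_lit 5) (nat_lit 67) (nat_lit 5) (nat_lit 377) (nat_lit 354) (nat_lit 157)))) (XT.nd (nat_lit 188) (nat_lit 420) (nat_lit 0) (XT.nd (nat_lit 94) (nat_lit 0) (nat_lit 0) (XT.lf (nat_lit 0) (nat_lit 8434608696) (nat_lit 504) (nat_lit 6656744332) (nat_lit 588) (nat_lit 22050365793) (nat_lit 60) (nat_lit 5) (nat_lit 66) (nat_lit 5) (nat_lit 67) (nat_lit 5) (nat_lit 378) (nat_lit 354) (nat_lit 156)) (XT.lf (nat_lit 0) (nat_lit 17154366417) (nat_lit 588) (nat_lit 17103907447)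 (nat_lit 84) (nat_lit 3606615862) (nat_lit 60) (nat_lit 5) (nat_lit 67) (nat_lit 5) (nat_lit 61) (nat_lit 5) (nat_lit 379) (nat_lit 354) (nat_lit 155))) (XT.nd (nat_lit 94) (nat_lit 420) (nat_lit 0) (XT.lf (nat_lit 0) (nat_lit 19347707471) (nat_lit 588) (nat_lit 5210685120) (nat_lit 84) (nat_lit 14050040228) (nat_lit 60) (nat_lit 5) (nat_lit 67) (nat_lit 5) (nat_lit 61) (nat_lit 5) (nat_lit 380) (nat_lit 354) (nat_lit 154)) (XT.lf (nat_lit 0) (nat_lit 7194634157) (nat_lit 420) (nat_lit 14484122390) (nat_lit 504) (nat_lit 17694119197) (nat_lit 55) (nat_lit 5) (nat_lit 60) (nat_lit 5) (nat_lit 61) (nat_lit 5) (nat_lit 381) (nat_lit 354) (nat_lit 153))))))) (XT.nd (nat_lit 1222) (nat_lit 924) (nat_lit 0) (XT.nd (nat_lit 564) (nat_lit 840) (nat_lit 0) (XT.nd (nat_lit 282) (nat_lit 336) (nat_lit 0) (XT.nd (nat_lit 94) (nat_lit 420) (nat_lit 0) (XT.lf (nat_lit 0) (nat_lit 20093449014)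 (nat_lit 420) (nat_lit 4041385407) (nat_lit 504) (nat_lit 16024557036) (nat_lit 55) (nat_lit 5) (nat_lit 60) (nat_lit 5) (nat_lit 61) (nat_lit 5) (nat_lit 382) (nat_lit 354) (nat_lit 152)) (XT.nd (nat_lit 94) (nat_lit 420) (nat_lit 0) (XT.lf (nat_lit 0) (nat_lit 26732191359) (nat_lit 504) (nat_lit 7646422760) (nat_lit 84) (nat_lit 6589666164) (nat_lit 55) (nat_lit 5) (nat_lit 61) (nat_lit 5) (nat_lit 56) (nat_lit 5) (nat_lit 383) (nat_lit 354) (nat_lit 151)) (XT.lf (nat_lit 0) (nat_lit 5220447936) (nat_lit 420) (nat_lit 24281214132) (nat_lit 504) (nat_lit 12297753296) (nat_lit 50) (nat_lit 5) (nat_lit 55) (nat_lit 5) (nat_lit 56) (nat_lit 5) (nat_lit 384) (nat_lit 354) (nat_lit 150)))) (XT.nd (nat_lit 94) (nat_lit 336) (nat_lit 0) (XT.lf (nat_lit 0) (nat_lit 18646806339) (nat_lit 420) (nat_lit 13788498494) (nat_lit 504) (nat_lit 10218592793) (nat_lit 50) (nat_lit 5) (nat_lit 55)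 (nat_lit 5) (nat_lit 56) (nat_lit 5) (nat_lit 385) (nat_lit 354) (nat_lit 149)) (XT.nd (nat_lit 94) (nat_lit 336) (nat_lit 0) (XT.lf (nat_lit 0) (nat_lit 32487941084) (nat_lit 420) (nat_lit 2970499865) (nat_lit 504) (nat_lit 8076482392) (nat_lit 50) (nat_lit 5) (nat_lit 55) (nat_lit 5) (nat_lit 56) (nat_lit 5) (nat_lit 386) (nat_lit 354) (nat_lit 148)) (XT.lf (nat_lit 0) (nat_lit 2278164746) (nat_lit 336) (nat_lit 36399498266) (nat_lit 420) (nat_lit 5762433692) (nat_lit 46) (nat_lit 5) (nat_lit 50) (nat_lit 5) (nat_lit 51) (nat_lit 5) (nat_lit 387) (nat_lit 354) (nat_lit 147))))) (XT.nd (nat_lit 282) (nat_lit 756) (nat_lit 0) (XT.nd (nat_lit 94) (nat_lit 84) (nat_lit 0) (XT.lf (nat_lit 0) (nat_lit 16218139888) (nat_lit 336) (nat_lit 25922544680) (nat_lit 420) (nat_lit 3228190762) (nat_lit 46) (nat_lit 5) (nat_lit 50) (nat_lit 5) (nat_lit 51) (nat_lit 5) (nat_lit 388) (nat_lit 354)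 (nat_lit 146)) (XT.nd (nat_lit 94) (nat_lit 84) (nat_lit 0) (XT.lf (nat_lit 0) (nat_lit 30588861715) (nat_lit 336) (nat_lit 15120861633) (nat_lit 420) (nat_lit 616772904) (nat_lit 46) (nat_lit 5) (nat_lit 50) (nat_lit 5) (nat_lit 51) (nat_lit 5) (nat_lit 389) (nat_lit 354) (nat_lit 145)) (XT.lf (nat_lit 0) (nat_lit 2032462400) (nat_lit 420) (nat_lit 1930703687) (nat_lit 84) (nat_lit 43350048106) (nat_lit 45) (nat_lit 5) (nat_lit 50) (nat_lit 5) (nat_lit 46) (nat_lit 5) (nat_lit 390) (nat_lit 354) (nat_lit 144)))) (XT.nd (nat_lit 188) (nat_lit 336) (nat_lit 0) (XT.nd (nat_lit 94) (nat_lit 0) (nat_lit 0) (XT.lf (nat_lit 0) (nat_lit 4950364913) (nat_lit 504) (nat_lit 35853219506) (nat_lit 84) (nat_lit 7520568451) (nat_lit 40) (nat_lit 5) (nat_lit 46) (nat_lit 5) (nat_lit 41) (nat_lit 5) (nat_lit 391) (nat_lit 354) (nat_lit 143)) (XT.lf (nat_lit 0) (nat_lit 8018361242) (nat_lit 504)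 (nat_lit 22047971322) (nat_lit 84) (nat_lit 19298257004) (nat_lit 40) (nat_lit 5) (nat_lit 46) (nat_lit 5) (nat_lit 41) (nat_lit 5) (nat_lit 392) (nat_lit 354) (nat_lit 142))) (XT.nd (nat_lit 94) (nat_lit 336) (nat_lit 0) (XT.lf (nat_lit 0) (nat_lit 11180249424) (nat_lit 504) (nat_lit 7816095554) (nat_lit 84) (nat_lit 31440980017) (nat_lit 40) (nat_lit 5) (nat_lit 46) (nat_lit 5) (nat_lit 41) (nat_lit 5) (nat_lit 393) (nat_lit 354) (nat_lit 141)) (XT.lf (nat_lit 0) (nat_lit 6996640104) (nat_lit 336) (nat_lit 7511744104) (nat_lit 420) (nat_lit 37032823212) (nat_lit 36) (nat_lit 5) (nat_lit 40) (nat_lit 5) (nat_lit 41) (nat_lit 5) (nat_lit 394) (nat_lit 354) (nat_lit 140)))))) (XT.nd (nat_lit 564) (nat_lit 588) (nat_lit 0) (XT.nd (nat_lit 282) (nat_lit 336) (nat_lit 0) (XT.nd (nat_lit 94) (nat_lit 0) (nat_lit 0) (XT.lf (nat_lit 0) (nat_lit 18063894648) (nat_lit 420) (nat_lit 30287614362)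 (nat_lit 84) (nat_lit 4323957931) (nat_lit 36) (nat_lit 5) (nat_lit 41) (nat_lit 5) (nat_lit 37) (nat_lit 5) (nat_lit 395) (nat_lit 354) (nat_lit 139)) (XT.nd (nat_lit 94) (nat_lit 0) (nat_lit 0) (XT.lf (nat_lit 0) (nat_lit 21805330238) (nat_lit 420) (nat_lit 15666807065) (nat_lit 84) (nat_lit 16370411210) (nat_lit 36) (nat_lit 5) (nat_lit 41) (nat_lit 5) (nat_lit 37) (nat_lit 5) (nat_lit 396) (nat_lit 354) (nat_lit 138)) (XT.lf (nat_lit 0) (nat_lit 25661660958) (nat_lit 420) (nat_lit 593999869) (nat_lit 84) (nat_lit 28790189190) (nat_lit 36) (nat_lit 5) (nat_lit 41) (nat_lit 5) (nat_lit 37) (nat_lit 5) (nat_lit 397) (nat_lit 354) (nat_lit 137)))) (XT.nd (nat_lit 94) (nat_lit 0) (nat_lit 0) (XT.lf (nat_lit 0) (nat_lit 15252153564) (nat_lit 336) (nat_lit 14535630998) (nat_lit 420) (nat_lit 26494018093) (nat_lit 32) (nat_lit 5) (nat_lit 36) (nat_lit 5) (nat_lit 37) (nat_lit 5) (nat_lit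 398) (nat_lit 354) (nat_lit 136)) (XT.nd (nat_lit 94) (nat_lit 0) (nat_lit 0) (XT.lf (nat_lit 0) (nat_lit 31600934778) (nat_lit 336) (nat_lit 2446046654) (nat_lit 420) (nat_lit 23508934567) (nat_lit 32) (nat_lit 5) (nat_lit 36) (nat_lit 5) (nat_lit 37) (nat_lit 5) (nat_lit 399) (nat_lit 354) (nat_lit 135)) (XT.lf (nat_lit 0) (nat_lit 38536589266) (nat_lit 420) (nat_lit 10513576784) (nat_lit 84) (nat_lit 9816317208) (nat_lit 32) (nat_lit 5) (nat_lit 37) (nat_lit 5) (nat_lit 33) (nat_lit 5) (nat_lit 400) (nat_lit 354) (nat_lit 134))))) (XT.nd (nat_lit 282) (nat_lit 336) (nat_lit 0) (XT.nd (nat_lit 94) (nat_lit 0) (nat_lit 0) (XT.lf (nat_lit 0) (nat_lit 5490965325) (nat_lit 252) (nat_lit 37752921192) (nat_lit 336) (nat_lit 16971363596) (nat_lit 29) (nat_lit 5) (nat_lit 32) (nat_lit 5) (nat_lit 33) (nat_lit 5) (nat_lit 401) (nat_lit 354) (nat_lit 133)) (XT.nd (nat_lit 94) (nat_lit 0)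 (nat_lit 0) (XT.lf (nat_lit 0) (nat_lit 22213383004) (nat_lit 252) (nat_lit 25992508360) (nat_lit 336) (nat_lit 13396570846) (nat_lit 29) (nat_lit 5) (nat_lit 32) (nat_lit 5) (nat_lit 33) (nat_lit 5) (nat_lit 402) (nat_lit 354) (nat_lit 132)) (XT.lf (nat_lit 0) (nat_lit 39453082596) (nat_lit 252) (nat_lit 13867705798) (nat_lit 336) (nat_lit 9711923841) (nat_lit 29) (nat_lit 5) (nat_lit 32) (nat_lit 5) (nat_lit 33) (nat_lit 5) (nat_lit 403) (nat_lit 354) (nat_lit 131)))) (XT.nd (nat_lit 188) (nat_lit 84) (nat_lit 0) (XT.nd (nat_lit 94) (nat_lit 252) (nat_lit 0) (XT.lf (nat_lit 0) (nat_lit 57226133307) (nat_lit 252) (nat_lit 1367211920) (nat_lit 336) (nat_lit 5913988103) (nat_lit 29) (nat_lit 5) (nat_lit 32) (nat_lit 5) (nat_lit 33) (nat_lit 5) (nat_lit 404) (nat_lit 354) (nat_lit 130)) (XT.lf (nat_lit 0) (nat_lit 9600545045) (nat_lit 252) (nat_lit 54637456014) (nat_lit 336) (nat_lit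 1783203674) (nat_lit 26) (nat_lit 5) (nat_lit 29) (nat_lit 5) (nat_lit 30) (nat_lit 5) (nat_lit 405) (nat_lit 354) (nat_lit 129))) (XT.nd (nat_lit 94) (nat_lit 0) (nat_lit 0) (XT.lf (nat_lit 0) (nat_lit 2515643448) (nat_lit 336) (nat_lit 40460077251) (nat_lit 84) (nat_lit 24602742525) (nat_lit 25) (nat_lit 5) (nat_lit 29) (nat_lit 5) (nat_lit 26) (nat_lit 5) (nat_lit 406) (nat_lit 354) (nat_lit 128)) (XT.lf (nat_lit 0) (nat_lit 6909865233) (nat_lit 336) (nat_lit 24024011651) (nat_lit 84) (nat_lit 38249585507) (nat_lit 25) (nat_lit 5) (nat_lit 29) (nat_lit 5) (nat_lit 26) (nat_lit 5) (nat_lit 407) (nat_lit 354) (nat_lit 127))))))))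
noncomputable def xc203 : XT := (XT.nd (nat_lit 51512) (nat_lit 0) (nat_lit 2688) (XT.nd (nat_lit 1222) (nat_lit 252) (nat_lit 0) (XT.nd (nat_lit 564) (nat_lit 168) (nat_lit 0) (XT.nd (nat_lit 282) (nat_lit 252) (nat_lit 0) (XT.nd (nat_lit 94) (nat_lit 252) (nat_lit 0) (XT.lf (nat_lit 0) (nat_lit 11439485134) (nat_lit 336) (nat_lit 7079453149) (nat_lit 84) (nat_lit 52319308351) (nat_lit 25) (nat_lit 5) (nat_lit 29) (nat_lit 5) (nat_lit 26) (nat_lit 5) (nat_lit 408) (nat_lit 354) (nat_lit 126)) (XT.nd (nat_lit 94) (nat_lit 0) (nat_lit 0) (XT.lf (nat_lit 0) (nat_lit 10603019570) (nat_lit 252) (nat_lit 5610888928) (nat_lit 336) (nat_lit 56327189209) (nat_lit 22) (nat_lit 5) (nat_lit 25) (nat_lit 5) (nat_lit 26) (nat_lit 5) (nat_lit 409) (nat_lit 354) (nat_lit 125)) (XT.lf (nat_lit 0) (nat_lit 21286562221) (nat_lit 336) (nat_lit 45388841705) (nat_lit 84) (nat_lit 7616680643) (nat_lit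 22) (nat_lit 5) (nat_lit 26) (nat_lit 5) (nat_lit 23) (nat_lit 5) (nat_lit 410) (nat_lit 354) (nat_lit 124)))) (XT.nd (nat_lit 94) (nat_lit 252) (nat_lit 0) (XT.lf (nat_lit 0) (nat_lit 26573092252) (nat_lit 336) (nat_lit 28384945621) (nat_lit 84) (nat_lit 21137563000) (nat_lit 22) (nat_lit 5) (nat_lit 26) (nat_lit 5) (nat_lit 23) (nat_lit 5) (nat_lit 411) (nat_lit 354) (nat_lit 123)) (XT.nd (nat_lit 94) (nat_lit 252) (nat_lit 0) (XT.lf (nat_lit 0) (nat_lit 32022765480) (nat_lit 336) (nat_lit 10854879760) (nat_lit 84) (nat_lit 35077407929) (nat_lit 22) (nat_lit 5) (nat_lit 26) (nat_lit 5) (nat_lit 23) (nat_lit 5) (nat_lit 412) (nat_lit 354) (nat_lit 122)) (XT.lf (nat_lit 0) (nat_lit 7366106361) (nat_lit 252) (nat_lit 30347627895) (nat_lit 336) (nat_lit 42156175151) (nat_lit 19) (nat_lit 5) (nat_lit 22) (nat_lit 5) (nat_lit 23) (nat_lit 5) (nat_lit 413) (nat_lit 354) (nat_lit 121)))))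 (XT.nd (nat_lit 282) (nat_lit 168) (nat_lit 0) (XT.nd (nat_lit 94) (nat_lit 0) (nat_lit 0) (XT.lf (nat_lit 0) (nat_lit 26381147732) (nat_lit 252) (nat_lit 17312573509) (nat_lit 336) (nat_lit 38146918234) (nat_lit 19) (nat_lit 5) (nat_lit 22) (nat_lit 5) (nat_lit 23) (nat_lit 5) (nat_lit 414) (nat_lit 354) (nat_lit 120)) (XT.nd (nat_lit 94) (nat_lit 0) (nat_lit 0) (XT.lf (nat_lit 0) (nat_lit 45984769771) (nat_lit 252) (nat_lit 3873634729) (nat_lit 336) (nat_lit 34014082571) (nat_lit 19) (nat_lit 5) (nat_lit 22) (nat_lit 5) (nat_lit 23) (nat_lit 5) (nat_lit 415) (nat_lit 354) (nat_lit 119)) (XT.lf (nat_lit 0) (nat_lit 56312550011) (nat_lit 336) (nat_lit 19871120832) (nat_lit 84) (nat_lit 9780605632) (nat_lit 19) (nat_lit 5) (nat_lit 23) (nat_lit 5) (nat_lit 20) (nat_lit 5) (nat_lit 416) (nat_lit 354) (nat_lit 118)))) (XT.nd (nat_lit 188) (nat_lit 0) (nat_lit 0) (XT.nd (nat_lit 94)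 (nat_lit 168) (nat_lit 0) (XT.lf (nat_lit 0) (nat_lit 63005747466) (nat_lit 336) (nat_lit 1336482737) (nat_lit 84) (nat_lit 23777476465) (nat_lit 19) (nat_lit 5) (nat_lit 23) (nat_lit 5) (nat_lit 20) (nat_lit 5) (nat_lit 417) (nat_lit 354) (nat_lit 117)) (XT.lf (nat_lit 0) (nat_lit 18137326862) (nat_lit 168) (nat_lit 51948406357) (nat_lit 252) (nat_lit 20250667092) (nat_lit 17) (nat_lit 5) (nat_lit 19) (nat_lit 5) (nat_lit 20) (nat_lit 5) (nat_lit 418) (nat_lit 354) (nat_lit 116))) (XT.nd (nat_lit 94) (nat_lit 0) (nat_lit 0) (XT.lf (nat_lit 0) (nat_lit 38242336690) (nat_lit 168) (nat_lit 39156197291) (nat_lit 252) (nat_lit 15222867363) (nat_lit 17) (nat_lit 5) (nat_lit 19) (nat_lit 5) (nat_lit 20) (nat_lit 5) (nat_lit 419) (nat_lit 354) (nat_lit 115)) (XT.lf (nat_lit 0) (nat_lit 58969805897) (nat_lit 168) (nat_lit 25967629464) (nat_lit 252) (nat_lit 10039823719) (nat_lit 17) (nat_lit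 5) (nat_lit 19) (nat_lit 5) (nat_lit 20) (nat_lit 5) (nat_lit 420) (nat_lit 354) (nat_lit 114)))))) (XT.nd (nat_lit 49632) (nat_lit 0) (nat_lit 5628) (XT.nd (nat_lit 282) (nat_lit 0) (nat_lit 0) (XT.nd (nat_lit 94) (nat_lit 252) (nat_lit 0) (XT.lf (nat_lit 0) (nat_lit 80339054653) (nat_lit 168) (nat_lit 12370409751) (nat_lit 252) (nat_lit 4696705019) (nat_lit 17) (nat_lit 5) (nat_lit 19) (nat_lit 5) (nat_lit 20) (nat_lit 5) (nat_lit 421) (nat_lit 354) (nat_lit 113)) (XT.nd (nat_lit 94) (nat_lit 0) (nat_lit 0) (XT.lf (nat_lit 0) (nat_lit 836625471) (nat_lit 252) (nat_lit 97424099218) (nat_lit 84) (nat_lit 1648135463) (nat_lit 14) (nat_lit 5) (nat_lit 17) (nat_lit 5) (nat_lit 15) (nat_lit 5) (nat_lit 422) (nat_lit 354) (nat_lit 112)) (XT.lf (nat_lit 0) (nat_lit 6749853596) (nat_lit 252) (nat_lit 79656205484) (nat_lit 84) (nat_lit 16072105207) (nat_lit 14) (nat_lit 5) (nat_lit 17) (nat_lit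 5) (nat_lit 15) (nat_lit 5) (nat_lit 423) (nat_lit 354) (nat_lit 111)))) (XT.nd (nat_lit 94) (nat_lit 0) (nat_lit 0) (XT.lf (nat_lit 0) (nat_lit 12845846807) (nat_lit 252) (nat_lit 61338257686) (nat_lit 84) (nat_lit 30943031986) (nat_lit 14) (nat_lit 5) (nat_lit 17) (nat_lit 5) (nat_lit 15) (nat_lit 5) (nat_lit 424) (nat_lit 354) (nat_lit 110)) (XT.nd (nat_lit 49162) (nat_lit 0) (nat_lit 5628) (XT.lf (nat_lit 0) (nat_lit 19130287209) (nat_lit 252) (nat_lit 42453181579) (nat_lit 84) (nat_lit 46274777062) (nat_lit 14) (nat_lit 5) (nat_lit 17) (nat_lit 5) (nat_lit 15) (nat_lit 5) (nat_lit 425) (nat_lit 354) (nat_lit 109)) (XT.lf (nat_lit 0) (nat_lit 5009873389) (nat_lit 0) (nat_lit 5009873389) (nat_lit 924) (nat_lit 2650580774) (nat_lit 81) (nat_lit 5) (nat_lit 81) (nat_lit 3) (nat_lit 92) (nat_lit 3) (nat_lit 355) (nat_lit 355) (nat_lit 178))))) (XT.nd (nat_lit 282) (nat_lit 0) (nat_lit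 0) (XT.nd (nat_lit 94) (nat_lit 0) (nat_lit 0) (XT.lf (nat_lit 0) (nat_lit 18500515951) (nat_lit 0) (nat_lit 1928451256) (nat_lit 924) (nat_lit 5301447837) (nat_lit 81) (nat_lit 5) (nat_lit 81) (nat_lit 3) (nat_lit 92) (nat_lit 3) (nat_lit 356) (nat_lit 355) (nat_lit 177)) (XT.nd (nat_lit 94) (nat_lit 0) (nat_lit 0) (XT.lf (nat_lit 84) (nat_lit 1068100478) (nat_lit 0) (nat_lit 19833472193) (nat_lit 1008) (nat_lit 5228505261) (nat_lit 82) (nat_lit 5) (nat_lit 81) (nat_lit 5) (nat_lit 93) (nat_lit 5) (nat_lit 357) (nat_lit 355) (nat_lit 176)) (XT.lf (nat_lit 84) (nat_lit 9754770155) (nat_lit 0) (nat_lit 11725964022) (nat_lit 1008) (nat_lit 5058569621) (nat_lit 82) (nat_lit 5) (nat_lit 81) (nat_lit 5) (nat_lit 93) (nat_lit 5) (nat_lit 358) (nat_lit 355) (nat_lit 175)))) (XT.nd (nat_lit 188) (nat_lit 0) (nat_lit 84) (XT.nd (nat_lit 94) (nat_lit 0) (nat_lit 84) (XT.lf (nat_lit 84) (nat_lit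 18709069105) (nat_lit 0) (nat_lit 3365789428) (nat_lit 1008) (nat_lit 4886471676) (nat_lit 82) (nat_lit 5) (nat_lit 81) (nat_lit 5) (nat_lit 93) (nat_lit 5) (nat_lit 359) (nat_lit 355) (nat_lit 174)) (XT.lf (nat_lit 84) (nat_lit 500753497) (nat_lit 0) (nat_lit 22240842268) (nat_lit 1008) (nat_lit 4653184787) (nat_lit 83) (nat_lit 5) (nat_lit 82) (nat_lit 5) (nat_lit 94) (nat_lit 5) (nat_lit 360) (nat_lit 355) (nat_lit 173))) (XT.nd (nat_lit 94) (nat_lit 0) (nat_lit 0) (XT.lf (nat_lit 84) (nat_lit 9663209162) (nat_lit 0) (nat_lit 13883186424) (nat_lit 1008) (nat_lit 4291653590) (nat_lit 83) (nat_lit 5) (nat_lit 82) (nat_lit 5) (nat_lit 94) (nat_lit 5) (nat_lit 361) (nat_lit 355) (nat_lit 172)) (XT.lf (nat_lit 84) (nat_lit 19108038442) (nat_lit 0) (nat_lit 5265371966) (nat_lit 1008) (nat_lit 3921753375) (nat_lit 83) (nat_lit 5) (nat_lit 82) (nat_lit 5) (nat_lit 94) (nat_lit 5) (nat_lit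 362) (nat_lit 355) (nat_lit 171))))))) (XT.nd (nat_lit 1222) (nat_lit 2184) (nat_lit 0) (XT.nd (nat_lit 564) (nat_lit 924) (nat_lit 0) (XT.nd (nat_lit 282) (nat_lit 0) (nat_lit 84) (XT.nd (nat_lit 94) (nat_lit 0) (nat_lit 0) (XT.lf (nat_lit 84) (nat_lit 42432232) (nat_lit 0) (nat_lit 25217316929) (nat_lit 1008) (nat_lit 3505674809) (nat_lit 84) (nat_lit 5) (nat_lit 83) (nat_lit 5) (nat_lit 95) (nat_lit 5) (nat_lit 363) (nat_lit 355) (nat_lit 170)) (XT.nd (nat_lit 94) (nat_lit 0) (nat_lit 0) (XT.lf (nat_lit 84) (nat_lit 9696201755) (nat_lit 0) (nat_lit 16623985768) (nat_lit 1008) (nat_lit 2925548112) (nat_lit 84) (nat_lit 5) (nat_lit 83) (nat_lit 5) (nat_lit 95) (nat_lit 5) (nat_lit 364) (nat_lit 355) (nat_lit 169)) (XT.lf (nat_lit 84) (nat_lit 19647582573) (nat_lit 0) (nat_lit 7763415638) (nat_lit 1008) (nat_lit 2330034455) (nat_lit 84) (nat_lit 5) (nat_lit 83) (nat_lit 5) (nat_lit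 95) (nat_lit 5) (nat_lit 365) (nat_lit 355) (nat_lit 168)))) (XT.nd (nat_lit 94) (nat_lit 0) (nat_lit 0) (XT.lf (nat_lit 0) (nat_lit 28546814858) (nat_lit 924) (nat_lit 359543198) (nat_lit 1008) (nat_lit 1344996552) (nat_lit 84) (nat_lit 5) (nat_lit 95) (nat_lit 5) (nat_lit 96) (nat_lit 5) (nat_lit 366) (nat_lit 355) (nat_lit 167)) (XT.nd (nat_lit 94) (nat_lit 0) (nat_lit 0) (XT.lf (nat_lit 84) (nat_lit 9792351973) (nat_lit 0) (nat_lit 20099687453) (nat_lit 1008) (nat_lit 880074066) (nat_lit 85) (nat_lit 5) (nat_lit 84) (nat_lit 5) (nat_lit 96) (nat_lit 5) (nat_lit 367) (nat_lit 355) (nat_lit 166)) (XT.lf (nat_lit 84) (nat_lit 20264939356) (nat_lit 0) (nat_lit 11015488539) (nat_lit 1008) (nat_lit 28559264) (nat_lit 85) (nat_lit 5) (nat_lit 84) (nat_lit 5) (nat_lit 96) (nat_lit 5) (nat_lit 368) (nat_lit 355) (nat_lit 165))))) (XT.nd (nat_lit 282) (nat_lit 0) (nat_lit 84) (XT.nd (nat_lit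 94) (nat_lit 0) (nat_lit 84) (XT.lf (nat_lit 0) (nat_lit 829979384) (nat_lit 1008) (nat_lit 810404115) (nat_lit 1092) (nat_lit 30221944885) (nat_lit 72) (nat_lit 5) (nat_lit 84) (nat_lit 5) (nat_lit 85) (nat_lit 5) (nat_lit 369) (nat_lit 355) (nat_lit 164)) (XT.nd (nat_lit 94) (nat_lit 0) (nat_lit 0) (XT.lf (nat_lit 0) (nat_lit 1891571071) (nat_lit 1008) (nat_lit 22571636525) (nat_lit 1092) (nat_lit 7964133681) (nat_lit 73) (nat_lit 5) (nat_lit 85) (nat_lit 5) (nat_lit 86) (nat_lit 5) (nat_lit 370) (nat_lit 355) (nat_lit 163)) (XT.lf (nat_lit 0) (nat_lit 3009257976) (nat_lit 1008) (nat_lit 12158500189) (nat_lit 1092) (nat_lit 17841407313) (nat_lit 73) (nat_lit 5) (nat_lit 85) (nat_lit 5) (nat_lit 86) (nat_lit 5) (nat_lit 371) (nat_lit 355) (nat_lit 162)))) (XT.nd (nat_lit 188) (nat_lit 0) (nat_lit 84) (XT.nd (nat_lit 94) (nat_lit 0) (nat_lit 84) (XT.lf (nat_lit 0) (nat_lit 4159520564)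 (nat_lit 1008) (nat_lit 1424178553) (nat_lit 1092) (nat_lit 28025405592) (nat_lit 73) (nat_lit 5) (nat_lit 85) (nat_lit 5) (nat_lit 86) (nat_lit 5) (nat_lit 372) (nat_lit 355) (nat_lit 161)) (XT.lf (nat_lit 0) (nat_lit 5484674896) (nat_lit 1008) (nat_lit 24428746823) (nat_lit 84) (nat_lit 4309917896) (nat_lit 74) (nat_lit 5) (nat_lit 86) (nat_lit 5) (nat_lit 75) (nat_lit 5) (nat_lit 373) (nat_lit 355) (nat_lit 160))) (XT.nd (nat_lit 94) (nat_lit 0) (nat_lit 0) (XT.lf (nat_lit 0) (nat_lit 6921073415) (nat_lit 1008) (nat_lit 13523712821) (nat_lit 84) (nat_lit 14409667856) (nat_lit 74) (nat_lit 5) (nat_lit 86) (nat_lit 5) (nat_lit 75) (nat_lit 5) (nat_lit 374) (nat_lit 355) (nat_lit 159)) (XT.lf (nat_lit 0) (nat_lit 8400098014) (nat_lit 1008) (nat_lit 2282209174) (nat_lit 84) (nat_lit 24822897884) (nat_lit 74) (nat_lit 5) (nat_lit 86) (nat_lit 5) (nat_lit 75) (nat_lit 5) (nat_lit 375)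 (nat_lit 355) (nat_lit 158)))))) (XT.nd (nat_lit 564) (nat_lit 1176) (nat_lit 0) (XT.nd (nat_lit 282) (nat_lit 504) (nat_lit 0) (XT.nd (nat_lit 94) (nat_lit 0) (nat_lit 0) (XT.lf (nat_lit 0) (nat_lit 9497597804) (nat_lit 672) (nat_lit 519746838) (nat_lit 756) (nat_lit 26155933744) (nat_lit 66) (nat_lit 5) (nat_lit 74) (nat_lit 5) (nat_lit 75) (nat_lit 5) (nat_lit 376) (nat_lit 355) (nat_lit 157)) (XT.nd (nat_lit 94) (nat_lit 0) (nat_lit 0) (XT.lf (nat_lit 0) (nat_lit 11805772355) (nat_lit 756) (nat_lit 15270983927) (nat_lit 84) (nat_lit 9781565466) (nat_lit 66) (nat_lit 5) (nat_lit 75) (nat_lit 5) (nat_lit 67) (nat_lit 5) (nat_lit 377) (nat_lit 355) (nat_lit 156)) (XT.lf (nat_lit 0) (nat_lit 13653209378) (nat_lit 756) (nat_lit 3519603617) (nat_lit 84) (nat_lit 20391689696) (nat_lit 66) (nat_lit 5) (nat_lit 75) (nat_lit 5) (nat_lit 67) (nat_lit 5) (nat_lit 378) (nat_lit 355) (nat_lit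 155)))) (XT.nd (nat_lit 94) (nat_lit 0) (nat_lit 0) (XT.lf (nat_lit 0) (nat_lit 8771291799) (nat_lit 504) (nat_lit 6871942263) (nat_lit 588) (nat_lit 22646707842) (nat_lit 60) (nat_lit 5) (nat_lit 66) (nat_lit 5) (nat_lit 67) (nat_lit 5) (nat_lit 379) (nat_lit 355) (nat_lit 154)) (XT.nd (nat_lit 94) (nat_lit 0) (nat_lit 0) (XT.lf (nat_lit 0) (nat_lit 17767588640) (nat_lit 588) (nat_lit 17558019833) (nat_lit 84) (nat_lit 3710020592) (nat_lit 60) (nat_lit 5) (nat_lit 67) (nat_lit 5) (nat_lit 61) (nat_lit 5) (nat_lit 380) (nat_lit 355) (nat_lit 153)) (XT.lf (nat_lit 0) (nat_lit 20026474632) (nat_lit 588) (nat_lit 5298396043) (nat_lit 84) (nat_lit 14477443694) (nat_lit 60) (nat_lit 5) (nat_lit 67) (nat_lit 5) (nat_lit 61) (nat_lit 5) (nat_lit 381) (nat_lit 355) (nat_lit 152))))) (XT.nd (nat_lit 282) (nat_lit 756) (nat_lit 0) (XT.nd (nat_lit 94) (nat_lit 0) (nat_lit 0) (XT.lf (nat_lit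 0) (nat_lit 7490740767) (nat_lit 420) (nat_lit 14937395346) (nat_lit 504) (nat_lit 18162386040) (nat_lit 55) (nat_lit 5) (nat_lit 60) (nat_lit 5) (nat_lit 61) (nat_lit 5) (nat_lit 382) (nat_lit 355) (nat_lit 151)) (XT.nd (nat_lit 94) (nat_lit 0) (nat_lit 0) (XT.lf (nat_lit 0) (nat_lit 20787221735) (nat_lit 420) (nat_lit 4170805271) (nat_lit 504) (nat_lit 16443480426) (nat_lit 55) (nat_lit 5) (nat_lit 60) (nat_lit 5) (nat_lit 61) (nat_lit 5) (nat_lit 383) (nat_lit 355) (nat_lit 150)) (XT.lf (nat_lit 0) (nat_lit 27633606729) (nat_lit 504) (nat_lit 7811937131) (nat_lit 84) (nat_lit 6790014131) (nat_lit 55) (nat_lit 5) (nat_lit 61) (nat_lit 5) (nat_lit 56) (nat_lit 5) (nat_lit 384) (nat_lit 355) (nat_lit 149)))) (XT.nd (nat_lit 188) (nat_lit 336) (nat_lit 0) (XT.nd (nat_lit 94) (nat_lit 0) (nat_lit 0) (XT.lf (nat_lit 0) (nat_lit 5453082433) (nat_lit 420) (nat_lit 25034364489) (nat_lit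 504) (nat_lit 12605071922) (nat_lit 50) (nat_lit 5) (nat_lit 55) (nat_lit 5) (nat_lit 56) (nat_lit 5) (nat_lit 385) (nat_lit 355) (nat_lit 148)) (XT.lf (nat_lit 0) (nat_lit 19293529120) (nat_lit 420) (nat_lit 14216361655) (nat_lit 504) (nat_lit 10463679813) (nat_lit 50) (nat_lit 5) (nat_lit 55) (nat_lit 5) (nat_lit 56) (nat_lit 5) (nat_lit 386) (nat_lit 355) (nat_lit 147))) (XT.nd (nat_lit 94) (nat_lit 336) (nat_lit 0) (XT.lf (nat_lit 0) (nat_lit 33561674227) (nat_lit 420) (nat_lit 3062992449) (nat_lit 504) (nat_lit 8257319537) (nat_lit 50) (nat_lit 5) (nat_lit 55) (nat_lit 5) (nat_lit 56) (nat_lit 5) (nat_lit 387) (nat_lit 355) (nat_lit 146)) (XT.lf (nat_lit 0) (nat_lit 2417218725) (nat_lit 336) (nat_lit 37525125851) (nat_lit 420) (nat_lit 5872930214) (nat_lit 46) (nat_lit 5) (nat_lit 50) (nat_lit 5) (nat_lit 51) (nat_lit 5) (nat_lit 388) (nat_lit 355) (nat_lit 145))))))))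
noncomputable def xc204 : XT := (XT.nd (nat_lit 2350) (nat_lit 672) (nat_lit 0) (XT.nd (nat_lit 1128) (nat_lit 840) (nat_lit 0) (XT.nd (nat_lit 564) (nat_lit 672) (nat_lit 0) (XT.nd (nat_lit 282) (nat_lit 420) (nat_lit 0) (XT.nd (nat_lit 94) (nat_lit 84) (nat_lit 0) (XT.lf (nat_lit 0) (nat_lit 16787275524) (nat_lit 336) (nat_lit 26723469597) (nat_lit 420) (nat_lit 3262174548) (nat_lit 46) (nat_lit 5) (nat_lit 50) (nat_lit 5) (nat_lit 51) (nat_lit 5) (nat_lit 389) (nat_lit 355) (nat_lit 144)) (XT.nd (nat_lit 94) (nat_lit 84) (nat_lit 0) (XT.lf (nat_lit 0) (nat_lit 31601494022) (nat_lit 336) (nat_lit 15587014777) (nat_lit 420) (nat_lit 571789928) (nat_lit 46) (nat_lit 5) (nat_lit 50) (nat_lit 5) (nat_lit 51) (nat_lit 5) (nat_lit 390) (nat_lit 355) (nat_lit 143)) (XT.lf (nat_lit 0) (nat_lit 2156391533) (nat_lit 420) (nat_lit 1926481210) (nat_lit 84) (nat_lit 44694782785) (nat_lit 45)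 (nat_lit 5) (nat_lit 50) (nat_lit 5) (nat_lit 46) (nat_lit 5) (nat_lit 391) (nat_lit 355) (nat_lit 142)))) (XT.nd (nat_lit 94) (nat_lit 0) (nat_lit 0) (XT.lf (nat_lit 0) (nat_lit 5163583152) (nat_lit 504) (nat_lit 36899060864) (nat_lit 84) (nat_lit 7757336846) (nat_lit 40) (nat_lit 5) (nat_lit 46) (nat_lit 5) (nat_lit 41) (nat_lit 5) (nat_lit 392) (nat_lit 355) (nat_lit 141)) (XT.nd (nat_lit 94) (nat_lit 0) (nat_lit 0) (XT.lf (nat_lit 0) (nat_lit 8324890602) (nat_lit 504) (nat_lit 22667822695) (nat_lit 84) (nat_lit 19900024574) (nat_lit 40) (nat_lit 5) (nat_lit 46) (nat_lit 5) (nat_lit 41) (nat_lit 5) (nat_lit 393) (nat_lit 355) (nat_lit 140)) (XT.lf (nat_lit 0) (nat_lit 11583054578) (nat_lit 504) (nat_lit 7996672171) (nat_lit 84) (nat_lit 32419066113) (nat_lit 40) (nat_lit 5) (nat_lit 46) (nat_lit 5) (nat_lit 41) (nat_lit 5) (nat_lit 394) (nat_lit 355) (nat_lit 139))))) (XT.nd (nat_lit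 282) (nat_lit 336) (nat_lit 0) (XT.nd (nat_lit 94) (nat_lit 0) (nat_lit 0) (XT.lf (nat_lit 0) (nat_lit 7274633409) (nat_lit 336) (nat_lit 7738643885) (nat_lit 420) (nat_lit 38123662376) (nat_lit 36) (nat_lit 5) (nat_lit 40) (nat_lit 5) (nat_lit 41) (nat_lit 5) (nat_lit 395) (nat_lit 355) (nat_lit 138)) (XT.nd (nat_lit 94) (nat_lit 0) (nat_lit 0) (XT.lf (nat_lit 0) (nat_lit 18677408207) (nat_lit 420) (nat_lit 31165343721) (nat_lit 84) (nat_lit 4463669026) (nat_lit 36) (nat_lit 5) (nat_lit 41) (nat_lit 5) (nat_lit 37) (nat_lit 5) (nat_lit 396) (nat_lit 355) (nat_lit 137)) (XT.lf (nat_lit 0) (nat_lit 22533218681) (nat_lit 420) (nat_lit 16093131152) (nat_lit 84) (nat_lit 16883391919) (nat_lit 36) (nat_lit 5) (nat_lit 41) (nat_lit 5) (nat_lit 37) (nat_lit 5) (nat_lit 397) (nat_lit 355) (nat_lit 136)))) (XT.nd (nat_lit 94) (nat_lit 336) (nat_lit 0) (XT.lf (nat_lit 0) (nat_lit 26507534432)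 (nat_lit 420) (nat_lit 554851370) (nat_lit 84) (nat_lit 29688017704) (nat_lit 36) (nat_lit 5) (nat_lit 41) (nat_lit 5) (nat_lit 37) (nat_lit 5) (nat_lit 398) (nat_lit 355) (nat_lit 135)) (XT.nd (nat_lit 94) (nat_lit 0) (nat_lit 0) (XT.lf (nat_lit 0) (nat_lit 15781950051) (nat_lit 336) (nat_lit 14978668784) (nat_lit 420) (nat_lit 27264090481) (nat_lit 32) (nat_lit 5) (nat_lit 36) (nat_lit 5) (nat_lit 37) (nat_lit 5) (nat_lit 399) (nat_lit 355) (nat_lit 134)) (XT.lf (nat_lit 0) (nat_lit 32635830222) (nat_lit 336) (nat_lit 2514534843) (nat_lit 420) (nat_lit 24188010110) (nat_lit 32) (nat_lit 5) (nat_lit 36) (nat_lit 5) (nat_lit 37) (nat_lit 5) (nat_lit 400) (nat_lit 355) (nat_lit 133)))))) (XT.nd (nat_lit 564) (nat_lit 336) (nat_lit 0) (XT.nd (nat_lit 282) (nat_lit 252) (nat_lit 0) (XT.nd (nat_lit 94) (nat_lit 252) (nat_lit 0) (XT.lf (nat_lit 0) (nat_lit 39777780288) (nat_lit 420) (nat_lit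 10784242689) (nat_lit 84) (nat_lit 10127598200) (nat_lit 32) (nat_lit 5) (nat_lit 37) (nat_lit 5) (nat_lit 33) (nat_lit 5) (nat_lit 401) (nat_lit 355) (nat_lit 132)) (XT.nd (nat_lit 94) (nat_lit 0) (nat_lit 0) (XT.lf (nat_lit 0) (nat_lit 5715880818) (nat_lit 252) (nat_lit 38914265658) (nat_lit 336) (nat_lit 17450088316) (nat_lit 29) (nat_lit 5) (nat_lit 32) (nat_lit 5) (nat_lit 33) (nat_lit 5) (nat_lit 402) (nat_lit 355) (nat_lit 131)) (XT.lf (nat_lit 0) (nat_lit 22955048865) (nat_lit 252) (nat_lit 26789550522) (nat_lit 336) (nat_lit 13765901835) (nat_lit 29) (nat_lit 5) (nat_lit 32) (nat_lit 5) (nat_lit 33) (nat_lit 5) (nat_lit 403) (nat_lit 355) (nat_lit 130)))) (XT.nd (nat_lit 94) (nat_lit 252) (nat_lit 0) (XT.lf (nat_lit 0) (nat_lit 40727584013) (nat_lit 252) (nat_lit 14289141441) (nat_lit 336) (nat_lit 9968412774) (nat_lit 29) (nat_lit 5) (nat_lit 32) (nat_lit 5) (nat_lit 33)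 (nat_lit 5) (nat_lit 404) (nat_lit 355) (nat_lit 129)) (XT.nd (nat_lit 94) (nat_lit 252) (nat_lit 0) (XT.lf (nat_lit 0) (nat_lit 59050052127) (nat_lit 252) (nat_lit 1401386724) (nat_lit 336) (nat_lit 6054081476) (nat_lit 29) (nat_lit 5) (nat_lit 32) (nat_lit 5) (nat_lit 33) (nat_lit 5) (nat_lit 405) (nat_lit 355) (nat_lit 128)) (XT.lf (nat_lit 0) (nat_lit 9949009482) (nat_lit 252) (nat_lit 56321399100) (nat_lit 336) (nat_lit 1795941390) (nat_lit 26) (nat_lit 5) (nat_lit 29) (nat_lit 5) (nat_lit 30) (nat_lit 5) (nat_lit 406) (nat_lit 355) (nat_lit 127))))) (XT.nd (nat_lit 282) (nat_lit 252) (nat_lit 0) (XT.nd (nat_lit 94) (nat_lit 0) (nat_lit 0) (XT.lf (nat_lit 0) (nat_lit 2634059509) (nat_lit 336) (nat_lit 41663963673) (nat_lit 84) (nat_lit 25373893073) (nat_lit 25) (nat_lit 5) (nat_lit 29) (nat_lit 5) (nat_lit 26) (nat_lit 5) (nat_lit 407) (nat_lit 355) (nat_lit 126)) (XT.nd (nat_lit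 94) (nat_lit 0) (nat_lit 0) (XT.lf (nat_lit 0) (nat_lit 7163286491) (nat_lit 336) (nat_lit 24719894738) (nat_lit 84) (nat_lit 39443533647) (nat_lit 25) (nat_lit 5) (nat_lit 29) (nat_lit 5) (nat_lit 26) (nat_lit 5) (nat_lit 408) (nat_lit 355) (nat_lit 125)) (XT.lf (nat_lit 0) (nat_lit 11832145483) (nat_lit 336) (nat_lit 7251524078) (nat_lit 84) (nat_lit 53949171012) (nat_lit 25) (nat_lit 5) (nat_lit 29) (nat_lit 5) (nat_lit 26) (nat_lit 5) (nat_lit 409) (nat_lit 355) (nat_lit 124)))) (XT.nd (nat_lit 188) (nat_lit 0) (nat_lit 0) (XT.nd (nat_lit 94) (nat_lit 0) (nat_lit 0) (XT.lf (nat_lit 0) (nat_lit 10978625493) (nat_lit 252) (nat_lit 5775272183) (nat_lit 336) (nat_lit 58034609773) (nat_lit 22) (nat_lit 5) (nat_lit 25) (nat_lit 5) (nat_lit 26) (nat_lit 5) (nat_lit 410) (nat_lit 355) (nat_lit 123)) (XT.lf (nat_lit 0) (nat_lit 21982772317) (nat_lit 336) (nat_lit 46749162700) (nat_lit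 84) (nat_lit 7861878057) (nat_lit 22) (nat_lit 5) (nat_lit 26) (nat_lit 5) (nat_lit 23) (nat_lit 5) (nat_lit 411) (nat_lit 355) (nat_lit 122))) (XT.nd (nat_lit 94) (nat_lit 0) (nat_lit 0) (XT.lf (nat_lit 0) (nat_lit 27432092513) (nat_lit 336) (nat_lit 29219551004) (nat_lit 84) (nat_lit 21801634741) (nat_lit 22) (nat_lit 5) (nat_lit 26) (nat_lit 5) (nat_lit 23) (nat_lit 5) (nat_lit 412) (nat_lit 355) (nat_lit 121)) (XT.lf (nat_lit 0) (nat_lit 33049646186) (nat_lit 336) (nat_lit 11147416017) (nat_lit 84) (nat_lit 36173350047) (nat_lit 22) (nat_lit 5) (nat_lit 26) (nat_lit 5) (nat_lit 23) (nat_lit 5) (nat_lit 413) (nat_lit 355) (nat_lit 120))))))) (XT.nd (nat_lit 50384) (nat_lit 0) (nat_lit 4872) (XT.nd (nat_lit 564) (nat_lit 252) (nat_lit 0) (XT.nd (nat_lit 282) (nat_lit 168) (nat_lit 0) (XT.nd (nat_lit 94) (nat_lit 0) (nat_lit 0) (XT.lf (nat_lit 0) (nat_lit 7637975568) (nat_lit 252)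 (nat_lit 31278463580) (nat_lit 336) (nat_lit 43428214012) (nat_lit 19) (nat_lit 5) (nat_lit 22) (nat_lit 5) (nat_lit 23) (nat_lit 5) (nat_lit 414) (nat_lit 355) (nat_lit 119)) (XT.nd (nat_lit 94) (nat_lit 0) (nat_lit 0) (XT.lf (nat_lit 0) (nat_lit 27241174670) (nat_lit 252) (nat_lit 17839621407) (nat_lit 336) (nat_lit 39295716569) (nat_lit 19) (nat_lit 5) (nat_lit 22) (nat_lit 5) (nat_lit 23) (nat_lit 5) (nat_lit 415) (nat_lit 355) (nat_lit 118)) (XT.lf (nat_lit 0) (nat_lit 47451239785) (nat_lit 252) (nat_lit 3984365435) (nat_lit 336) (nat_lit 35035777977) (nat_lit 19) (nat_lit 5) (nat_lit 22) (nat_lit 5) (nat_lit 23) (nat_lit 5) (nat_lit 416) (nat_lit 355) (nat_lit 117)))) (XT.nd (nat_lit 94) (nat_lit 168) (nat_lit 0) (XT.lf (nat_lit 0) (nat_lit 58088969375) (nat_lit 336) (nat_lit 20446388089) (nat_lit 84) (nat_lit 10092692427) (nat_lit 19) (nat_lit 5) (nat_lit 23) (nat_lit 5) (nat_lit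 20) (nat_lit 5) (nat_lit 417) (nat_lit 355) (nat_lit 116)) (XT.nd (nat_lit 94) (nat_lit 168) (nat_lit 0) (XT.lf (nat_lit 0) (nat_lit 64988731955) (nat_lit 336) (nat_lit 1338401103) (nat_lit 84) (nat_lit 24523199012) (nat_lit 19) (nat_lit 5) (nat_lit 23) (nat_lit 5) (nat_lit 20) (nat_lit 5) (nat_lit 418) (nat_lit 355) (nat_lit 115)) (XT.lf (nat_lit 0) (nat_lit 18738696564) (nat_lit 168) (nat_lit 53548992491) (nat_lit 252) (nat_lit 20848074772) (nat_lit 17) (nat_lit 5) (nat_lit 19) (nat_lit 5) (nat_lit 20) (nat_lit 5) (nat_lit 419) (nat_lit 355) (nat_lit 114))))) (XT.nd (nat_lit 282) (nat_lit 252) (nat_lit 0) (XT.nd (nat_lit 94) (nat_lit 0) (nat_lit 0) (XT.lf (nat_lit 0) (nat_lit 39465785664) (nat_lit 168) (nat_lit 40360520044) (nat_lit 252) (nat_lit 15665326203) (nat_lit 17) (nat_lit 5) (nat_lit 19) (nat_lit 5) (nat_lit 20) (nat_lit 5) (nat_lit 420) (nat_lit 355) (nat_lit 113)) (XT.nd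 (nat_lit 94) (nat_lit 0) (nat_lit 0) (XT.lf (nat_lit 0) (nat_lit 60834665744) (nat_lit 168) (nat_lit 26763392842) (nat_lit 252) (nat_lit 10322493707) (nat_lit 17) (nat_lit 5) (nat_lit 19) (nat_lit 5) (nat_lit 20) (nat_lit 5) (nat_lit 421) (nat_lit 355) (nat_lit 112)) (XT.lf (nat_lit 0) (nat_lit 82865254838) (nat_lit 168) (nat_lit 12744936938) (nat_lit 252) (nat_lit 4814597203) (nat_lit 17) (nat_lit 5) (nat_lit 19) (nat_lit 5) (nat_lit 20) (nat_lit 5) (nat_lit 422) (nat_lit 355) (nat_lit 111)))) (XT.nd (nat_lit 188) (nat_lit 0) (nat_lit 0) (XT.nd (nat_lit 94) (nat_lit 0) (nat_lit 0) (XT.lf (nat_lit 0) (nat_lit 889341910) (nat_lit 252) (nat_lit 100407359060) (nat_lit 84) (nat_lit 1708369159) (nat_lit 14) (nat_lit 5) (nat_lit 17) (nat_lit 5) (nat_lit 15) (nat_lit 5) (nat_lit 423) (nat_lit 355) (nat_lit 110)) (XT.lf (nat_lit 0) (nat_lit 6985074856) (nat_lit 252) (nat_lit 82089769742)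 (nat_lit 84) (nat_lit 16579207099) (nat_lit 14) (nat_lit 5) (nat_lit 17) (nat_lit 5) (nat_lit 15) (nat_lit 5) (nat_lit 424) (nat_lit 355) (nat_lit 109))) (XT.nd (nat_lit 49256) (nat_lit 0) (nat_lit 5628) (XT.lf (nat_lit 0) (nat_lit 13269262819) (nat_lit 252) (nat_lit 63205041335) (nat_lit 84) (nat_lit 31910866007) (nat_lit 14) (nat_lit 5) (nat_lit 17) (nat_lit 5) (nat_lit 15) (nat_lit 5) (nat_lit 425) (nat_lit 355) (nat_lit 108)) (XT.lf (nat_lit 0) (nat_lit 5204219057) (nat_lit 0) (nat_lit 5204219057) (nat_lit 924) (nat_lit 2651679339) (nat_lit 81) (nat_lit 5) (nat_lit 81) (nat_lit 3) (nat_lit 92) (nat_lit 3) (nat_lit 356) (nat_lit 356) (nat_lit 176)))))) (XT.nd (nat_lit 564) (nat_lit 756) (nat_lit 0) (XT.nd (nat_lit 282) (nat_lit 0) (nat_lit 0) (XT.nd (nat_lit 94) (nat_lit 0) (nat_lit 0) (XT.lf (nat_lit 0) (nat_lit 19149763455) (nat_lit 0) (nat_lit 2063964754) (nat_lit 924) (nat_lit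 5308529017) (nat_lit 81) (nat_lit 5) (nat_lit 81) (nat_lit 3) (nat_lit 92) (nat_lit 3) (nat_lit 357) (nat_lit 356) (nat_lit 175)) (XT.nd (nat_lit 94) (nat_lit 0) (nat_lit 0) (XT.lf (nat_lit 84) (nat_lit 1182662007) (nat_lit 0) (nat_lit 20513847582) (nat_lit 1008) (nat_lit 5237972030) (nat_lit 82) (nat_lit 5) (nat_lit 81) (nat_lit 5) (nat_lit 93) (nat_lit 5) (nat_lit 358) (nat_lit 356) (nat_lit 174)) (XT.lf (nat_lit 84) (nat_lit 10136169401) (nat_lit 0) (nat_lit 12153036076) (nat_lit 1008) (nat_lit 5067357254) (nat_lit 82) (nat_lit 5) (nat_lit 81) (nat_lit 5) (nat_lit 93) (nat_lit 5) (nat_lit 359) (nat_lit 356) (nat_lit 173)))) (XT.nd (nat_lit 94) (nat_lit 0) (nat_lit 84) (XT.lf (nat_lit 84) (nat_lit 19365676213) (nat_lit 0) (nat_lit 3531784739) (nat_lit 1008) (nat_lit 4894375164) (nat_lit 82) (nat_lit 5) (nat_lit 81) (nat_lit 5) (nat_lit 93) (nat_lit 5) (nat_lit 360) (nat_lit 356)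 (nat_lit 172)) (XT.nd (nat_lit 94) (nat_lit 0) (nat_lit 0) (XT.lf (nat_lit 84) (nat_lit 597974213) (nat_lit 0) (nat_lit 22982952188) (nat_lit 1008) (nat_lit 4657949505) (nat_lit 83) (nat_lit 5) (nat_lit 82) (nat_lit 5) (nat_lit 94) (nat_lit 5) (nat_lit 361) (nat_lit 356) (nat_lit 171)) (XT.lf (nat_lit 84) (nat_lit 10042009537) (nat_lit 0) (nat_lit 14364626124) (nat_lit 1008) (nat_lit 4289404831) (nat_lit 83) (nat_lit 5) (nat_lit 82) (nat_lit 5) (nat_lit 94) (nat_lit 5) (nat_lit 362) (nat_lit 356) (nat_lit 170))))) (XT.nd (nat_lit 282) (nat_lit 840) (nat_lit 0) (XT.nd (nat_lit 94) (nat_lit 0) (nat_lit 84) (XT.lf (nat_lit 84) (nat_lit 19777245916) (nat_lit 0) (nat_lit 5478124123) (nat_lit 1008) (nat_lit 3912105596) (nat_lit 83) (nat_lit 5) (nat_lit 82) (nat_lit 5) (nat_lit 94) (nat_lit 5) (nat_lit 363) (nat_lit 356) (nat_lit 169)) (XT.nd (nat_lit 94) (nat_lit 0) (nat_lit 0) (XT.lf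 (nat_lit 84) (nat_lit 125103362) (nat_lit 0) (nat_lit 26040612366) (nat_lit 1008) (nat_lit 3486733390) (nat_lit 84) (nat_lit 5) (nat_lit 83) (nat_lit 5) (nat_lit 95) (nat_lit 5) (nat_lit 364) (nat_lit 356) (nat_lit 168)) (XT.lf (nat_lit 84) (nat_lit 10075693544) (nat_lit 0) (nat_lit 17179638359) (nat_lit 1008) (nat_lit 2892459950) (nat_lit 84) (nat_lit 5) (nat_lit 83) (nat_lit 5) (nat_lit 95) (nat_lit 5) (nat_lit 365) (nat_lit 356) (nat_lit 167)))) (XT.nd (nat_lit 188) (nat_lit 924) (nat_lit 0) (XT.nd (nat_lit 94) (nat_lit 0) (nat_lit 84) (XT.lf (nat_lit 84) (nat_lit 20333194524) (nat_lit 0) (nat_lit 8043178547) (nat_lit 1008) (nat_lit 2282207178) (nat_lit 84) (nat_lit 5) (nat_lit 83) (nat_lit 5) (nat_lit 95) (nat_lit 5) (nat_lit 366) (nat_lit 356) (nat_lit 166)) (XT.lf (nat_lit 0) (nat_lit 29543546979) (nat_lit 924) (nat_lit 291785868) (nat_lit 1008) (nat_lit 1349534019) (nat_lit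 84) (nat_lit 5) (nat_lit 95) (nat_lit 5) (nat_lit 96) (nat_lit 5) (nat_lit 367) (nat_lit 356) (nat_lit 165))) (XT.nd (nat_lit 94) (nat_lit 1008) (nat_lit 0) (XT.lf (nat_lit 84) (nat_lit 10174019230) (nat_lit 0) (nat_lit 20753868070) (nat_lit 1008) (nat_lit 793986641) (nat_lit 85) (nat_lit 5) (nat_lit 84) (nat_lit 5) (nat_lit 96) (nat_lit 5) (nat_lit 368) (nat_lit 356) (nat_lit 164)) (XT.lf (nat_lit 0) (nat_lit 78894105) (nat_lit 1008) (nat_lit 11307406571) (nat_lit 1092) (nat_lit 20889190790) (nat_lit 72) (nat_lit 5) (nat_lit 84) (nat_lit 5) (nat_lit 85) (nat_lit 5) (nat_lit 369) (nat_lit 356) (nat_lit 163))))))))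
noncomputable def xc205 : XT := (XT.nd (nat_lit 2350) (nat_lit 1932) (nat_lit 0) (XT.nd (nat_lit 1128) (nat_lit 1680) (nat_lit 0) (XT.nd (nat_lit 564) (nat_lit 1008) (nat_lit 0) (XT.nd (nat_lit 282) (nat_lit 0) (nat_lit 84) (XT.nd (nat_lit 94) (nat_lit 0) (nat_lit 84) (XT.lf (nat_lit 0) (nat_lit 960214530) (nat_lit 1008) (nat_lit 759178805) (nat_lit 1092) (nat_lit 31126706656) (nat_lit 72) (nat_lit 5) (nat_lit 84) (nat_lit 5) (nat_lit 85) (nat_lit 5) (nat_lit 370) (nat_lit 356) (nat_lit 162)) (XT.nd (nat_lit 94) (nat_lit 0) (nat_lit 0) (XT.lf (nat_lit 0) (nat_lit 2052059739) (nat_lit 1008) (nat_lit 23191654381) (nat_lit 1092) (nat_lit 8185018170) (nat_lit 73) (nat_lit 5) (nat_lit 85) (nat_lit 5) (nat_lit 86) (nat_lit 5) (nat_lit 371) (nat_lit 356) (nat_lit 161)) (XT.lf (nat_lit 0) (nat_lit 3201332524) (nat_lit 1008) (nat_lit 12458107317) (nat_lit 1092) (nat_lit 18369269159) (nat_lit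 73) (nat_lit 5) (nat_lit 85) (nat_lit 5) (nat_lit 86) (nat_lit 5) (nat_lit 372) (nat_lit 356) (nat_lit 160)))) (XT.nd (nat_lit 94) (nat_lit 0) (nat_lit 84) (XT.lf (nat_lit 0) (nat_lit 4384282918) (nat_lit 1008) (nat_lit 1393346150) (nat_lit 1092) (nat_lit 28869729751) (nat_lit 73) (nat_lit 5) (nat_lit 85) (nat_lit 5) (nat_lit 86) (nat_lit 5) (nat_lit 373) (nat_lit 356) (nat_lit 159)) (XT.nd (nat_lit 94) (nat_lit 0) (nat_lit 0) (XT.lf (nat_lit 0) (nat_lit 5748179369) (nat_lit 1008) (nat_lit 25108080347) (nat_lit 84) (nat_lit 4424467537) (nat_lit 74) (nat_lit 5) (nat_lit 86) (nat_lit 5) (nat_lit 75) (nat_lit 5) (nat_lit 374) (nat_lit 356) (nat_lit 158)) (XT.lf (nat_lit 0) (nat_lit 7226295509) (nat_lit 1008) (nat_lit 13867334313) (nat_lit 84) (nat_lit 14837882774) (nat_lit 74) (nat_lit 5) (nat_lit 86) (nat_lit 5) (nat_lit 75) (nat_lit 5) (nat_lit 375) (nat_lit 356) (nat_lit 157)))))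 (XT.nd (nat_lit 282) (nat_lit 504) (nat_lit 0) (XT.nd (nat_lit 94) (nat_lit 672) (nat_lit 0) (XT.lf (nat_lit 0) (nat_lit 8748443649) (nat_lit 1008) (nat_lit 2279617595) (nat_lit 84) (nat_lit 25574478732) (nat_lit 74) (nat_lit 5) (nat_lit 86) (nat_lit 5) (nat_lit 75) (nat_lit 5) (nat_lit 376) (nat_lit 356) (nat_lit 156)) (XT.nd (nat_lit 94) (nat_lit 0) (nat_lit 0) (XT.lf (nat_lit 0) (nat_lit 9864620897) (nat_lit 672) (nat_lit 549279954) (nat_lit 756) (nat_lit 26877500407) (nat_lit 66) (nat_lit 5) (nat_lit 74) (nat_lit 5) (nat_lit 75) (nat_lit 5) (nat_lit 377) (nat_lit 356) (nat_lit 155)) (XT.lf (nat_lit 0) (nat_lit 12255054293) (nat_lit 756) (nat_lit 15670689514) (nat_lit 84) (nat_lit 10072038843) (nat_lit 66) (nat_lit 5) (nat_lit 75) (nat_lit 5) (nat_lit 67) (nat_lit 5) (nat_lit 378) (nat_lit 356) (nat_lit 154)))) (XT.nd (nat_lit 94) (nat_lit 504) (nat_lit 0) (XT.lf (nat_lit 0) (nat_lit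 14157257118) (nat_lit 756) (nat_lit 3557232265) (nat_lit 84) (nat_lit 21011460445) (nat_lit 66) (nat_lit 5) (nat_lit 75) (nat_lit 5) (nat_lit 67) (nat_lit 5) (nat_lit 379) (nat_lit 356) (nat_lit 153)) (XT.nd (nat_lit 94) (nat_lit 0) (nat_lit 0) (XT.lf (nat_lit 0) (nat_lit 9113957247) (nat_lit 504) (nat_lit 7093287789) (nat_lit 588) (nat_lit 23266702642) (nat_lit 60) (nat_lit 5) (nat_lit 66) (nat_lit 5) (nat_lit 67) (nat_lit 5) (nat_lit 380) (nat_lit 356) (nat_lit 152)) (XT.lf (nat_lit 0) (nat_lit 18394997108) (nat_lit 588) (nat_lit 18030717754) (nat_lit 84) (nat_lit 3817128436) (nat_lit 60) (nat_lit 5) (nat_lit 67) (nat_lit 5) (nat_lit 61) (nat_lit 5) (nat_lit 381) (nat_lit 356) (nat_lit 151)))))) (XT.nd (nat_lit 564) (nat_lit 840) (nat_lit 0) (XT.nd (nat_lit 282) (nat_lit 420) (nat_lit 0) (XT.nd (nat_lit 94) (nat_lit 420) (nat_lit 0) (XT.lf (nat_lit 0) (nat_lit 20721604967) (nat_lit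 588) (nat_lit 5393198509) (nat_lit 84) (nat_lit 14918579275) (nat_lit 60) (nat_lit 5) (nat_lit 67) (nat_lit 5) (nat_lit 61) (nat_lit 5) (nat_lit 382) (nat_lit 356) (nat_lit 150)) (XT.nd (nat_lit 94) (nat_lit 0) (nat_lit 0) (XT.lf (nat_lit 0) (nat_lit 7791698446) (nat_lit 420) (nat_lit 15404467129) (nat_lit 504) (nat_lit 18649922550) (nat_lit 55) (nat_lit 5) (nat_lit 60) (nat_lit 5) (nat_lit 61) (nat_lit 5) (nat_lit 383) (nat_lit 356) (nat_lit 149)) (XT.lf (nat_lit 0) (nat_lit 21498303315) (nat_lit 420) (nat_lit 4303992115) (nat_lit 504) (nat_lit 16880000912) (nat_lit 55) (nat_lit 5) (nat_lit 60) (nat_lit 5) (nat_lit 61) (nat_lit 5) (nat_lit 384) (nat_lit 356) (nat_lit 148)))) (XT.nd (nat_lit 94) (nat_lit 420) (nat_lit 0) (XT.lf (nat_lit 0) (nat_lit 28558658798) (nat_lit 504) (nat_lit 7986818981) (nat_lit 84) (nat_lit 6996805765) (nat_lit 55) (nat_lit 5) (nat_lit 61) (nat_lit 5) (nat_lit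 56) (nat_lit 5) (nat_lit 385) (nat_lit 356) (nat_lit 147)) (XT.nd (nat_lit 94) (nat_lit 0) (nat_lit 0) (XT.lf (nat_lit 0) (nat_lit 5688734957) (nat_lit 420) (nat_lit 25810836876) (nat_lit 504) (nat_lit 12926295343) (nat_lit 50) (nat_lit 5) (nat_lit 55) (nat_lit 5) (nat_lit 56) (nat_lit 5) (nat_lit 386) (nat_lit 356) (nat_lit 146)) (XT.lf (nat_lit 0) (nat_lit 19956232760) (nat_lit 420) (nat_lit 14657463714) (nat_lit 504) (nat_lit 10720610814) (nat_lit 50) (nat_lit 5) (nat_lit 55) (nat_lit 5) (nat_lit 56) (nat_lit 5) (nat_lit 387) (nat_lit 356) (nat_lit 145))))) (XT.nd (nat_lit 282) (nat_lit 504) (nat_lit 0) (XT.nd (nat_lit 94) (nat_lit 336) (nat_lit 0) (XT.lf (nat_lit 0) (nat_lit 34664747852) (nat_lit 420) (nat_lit 3158328191) (nat_lit 504) (nat_lit 8447881241) (nat_lit 50) (nat_lit 5) (nat_lit 55) (nat_lit 5) (nat_lit 56) (nat_lit 5) (nat_lit 388) (nat_lit 356) (nat_lit 144)) (XT.nd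 (nat_lit 94) (nat_lit 0) (nat_lit 0) (XT.lf (nat_lit 0) (nat_lit 2556530100) (nat_lit 336) (nat_lit 38685811186) (nat_lit 420) (nat_lit 5990888114) (nat_lit 46) (nat_lit 5) (nat_lit 50) (nat_lit 5) (nat_lit 51) (nat_lit 5) (nat_lit 389) (nat_lit 356) (nat_lit 143)) (XT.lf (nat_lit 0) (nat_lit 17370122960) (nat_lit 336) (nat_lit 27549381570) (nat_lit 420) (nat_lit 3301126463) (nat_lit 46) (nat_lit 5) (nat_lit 50) (nat_lit 5) (nat_lit 51) (nat_lit 5) (nat_lit 390) (nat_lit 356) (nat_lit 142)))) (XT.nd (nat_lit 188) (nat_lit 420) (nat_lit 0) (XT.nd (nat_lit 94) (nat_lit 84) (nat_lit 0) (XT.lf (nat_lit 0) (nat_lit 32641704736) (nat_lit 336) (nat_lit 16067772289) (nat_lit 420) (nat_lit 529209406) (nat_lit 46) (nat_lit 5) (nat_lit 50) (nat_lit 5) (nat_lit 51) (nat_lit 5) (nat_lit 391) (nat_lit 356) (nat_lit 141)) (XT.lf (nat_lit 0) (nat_lit 2280553907) (nat_lit 420) (nat_lit 1925923066)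 (nat_lit 84) (nat_lit 46081151926) (nat_lit 45) (nat_lit 5) (nat_lit 50) (nat_lit 5) (nat_lit 46) (nat_lit 5) (nat_lit 392) (nat_lit 356) (nat_lit 140))) (XT.nd (nat_lit 94) (nat_lit 0) (nat_lit 0) (XT.lf (nat_lit 0) (nat_lit 5379871651) (nat_lit 504) (nat_lit 37981209406) (nat_lit 84) (nat_lit 8001230004) (nat_lit 40) (nat_lit 5) (nat_lit 46) (nat_lit 5) (nat_lit 41) (nat_lit 5) (nat_lit 393) (nat_lit 356) (nat_lit 139)) (XT.lf (nat_lit 0) (nat_lit 8637489292) (nat_lit 504) (nat_lit 23310658715) (nat_lit 84) (nat_lit 20520238348) (nat_lit 40) (nat_lit 5) (nat_lit 46) (nat_lit 5) (nat_lit 41) (nat_lit 5) (nat_lit 394) (nat_lit 356) (nat_lit 138))))))) (XT.nd (nat_lit 1222) (nat_lit 756) (nat_lit 0) (XT.nd (nat_lit 564) (nat_lit 504) (nat_lit 0) (XT.nd (nat_lit 282) (nat_lit 336) (nat_lit 0) (XT.nd (nat_lit 94) (nat_lit 336) (nat_lit 0) (XT.lf (nat_lit 0) (nat_lit 11995016837) (nat_lit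 504) (nat_lit 8186502583) (nat_lit 84) (nat_lit 33427270560) (nat_lit 40) (nat_lit 5) (nat_lit 46) (nat_lit 5) (nat_lit 41) (nat_lit 5) (nat_lit 395) (nat_lit 356) (nat_lit 137)) (XT.nd (nat_lit 94) (nat_lit 0) (nat_lit 0) (XT.lf (nat_lit 0) (nat_lit 7557625599) (nat_lit 336) (nat_lit 7972930835) (nat_lit 420) (nat_lit 39251704327) (nat_lit 36) (nat_lit 5) (nat_lit 40) (nat_lit 5) (nat_lit 41) (nat_lit 5) (nat_lit 396) (nat_lit 356) (nat_lit 136)) (XT.lf (nat_lit 0) (nat_lit 19306769845) (nat_lit 420) (nat_lit 32073906881) (nat_lit 84) (nat_lit 4607375415) (nat_lit 36) (nat_lit 5) (nat_lit 41) (nat_lit 5) (nat_lit 37) (nat_lit 5) (nat_lit 397) (nat_lit 356) (nat_lit 135)))) (XT.nd (nat_lit 94) (nat_lit 336) (nat_lit 0) (XT.lf (nat_lit 0) (nat_lit 23280596166) (nat_lit 420) (nat_lit 16536186506) (nat_lit 84) (nat_lit 17411949376) (nat_lit 36) (nat_lit 5) (nat_lit 41) (nat_lit 5) (nat_lit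 37) (nat_lit 5) (nat_lit 398) (nat_lit 356) (nat_lit 134)) (XT.nd (nat_lit 94) (nat_lit 336) (nat_lit 0) (XT.lf (nat_lit 0) (nat_lit 27376646957) (nat_lit 420) (nat_lit 517898793) (nat_lit 84) (nat_lit 30613363041) (nat_lit 36) (nat_lit 5) (nat_lit 41) (nat_lit 5) (nat_lit 37) (nat_lit 5) (nat_lit 399) (nat_lit 356) (nat_lit 133)) (XT.lf (nat_lit 0) (nat_lit 16324795222) (nat_lit 336) (nat_lit 15435888935) (nat_lit 420) (nat_lit 28061070275) (nat_lit 32) (nat_lit 5) (nat_lit 36) (nat_lit 5) (nat_lit 37) (nat_lit 5) (nat_lit 400) (nat_lit 356) (nat_lit 132))))) (XT.nd (nat_lit 282) (nat_lit 252) (nat_lit 0) (XT.nd (nat_lit 94) (nat_lit 252) (nat_lit 0) (XT.lf (nat_lit 0) (nat_lit 33699533897) (nat_lit 336) (nat_lit 2585580882) (nat_lit 420) (nat_lit 24891080896) (nat_lit 32) (nat_lit 5) (nat_lit 36) (nat_lit 5) (nat_lit 37) (nat_lit 5) (nat_lit 401) (nat_lit 356) (nat_lit 131)) (XT.nd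 (nat_lit 94) (nat_lit 252) (nat_lit 0) (XT.lf (nat_lit 0) (nat_lit 41054690595) (nat_lit 420) (nat_lit 11066572084) (nat_lit 84) (nat_lit 10448115752) (nat_lit 32) (nat_lit 5) (nat_lit 37) (nat_lit 5) (nat_lit 33) (nat_lit 5) (nat_lit 402) (nat_lit 356) (nat_lit 130)) (XT.lf (nat_lit 0) (nat_lit 5944528980) (nat_lit 252) (nat_lit 40112144657) (nat_lit 336) (nat_lit 17946460348) (nat_lit 29) (nat_lit 5) (nat_lit 32) (nat_lit 5) (nat_lit 33) (nat_lit 5) (nat_lit 403) (nat_lit 356) (nat_lit 129)))) (XT.nd (nat_lit 188) (nat_lit 252) (nat_lit 0) (XT.nd (nat_lit 94) (nat_lit 0) (nat_lit 0) (XT.lf (nat_lit 0) (nat_lit 23716564067) (nat_lit 252) (nat_lit 27611817824) (nat_lit 336) (nat_lit 14149404534) (nat_lit 29) (nat_lit 5) (nat_lit 32) (nat_lit 5) (nat_lit 33) (nat_lit 5) (nat_lit 404) (nat_lit 356) (nat_lit 128)) (XT.lf (nat_lit 0) (nat_lit 42038547156) (nat_lit 252) (nat_lit 14724142881)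 (nat_lit 336) (nat_lit 10235493456) (nat_lit 29) (nat_lit 5) (nat_lit 32) (nat_lit 5) (nat_lit 33) (nat_lit 5) (nat_lit 405) (nat_lit 356) (nat_lit 127))) (XT.nd (nat_lit 94) (nat_lit 252) (nat_lit 0) (XT.lf (nat_lit 0) (nat_lit 60927556253) (nat_lit 252) (nat_lit 1437107167) (nat_lit 336) (nat_lit 6201078939) (nat_lit 29) (nat_lit 5) (nat_lit 32) (nat_lit 5) (nat_lit 33) (nat_lit 5) (nat_lit 406) (nat_lit 356) (nat_lit 126)) (XT.lf (nat_lit 0) (nat_lit 10305264529) (nat_lit 252) (nat_lit 58058125963) (nat_lit 336) (nat_lit 1811593788) (nat_lit 26) (nat_lit 5) (nat_lit 29) (nat_lit 5) (nat_lit 30) (nat_lit 5) (nat_lit 407) (nat_lit 356) (nat_lit 125)))))) (XT.nd (nat_lit 564) (nat_lit 420) (nat_lit 0) (XT.nd (nat_lit 282) (nat_lit 252) (nat_lit 0) (XT.nd (nat_lit 94) (nat_lit 0) (nat_lit 0) (XT.lf (nat_lit 0) (nat_lit 2753751664) (nat_lit 336) (nat_lit 42908154428) (nat_lit 84) (nat_lit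 26168447861) (nat_lit 25) (nat_lit 5) (nat_lit 29) (nat_lit 5) (nat_lit 26) (nat_lit 5) (nat_lit 408) (nat_lit 356) (nat_lit 124)) (XT.nd (nat_lit 94) (nat_lit 0) (nat_lit 0) (XT.lf (nat_lit 0) (nat_lit 7422241010) (nat_lit 336) (nat_lit 25440244337) (nat_lit 84) (nat_lit 40674007828) (nat_lit 25) (nat_lit 5) (nat_lit 29) (nat_lit 5) (nat_lit 26) (nat_lit 5) (nat_lit 409) (nat_lit 356) (nat_lit 123)) (XT.lf (nat_lit 0) (nat_lit 12234725347) (nat_lit 336) (nat_lit 7431736323) (nat_lit 84) (nat_lit 55629087688) (nat_lit 25) (nat_lit 5) (nat_lit 29) (nat_lit 5) (nat_lit 26) (nat_lit 5) (nat_lit 410) (nat_lit 356) (nat_lit 122)))) (XT.nd (nat_lit 94) (nat_lit 0) (nat_lit 0) (XT.lf (nat_lit 0) (nat_lit 11363096502) (nat_lit 252) (nat_lit 5945317237) (nat_lit 336) (nat_lit 59797253962) (nat_lit 22) (nat_lit 5) (nat_lit 25) (nat_lit 5) (nat_lit 26) (nat_lit 5) (nat_lit 411) (nat_lit 356)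 (nat_lit 121)) (XT.nd (nat_lit 94) (nat_lit 0) (nat_lit 0) (XT.lf (nat_lit 0) (nat_lit 22698413235) (nat_lit 336) (nat_lit 48154421728) (nat_lit 84) (nat_lit 8114138748) (nat_lit 22) (nat_lit 5) (nat_lit 26) (nat_lit 5) (nat_lit 23) (nat_lit 5) (nat_lit 412) (nat_lit 356) (nat_lit 120)) (XT.lf (nat_lit 0) (nat_lit 28315634788) (nat_lit 336) (nat_lit 30082714004) (nat_lit 84) (nat_lit 22485771036) (nat_lit 22) (nat_lit 5) (nat_lit 26) (nat_lit 5) (nat_lit 23) (nat_lit 5) (nat_lit 413) (nat_lit 356) (nat_lit 119))))) (XT.nd (nat_lit 282) (nat_lit 168) (nat_lit 0) (XT.nd (nat_lit 94) (nat_lit 252) (nat_lit 0) (XT.lf (nat_lit 0) (nat_lit 34106335952) (nat_lit 336) (nat_lit 11451625020) (nat_lit 84) (nat_lit 37302760385) (nat_lit 22) (nat_lit 5) (nat_lit 26) (nat_lit 5) (nat_lit 23) (nat_lit 5) (nat_lit 414) (nat_lit 356) (nat_lit 118)) (XT.nd (nat_lit 94) (nat_lit 0) (nat_lit 0) (XT.lf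 (nat_lit 0) (nat_lit 7915694962) (nat_lit 252) (nat_lit 32238743981) (nat_lit 336) (nat_lit 44741747492) (nat_lit 19) (nat_lit 5) (nat_lit 22) (nat_lit 5) (nat_lit 23) (nat_lit 5) (nat_lit 415) (nat_lit 356) (nat_lit 117)) (XT.lf (nat_lit 0) (nat_lit 28125362191) (nat_lit 252) (nat_lit 18383578894) (nat_lit 336) (nat_lit 40482127087) (nat_lit 19) (nat_lit 5) (nat_lit 22) (nat_lit 5) (nat_lit 23) (nat_lit 5) (nat_lit 416) (nat_lit 356) (nat_lit 116)))) (XT.nd (nat_lit 188) (nat_lit 168) (nat_lit 0) (XT.nd (nat_lit 94) (nat_lit 0) (nat_lit 0) (XT.lf (nat_lit 0) (nat_lit 48960745296) (nat_lit 252) (nat_lit 4099082726) (nat_lit 336) (nat_lit 36091085255) (nat_lit 19) (nat_lit 5) (nat_lit 22) (nat_lit 5) (nat_lit 23) (nat_lit 5) (nat_lit 417) (nat_lit 356) (nat_lit 115)) (XT.lf (nat_lit 0) (nat_lit 59918637530) (nat_lit 336) (nat_lit 21041901581) (nat_lit 84) (nat_lit 10413927460) (nat_lit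 19) (nat_lit 5) (nat_lit 23) (nat_lit 5) (nat_lit 20) (nat_lit 5) (nat_lit 418) (nat_lit 356) (nat_lit 114))) (XT.nd (nat_lit 94) (nat_lit 168) (nat_lit 0) (XT.lf (nat_lit 0) (nat_lit 67031423484) (nat_lit 336) (nat_lit 1342719337) (nat_lit 84) (nat_lit 25291528335) (nat_lit 19) (nat_lit 5) (nat_lit 23) (nat_lit 5) (nat_lit 20) (nat_lit 5) (nat_lit 419) (nat_lit 356) (nat_lit 113)) (XT.lf (nat_lit 0) (nat_lit 19356392022) (nat_lit 168) (nat_lit 55199778122) (nat_lit 252) (nat_lit 21465800542) (nat_lit 17) (nat_lit 5) (nat_lit 19) (nat_lit 5) (nat_lit 20) (nat_lit 5) (nat_lit 420) (nat_lit 356) (nat_lit 112))))))))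
noncomputable def xc206 : XT := (XT.nd (nat_lit 51606) (nat_lit 0) (nat_lit 1512) (XT.nd (nat_lit 50384) (nat_lit 0) (nat_lit 4872) (XT.nd (nat_lit 49820) (nat_lit 0) (nat_lit 5628) (XT.nd (nat_lit 282) (nat_lit 252) (nat_lit 0) (XT.nd (nat_lit 94) (nat_lit 0) (nat_lit 0) (XT.lf (nat_lit 0) (nat_lit 40724914511) (nat_lit 168) (nat_lit 41602740650) (nat_lit 252) (nat_lit 16123245644) (nat_lit 17) (nat_lit 5) (nat_lit 19) (nat_lit 5) (nat_lit 20) (nat_lit 5) (nat_lit 421) (nat_lit 356) (nat_lit 111)) (XT.nd (nat_lit 94) (nat_lit 0) (nat_lit 0) (XT.lf (nat_lit 0) (nat_lit 62755156765) (nat_lit 168) (nat_lit 27584371779) (nat_lit 252) (nat_lit 10615618391) (nat_lit 17) (nat_lit 5) (nat_lit 19) (nat_lit 5) (nat_lit 20) (nat_lit 5) (nat_lit 422) (nat_lit 356) (nat_lit 110)) (XT.lf (nat_lit 0) (nat_lit 85467653279) (nat_lit 168) (nat_lit 13131604919) (nat_lit 252) (nat_lit 4937785100) (nat_lit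 17) (nat_lit 5) (nat_lit 19) (nat_lit 5) (nat_lit 20) (nat_lit 5) (nat_lit 423) (nat_lit 356) (nat_lit 109)))) (XT.nd (nat_lit 94) (nat_lit 0) (nat_lit 0) (XT.lf (nat_lit 0) (nat_lit 942106271) (nat_lit 252) (nat_lit 103485284851) (nat_lit 84) (nat_lit 1769928633) (nat_lit 14) (nat_lit 5) (nat_lit 17) (nat_lit 5) (nat_lit 15) (nat_lit 5) (nat_lit 424) (nat_lit 356) (nat_lit 108)) (XT.nd (nat_lit 49350) (nat_lit 0) (nat_lit 5628) (XT.lf (nat_lit 0) (nat_lit 7226049385) (nat_lit 252) (nat_lit 84600893691) (nat_lit 84) (nat_lit 17101503964) (nat_lit 14) (nat_lit 5) (nat_lit 17) (nat_lit 5) (nat_lit 15) (nat_lit 5) (nat_lit 425) (nat_lit 356) (nat_lit 107)) (XT.lf (nat_lit 0) (nat_lit 5402277058) (nat_lit 0) (nat_lit 5402277058) (nat_lit 924) (nat_lit 2657613842) (nat_lit 81) (nat_lit 5) (nat_lit 81) (nat_lit 3) (nat_lit 92) (nat_lit 3) (nat_lit 357) (nat_lit 357) (nat_lit 174))))) (XT.nd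 (nat_lit 282) (nat_lit 0) (nat_lit 0) (XT.nd (nat_lit 94) (nat_lit 0) (nat_lit 0) (XT.lf (nat_lit 0) (nat_lit 19814651925) (nat_lit 0) (nat_lit 2199193464) (nat_lit 924) (nat_lit 5325144713) (nat_lit 81) (nat_lit 5) (nat_lit 81) (nat_lit 3) (nat_lit 92) (nat_lit 3) (nat_lit 358) (nat_lit 357) (nat_lit 173)) (XT.nd (nat_lit 94) (nat_lit 0) (nat_lit 0) (XT.lf (nat_lit 84) (nat_lit 1295950495) (nat_lit 0) (nat_lit 21211432696) (nat_lit 1008) (nat_lit 5256772028) (nat_lit 82) (nat_lit 5) (nat_lit 81) (nat_lit 5) (nat_lit 93) (nat_lit 5) (nat_lit 359) (nat_lit 357) (nat_lit 172)) (XT.lf (nat_lit 84) (nat_lit 10524712636) (nat_lit 0) (nat_lit 12589582172) (nat_lit 1008) (nat_lit 5085185257) (nat_lit 82) (nat_lit 5) (nat_lit 81) (nat_lit 5) (nat_lit 93) (nat_lit 5) (nat_lit 360) (nat_lit 357) (nat_lit 171)))) (XT.nd (nat_lit 94) (nat_lit 0) (nat_lit 84) (XT.lf (nat_lit 84) (nat_lit 20038099454)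 (nat_lit 0) (nat_lit 3699273923) (nat_lit 1008) (nat_lit 4911027979) (nat_lit 82) (nat_lit 5) (nat_lit 81) (nat_lit 5) (nat_lit 93) (nat_lit 5) (nat_lit 361) (nat_lit 357) (nat_lit 170)) (XT.nd (nat_lit 94) (nat_lit 0) (nat_lit 0) (XT.lf (nat_lit 84) (nat_lit 693369697) (nat_lit 0) (nat_lit 23744949332) (nat_lit 1008) (nat_lit 4671123806) (nat_lit 83) (nat_lit 5) (nat_lit 82) (nat_lit 5) (nat_lit 94) (nat_lit 5) (nat_lit 362) (nat_lit 357) (nat_lit 169)) (XT.lf (nat_lit 84) (nat_lit 10427859149) (nat_lit 0) (nat_lit 14857966029) (nat_lit 1008) (nat_lit 4295099821) (nat_lit 83) (nat_lit 5) (nat_lit 82) (nat_lit 5) (nat_lit 94) (nat_lit 5) (nat_lit 363) (nat_lit 357) (nat_lit 168)))))) (XT.nd (nat_lit 564) (nat_lit 840) (nat_lit 0) (XT.nd (nat_lit 282) (nat_lit 0) (nat_lit 84) (XT.nd (nat_lit 94) (nat_lit 0) (nat_lit 84) (XT.lf (nat_lit 84) (nat_lit 20462646375) (nat_lit 0) (nat_lit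 5694538110) (nat_lit 1008) (nat_lit 3909931248) (nat_lit 83) (nat_lit 5) (nat_lit 82) (nat_lit 5) (nat_lit 94) (nat_lit 5) (nat_lit 364) (nat_lit 357) (nat_lit 167)) (XT.nd (nat_lit 94) (nat_lit 0) (nat_lit 0) (XT.lf (nat_lit 84) (nat_lit 205518457) (nat_lit 0) (nat_lit 26886968373) (nat_lit 1008) (nat_lit 3474763781) (nat_lit 84) (nat_lit 5) (nat_lit 83) (nat_lit 5) (nat_lit 95) (nat_lit 5) (nat_lit 365) (nat_lit 357) (nat_lit 166)) (XT.lf (nat_lit 84) (nat_lit 10462275632) (nat_lit 0) (nat_lit 17750128607) (nat_lit 1008) (nat_lit 2865677766) (nat_lit 84) (nat_lit 5) (nat_lit 83) (nat_lit 5) (nat_lit 95) (nat_lit 5) (nat_lit 366) (nat_lit 357) (nat_lit 165)))) (XT.nd (nat_lit 94) (nat_lit 0) (nat_lit 84) (XT.lf (nat_lit 84) (nat_lit 21035527034) (nat_lit 0) (nat_lit 8329298322) (nat_lit 1008) (nat_lit 2240008518) (nat_lit 84) (nat_lit 5) (nat_lit 83) (nat_lit 5) (nat_lit 95) (nat_lit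 5) (nat_lit 367) (nat_lit 357) (nat_lit 164)) (XT.nd (nat_lit 94) (nat_lit 0) (nat_lit 0) (XT.lf (nat_lit 0) (nat_lit 30564556825) (nat_lit 924) (nat_lit 226601630) (nat_lit 1008) (nat_lit 1356413045) (nat_lit 84) (nat_lit 5) (nat_lit 95) (nat_lit 5) (nat_lit 96) (nat_lit 5) (nat_lit 368) (nat_lit 357) (nat_lit 163)) (XT.lf (nat_lit 84) (nat_lit 10562891917) (nat_lit 0) (nat_lit 21426486753) (nat_lit 1008) (nat_lit 711945589) (nat_lit 85) (nat_lit 5) (nat_lit 84) (nat_lit 5) (nat_lit 96) (nat_lit 5) (nat_lit 369) (nat_lit 357) (nat_lit 162))))) (XT.nd (nat_lit 282) (nat_lit 0) (nat_lit 84) (XT.nd (nat_lit 94) (nat_lit 0) (nat_lit 0) (XT.lf (nat_lit 0) (nat_lit 182703339) (nat_lit 1008) (nat_lit 11583883955) (nat_lit 1092) (nat_lit 21505602921) (nat_lit 72) (nat_lit 5) (nat_lit 84) (nat_lit 5) (nat_lit 85) (nat_lit 5) (nat_lit 370) (nat_lit 357) (nat_lit 161)) (XT.nd (nat_lit 94)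 (nat_lit 0) (nat_lit 84) (XT.lf (nat_lit 0) (nat_lit 1088296909) (nat_lit 1008) (nat_lit 710887723) (nat_lit 1092) (nat_lit 32061418478) (nat_lit 72) (nat_lit 5) (nat_lit 84) (nat_lit 5) (nat_lit 85) (nat_lit 5) (nat_lit 371) (nat_lit 357) (nat_lit 160)) (XT.lf (nat_lit 0) (nat_lit 2211490808) (nat_lit 1008) (nat_lit 23835613729) (nat_lit 1092) (nat_lit 8414290319) (nat_lit 73) (nat_lit 5) (nat_lit 85) (nat_lit 5) (nat_lit 86) (nat_lit 5) (nat_lit 372) (nat_lit 357) (nat_lit 159)))) (XT.nd (nat_lit 188) (nat_lit 0) (nat_lit 84) (XT.nd (nat_lit 94) (nat_lit 0) (nat_lit 0) (XT.lf (nat_lit 0) (nat_lit 3393510027) (nat_lit 1008) (nat_lit 12771581255) (nat_lit 1092) (nat_lit 18914988652) (nat_lit 73) (nat_lit 5) (nat_lit 85) (nat_lit 5) (nat_lit 86) (nat_lit 5) (nat_lit 373) (nat_lit 357) (nat_lit 158)) (XT.lf (nat_lit 0) (nat_lit 4610337488) (nat_lit 1008) (nat_lit 1365999251) (nat_lit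 1092) (nat_lit 29741676968) (nat_lit 73) (nat_lit 5) (nat_lit 85) (nat_lit 5) (nat_lit 86) (nat_lit 5) (nat_lit 374) (nat_lit 357) (nat_lit 157))) (XT.nd (nat_lit 94) (nat_lit 0) (nat_lit 0) (XT.lf (nat_lit 0) (nat_lit 6014315526) (nat_lit 1008) (nat_lit 25813090775) (nat_lit 84) (nat_lit 4543697044) (nat_lit 74) (nat_lit 5) (nat_lit 86) (nat_lit 5) (nat_lit 75) (nat_lit 5) (nat_lit 375) (nat_lit 357) (nat_lit 156)) (XT.lf (nat_lit 0) (nat_lit 7535609018) (nat_lit 1008) (nat_lit 14226086795) (nat_lit 84) (nat_lit 15280467241) (nat_lit 74) (nat_lit 5) (nat_lit 86) (nat_lit 5) (nat_lit 75) (nat_lit 5) (nat_lit 376) (nat_lit 357) (nat_lit 155))))))) (XT.nd (nat_lit 1222) (nat_lit 1512) (nat_lit 0) (XT.nd (nat_lit 564) (nat_lit 840) (nat_lit 0) (XT.nd (nat_lit 282) (nat_lit 504) (nat_lit 0) (XT.nd (nat_lit 94) (nat_lit 672) (nat_lit 0) (XT.lf (nat_lit 0) (nat_lit 9102379009) (nat_lit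 1008) (nat_lit 2281289735) (nat_lit 84) (nat_lit 26350420551) (nat_lit 74) (nat_lit 5) (nat_lit 86) (nat_lit 5) (nat_lit 75) (nat_lit 5) (nat_lit 377) (nat_lit 357) (nat_lit 154)) (XT.nd (nat_lit 94) (nat_lit 0) (nat_lit 0) (XT.lf (nat_lit 0) (nat_lit 10238721628) (nat_lit 672) (nat_lit 578933651) (nat_lit 756) (nat_lit 27626723089) (nat_lit 66) (nat_lit 5) (nat_lit 74) (nat_lit 5) (nat_lit 75) (nat_lit 5) (nat_lit 378) (nat_lit 357) (nat_lit 153)) (XT.lf (nat_lit 0) (nat_lit 12713329792) (nat_lit 756) (nat_lit 16087151050) (nat_lit 84) (nat_lit 10372272404) (nat_lit 66) (nat_lit 5) (nat_lit 75) (nat_lit 5) (nat_lit 67) (nat_lit 5) (nat_lit 379) (nat_lit 357) (nat_lit 152)))) (XT.nd (nat_lit 94) (nat_lit 504) (nat_lit 0) (XT.lf (nat_lit 0) (nat_lit 14672144519) (nat_lit 756) (nat_lit 3600261229) (nat_lit 84) (nat_lit 21651176880) (nat_lit 66) (nat_lit 5) (nat_lit 75) (nat_lit 5)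 (nat_lit 67) (nat_lit 5) (nat_lit 380) (nat_lit 357) (nat_lit 151)) (XT.nd (nat_lit 94) (nat_lit 0) (nat_lit 0) (XT.lf (nat_lit 0) (nat_lit 9463054360) (nat_lit 504) (nat_lit 7321002496) (nat_lit 588) (nat_lit 23910777430) (nat_lit 60) (nat_lit 5) (nat_lit 66) (nat_lit 5) (nat_lit 67) (nat_lit 5) (nat_lit 381) (nat_lit 357) (nat_lit 150)) (XT.lf (nat_lit 0) (nat_lit 19037317305) (nat_lit 588) (nat_lit 18522310342) (nat_lit 84) (nat_lit 3928024719) (nat_lit 60) (nat_lit 5) (nat_lit 67) (nat_lit 5) (nat_lit 61) (nat_lit 5) (nat_lit 382) (nat_lit 357) (nat_lit 149))))) (XT.nd (nat_lit 282) (nat_lit 420) (nat_lit 0) (XT.nd (nat_lit 94) (nat_lit 420) (nat_lit 0) (XT.lf (nat_lit 0) (nat_lit 21433882856) (nat_lit 588) (nat_lit 5495053363) (nat_lit 84) (nat_lit 15373844080) (nat_lit 60) (nat_lit 5) (nat_lit 67) (nat_lit 5) (nat_lit 61) (nat_lit 5) (nat_lit 383) (nat_lit 357) (nat_lit 148))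 (XT.nd (nat_lit 94) (nat_lit 0) (nat_lit 0) (XT.lf (nat_lit 0) (nat_lit 8097913946) (nat_lit 420) (nat_lit 15885780470) (nat_lit 504) (nat_lit 19157044535) (nat_lit 55) (nat_lit 5) (nat_lit 60) (nat_lit 5) (nat_lit 61) (nat_lit 5) (nat_lit 384) (nat_lit 357) (nat_lit 147)) (XT.lf (nat_lit 0) (nat_lit 22227478990) (nat_lit 420) (nat_lit 4441077227) (nat_lit 504) (nat_lit 17334390917) (nat_lit 55) (nat_lit 5) (nat_lit 60) (nat_lit 5) (nat_lit 61) (nat_lit 5) (nat_lit 385) (nat_lit 357) (nat_lit 146)))) (XT.nd (nat_lit 188) (nat_lit 0) (nat_lit 0) (XT.nd (nat_lit 94) (nat_lit 420) (nat_lit 0) (XT.lf (nat_lit 0) (nat_lit 29508335424) (nat_lit 504) (nat_lit 8171107763) (nat_lit 84) (nat_lit 7210227026) (nat_lit 55) (nat_lit 5) (nat_lit 61) (nat_lit 5) (nat_lit 56) (nat_lit 5) (nat_lit 386) (nat_lit 357) (nat_lit 145)) (XT.lf (nat_lit 0) (nat_lit 5927747465) (nat_lit 420) (nat_lit 26611355795)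 (nat_lit 504) (nat_lit 13261595296) (nat_lit 50) (nat_lit 5) (nat_lit 55) (nat_lit 5) (nat_lit 56) (nat_lit 5) (nat_lit 387) (nat_lit 357) (nat_lit 144))) (XT.nd (nat_lit 94) (nat_lit 0) (nat_lit 0) (XT.lf (nat_lit 0) (nat_lit 20635653594) (nat_lit 420) (nat_lit 15112216550) (nat_lit 504) (nat_lit 10989501445) (nat_lit 50) (nat_lit 5) (nat_lit 55) (nat_lit 5) (nat_lit 56) (nat_lit 5) (nat_lit 388) (nat_lit 357) (nat_lit 143)) (XT.lf (nat_lit 0) (nat_lit 35798305198) (nat_lit 420) (nat_lit 3256596656) (nat_lit 504) (nat_lit 8648225012) (nat_lit 50) (nat_lit 5) (nat_lit 55) (nat_lit 5) (nat_lit 56) (nat_lit 5) (nat_lit 389) (nat_lit 357) (nat_lit 142)))))) (XT.nd (nat_lit 564) (nat_lit 672) (nat_lit 0) (XT.nd (nat_lit 282) (nat_lit 504) (nat_lit 0) (XT.nd (nat_lit 94) (nat_lit 0) (nat_lit 0) (XT.lf (nat_lit 0) (nat_lit 2696346932) (nat_lit 336) (nat_lit 39882631387) (nat_lit 420) (nat_lit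 6116299636) (nat_lit 46) (nat_lit 5) (nat_lit 50) (nat_lit 5) (nat_lit 51) (nat_lit 5) (nat_lit 390) (nat_lit 357) (nat_lit 141)) (XT.nd (nat_lit 94) (nat_lit 0) (nat_lit 0) (XT.lf (nat_lit 0) (nat_lit 17967340127) (nat_lit 336) (nat_lit 28401045817) (nat_lit 420) (nat_lit 3344968648) (nat_lit 46) (nat_lit 5) (nat_lit 50) (nat_lit 5) (nat_lit 51) (nat_lit 5) (nat_lit 391) (nat_lit 357) (nat_lit 140)) (XT.lf (nat_lit 0) (nat_lit 33710574649) (nat_lit 336) (nat_lit 16563577806) (nat_lit 420) (nat_lit 488880915) (nat_lit 46) (nat_lit 5) (nat_lit 50) (nat_lit 5) (nat_lit 51) (nat_lit 5) (nat_lit 392) (nat_lit 357) (nat_lit 139)))) (XT.nd (nat_lit 94) (nat_lit 420) (nat_lit 0) (XT.lf (nat_lit 0) (nat_lit 2405170495) (nat_lit 420) (nat_lit 1928918051) (nat_lit 84) (nat_lit 47510449297) (nat_lit 45) (nat_lit 5) (nat_lit 50) (nat_lit 5) (nat_lit 46) (nat_lit 5) (nat_lit 393) (nat_lit 357)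 (nat_lit 138)) (XT.nd (nat_lit 94) (nat_lit 0) (nat_lit 0) (XT.lf (nat_lit 0) (nat_lit 5599535239) (nat_lit 504) (nat_lit 39100560473) (nat_lit 84) (nat_lit 8252481531) (nat_lit 40) (nat_lit 5) (nat_lit 46) (nat_lit 5) (nat_lit 41) (nat_lit 5) (nat_lit 394) (nat_lit 357) (nat_lit 137)) (XT.lf (nat_lit 0) (nat_lit 8956548809) (nat_lit 504) (nat_lit 23976968645) (nat_lit 84) (nat_lit 21159482514) (nat_lit 40) (nat_lit 5) (nat_lit 46) (nat_lit 5) (nat_lit 41) (nat_lit 5) (nat_lit 395) (nat_lit 357) (nat_lit 136))))) (XT.nd (nat_lit 282) (nat_lit 336) (nat_lit 0) (XT.nd (nat_lit 94) (nat_lit 336) (nat_lit 0) (XT.lf (nat_lit 0) (nat_lit 12416617305) (nat_lit 504) (nat_lit 8385657112) (nat_lit 84) (nat_lit 34466539010) (nat_lit 40) (nat_lit 5) (nat_lit 46) (nat_lit 5) (nat_lit 41) (nat_lit 5) (nat_lit 396) (nat_lit 357) (nat_lit 135)) (XT.nd (nat_lit 94) (nat_lit 0) (nat_lit 0) (XT.lf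 (nat_lit 0) (nat_lit 7845985994) (nat_lit 336) (nat_lit 8214813030) (nat_lit 420) (nat_lit 40417901745) (nat_lit 36) (nat_lit 5) (nat_lit 40) (nat_lit 5) (nat_lit 41) (nat_lit 5) (nat_lit 397) (nat_lit 357) (nat_lit 134)) (XT.lf (nat_lit 0) (nat_lit 19952658668) (nat_lit 420) (nat_lit 33014045025) (nat_lit 84) (nat_lit 4755220840) (nat_lit 36) (nat_lit 5) (nat_lit 41) (nat_lit 5) (nat_lit 37) (nat_lit 5) (nat_lit 398) (nat_lit 357) (nat_lit 133)))) (XT.nd (nat_lit 188) (nat_lit 336) (nat_lit 0) (XT.nd (nat_lit 94) (nat_lit 0) (nat_lit 0) (XT.lf (nat_lit 0) (nat_lit 24048249019) (nat_lit 420) (nat_lit 16996283584) (nat_lit 84) (nat_lit 17956585750) (nat_lit 36) (nat_lit 5) (nat_lit 41) (nat_lit 5) (nat_lit 37) (nat_lit 5) (nat_lit 399) (nat_lit 357) (nat_lit 132)) (XT.lf (nat_lit 0) (nat_lit 28269895633) (nat_lit 420) (nat_lit 483008259) (nat_lit 84) (nat_lit 31567096930) (nat_lit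 36) (nat_lit 5) (nat_lit 41) (nat_lit 5) (nat_lit 37) (nat_lit 5) (nat_lit 400) (nat_lit 357) (nat_lit 131))) (XT.nd (nat_lit 94) (nat_lit 0) (nat_lit 0) (XT.lf (nat_lit 0) (nat_lit 16881293494) (nat_lit 336) (nat_lit 15907704556) (nat_lit 420) (nat_lit 28885611827) (nat_lit 32) (nat_lit 5) (nat_lit 36) (nat_lit 5) (nat_lit 37) (nat_lit 5) (nat_lit 401) (nat_lit 357) (nat_lit 130)) (XT.lf (nat_lit 0) (nat_lit 34793132756) (nat_lit 336) (nat_lit 2659238316) (nat_lit 420) (nat_lit 25618716405) (nat_lit 32) (nat_lit 5) (nat_lit 36) (nat_lit 5) (nat_lit 37) (nat_lit 5) (nat_lit 402) (nat_lit 357) (nat_lit 129))))))))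
noncomputable def xc207 : XT := (XT.nd (nat_lit 51888) (nat_lit 0) (nat_lit 3192) (XT.nd (nat_lit 1222) (nat_lit 420) (nat_lit 0) (XT.nd (nat_lit 564) (nat_lit 336) (nat_lit 0) (XT.nd (nat_lit 282) (nat_lit 252) (nat_lit 0) (XT.nd (nat_lit 94) (nat_lit 252) (nat_lit 0) (XT.lf (nat_lit 0) (nat_lit 42368590825) (nat_lit 420) (nat_lit 11360732680) (nat_lit 84) (nat_lit 10778180669) (nat_lit 32) (nat_lit 5) (nat_lit 37) (nat_lit 5) (nat_lit 33) (nat_lit 5) (nat_lit 403) (nat_lit 357) (nat_lit 128)) (XT.nd (nat_lit 94) (nat_lit 0) (nat_lit 0) (XT.lf (nat_lit 0) (nat_lit 6177217417) (nat_lit 252) (nat_lit 41347659196) (nat_lit 336) (nat_lit 18460860504) (nat_lit 29) (nat_lit 5) (nat_lit 32) (nat_lit 5) (nat_lit 33) (nat_lit 5) (nat_lit 404) (nat_lit 357) (nat_lit 127)) (XT.lf (nat_lit 0) (nat_lit 24498730063) (nat_lit 252) (nat_lit 28460061630) (nat_lit 336) (nat_lit 14547357011) (nat_lit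 29) (nat_lit 5) (nat_lit 32) (nat_lit 5) (nat_lit 33) (nat_lit 5) (nat_lit 405) (nat_lit 357) (nat_lit 126)))) (XT.nd (nat_lit 94) (nat_lit 252) (nat_lit 0) (XT.lf (nat_lit 0) (nat_lit 43387282864) (nat_lit 252) (nat_lit 15173100965) (nat_lit 336) (nat_lit 10513337823) (nat_lit 29) (nat_lit 5) (nat_lit 32) (nat_lit 5) (nat_lit 33) (nat_lit 5) (nat_lit 406) (nat_lit 357) (nat_lit 125)) (XT.nd (nat_lit 94) (nat_lit 252) (nat_lit 0) (XT.lf (nat_lit 0) (nat_lit 62860481929) (nat_lit 252) (nat_lit 1474392363) (nat_lit 336) (nat_lit 6355042813) (nat_lit 29) (nat_lit 5) (nat_lit 32) (nat_lit 5) (nat_lit 33) (nat_lit 5) (nat_lit 407) (nat_lit 357) (nat_lit 124)) (XT.lf (nat_lit 0) (nat_lit 10669730089) (nat_lit 252) (nat_lit 59849238452) (nat_lit 336) (nat_lit 1830101969) (nat_lit 26) (nat_lit 5) (nat_lit 29) (nat_lit 5) (nat_lit 30) (nat_lit 5) (nat_lit 408) (nat_lit 357) (nat_lit 123)))))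 (XT.nd (nat_lit 282) (nat_lit 252) (nat_lit 0) (XT.nd (nat_lit 94) (nat_lit 0) (nat_lit 0) (XT.lf (nat_lit 0) (nat_lit 2874901320) (nat_lit 336) (nat_lit 44193722213) (nat_lit 84) (nat_lit 26987162119) (nat_lit 25) (nat_lit 5) (nat_lit 29) (nat_lit 5) (nat_lit 26) (nat_lit 5) (nat_lit 409) (nat_lit 357) (nat_lit 122)) (XT.nd (nat_lit 94) (nat_lit 0) (nat_lit 0) (XT.lf (nat_lit 0) (nat_lit 7687037905) (nat_lit 336) (nat_lit 26185647487) (nat_lit 84) (nat_lit 41942169166) (nat_lit 25) (nat_lit 5) (nat_lit 29) (nat_lit 5) (nat_lit 26) (nat_lit 5) (nat_lit 410) (nat_lit 357) (nat_lit 121)) (XT.lf (nat_lit 0) (nat_lit 12647665678) (nat_lit 336) (nat_lit 7620175993) (nat_lit 84) (nat_lit 57360637995) (nat_lit 25) (nat_lit 5) (nat_lit 29) (nat_lit 5) (nat_lit 26) (nat_lit 5) (nat_lit 411) (nat_lit 357) (nat_lit 120)))) (XT.nd (nat_lit 188) (nat_lit 0) (nat_lit 0) (XT.nd (nat_lit 94) (nat_lit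 0) (nat_lit 0) (XT.lf (nat_lit 0) (nat_lit 11756872003) (nat_lit 252) (nat_lit 6121166084) (nat_lit 336) (nat_lit 61616697857) (nat_lit 22) (nat_lit 5) (nat_lit 25) (nat_lit 5) (nat_lit 26) (nat_lit 5) (nat_lit 412) (nat_lit 357) (nat_lit 119)) (XT.lf (nat_lit 0) (nat_lit 23434214780) (nat_lit 336) (nat_lit 49605847909) (nat_lit 84) (nat_lit 8373713536) (nat_lit 22) (nat_lit 5) (nat_lit 26) (nat_lit 5) (nat_lit 23) (nat_lit 5) (nat_lit 413) (nat_lit 357) (nat_lit 118))) (XT.nd (nat_lit 94) (nat_lit 0) (nat_lit 0) (XT.lf (nat_lit 0) (nat_lit 29224603495) (nat_lit 336) (nat_lit 30975160880) (nat_lit 84) (nat_lit 23190624784) (nat_lit 22) (nat_lit 5) (nat_lit 26) (nat_lit 5) (nat_lit 23) (nat_lit 5) (nat_lit 414) (nat_lit 357) (nat_lit 117)) (XT.lf (nat_lit 0) (nat_lit 35193878758) (nat_lit 336) (nat_lit 11767714380) (nat_lit 84) (nat_lit 38466706428) (nat_lit 22) (nat_lit 5) (nat_lit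 26) (nat_lit 5) (nat_lit 23) (nat_lit 5) (nat_lit 415) (nat_lit 357) (nat_lit 116)))))) (XT.nd (nat_lit 564) (nat_lit 0) (nat_lit 0) (XT.nd (nat_lit 282) (nat_lit 168) (nat_lit 0) (XT.nd (nat_lit 94) (nat_lit 0) (nat_lit 0) (XT.lf (nat_lit 0) (nat_lit 8199598583) (nat_lit 252) (nat_lit 33229347007) (nat_lit 336) (nat_lit 46097939825) (nat_lit 19) (nat_lit 5) (nat_lit 22) (nat_lit 5) (nat_lit 23) (nat_lit 5) (nat_lit 416) (nat_lit 357) (nat_lit 115)) (XT.nd (nat_lit 94) (nat_lit 0) (nat_lit 0) (XT.lf (nat_lit 0) (nat_lit 29034607369) (nat_lit 252) (nat_lit 18944936341) (nat_lit 336) (nat_lit 41707197334) (nat_lit 19) (nat_lit 5) (nat_lit 22) (nat_lit 5) (nat_lit 23) (nat_lit 5) (nat_lit 417) (nat_lit 357) (nat_lit 114)) (XT.lf (nat_lit 0) (nat_lit 50514764045) (nat_lit 252) (nat_lit 4217877377) (nat_lit 336) (nat_lit 37180931505) (nat_lit 19) (nat_lit 5) (nat_lit 22) (nat_lit 5) (nat_lit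 23) (nat_lit 5) (nat_lit 418) (nat_lit 357) (nat_lit 113)))) (XT.nd (nat_lit 94) (nat_lit 168) (nat_lit 0) (XT.lf (nat_lit 0) (nat_lit 61803313003) (nat_lit 336) (nat_lit 21658146020) (nat_lit 84) (nat_lit 10744625510) (nat_lit 19) (nat_lit 5) (nat_lit 23) (nat_lit 5) (nat_lit 20) (nat_lit 5) (nat_lit 419) (nat_lit 357) (nat_lit 112)) (XT.nd (nat_lit 94) (nat_lit 168) (nat_lit 0) (XT.lf (nat_lit 0) (nat_lit 69135777544) (nat_lit 336) (nat_lit 1349373209) (nat_lit 84) (nat_lit 26083195488) (nat_lit 19) (nat_lit 5) (nat_lit 23) (nat_lit 5) (nat_lit 20) (nat_lit 5) (nat_lit 420) (nat_lit 357) (nat_lit 111)) (XT.lf (nat_lit 0) (nat_lit 19991056558) (nat_lit 168) (nat_lit 56902285003) (nat_lit 252) (nat_lit 22104367739) (nat_lit 17) (nat_lit 5) (nat_lit 19) (nat_lit 5) (nat_lit 20) (nat_lit 5) (nat_lit 421) (nat_lit 357) (nat_lit 110))))) (XT.nd (nat_lit 49726) (nat_lit 0) (nat_lit 5376)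 (XT.nd (nat_lit 94) (nat_lit 0) (nat_lit 0) (XT.lf (nat_lit 0) (nat_lit 42020962401) (nat_lit 168) (nat_lit 42884000546) (nat_lit 252) (nat_lit 16597001641) (nat_lit 17) (nat_lit 5) (nat_lit 19) (nat_lit 5) (nat_lit 20) (nat_lit 5) (nat_lit 422) (nat_lit 357) (nat_lit 109)) (XT.nd (nat_lit 94) (nat_lit 0) (nat_lit 0) (XT.lf (nat_lit 0) (nat_lit 64733132620) (nat_lit 168) (nat_lit 28431315563) (nat_lit 252) (nat_lit 10919421652) (nat_lit 17) (nat_lit 5) (nat_lit 19) (nat_lit 5) (nat_lit 20) (nat_lit 5) (nat_lit 423) (nat_lit 357) (nat_lit 108)) (XT.lf (nat_lit 0) (nat_lit 88148737335) (nat_lit 168) (nat_lit 13530758638) (nat_lit 252) (nat_lit 5066335672) (nat_lit 17) (nat_lit 5) (nat_lit 19) (nat_lit 5) (nat_lit 20) (nat_lit 5) (nat_lit 424) (nat_lit 357) (nat_lit 107)))) (XT.nd (nat_lit 188) (nat_lit 0) (nat_lit 0) (XT.nd (nat_lit 94) (nat_lit 0) (nat_lit 0) (XT.lf (nat_lit 0) (nat_lit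 5604299443) (nat_lit 0) (nat_lit 5604299443) (nat_lit 924) (nat_lit 2668249772) (nat_lit 81) (nat_lit 5) (nat_lit 81) (nat_lit 3) (nat_lit 92) (nat_lit 3) (nat_lit 358) (nat_lit 358) (nat_lit 172)) (XT.lf (nat_lit 0) (nat_lit 20495931926) (nat_lit 0) (nat_lit 2334394252) (nat_lit 924) (nat_lit 5351038749) (nat_lit 81) (nat_lit 5) (nat_lit 81) (nat_lit 3) (nat_lit 92) (nat_lit 3) (nat_lit 359) (nat_lit 358) (nat_lit 171))) (XT.nd (nat_lit 94) (nat_lit 0) (nat_lit 0) (XT.lf (nat_lit 84) (nat_lit 1408212239) (nat_lit 0) (nat_lit 21926990968) (nat_lit 1008) (nat_lit 5284659146) (nat_lit 82) (nat_lit 5) (nat_lit 81) (nat_lit 5) (nat_lit 93) (nat_lit 5) (nat_lit 360) (nat_lit 358) (nat_lit 170)) (XT.lf (nat_lit 84) (nat_lit 10920898494) (nat_lit 0) (nat_lit 13036119023) (nat_lit 1008) (nat_lit 5111814540) (nat_lit 82) (nat_lit 5) (nat_lit 81) (nat_lit 5) (nat_lit 93) (nat_lit 5) (nat_lit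 361) (nat_lit 358) (nat_lit 169))))))) (XT.nd (nat_lit 1222) (nat_lit 1428) (nat_lit 0) (XT.nd (nat_lit 564) (nat_lit 756) (nat_lit 0) (XT.nd (nat_lit 282) (nat_lit 0) (nat_lit 84) (XT.nd (nat_lit 94) (nat_lit 0) (nat_lit 84) (XT.lf (nat_lit 84) (nat_lit 20727097963) (nat_lit 0) (nat_lit 3868519605) (nat_lit 1008) (nat_lit 4936197625) (nat_lit 82) (nat_lit 5) (nat_lit 81) (nat_lit 5) (nat_lit 93) (nat_lit 5) (nat_lit 362) (nat_lit 358) (nat_lit 168)) (XT.nd (nat_lit 94) (nat_lit 0) (nat_lit 0) (XT.lf (nat_lit 84) (nat_lit 787169993) (nat_lit 0) (nat_lit 24527634900) (nat_lit 1008) (nat_lit 4692479022) (nat_lit 83) (nat_lit 5) (nat_lit 82) (nat_lit 5) (nat_lit 94) (nat_lit 5) (nat_lit 363) (nat_lit 358) (nat_lit 167)) (XT.lf (nat_lit 84) (nat_lit 10821254533) (nat_lit 0) (nat_lit 15363754187) (nat_lit 1008) (nat_lit 4308510163) (nat_lit 83) (nat_lit 5) (nat_lit 82) (nat_lit 5) (nat_lit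 94) (nat_lit 5) (nat_lit 364) (nat_lit 358) (nat_lit 166)))) (XT.nd (nat_lit 94) (nat_lit 0) (nat_lit 84) (XT.lf (nat_lit 84) (nat_lit 21165011450) (nat_lit 0) (nat_lit 5914901197) (nat_lit 1008) (nat_lit 3915001627) (nat_lit 83) (nat_lit 5) (nat_lit 82) (nat_lit 5) (nat_lit 94) (nat_lit 5) (nat_lit 365) (nat_lit 358) (nat_lit 165)) (XT.nd (nat_lit 94) (nat_lit 0) (nat_lit 0) (XT.lf (nat_lit 84) (nat_lit 283893009) (nat_lit 0) (nat_lit 27757245634) (nat_lit 1008) (nat_lit 3469534375) (nat_lit 84) (nat_lit 5) (nat_lit 83) (nat_lit 5) (nat_lit 95) (nat_lit 5) (nat_lit 366) (nat_lit 358) (nat_lit 164)) (XT.lf (nat_lit 84) (nat_lit 10856444663) (nat_lit 0) (nat_lit 18336057900) (nat_lit 1008) (nat_lit 2844962775) (nat_lit 84) (nat_lit 5) (nat_lit 83) (nat_lit 5) (nat_lit 95) (nat_lit 5) (nat_lit 367) (nat_lit 358) (nat_lit 163))))) (XT.nd (nat_lit 282) (nat_lit 924) (nat_lit 0) (XT.nd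 (nat_lit 94) (nat_lit 0) (nat_lit 84) (XT.lf (nat_lit 84) (nat_lit 21755366963) (nat_lit 0) (nat_lit 8622109195) (nat_lit 1008) (nat_lit 2203191748) (nat_lit 84) (nat_lit 5) (nat_lit 83) (nat_lit 5) (nat_lit 95) (nat_lit 5) (nat_lit 368) (nat_lit 358) (nat_lit 162)) (XT.nd (nat_lit 94) (nat_lit 0) (nat_lit 0) (XT.lf (nat_lit 0) (nat_lit 31610989176) (nat_lit 924) (nat_lit 163793428) (nat_lit 1008) (nat_lit 1365575857) (nat_lit 84) (nat_lit 5) (nat_lit 95) (nat_lit 5) (nat_lit 96) (nat_lit 5) (nat_lit 369) (nat_lit 358) (nat_lit 161)) (XT.lf (nat_lit 84) (nat_lit 10959467425) (nat_lit 0) (nat_lit 22118224161) (nat_lit 1008) (nat_lit 633678600) (nat_lit 85) (nat_lit 5) (nat_lit 84) (nat_lit 5) (nat_lit 96) (nat_lit 5) (nat_lit 370) (nat_lit 358) (nat_lit 160)))) (XT.nd (nat_lit 188) (nat_lit 0) (nat_lit 84) (XT.nd (nat_lit 94) (nat_lit 0) (nat_lit 0) (XT.lf (nat_lit 0) (nat_lit 283726724)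 (nat_lit 1008) (nat_lit 11873318379) (nat_lit 1092) (nat_lit 22142969060) (nat_lit 72) (nat_lit 5) (nat_lit 84) (nat_lit 5) (nat_lit 85) (nat_lit 5) (nat_lit 371) (nat_lit 358) (nat_lit 159)) (XT.lf (nat_lit 0) (nat_lit 1214526433) (nat_lit 1008) (nat_lit 665353972) (nat_lit 1092) (nat_lit 33026896116) (nat_lit 72) (nat_lit 5) (nat_lit 84) (nat_lit 5) (nat_lit 85) (nat_lit 5) (nat_lit 372) (nat_lit 358) (nat_lit 158))) (XT.nd (nat_lit 94) (nat_lit 0) (nat_lit 0) (XT.lf (nat_lit 0) (nat_lit 2370188822) (nat_lit 1008) (nat_lit 24503977125) (nat_lit 1092) (nat_lit 8652118914) (nat_lit 73) (nat_lit 5) (nat_lit 85) (nat_lit 5) (nat_lit 86) (nat_lit 5) (nat_lit 373) (nat_lit 358) (nat_lit 157)) (XT.lf (nat_lit 0) (nat_lit 3586140263) (nat_lit 1008) (nat_lit 13099080653) (nat_lit 1092) (nat_lit 19479030891) (nat_lit 73) (nat_lit 5) (nat_lit 85) (nat_lit 5) (nat_lit 86) (nat_lit 5) (nat_lit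 374) (nat_lit 358) (nat_lit 156)))))) (XT.nd (nat_lit 564) (nat_lit 924) (nat_lit 0) (XT.nd (nat_lit 282) (nat_lit 588) (nat_lit 0) (XT.nd (nat_lit 94) (nat_lit 0) (nat_lit 84) (XT.lf (nat_lit 0) (nat_lit 4838060496) (nat_lit 1008) (nat_lit 1341982840) (nat_lit 1092) (nat_lit 30642017733) (nat_lit 73) (nat_lit 5) (nat_lit 85) (nat_lit 5) (nat_lit 86) (nat_lit 5) (nat_lit 375) (nat_lit 358) (nat_lit 155)) (XT.nd (nat_lit 94) (nat_lit 0) (nat_lit 0) (XT.lf (nat_lit 0) (nat_lit 6283492915) (nat_lit 1008) (nat_lit 26544300583) (nat_lit 84) (nat_lit 4667684631) (nat_lit 74) (nat_lit 5) (nat_lit 86) (nat_lit 5) (nat_lit 75) (nat_lit 5) (nat_lit 376) (nat_lit 358) (nat_lit 154)) (XT.lf (nat_lit 0) (nat_lit 7849458879) (nat_lit 1008) (nat_lit 14600174044) (nat_lit 84) (nat_lit 15737801859) (nat_lit 74) (nat_lit 5) (nat_lit 86) (nat_lit 5) (nat_lit 75) (nat_lit 5) (nat_lit 377) (nat_lit 358)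 (nat_lit 153)))) (XT.nd (nat_lit 94) (nat_lit 672) (nat_lit 0) (XT.lf (nat_lit 0) (nat_lit 9462385912) (nat_lit 1008) (nat_lit 2287100463) (nat_lit 84) (nat_lit 27151415629) (nat_lit 74) (nat_lit 5) (nat_lit 86) (nat_lit 5) (nat_lit 75) (nat_lit 5) (nat_lit 378) (nat_lit 358) (nat_lit 152)) (XT.nd (nat_lit 94) (nat_lit 0) (nat_lit 0) (XT.lf (nat_lit 0) (nat_lit 10620374104) (nat_lit 672) (nat_lit 608758751) (nat_lit 756) (nat_lit 28404145945) (nat_lit 66) (nat_lit 5) (nat_lit 74) (nat_lit 5) (nat_lit 75) (nat_lit 5) (nat_lit 379) (nat_lit 358) (nat_lit 151)) (XT.lf (nat_lit 0) (nat_lit 13181169912) (nat_lit 756) (nat_lit 16520629419) (nat_lit 84) (nat_lit 10682523965) (nat_lit 66) (nat_lit 5) (nat_lit 75) (nat_lit 5) (nat_lit 67) (nat_lit 5) (nat_lit 380) (nat_lit 358) (nat_lit 150))))) (XT.nd (nat_lit 282) (nat_lit 420) (nat_lit 0) (XT.nd (nat_lit 94) (nat_lit 504) (nat_lit 0) (XT.lf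 (nat_lit 0) (nat_lit 15198491083) (nat_lit 756) (nat_lit 3648607142) (nat_lit 84) (nat_lit 22311413913) (nat_lit 66) (nat_lit 5) (nat_lit 75) (nat_lit 5) (nat_lit 67) (nat_lit 5) (nat_lit 381) (nat_lit 358) (nat_lit 149)) (XT.nd (nat_lit 94) (nat_lit 0) (nat_lit 0) (XT.lf (nat_lit 0) (nat_lit 9819030758) (nat_lit 504) (nat_lit 7555313002) (nat_lit 588) (nat_lit 24579390809) (nat_lit 60) (nat_lit 5) (nat_lit 66) (nat_lit 5) (nat_lit 67) (nat_lit 5) (nat_lit 382) (nat_lit 358) (nat_lit 148)) (XT.lf (nat_lit 0) (nat_lit 19695280286) (nat_lit 588) (nat_lit 19033132128) (nat_lit 84) (nat_lit 4042799157) (nat_lit 60) (nat_lit 5) (nat_lit 67) (nat_lit 5) (nat_lit 61) (nat_lit 5) (nat_lit 383) (nat_lit 358) (nat_lit 147)))) (XT.nd (nat_lit 188) (nat_lit 0) (nat_lit 0) (XT.nd (nat_lit 94) (nat_lit 420) (nat_lit 0) (XT.lf (nat_lit 0) (nat_lit 22164100581) (nat_lit 588) (nat_lit 5603935581)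 (nat_lit 84) (nat_lit 15843649223) (nat_lit 60) (nat_lit 5) (nat_lit 67) (nat_lit 5) (nat_lit 61) (nat_lit 5) (nat_lit 384) (nat_lit 358) (nat_lit 146)) (XT.lf (nat_lit 0) (nat_lit 8409791443) (nat_lit 420) (nat_lit 16381790932) (nat_lit 504) (nat_lit 19684094271) (nat_lit 55) (nat_lit 5) (nat_lit 60) (nat_lit 5) (nat_lit 61) (nat_lit 5) (nat_lit 385) (nat_lit 358) (nat_lit 145))) (XT.nd (nat_lit 94) (nat_lit 0) (nat_lit 0) (XT.lf (nat_lit 0) (nat_lit 22975543607) (nat_lit 420) (nat_lit 4582195110) (nat_lit 504) (nat_lit 17806947486) (nat_lit 55) (nat_lit 5) (nat_lit 60) (nat_lit 5) (nat_lit 61) (nat_lit 5) (nat_lit 386) (nat_lit 358) (nat_lit 144)) (XT.lf (nat_lit 0) (nat_lit 30483639979) (nat_lit 504) (nat_lit 8364859020) (nat_lit 84) (nat_lit 7430470456) (nat_lit 55) (nat_lit 5) (nat_lit 61) (nat_lit 5) (nat_lit 56) (nat_lit 5) (nat_lit 387) (nat_lit 358) (nat_lit 143))))))))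
noncomputable def xc208 : XT := (XT.nd (nat_lit 2350) (nat_lit 672) (nat_lit 0) (XT.nd (nat_lit 1128) (nat_lit 924) (nat_lit 0) (XT.nd (nat_lit 564) (nat_lit 840) (nat_lit 0) (XT.nd (nat_lit 282) (nat_lit 336) (nat_lit 0) (XT.nd (nat_lit 94) (nat_lit 0) (nat_lit 0) (XT.lf (nat_lit 0) (nat_lit 6170457799) (nat_lit 420) (nat_lit 27436668116) (nat_lit 504) (nat_lit 13611164203) (nat_lit 50) (nat_lit 5) (nat_lit 55) (nat_lit 5) (nat_lit 56) (nat_lit 5) (nat_lit 388) (nat_lit 358) (nat_lit 142)) (XT.nd (nat_lit 94) (nat_lit 0) (nat_lit 0) (XT.lf (nat_lit 0) (nat_lit 21332536511) (nat_lit 420) (nat_lit 15581044721) (nat_lit 504) (nat_lit 11270485837) (nat_lit 50) (nat_lit 5) (nat_lit 55) (nat_lit 5) (nat_lit 56) (nat_lit 5) (nat_lit 389) (nat_lit 358) (nat_lit 141)) (XT.lf (nat_lit 0) (nat_lit 36963511103) (nat_lit 420) (nat_lit 3357890103) (nat_lit 504) (nat_lit 8858424592) (nat_lit 50)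 (nat_lit 5) (nat_lit 55) (nat_lit 5) (nat_lit 56) (nat_lit 5) (nat_lit 390) (nat_lit 358) (nat_lit 140)))) (XT.nd (nat_lit 94) (nat_lit 0) (nat_lit 0) (XT.lf (nat_lit 0) (nat_lit 2836910753) (nat_lit 336) (nat_lit 41116697536) (nat_lit 420) (nat_lit 6249170943) (nat_lit 46) (nat_lit 5) (nat_lit 50) (nat_lit 5) (nat_lit 51) (nat_lit 5) (nat_lit 391) (nat_lit 358) (nat_lit 139)) (XT.nd (nat_lit 94) (nat_lit 0) (nat_lit 0) (XT.lf (nat_lit 0) (nat_lit 18579591557) (nat_lit 336) (nat_lit 29279251833) (nat_lit 420) (nat_lit 3393634566) (nat_lit 46) (nat_lit 5) (nat_lit 50) (nat_lit 5) (nat_lit 51) (nat_lit 5) (nat_lit 392) (nat_lit 358) (nat_lit 138)) (XT.lf (nat_lit 0) (nat_lit 34809204680) (nat_lit 336) (nat_lit 17074889257) (nat_lit 420) (nat_lit 450662693) (nat_lit 46) (nat_lit 5) (nat_lit 50) (nat_lit 5) (nat_lit 51) (nat_lit 5) (nat_lit 393) (nat_lit 358) (nat_lit 137))))) (XT.nd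 (nat_lit 282) (nat_lit 336) (nat_lit 0) (XT.nd (nat_lit 94) (nat_lit 420) (nat_lit 0) (XT.lf (nat_lit 0) (nat_lit 2530456458) (nat_lit 420) (nat_lit 1935364830) (nat_lit 84) (nat_lit 48984008587) (nat_lit 45) (nat_lit 5) (nat_lit 50) (nat_lit 5) (nat_lit 46) (nat_lit 5) (nat_lit 394) (nat_lit 358) (nat_lit 136)) (XT.nd (nat_lit 94) (nat_lit 0) (nat_lit 0) (XT.lf (nat_lit 0) (nat_lit 5822875778) (nat_lit 504) (nat_lit 40258050796) (nat_lit 84) (nat_lit 8511331521) (nat_lit 40) (nat_lit 5) (nat_lit 46) (nat_lit 5) (nat_lit 41) (nat_lit 5) (nat_lit 395) (nat_lit 358) (nat_lit 135)) (XT.lf (nat_lit 0) (nat_lit 9282460742) (nat_lit 504) (nat_lit 24667270142) (nat_lit 84) (nat_lit 21818358638) (nat_lit 40) (nat_lit 5) (nat_lit 46) (nat_lit 5) (nat_lit 41) (nat_lit 5) (nat_lit 396) (nat_lit 358) (nat_lit 134)))) (XT.nd (nat_lit 94) (nat_lit 336) (nat_lit 0) (XT.lf (nat_lit 0) (nat_lit 12848340317)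 (nat_lit 504) (nat_lit 8594221085) (nat_lit 84) (nat_lit 35537845720) (nat_lit 40) (nat_lit 5) (nat_lit 46) (nat_lit 5) (nat_lit 41) (nat_lit 5) (nat_lit 397) (nat_lit 358) (nat_lit 133)) (XT.nd (nat_lit 94) (nat_lit 0) (nat_lit 0) (XT.lf (nat_lit 0) (nat_lit 8140082666) (nat_lit 336) (nat_lit 8464506237) (nat_lit 420) (nat_lit 41623248729) (nat_lit 36) (nat_lit 5) (nat_lit 40) (nat_lit 5) (nat_lit 41) (nat_lit 5) (nat_lit 398) (nat_lit 358) (nat_lit 132)) (XT.lf (nat_lit 0) (nat_lit 20615763708) (nat_lit 420) (nat_lit 33986535024) (nat_lit 84) (nat_lit 4907352321) (nat_lit 36) (nat_lit 5) (nat_lit 41) (nat_lit 5) (nat_lit 37) (nat_lit 5) (nat_lit 399) (nat_lit 358) (nat_lit 131)))))) (XT.nd (nat_lit 564) (nat_lit 336) (nat_lit 0) (XT.nd (nat_lit 282) (nat_lit 252) (nat_lit 0) (XT.nd (nat_lit 94) (nat_lit 336) (nat_lit 0) (XT.lf (nat_lit 0) (nat_lit 24836977154) (nat_lit 420) (nat_lit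 17473754799) (nat_lit 84) (nat_lit 18517817634) (nat_lit 36) (nat_lit 5) (nat_lit 41) (nat_lit 5) (nat_lit 37) (nat_lit 5) (nat_lit 400) (nat_lit 358) (nat_lit 130)) (XT.nd (nat_lit 94) (nat_lit 336) (nat_lit 0) (XT.lf (nat_lit 0) (nat_lit 29188194906) (nat_lit 420) (nat_lit 450053702) (nat_lit 84) (nat_lit 32550117017) (nat_lit 36) (nat_lit 5) (nat_lit 41) (nat_lit 5) (nat_lit 37) (nat_lit 5) (nat_lit 401) (nat_lit 358) (nat_lit 129)) (XT.lf (nat_lit 0) (nat_lit 17452056180) (nat_lit 336) (nat_lit 16394543132) (nat_lit 420) (nat_lit 29738400421) (nat_lit 32) (nat_lit 5) (nat_lit 36) (nat_lit 5) (nat_lit 37) (nat_lit 5) (nat_lit 402) (nat_lit 358) (nat_lit 128)))) (XT.nd (nat_lit 94) (nat_lit 252) (nat_lit 0) (XT.lf (nat_lit 0) (nat_lit 35917735960) (nat_lit 336) (nat_lit 2735563874) (nat_lit 420) (nat_lit 26371514099) (nat_lit 32) (nat_lit 5) (nat_lit 36) (nat_lit 5) (nat_lit 37)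 (nat_lit 5) (nat_lit 403) (nat_lit 358) (nat_lit 127)) (XT.nd (nat_lit 94) (nat_lit 252) (nat_lit 0) (XT.lf (nat_lit 0) (nat_lit 43720781330) (nat_lit 420) (nat_lit 11666908871) (nat_lit 84) (nat_lit 11118111942) (nat_lit 32) (nat_lit 5) (nat_lit 37) (nat_lit 5) (nat_lit 33) (nat_lit 5) (nat_lit 404) (nat_lit 358) (nat_lit 126)) (XT.lf (nat_lit 0) (nat_lit 6414251903) (nat_lit 252) (nat_lit 42621946286) (nat_lit 336) (nat_lit 18993691250) (nat_lit 29) (nat_lit 5) (nat_lit 32) (nat_lit 5) (nat_lit 33) (nat_lit 5) (nat_lit 405) (nat_lit 358) (nat_lit 125))))) (XT.nd (nat_lit 282) (nat_lit 336) (nat_lit 0) (XT.nd (nat_lit 94) (nat_lit 0) (nat_lit 0) (XT.lf (nat_lit 0) (nat_lit 25302362128) (nat_lit 252) (nat_lit 29335058415) (nat_lit 336) (nat_lit 14960055505) (nat_lit 29) (nat_lit 5) (nat_lit 32) (nat_lit 5) (nat_lit 33) (nat_lit 5) (nat_lit 406) (nat_lit 358) (nat_lit 124)) (XT.nd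 (nat_lit 94) (nat_lit 0) (nat_lit 0) (XT.lf (nat_lit 0) (nat_lit 44775131924) (nat_lit 252) (nat_lit 15636420416) (nat_lit 336) (nat_lit 10802132409) (nat_lit 29) (nat_lit 5) (nat_lit 32) (nat_lit 5) (nat_lit 33) (nat_lit 5) (nat_lit 407) (nat_lit 358) (nat_lit 123)) (XT.lf (nat_lit 0) (nat_lit 64850711952) (nat_lit 252) (nat_lit 1513263726) (nat_lit 336) (nat_lit 6516046340) (nat_lit 29) (nat_lit 5) (nat_lit 32) (nat_lit 5) (nat_lit 33) (nat_lit 5) (nat_lit 408) (nat_lit 358) (nat_lit 122)))) (XT.nd (nat_lit 188) (nat_lit 0) (nat_lit 0) (XT.nd (nat_lit 94) (nat_lit 84) (nat_lit 0) (XT.lf (nat_lit 0) (nat_lit 11042828515) (nat_lit 252) (nat_lit 61696390117) (nat_lit 336) (nat_lit 1851414050) (nat_lit 26) (nat_lit 5) (nat_lit 29) (nat_lit 5) (nat_lit 30) (nat_lit 5) (nat_lit 409) (nat_lit 358) (nat_lit 121)) (XT.lf (nat_lit 0) (nat_lit 2997687106) (nat_lit 336) (nat_lit 45521783446)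 (nat_lit 84) (nat_lit 27830812733) (nat_lit 25) (nat_lit 5) (nat_lit 29) (nat_lit 5) (nat_lit 26) (nat_lit 5) (nat_lit 410) (nat_lit 358) (nat_lit 120))) (XT.nd (nat_lit 94) (nat_lit 0) (nat_lit 0) (XT.lf (nat_lit 0) (nat_lit 7957987724) (nat_lit 336) (nat_lit 26956719575) (nat_lit 84) (nat_lit 43249213062) (nat_lit 25) (nat_lit 5) (nat_lit 29) (nat_lit 5) (nat_lit 26) (nat_lit 5) (nat_lit 411) (nat_lit 358) (nat_lit 119)) (XT.lf (nat_lit 0) (nat_lit 13071413192) (nat_lit 336) (nat_lit 7816941717) (nat_lit 84) (nat_lit 59145448861) (nat_lit 25) (nat_lit 5) (nat_lit 29) (nat_lit 5) (nat_lit 26) (nat_lit 5) (nat_lit 412) (nat_lit 358) (nat_lit 118))))))) (XT.nd (nat_lit 50760) (nat_lit 0) (nat_lit 4620) (XT.nd (nat_lit 564) (nat_lit 168) (nat_lit 0) (XT.nd (nat_lit 282) (nat_lit 252) (nat_lit 0) (XT.nd (nat_lit 94) (nat_lit 0) (nat_lit 0) (XT.lf (nat_lit 0) (nat_lit 12160395272) (nat_lit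 252) (nat_lit 6302967109) (nat_lit 336) (nat_lit 63494574441) (nat_lit 22) (nat_lit 5) (nat_lit 25) (nat_lit 5) (nat_lit 26) (nat_lit 5) (nat_lit 413) (nat_lit 358) (nat_lit 117)) (XT.nd (nat_lit 94) (nat_lit 0) (nat_lit 0) (XT.lf (nat_lit 0) (nat_lit 24190921829) (nat_lit 336) (nat_lit 51104718177) (nat_lit 84) (nat_lit 8640859127) (nat_lit 22) (nat_lit 5) (nat_lit 26) (nat_lit 5) (nat_lit 23) (nat_lit 5) (nat_lit 414) (nat_lit 358) (nat_lit 116)) (XT.lf (nat_lit 0) (nat_lit 30159903150) (nat_lit 336) (nat_lit 31897649824) (nat_lit 84) (nat_lit 23916867296) (nat_lit 22) (nat_lit 5) (nat_lit 26) (nat_lit 5) (nat_lit 23) (nat_lit 5) (nat_lit 415) (nat_lit 358) (nat_lit 115)))) (XT.nd (nat_lit 94) (nat_lit 252) (nat_lit 0) (XT.lf (nat_lit 0) (nat_lit 36313343845) (nat_lit 336) (nat_lit 12095907275) (nat_lit 84) (nat_lit 39666286979) (nat_lit 22) (nat_lit 5) (nat_lit 26) (nat_lit 5)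 (nat_lit 23) (nat_lit 5) (nat_lit 416) (nat_lit 358) (nat_lit 114)) (XT.nd (nat_lit 94) (nat_lit 0) (nat_lit 0) (XT.lf (nat_lit 0) (nat_lit 8490021784) (nat_lit 252) (nat_lit 34251179850) (nat_lit 336) (nat_lit 47497998566) (nat_lit 19) (nat_lit 5) (nat_lit 22) (nat_lit 5) (nat_lit 23) (nat_lit 5) (nat_lit 417) (nat_lit 358) (nat_lit 113)) (XT.lf (nat_lit 0) (nat_lit 29969826313) (nat_lit 252) (nat_lit 19524201322) (nat_lit 336) (nat_lit 42972014347) (nat_lit 19) (nat_lit 5) (nat_lit 22) (nat_lit 5) (nat_lit 23) (nat_lit 5) (nat_lit 418) (nat_lit 358) (nat_lit 112))))) (XT.nd (nat_lit 282) (nat_lit 168) (nat_lit 0) (XT.nd (nat_lit 94) (nat_lit 0) (nat_lit 0) (XT.lf (nat_lit 0) (nat_lit 52114811076) (nat_lit 252) (nat_lit 4340844917) (nat_lit 336) (nat_lit 38306279368) (nat_lit 19) (nat_lit 5) (nat_lit 22) (nat_lit 5) (nat_lit 23) (nat_lit 5) (nat_lit 419) (nat_lit 358) (nat_lit 111))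 (XT.nd (nat_lit 94) (nat_lit 0) (nat_lit 0) (XT.lf (nat_lit 0) (nat_lit 63744802448) (nat_lit 336) (nat_lit 22295629607) (nat_lit 84) (nat_lit 11085109264) (nat_lit 19) (nat_lit 5) (nat_lit 23) (nat_lit 5) (nat_lit 20) (nat_lit 5) (nat_lit 420) (nat_lit 358) (nat_lit 110)) (XT.lf (nat_lit 0) (nat_lit 71303804051) (nat_lit 336) (nat_lit 1358304710) (nat_lit 84) (nat_lit 26898952398) (nat_lit 19) (nat_lit 5) (nat_lit 23) (nat_lit 5) (nat_lit 20) (nat_lit 5) (nat_lit 421) (nat_lit 358) (nat_lit 109)))) (XT.nd (nat_lit 188) (nat_lit 0) (nat_lit 0) (XT.nd (nat_lit 94) (nat_lit 0) (nat_lit 0) (XT.lf (nat_lit 0) (nat_lit 20643345306) (nat_lit 168) (nat_lit 58658084097) (nat_lit 252) (nat_lit 22764322230) (nat_lit 17) (nat_lit 5) (nat_lit 19) (nat_lit 5) (nat_lit 20) (nat_lit 5) (nat_lit 422) (nat_lit 358) (nat_lit 108)) (XT.lf (nat_lit 0) (nat_lit 43355199040) (nat_lit 168) (nat_lit 44205478530)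 (nat_lit 252) (nat_lit 17086987927) (nat_lit 17) (nat_lit 5) (nat_lit 19) (nat_lit 5) (nat_lit 20) (nat_lit 5) (nat_lit 423) (nat_lit 358) (nat_lit 107))) (XT.nd (nat_lit 49632) (nat_lit 0) (nat_lit 5376) (XT.lf (nat_lit 0) (nat_lit 66770496787) (nat_lit 168) (nat_lit 29304998632) (nat_lit 252) (nat_lit 11234140246) (nat_lit 17) (nat_lit 5) (nat_lit 19) (nat_lit 5) (nat_lit 20) (nat_lit 5) (nat_lit 424) (nat_lit 358) (nat_lit 106)) (XT.lf (nat_lit 0) (nat_lit 5810537959) (nat_lit 0) (nat_lit 5810537959) (nat_lit 924) (nat_lit 2683465297) (nat_lit 81) (nat_lit 5) (nat_lit 81) (nat_lit 3) (nat_lit 92) (nat_lit 3) (nat_lit 359) (nat_lit 359) (nat_lit 170)))))) (XT.nd (nat_lit 564) (nat_lit 756) (nat_lit 0) (XT.nd (nat_lit 282) (nat_lit 0) (nat_lit 0) (XT.nd (nat_lit 94) (nat_lit 0) (nat_lit 0) (XT.lf (nat_lit 0) (nat_lit 21194361554) (nat_lit 0) (nat_lit 2469816213) (nat_lit 924) (nat_lit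 5385979694) (nat_lit 81) (nat_lit 5) (nat_lit 81) (nat_lit 3) (nat_lit 92) (nat_lit 3) (nat_lit 360) (nat_lit 359) (nat_lit 169)) (XT.nd (nat_lit 94) (nat_lit 0) (nat_lit 0) (XT.lf (nat_lit 84) (nat_lit 1519684244) (nat_lit 0) (nat_lit 22661295878) (nat_lit 1008) (nat_lit 5321411359) (nat_lit 82) (nat_lit 5) (nat_lit 81) (nat_lit 5) (nat_lit 93) (nat_lit 5) (nat_lit 361) (nat_lit 359) (nat_lit 168)) (XT.lf (nat_lit 84) (nat_lit 11325224646) (nat_lit 0) (nat_lit 13493166152) (nat_lit 1008) (nat_lit 5147029364) (nat_lit 82) (nat_lit 5) (nat_lit 81) (nat_lit 5) (nat_lit 93) (nat_lit 5) (nat_lit 362) (nat_lit 359) (nat_lit 167)))) (XT.nd (nat_lit 94) (nat_lit 0) (nat_lit 84) (XT.lf (nat_lit 84) (nat_lit 21433438484) (nat_lit 0) (nat_lit 4039779735) (nat_lit 1008) (nat_lit 4969674236) (nat_lit 82) (nat_lit 5) (nat_lit 81) (nat_lit 5) (nat_lit 93) (nat_lit 5) (nat_lit 363) (nat_lit 359)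 (nat_lit 166)) (XT.nd (nat_lit 94) (nat_lit 0) (nat_lit 0) (XT.lf (nat_lit 84) (nat_lit 879595300) (nat_lit 0) (nat_lit 25331823988) (nat_lit 1008) (nat_lit 4721808382) (nat_lit 83) (nat_lit 5) (nat_lit 82) (nat_lit 5) (nat_lit 94) (nat_lit 5) (nat_lit 364) (nat_lit 359) (nat_lit 165)) (XT.lf (nat_lit 84) (nat_lit 11222691151) (nat_lit 0) (nat_lit 15882545025) (nat_lit 1008) (nat_lit 4329428499) (nat_lit 83) (nat_lit 5) (nat_lit 82) (nat_lit 5) (nat_lit 94) (nat_lit 5) (nat_lit 365) (nat_lit 359) (nat_lit 164))))) (XT.nd (nat_lit 282) (nat_lit 840) (nat_lit 0) (XT.nd (nat_lit 94) (nat_lit 0) (nat_lit 84) (XT.lf (nat_lit 84) (nat_lit 21885120721) (nat_lit 0) (nat_lit 6139499272) (nat_lit 1008) (nat_lit 3927108210) (nat_lit 83) (nat_lit 5) (nat_lit 82) (nat_lit 5) (nat_lit 94) (nat_lit 5) (nat_lit 366) (nat_lit 359) (nat_lit 163)) (XT.nd (nat_lit 94) (nat_lit 0) (nat_lit 0) (XT.lf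 (nat_lit 84) (nat_lit 360432283) (nat_lit 0) (nat_lit 28652322873) (nat_lit 1008) (nat_lit 3470832906) (nat_lit 84) (nat_lit 5) (nat_lit 83) (nat_lit 5) (nat_lit 95) (nat_lit 5) (nat_lit 367) (nat_lit 359) (nat_lit 162)) (XT.lf (nat_lit 84) (nat_lit 11258696281) (nat_lit 0) (nat_lit 18938037892) (nat_lit 1008) (nat_lit 2830094512) (nat_lit 84) (nat_lit 5) (nat_lit 83) (nat_lit 5) (nat_lit 95) (nat_lit 5) (nat_lit 368) (nat_lit 359) (nat_lit 161)))) (XT.nd (nat_lit 188) (nat_lit 924) (nat_lit 0) (XT.nd (nat_lit 94) (nat_lit 0) (nat_lit 84) (XT.lf (nat_lit 84) (nat_lit 22493509656) (nat_lit 0) (nat_lit 8921947632) (nat_lit 1008) (nat_lit 2171527444) (nat_lit 84) (nat_lit 5) (nat_lit 83) (nat_lit 5) (nat_lit 95) (nat_lit 5) (nat_lit 369) (nat_lit 359) (nat_lit 160)) (XT.lf (nat_lit 0) (nat_lit 32684001072) (nat_lit 924) (nat_lit 103174491) (nat_lit 1008) (nat_lit 1376970609) (nat_lit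 84) (nat_lit 5) (nat_lit 95) (nat_lit 5) (nat_lit 96) (nat_lit 5) (nat_lit 370) (nat_lit 359) (nat_lit 159))) (XT.nd (nat_lit 94) (nat_lit 1008) (nat_lit 0) (XT.lf (nat_lit 84) (nat_lit 11364242330) (nat_lit 0) (nat_lit 22829775590) (nat_lit 1008) (nat_lit 558928485) (nat_lit 85) (nat_lit 5) (nat_lit 84) (nat_lit 5) (nat_lit 96) (nat_lit 5) (nat_lit 371) (nat_lit 359) (nat_lit 158)) (XT.lf (nat_lit 0) (nat_lit 382233523) (nat_lit 1008) (nat_lit 12175851704) (nat_lit 1092) (nat_lit 22801829486) (nat_lit 72) (nat_lit 5) (nat_lit 84) (nat_lit 5) (nat_lit 85) (nat_lit 5) (nat_lit 372) (nat_lit 359) (nat_lit 157))))))))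
noncomputable def xc209 : XT := (XT.nd (nat_lit 2350) (nat_lit 1932) (nat_lit 0) (XT.nd (nat_lit 1128) (nat_lit 1680) (nat_lit 0) (XT.nd (nat_lit 564) (nat_lit 1008) (nat_lit 0) (XT.nd (nat_lit 282) (nat_lit 0) (nat_lit 84) (XT.nd (nat_lit 94) (nat_lit 0) (nat_lit 84) (XT.lf (nat_lit 0) (nat_lit 1339190594) (nat_lit 1008) (nat_lit 622411037) (nat_lit 1092) (nat_lit 34023987301) (nat_lit 72) (nat_lit 5) (nat_lit 84) (nat_lit 5) (nat_lit 85) (nat_lit 5) (nat_lit 373) (nat_lit 359) (nat_lit 156)) (XT.nd (nat_lit 94) (nat_lit 0) (nat_lit 0) (XT.lf (nat_lit 0) (nat_lit 2528467222) (nat_lit 1008) (nat_lit 25197238029) (nat_lit 1092) (nat_lit 8898683379) (nat_lit 73) (nat_lit 5) (nat_lit 85) (nat_lit 5) (nat_lit 86) (nat_lit 5) (nat_lit 374) (nat_lit 359) (nat_lit 155)) (XT.lf (nat_lit 0) (nat_lit 3779563323) (nat_lit 1008) (nat_lit 13440785143) (nat_lit 1092) (nat_lit 20061880633) (nat_lit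 73) (nat_lit 5) (nat_lit 85) (nat_lit 5) (nat_lit 86) (nat_lit 5) (nat_lit 375) (nat_lit 359) (nat_lit 154)))) (XT.nd (nat_lit 94) (nat_lit 0) (nat_lit 84) (XT.lf (nat_lit 0) (nat_lit 5067819918) (nat_lit 1008) (nat_lit 1321152679) (nat_lit 1092) (nat_lit 31571551499) (nat_lit 73) (nat_lit 5) (nat_lit 85) (nat_lit 5) (nat_lit 86) (nat_lit 5) (nat_lit 376) (nat_lit 359) (nat_lit 153)) (XT.nd (nat_lit 94) (nat_lit 0) (nat_lit 0) (XT.lf (nat_lit 0) (nat_lit 6556114348) (nat_lit 1008) (nat_lit 27302264647) (nat_lit 84) (nat_lit 4796514895) (nat_lit 74) (nat_lit 5) (nat_lit 86) (nat_lit 5) (nat_lit 75) (nat_lit 5) (nat_lit 377) (nat_lit 359) (nat_lit 152)) (XT.lf (nat_lit 0) (nat_lit 8168284979) (nat_lit 1008) (nat_lit 14989821870) (nat_lit 84) (nat_lit 16210282874) (nat_lit 74) (nat_lit 5) (nat_lit 86) (nat_lit 5) (nat_lit 75) (nat_lit 5) (nat_lit 378) (nat_lit 359) (nat_lit 151)))))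 (XT.nd (nat_lit 282) (nat_lit 504) (nat_lit 0) (XT.nd (nat_lit 94) (nat_lit 672) (nat_lit 0) (XT.lf (nat_lit 0) (nat_lit 9828942838) (nat_lit 1008) (nat_lit 2296936010) (nat_lit 84) (nat_lit 27978181441) (nat_lit 74) (nat_lit 5) (nat_lit 86) (nat_lit 5) (nat_lit 75) (nat_lit 5) (nat_lit 379) (nat_lit 359) (nat_lit 150)) (XT.nd (nat_lit 94) (nat_lit 0) (nat_lit 0) (XT.lf (nat_lit 0) (nat_lit 11010052046) (nat_lit 672) (nat_lit 638804866) (nat_lit 756) (nat_lit 29210348543) (nat_lit 66) (nat_lit 5) (nat_lit 74) (nat_lit 5) (nat_lit 75) (nat_lit 5) (nat_lit 380) (nat_lit 359) (nat_lit 149)) (XT.lf (nat_lit 0) (nat_lit 13659146106) (nat_lit 756) (nat_lit 16971408906) (nat_lit 84) (nat_lit 11003061985) (nat_lit 66) (nat_lit 5) (nat_lit 75) (nat_lit 5) (nat_lit 67) (nat_lit 5) (nat_lit 381) (nat_lit 359) (nat_lit 148)))) (XT.nd (nat_lit 94) (nat_lit 504) (nat_lit 0) (XT.lf (nat_lit 0)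 (nat_lit 15736918726) (nat_lit 756) (nat_lit 3702198905) (nat_lit 84) (nat_lit 22992766849) (nat_lit 66) (nat_lit 5) (nat_lit 75) (nat_lit 5) (nat_lit 67) (nat_lit 5) (nat_lit 382) (nat_lit 359) (nat_lit 147)) (XT.nd (nat_lit 94) (nat_lit 0) (nat_lit 0) (XT.lf (nat_lit 0) (nat_lit 10182333234) (nat_lit 504) (nat_lit 7796451222) (nat_lit 588) (nat_lit 25273032652) (nat_lit 60) (nat_lit 5) (nat_lit 66) (nat_lit 5) (nat_lit 67) (nat_lit 5) (nat_lit 383) (nat_lit 359) (nat_lit 146)) (XT.lf (nat_lit 0) (nat_lit 20369623846) (nat_lit 588) (nat_lit 19563542894) (nat_lit 84) (nat_lit 4161545889) (nat_lit 60) (nat_lit 5) (nat_lit 67) (nat_lit 5) (nat_lit 61) (nat_lit 5) (nat_lit 384) (nat_lit 359) (nat_lit 145)))))) (XT.nd (nat_lit 564) (nat_lit 840) (nat_lit 0) (XT.nd (nat_lit 282) (nat_lit 420) (nat_lit 0) (XT.nd (nat_lit 94) (nat_lit 420) (nat_lit 0) (XT.lf (nat_lit 0) (nat_lit 22913059542)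 (nat_lit 588) (nat_lit 5719833791) (nat_lit 84) (nat_lit 16328420155) (nat_lit 60) (nat_lit 5) (nat_lit 67) (nat_lit 5) (nat_lit 61) (nat_lit 5) (nat_lit 385) (nat_lit 359) (nat_lit 144)) (XT.nd (nat_lit 94) (nat_lit 0) (nat_lit 0) (XT.lf (nat_lit 0) (nat_lit 8727733357) (nat_lit 420) (nat_lit 16892967371) (nat_lit 504) (nat_lit 20231440331) (nat_lit 55) (nat_lit 5) (nat_lit 60) (nat_lit 5) (nat_lit 61) (nat_lit 5) (nat_lit 386) (nat_lit 359) (nat_lit 143)) (XT.lf (nat_lit 0) (nat_lit 23743302800) (nat_lit 420) (nat_lit 4727483624) (nat_lit 504) (nat_lit 18297992090) (nat_lit 55) (nat_lit 5) (nat_lit 60) (nat_lit 5) (nat_lit 61) (nat_lit 5) (nat_lit 387) (nat_lit 359) (nat_lit 142)))) (XT.nd (nat_lit 94) (nat_lit 420) (nat_lit 0) (XT.lf (nat_lit 0) (nat_lit 31485592723) (nat_lit 504) (nat_lit 8568143996) (nat_lit 84) (nat_lit 7657735333) (nat_lit 55) (nat_lit 5) (nat_lit 61) (nat_lit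 5) (nat_lit 56) (nat_lit 5) (nat_lit 388) (nat_lit 359) (nat_lit 141)) (XT.nd (nat_lit 94) (nat_lit 0) (nat_lit 0) (XT.lf (nat_lit 0) (nat_lit 6417200435) (nat_lit 420) (nat_lit 28287543778) (nat_lit 504) (nat_lit 13975214898) (nat_lit 50) (nat_lit 5) (nat_lit 55) (nat_lit 5) (nat_lit 56) (nat_lit 5) (nat_lit 389) (nat_lit 359) (nat_lit 140)) (XT.lf (nat_lit 0) (nat_lit 22047636068) (nat_lit 420) (nat_lit 16064385866) (nat_lit 504) (nat_lit 11563716295) (nat_lit 50) (nat_lit 5) (nat_lit 55) (nat_lit 5) (nat_lit 56) (nat_lit 5) (nat_lit 390) (nat_lit 359) (nat_lit 139))))) (XT.nd (nat_lit 282) (nat_lit 504) (nat_lit 0) (XT.nd (nat_lit 94) (nat_lit 336) (nat_lit 0) (XT.lf (nat_lit 0) (nat_lit 38161553493) (nat_lit 420) (nat_lit 3462303570) (nat_lit 504) (nat_lit 9078569602) (nat_lit 50) (nat_lit 5) (nat_lit 55) (nat_lit 5) (nat_lit 56) (nat_lit 5) (nat_lit 391) (nat_lit 359) (nat_lit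 138)) (XT.nd (nat_lit 94) (nat_lit 0) (nat_lit 0) (XT.lf (nat_lit 0) (nat_lit 2978457203) (nat_lit 336) (nat_lit 42389155698) (nat_lit 420) (nat_lit 6389521711) (nat_lit 46) (nat_lit 5) (nat_lit 50) (nat_lit 5) (nat_lit 51) (nat_lit 5) (nat_lit 392) (nat_lit 359) (nat_lit 137)) (XT.lf (nat_lit 0) (nat_lit 19207549406) (nat_lit 336) (nat_lit 30184814108) (nat_lit 420) (nat_lit 3447068536) (nat_lit 46) (nat_lit 5) (nat_lit 50) (nat_lit 5) (nat_lit 51) (nat_lit 5) (nat_lit 393) (nat_lit 359) (nat_lit 136)))) (XT.nd (nat_lit 188) (nat_lit 420) (nat_lit 0) (XT.nd (nat_lit 94) (nat_lit 84) (nat_lit 0) (XT.lf (nat_lit 0) (nat_lit 35938717290) (nat_lit 336) (nat_lit 17602179271) (nat_lit 420) (nat_lit 414421111) (nat_lit 46) (nat_lit 5) (nat_lit 50) (nat_lit 5) (nat_lit 51) (nat_lit 5) (nat_lit 394) (nat_lit 359) (nat_lit 135)) (XT.lf (nat_lit 0) (nat_lit 2656621716) (nat_lit 420) (nat_lit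 1945171452) (nat_lit 84) (nat_lit 50503204658) (nat_lit 45) (nat_lit 5) (nat_lit 50) (nat_lit 5) (nat_lit 46) (nat_lit 5) (nat_lit 395) (nat_lit 359) (nat_lit 134))) (XT.nd (nat_lit 94) (nat_lit 0) (nat_lit 0) (XT.lf (nat_lit 0) (nat_lit 6050192802) (nat_lit 504) (nat_lit 41454658973) (nat_lit 84) (nat_lit 8778026799) (nat_lit 40) (nat_lit 5) (nat_lit 46) (nat_lit 5) (nat_lit 41) (nat_lit 5) (nat_lit 396) (nat_lit 359) (nat_lit 133)) (XT.lf (nat_lit 0) (nat_lit 9615617486) (nat_lit 504) (nat_lit 25382109350) (nat_lit 84) (nat_lit 22497486243) (nat_lit 40) (nat_lit 5) (nat_lit 46) (nat_lit 5) (nat_lit 41) (nat_lit 5) (nat_lit 397) (nat_lit 359) (nat_lit 132))))))) (XT.nd (nat_lit 1222) (nat_lit 756) (nat_lit 0) (XT.nd (nat_lit 564) (nat_lit 504) (nat_lit 0) (XT.nd (nat_lit 282) (nat_lit 336) (nat_lit 0) (XT.nd (nat_lit 94) (nat_lit 336) (nat_lit 0) (XT.lf (nat_lit 0) (nat_lit 13290674231)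 (nat_lit 504) (nat_lit 8812294541) (nat_lit 84) (nat_lit 36642194483) (nat_lit 40) (nat_lit 5) (nat_lit 46) (nat_lit 5) (nat_lit 41) (nat_lit 5) (nat_lit 398) (nat_lit 359) (nat_lit 131)) (XT.nd (nat_lit 94) (nat_lit 0) (nat_lit 0) (XT.lf (nat_lit 0) (nat_lit 8440283152) (nat_lit 336) (nat_lit 8722234077) (nat_lit 420) (nat_lit 42868781371) (nat_lit 36) (nat_lit 5) (nat_lit 40) (nat_lit 5) (nat_lit 41) (nat_lit 5) (nat_lit 399) (nat_lit 359) (nat_lit 130)) (XT.lf (nat_lit 0) (nat_lit 21296784891) (nat_lit 420) (nat_lit 34992189796) (nat_lit 84) (nat_lit 5063920325) (nat_lit 36) (nat_lit 5) (nat_lit 41) (nat_lit 5) (nat_lit 37) (nat_lit 5) (nat_lit 400) (nat_lit 359) (nat_lit 129)))) (XT.nd (nat_lit 94) (nat_lit 336) (nat_lit 0) (XT.lf (nat_lit 0) (nat_lit 25647595132) (nat_lit 420) (nat_lit 17968954473) (nat_lit 84) (nat_lit 19096176559) (nat_lit 36) (nat_lit 5) (nat_lit 41) (nat_lit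 5) (nat_lit 37) (nat_lit 5) (nat_lit 401) (nat_lit 359) (nat_lit 128)) (XT.nd (nat_lit 94) (nat_lit 336) (nat_lit 0) (XT.lf (nat_lit 0) (nat_lit 30132477722) (nat_lit 420) (nat_lit 418916399) (nat_lit 84) (nat_lit 33563347733) (nat_lit 36) (nat_lit 5) (nat_lit 41) (nat_lit 5) (nat_lit 37) (nat_lit 5) (nat_lit 402) (nat_lit 359) (nat_lit 127)) (XT.lf (nat_lit 0) (nat_lit 18037702403) (nat_lit 336) (nat_lit 16896846879) (nat_lit 420) (nat_lit 30620152605) (nat_lit 32) (nat_lit 5) (nat_lit 36) (nat_lit 5) (nat_lit 37) (nat_lit 5) (nat_lit 403) (nat_lit 359) (nat_lit 126))))) (XT.nd (nat_lit 282) (nat_lit 252) (nat_lit 0) (XT.nd (nat_lit 94) (nat_lit 252) (nat_lit 0) (XT.lf (nat_lit 0) (nat_lit 37074476252) (nat_lit 336) (nat_lit 2814617479) (nat_lit 420) (nat_lit 27150099679) (nat_lit 32) (nat_lit 5) (nat_lit 36) (nat_lit 5) (nat_lit 37) (nat_lit 5) (nat_lit 404) (nat_lit 359) (nat_lit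 125)) (XT.nd (nat_lit 94) (nat_lit 252) (nat_lit 0) (XT.lf (nat_lit 0) (nat_lit 45112593672) (nat_lit 420) (nat_lit 11985301570) (nat_lit 84) (nat_lit 11468237085) (nat_lit 32) (nat_lit 5) (nat_lit 37) (nat_lit 5) (nat_lit 33) (nat_lit 5) (nat_lit 405) (nat_lit 359) (nat_lit 124)) (XT.lf (nat_lit 0) (nat_lit 6655937003) (nat_lit 252) (nat_lit 43936179942) (nat_lit 336) (nat_lit 19545376792) (nat_lit 29) (nat_lit 5) (nat_lit 32) (nat_lit 5) (nat_lit 33) (nat_lit 5) (nat_lit 406) (nat_lit 359) (nat_lit 123)))) (XT.nd (nat_lit 188) (nat_lit 252) (nat_lit 0) (XT.nd (nat_lit 94) (nat_lit 0) (nat_lit 0) (XT.lf (nat_lit 0) (nat_lit 26128290437) (nat_lit 252) (nat_lit 30237610425) (nat_lit 336) (nat_lit 15387814426) (nat_lit 29) (nat_lit 5) (nat_lit 32) (nat_lit 5) (nat_lit 33) (nat_lit 5) (nat_lit 407) (nat_lit 359) (nat_lit 122)) (XT.lf (nat_lit 0) (nat_lit 46203466622) (nat_lit 252) (nat_lit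 16114520157) (nat_lit 336) (nat_lit 11102078241) (nat_lit 29) (nat_lit 5) (nat_lit 32) (nat_lit 5) (nat_lit 33) (nat_lit 5) (nat_lit 408) (nat_lit 359) (nat_lit 121))) (XT.nd (nat_lit 94) (nat_lit 252) (nat_lit 0) (XT.lf (nat_lit 0) (nat_lit 66900177727) (nat_lit 252) (nat_lit 1553744938) (nat_lit 336) (nat_lit 6684173484) (nat_lit 29) (nat_lit 5) (nat_lit 32) (nat_lit 5) (nat_lit 33) (nat_lit 5) (nat_lit 409) (nat_lit 359) (nat_lit 120)) (XT.lf (nat_lit 0) (nat_lit 11424985311) (nat_lit 252) (nat_lit 63601287688) (nat_lit 336) (nat_lit 1875484857) (nat_lit 26) (nat_lit 5) (nat_lit 29) (nat_lit 5) (nat_lit 30) (nat_lit 5) (nat_lit 410) (nat_lit 359) (nat_lit 119)))))) (XT.nd (nat_lit 564) (nat_lit 420) (nat_lit 0) (XT.nd (nat_lit 282) (nat_lit 252) (nat_lit 0) (XT.nd (nat_lit 94) (nat_lit 0) (nat_lit 0) (XT.lf (nat_lit 0) (nat_lit 3122285284) (nat_lit 336) (nat_lit 46893499001) (nat_lit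 84) (nat_lit 28700199016) (nat_lit 25) (nat_lit 5) (nat_lit 29) (nat_lit 5) (nat_lit 26) (nat_lit 5) (nat_lit 411) (nat_lit 359) (nat_lit 118)) (XT.nd (nat_lit 94) (nat_lit 0) (nat_lit 0) (XT.lf (nat_lit 0) (nat_lit 8235402975) (nat_lit 336) (nat_lit 27754104621) (nat_lit 84) (nat_lit 44596370372) (nat_lit 25) (nat_lit 5) (nat_lit 29) (nat_lit 5) (nat_lit 26) (nat_lit 5) (nat_lit 412) (nat_lit 359) (nat_lit 117)) (XT.lf (nat_lit 0) (nat_lit 13506421017) (nat_lit 336) (nat_lit 8022144445) (nat_lit 84) (nat_lit 60985196093) (nat_lit 25) (nat_lit 5) (nat_lit 29) (nat_lit 5) (nat_lit 26) (nat_lit 5) (nat_lit 413) (nat_lit 359) (nat_lit 116)))) (XT.nd (nat_lit 94) (nat_lit 0) (nat_lit 0) (XT.lf (nat_lit 0) (nat_lit 12574114159) (nat_lit 252) (nat_lit 6490875161) (nat_lit 336) (nat_lit 65432574891) (nat_lit 22) (nat_lit 5) (nat_lit 25) (nat_lit 5) (nat_lit 26) (nat_lit 5) (nat_lit 414)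 (nat_lit 359) (nat_lit 115)) (XT.nd (nat_lit 94) (nat_lit 0) (nat_lit 0) (XT.lf (nat_lit 0) (nat_lit 24969295252) (nat_lit 336) (nat_lit 52652358191) (nat_lit 84) (nat_lit 8915838411) (nat_lit 22) (nat_lit 5) (nat_lit 26) (nat_lit 5) (nat_lit 23) (nat_lit 5) (nat_lit 415) (nat_lit 359) (nat_lit 114)) (XT.lf (nat_lit 0) (nat_lit 31122459416) (nat_lit 336) (nat_lit 32850971391) (nat_lit 84) (nat_lit 24665188972) (nat_lit 22) (nat_lit 5) (nat_lit 26) (nat_lit 5) (nat_lit 23) (nat_lit 5) (nat_lit 416) (nat_lit 359) (nat_lit 113))))) (XT.nd (nat_lit 282) (nat_lit 168) (nat_lit 0) (XT.nd (nat_lit 94) (nat_lit 252) (nat_lit 0) (XT.lf (nat_lit 0) (nat_lit 37465826921) (nat_lit 336) (nat_lit 12436442401) (nat_lit 84) (nat_lit 40902633232) (nat_lit 22) (nat_lit 5) (nat_lit 26) (nat_lit 5) (nat_lit 23) (nat_lit 5) (nat_lit 417) (nat_lit 359) (nat_lit 112)) (XT.nd (nat_lit 94) (nat_lit 0) (nat_lit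 0) (XT.lf (nat_lit 0) (nat_lit 8787301805) (nat_lit 252) (nat_lit 35305179766) (nat_lit 336) (nat_lit 48943175509) (nat_lit 19) (nat_lit 5) (nat_lit 22) (nat_lit 5) (nat_lit 23) (nat_lit 5) (nat_lit 418) (nat_lit 359) (nat_lit 111)) (XT.lf (nat_lit 0) (nat_lit 30931955279) (nat_lit 252) (nat_lit 20121899033) (nat_lit 336) (nat_lit 44277705460) (nat_lit 19) (nat_lit 5) (nat_lit 22) (nat_lit 5) (nat_lit 23) (nat_lit 5) (nat_lit 419) (nat_lit 359) (nat_lit 110)))) (XT.nd (nat_lit 188) (nat_lit 168) (nat_lit 0) (XT.nd (nat_lit 94) (nat_lit 0) (nat_lit 0) (XT.lf (nat_lit 0) (nat_lit 53762440394) (nat_lit 252) (nat_lit 4468085668) (nat_lit 336) (nat_lit 39468127733) (nat_lit 19) (nat_lit 5) (nat_lit 22) (nat_lit 5) (nat_lit 23) (nat_lit 5) (nat_lit 420) (nat_lit 359) (nat_lit 109)) (XT.lf (nat_lit 0) (nat_lit 65744962520) (nat_lit 336) (nat_lit 22954884262) (nat_lit 84) (nat_lit 11435709678)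 (nat_lit 19) (nat_lit 5) (nat_lit 23) (nat_lit 5) (nat_lit 20) (nat_lit 5) (nat_lit 421) (nat_lit 359) (nat_lit 108))) (XT.nd (nat_lit 94) (nat_lit 168) (nat_lit 0) (XT.lf (nat_lit 0) (nat_lit 73537569402) (nat_lit 336) (nat_lit 1369461756) (nat_lit 84) (nat_lit 27739572616) (nat_lit 19) (nat_lit 5) (nat_lit 23) (nat_lit 5) (nat_lit 20) (nat_lit 5) (nat_lit 422) (nat_lit 359) (nat_lit 107)) (XT.lf (nat_lit 0) (nat_lit 21313926066) (nat_lit 168) (nat_lit 60468796990) (nat_lit 252) (nat_lit 23446232741) (nat_lit 17) (nat_lit 5) (nat_lit 19) (nat_lit 5) (nat_lit 20) (nat_lit 5) (nat_lit 423) (nat_lit 359) (nat_lit 106))))))))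
noncomputable def xc210 : XT := (XT.nd (nat_lit 51982) (nat_lit 0) (nat_lit 1008) (XT.nd (nat_lit 50760) (nat_lit 0) (nat_lit 4116) (XT.nd (nat_lit 50196) (nat_lit 0) (nat_lit 5460) (XT.nd (nat_lit 49914) (nat_lit 0) (nat_lit 5376) (XT.nd (nat_lit 49726) (nat_lit 0) (nat_lit 5376) (XT.lf (nat_lit 0) (nat_lit 44728926074) (nat_lit 168) (nat_lit 45568391803) (nat_lit 252) (nat_lit 17593616194) (nat_lit 17) (nat_lit 5) (nat_lit 19) (nat_lit 5) (nat_lit 20) (nat_lit 5) (nat_lit 424) (nat_lit 359) (nat_lit 105)) (XT.nd (nat_lit 94) (nat_lit 0) (nat_lit 0) (XT.lf (nat_lit 0) (nat_lit 6021244528) (nat_lit 0) (nat_lit 6021244528) (nat_lit 924) (nat_lit 2703150657) (nat_lit 81) (nat_lit 5) (nat_lit 81) (nat_lit 3) (nat_lit 92) (nat_lit 3) (nat_lit 360) (nat_lit 360) (nat_lit 168)) (XT.lf (nat_lit 0) (nat_lit 21910707602) (nat_lit 0) (nat_lit 2605701355) (nat_lit 924) (nat_lit 5429759682)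 (nat_lit 81) (nat_lit 5) (nat_lit 81) (nat_lit 3) (nat_lit 92) (nat_lit 3) (nat_lit 361) (nat_lit 360) (nat_lit 167)))) (XT.nd (nat_lit 94) (nat_lit 0) (nat_lit 0) (XT.lf (nat_lit 84) (nat_lit 1630594940) (nat_lit 0) (nat_lit 23415132072) (nat_lit 1008) (nat_lit 5366829595) (nat_lit 82) (nat_lit 5) (nat_lit 81) (nat_lit 5) (nat_lit 93) (nat_lit 5) (nat_lit 362) (nat_lit 360) (nat_lit 166)) (XT.nd (nat_lit 94) (nat_lit 0) (nat_lit 0) (XT.lf (nat_lit 84) (nat_lit 11738188748) (nat_lit 0) (nat_lit 13961246759) (nat_lit 1008) (nat_lit 5190636241) (nat_lit 82) (nat_lit 5) (nat_lit 81) (nat_lit 5) (nat_lit 93) (nat_lit 5) (nat_lit 363) (nat_lit 360) (nat_lit 165)) (XT.lf (nat_lit 84) (nat_lit 22157896549) (nat_lit 0) (nat_lit 4213308209) (nat_lit 1008) (nat_lit 5011269507) (nat_lit 82) (nat_lit 5) (nat_lit 81) (nat_lit 5) (nat_lit 93) (nat_lit 5) (nat_lit 364) (nat_lit 360) (nat_lit 164)))))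 (XT.nd (nat_lit 282) (nat_lit 0) (nat_lit 84) (XT.nd (nat_lit 94) (nat_lit 0) (nat_lit 0) (XT.lf (nat_lit 84) (nat_lit 970856670) (nat_lit 0) (nat_lit 26158346670) (nat_lit 1008) (nat_lit 4758925975) (nat_lit 83) (nat_lit 5) (nat_lit 82) (nat_lit 5) (nat_lit 94) (nat_lit 5) (nat_lit 365) (nat_lit 360) (nat_lit 163)) (XT.nd (nat_lit 94) (nat_lit 0) (nat_lit 0) (XT.lf (nat_lit 84) (nat_lit 11632664331) (nat_lit 0) (nat_lit 16414900174) (nat_lit 1008) (nat_lit 4357667487) (nat_lit 83) (nat_lit 5) (nat_lit 82) (nat_lit 5) (nat_lit 94) (nat_lit 5) (nat_lit 366) (nat_lit 360) (nat_lit 162)) (XT.lf (nat_lit 84) (nat_lit 22623762911) (nat_lit 0) (nat_lit 6368617401) (nat_lit 1008) (nat_lit 3946061663) (nat_lit 83) (nat_lit 5) (nat_lit 82) (nat_lit 5) (nat_lit 94) (nat_lit 5) (nat_lit 367) (nat_lit 360) (nat_lit 161)))) (XT.nd (nat_lit 94) (nat_lit 0) (nat_lit 0) (XT.lf (nat_lit 84) (nat_lit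 435332001) (nat_lit 0) (nat_lit 29573097934) (nat_lit 1008) (nat_lit 3478465479) (nat_lit 84) (nat_lit 5) (nat_lit 83) (nat_lit 5) (nat_lit 95) (nat_lit 5) (nat_lit 368) (nat_lit 360) (nat_lit 160)) (XT.nd (nat_lit 94) (nat_lit 0) (nat_lit 0) (XT.lf (nat_lit 84) (nat_lit 11669526068) (nat_lit 0) (nat_lit 19556691316) (nat_lit 1008) (nat_lit 2820869879) (nat_lit 84) (nat_lit 5) (nat_lit 83) (nat_lit 5) (nat_lit 95) (nat_lit 5) (nat_lit 369) (nat_lit 360) (nat_lit 159)) (XT.lf (nat_lit 84) (nat_lit 23250760154) (nat_lit 0) (nat_lit 9229152888) (nat_lit 1008) (nat_lit 2144802542) (nat_lit 84) (nat_lit 5) (nat_lit 83) (nat_lit 5) (nat_lit 95) (nat_lit 5) (nat_lit 370) (nat_lit 360) (nat_lit 158)))))) (XT.nd (nat_lit 564) (nat_lit 504) (nat_lit 0) (XT.nd (nat_lit 282) (nat_lit 0) (nat_lit 0) (XT.nd (nat_lit 94) (nat_lit 1008) (nat_lit 0) (XT.lf (nat_lit 0) (nat_lit 33784763568) (nat_lit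 924) (nat_lit 44567685) (nat_lit 1008) (nat_lit 1390551115) (nat_lit 84) (nat_lit 5) (nat_lit 95) (nat_lit 5) (nat_lit 96) (nat_lit 5) (nat_lit 371) (nat_lit 360) (nat_lit 157)) (XT.nd (nat_lit 94) (nat_lit 1008) (nat_lit 0) (XT.lf (nat_lit 84) (nat_lit 11777713336) (nat_lit 0) (nat_lit 23561851813) (nat_lit 1008) (nat_lit 487452244) (nat_lit 85) (nat_lit 5) (nat_lit 84) (nat_lit 5) (nat_lit 96) (nat_lit 5) (nat_lit 372) (nat_lit 360) (nat_lit 156)) (XT.lf (nat_lit 0) (nat_lit 478480280) (nat_lit 1008) (nat_lit 12491645583) (nat_lit 1092) (nat_lit 23482747700) (nat_lit 72) (nat_lit 5) (nat_lit 84) (nat_lit 5) (nat_lit 85) (nat_lit 5) (nat_lit 373) (nat_lit 360) (nat_lit 155)))) (XT.nd (nat_lit 94) (nat_lit 0) (nat_lit 84) (XT.lf (nat_lit 0) (nat_lit 1462565365) (nat_lit 1008) (nat_lit 581902167) (nat_lit 1092) (nat_lit 35053572323) (nat_lit 72) (nat_lit 5) (nat_lit 84) (nat_lit 5)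 (nat_lit 85) (nat_lit 5) (nat_lit 374) (nat_lit 360) (nat_lit 154)) (XT.nd (nat_lit 94) (nat_lit 0) (nat_lit 0) (XT.lf (nat_lit 0) (nat_lit 2686629252) (nat_lit 1008) (nat_lit 25915920778) (nat_lit 1092) (nat_lit 9154173781) (nat_lit 73) (nat_lit 5) (nat_lit 85) (nat_lit 5) (nat_lit 86) (nat_lit 5) (nat_lit 375) (nat_lit 360) (nat_lit 153)) (XT.lf (nat_lit 0) (nat_lit 3974110529) (nat_lit 1008) (nat_lit 13796895041) (nat_lit 1092) (nat_lit 20664042596) (nat_lit 73) (nat_lit 5) (nat_lit 85) (nat_lit 5) (nat_lit 86) (nat_lit 5) (nat_lit 376) (nat_lit 360) (nat_lit 152))))) (XT.nd (nat_lit 282) (nat_lit 588) (nat_lit 0) (XT.nd (nat_lit 94) (nat_lit 0) (nat_lit 84) (XT.lf (nat_lit 0) (nat_lit 5299976402) (nat_lit 1008) (nat_lit 1303374715) (nat_lit 1092) (nat_lit 32531107291) (nat_lit 73) (nat_lit 5) (nat_lit 85) (nat_lit 5) (nat_lit 86) (nat_lit 5) (nat_lit 377) (nat_lit 360) (nat_lit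 151)) (XT.nd (nat_lit 94) (nat_lit 0) (nat_lit 0) (XT.lf (nat_lit 0) (nat_lit 6832576856) (nat_lit 1008) (nat_lit 28087570284) (nat_lit 84) (nat_lit 4930278784) (nat_lit 74) (nat_lit 5) (nat_lit 86) (nat_lit 5) (nat_lit 75) (nat_lit 5) (nat_lit 378) (nat_lit 360) (nat_lit 150)) (XT.lf (nat_lit 0) (nat_lit 8492523115) (nat_lit 1008) (nat_lit 15395277864) (nat_lit 84) (nat_lit 16698322426) (nat_lit 74) (nat_lit 5) (nat_lit 86) (nat_lit 5) (nat_lit 75) (nat_lit 5) (nat_lit 379) (nat_lit 360) (nat_lit 149)))) (XT.nd (nat_lit 188) (nat_lit 0) (nat_lit 0) (XT.nd (nat_lit 94) (nat_lit 672) (nat_lit 0) (XT.lf (nat_lit 0) (nat_lit 10202525907) (nat_lit 1008) (nat_lit 2310693417) (nat_lit 84) (nat_lit 28831461208) (nat_lit 74) (nat_lit 5) (nat_lit 86) (nat_lit 5) (nat_lit 75) (nat_lit 5) (nat_lit 380) (nat_lit 360) (nat_lit 148)) (XT.lf (nat_lit 0) (nat_lit 11408229663) (nat_lit 672) (nat_lit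 669120520) (nat_lit 756) (nat_lit 30045945874) (nat_lit 66) (nat_lit 5) (nat_lit 74) (nat_lit 5) (nat_lit 75) (nat_lit 5) (nat_lit 381) (nat_lit 360) (nat_lit 147))) (XT.nd (nat_lit 94) (nat_lit 0) (nat_lit 0) (XT.lf (nat_lit 0) (nat_lit 14147831254) (nat_lit 756) (nat_lit 17439797017) (nat_lit 84) (nat_lit 11334165737) (nat_lit 66) (nat_lit 5) (nat_lit 75) (nat_lit 5) (nat_lit 67) (nat_lit 5) (nat_lit 382) (nat_lit 360) (nat_lit 146)) (XT.lf (nat_lit 0) (nat_lit 16288052847) (nat_lit 756) (nat_lit 3760977192) (nat_lit 84) (nat_lit 23695851865) (nat_lit 66) (nat_lit 5) (nat_lit 75) (nat_lit 5) (nat_lit 67) (nat_lit 5) (nat_lit 383) (nat_lit 360) (nat_lit 145))))))) (XT.nd (nat_lit 1222) (nat_lit 1344) (nat_lit 0) (XT.nd (nat_lit 564) (nat_lit 840) (nat_lit 0) (XT.nd (nat_lit 282) (nat_lit 420) (nat_lit 0) (XT.nd (nat_lit 94) (nat_lit 0) (nat_lit 0) (XT.lf (nat_lit 0) (nat_lit 10553408596)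 (nat_lit 504) (nat_lit 8044654635) (nat_lit 588) (nat_lit 25992224061) (nat_lit 60) (nat_lit 5) (nat_lit 66) (nat_lit 5) (nat_lit 67) (nat_lit 5) (nat_lit 384) (nat_lit 360) (nat_lit 144)) (XT.nd (nat_lit 94) (nat_lit 0) (nat_lit 0) (XT.lf (nat_lit 0) (nat_lit 21061093672) (nat_lit 588) (nat_lit 20113927570) (nat_lit 84) (nat_lit 4284363516) (nat_lit 60) (nat_lit 5) (nat_lit 67) (nat_lit 5) (nat_lit 61) (nat_lit 5) (nat_lit 385) (nat_lit 360) (nat_lit 143)) (XT.lf (nat_lit 0) (nat_lit 23681571456) (nat_lit 588) (nat_lit 5842749848) (nat_lit 84) (nat_lit 16828597013) (nat_lit 60) (nat_lit 5) (nat_lit 67) (nat_lit 5) (nat_lit 61) (nat_lit 5) (nat_lit 386) (nat_lit 360) (nat_lit 142)))) (XT.nd (nat_lit 94) (nat_lit 0) (nat_lit 0) (XT.lf (nat_lit 0) (nat_lit 9052141143) (nat_lit 420) (nat_lit 17419792391) (nat_lit 504) (nat_lit 20799477476) (nat_lit 55) (nat_lit 5) (nat_lit 60) (nat_lit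 5) (nat_lit 61) (nat_lit 5) (nat_lit 387) (nat_lit 360) (nat_lit 141)) (XT.nd (nat_lit 94) (nat_lit 0) (nat_lit 0) (XT.lf (nat_lit 0) (nat_lit 24531574141) (nat_lit 420) (nat_lit 4877084144) (nat_lit 504) (nat_lit 18807870480) (nat_lit 55) (nat_lit 5) (nat_lit 60) (nat_lit 5) (nat_lit 61) (nat_lit 5) (nat_lit 388) (nat_lit 360) (nat_lit 140)) (XT.lf (nat_lit 0) (nat_lit 32515232169) (nat_lit 504) (nat_lit 8781049302) (nat_lit 84) (nat_lit 7892227838) (nat_lit 55) (nat_lit 5) (nat_lit 61) (nat_lit 5) (nat_lit 56) (nat_lit 5) (nat_lit 389) (nat_lit 360) (nat_lit 139))))) (XT.nd (nat_lit 282) (nat_lit 420) (nat_lit 0) (XT.nd (nat_lit 94) (nat_lit 0) (nat_lit 0) (XT.lf (nat_lit 0) (nat_lit 6668307193) (nat_lit 420) (nat_lit 29164776509) (nat_lit 504) (nat_lit 14353980408) (nat_lit 50) (nat_lit 5) (nat_lit 55) (nat_lit 5) (nat_lit 56) (nat_lit 5) (nat_lit 390) (nat_lit 360) (nat_lit 138))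 (XT.nd (nat_lit 94) (nat_lit 0) (nat_lit 0) (XT.lf (nat_lit 0) (nat_lit 22781717582) (nat_lit 420) (nat_lit 16562691114) (nat_lit 504) (nat_lit 11869363030) (nat_lit 50) (nat_lit 5) (nat_lit 55) (nat_lit 5) (nat_lit 56) (nat_lit 5) (nat_lit 391) (nat_lit 360) (nat_lit 137)) (XT.lf (nat_lit 0) (nat_lit 39393644868) (nat_lit 420) (nat_lit 3569934967) (nat_lit 504) (nat_lit 9308765231) (nat_lit 50) (nat_lit 5) (nat_lit 55) (nat_lit 5) (nat_lit 56) (nat_lit 5) (nat_lit 392) (nat_lit 360) (nat_lit 136)))) (XT.nd (nat_lit 188) (nat_lit 84) (nat_lit 0) (XT.nd (nat_lit 94) (nat_lit 0) (nat_lit 0) (XT.lf (nat_lit 0) (nat_lit 3121216642) (nat_lit 336) (nat_lit 43701187972) (nat_lit 420) (nat_lit 6537384759) (nat_lit 46) (nat_lit 5) (nat_lit 50) (nat_lit 5) (nat_lit 51) (nat_lit 5) (nat_lit 393) (nat_lit 360) (nat_lit 135)) (XT.lf (nat_lit 0) (nat_lit 19851894461) (nat_lit 336) (nat_lit 31118572877)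 (nat_lit 420) (nat_lit 3505225308) (nat_lit 46) (nat_lit 5) (nat_lit 50) (nat_lit 5) (nat_lit 51) (nat_lit 5) (nat_lit 394) (nat_lit 360) (nat_lit 134))) (XT.nd (nat_lit 94) (nat_lit 84) (nat_lit 0) (XT.lf (nat_lit 0) (nat_lit 37100257899) (nat_lit 336) (nat_lit 18145935607) (nat_lit 420) (nat_lit 380030190) (nat_lit 46) (nat_lit 5) (nat_lit 50) (nat_lit 5) (nat_lit 51) (nat_lit 5) (nat_lit 395) (nat_lit 360) (nat_lit 133)) (XT.lf (nat_lit 0) (nat_lit 2783871495) (nat_lit 420) (nat_lit 1958254901) (nat_lit 84) (nat_lit 52069454831) (nat_lit 45) (nat_lit 5) (nat_lit 50) (nat_lit 5) (nat_lit 46) (nat_lit 5) (nat_lit 396) (nat_lit 360) (nat_lit 132)))))) (XT.nd (nat_lit 564) (nat_lit 588) (nat_lit 0) (XT.nd (nat_lit 282) (nat_lit 336) (nat_lit 0) (XT.nd (nat_lit 94) (nat_lit 0) (nat_lit 0) (XT.lf (nat_lit 0) (nat_lit 6281784144) (nat_lit 504) (nat_lit 42691406004) (nat_lit 84) (nat_lit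 9052821176) (nat_lit 40) (nat_lit 5) (nat_lit 46) (nat_lit 5) (nat_lit 41) (nat_lit 5) (nat_lit 397) (nat_lit 360) (nat_lit 131)) (XT.nd (nat_lit 94) (nat_lit 0) (nat_lit 0) (XT.lf (nat_lit 0) (nat_lit 9956412942) (nat_lit 504) (nat_lit 26122061047) (nat_lit 84) (nat_lit 23197503415) (nat_lit 40) (nat_lit 5) (nat_lit 46) (nat_lit 5) (nat_lit 41) (nat_lit 5) (nat_lit 398) (nat_lit 360) (nat_lit 130)) (XT.lf (nat_lit 0) (nat_lit 13744112207) (nat_lit 504) (nat_lit 9039991974) (nat_lit 84) (nat_lit 37780619581) (nat_lit 40) (nat_lit 5) (nat_lit 46) (nat_lit 5) (nat_lit 41) (nat_lit 5) (nat_lit 399) (nat_lit 360) (nat_lit 129)))) (XT.nd (nat_lit 94) (nat_lit 0) (nat_lit 0) (XT.lf (nat_lit 0) (nat_lit 8746955146) (nat_lit 336) (nat_lit 8988228203) (nat_lit 420) (nat_lit 44155578399) (nat_lit 36) (nat_lit 5) (nat_lit 40) (nat_lit 5) (nat_lit 41) (nat_lit 5) (nat_lit 400) (nat_lit 360)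 (nat_lit 128)) (XT.nd (nat_lit 94) (nat_lit 0) (nat_lit 0) (XT.lf (nat_lit 0) (nat_lit 21996433996) (nat_lit 420) (nat_lit 36031858713) (nat_lit 84) (nat_lit 5225078944) (nat_lit 36) (nat_lit 5) (nat_lit 41) (nat_lit 5) (nat_lit 37) (nat_lit 5) (nat_lit 401) (nat_lit 360) (nat_lit 127)) (XT.lf (nat_lit 0) (nat_lit 26480933213) (nat_lit 420) (nat_lit 18482258825) (nat_lit 84) (nat_lit 19692209525) (nat_lit 36) (nat_lit 5) (nat_lit 41) (nat_lit 5) (nat_lit 37) (nat_lit 5) (nat_lit 402) (nat_lit 360) (nat_lit 126))))) (XT.nd (nat_lit 282) (nat_lit 252) (nat_lit 0) (XT.nd (nat_lit 94) (nat_lit 336) (nat_lit 0) (XT.lf (nat_lit 0) (nat_lit 31103696687) (nat_lit 420) (nat_lit 389484537) (nat_lit 84) (nat_lit 34607741186) (nat_lit 36) (nat_lit 5) (nat_lit 41) (nat_lit 5) (nat_lit 37) (nat_lit 5) (nat_lit 403) (nat_lit 360) (nat_lit 125)) (XT.nd (nat_lit 94) (nat_lit 0) (nat_lit 0) (XT.lf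 (nat_lit 0) (nat_lit 18638860001) (nat_lit 336) (nat_lit 17415073114) (nat_lit 420) (nat_lit 31531616562) (nat_lit 32) (nat_lit 5) (nat_lit 36) (nat_lit 5) (nat_lit 37) (nat_lit 5) (nat_lit 404) (nat_lit 360) (nat_lit 124)) (XT.lf (nat_lit 0) (nat_lit 38264511324) (nat_lit 336) (nat_lit 2896462262) (nat_lit 420) (nat_lit 27955127382) (nat_lit 32) (nat_lit 5) (nat_lit 36) (nat_lit 5) (nat_lit 37) (nat_lit 5) (nat_lit 405) (nat_lit 360) (nat_lit 123)))) (XT.nd (nat_lit 188) (nat_lit 0) (nat_lit 0) (XT.nd (nat_lit 94) (nat_lit 252) (nat_lit 0) (XT.lf (nat_lit 0) (nat_lit 46545392127) (nat_lit 420) (nat_lit 12316128078) (nat_lit 84) (nat_lit 11828892486) (nat_lit 32) (nat_lit 5) (nat_lit 37) (nat_lit 5) (nat_lit 33) (nat_lit 5) (nat_lit 406) (nat_lit 360) (nat_lit 122)) (XT.lf (nat_lit 0) (nat_lit 6902576659) (nat_lit 252) (nat_lit 45291572228) (nat_lit 336) (nat_lit 20116363200) (nat_lit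 29) (nat_lit 5) (nat_lit 32) (nat_lit 5) (nat_lit 33) (nat_lit 5) (nat_lit 407) (nat_lit 360) (nat_lit 121))) (XT.nd (nat_lit 94) (nat_lit 0) (nat_lit 0) (XT.lf (nat_lit 0) (nat_lit 26977361145) (nat_lit 252) (nat_lit 31168546385) (nat_lit 336) (nat_lit 15830966380) (nat_lit 29) (nat_lit 5) (nat_lit 32) (nat_lit 5) (nat_lit 33) (nat_lit 5) (nat_lit 408) (nat_lit 360) (nat_lit 120)) (XT.lf (nat_lit 0) (nat_lit 47673692327) (nat_lit 252) (nat_lit 16607833654) (nat_lit 336) (nat_lit 11413390782) (nat_lit 29) (nat_lit 5) (nat_lit 32) (nat_lit 5) (nat_lit 33) (nat_lit 5) (nat_lit 409) (nat_lit 360) (nat_lit 119))))))))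
noncomputable def xc211 : XT := (XT.nd (nat_lit 52076) (nat_lit 0) (nat_lit 2436) (XT.nd (nat_lit 1128) (nat_lit 168) (nat_lit 0) (XT.nd (nat_lit 564) (nat_lit 252) (nat_lit 0) (XT.nd (nat_lit 282) (nat_lit 252) (nat_lit 0) (XT.nd (nat_lit 94) (nat_lit 336) (nat_lit 0) (XT.lf (nat_lit 0) (nat_lit 69010861354) (nat_lit 252) (nat_lit 1595861925) (nat_lit 336) (nat_lit 6859518764) (nat_lit 29) (nat_lit 5) (nat_lit 32) (nat_lit 5) (nat_lit 33) (nat_lit 5) (nat_lit 410) (nat_lit 360) (nat_lit 118)) (XT.nd (nat_lit 94) (nat_lit 84) (nat_lit 0) (XT.lf (nat_lit 0) (nat_lit 11816629822) (nat_lit 252) (nat_lit 65565692605) (nat_lit 336) (nat_lit 1902275639) (nat_lit 26) (nat_lit 5) (nat_lit 29) (nat_lit 5) (nat_lit 30) (nat_lit 5) (nat_lit 411) (nat_lit 360) (nat_lit 117)) (XT.lf (nat_lit 0) (nat_lit 3248870144) (nat_lit 336) (nat_lit 48310075005) (nat_lit 84) (nat_lit 29596143503) (nat_lit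 25) (nat_lit 5) (nat_lit 29) (nat_lit 5) (nat_lit 26) (nat_lit 5) (nat_lit 412) (nat_lit 360) (nat_lit 116)))) (XT.nd (nat_lit 94) (nat_lit 252) (nat_lit 0) (XT.lf (nat_lit 0) (nat_lit 8519598641) (nat_lit 336) (nat_lit 28578475595) (nat_lit 84) (nat_lit 45984908598) (nat_lit 25) (nat_lit 5) (nat_lit 29) (nat_lit 5) (nat_lit 26) (nat_lit 5) (nat_lit 413) (nat_lit 360) (nat_lit 115)) (XT.nd (nat_lit 94) (nat_lit 252) (nat_lit 0) (XT.lf (nat_lit 0) (nat_lit 13953149335) (nat_lit 336) (nat_lit 8235907286) (nat_lit 84) (nat_lit 62881605984) (nat_lit 25) (nat_lit 5) (nat_lit 29) (nat_lit 5) (nat_lit 26) (nat_lit 5) (nat_lit 414) (nat_lit 360) (nat_lit 114)) (XT.lf (nat_lit 0) (nat_lit 12998481764) (nat_lit 252) (nat_lit 6685051648) (nat_lit 336) (nat_lit 67432449934) (nat_lit 22) (nat_lit 5) (nat_lit 25) (nat_lit 5) (nat_lit 26) (nat_lit 5) (nat_lit 415) (nat_lit 360) (nat_lit 113)))))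 (XT.nd (nat_lit 282) (nat_lit 252) (nat_lit 0) (XT.nd (nat_lit 94) (nat_lit 0) (nat_lit 0) (XT.lf (nat_lit 0) (nat_lit 25770112821) (nat_lit 336) (nat_lit 54250143295) (nat_lit 84) (nat_lit 9198920759) (nat_lit 22) (nat_lit 5) (nat_lit 26) (nat_lit 5) (nat_lit 23) (nat_lit 5) (nat_lit 416) (nat_lit 360) (nat_lit 112)) (XT.nd (nat_lit 94) (nat_lit 0) (nat_lit 0) (XT.lf (nat_lit 0) (nat_lit 32113220174) (nat_lit 336) (nat_lit 33835948983) (nat_lit 84) (nat_lit 25436299992) (nat_lit 22) (nat_lit 5) (nat_lit 26) (nat_lit 5) (nat_lit 23) (nat_lit 5) (nat_lit 417) (nat_lit 360) (nat_lit 111)) (XT.lf (nat_lit 0) (nat_lit 38652451374) (nat_lit 336) (nat_lit 12789573938) (nat_lit 84) (nat_lit 42176909879) (nat_lit 22) (nat_lit 5) (nat_lit 26) (nat_lit 5) (nat_lit 23) (nat_lit 5) (nat_lit 418) (nat_lit 360) (nat_lit 110)))) (XT.nd (nat_lit 94) (nat_lit 0) (nat_lit 0) (XT.lf (nat_lit 0) (nat_lit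 9091778336) (nat_lit 252) (nat_lit 36392314897) (nat_lit 336) (nat_lit 50434767653) (nat_lit 19) (nat_lit 5) (nat_lit 22) (nat_lit 5) (nat_lit 23) (nat_lit 5) (nat_lit 419) (nat_lit 360) (nat_lit 109)) (XT.nd (nat_lit 94) (nat_lit 0) (nat_lit 0) (XT.lf (nat_lit 0) (nat_lit 31921951785) (nat_lit 252) (nat_lit 20738572722) (nat_lit 336) (nat_lit 45625439163) (nat_lit 19) (nat_lit 5) (nat_lit 22) (nat_lit 5) (nat_lit 23) (nat_lit 5) (nat_lit 420) (nat_lit 360) (nat_lit 108)) (XT.lf (nat_lit 0) (nat_lit 55459246650) (nat_lit 252) (nat_lit 4599704780) (nat_lit 336) (nat_lit 40667512470) (nat_lit 19) (nat_lit 5) (nat_lit 22) (nat_lit 5) (nat_lit 23) (nat_lit 5) (nat_lit 421) (nat_lit 360) (nat_lit 107)))))) (XT.nd (nat_lit 50290) (nat_lit 0) (nat_lit 5376) (XT.nd (nat_lit 50008) (nat_lit 0) (nat_lit 5376) (XT.nd (nat_lit 94) (nat_lit 168) (nat_lit 0) (XT.lf (nat_lit 0) (nat_lit 67805701776)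 (nat_lit 336) (nat_lit 23636465887) (nat_lit 84) (nat_lit 11796766333) (nat_lit 19) (nat_lit 5) (nat_lit 23) (nat_lit 5) (nat_lit 20) (nat_lit 5) (nat_lit 422) (nat_lit 360) (nat_lit 106)) (XT.nd (nat_lit 94) (nat_lit 168) (nat_lit 0) (XT.lf (nat_lit 0) (nat_lit 75839198571) (nat_lit 336) (nat_lit 1382797915) (nat_lit 84) (nat_lit 28605852088) (nat_lit 19) (nat_lit 5) (nat_lit 23) (nat_lit 5) (nat_lit 20) (nat_lit 5) (nat_lit 423) (nat_lit 360) (nat_lit 105)) (XT.lf (nat_lit 0) (nat_lit 22003480144) (nat_lit 168) (nat_lit 62336097339) (nat_lit 252) (nat_lit 24150691215) (nat_lit 17) (nat_lit 5) (nat_lit 19) (nat_lit 5) (nat_lit 20) (nat_lit 5) (nat_lit 424) (nat_lit 360) (nat_lit 104)))) (XT.nd (nat_lit 94) (nat_lit 0) (nat_lit 0) (XT.lf (nat_lit 0) (nat_lit 6236671702) (nat_lit 0) (nat_lit 6236671702) (nat_lit 924) (nat_lit 2727207598) (nat_lit 81) (nat_lit 5) (nat_lit 81) (nat_lit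 3) (nat_lit 92) (nat_lit 3) (nat_lit 361) (nat_lit 361) (nat_lit 166)) (XT.nd (nat_lit 94) (nat_lit 0) (nat_lit 0) (XT.lf (nat_lit 0) (nat_lit 22645746702) (nat_lit 0) (nat_lit 2742285262) (nat_lit 924) (nat_lit 5482193331) (nat_lit 81) (nat_lit 5) (nat_lit 81) (nat_lit 3) (nat_lit 92) (nat_lit 3) (nat_lit 362) (nat_lit 361) (nat_lit 165)) (XT.lf (nat_lit 84) (nat_lit 1741164854) (nat_lit 0) (nat_lit 24189296469) (nat_lit 1008) (nat_lit 5420736682) (nat_lit 82) (nat_lit 5) (nat_lit 81) (nat_lit 5) (nat_lit 93) (nat_lit 5) (nat_lit 363) (nat_lit 361) (nat_lit 164))))) (XT.nd (nat_lit 282) (nat_lit 0) (nat_lit 84) (XT.nd (nat_lit 94) (nat_lit 0) (nat_lit 0) (XT.lf (nat_lit 84) (nat_lit 12160289351) (nat_lit 0) (nat_lit 14440888573) (nat_lit 1008) (nat_lit 5242462909) (nat_lit 82) (nat_lit 5) (nat_lit 81) (nat_lit 5) (nat_lit 93) (nat_lit 5) (nat_lit 364) (nat_lit 361) (nat_lit 163))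 (XT.nd (nat_lit 94) (nat_lit 0) (nat_lit 84) (XT.lf (nat_lit 84) (nat_lit 22901257639) (nat_lit 0) (nat_lit 4389355453) (nat_lit 1008) (nat_lit 5060815704) (nat_lit 82) (nat_lit 5) (nat_lit 81) (nat_lit 5) (nat_lit 93) (nat_lit 5) (nat_lit 365) (nat_lit 361) (nat_lit 162)) (XT.lf (nat_lit 84) (nat_lit 1061156674) (nat_lit 0) (nat_lit 27008049068) (nat_lit 1008) (nat_lit 4803665779) (nat_lit 83) (nat_lit 5) (nat_lit 82) (nat_lit 5) (nat_lit 94) (nat_lit 5) (nat_lit 366) (nat_lit 361) (nat_lit 161)))) (XT.nd (nat_lit 188) (nat_lit 0) (nat_lit 84) (XT.nd (nat_lit 94) (nat_lit 0) (nat_lit 0) (XT.lf (nat_lit 84) (nat_lit 12051670181) (nat_lit 0) (nat_lit 16961389287) (nat_lit 1008) (nat_lit 4393058864) (nat_lit 83) (nat_lit 5) (nat_lit 82) (nat_lit 5) (nat_lit 94) (nat_lit 5) (nat_lit 367) (nat_lit 361) (nat_lit 160)) (XT.lf (nat_lit 84) (nat_lit 23381737054) (nat_lit 0) (nat_lit 6602540377)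 (nat_lit 1008) (nat_lit 3971690918) (nat_lit 83) (nat_lit 5) (nat_lit 82) (nat_lit 5) (nat_lit 94) (nat_lit 5) (nat_lit 368) (nat_lit 361) (nat_lit 159))) (XT.nd (nat_lit 94) (nat_lit 0) (nat_lit 0) (XT.lf (nat_lit 84) (nat_lit 508778992) (nat_lit 0) (nat_lit 30520488849) (nat_lit 1008) (nat_lit 3492255655) (nat_lit 84) (nat_lit 5) (nat_lit 83) (nat_lit 5) (nat_lit 95) (nat_lit 5) (nat_lit 369) (nat_lit 361) (nat_lit 158)) (XT.lf (nat_lit 84) (nat_lit 12089430453) (nat_lit 0) (nat_lit 20192652801) (nat_lit 1008) (nat_lit 2817102244) (nat_lit 84) (nat_lit 5) (nat_lit 83) (nat_lit 5) (nat_lit 95) (nat_lit 5) (nat_lit 370) (nat_lit 361) (nat_lit 157))))))) (XT.nd (nat_lit 1222) (nat_lit 1680) (nat_lit 0) (XT.nd (nat_lit 564) (nat_lit 504) (nat_lit 0) (XT.nd (nat_lit 282) (nat_lit 924) (nat_lit 0) (XT.nd (nat_lit 94) (nat_lit 0) (nat_lit 84) (XT.lf (nat_lit 84) (nat_lit 24027934376)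 (nat_lit 0) (nat_lit 9544067543) (nat_lit 1008) (nat_lit 2122819450) (nat_lit 84) (nat_lit 5) (nat_lit 83) (nat_lit 5) (nat_lit 95) (nat_lit 5) (nat_lit 371) (nat_lit 361) (nat_lit 156)) (XT.nd (nat_lit 94) (nat_lit 0) (nat_lit 0) (XT.lf (nat_lit 84) (nat_lit 12445859) (nat_lit 0) (nat_lit 34902141069) (nat_lit 1008) (nat_lit 1393954194) (nat_lit 85) (nat_lit 5) (nat_lit 84) (nat_lit 5) (nat_lit 96) (nat_lit 5) (nat_lit 372) (nat_lit 361) (nat_lit 155)) (XT.lf (nat_lit 84) (nat_lit 12200378176) (nat_lit 0) (nat_lit 24315179918) (nat_lit 1008) (nat_lit 419020195) (nat_lit 85) (nat_lit 5) (nat_lit 84) (nat_lit 5) (nat_lit 96) (nat_lit 5) (nat_lit 373) (nat_lit 361) (nat_lit 154)))) (XT.nd (nat_lit 94) (nat_lit 0) (nat_lit 0) (XT.lf (nat_lit 0) (nat_lit 572711677) (nat_lit 1008) (nat_lit 12820881152) (nat_lit 1092) (nat_lit 24186310760) (nat_lit 72) (nat_lit 5) (nat_lit 84) (nat_lit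 5) (nat_lit 85) (nat_lit 5) (nat_lit 374) (nat_lit 361) (nat_lit 153)) (XT.nd (nat_lit 94) (nat_lit 0) (nat_lit 84) (XT.lf (nat_lit 0) (nat_lit 1584916054) (nat_lit 1008) (nat_lit 543679792) (nat_lit 1092) (nat_lit 36116564667) (nat_lit 72) (nat_lit 5) (nat_lit 84) (nat_lit 5) (nat_lit 85) (nat_lit 5) (nat_lit 375) (nat_lit 361) (nat_lit 152)) (XT.lf (nat_lit 0) (nat_lit 2844968825) (nat_lit 1008) (nat_lit 26660580625) (nat_lit 1092) (nat_lit 9418790863) (nat_lit 73) (nat_lit 5) (nat_lit 85) (nat_lit 5) (nat_lit 86) (nat_lit 5) (nat_lit 376) (nat_lit 361) (nat_lit 151))))) (XT.nd (nat_lit 282) (nat_lit 588) (nat_lit 0) (XT.nd (nat_lit 94) (nat_lit 0) (nat_lit 0) (XT.lf (nat_lit 0) (nat_lit 4170105304) (nat_lit 1008) (nat_lit 14167631089) (nat_lit 1092) (nat_lit 21286041782) (nat_lit 73) (nat_lit 5) (nat_lit 85) (nat_lit 5) (nat_lit 86) (nat_lit 5) (nat_lit 377) (nat_lit 361) (nat_lit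 150)) (XT.nd (nat_lit 94) (nat_lit 0) (nat_lit 84) (XT.lf (nat_lit 0) (nat_lit 5534884157) (nat_lit 1008) (nat_lit 1288524532) (nat_lit 1092) (nat_lit 33521544328) (nat_lit 73) (nat_lit 5) (nat_lit 85) (nat_lit 5) (nat_lit 86) (nat_lit 5) (nat_lit 378) (nat_lit 361) (nat_lit 149)) (XT.lf (nat_lit 0) (nat_lit 7113272579) (nat_lit 1008) (nat_lit 28900837353) (nat_lit 84) (nat_lit 5069073569) (nat_lit 74) (nat_lit 5) (nat_lit 86) (nat_lit 5) (nat_lit 75) (nat_lit 5) (nat_lit 379) (nat_lit 361) (nat_lit 148)))) (XT.nd (nat_lit 188) (nat_lit 672) (nat_lit 0) (XT.nd (nat_lit 94) (nat_lit 0) (nat_lit 0) (XT.lf (nat_lit 0) (nat_lit 8822605921) (nat_lit 1008) (nat_lit 15816811197) (nat_lit 84) (nat_lit 17202348832) (nat_lit 74) (nat_lit 5) (nat_lit 86) (nat_lit 5) (nat_lit 75) (nat_lit 5) (nat_lit 380) (nat_lit 361) (nat_lit 147)) (XT.lf (nat_lit 0) (nat_lit 10583609825) (nat_lit 1008) (nat_lit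 2328280024) (nat_lit 84) (nat_lit 29712024489) (nat_lit 74) (nat_lit 5) (nat_lit 86) (nat_lit 5) (nat_lit 75) (nat_lit 5) (nat_lit 381) (nat_lit 361) (nat_lit 146))) (XT.nd (nat_lit 94) (nat_lit 0) (nat_lit 0) (XT.lf (nat_lit 0) (nat_lit 11815382515) (nat_lit 672) (nat_lit 699753274) (nat_lit 756) (nat_lit 30911588409) (nat_lit 66) (nat_lit 5) (nat_lit 74) (nat_lit 5) (nat_lit 75) (nat_lit 5) (nat_lit 382) (nat_lit 361) (nat_lit 145)) (XT.lf (nat_lit 0) (nat_lit 14647800677) (nat_lit 756) (nat_lit 17926124343) (nat_lit 84) (nat_lit 11676125500) (nat_lit 66) (nat_lit 5) (nat_lit 75) (nat_lit 5) (nat_lit 67) (nat_lit 5) (nat_lit 383) (nat_lit 361) (nat_lit 144)))))) (XT.nd (nat_lit 564) (nat_lit 756) (nat_lit 0) (XT.nd (nat_lit 282) (nat_lit 420) (nat_lit 0) (XT.nd (nat_lit 94) (nat_lit 504) (nat_lit 0) (XT.lf (nat_lit 0) (nat_lit 16852523372) (nat_lit 756) (nat_lit 3824893982) (nat_lit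 84) (nat_lit 24421306517) (nat_lit 66) (nat_lit 5) (nat_lit 75) (nat_lit 5) (nat_lit 67) (nat_lit 5) (nat_lit 384) (nat_lit 361) (nat_lit 143)) (XT.nd (nat_lit 94) (nat_lit 0) (nat_lit 0) (XT.lf (nat_lit 0) (nat_lit 10932704493) (nat_lit 504) (nat_lit 8300166553) (nat_lit 588) (nat_lit 26737517379) (nat_lit 60) (nat_lit 5) (nat_lit 66) (nat_lit 5) (nat_lit 67) (nat_lit 5) (nat_lit 385) (nat_lit 361) (nat_lit 142)) (XT.lf (nat_lit 0) (nat_lit 21770444480) (nat_lit 588) (nat_lit 20684696191) (nat_lit 84) (nat_lit 4411355152) (nat_lit 60) (nat_lit 5) (nat_lit 67) (nat_lit 5) (nat_lit 61) (nat_lit 5) (nat_lit 386) (nat_lit 361) (nat_lit 141)))) (XT.nd (nat_lit 94) (nat_lit 420) (nat_lit 0) (XT.lf (nat_lit 0) (nat_lit 24470459535) (nat_lit 588) (nat_lit 5972698436) (nat_lit 84) (nat_lit 17344634992) (nat_lit 60) (nat_lit 5) (nat_lit 67) (nat_lit 5) (nat_lit 61) (nat_lit 5) (nat_lit 387)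 (nat_lit 361) (nat_lit 140)) (XT.nd (nat_lit 94) (nat_lit 0) (nat_lit 0) (XT.lf (nat_lit 0) (nat_lit 9383416058) (nat_lit 420) (nat_lit 17962762820) (nat_lit 504) (nat_lit 21388626587) (nat_lit 55) (nat_lit 5) (nat_lit 60) (nat_lit 5) (nat_lit 61) (nat_lit 5) (nat_lit 388) (nat_lit 361) (nat_lit 139)) (XT.lf (nat_lit 0) (nat_lit 25341188283) (nat_lit 420) (nat_lit 5031141711) (nat_lit 504) (nat_lit 19336952592) (nat_lit 55) (nat_lit 5) (nat_lit 60) (nat_lit 5) (nat_lit 61) (nat_lit 5) (nat_lit 389) (nat_lit 361) (nat_lit 138))))) (XT.nd (nat_lit 282) (nat_lit 336) (nat_lit 0) (XT.nd (nat_lit 94) (nat_lit 420) (nat_lit 0) (XT.lf (nat_lit 0) (nat_lit 33573616443) (nat_lit 504) (nat_lit 9003676608) (nat_lit 84) (nat_lit 8134161222) (nat_lit 55) (nat_lit 5) (nat_lit 61) (nat_lit 5) (nat_lit 56) (nat_lit 5) (nat_lit 390) (nat_lit 361) (nat_lit 137)) (XT.nd (nat_lit 94) (nat_lit 0) (nat_lit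 0) (XT.lf (nat_lit 0) (nat_lit 6924107933) (nat_lit 420) (nat_lit 30069184568) (nat_lit 504) (nat_lit 14747713772) (nat_lit 50) (nat_lit 5) (nat_lit 55) (nat_lit 5) (nat_lit 56) (nat_lit 5) (nat_lit 391) (nat_lit 361) (nat_lit 136)) (XT.lf (nat_lit 0) (nat_lit 23535558215) (nat_lit 420) (nat_lit 17076425505) (nat_lit 504) (nat_lit 12187613936) (nat_lit 50) (nat_lit 5) (nat_lit 55) (nat_lit 5) (nat_lit 56) (nat_lit 5) (nat_lit 392) (nat_lit 361) (nat_lit 135)))) (XT.nd (nat_lit 188) (nat_lit 0) (nat_lit 0) (XT.nd (nat_lit 94) (nat_lit 336) (nat_lit 0) (XT.lf (nat_lit 0) (nat_lit 40661023793) (nat_lit 420) (nat_lit 3680885169) (nat_lit 504) (nat_lit 9549131959) (nat_lit 50) (nat_lit 5) (nat_lit 55) (nat_lit 5) (nat_lit 56) (nat_lit 5) (nat_lit 393) (nat_lit 361) (nat_lit 134)) (XT.lf (nat_lit 0) (nat_lit 3265414730) (nat_lit 336) (nat_lit 45054013578) (nat_lit 420) (nat_lit 6692805711)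 (nat_lit 46) (nat_lit 5) (nat_lit 50) (nat_lit 5) (nat_lit 51) (nat_lit 5) (nat_lit 394) (nat_lit 361) (nat_lit 133))) (XT.nd (nat_lit 94) (nat_lit 0) (nat_lit 0) (XT.lf (nat_lit 0) (nat_lit 20513317130) (nat_lit 336) (nat_lit 32081394882) (nat_lit 420) (nat_lit 3568069664) (nat_lit 46) (nat_lit 5) (nat_lit 50) (nat_lit 5) (nat_lit 51) (nat_lit 5) (nat_lit 395) (nat_lit 361) (nat_lit 132)) (XT.lf (nat_lit 0) (nat_lit 38294996292) (nat_lit 336) (nat_lit 18706661595) (nat_lit 420) (nat_lit 347371137) (nat_lit 46) (nat_lit 5) (nat_lit 50) (nat_lit 5) (nat_lit 51) (nat_lit 5) (nat_lit 396) (nat_lit 361) (nat_lit 131))))))))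
noncomputable def xc212 : XT := (XT.nd (nat_lit 2350) (nat_lit 0) (nat_lit 0) (XT.nd (nat_lit 1128) (nat_lit 840) (nat_lit 0) (XT.nd (nat_lit 564) (nat_lit 588) (nat_lit 0) (XT.nd (nat_lit 282) (nat_lit 336) (nat_lit 0) (XT.nd (nat_lit 94) (nat_lit 420) (nat_lit 0) (XT.lf (nat_lit 0) (nat_lit 2912406839) (nat_lit 420) (nat_lit 1974540672) (nat_lit 84) (nat_lit 53684220209) (nat_lit 45) (nat_lit 5) (nat_lit 50) (nat_lit 5) (nat_lit 46) (nat_lit 5) (nat_lit 397) (nat_lit 361) (nat_lit 130)) (XT.nd (nat_lit 94) (nat_lit 0) (nat_lit 0) (XT.lf (nat_lit 0) (nat_lit 6517946527) (nat_lit 504) (nat_lit 43969355892) (nat_lit 84) (nat_lit 9335975702) (nat_lit 40) (nat_lit 5) (nat_lit 46) (nat_lit 5) (nat_lit 41) (nat_lit 5) (nat_lit 398) (nat_lit 361) (nat_lit 129)) (XT.lf (nat_lit 0) (nat_lit 10305243193) (nat_lit 504) (nat_lit 26887728841) (nat_lit 84) (nat_lit 23919067407) (nat_lit 40) (nat_lit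 5) (nat_lit 46) (nat_lit 5) (nat_lit 41) (nat_lit 5) (nat_lit 399) (nat_lit 361) (nat_lit 128)))) (XT.nd (nat_lit 94) (nat_lit 336) (nat_lit 0) (XT.lf (nat_lit 0) (nat_lit 14209152964) (nat_lit 504) (nat_lit 9277442105) (nat_lit 84) (nat_lit 38954186767) (nat_lit 40) (nat_lit 5) (nat_lit 46) (nat_lit 5) (nat_lit 41) (nat_lit 5) (nat_lit 400) (nat_lit 361) (nat_lit 127)) (XT.nd (nat_lit 94) (nat_lit 0) (nat_lit 0) (XT.lf (nat_lit 0) (nat_lit 9060467170) (nat_lit 336) (nat_lit 9262728478) (nat_lit 420) (nat_lit 45484761875) (nat_lit 36) (nat_lit 5) (nat_lit 40) (nat_lit 5) (nat_lit 41) (nat_lit 5) (nat_lit 401) (nat_lit 361) (nat_lit 126)) (XT.lf (nat_lit 0) (nat_lit 22715435606) (nat_lit 420) (nat_lit 37106428063) (nat_lit 84) (nat_lit 5390986064) (nat_lit 36) (nat_lit 5) (nat_lit 41) (nat_lit 5) (nat_lit 37) (nat_lit 5) (nat_lit 402) (nat_lit 361) (nat_lit 125))))) (XT.nd (nat_lit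 282) (nat_lit 252) (nat_lit 0) (XT.nd (nat_lit 94) (nat_lit 336) (nat_lit 0) (XT.lf (nat_lit 0) (nat_lit 27337838414) (nat_lit 420) (nat_lit 19014066007) (nat_lit 84) (nat_lit 20306479536) (nat_lit 36) (nat_lit 5) (nat_lit 41) (nat_lit 5) (nat_lit 37) (nat_lit 5) (nat_lit 403) (nat_lit 361) (nat_lit 124)) (XT.nd (nat_lit 94) (nat_lit 336) (nat_lit 0) (XT.lf (nat_lit 0) (nat_lit 32102825224) (nat_lit 420) (nat_lit 361652795) (nat_lit 84) (nat_lit 35684278074) (nat_lit 36) (nat_lit 5) (nat_lit 41) (nat_lit 5) (nat_lit 37) (nat_lit 5) (nat_lit 404) (nat_lit 361) (nat_lit 123)) (XT.lf (nat_lit 0) (nat_lit 19256166415) (nat_lit 336) (nat_lit 17949694640) (nat_lit 420) (nat_lit 32473572538) (nat_lit 32) (nat_lit 5) (nat_lit 36) (nat_lit 5) (nat_lit 37) (nat_lit 5) (nat_lit 405) (nat_lit 361) (nat_lit 122)))) (XT.nd (nat_lit 94) (nat_lit 252) (nat_lit 0) (XT.lf (nat_lit 0) (nat_lit 39489025194)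 (nat_lit 336) (nat_lit 2981164580) (nat_lit 420) (nat_lit 28787280329) (nat_lit 32) (nat_lit 5) (nat_lit 36) (nat_lit 5) (nat_lit 37) (nat_lit 5) (nat_lit 406) (nat_lit 361) (nat_lit 121)) (XT.nd (nat_lit 94) (nat_lit 252) (nat_lit 0) (XT.lf (nat_lit 0) (nat_lit 48020575209) (nat_lit 420) (nat_lit 12659621995) (nat_lit 84) (nat_lit 12200423750) (nat_lit 32) (nat_lit 5) (nat_lit 37) (nat_lit 5) (nat_lit 33) (nat_lit 5) (nat_lit 407) (nat_lit 361) (nat_lit 120)) (XT.lf (nat_lit 0) (nat_lit 7154474774) (nat_lit 252) (nat_lit 46689374339) (nat_lit 336) (nat_lit 20707118575) (nat_lit 29) (nat_lit 5) (nat_lit 32) (nat_lit 5) (nat_lit 33) (nat_lit 5) (nat_lit 408) (nat_lit 361) (nat_lit 119)))))) (XT.nd (nat_lit 564) (nat_lit 504) (nat_lit 0) (XT.nd (nat_lit 282) (nat_lit 336) (nat_lit 0) (XT.nd (nat_lit 94) (nat_lit 0) (nat_lit 0) (XT.lf (nat_lit 0) (nat_lit 27850437457) (nat_lit 252)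 (nat_lit 32128722217) (nat_lit 336) (nat_lit 16289862240) (nat_lit 29) (nat_lit 5) (nat_lit 32) (nat_lit 5) (nat_lit 33) (nat_lit 5) (nat_lit 409) (nat_lit 361) (nat_lit 118)) (XT.nd (nat_lit 94) (nat_lit 0) (nat_lit 0) (XT.lf (nat_lit 0) (nat_lit 49187249065) (nat_lit 252) (nat_lit 17116809275) (nat_lit 336) (nat_lit 11736299885) (nat_lit 29) (nat_lit 5) (nat_lit 32) (nat_lit 5) (nat_lit 33) (nat_lit 5) (nat_lit 410) (nat_lit 361) (nat_lit 117)) (XT.lf (nat_lit 0) (nat_lit 71184797742) (nat_lit 252) (nat_lit 1639642838) (nat_lit 336) (nat_lit 7042187113) (nat_lit 29) (nat_lit 5) (nat_lit 32) (nat_lit 5) (nat_lit 33) (nat_lit 5) (nat_lit 411) (nat_lit 361) (nat_lit 116)))) (XT.nd (nat_lit 94) (nat_lit 84) (nat_lit 0) (XT.lf (nat_lit 0) (nat_lit 12218195902) (nat_lit 252) (nat_lit 67591422617) (nat_lit 336) (nat_lit 1931753805) (nat_lit 26) (nat_lit 5) (nat_lit 29) (nat_lit 5) (nat_lit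 30) (nat_lit 5) (nat_lit 412) (nat_lit 361) (nat_lit 115)) (XT.nd (nat_lit 94) (nat_lit 0) (nat_lit 0) (XT.lf (nat_lit 0) (nat_lit 3377614385) (nat_lit 336) (nat_lit 49772763693) (nat_lit 84) (nat_lit 30519492763) (nat_lit 25) (nat_lit 5) (nat_lit 29) (nat_lit 5) (nat_lit 26) (nat_lit 5) (nat_lit 413) (nat_lit 361) (nat_lit 114)) (XT.lf (nat_lit 0) (nat_lit 8810892683) (nat_lit 336) (nat_lit 29430534781) (nat_lit 84) (nat_lit 47416133114) (nat_lit 25) (nat_lit 5) (nat_lit 29) (nat_lit 5) (nat_lit 26) (nat_lit 5) (nat_lit 414) (nat_lit 361) (nat_lit 113))))) (XT.nd (nat_lit 282) (nat_lit 252) (nat_lit 0) (XT.nd (nat_lit 94) (nat_lit 252) (nat_lit 0) (XT.lf (nat_lit 0) (nat_lit 14412066009) (nat_lit 336) (nat_lit 8458365361) (nat_lit 84) (nat_lit 64836456961) (nat_lit 25) (nat_lit 5) (nat_lit 29) (nat_lit 5) (nat_lit 26) (nat_lit 5) (nat_lit 415) (nat_lit 361) (nat_lit 112)) (XT.nd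 (nat_lit 94) (nat_lit 0) (nat_lit 0) (XT.lf (nat_lit 0) (nat_lit 13433957122) (nat_lit 252) (nat_lit 6885664636) (nat_lit 336) (nat_lit 69496011267) (nat_lit 22) (nat_lit 5) (nat_lit 25) (nat_lit 5) (nat_lit 26) (nat_lit 5) (nat_lit 416) (nat_lit 361) (nat_lit 111)) (XT.lf (nat_lit 0) (nat_lit 26594170136) (nat_lit 336) (nat_lit 55899499560) (nat_lit 84) (nat_lit 9490382320) (nat_lit 22) (nat_lit 5) (nat_lit 26) (nat_lit 5) (nat_lit 23) (nat_lit 5) (nat_lit 417) (nat_lit 361) (nat_lit 110)))) (XT.nd (nat_lit 188) (nat_lit 252) (nat_lit 0) (XT.nd (nat_lit 94) (nat_lit 0) (nat_lit 0) (XT.lf (nat_lit 0) (nat_lit 33133156593) (nat_lit 336) (nat_lit 34853439368) (nat_lit 84) (nat_lit 26230931030) (nat_lit 22) (nat_lit 5) (nat_lit 26) (nat_lit 5) (nat_lit 23) (nat_lit 5) (nat_lit 418) (nat_lit 361) (nat_lit 109)) (XT.lf (nat_lit 0) (nat_lit 39874369504) (nat_lit 336) (nat_lit 13155571552)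 (nat_lit 84) (nat_lit 43490316238) (nat_lit 22) (nat_lit 5) (nat_lit 26) (nat_lit 5) (nat_lit 23) (nat_lit 5) (nat_lit 419) (nat_lit 361) (nat_lit 108))) (XT.nd (nat_lit 94) (nat_lit 0) (nat_lit 0) (XT.lf (nat_lit 0) (nat_lit 9403794069) (nat_lit 252) (nat_lit 37513585116) (nat_lit 336) (nat_lit 51974118228) (nat_lit 19) (nat_lit 5) (nat_lit 22) (nat_lit 5) (nat_lit 23) (nat_lit 5) (nat_lit 420) (nat_lit 361) (nat_lit 107)) (XT.lf (nat_lit 0) (nat_lit 32940795728) (nat_lit 252) (nat_lit 21374784148) (nat_lit 336) (nat_lit 47016426010) (nat_lit 19) (nat_lit 5) (nat_lit 22) (nat_lit 5) (nat_lit 23) (nat_lit 5) (nat_lit 421) (nat_lit 361) (nat_lit 106))))))) (XT.nd (nat_lit 51042) (nat_lit 0) (nat_lit 3948) (XT.nd (nat_lit 50384) (nat_lit 0) (nat_lit 5208) (XT.nd (nat_lit 50102) (nat_lit 0) (nat_lit 5208) (XT.nd (nat_lit 94) (nat_lit 0) (nat_lit 0) (XT.lf (nat_lit 0) (nat_lit 57206866844)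 (nat_lit 252) (nat_lit 4735812283) (nat_lit 336) (nat_lit 41905507231) (nat_lit 19) (nat_lit 5) (nat_lit 22) (nat_lit 5) (nat_lit 23) (nat_lit 5) (nat_lit 422) (nat_lit 361) (nat_lit 105)) (XT.nd (nat_lit 94) (nat_lit 0) (nat_lit 0) (XT.lf (nat_lit 0) (nat_lit 69928982622) (nat_lit 336) (nat_lit 24340954666) (nat_lit 84) (nat_lit 12168627797) (nat_lit 19) (nat_lit 5) (nat_lit 23) (nat_lit 5) (nat_lit 20) (nat_lit 5) (nat_lit 423) (nat_lit 361) (nat_lit 104)) (XT.lf (nat_lit 0) (nat_lit 78210877249) (nat_lit 336) (nat_lit 1398272154) (nat_lit 84) (nat_lit 29498609940) (nat_lit 19) (nat_lit 5) (nat_lit 23) (nat_lit 5) (nat_lit 20) (nat_lit 5) (nat_lit 424) (nat_lit 361) (nat_lit 103)))) (XT.nd (nat_lit 94) (nat_lit 0) (nat_lit 0) (XT.lf (nat_lit 0) (nat_lit 6457073105) (nat_lit 0) (nat_lit 6457073105) (nat_lit 924) (nat_lit 2755548851) (nat_lit 81) (nat_lit 5) (nat_lit 81) (nat_lit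 3) (nat_lit 92) (nat_lit 3) (nat_lit 362) (nat_lit 362) (nat_lit 164)) (XT.nd (nat_lit 94) (nat_lit 0) (nat_lit 0) (XT.lf (nat_lit 0) (nat_lit 23400266461) (nat_lit 0) (nat_lit 2879797716) (nat_lit 924) (nat_lit 5543116722) (nat_lit 81) (nat_lit 5) (nat_lit 81) (nat_lit 3) (nat_lit 92) (nat_lit 3) (nat_lit 363) (nat_lit 362) (nat_lit 163)) (XT.lf (nat_lit 84) (nat_lit 1851607262) (nat_lit 0) (nat_lit 24984599348) (nat_lit 1008) (nat_lit 5482976362) (nat_lit 82) (nat_lit 5) (nat_lit 81) (nat_lit 5) (nat_lit 93) (nat_lit 5) (nat_lit 364) (nat_lit 362) (nat_lit 162))))) (XT.nd (nat_lit 282) (nat_lit 0) (nat_lit 84) (XT.nd (nat_lit 94) (nat_lit 0) (nat_lit 0) (XT.lf (nat_lit 84) (nat_lit 12592026796) (nat_lit 0) (nat_lit 14932624682) (nat_lit 1008) (nat_lit 5302357380) (nat_lit 82) (nat_lit 5) (nat_lit 81) (nat_lit 5) (nat_lit 93) (nat_lit 5) (nat_lit 365) (nat_lit 362) (nat_lit 161))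 (XT.nd (nat_lit 94) (nat_lit 0) (nat_lit 84) (XT.lf (nat_lit 84) (nat_lit 23664318327) (nat_lit 0) (nat_lit 4568168986) (nat_lit 1008) (nat_lit 5118164736) (nat_lit 82) (nat_lit 5) (nat_lit 81) (nat_lit 5) (nat_lit 93) (nat_lit 5) (nat_lit 366) (nat_lit 362) (nat_lit 160)) (XT.lf (nat_lit 84) (nat_lit 1150690024) (nat_lit 0) (nat_lit 27881794425) (nat_lit 1008) (nat_lit 4855880761) (nat_lit 83) (nat_lit 5) (nat_lit 82) (nat_lit 5) (nat_lit 94) (nat_lit 5) (nat_lit 367) (nat_lit 362) (nat_lit 159)))) (XT.nd (nat_lit 188) (nat_lit 0) (nat_lit 84) (XT.nd (nat_lit 94) (nat_lit 0) (nat_lit 0) (XT.lf (nat_lit 84) (nat_lit 12480206480) (nat_lit 0) (nat_lit 17522590839) (nat_lit 1008) (nat_lit 4435452557) (nat_lit 83) (nat_lit 5) (nat_lit 82) (nat_lit 5) (nat_lit 94) (nat_lit 5) (nat_lit 368) (nat_lit 362) (nat_lit 158)) (XT.lf (nat_lit 84) (nat_lit 24159853661) (nat_lit 0) (nat_lit 6841553254)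 (nat_lit 1008) (nat_lit 4003842306) (nat_lit 83) (nat_lit 5) (nat_lit 82) (nat_lit 5) (nat_lit 94) (nat_lit 5) (nat_lit 369) (nat_lit 362) (nat_lit 157))) (XT.nd (nat_lit 94) (nat_lit 0) (nat_lit 0) (XT.lf (nat_lit 84) (nat_lit 580951798) (nat_lit 0) (nat_lit 31495434919) (nat_lit 1008) (nat_lit 3512043611) (nat_lit 84) (nat_lit 5) (nat_lit 83) (nat_lit 5) (nat_lit 95) (nat_lit 5) (nat_lit 370) (nat_lit 362) (nat_lit 156)) (XT.lf (nat_lit 84) (nat_lit 12518907605) (nat_lit 0) (nat_lit 20846569669) (nat_lit 1008) (nat_lit 2818620610) (nat_lit 84) (nat_lit 5) (nat_lit 83) (nat_lit 5) (nat_lit 95) (nat_lit 5) (nat_lit 371) (nat_lit 362) (nat_lit 155)))))) (XT.nd (nat_lit 564) (nat_lit 504) (nat_lit 0) (XT.nd (nat_lit 282) (nat_lit 924) (nat_lit 0) (XT.nd (nat_lit 94) (nat_lit 0) (nat_lit 84) (XT.lf (nat_lit 84) (nat_lit 24825860291) (nat_lit 0) (nat_lit 9867038032) (nat_lit 1008) (nat_lit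 2105395230) (nat_lit 84) (nat_lit 5) (nat_lit 83) (nat_lit 5) (nat_lit 95) (nat_lit 5) (nat_lit 372) (nat_lit 362) (nat_lit 154)) (XT.nd (nat_lit 94) (nat_lit 0) (nat_lit 0) (XT.lf (nat_lit 84) (nat_lit 68656828) (nat_lit 0) (nat_lit 36006329264) (nat_lit 1008) (nat_lit 1356135670) (nat_lit 85) (nat_lit 5) (nat_lit 84) (nat_lit 5) (nat_lit 96) (nat_lit 5) (nat_lit 373) (nat_lit 362) (nat_lit 153)) (XT.lf (nat_lit 84) (nat_lit 12632736502) (nat_lit 0) (nat_lit 25090504154) (nat_lit 1008) (nat_lit 353415151) (nat_lit 85) (nat_lit 5) (nat_lit 84) (nat_lit 5) (nat_lit 96) (nat_lit 5) (nat_lit 374) (nat_lit 362) (nat_lit 152)))) (XT.nd (nat_lit 94) (nat_lit 0) (nat_lit 0) (XT.lf (nat_lit 0) (nat_lit 665161338) (nat_lit 1008) (nat_lit 13163758785) (nat_lit 1092) (nat_lit 24913129654) (nat_lit 72) (nat_lit 5) (nat_lit 84) (nat_lit 5) (nat_lit 85) (nat_lit 5) (nat_lit 375) (nat_lit 362)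 (nat_lit 151)) (XT.nd (nat_lit 94) (nat_lit 0) (nat_lit 84) (XT.lf (nat_lit 0) (nat_lit 1706498111) (nat_lit 1008) (nat_lit 507604979) (nat_lit 1092) (nat_lit 37213911692) (nat_lit 72) (nat_lit 5) (nat_lit 84) (nat_lit 5) (nat_lit 85) (nat_lit 5) (nat_lit 376) (nat_lit 362) (nat_lit 150)) (XT.lf (nat_lit 0) (nat_lit 3003771345) (nat_lit 1008) (nat_lit 27431803825) (nat_lit 1092) (nat_lit 9692746091) (nat_lit 73) (nat_lit 5) (nat_lit 85) (nat_lit 5) (nat_lit 86) (nat_lit 5) (nat_lit 377) (nat_lit 362) (nat_lit 149))))) (XT.nd (nat_lit 282) (nat_lit 588) (nat_lit 0) (XT.nd (nat_lit 94) (nat_lit 0) (nat_lit 0) (XT.lf (nat_lit 0) (nat_lit 4367864006) (nat_lit 1008) (nat_lit 14553234248) (nat_lit 1092) (nat_lit 21928423831) (nat_lit 73) (nat_lit 5) (nat_lit 85) (nat_lit 5) (nat_lit 86) (nat_lit 5) (nat_lit 378) (nat_lit 362) (nat_lit 148)) (XT.nd (nat_lit 94) (nat_lit 0) (nat_lit 84)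 (XT.lf (nat_lit 0) (nat_lit 5772891790) (nat_lit 1008) (nat_lit 1276486829) (nat_lit 1092) (nat_lit 34543752701) (nat_lit 73) (nat_lit 5) (nat_lit 85) (nat_lit 5) (nat_lit 86) (nat_lit 5) (nat_lit 379) (nat_lit 362) (nat_lit 147)) (XT.lf (nat_lit 0) (nat_lit 7398589644) (nat_lit 1008) (nat_lit 29742718423) (nat_lit 84) (nat_lit 5213002833) (nat_lit 74) (nat_lit 5) (nat_lit 86) (nat_lit 5) (nat_lit 75) (nat_lit 5) (nat_lit 380) (nat_lit 362) (nat_lit 146)))) (XT.nd (nat_lit 188) (nat_lit 672) (nat_lit 0) (XT.nd (nat_lit 94) (nat_lit 0) (nat_lit 0) (XT.lf (nat_lit 0) (nat_lit 9158963751) (nat_lit 1008) (nat_lit 16254712472) (nat_lit 84) (nat_lit 17722806888) (nat_lit 74) (nat_lit 5) (nat_lit 86) (nat_lit 5) (nat_lit 75) (nat_lit 5) (nat_lit 381) (nat_lit 362) (nat_lit 145)) (XT.lf (nat_lit 0) (nat_lit 10972668797) (nat_lit 1008) (nat_lit 2349612988) (nat_lit 84) (nat_lit 30620667803)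 (nat_lit 74) (nat_lit 5) (nat_lit 86) (nat_lit 5) (nat_lit 75) (nat_lit 5) (nat_lit 382) (nat_lit 362) (nat_lit 144))) (XT.nd (nat_lit 94) (nat_lit 0) (nat_lit 0) (XT.lf (nat_lit 0) (nat_lit 12231988343) (nat_lit 672) (nat_lit 730749840) (nat_lit 756) (nat_lit 31807962231) (nat_lit 66) (nat_lit 5) (nat_lit 74) (nat_lit 5) (nat_lit 75) (nat_lit 5) (nat_lit 383) (nat_lit 362) (nat_lit 143)) (XT.lf (nat_lit 0) (nat_lit 15159633116) (nat_lit 756) (nat_lit 18430744476) (nat_lit 84) (nat_lit 12029242756) (nat_lit 66) (nat_lit 5) (nat_lit 75) (nat_lit 5) (nat_lit 67) (nat_lit 5) (nat_lit 384) (nat_lit 362) (nat_lit 142))))))))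
noncomputable def xc213 : XT := (XT.nd (nat_lit 2350) (nat_lit 840) (nat_lit 0) (XT.nd (nat_lit 1128) (nat_lit 1428) (nat_lit 0) (XT.nd (nat_lit 564) (nat_lit 756) (nat_lit 0) (XT.nd (nat_lit 282) (nat_lit 420) (nat_lit 0) (XT.nd (nat_lit 94) (nat_lit 504) (nat_lit 0) (XT.lf (nat_lit 0) (nat_lit 17430965774) (nat_lit 756) (nat_lit 3893912134) (nat_lit 84) (nat_lit 25169790264) (nat_lit 66) (nat_lit 5) (nat_lit 75) (nat_lit 5) (nat_lit 67) (nat_lit 5) (nat_lit 385) (nat_lit 362) (nat_lit 141)) (XT.nd (nat_lit 94) (nat_lit 0) (nat_lit 0) (XT.lf (nat_lit 0) (nat_lit 11320670209) (nat_lit 504) (nat_lit 8563236390) (nat_lit 588) (nat_lit 27509496272) (nat_lit 60) (nat_lit 5) (nat_lit 66) (nat_lit 5) (nat_lit 67) (nat_lit 5) (nat_lit 386) (nat_lit 362) (nat_lit 140)) (XT.lf (nat_lit 0) (nat_lit 22498441124) (nat_lit 588) (nat_lit 21276283890) (nat_lit 84) (nat_lit 4542628472) (nat_lit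 60) (nat_lit 5) (nat_lit 67) (nat_lit 5) (nat_lit 61) (nat_lit 5) (nat_lit 387) (nat_lit 362) (nat_lit 139)))) (XT.nd (nat_lit 94) (nat_lit 420) (nat_lit 0) (XT.lf (nat_lit 0) (nat_lit 25280559654) (nat_lit 588) (nat_lit 6109706711) (nat_lit 84) (nat_lit 17877004720) (nat_lit 60) (nat_lit 5) (nat_lit 67) (nat_lit 5) (nat_lit 61) (nat_lit 5) (nat_lit 388) (nat_lit 362) (nat_lit 138)) (XT.nd (nat_lit 94) (nat_lit 0) (nat_lit 0) (XT.lf (nat_lit 0) (nat_lit 9721959903) (nat_lit 420) (nat_lit 18522390192) (nat_lit 504) (nat_lit 21999334659) (nat_lit 55) (nat_lit 5) (nat_lit 60) (nat_lit 5) (nat_lit 61) (nat_lit 5) (nat_lit 389) (nat_lit 362) (nat_lit 137)) (XT.lf (nat_lit 0) (nat_lit 26172990093) (nat_lit 420) (nat_lit 5189805187) (nat_lit 504) (nat_lit 19885632505) (nat_lit 55) (nat_lit 5) (nat_lit 60) (nat_lit 5) (nat_lit 61) (nat_lit 5) (nat_lit 390) (nat_lit 362) (nat_lit 136)))))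 (XT.nd (nat_lit 282) (nat_lit 336) (nat_lit 0) (XT.nd (nat_lit 94) (nat_lit 420) (nat_lit 0) (XT.lf (nat_lit 0) (nat_lit 34661824635) (nat_lit 504) (nat_lit 9236142378) (nat_lit 84) (nat_lit 8383755988) (nat_lit 55) (nat_lit 5) (nat_lit 61) (nat_lit 5) (nat_lit 56) (nat_lit 5) (nat_lit 391) (nat_lit 362) (nat_lit 135)) (XT.nd (nat_lit 94) (nat_lit 0) (nat_lit 0) (XT.lf (nat_lit 0) (nat_lit 7184931213) (nat_lit 420) (nat_lit 31001611507) (nat_lit 504) (nat_lit 15156687904) (nat_lit 50) (nat_lit 5) (nat_lit 55) (nat_lit 5) (nat_lit 56) (nat_lit 5) (nat_lit 392) (nat_lit 362) (nat_lit 134)) (XT.lf (nat_lit 0) (nat_lit 24309948041) (nat_lit 420) (nat_lit 17606068428) (nat_lit 504) (nat_lit 12518674396) (nat_lit 50) (nat_lit 5) (nat_lit 55) (nat_lit 5) (nat_lit 56) (nat_lit 5) (nat_lit 393) (nat_lit 362) (nat_lit 133)))) (XT.nd (nat_lit 94) (nat_lit 336) (nat_lit 0) (XT.lf (nat_lit 0)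 (nat_lit 41964956384) (nat_lit 420) (nat_lit 3795258111) (nat_lit 504) (nat_lit 9799805320) (nat_lit 50) (nat_lit 5) (nat_lit 55) (nat_lit 5) (nat_lit 56) (nat_lit 5) (nat_lit 394) (nat_lit 362) (nat_lit 132)) (XT.nd (nat_lit 94) (nat_lit 0) (nat_lit 0) (XT.lf (nat_lit 0) (nat_lit 3411272985) (nat_lit 336) (nat_lit 46448889983) (nat_lit 420) (nat_lit 6855842700) (nat_lit 46) (nat_lit 5) (nat_lit 50) (nat_lit 5) (nat_lit 51) (nat_lit 5) (nat_lit 395) (nat_lit 362) (nat_lit 131)) (XT.lf (nat_lit 0) (nat_lit 21192518417) (nat_lit 336) (nat_lit 33074174170) (nat_lit 420) (nat_lit 3635576052) (nat_lit 46) (nat_lit 5) (nat_lit 50) (nat_lit 5) (nat_lit 51) (nat_lit 5) (nat_lit 396) (nat_lit 362) (nat_lit 130)))))) (XT.nd (nat_lit 564) (nat_lit 588) (nat_lit 0) (XT.nd (nat_lit 282) (nat_lit 336) (nat_lit 0) (XT.nd (nat_lit 94) (nat_lit 504) (nat_lit 0) (XT.lf (nat_lit 0) (nat_lit 39524128040)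 (nat_lit 336) (nat_lit 19284876589) (nat_lit 420) (nat_lit 316331910) (nat_lit 46) (nat_lit 5) (nat_lit 50) (nat_lit 5) (nat_lit 51) (nat_lit 5) (nat_lit 397) (nat_lit 362) (nat_lit 129)) (XT.nd (nat_lit 94) (nat_lit 420) (nat_lit 0) (XT.lf (nat_lit 0) (nat_lit 3042425107) (nat_lit 420) (nat_lit 1993962383) (nat_lit 84) (nat_lit 55349007048) (nat_lit 45) (nat_lit 5) (nat_lit 50) (nat_lit 5) (nat_lit 46) (nat_lit 5) (nat_lit 398) (nat_lit 362) (nat_lit 128)) (XT.lf (nat_lit 0) (nat_lit 6758976148) (nat_lit 504) (nat_lit 45289616304) (nat_lit 84) (nat_lit 9627758927) (nat_lit 40) (nat_lit 5) (nat_lit 46) (nat_lit 5) (nat_lit 41) (nat_lit 5) (nat_lit 399) (nat_lit 362) (nat_lit 127)))) (XT.nd (nat_lit 94) (nat_lit 336) (nat_lit 0) (XT.lf (nat_lit 0) (nat_lit 10662507166) (nat_lit 504) (nat_lit 27679745408) (nat_lit 84) (nat_lit 24662855275) (nat_lit 40) (nat_lit 5) (nat_lit 46) (nat_lit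 5) (nat_lit 41) (nat_lit 5) (nat_lit 400) (nat_lit 362) (nat_lit 126)) (XT.nd (nat_lit 94) (nat_lit 336) (nat_lit 0) (XT.lf (nat_lit 0) (nat_lit 14686301530) (nat_lit 504) (nat_lit 9524787692) (nat_lit 84) (nat_lit 40163994276) (nat_lit 40) (nat_lit 5) (nat_lit 46) (nat_lit 5) (nat_lit 41) (nat_lit 5) (nat_lit 401) (nat_lit 362) (nat_lit 125)) (XT.lf (nat_lit 0) (nat_lit 9381189223) (nat_lit 336) (nat_lit 9545983172) (nat_lit 420) (nat_lit 46857497951) (nat_lit 36) (nat_lit 5) (nat_lit 40) (nat_lit 5) (nat_lit 41) (nat_lit 5) (nat_lit 402) (nat_lit 362) (nat_lit 124))))) (XT.nd (nat_lit 282) (nat_lit 588) (nat_lit 0) (XT.nd (nat_lit 94) (nat_lit 0) (nat_lit 0) (XT.lf (nat_lit 0) (nat_lit 23454528049) (nat_lit 420) (nat_lit 38216821569) (nat_lit 84) (nat_lit 5561803544) (nat_lit 36) (nat_lit 5) (nat_lit 41) (nat_lit 5) (nat_lit 37) (nat_lit 5) (nat_lit 403) (nat_lit 362) (nat_lit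 123)) (XT.nd (nat_lit 94) (nat_lit 0) (nat_lit 0) (XT.lf (nat_lit 0) (nat_lit 28219175555) (nat_lit 420) (nat_lit 19564796172) (nat_lit 84) (nat_lit 20939566155) (nat_lit 36) (nat_lit 5) (nat_lit 41) (nat_lit 5) (nat_lit 37) (nat_lit 5) (nat_lit 404) (nat_lit 362) (nat_lit 122)) (XT.lf (nat_lit 0) (nat_lit 33130858732) (nat_lit 420) (nat_lit 335321954) (nat_lit 84) (nat_lit 36793968631) (nat_lit 36) (nat_lit 5) (nat_lit 41) (nat_lit 5) (nat_lit 37) (nat_lit 5) (nat_lit 405) (nat_lit 362) (nat_lit 121)))) (XT.nd (nat_lit 188) (nat_lit 252) (nat_lit 0) (XT.nd (nat_lit 94) (nat_lit 0) (nat_lit 0) (XT.lf (nat_lit 0) (nat_lit 19890269571) (nat_lit 336) (nat_lit 18501200147) (nat_lit 420) (nat_lit 33446833304) (nat_lit 32) (nat_lit 5) (nat_lit 36) (nat_lit 5) (nat_lit 37) (nat_lit 5) (nat_lit 406) (nat_lit 362) (nat_lit 120)) (XT.lf (nat_lit 0) (nat_lit 40749229589) (nat_lit 336) (nat_lit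 3068794041) (nat_lit 420) (nat_lit 29647270905) (nat_lit 32) (nat_lit 5) (nat_lit 36) (nat_lit 5) (nat_lit 37) (nat_lit 5) (nat_lit 407) (nat_lit 362) (nat_lit 119))) (XT.nd (nat_lit 94) (nat_lit 252) (nat_lit 0) (XT.lf (nat_lit 0) (nat_lit 49539577209) (nat_lit 420) (nat_lit 13016033157) (nat_lit 84) (nat_lit 12583186062) (nat_lit 32) (nat_lit 5) (nat_lit 37) (nat_lit 5) (nat_lit 33) (nat_lit 5) (nat_lit 408) (nat_lit 362) (nat_lit 118)) (XT.lf (nat_lit 0) (nat_lit 7411935769) (nat_lit 252) (nat_lit 48130877722) (nat_lit 336) (nat_lit 21318133240) (nat_lit 29) (nat_lit 5) (nat_lit 32) (nat_lit 5) (nat_lit 33) (nat_lit 5) (nat_lit 409) (nat_lit 362) (nat_lit 117))))))) (XT.nd (nat_lit 1222) (nat_lit 0) (nat_lit 0) (XT.nd (nat_lit 564) (nat_lit 504) (nat_lit 0) (XT.nd (nat_lit 282) (nat_lit 336) (nat_lit 0) (XT.nd (nat_lit 94) (nat_lit 0) (nat_lit 0) (XT.lf (nat_lit 0) (nat_lit 28748400705)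 (nat_lit 252) (nat_lit 33119021799) (nat_lit 336) (nat_lit 16764871237) (nat_lit 29) (nat_lit 5) (nat_lit 32) (nat_lit 5) (nat_lit 33) (nat_lit 5) (nat_lit 410) (nat_lit 362) (nat_lit 116)) (XT.nd (nat_lit 94) (nat_lit 0) (nat_lit 0) (XT.lf (nat_lit 0) (nat_lit 50745613133) (nat_lit 252) (nat_lit 17641910667) (nat_lit 336) (nat_lit 12071049787) (nat_lit 29) (nat_lit 5) (nat_lit 32) (nat_lit 5) (nat_lit 33) (nat_lit 5) (nat_lit 411) (nat_lit 362) (nat_lit 115)) (XT.lf (nat_lit 0) (nat_lit 73424076760) (nat_lit 252) (nat_lit 1685118035) (nat_lit 336) (nat_lit 7232293755) (nat_lit 29) (nat_lit 5) (nat_lit 32) (nat_lit 5) (nat_lit 33) (nat_lit 5) (nat_lit 412) (nat_lit 362) (nat_lit 114)))) (XT.nd (nat_lit 94) (nat_lit 84) (nat_lit 0) (XT.lf (nat_lit 0) (nat_lit 12630122579) (nat_lit 252) (nat_lit 69680353417) (nat_lit 336) (nat_lit 1963892678) (nat_lit 26) (nat_lit 5) (nat_lit 29) (nat_lit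 5) (nat_lit 30) (nat_lit 5) (nat_lit 413) (nat_lit 362) (nat_lit 113)) (XT.nd (nat_lit 94) (nat_lit 0) (nat_lit 0) (XT.lf (nat_lit 0) (nat_lit 3508689475) (nat_lit 336) (nat_lit 51282864317) (nat_lit 84) (nat_lit 31471118230) (nat_lit 25) (nat_lit 5) (nat_lit 29) (nat_lit 5) (nat_lit 26) (nat_lit 5) (nat_lit 414) (nat_lit 362) (nat_lit 112)) (XT.lf (nat_lit 0) (nat_lit 9109606539) (nat_lit 336) (nat_lit 30311014191) (nat_lit 84) (nat_lit 48891388421) (nat_lit 25) (nat_lit 5) (nat_lit 29) (nat_lit 5) (nat_lit 26) (nat_lit 5) (nat_lit 415) (nat_lit 362) (nat_lit 111))))) (XT.nd (nat_lit 282) (nat_lit 252) (nat_lit 0) (XT.nd (nat_lit 94) (nat_lit 252) (nat_lit 0) (XT.lf (nat_lit 0) (nat_lit 14883647216) (nat_lit 336) (nat_lit 8689665698) (nat_lit 84) (nat_lit 66851581289) (nat_lit 25) (nat_lit 5) (nat_lit 29) (nat_lit 5) (nat_lit 26) (nat_lit 5) (nat_lit 416) (nat_lit 362) (nat_lit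 110)) (XT.nd (nat_lit 94) (nat_lit 0) (nat_lit 0) (XT.lf (nat_lit 0) (nat_lit 13881005856) (nat_lit 252) (nat_lit 7092888955) (nat_lit 336) (nat_lit 71625133053) (nat_lit 22) (nat_lit 5) (nat_lit 25) (nat_lit 5) (nat_lit 26) (nat_lit 5) (nat_lit 417) (nat_lit 362) (nat_lit 109)) (XT.lf (nat_lit 0) (nat_lit 27442281548) (nat_lit 336) (nat_lit 57601904868) (nat_lit 84) (nat_lit 9790506323) (nat_lit 22) (nat_lit 5) (nat_lit 26) (nat_lit 5) (nat_lit 23) (nat_lit 5) (nat_lit 418) (nat_lit 362) (nat_lit 108)))) (XT.nd (nat_lit 188) (nat_lit 252) (nat_lit 0) (XT.nd (nat_lit 94) (nat_lit 0) (nat_lit 0) (XT.lf (nat_lit 0) (nat_lit 34183264212) (nat_lit 336) (nat_lit 35904333255) (nat_lit 84) (nat_lit 27049833978) (nat_lit 22) (nat_lit 5) (nat_lit 26) (nat_lit 5) (nat_lit 23) (nat_lit 5) (nat_lit 419) (nat_lit 362) (nat_lit 107)) (XT.lf (nat_lit 0) (nat_lit 41132763770) (nat_lit 336) (nat_lit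 13534720426) (nat_lit 84) (nat_lit 44844087414) (nat_lit 22) (nat_lit 5) (nat_lit 26) (nat_lit 5) (nat_lit 23) (nat_lit 5) (nat_lit 420) (nat_lit 362) (nat_lit 106))) (XT.nd (nat_lit 94) (nat_lit 0) (nat_lit 0) (XT.lf (nat_lit 0) (nat_lit 9723695232) (nat_lit 252) (nat_lit 38670022910) (nat_lit 336) (nat_lit 53562617768) (nat_lit 19) (nat_lit 5) (nat_lit 22) (nat_lit 5) (nat_lit 23) (nat_lit 5) (nat_lit 421) (nat_lit 362) (nat_lit 105)) (XT.lf (nat_lit 0) (nat_lit 33989490510) (nat_lit 252) (nat_lit 22031114052) (nat_lit 336) (nat_lit 48451919575) (nat_lit 19) (nat_lit 5) (nat_lit 22) (nat_lit 5) (nat_lit 23) (nat_lit 5) (nat_lit 422) (nat_lit 362) (nat_lit 104)))))) (XT.nd (nat_lit 50384) (nat_lit 0) (nat_lit 5208) (XT.nd (nat_lit 50102) (nat_lit 0) (nat_lit 5208) (XT.nd (nat_lit 94) (nat_lit 0) (nat_lit 0) (XT.lf (nat_lit 0) (nat_lit 59006982057) (nat_lit 252) (nat_lit 4876523139)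 (nat_lit 336) (nat_lit 43183224278) (nat_lit 19) (nat_lit 5) (nat_lit 22) (nat_lit 5) (nat_lit 23) (nat_lit 5) (nat_lit 423) (nat_lit 362) (nat_lit 103)) (XT.nd (nat_lit 94) (nat_lit 0) (nat_lit 0) (XT.lf (nat_lit 0) (nat_lit 72116823297) (nat_lit 336) (nat_lit 25068955399) (nat_lit 84) (nat_lit 12551651997) (nat_lit 19) (nat_lit 5) (nat_lit 23) (nat_lit 5) (nat_lit 20) (nat_lit 5) (nat_lit 424) (nat_lit 362) (nat_lit 102)) (XT.lf (nat_lit 0) (nat_lit 80654854030) (nat_lit 336) (nat_lit 1415848599) (nat_lit 84) (nat_lit 30418689291) (nat_lit 19) (nat_lit 5) (nat_lit 23) (nat_lit 5) (nat_lit 20) (nat_lit 5) (nat_lit 425) (nat_lit 362) (nat_lit 101)))) (XT.nd (nat_lit 94) (nat_lit 0) (nat_lit 0) (XT.lf (nat_lit 0) (nat_lit 6682703871) (nat_lit 0) (nat_lit 6682703871) (nat_lit 924) (nat_lit 2788097634) (nat_lit 81) (nat_lit 5) (nat_lit 81) (nat_lit 3) (nat_lit 92) (nat_lit 3) (nat_lit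 363) (nat_lit 363) (nat_lit 162)) (XT.nd (nat_lit 94) (nat_lit 0) (nat_lit 0) (XT.lf (nat_lit 0) (nat_lit 24175066572) (nat_lit 0) (nat_lit 3018463296) (nat_lit 924) (nat_lit 5612386451) (nat_lit 81) (nat_lit 5) (nat_lit 81) (nat_lit 3) (nat_lit 92) (nat_lit 3) (nat_lit 364) (nat_lit 363) (nat_lit 161)) (XT.lf (nat_lit 84) (nat_lit 1962128789) (nat_lit 0) (nat_lit 25801865442) (nat_lit 1008) (nat_lit 5553412374) (nat_lit 82) (nat_lit 5) (nat_lit 81) (nat_lit 5) (nat_lit 93) (nat_lit 5) (nat_lit 365) (nat_lit 363) (nat_lit 160))))) (XT.nd (nat_lit 282) (nat_lit 0) (nat_lit 84) (XT.nd (nat_lit 94) (nat_lit 0) (nat_lit 0) (XT.lf (nat_lit 84) (nat_lit 13033904071) (nat_lit 0) (nat_lit 15436994354) (nat_lit 1008) (nat_lit 5370187049) (nat_lit 82) (nat_lit 5) (nat_lit 81) (nat_lit 5) (nat_lit 93) (nat_lit 5) (nat_lit 366) (nat_lit 363) (nat_lit 159)) (XT.nd (nat_lit 94) (nat_lit 0) (nat_lit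 84) (XT.lf (nat_lit 84) (nat_lit 24447887408) (nat_lit 0) (nat_lit 4749993967) (nat_lit 1008) (nat_lit 5183187290) (nat_lit 82) (nat_lit 5) (nat_lit 81) (nat_lit 5) (nat_lit 93) (nat_lit 5) (nat_lit 367) (nat_lit 363) (nat_lit 158)) (XT.lf (nat_lit 84) (nat_lit 1239644173) (nat_lit 0) (nat_lit 28780464178) (nat_lit 1008) (nat_lit 4915442035) (nat_lit 83) (nat_lit 5) (nat_lit 82) (nat_lit 5) (nat_lit 94) (nat_lit 5) (nat_lit 368) (nat_lit 363) (nat_lit 157)))) (XT.nd (nat_lit 188) (nat_lit 0) (nat_lit 84) (XT.nd (nat_lit 94) (nat_lit 0) (nat_lit 0) (XT.lf (nat_lit 84) (nat_lit 12918773539) (nat_lit 0) (nat_lit 18099092926) (nat_lit 1008) (nat_lit 4484715864) (nat_lit 83) (nat_lit 5) (nat_lit 82) (nat_lit 5) (nat_lit 94) (nat_lit 5) (nat_lit 369) (nat_lit 363) (nat_lit 156)) (XT.lf (nat_lit 84) (nat_lit 24958935854) (nat_lit 0) (nat_lit 7085941862) (nat_lit 1008) (nat_lit 4042378758)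 (nat_lit 83) (nat_lit 5) (nat_lit 82) (nat_lit 5) (nat_lit 94) (nat_lit 5) (nat_lit 370) (nat_lit 363) (nat_lit 155))) (XT.nd (nat_lit 94) (nat_lit 0) (nat_lit 0) (XT.lf (nat_lit 84) (nat_lit 652021253) (nat_lit 0) (nat_lit 32498897797) (nat_lit 1008) (nat_lit 3537685339) (nat_lit 84) (nat_lit 5) (nat_lit 83) (nat_lit 5) (nat_lit 95) (nat_lit 5) (nat_lit 371) (nat_lit 363) (nat_lit 154)) (XT.lf (nat_lit 84) (nat_lit 12958458289) (nat_lit 0) (nat_lit 21519102752) (nat_lit 1008) (nat_lit 2825268825) (nat_lit 84) (nat_lit 5) (nat_lit 83) (nat_lit 5) (nat_lit 95) (nat_lit 5) (nat_lit 372) (nat_lit 363) (nat_lit 153))))))))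
noncomputable def xc214 : XT := (XT.nd (nat_lit 2350) (nat_lit 2268) (nat_lit 0) (XT.nd (nat_lit 1128) (nat_lit 1680) (nat_lit 0) (XT.nd (nat_lit 564) (nat_lit 504) (nat_lit 0) (XT.nd (nat_lit 282) (nat_lit 924) (nat_lit 0) (XT.nd (nat_lit 94) (nat_lit 0) (nat_lit 84) (XT.lf (nat_lit 84) (nat_lit 25645379078) (nat_lit 0) (nat_lit 10198415166) (nat_lit 1008) (nat_lit 2092360810) (nat_lit 84) (nat_lit 5) (nat_lit 83) (nat_lit 5) (nat_lit 95) (nat_lit 5) (nat_lit 373) (nat_lit 363) (nat_lit 152)) (XT.nd (nat_lit 94) (nat_lit 0) (nat_lit 0) (XT.lf (nat_lit 84) (nat_lit 123303718) (nat_lit 0) (nat_lit 37143431057) (nat_lit 1008) (nat_lit 1321944382) (nat_lit 85) (nat_lit 5) (nat_lit 84) (nat_lit 5) (nat_lit 96) (nat_lit 5) (nat_lit 374) (nat_lit 363) (nat_lit 151)) (XT.lf (nat_lit 84) (nat_lit 13075290740) (nat_lit 0) (nat_lit 25888586782) (nat_lit 1008) (nat_lit 290431647) (nat_lit 85)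 (nat_lit 5) (nat_lit 84) (nat_lit 5) (nat_lit 96) (nat_lit 5) (nat_lit 375) (nat_lit 363) (nat_lit 150)))) (XT.nd (nat_lit 94) (nat_lit 0) (nat_lit 0) (XT.lf (nat_lit 0) (nat_lit 756052591) (nat_lit 1008) (nat_lit 13520497881) (nat_lit 1092) (nat_lit 25663839700) (nat_lit 72) (nat_lit 5) (nat_lit 84) (nat_lit 5) (nat_lit 85) (nat_lit 5) (nat_lit 376) (nat_lit 363) (nat_lit 149)) (XT.nd (nat_lit 94) (nat_lit 0) (nat_lit 84) (XT.lf (nat_lit 0) (nat_lit 1827557895) (nat_lit 1008) (nat_lit 473546915) (nat_lit 1092) (nat_lit 38346595358) (nat_lit 72) (nat_lit 5) (nat_lit 84) (nat_lit 5) (nat_lit 85) (nat_lit 5) (nat_lit 377) (nat_lit 363) (nat_lit 148)) (XT.lf (nat_lit 0) (nat_lit 3163314481) (nat_lit 1008) (nat_lit 28230207780) (nat_lit 1092) (nat_lit 9976261718) (nat_lit 73) (nat_lit 5) (nat_lit 85) (nat_lit 5) (nat_lit 86) (nat_lit 5) (nat_lit 378) (nat_lit 363) (nat_lit 147))))) (XT.nd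 (nat_lit 282) (nat_lit 588) (nat_lit 0) (XT.nd (nat_lit 94) (nat_lit 0) (nat_lit 0) (XT.lf (nat_lit 0) (nat_lit 4567696718) (nat_lit 1008) (nat_lit 14953965535) (nat_lit 1092) (nat_lit 22591755404) (nat_lit 73) (nat_lit 5) (nat_lit 85) (nat_lit 5) (nat_lit 86) (nat_lit 5) (nat_lit 379) (nat_lit 363) (nat_lit 146)) (XT.nd (nat_lit 94) (nat_lit 0) (nat_lit 84) (XT.lf (nat_lit 0) (nat_lit 6014343121) (nat_lit 1008) (nat_lit 1267154938) (nat_lit 1092) (nat_lit 35598654073) (nat_lit 73) (nat_lit 5) (nat_lit 85) (nat_lit 5) (nat_lit 86) (nat_lit 5) (nat_lit 380) (nat_lit 363) (nat_lit 145)) (XT.lf (nat_lit 0) (nat_lit 7688912991) (nat_lit 1008) (nat_lit 30613898976) (nat_lit 84) (nat_lit 5362176476) (nat_lit 74) (nat_lit 5) (nat_lit 86) (nat_lit 5) (nat_lit 75) (nat_lit 5) (nat_lit 381) (nat_lit 363) (nat_lit 144)))) (XT.nd (nat_lit 94) (nat_lit 672) (nat_lit 0) (XT.lf (nat_lit 0) (nat_lit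 9502025543) (nat_lit 1008) (nat_lit 16709293605) (nat_lit 84) (nat_lit 18260158183) (nat_lit 74) (nat_lit 5) (nat_lit 86) (nat_lit 5) (nat_lit 75) (nat_lit 5) (nat_lit 382) (nat_lit 363) (nat_lit 143)) (XT.nd (nat_lit 94) (nat_lit 672) (nat_lit 0) (XT.lf (nat_lit 0) (nat_lit 11370177413) (nat_lit 1008) (nat_lit 2374618833) (nat_lit 84) (nat_lit 31558215276) (nat_lit 74) (nat_lit 5) (nat_lit 86) (nat_lit 5) (nat_lit 75) (nat_lit 5) (nat_lit 383) (nat_lit 363) (nat_lit 142)) (XT.lf (nat_lit 0) (nat_lit 12658527881) (nat_lit 672) (nat_lit 762156196) (nat_lit 756) (nat_lit 32735789220) (nat_lit 66) (nat_lit 5) (nat_lit 74) (nat_lit 5) (nat_lit 75) (nat_lit 5) (nat_lit 384) (nat_lit 363) (nat_lit 141)))))) (XT.nd (nat_lit 564) (nat_lit 756) (nat_lit 0) (XT.nd (nat_lit 282) (nat_lit 420) (nat_lit 0) (XT.nd (nat_lit 94) (nat_lit 504) (nat_lit 0) (XT.lf (nat_lit 0) (nat_lit 15683911692)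 (nat_lit 756) (nat_lit 18954033965) (nat_lit 84) (nat_lit 12393830412) (nat_lit 66) (nat_lit 5) (nat_lit 75) (nat_lit 5) (nat_lit 67) (nat_lit 5) (nat_lit 385) (nat_lit 363) (nat_lit 140)) (XT.nd (nat_lit 94) (nat_lit 504) (nat_lit 0) (XT.lf (nat_lit 0) (nat_lit 18024022075) (nat_lit 756) (nat_lit 3968004991) (nat_lit 84) (nat_lit 25941985024) (nat_lit 66) (nat_lit 5) (nat_lit 75) (nat_lit 5) (nat_lit 67) (nat_lit 5) (nat_lit 386) (nat_lit 363) (nat_lit 139)) (XT.lf (nat_lit 0) (nat_lit 11717757434) (nat_lit 504) (nat_lit 8834119941) (nat_lit 588) (nat_lit 28308775857) (nat_lit 60) (nat_lit 5) (nat_lit 66) (nat_lit 5) (nat_lit 67) (nat_lit 5) (nat_lit 387) (nat_lit 363) (nat_lit 138)))) (XT.nd (nat_lit 94) (nat_lit 420) (nat_lit 0) (XT.lf (nat_lit 0) (nat_lit 23245859698) (nat_lit 588) (nat_lit 21889150945) (nat_lit 84) (nat_lit 4678295777) (nat_lit 60) (nat_lit 5) (nat_lit 67) (nat_lit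 5) (nat_lit 61) (nat_lit 5) (nat_lit 388) (nat_lit 363) (nat_lit 137)) (XT.nd (nat_lit 94) (nat_lit 420) (nat_lit 0) (XT.lf (nat_lit 0) (nat_lit 26112721503) (nat_lit 588) (nat_lit 6253813976) (nat_lit 84) (nat_lit 18426192664) (nat_lit 60) (nat_lit 5) (nat_lit 67) (nat_lit 5) (nat_lit 61) (nat_lit 5) (nat_lit 389) (nat_lit 363) (nat_lit 136)) (XT.lf (nat_lit 0) (nat_lit 10068175745) (nat_lit 420) (nat_lit 19099201246) (nat_lit 504) (nat_lit 22632074831) (nat_lit 55) (nat_lit 5) (nat_lit 60) (nat_lit 5) (nat_lit 61) (nat_lit 5) (nat_lit 390) (nat_lit 363) (nat_lit 135))))) (XT.nd (nat_lit 282) (nat_lit 336) (nat_lit 0) (XT.nd (nat_lit 94) (nat_lit 420) (nat_lit 0) (XT.lf (nat_lit 0) (nat_lit 27027839775) (nat_lit 420) (nat_lit 5353227420) (nat_lit 504) (nat_lit 20454328429) (nat_lit 55) (nat_lit 5) (nat_lit 60) (nat_lit 5) (nat_lit 61) (nat_lit 5) (nat_lit 391) (nat_lit 363) (nat_lit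 134)) (XT.nd (nat_lit 94) (nat_lit 420) (nat_lit 0) (XT.lf (nat_lit 0) (nat_lit 35780958154) (nat_lit 504) (nat_lit 9478577639) (nat_lit 84) (nat_lit 8641240075) (nat_lit 55) (nat_lit 5) (nat_lit 61) (nat_lit 5) (nat_lit 56) (nat_lit 5) (nat_lit 392) (nat_lit 363) (nat_lit 133)) (XT.lf (nat_lit 0) (nat_lit 7451104935) (nat_lit 420) (nat_lit 31962926966) (nat_lit 504) (nat_lit 15581195500) (nat_lit 50) (nat_lit 5) (nat_lit 55) (nat_lit 5) (nat_lit 56) (nat_lit 5) (nat_lit 393) (nat_lit 363) (nat_lit 132)))) (XT.nd (nat_lit 188) (nat_lit 336) (nat_lit 0) (XT.nd (nat_lit 94) (nat_lit 0) (nat_lit 0) (XT.lf (nat_lit 0) (nat_lit 25105691109) (nat_lit 420) (nat_lit 18152114068) (nat_lit 504) (nat_lit 12862767144) (nat_lit 50) (nat_lit 5) (nat_lit 55) (nat_lit 5) (nat_lit 56) (nat_lit 5) (nat_lit 394) (nat_lit 363) (nat_lit 131)) (XT.lf (nat_lit 0) (nat_lit 43306737810) (nat_lit 420) (nat_lit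 3913160888) (nat_lit 504) (nat_lit 10060935697) (nat_lit 50) (nat_lit 5) (nat_lit 55) (nat_lit 5) (nat_lit 56) (nat_lit 5) (nat_lit 395) (nat_lit 363) (nat_lit 130))) (XT.nd (nat_lit 94) (nat_lit 0) (nat_lit 0) (XT.lf (nat_lit 0) (nat_lit 3559009311) (nat_lit 336) (nat_lit 47887114056) (nat_lit 420) (nat_lit 7026566091) (nat_lit 46) (nat_lit 5) (nat_lit 50) (nat_lit 5) (nat_lit 51) (nat_lit 5) (nat_lit 396) (nat_lit 363) (nat_lit 129)) (XT.lf (nat_lit 0) (nat_lit 21890210894) (nat_lit 336) (nat_lit 34097832913) (nat_lit 420) (nat_lit 3707728248) (nat_lit 46) (nat_lit 5) (nat_lit 50) (nat_lit 5) (nat_lit 51) (nat_lit 5) (nat_lit 397) (nat_lit 363) (nat_lit 128))))))) (XT.nd (nat_lit 1222) (nat_lit 840) (nat_lit 0) (XT.nd (nat_lit 564) (nat_lit 588) (nat_lit 0) (XT.nd (nat_lit 282) (nat_lit 336) (nat_lit 0) (XT.nd (nat_lit 94) (nat_lit 504) (nat_lit 0) (XT.lf (nat_lit 0) (nat_lit 40788875918)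 (nat_lit 336) (nat_lit 19881116438) (nat_lit 420) (nat_lit 286806811) (nat_lit 46) (nat_lit 5) (nat_lit 50) (nat_lit 5) (nat_lit 51) (nat_lit 5) (nat_lit 398) (nat_lit 363) (nat_lit 127)) (XT.nd (nat_lit 94) (nat_lit 420) (nat_lit 0) (XT.lf (nat_lit 0) (nat_lit 3174120449) (nat_lit 420) (nat_lit 2016461404) (nat_lit 84) (nat_lit 57065368161) (nat_lit 45) (nat_lit 5) (nat_lit 50) (nat_lit 5) (nat_lit 46) (nat_lit 5) (nat_lit 399) (nat_lit 363) (nat_lit 126)) (XT.lf (nat_lit 0) (nat_lit 7005169232) (nat_lit 504) (nat_lit 46653339292) (nat_lit 84) (nat_lit 9928447173) (nat_lit 40) (nat_lit 5) (nat_lit 46) (nat_lit 5) (nat_lit 41) (nat_lit 5) (nat_lit 400) (nat_lit 363) (nat_lit 125)))) (XT.nd (nat_lit 94) (nat_lit 336) (nat_lit 0) (XT.lf (nat_lit 0) (nat_lit 11028607278) (nat_lit 504) (nat_lit 28498772785) (nat_lit 84) (nat_lit 25429564525) (nat_lit 40) (nat_lit 5) (nat_lit 46) (nat_lit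 5) (nat_lit 41) (nat_lit 5) (nat_lit 401) (nat_lit 363) (nat_lit 124)) (XT.nd (nat_lit 94) (nat_lit 336) (nat_lit 0) (XT.lf (nat_lit 0) (nat_lit 15176069981) (nat_lit 504) (nat_lit 9782185372) (nat_lit 84) (nat_lit 41411173866) (nat_lit 40) (nat_lit 5) (nat_lit 46) (nat_lit 5) (nat_lit 41) (nat_lit 5) (nat_lit 402) (nat_lit 363) (nat_lit 123)) (XT.lf (nat_lit 0) (nat_lit 9709493420) (nat_lit 336) (nat_lit 9838249167) (nat_lit 420) (nat_lit 48274997687) (nat_lit 36) (nat_lit 5) (nat_lit 40) (nat_lit 5) (nat_lit 41) (nat_lit 5) (nat_lit 403) (nat_lit 363) (nat_lit 122))))) (XT.nd (nat_lit 282) (nat_lit 588) (nat_lit 0) (XT.nd (nat_lit 94) (nat_lit 0) (nat_lit 0) (XT.lf (nat_lit 0) (nat_lit 24214464345) (nat_lit 420) (nat_lit 39364000961) (nat_lit 84) (nat_lit 5737697391) (nat_lit 36) (nat_lit 5) (nat_lit 41) (nat_lit 5) (nat_lit 37) (nat_lit 5) (nat_lit 404) (nat_lit 363) (nat_lit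 121)) (XT.nd (nat_lit 94) (nat_lit 0) (nat_lit 0) (XT.lf (nat_lit 0) (nat_lit 29125828316) (nat_lit 420) (nat_lit 20134891587) (nat_lit 84) (nat_lit 21592066068) (nat_lit 36) (nat_lit 5) (nat_lit 41) (nat_lit 5) (nat_lit 37) (nat_lit 5) (nat_lit 405) (nat_lit 363) (nat_lit 120)) (XT.lf (nat_lit 0) (nat_lit 34188815759) (nat_lit 420) (nat_lit 310398540) (nat_lit 84) (nat_lit 37937853592) (nat_lit 36) (nat_lit 5) (nat_lit 41) (nat_lit 5) (nat_lit 37) (nat_lit 5) (nat_lit 406) (nat_lit 363) (nat_lit 119)))) (XT.nd (nat_lit 188) (nat_lit 252) (nat_lit 0) (XT.nd (nat_lit 94) (nat_lit 0) (nat_lit 0) (XT.lf (nat_lit 0) (nat_lit 20541828756) (nat_lit 336) (nat_lit 19070094635) (nat_lit 420) (nat_lit 34452244676) (nat_lit 32) (nat_lit 5) (nat_lit 36) (nat_lit 5) (nat_lit 37) (nat_lit 5) (nat_lit 407) (nat_lit 363) (nat_lit 118)) (XT.lf (nat_lit 0) (nat_lit 42046365336) (nat_lit 336) (nat_lit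 3159423537) (nat_lit 420) (nat_lit 30535841192) (nat_lit 32) (nat_lit 5) (nat_lit 36) (nat_lit 5) (nat_lit 37) (nat_lit 5) (nat_lit 408) (nat_lit 363) (nat_lit 117))) (XT.nd (nat_lit 94) (nat_lit 252) (nat_lit 0) (XT.lf (nat_lit 0) (nat_lit 51103869748) (nat_lit 420) (nat_lit 13385627605) (nat_lit 84) (nat_lit 12977544551) (nat_lit 32) (nat_lit 5) (nat_lit 37) (nat_lit 5) (nat_lit 33) (nat_lit 5) (nat_lit 409) (nat_lit 363) (nat_lit 116)) (XT.lf (nat_lit 0) (nat_lit 7675265125) (nat_lit 252) (nat_lit 49617415235) (nat_lit 336) (nat_lit 21949919975) (nat_lit 29) (nat_lit 5) (nat_lit 32) (nat_lit 5) (nat_lit 33) (nat_lit 5) (nat_lit 410) (nat_lit 363) (nat_lit 115)))))) (XT.nd (nat_lit 564) (nat_lit 504) (nat_lit 0) (XT.nd (nat_lit 282) (nat_lit 336) (nat_lit 0) (XT.nd (nat_lit 94) (nat_lit 0) (nat_lit 0) (XT.lf (nat_lit 0) (nat_lit 29672151414) (nat_lit 252) (nat_lit 34140357744)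 (nat_lit 336) (nat_lit 17256381086) (nat_lit 29) (nat_lit 5) (nat_lit 32) (nat_lit 5) (nat_lit 33) (nat_lit 5) (nat_lit 411) (nat_lit 363) (nat_lit 114)) (XT.nd (nat_lit 94) (nat_lit 0) (nat_lit 0) (XT.lf (nat_lit 0) (nat_lit 52350298709) (nat_lit 252) (nat_lit 18183617142) (nat_lit 336) (nat_lit 12417899120) (nat_lit 29) (nat_lit 5) (nat_lit 32) (nat_lit 5) (nat_lit 33) (nat_lit 5) (nat_lit 412) (nat_lit 363) (nat_lit 113)) (XT.lf (nat_lit 0) (nat_lit 75730845418) (nat_lit 252) (nat_lit 1732320075) (nat_lit 336) (nat_lit 7429964105) (nat_lit 29) (nat_lit 5) (nat_lit 32) (nat_lit 5) (nat_lit 33) (nat_lit 5) (nat_lit 413) (nat_lit 363) (nat_lit 112)))) (XT.nd (nat_lit 94) (nat_lit 84) (nat_lit 0) (XT.lf (nat_lit 0) (nat_lit 13052854706) (nat_lit 252) (nat_lit 71834420351) (nat_lit 336) (nat_lit 1998671269) (nat_lit 26) (nat_lit 5) (nat_lit 29) (nat_lit 5) (nat_lit 30) (nat_lit 5)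 (nat_lit 414) (nat_lit 363) (nat_lit 111)) (XT.nd (nat_lit 94) (nat_lit 0) (nat_lit 0) (XT.lf (nat_lit 0) (nat_lit 3642266010) (nat_lit 336) (nat_lit 52841724121) (nat_lit 84) (nat_lit 32451917058) (nat_lit 25) (nat_lit 5) (nat_lit 29) (nat_lit 5) (nat_lit 26) (nat_lit 5) (nat_lit 415) (nat_lit 363) (nat_lit 110)) (XT.lf (nat_lit 0) (nat_lit 9416065604) (nat_lit 336) (nat_lit 31220676010) (nat_lit 84) (nat_lit 50412059447) (nat_lit 25) (nat_lit 5) (nat_lit 29) (nat_lit 5) (nat_lit 26) (nat_lit 5) (nat_lit 416) (nat_lit 363) (nat_lit 109))))) (XT.nd (nat_lit 282) (nat_lit 252) (nat_lit 0) (XT.nd (nat_lit 94) (nat_lit 252) (nat_lit 0) (XT.lf (nat_lit 0) (nat_lit 15368378070) (nat_lit 336) (nat_lit 8929967137) (nat_lit 84) (nat_lit 68928866811) (nat_lit 25) (nat_lit 5) (nat_lit 29) (nat_lit 5) (nat_lit 26) (nat_lit 5) (nat_lit 417) (nat_lit 363) (nat_lit 108)) (XT.nd (nat_lit 94) (nat_lit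 0) (nat_lit 0) (XT.lf (nat_lit 0) (nat_lit 14340100845) (nat_lit 252) (nat_lit 7306906317) (nat_lit 336) (nat_lit 73821753486) (nat_lit 22) (nat_lit 5) (nat_lit 25) (nat_lit 5) (nat_lit 26) (nat_lit 5) (nat_lit 418) (nat_lit 363) (nat_lit 107)) (XT.lf (nat_lit 0) (nat_lit 28315281088) (nat_lit 336) (nat_lit 59358890074) (nat_lit 84) (nat_lit 10099583392) (nat_lit 22) (nat_lit 5) (nat_lit 26) (nat_lit 5) (nat_lit 23) (nat_lit 5) (nat_lit 419) (nat_lit 363) (nat_lit 106)))) (XT.nd (nat_lit 188) (nat_lit 252) (nat_lit 0) (XT.nd (nat_lit 94) (nat_lit 0) (nat_lit 0) (XT.lf (nat_lit 0) (nat_lit 35264564037) (nat_lit 336) (nat_lit 36989555904) (nat_lit 84) (nat_lit 27893782684) (nat_lit 22) (nat_lit 5) (nat_lit 26) (nat_lit 5) (nat_lit 23) (nat_lit 5) (nat_lit 420) (nat_lit 363) (nat_lit 105)) (XT.lf (nat_lit 0) (nat_lit 42428848054) (nat_lit 336) (nat_lit 13927321315) (nat_lit 84) (nat_lit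 46239495495) (nat_lit 22) (nat_lit 5) (nat_lit 26) (nat_lit 5) (nat_lit 23) (nat_lit 5) (nat_lit 421) (nat_lit 363) (nat_lit 104))) (XT.nd (nat_lit 94) (nat_lit 0) (nat_lit 0) (XT.lf (nat_lit 0) (nat_lit 10051832126) (nat_lit 252) (nat_lit 39862694294) (nat_lit 336) (nat_lit 55201705242) (nat_lit 19) (nat_lit 5) (nat_lit 22) (nat_lit 5) (nat_lit 23) (nat_lit 5) (nat_lit 422) (nat_lit 363) (nat_lit 103)) (XT.lf (nat_lit 0) (nat_lit 35069064173) (nat_lit 252) (nat_lit 22708162656) (nat_lit 336) (nat_lit 49933217465) (nat_lit 19) (nat_lit 5) (nat_lit 22) (nat_lit 5) (nat_lit 23) (nat_lit 5) (nat_lit 423) (nat_lit 363) (nat_lit 102))))))))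
noncomputable def xc215 : XT := (XT.nd (nat_lit 52264) (nat_lit 0) (nat_lit 840) (XT.nd (nat_lit 51042) (nat_lit 0) (nat_lit 3948) (XT.nd (nat_lit 50384) (nat_lit 0) (nat_lit 5208) (XT.nd (nat_lit 50102) (nat_lit 0) (nat_lit 5208) (XT.nd (nat_lit 94) (nat_lit 0) (nat_lit 0) (XT.lf (nat_lit 0) (nat_lit 60861319217) (nat_lit 252) (nat_lit 5021957304) (nat_lit 336) (nat_lit 44501815369) (nat_lit 19) (nat_lit 5) (nat_lit 22) (nat_lit 5) (nat_lit 23) (nat_lit 5) (nat_lit 424) (nat_lit 363) (nat_lit 101)) (XT.nd (nat_lit 94) (nat_lit 0) (nat_lit 0) (XT.lf (nat_lit 0) (nat_lit 74371299897) (nat_lit 336) (nat_lit 25821097874) (nat_lit 84) (nat_lit 12946206597) (nat_lit 19) (nat_lit 5) (nat_lit 23) (nat_lit 5) (nat_lit 20) (nat_lit 5) (nat_lit 425) (nat_lit 363) (nat_lit 100)) (XT.lf (nat_lit 0) (nat_lit 83173442651) (nat_lit 336) (nat_lit 1435496315) (nat_lit 84) (nat_lit 31366958076) (nat_lit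 19) (nat_lit 5) (nat_lit 23) (nat_lit 5) (nat_lit 20) (nat_lit 5) (nat_lit 426) (nat_lit 363) (nat_lit 99)))) (XT.nd (nat_lit 94) (nat_lit 0) (nat_lit 0) (XT.lf (nat_lit 0) (nat_lit 6913821061) (nat_lit 0) (nat_lit 6913821061) (nat_lit 924) (nat_lit 2824787202) (nat_lit 81) (nat_lit 5) (nat_lit 81) (nat_lit 3) (nat_lit 92) (nat_lit 3) (nat_lit 364) (nat_lit 364) (nat_lit 160)) (XT.nd (nat_lit 94) (nat_lit 0) (nat_lit 0) (XT.lf (nat_lit 0) (nat_lit 24970959922) (nat_lit 0) (nat_lit 3158501945) (nat_lit 924) (nat_lit 5689878755) (nat_lit 81) (nat_lit 5) (nat_lit 81) (nat_lit 3) (nat_lit 92) (nat_lit 3) (nat_lit 365) (nat_lit 364) (nat_lit 159)) (XT.lf (nat_lit 84) (nat_lit 2072929994) (nat_lit 0) (nat_lit 26641935014) (nat_lit 1008) (nat_lit 5631927605) (nat_lit 82) (nat_lit 5) (nat_lit 81) (nat_lit 5) (nat_lit 93) (nat_lit 5) (nat_lit 366) (nat_lit 364) (nat_lit 158))))) (XT.nd (nat_lit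 282) (nat_lit 0) (nat_lit 84) (XT.nd (nat_lit 94) (nat_lit 0) (nat_lit 0) (XT.lf (nat_lit 84) (nat_lit 13486427660) (nat_lit 0) (nat_lit 15954543839) (nat_lit 1008) (nat_lit 5445837869) (nat_lit 82) (nat_lit 5) (nat_lit 81) (nat_lit 5) (nat_lit 93) (nat_lit 5) (nat_lit 367) (nat_lit 364) (nat_lit 157)) (XT.nd (nat_lit 94) (nat_lit 0) (nat_lit 84) (XT.lf (nat_lit 84) (nat_lit 25252787013) (nat_lit 0) (nat_lit 4935073713) (nat_lit 1008) (nat_lit 5255772034) (nat_lit 82) (nat_lit 5) (nat_lit 81) (nat_lit 5) (nat_lit 93) (nat_lit 5) (nat_lit 368) (nat_lit 364) (nat_lit 156)) (XT.lf (nat_lit 84) (nat_lit 1328199872) (nat_lit 0) (nat_lit 29704959024) (nat_lit 1008) (nat_lit 4982238078) (nat_lit 83) (nat_lit 5) (nat_lit 82) (nat_lit 5) (nat_lit 94) (nat_lit 5) (nat_lit 369) (nat_lit 364) (nat_lit 155)))) (XT.nd (nat_lit 188) (nat_lit 0) (nat_lit 84) (XT.nd (nat_lit 94) (nat_lit 0) (nat_lit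 0) (XT.lf (nat_lit 84) (nat_lit 13367875042) (nat_lit 0) (nat_lit 18691494056) (nat_lit 1008) (nat_lit 4540732686) (nat_lit 83) (nat_lit 5) (nat_lit 82) (nat_lit 5) (nat_lit 94) (nat_lit 5) (nat_lit 370) (nat_lit 364) (nat_lit 154)) (XT.lf (nat_lit 84) (nat_lit 25779820502) (nat_lit 0) (nat_lit 7335993305) (nat_lit 1008) (nat_lit 4087179046) (nat_lit 83) (nat_lit 5) (nat_lit 82) (nat_lit 5) (nat_lit 94) (nat_lit 5) (nat_lit 371) (nat_lit 364) (nat_lit 153))) (XT.nd (nat_lit 94) (nat_lit 0) (nat_lit 0) (XT.lf (nat_lit 84) (nat_lit 722151030) (nat_lit 0) (nat_lit 33531862584) (nat_lit 1008) (nat_lit 3569051912) (nat_lit 84) (nat_lit 5) (nat_lit 83) (nat_lit 5) (nat_lit 95) (nat_lit 5) (nat_lit 372) (nat_lit 364) (nat_lit 152)) (XT.lf (nat_lit 84) (nat_lit 13408586712) (nat_lit 0) (nat_lit 22210927193) (nat_lit 1008) (nat_lit 2836904853) (nat_lit 84) (nat_lit 5) (nat_lit 83) (nat_lit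 5) (nat_lit 95) (nat_lit 5) (nat_lit 373) (nat_lit 364) (nat_lit 151)))))) (XT.nd (nat_lit 564) (nat_lit 504) (nat_lit 0) (XT.nd (nat_lit 282) (nat_lit 924) (nat_lit 0) (XT.nd (nat_lit 94) (nat_lit 0) (nat_lit 84) (XT.lf (nat_lit 84) (nat_lit 26487346271) (nat_lit 0) (nat_lit 10538554645) (nat_lit 1008) (nat_lit 2083560265) (nat_lit 84) (nat_lit 5) (nat_lit 83) (nat_lit 5) (nat_lit 95) (nat_lit 5) (nat_lit 374) (nat_lit 364) (nat_lit 150)) (XT.nd (nat_lit 94) (nat_lit 0) (nat_lit 0) (XT.lf (nat_lit 84) (nat_lit 176533900) (nat_lit 0) (nat_lit 38314544732) (nat_lit 1008) (nat_lit 1291208486) (nat_lit 85) (nat_lit 5) (nat_lit 84) (nat_lit 5) (nat_lit 96) (nat_lit 5) (nat_lit 375) (nat_lit 364) (nat_lit 149)) (XT.lf (nat_lit 84) (nat_lit 13528546932) (nat_lit 0) (nat_lit 26710208929) (nat_lit 1008) (nat_lit 229875211) (nat_lit 85) (nat_lit 5) (nat_lit 84) (nat_lit 5) (nat_lit 96) (nat_lit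 5) (nat_lit 376) (nat_lit 364) (nat_lit 148)))) (XT.nd (nat_lit 94) (nat_lit 0) (nat_lit 0) (XT.lf (nat_lit 0) (nat_lit 845599185) (nat_lit 1008) (nat_lit 13891336693) (nat_lit 1092) (nat_lit 26439100984) (nat_lit 72) (nat_lit 5) (nat_lit 84) (nat_lit 5) (nat_lit 85) (nat_lit 5) (nat_lit 377) (nat_lit 364) (nat_lit 147)) (XT.nd (nat_lit 94) (nat_lit 0) (nat_lit 84) (XT.lf (nat_lit 0) (nat_lit 1948333396) (nat_lit 1008) (nat_lit 441382424) (nat_lit 1092) (nat_lit 39515632979) (nat_lit 72) (nat_lit 5) (nat_lit 84) (nat_lit 5) (nat_lit 85) (nat_lit 5) (nat_lit 378) (nat_lit 364) (nat_lit 146)) (XT.lf (nat_lit 0) (nat_lit 3323868916) (nat_lit 1008) (nat_lit 29056441239) (nat_lit 1092) (nat_lit 10269570870) (nat_lit 73) (nat_lit 5) (nat_lit 85) (nat_lit 5) (nat_lit 86) (nat_lit 5) (nat_lit 379) (nat_lit 364) (nat_lit 145))))) (XT.nd (nat_lit 282) (nat_lit 588) (nat_lit 0) (XT.nd (nat_lit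 94) (nat_lit 0) (nat_lit 0) (XT.lf (nat_lit 0) (nat_lit 4769908009) (nat_lit 1008) (nat_lit 15370105894) (nat_lit 1092) (nat_lit 23276624593) (nat_lit 73) (nat_lit 5) (nat_lit 85) (nat_lit 5) (nat_lit 86) (nat_lit 5) (nat_lit 380) (nat_lit 364) (nat_lit 144)) (XT.nd (nat_lit 94) (nat_lit 0) (nat_lit 84) (XT.lf (nat_lit 0) (nat_lit 6259577954) (nat_lit 1008) (nat_lit 1260430366) (nat_lit 1092) (nat_lit 36687202427) (nat_lit 73) (nat_lit 5) (nat_lit 85) (nat_lit 5) (nat_lit 86) (nat_lit 5) (nat_lit 381) (nat_lit 364) (nat_lit 143)) (XT.lf (nat_lit 0) (nat_lit 7984625177) (nat_lit 1008) (nat_lit 31515097688) (nat_lit 84) (nat_lit 5516710718) (nat_lit 74) (nat_lit 5) (nat_lit 86) (nat_lit 5) (nat_lit 75) (nat_lit 5) (nat_lit 382) (nat_lit 364) (nat_lit 142)))) (XT.nd (nat_lit 188) (nat_lit 672) (nat_lit 0) (XT.nd (nat_lit 94) (nat_lit 0) (nat_lit 0) (XT.lf (nat_lit 0) (nat_lit 9852219648)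 (nat_lit 1008) (nat_lit 17180887762) (nat_lit 84) (nat_lit 18814881449) (nat_lit 74) (nat_lit 5) (nat_lit 86) (nat_lit 5) (nat_lit 75) (nat_lit 5) (nat_lit 383) (nat_lit 364) (nat_lit 141)) (XT.lf (nat_lit 0) (nat_lit 11776611509) (nat_lit 1008) (nat_lit 2403233041) (nat_lit 84) (nat_lit 32525519332) (nat_lit 74) (nat_lit 5) (nat_lit 86) (nat_lit 5) (nat_lit 75) (nat_lit 5) (nat_lit 384) (nat_lit 364) (nat_lit 140))) (XT.nd (nat_lit 94) (nat_lit 0) (nat_lit 0) (XT.lf (nat_lit 0) (nat_lit 13095485648) (nat_lit 672) (nat_lit 794017687) (nat_lit 756) (nat_lit 33695827307) (nat_lit 66) (nat_lit 5) (nat_lit 74) (nat_lit 5) (nat_lit 75) (nat_lit 5) (nat_lit 385) (nat_lit 364) (nat_lit 139)) (XT.lf (nat_lit 0) (nat_lit 16221224848) (nat_lit 756) (nat_lit 19496392316) (nat_lit 84) (nat_lit 12770213025) (nat_lit 66) (nat_lit 5) (nat_lit 75) (nat_lit 5) (nat_lit 67) (nat_lit 5) (nat_lit 386)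 (nat_lit 364) (nat_lit 138))))))) (XT.nd (nat_lit 1222) (nat_lit 1428) (nat_lit 0) (XT.nd (nat_lit 564) (nat_lit 756) (nat_lit 0) (XT.nd (nat_lit 282) (nat_lit 420) (nat_lit 0) (XT.nd (nat_lit 94) (nat_lit 504) (nat_lit 0) (XT.lf (nat_lit 0) (nat_lit 18632341826) (nat_lit 756) (nat_lit 4047156016) (nat_lit 84) (nat_lit 26738595746) (nat_lit 66) (nat_lit 5) (nat_lit 75) (nat_lit 5) (nat_lit 67) (nat_lit 5) (nat_lit 387) (nat_lit 364) (nat_lit 137)) (XT.nd (nat_lit 94) (nat_lit 0) (nat_lit 0) (XT.lf (nat_lit 0) (nat_lit 12124421031) (nat_lit 504) (nat_lit 9113079655) (nat_lit 588) (nat_lit 29136002882) (nat_lit 60) (nat_lit 5) (nat_lit 66) (nat_lit 5) (nat_lit 67) (nat_lit 5) (nat_lit 388) (nat_lit 364) (nat_lit 136)) (XT.lf (nat_lit 0) (nat_lit 24013488623) (nat_lit 588) (nat_lit 22523782866) (nat_lit 84) (nat_lit 4818474060) (nat_lit 60) (nat_lit 5) (nat_lit 67) (nat_lit 5) (nat_lit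 61) (nat_lit 5) (nat_lit 389) (nat_lit 364) (nat_lit 135)))) (XT.nd (nat_lit 94) (nat_lit 420) (nat_lit 0) (XT.lf (nat_lit 0) (nat_lit 26967809734) (nat_lit 588) (nat_lit 6405071387) (nat_lit 84) (nat_lit 18992701546) (nat_lit 60) (nat_lit 5) (nat_lit 67) (nat_lit 5) (nat_lit 61) (nat_lit 5) (nat_lit 390) (nat_lit 364) (nat_lit 134)) (XT.nd (nat_lit 94) (nat_lit 0) (nat_lit 0) (XT.lf (nat_lit 0) (nat_lit 10422468620) (nat_lit 420) (nat_lit 19693738436) (nat_lit 504) (nat_lit 23287346471) (nat_lit 55) (nat_lit 5) (nat_lit 60) (nat_lit 5) (nat_lit 61) (nat_lit 5) (nat_lit 391) (nat_lit 364) (nat_lit 133)) (XT.lf (nat_lit 0) (nat_lit 27906613988) (nat_lit 420) (nat_lit 5521565396) (nat_lit 504) (nat_lit 21043482756) (nat_lit 55) (nat_lit 5) (nat_lit 60) (nat_lit 5) (nat_lit 61) (nat_lit 5) (nat_lit 392) (nat_lit 364) (nat_lit 132))))) (XT.nd (nat_lit 282) (nat_lit 336) (nat_lit 0) (XT.nd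 (nat_lit 94) (nat_lit 420) (nat_lit 0) (XT.lf (nat_lit 0) (nat_lit 36932142073) (nat_lit 504) (nat_lit 9731127787) (nat_lit 84) (nat_lit 8906849056) (nat_lit 55) (nat_lit 5) (nat_lit 61) (nat_lit 5) (nat_lit 56) (nat_lit 5) (nat_lit 393) (nat_lit 364) (nat_lit 131)) (XT.nd (nat_lit 94) (nat_lit 0) (nat_lit 0) (XT.lf (nat_lit 0) (nat_lit 7722956966) (nat_lit 420) (nat_lit 32954027477) (nat_lit 504) (nat_lit 16021548973) (nat_lit 50) (nat_lit 5) (nat_lit 55) (nat_lit 5) (nat_lit 56) (nat_lit 5) (nat_lit 394) (nat_lit 364) (nat_lit 130)) (XT.lf (nat_lit 0) (nat_lit 25923606504) (nat_lit 420) (nat_lit 18715071869) (nat_lit 504) (nat_lit 13220132142) (nat_lit 50) (nat_lit 5) (nat_lit 55) (nat_lit 5) (nat_lit 56) (nat_lit 5) (nat_lit 395) (nat_lit 364) (nat_lit 129)))) (XT.nd (nat_lit 188) (nat_lit 0) (nat_lit 0) (XT.nd (nat_lit 94) (nat_lit 336) (nat_lit 0) (XT.lf (nat_lit 0) (nat_lit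 44687693792) (nat_lit 420) (nat_lit 4034703856) (nat_lit 504) (nat_lit 10332688154) (nat_lit 50) (nat_lit 5) (nat_lit 55) (nat_lit 5) (nat_lit 56) (nat_lit 5) (nat_lit 396) (nat_lit 364) (nat_lit 128)) (XT.lf (nat_lit 0) (nat_lit 3708838508) (nat_lit 336) (nat_lit 49370023267) (nat_lit 420) (nat_lit 7205058251) (nat_lit 46) (nat_lit 5) (nat_lit 50) (nat_lit 5) (nat_lit 51) (nat_lit 5) (nat_lit 397) (nat_lit 364) (nat_lit 127))) (XT.nd (nat_lit 94) (nat_lit 0) (nat_lit 0) (XT.lf (nat_lit 0) (nat_lit 22607119662) (nat_lit 336) (nat_lit 35153322257) (nat_lit 420) (nat_lit 3784519047) (nat_lit 46) (nat_lit 5) (nat_lit 50) (nat_lit 5) (nat_lit 51) (nat_lit 5) (nat_lit 398) (nat_lit 364) (nat_lit 126)) (XT.lf (nat_lit 0) (nat_lit 42090491334) (nat_lit 336) (nat_lit 20495933980) (nat_lit 420) (nat_lit 258696099) (nat_lit 46) (nat_lit 5) (nat_lit 50) (nat_lit 5) (nat_lit 51) (nat_lit 5)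 (nat_lit 399) (nat_lit 364) (nat_lit 125)))))) (XT.nd (nat_lit 564) (nat_lit 588) (nat_lit 0) (XT.nd (nat_lit 282) (nat_lit 336) (nat_lit 0) (XT.nd (nat_lit 94) (nat_lit 420) (nat_lit 0) (XT.lf (nat_lit 0) (nat_lit 3307684256) (nat_lit 420) (nat_lit 2041986518) (nat_lit 84) (nat_lit 58834904370) (nat_lit 45) (nat_lit 5) (nat_lit 50) (nat_lit 5) (nat_lit 46) (nat_lit 5) (nat_lit 400) (nat_lit 364) (nat_lit 124)) (XT.nd (nat_lit 94) (nat_lit 0) (nat_lit 0) (XT.lf (nat_lit 0) (nat_lit 7256822583) (nat_lit 504) (nat_lit 48061722071) (nat_lit 84) (nat_lit 10238324803) (nat_lit 40) (nat_lit 5) (nat_lit 46) (nat_lit 5) (nat_lit 41) (nat_lit 5) (nat_lit 401) (nat_lit 364) (nat_lit 123)) (XT.lf (nat_lit 0) (nat_lit 11403950073) (nat_lit 504) (nat_lit 29345502696) (nat_lit 84) (nat_lit 26219913777) (nat_lit 40) (nat_lit 5) (nat_lit 46) (nat_lit 5) (nat_lit 41) (nat_lit 5) (nat_lit 402) (nat_lit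 364) (nat_lit 122)))) (XT.nd (nat_lit 94) (nat_lit 336) (nat_lit 0) (XT.lf (nat_lit 0) (nat_lit 15678978169) (nat_lit 504) (nat_lit 10049805528) (nat_lit 84) (nat_lit 42696891887) (nat_lit 40) (nat_lit 5) (nat_lit 46) (nat_lit 5) (nat_lit 41) (nat_lit 5) (nat_lit 403) (nat_lit 364) (nat_lit 121)) (XT.nd (nat_lit 94) (nat_lit 0) (nat_lit 0) (XT.lf (nat_lit 0) (nat_lit 10045754609) (nat_lit 336) (nat_lit 10139792165) (nat_lit 420) (nat_lit 49738517924) (nat_lit 36) (nat_lit 5) (nat_lit 40) (nat_lit 5) (nat_lit 41) (nat_lit 5) (nat_lit 404) (nat_lit 364) (nat_lit 120)) (XT.lf (nat_lit 0) (nat_lit 24996013146) (nat_lit 420) (nat_lit 40548966595) (nat_lit 84) (nat_lit 5918837943) (nat_lit 36) (nat_lit 5) (nat_lit 41) (nat_lit 5) (nat_lit 37) (nat_lit 5) (nat_lit 405) (nat_lit 364) (nat_lit 119))))) (XT.nd (nat_lit 282) (nat_lit 252) (nat_lit 0) (XT.nd (nat_lit 94) (nat_lit 336) (nat_lit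 0) (XT.lf (nat_lit 0) (nat_lit 30058700290) (nat_lit 420) (nat_lit 20724816781) (nat_lit 84) (nat_lit 22264593669) (nat_lit 36) (nat_lit 5) (nat_lit 41) (nat_lit 5) (nat_lit 37) (nat_lit 5) (nat_lit 406) (nat_lit 364) (nat_lit 118)) (XT.nd (nat_lit 94) (nat_lit 336) (nat_lit 0) (XT.lf (nat_lit 0) (nat_lit 35277739170) (nat_lit 420) (nat_lit 286794468) (nat_lit 84) (nat_lit 39117005184) (nat_lit 36) (nat_lit 5) (nat_lit 41) (nat_lit 5) (nat_lit 37) (nat_lit 5) (nat_lit 407) (nat_lit 364) (nat_lit 117)) (XT.lf (nat_lit 0) (nat_lit 21211515486) (nat_lit 336) (nat_lit 19656899848) (nat_lit 420) (nat_lit 35490686074) (nat_lit 32) (nat_lit 5) (nat_lit 36) (nat_lit 5) (nat_lit 37) (nat_lit 5) (nat_lit 408) (nat_lit 364) (nat_lit 116)))) (XT.nd (nat_lit 188) (nat_lit 252) (nat_lit 0) (XT.nd (nat_lit 94) (nat_lit 0) (nat_lit 0) (XT.lf (nat_lit 0) (nat_lit 43381703765) (nat_lit 336) (nat_lit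 3253129274) (nat_lit 420) (nat_lit 31453763435) (nat_lit 32) (nat_lit 5) (nat_lit 36) (nat_lit 5) (nat_lit 37) (nat_lit 5) (nat_lit 409) (nat_lit 364) (nat_lit 115)) (XT.lf (nat_lit 0) (nat_lit 52714963365) (nat_lit 420) (nat_lit 13768687589) (nat_lit 84) (nat_lit 13383874658) (nat_lit 32) (nat_lit 5) (nat_lit 37) (nat_lit 5) (nat_lit 33) (nat_lit 5) (nat_lit 410) (nat_lit 364) (nat_lit 114))) (XT.nd (nat_lit 94) (nat_lit 0) (nat_lit 0) (XT.lf (nat_lit 0) (nat_lit 7944769912) (nat_lit 252) (nat_lit 51150362352) (nat_lit 336) (nat_lit 22603014284) (nat_lit 29) (nat_lit 5) (nat_lit 32) (nat_lit 5) (nat_lit 33) (nat_lit 5) (nat_lit 411) (nat_lit 364) (nat_lit 113)) (XT.lf (nat_lit 0) (nat_lit 30622610387) (nat_lit 252) (nat_lit 35193672214) (nat_lit 336) (nat_lit 17764798144) (nat_lit 29) (nat_lit 5) (nat_lit 32) (nat_lit 5) (nat_lit 33) (nat_lit 5) (nat_lit 412) (nat_lit 364) (nat_lit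 112))))))))
noncomputable def xc216 : XT := (XT.nd (nat_lit 52264) (nat_lit 0) (nat_lit 2184) (XT.nd (nat_lit 1128) (nat_lit 0) (nat_lit 0) (XT.nd (nat_lit 564) (nat_lit 504) (nat_lit 0) (XT.nd (nat_lit 282) (nat_lit 84) (nat_lit 0) (XT.nd (nat_lit 94) (nat_lit 252) (nat_lit 0) (XT.lf (nat_lit 0) (nat_lit 54002859500) (nat_lit 252) (nat_lit 18742424094) (nat_lit 336) (nat_lit 12777120961) (nat_lit 29) (nat_lit 5) (nat_lit 32) (nat_lit 5) (nat_lit 33) (nat_lit 5) (nat_lit 413) (nat_lit 364) (nat_lit 111)) (XT.nd (nat_lit 94) (nat_lit 252) (nat_lit 0) (XT.lf (nat_lit 0) (nat_lit 78107310094) (nat_lit 252) (nat_lit 1781283705) (nat_lit 336) (nat_lit 7635333698) (nat_lit 29) (nat_lit 5) (nat_lit 32) (nat_lit 5) (nat_lit 33) (nat_lit 5) (nat_lit 414) (nat_lit 364) (nat_lit 110)) (XT.lf (nat_lit 0) (nat_lit 13486843599) (nat_lit 252) (nat_lit 74055620172) (nat_lit 336) (nat_lit 2036074068)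 (nat_lit 26) (nat_lit 5) (nat_lit 29) (nat_lit 5) (nat_lit 30) (nat_lit 5) (nat_lit 415) (nat_lit 364) (nat_lit 109)))) (XT.nd (nat_lit 94) (nat_lit 0) (nat_lit 0) (XT.lf (nat_lit 0) (nat_lit 3778514047) (nat_lit 336) (nat_lit 54450739372) (nat_lit 84) (nat_lit 33462812989) (nat_lit 25) (nat_lit 5) (nat_lit 29) (nat_lit 5) (nat_lit 26) (nat_lit 5) (nat_lit 416) (nat_lit 364) (nat_lit 108)) (XT.nd (nat_lit 94) (nat_lit 0) (nat_lit 0) (XT.lf (nat_lit 0) (nat_lit 9730599710) (nat_lit 336) (nat_lit 32160313089) (nat_lit 84) (nat_lit 51979572866) (nat_lit 25) (nat_lit 5) (nat_lit 29) (nat_lit 5) (nat_lit 26) (nat_lit 5) (nat_lit 417) (nat_lit 364) (nat_lit 107)) (XT.lf (nat_lit 0) (nat_lit 15866753243) (nat_lit 336) (nat_lit 9179440273) (nat_lit 84) (nat_lit 71070258750) (nat_lit 25) (nat_lit 5) (nat_lit 29) (nat_lit 5) (nat_lit 26) (nat_lit 5) (nat_lit 418) (nat_lit 364) (nat_lit 106)))))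 (XT.nd (nat_lit 282) (nat_lit 252) (nat_lit 0) (XT.nd (nat_lit 94) (nat_lit 0) (nat_lit 0) (XT.lf (nat_lit 0) (nat_lit 14811722863) (nat_lit 252) (nat_lit 7527905445) (nat_lit 336) (nat_lit 76087876421) (nat_lit 22) (nat_lit 5) (nat_lit 25) (nat_lit 5) (nat_lit 26) (nat_lit 5) (nat_lit 419) (nat_lit 364) (nat_lit 105)) (XT.nd (nat_lit 94) (nat_lit 0) (nat_lit 0) (XT.lf (nat_lit 0) (nat_lit 29214023408) (nat_lit 336) (nat_lit 61172040223) (nat_lit 84) (nat_lit 10417911848) (nat_lit 22) (nat_lit 5) (nat_lit 26) (nat_lit 5) (nat_lit 23) (nat_lit 5) (nat_lit 420) (nat_lit 364) (nat_lit 104)) (XT.lf (nat_lit 0) (nat_lit 36378103647) (nat_lit 336) (nat_lit 38110067789) (nat_lit 84) (nat_lit 28763573722) (nat_lit 22) (nat_lit 5) (nat_lit 26) (nat_lit 5) (nat_lit 23) (nat_lit 5) (nat_lit 421) (nat_lit 364) (nat_lit 103)))) (XT.nd (nat_lit 94) (nat_lit 252) (nat_lit 0) (XT.lf (nat_lit 0)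 (nat_lit 43763868944) (nat_lit 336) (nat_lit 14333690634) (nat_lit 84) (nat_lit 47677850771) (nat_lit 22) (nat_lit 5) (nat_lit 26) (nat_lit 5) (nat_lit 23) (nat_lit 5) (nat_lit 422) (nat_lit 364) (nat_lit 102)) (XT.nd (nat_lit 94) (nat_lit 0) (nat_lit 0) (XT.lf (nat_lit 0) (nat_lit 10388559638) (nat_lit 252) (nat_lit 41092699766) (nat_lit 336) (nat_lit 56892869242) (nat_lit 19) (nat_lit 5) (nat_lit 22) (nat_lit 5) (nat_lit 23) (nat_lit 5) (nat_lit 423) (nat_lit 364) (nat_lit 101)) (XT.lf (nat_lit 0) (nat_lit 36180570552) (nat_lit 252) (nat_lit 23406550177) (nat_lit 336) (nat_lit 51461662374) (nat_lit 19) (nat_lit 5) (nat_lit 22) (nat_lit 5) (nat_lit 23) (nat_lit 5) (nat_lit 424) (nat_lit 364) (nat_lit 100)))))) (XT.nd (nat_lit 50478) (nat_lit 0) (nat_lit 5208) (XT.nd (nat_lit 50196) (nat_lit 0) (nat_lit 5208) (XT.nd (nat_lit 94) (nat_lit 0) (nat_lit 0) (XT.lf (nat_lit 0) (nat_lit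 62771652886) (nat_lit 252) (nat_lit 5172239803) (nat_lit 336) (nat_lit 45862472681) (nat_lit 19) (nat_lit 5) (nat_lit 22) (nat_lit 5) (nat_lit 23) (nat_lit 5) (nat_lit 425) (nat_lit 364) (nat_lit 99)) (XT.nd (nat_lit 50008) (nat_lit 0) (nat_lit 5208) (XT.lf (nat_lit 0) (nat_lit 76694548454) (nat_lit 336) (nat_lit 26598037271) (nat_lit 84) (nat_lit 13352669376) (nat_lit 19) (nat_lit 5) (nat_lit 23) (nat_lit 5) (nat_lit 20) (nat_lit 5) (nat_lit 426) (nat_lit 364) (nat_lit 98)) (XT.lf (nat_lit 0) (nat_lit 7150684086) (nat_lit 0) (nat_lit 7150684086) (nat_lit 924) (nat_lit 2865560418) (nat_lit 81) (nat_lit 5) (nat_lit 81) (nat_lit 3) (nat_lit 92) (nat_lit 3) (nat_lit 365) (nat_lit 365) (nat_lit 158)))) (XT.nd (nat_lit 94) (nat_lit 0) (nat_lit 0) (XT.lf (nat_lit 0) (nat_lit 25788773689) (nat_lit 0) (nat_lit 3300129514) (nat_lit 924) (nat_lit 5775488687) (nat_lit 81) (nat_lit 5) (nat_lit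 81) (nat_lit 3) (nat_lit 92) (nat_lit 3) (nat_lit 366) (nat_lit 365) (nat_lit 157)) (XT.nd (nat_lit 94) (nat_lit 0) (nat_lit 0) (XT.lf (nat_lit 84) (nat_lit 2184205919) (nat_lit 0) (nat_lit 27505664932) (nat_lit 1008) (nat_lit 5718423299) (nat_lit 82) (nat_lit 5) (nat_lit 81) (nat_lit 5) (nat_lit 93) (nat_lit 5) (nat_lit 367) (nat_lit 365) (nat_lit 156)) (XT.lf (nat_lit 84) (nat_lit 13950108367) (nat_lit 0) (nat_lit 16485827164) (nat_lit 1008) (nat_lit 5529213584) (nat_lit 82) (nat_lit 5) (nat_lit 81) (nat_lit 5) (nat_lit 93) (nat_lit 5) (nat_lit 368) (nat_lit 365) (nat_lit 155))))) (XT.nd (nat_lit 282) (nat_lit 0) (nat_lit 84) (XT.nd (nat_lit 94) (nat_lit 0) (nat_lit 84) (XT.lf (nat_lit 84) (nat_lit 26079853721) (nat_lit 0) (nat_lit 5123650198) (nat_lit 1008) (nat_lit 5335824867) (nat_lit 82) (nat_lit 5) (nat_lit 81) (nat_lit 5) (nat_lit 93) (nat_lit 5) (nat_lit 369) (nat_lit 365)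 (nat_lit 154)) (XT.nd (nat_lit 94) (nat_lit 0) (nat_lit 0) (XT.lf (nat_lit 84) (nat_lit 1416531705) (nat_lit 0) (nat_lit 30656199999) (nat_lit 1008) (nat_lit 5056174005) (nat_lit 83) (nat_lit 5) (nat_lit 82) (nat_lit 5) (nat_lit 94) (nat_lit 5) (nat_lit 370) (nat_lit 365) (nat_lit 153)) (XT.lf (nat_lit 84) (nat_lit 13828018875) (nat_lit 0) (nat_lit 19300403937) (nat_lit 1008) (nat_lit 4603402816) (nat_lit 83) (nat_lit 5) (nat_lit 82) (nat_lit 5) (nat_lit 94) (nat_lit 5) (nat_lit 371) (nat_lit 365) (nat_lit 152)))) (XT.nd (nat_lit 188) (nat_lit 0) (nat_lit 84) (XT.nd (nat_lit 94) (nat_lit 0) (nat_lit 84) (XT.lf (nat_lit 84) (nat_lit 26623359347) (nat_lit 0) (nat_lit 7591996454) (nat_lit 1008) (nat_lit 4138137094) (nat_lit 83) (nat_lit 5) (nat_lit 82) (nat_lit 5) (nat_lit 94) (nat_lit 5) (nat_lit 372) (nat_lit 365) (nat_lit 151)) (XT.lf (nat_lit 84) (nat_lit 791498154) (nat_lit 0)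 (nat_lit 34595338933) (nat_lit 1008) (nat_lit 3606028792) (nat_lit 84) (nat_lit 5) (nat_lit 83) (nat_lit 5) (nat_lit 95) (nat_lit 5) (nat_lit 373) (nat_lit 365) (nat_lit 150))) (XT.nd (nat_lit 94) (nat_lit 0) (nat_lit 0) (XT.lf (nat_lit 84) (nat_lit 13869801340) (nat_lit 0) (nat_lit 22922733258) (nat_lit 1008) (nat_lit 2853400087) (nat_lit 84) (nat_lit 5) (nat_lit 83) (nat_lit 5) (nat_lit 95) (nat_lit 5) (nat_lit 374) (nat_lit 365) (nat_lit 149)) (XT.lf (nat_lit 84) (nat_lit 27352632900) (nat_lit 0) (nat_lit 10887817561) (nat_lit 1008) (nat_lit 2078850132) (nat_lit 84) (nat_lit 5) (nat_lit 83) (nat_lit 5) (nat_lit 95) (nat_lit 5) (nat_lit 375) (nat_lit 365) (nat_lit 148))))))) (XT.nd (nat_lit 1222) (nat_lit 1764) (nat_lit 0) (XT.nd (nat_lit 564) (nat_lit 504) (nat_lit 0) (XT.nd (nat_lit 282) (nat_lit 0) (nat_lit 0) (XT.nd (nat_lit 94) (nat_lit 1008) (nat_lit 0) (XT.lf (nat_lit 84)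 (nat_lit 228487710) (nat_lit 0) (nat_lit 39520798002) (nat_lit 1008) (nat_lit 1263767649) (nat_lit 85) (nat_lit 5) (nat_lit 84) (nat_lit 5) (nat_lit 96) (nat_lit 5) (nat_lit 376) (nat_lit 365) (nat_lit 147)) (XT.nd (nat_lit 94) (nat_lit 1008) (nat_lit 0) (XT.lf (nat_lit 84) (nat_lit 13993015553) (nat_lit 0) (nat_lit 27556171462) (nat_lit 1008) (nat_lit 171561672) (nat_lit 85) (nat_lit 5) (nat_lit 84) (nat_lit 5) (nat_lit 96) (nat_lit 5) (nat_lit 377) (nat_lit 365) (nat_lit 146)) (XT.lf (nat_lit 0) (nat_lit 934005977) (nat_lit 1008) (nat_lit 14276532199) (nat_lit 1092) (nat_lit 27239598823) (nat_lit 72) (nat_lit 5) (nat_lit 84) (nat_lit 5) (nat_lit 85) (nat_lit 5) (nat_lit 378) (nat_lit 365) (nat_lit 145)))) (XT.nd (nat_lit 94) (nat_lit 0) (nat_lit 84) (XT.lf (nat_lit 0) (nat_lit 2069054930) (nat_lit 1008) (nat_lit 410995511) (nat_lit 1092) (nat_lit 40722078036) (nat_lit 72) (nat_lit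 5) (nat_lit 84) (nat_lit 5) (nat_lit 85) (nat_lit 5) (nat_lit 379) (nat_lit 365) (nat_lit 144)) (XT.nd (nat_lit 94) (nat_lit 0) (nat_lit 0) (XT.lf (nat_lit 0) (nat_lit 3485699048) (nat_lit 1008) (nat_lit 29911184542) (nat_lit 1092) (nat_lit 10572917645) (nat_lit 73) (nat_lit 5) (nat_lit 85) (nat_lit 5) (nat_lit 86) (nat_lit 5) (nat_lit 380) (nat_lit 365) (nat_lit 143)) (XT.lf (nat_lit 0) (nat_lit 4974797655) (nat_lit 1008) (nat_lit 15801956116) (nat_lit 1092) (nat_lit 23983641350) (nat_lit 73) (nat_lit 5) (nat_lit 85) (nat_lit 5) (nat_lit 86) (nat_lit 5) (nat_lit 381) (nat_lit 365) (nat_lit 142))))) (XT.nd (nat_lit 282) (nat_lit 588) (nat_lit 0) (XT.nd (nat_lit 94) (nat_lit 0) (nat_lit 84) (XT.lf (nat_lit 0) (nat_lit 6508932822) (nat_lit 1008) (nat_lit 1256222368) (nat_lit 1092) (nat_lit 37810384844) (nat_lit 73) (nat_lit 5) (nat_lit 85) (nat_lit 5) (nat_lit 86) (nat_lit 5) (nat_lit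 382) (nat_lit 365) (nat_lit 141)) (XT.nd (nat_lit 94) (nat_lit 0) (nat_lit 0) (XT.lf (nat_lit 0) (nat_lit 8286107154) (nat_lit 1008) (nat_lit 32447066740) (nat_lit 84) (nat_lit 5676728132) (nat_lit 74) (nat_lit 5) (nat_lit 86) (nat_lit 5) (nat_lit 75) (nat_lit 5) (nat_lit 383) (nat_lit 365) (nat_lit 140)) (XT.lf (nat_lit 0) (nat_lit 10209974632) (nat_lit 1008) (nat_lit 17669849330) (nat_lit 84) (nat_lit 19387472921) (nat_lit 74) (nat_lit 5) (nat_lit 86) (nat_lit 5) (nat_lit 75) (nat_lit 5) (nat_lit 384) (nat_lit 365) (nat_lit 139)))) (XT.nd (nat_lit 188) (nat_lit 0) (nat_lit 0) (XT.nd (nat_lit 94) (nat_lit 672) (nat_lit 0) (XT.lf (nat_lit 0) (nat_lit 12192449002) (nat_lit 1008) (nat_lit 2435399655) (nat_lit 84) (nat_lit 33523461398) (nat_lit 74) (nat_lit 5) (nat_lit 86) (nat_lit 5) (nat_lit 75) (nat_lit 5) (nat_lit 385) (nat_lit 365) (nat_lit 138)) (XT.lf (nat_lit 0) (nat_lit 13543350723)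 (nat_lit 672) (nat_lit 826379131) (nat_lit 756) (nat_lit 34688870777) (nat_lit 66) (nat_lit 5) (nat_lit 74) (nat_lit 5) (nat_lit 75) (nat_lit 5) (nat_lit 386) (nat_lit 365) (nat_lit 137))) (XT.nd (nat_lit 94) (nat_lit 0) (nat_lit 0) (XT.lf (nat_lit 0) (nat_lit 16772167267) (nat_lit 756) (nat_lit 20058242040) (nat_lit 84) (nat_lit 13158727055) (nat_lit 66) (nat_lit 5) (nat_lit 75) (nat_lit 5) (nat_lit 67) (nat_lit 5) (nat_lit 387) (nat_lit 365) (nat_lit 136)) (XT.lf (nat_lit 0) (nat_lit 19256583073) (nat_lit 756) (nat_lit 4131358455) (nat_lit 84) (nat_lit 27560351017) (nat_lit 66) (nat_lit 5) (nat_lit 75) (nat_lit 5) (nat_lit 67) (nat_lit 5) (nat_lit 388) (nat_lit 365) (nat_lit 135)))))) (XT.nd (nat_lit 564) (nat_lit 840) (nat_lit 0) (XT.nd (nat_lit 282) (nat_lit 420) (nat_lit 0) (XT.nd (nat_lit 94) (nat_lit 0) (nat_lit 0) (XT.lf (nat_lit 0) (nat_lit 12541119766) (nat_lit 504) (nat_lit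 9400384921) (nat_lit 588) (nat_lit 29991855967) (nat_lit 60) (nat_lit 5) (nat_lit 66) (nat_lit 5) (nat_lit 67) (nat_lit 5) (nat_lit 389) (nat_lit 365) (nat_lit 134)) (XT.nd (nat_lit 94) (nat_lit 0) (nat_lit 0) (XT.lf (nat_lit 0) (nat_lit 24802129723) (nat_lit 588) (nat_lit 23180690530) (nat_lit 84) (nat_lit 4963285077) (nat_lit 60) (nat_lit 5) (nat_lit 67) (nat_lit 5) (nat_lit 61) (nat_lit 5) (nat_lit 390) (nat_lit 365) (nat_lit 133)) (XT.lf (nat_lit 0) (nat_lit 27846705097) (nat_lit 588) (nat_lit 6563541689) (nat_lit 84) (nat_lit 19577050775) (nat_lit 60) (nat_lit 5) (nat_lit 67) (nat_lit 5) (nat_lit 61) (nat_lit 5) (nat_lit 391) (nat_lit 365) (nat_lit 132)))) (XT.nd (nat_lit 94) (nat_lit 0) (nat_lit 0) (XT.lf (nat_lit 0) (nat_lit 10785246214) (nat_lit 420) (nat_lit 20306560453) (nat_lit 504) (nat_lit 23965675303) (nat_lit 55) (nat_lit 5) (nat_lit 60) (nat_lit 5) (nat_lit 61) (nat_lit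 5) (nat_lit 392) (nat_lit 365) (nat_lit 131)) (XT.nd (nat_lit 94) (nat_lit 0) (nat_lit 0) (XT.lf (nat_lit 0) (nat_lit 28810206963) (nat_lit 420) (nat_lit 5694980407) (nat_lit 504) (nat_lit 21653562139) (nat_lit 55) (nat_lit 5) (nat_lit 60) (nat_lit 5) (nat_lit 61) (nat_lit 5) (nat_lit 393) (nat_lit 365) (nat_lit 130)) (XT.lf (nat_lit 0) (nat_lit 38116526489) (nat_lit 504) (nat_lit 9993952415) (nat_lit 84) (nat_lit 9180826340) (nat_lit 55) (nat_lit 5) (nat_lit 61) (nat_lit 5) (nat_lit 56) (nat_lit 5) (nat_lit 394) (nat_lit 365) (nat_lit 129))))) (XT.nd (nat_lit 282) (nat_lit 420) (nat_lit 0) (XT.nd (nat_lit 94) (nat_lit 0) (nat_lit 0) (XT.lf (nat_lit 0) (nat_lit 8000815741) (nat_lit 420) (nat_lit 33975837310) (nat_lit 504) (nat_lit 16478080441) (nat_lit 50) (nat_lit 5) (nat_lit 55) (nat_lit 5) (nat_lit 56) (nat_lit 5) (nat_lit 395) (nat_lit 365) (nat_lit 128)) (XT.nd (nat_lit 94)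 (nat_lit 0) (nat_lit 0) (XT.lf (nat_lit 0) (nat_lit 26764529391) (nat_lit 420) (nat_lit 19295467013) (nat_lit 504) (nat_lit 13591026510) (nat_lit 50) (nat_lit 5) (nat_lit 55) (nat_lit 5) (nat_lit 56) (nat_lit 5) (nat_lit 396) (nat_lit 365) (nat_lit 127)) (XT.lf (nat_lit 0) (nat_lit 46109182121) (nat_lit 420) (nat_lit 4160000738) (nat_lit 504) (nat_lit 10615242293) (nat_lit 50) (nat_lit 5) (nat_lit 55) (nat_lit 5) (nat_lit 56) (nat_lit 5) (nat_lit 397) (nat_lit 365) (nat_lit 126)))) (XT.nd (nat_lit 188) (nat_lit 84) (nat_lit 0) (XT.nd (nat_lit 94) (nat_lit 0) (nat_lit 0) (XT.lf (nat_lit 0) (nat_lit 3860972764) (nat_lit 336) (nat_lit 50898996921) (nat_lit 420) (nat_lit 7391413333) (nat_lit 46) (nat_lit 5) (nat_lit 50) (nat_lit 5) (nat_lit 51) (nat_lit 5) (nat_lit 398) (nat_lit 365) (nat_lit 125)) (XT.lf (nat_lit 0) (nat_lit 23343983303) (nat_lit 336) (nat_lit 36241623192) (nat_lit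 420) (nat_lit 3865949978) (nat_lit 46) (nat_lit 5) (nat_lit 50) (nat_lit 5) (nat_lit 51) (nat_lit 5) (nat_lit 399) (nat_lit 365) (nat_lit 124))) (XT.nd (nat_lit 94) (nat_lit 84) (nat_lit 0) (XT.lf (nat_lit 0) (nat_lit 43430255761) (nat_lit 336) (nat_lit 21129899539) (nat_lit 420) (nat_lit 231905630) (nat_lit 46) (nat_lit 5) (nat_lit 50) (nat_lit 5) (nat_lit 51) (nat_lit 5) (nat_lit 400) (nat_lit 365) (nat_lit 123)) (XT.lf (nat_lit 0) (nat_lit 3443305594) (nat_lit 420) (nat_lit 2070493608) (nat_lit 84) (nat_lit 60659266006) (nat_lit 45) (nat_lit 5) (nat_lit 50) (nat_lit 5) (nat_lit 46) (nat_lit 5) (nat_lit 401) (nat_lit 365) (nat_lit 122))))))))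
noncomputable def xc217 : XT := (XT.nd (nat_lit 2350) (nat_lit 0) (nat_lit 0) (XT.nd (nat_lit 1128) (nat_lit 840) (nat_lit 0) (XT.nd (nat_lit 564) (nat_lit 588) (nat_lit 0) (XT.nd (nat_lit 282) (nat_lit 336) (nat_lit 0) (XT.nd (nat_lit 94) (nat_lit 0) (nat_lit 0) (XT.lf (nat_lit 0) (nat_lit 7514234101) (nat_lit 504) (nat_lit 49516007865) (nat_lit 84) (nat_lit 10557684503) (nat_lit 40) (nat_lit 5) (nat_lit 46) (nat_lit 5) (nat_lit 41) (nat_lit 5) (nat_lit 402) (nat_lit 365) (nat_lit 121)) (XT.nd (nat_lit 94) (nat_lit 0) (nat_lit 0) (XT.lf (nat_lit 0) (nat_lit 11788946840) (nat_lit 504) (nat_lit 30220656936) (nat_lit 84) (nat_lit 27034643453) (nat_lit 40) (nat_lit 5) (nat_lit 46) (nat_lit 5) (nat_lit 41) (nat_lit 5) (nat_lit 403) (nat_lit 365) (nat_lit 120)) (XT.lf (nat_lit 0) (nat_lit 16195554440) (nat_lit 504) (nat_lit 10327832193) (nat_lit 84) (nat_lit 44022350385) (nat_lit 40)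 (nat_lit 5) (nat_lit 46) (nat_lit 5) (nat_lit 41) (nat_lit 5) (nat_lit 404) (nat_lit 365) (nat_lit 119)))) (XT.nd (nat_lit 94) (nat_lit 0) (nat_lit 0) (XT.lf (nat_lit 0) (nat_lit 10390350976) (nat_lit 336) (nat_lit 10450886915) (nat_lit 420) (nat_lit 51249362212) (nat_lit 36) (nat_lit 5) (nat_lit 40) (nat_lit 5) (nat_lit 41) (nat_lit 5) (nat_lit 405) (nat_lit 365) (nat_lit 118)) (XT.nd (nat_lit 94) (nat_lit 0) (nat_lit 0) (XT.lf (nat_lit 0) (nat_lit 25799959675) (nat_lit 420) (nat_lit 41772758134) (nat_lit 84) (nat_lit 6105400050) (nat_lit 36) (nat_lit 5) (nat_lit 41) (nat_lit 5) (nat_lit 37) (nat_lit 5) (nat_lit 406) (nat_lit 365) (nat_lit 117)) (XT.lf (nat_lit 0) (nat_lit 31018716044) (nat_lit 420) (nat_lit 21335058724) (nat_lit 84) (nat_lit 22957781651) (nat_lit 36) (nat_lit 5) (nat_lit 41) (nat_lit 5) (nat_lit 37) (nat_lit 5) (nat_lit 407) (nat_lit 365) (nat_lit 116))))) (XT.nd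 (nat_lit 282) (nat_lit 252) (nat_lit 0) (XT.nd (nat_lit 94) (nat_lit 336) (nat_lit 0) (XT.lf (nat_lit 0) (nat_lit 36398697333) (nat_lit 420) (nat_lit 264426728) (nat_lit 84) (nat_lit 40332528153) (nat_lit 36) (nat_lit 5) (nat_lit 41) (nat_lit 5) (nat_lit 37) (nat_lit 5) (nat_lit 408) (nat_lit 365) (nat_lit 115)) (XT.nd (nat_lit 94) (nat_lit 0) (nat_lit 0) (XT.lf (nat_lit 0) (nat_lit 21900014371) (nat_lit 336) (nat_lit 20262154731) (nat_lit 420) (nat_lit 36563071121) (nat_lit 32) (nat_lit 5) (nat_lit 36) (nat_lit 5) (nat_lit 37) (nat_lit 5) (nat_lit 409) (nat_lit 365) (nat_lit 114)) (XT.lf (nat_lit 0) (nat_lit 44756548130) (nat_lit 336) (nat_lit 3349990818) (nat_lit 420) (nat_lit 32401840557) (nat_lit 32) (nat_lit 5) (nat_lit 36) (nat_lit 5) (nat_lit 37) (nat_lit 5) (nat_lit 410) (nat_lit 365) (nat_lit 113)))) (XT.nd (nat_lit 94) (nat_lit 252) (nat_lit 0) (XT.lf (nat_lit 0) (nat_lit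 54374409111) (nat_lit 420) (nat_lit 14165511596) (nat_lit 84) (nat_lit 13802562518) (nat_lit 32) (nat_lit 5) (nat_lit 37) (nat_lit 5) (nat_lit 33) (nat_lit 5) (nat_lit 411) (nat_lit 365) (nat_lit 112)) (XT.nd (nat_lit 94) (nat_lit 0) (nat_lit 0) (XT.lf (nat_lit 0) (nat_lit 8220759311) (nat_lit 252) (nat_lit 52731138406) (nat_lit 336) (nat_lit 23277974695) (nat_lit 29) (nat_lit 5) (nat_lit 32) (nat_lit 5) (nat_lit 33) (nat_lit 5) (nat_lit 412) (nat_lit 365) (nat_lit 111)) (XT.lf (nat_lit 0) (nat_lit 31600719777) (nat_lit 252) (nat_lit 36279937761) (nat_lit 336) (nat_lit 18290547592) (nat_lit 29) (nat_lit 5) (nat_lit 32) (nat_lit 5) (nat_lit 33) (nat_lit 5) (nat_lit 413) (nat_lit 365) (nat_lit 110)))))) (XT.nd (nat_lit 564) (nat_lit 504) (nat_lit 0) (XT.nd (nat_lit 282) (nat_lit 84) (nat_lit 0) (XT.nd (nat_lit 94) (nat_lit 252) (nat_lit 0) (XT.lf (nat_lit 0) (nat_lit 55704890403) (nat_lit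 252) (nat_lit 19318843419) (nat_lit 336) (nat_lit 13149002890) (nat_lit 29) (nat_lit 5) (nat_lit 32) (nat_lit 5) (nat_lit 33) (nat_lit 5) (nat_lit 414) (nat_lit 365) (nat_lit 109)) (XT.nd (nat_lit 94) (nat_lit 252) (nat_lit 0) (XT.lf (nat_lit 0) (nat_lit 80555738801) (nat_lit 252) (nat_lit 1832045864) (nat_lit 336) (nat_lit 7848548130) (nat_lit 29) (nat_lit 5) (nat_lit 32) (nat_lit 5) (nat_lit 33) (nat_lit 5) (nat_lit 415) (nat_lit 365) (nat_lit 108)) (XT.lf (nat_lit 0) (nat_lit 13932547673) (nat_lit 252) (nat_lit 76346012867) (nat_lit 336) (nat_lit 2076090848) (nat_lit 26) (nat_lit 5) (nat_lit 29) (nat_lit 5) (nat_lit 30) (nat_lit 5) (nat_lit 416) (nat_lit 365) (nat_lit 107)))) (XT.nd (nat_lit 94) (nat_lit 0) (nat_lit 0) (XT.lf (nat_lit 0) (nat_lit 3917603435) (nat_lit 336) (nat_lit 56111356447) (nat_lit 84) (nat_lit 34504757259) (nat_lit 25) (nat_lit 5) (nat_lit 29) (nat_lit 5)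 (nat_lit 26) (nat_lit 5) (nat_lit 417) (nat_lit 365) (nat_lit 106)) (XT.nd (nat_lit 94) (nat_lit 0) (nat_lit 0) (XT.lf (nat_lit 0) (nat_lit 10053543600) (nat_lit 336) (nat_lit 33130749481) (nat_lit 84) (nat_lit 53595398467) (nat_lit 25) (nat_lit 5) (nat_lit 29) (nat_lit 5) (nat_lit 26) (nat_lit 5) (nat_lit 418) (nat_lit 365) (nat_lit 105)) (XT.lf (nat_lit 0) (nat_lit 16379277588) (nat_lit 336) (nat_lit 9438267409) (nat_lit 84) (nat_lit 73277761546) (nat_lit 25) (nat_lit 5) (nat_lit 29) (nat_lit 5) (nat_lit 26) (nat_lit 5) (nat_lit 419) (nat_lit 365) (nat_lit 104))))) (XT.nd (nat_lit 282) (nat_lit 252) (nat_lit 0) (XT.nd (nat_lit 94) (nat_lit 0) (nat_lit 0) (XT.lf (nat_lit 0) (nat_lit 15296361235) (nat_lit 252) (nat_lit 7756082207) (nat_lit 336) (nat_lit 78425573080) (nat_lit 22) (nat_lit 5) (nat_lit 25) (nat_lit 5) (nat_lit 26) (nat_lit 5) (nat_lit 420) (nat_lit 365) (nat_lit 103))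 (XT.nd (nat_lit 94) (nat_lit 0) (nat_lit 0) (XT.lf (nat_lit 0) (nat_lit 30139384735) (nat_lit 336) (nat_lit 63042995829) (nat_lit 84) (nat_lit 10745798031) (nat_lit 22) (nat_lit 5) (nat_lit 26) (nat_lit 5) (nat_lit 23) (nat_lit 5) (nat_lit 421) (nat_lit 365) (nat_lit 102)) (XT.lf (nat_lit 0) (nat_lit 37524958323) (nat_lit 336) (nat_lit 39266865301) (nat_lit 84) (nat_lit 29660027160) (nat_lit 22) (nat_lit 5) (nat_lit 26) (nat_lit 5) (nat_lit 23) (nat_lit 5) (nat_lit 422) (nat_lit 365) (nat_lit 101)))) (XT.nd (nat_lit 188) (nat_lit 0) (nat_lit 0) (XT.nd (nat_lit 94) (nat_lit 252) (nat_lit 0) (XT.lf (nat_lit 0) (nat_lit 45139107042) (nat_lit 336) (nat_lit 14754160564) (nat_lit 84) (nat_lit 49160502993) (nat_lit 22) (nat_lit 5) (nat_lit 26) (nat_lit 5) (nat_lit 23) (nat_lit 5) (nat_lit 423) (nat_lit 365) (nat_lit 100)) (XT.lf (nat_lit 0) (nat_lit 10734237759) (nat_lit 252) (nat_lit 42361175281)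 (nat_lit 336) (nat_lit 58637649224) (nat_lit 19) (nat_lit 5) (nat_lit 22) (nat_lit 5) (nat_lit 23) (nat_lit 5) (nat_lit 424) (nat_lit 365) (nat_lit 99))) (XT.nd (nat_lit 94) (nat_lit 0) (nat_lit 0) (XT.lf (nat_lit 0) (nat_lit 37325090424) (nat_lit 252) (nat_lit 24126917367) (nat_lit 336) (nat_lit 53038643196) (nat_lit 19) (nat_lit 5) (nat_lit 22) (nat_lit 5) (nat_lit 23) (nat_lit 5) (nat_lit 425) (nat_lit 365) (nat_lit 98)) (XT.lf (nat_lit 0) (nat_lit 64739807088) (nat_lit 252) (nat_lit 5327500803) (nat_lit 336) (nat_lit 47266429788) (nat_lit 19) (nat_lit 5) (nat_lit 22) (nat_lit 5) (nat_lit 23) (nat_lit 5) (nat_lit 426) (nat_lit 365) (nat_lit 97))))))) (XT.nd (nat_lit 51136) (nat_lit 0) (nat_lit 3444) (XT.nd (nat_lit 50478) (nat_lit 0) (nat_lit 5292) (XT.nd (nat_lit 50196) (nat_lit 0) (nat_lit 5208) (XT.nd (nat_lit 50008) (nat_lit 0) (nat_lit 5208) (XT.lf (nat_lit 0) (nat_lit 79088767049)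 (nat_lit 336) (nat_lit 27400454601) (nat_lit 84) (nat_lit 13771428621) (nat_lit 19) (nat_lit 5) (nat_lit 23) (nat_lit 5) (nat_lit 20) (nat_lit 5) (nat_lit 427) (nat_lit 365) (nat_lit 96)) (XT.nd (nat_lit 94) (nat_lit 0) (nat_lit 0) (XT.lf (nat_lit 0) (nat_lit 7393555103) (nat_lit 0) (nat_lit 7393555103) (nat_lit 924) (nat_lit 2910369362) (nat_lit 81) (nat_lit 5) (nat_lit 81) (nat_lit 3) (nat_lit 92) (nat_lit 3) (nat_lit 366) (nat_lit 366) (nat_lit 156)) (XT.lf (nat_lit 0) (nat_lit 26629350426) (nat_lit 0) (nat_lit 3443558282) (nat_lit 924) (nat_lit 5869129363) (nat_lit 81) (nat_lit 5) (nat_lit 81) (nat_lit 3) (nat_lit 92) (nat_lit 3) (nat_lit 367) (nat_lit 366) (nat_lit 155)))) (XT.nd (nat_lit 94) (nat_lit 0) (nat_lit 0) (XT.lf (nat_lit 84) (nat_lit 2296146613) (nat_lit 0) (nat_lit 28393929745) (nat_lit 1008) (nat_lit 5812818321) (nat_lit 82) (nat_lit 5) (nat_lit 81) (nat_lit 5)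 (nat_lit 93) (nat_lit 5) (nat_lit 368) (nat_lit 366) (nat_lit 154)) (XT.nd (nat_lit 94) (nat_lit 0) (nat_lit 0) (XT.lf (nat_lit 84) (nat_lit 14425462125) (nat_lit 0) (nat_lit 17031406915) (nat_lit 1008) (nat_lit 5620235015) (nat_lit 82) (nat_lit 5) (nat_lit 81) (nat_lit 5) (nat_lit 93) (nat_lit 5) (nat_lit 369) (nat_lit 366) (nat_lit 153)) (XT.lf (nat_lit 84) (nat_lit 26929939659) (nat_lit 0) (nat_lit 5315964546) (nat_lit 1008) (nat_lit 5423268231) (nat_lit 82) (nat_lit 5) (nat_lit 81) (nat_lit 5) (nat_lit 93) (nat_lit 5) (nat_lit 370) (nat_lit 366) (nat_lit 152))))) (XT.nd (nat_lit 282) (nat_lit 0) (nat_lit 84) (XT.nd (nat_lit 94) (nat_lit 0) (nat_lit 0) (XT.lf (nat_lit 84) (nat_lit 1504808597) (nat_lit 0) (nat_lit 31635129556) (nat_lit 1008) (nat_lit 5137170897) (nat_lit 83) (nat_lit 5) (nat_lit 82) (nat_lit 5) (nat_lit 94) (nat_lit 5) (nat_lit 371) (nat_lit 366) (nat_lit 151))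 (XT.nd (nat_lit 94) (nat_lit 0) (nat_lit 0) (XT.lf (nat_lit 84) (nat_lit 14299717925) (nat_lit 0) (nat_lit 19926444254) (nat_lit 1008) (nat_lit 4672641278) (nat_lit 83) (nat_lit 5) (nat_lit 82) (nat_lit 5) (nat_lit 94) (nat_lit 5) (nat_lit 372) (nat_lit 366) (nat_lit 150)) (XT.lf (nat_lit 84) (nat_lit 27490420116) (nat_lit 0) (nat_lit 7854242422) (nat_lit 1008) (nat_lit 4195161318) (nat_lit 83) (nat_lit 5) (nat_lit 82) (nat_lit 5) (nat_lit 94) (nat_lit 5) (nat_lit 373) (nat_lit 366) (nat_lit 149)))) (XT.nd (nat_lit 188) (nat_lit 0) (nat_lit 0) (XT.nd (nat_lit 94) (nat_lit 0) (nat_lit 0) (XT.lf (nat_lit 84) (nat_lit 860213490) (nat_lit 0) (nat_lit 35690362162) (nat_lit 1008) (nat_lit 3648515183) (nat_lit 84) (nat_lit 5) (nat_lit 83) (nat_lit 5) (nat_lit 95) (nat_lit 5) (nat_lit 374) (nat_lit 366) (nat_lit 148)) (XT.lf (nat_lit 84) (nat_lit 14342615709) (nat_lit 0) (nat_lit 23655227147)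 (nat_lit 1008) (nat_lit 2874638709) (nat_lit 84) (nat_lit 5) (nat_lit 83) (nat_lit 5) (nat_lit 95) (nat_lit 5) (nat_lit 375) (nat_lit 366) (nat_lit 147))) (XT.nd (nat_lit 94) (nat_lit 0) (nat_lit 84) (XT.lf (nat_lit 84) (nat_lit 28242126623) (nat_lit 0) (nat_lit 11246570903) (nat_lit 1008) (nat_lit 2078098773) (nat_lit 84) (nat_lit 5) (nat_lit 83) (nat_lit 5) (nat_lit 95) (nat_lit 5) (nat_lit 376) (nat_lit 366) (nat_lit 146)) (XT.lf (nat_lit 84) (nat_lit 279298924) (nat_lit 0) (nat_lit 40763349196) (nat_lit 1008) (nat_lit 1239472408) (nat_lit 85) (nat_lit 5) (nat_lit 84) (nat_lit 5) (nat_lit 96) (nat_lit 5) (nat_lit 377) (nat_lit 366) (nat_lit 145)))))) (XT.nd (nat_lit 564) (nat_lit 1008) (nat_lit 0) (XT.nd (nat_lit 282) (nat_lit 0) (nat_lit 84) (XT.nd (nat_lit 94) (nat_lit 1008) (nat_lit 0) (XT.lf (nat_lit 84) (nat_lit 14469212318) (nat_lit 0) (nat_lit 28427295858) (nat_lit 1008)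 (nat_lit 115316517) (nat_lit 85) (nat_lit 5) (nat_lit 84) (nat_lit 5) (nat_lit 96) (nat_lit 5) (nat_lit 378) (nat_lit 366) (nat_lit 144)) (XT.nd (nat_lit 94) (nat_lit 0) (nat_lit 0) (XT.lf (nat_lit 0) (nat_lit 1021469569) (nat_lit 1008) (nat_lit 14676360014) (nat_lit 1092) (nat_lit 28066044266) (nat_lit 72) (nat_lit 5) (nat_lit 84) (nat_lit 5) (nat_lit 85) (nat_lit 5) (nat_lit 379) (nat_lit 366) (nat_lit 143)) (XT.lf (nat_lit 0) (nat_lit 2189945784) (nat_lit 1008) (nat_lit 382276932) (nat_lit 1092) (nat_lit 41967021020) (nat_lit 72) (nat_lit 5) (nat_lit 84) (nat_lit 5) (nat_lit 85) (nat_lit 5) (nat_lit 380) (nat_lit 366) (nat_lit 142)))) (XT.nd (nat_lit 94) (nat_lit 0) (nat_lit 0) (XT.lf (nat_lit 0) (nat_lit 3649063671) (nat_lit 1008) (nat_lit 30795149924) (nat_lit 1092) (nat_lit 10886557234) (nat_lit 73) (nat_lit 5) (nat_lit 85) (nat_lit 5) (nat_lit 86) (nat_lit 5) (nat_lit 381)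 (nat_lit 366) (nat_lit 141)) (XT.nd (nat_lit 94) (nat_lit 0) (nat_lit 0) (XT.lf (nat_lit 0) (nat_lit 5182661341) (nat_lit 1008) (nat_lit 16249836796) (nat_lit 1092) (nat_lit 24713437958) (nat_lit 73) (nat_lit 5) (nat_lit 85) (nat_lit 5) (nat_lit 86) (nat_lit 5) (nat_lit 382) (nat_lit 366) (nat_lit 140)) (XT.lf (nat_lit 0) (nat_lit 6762741707) (nat_lit 1008) (nat_lit 1254447551) (nat_lit 1092) (nat_lit 38969222319) (nat_lit 73) (nat_lit 5) (nat_lit 85) (nat_lit 5) (nat_lit 86) (nat_lit 5) (nat_lit 383) (nat_lit 366) (nat_lit 139))))) (XT.nd (nat_lit 282) (nat_lit 1176) (nat_lit 0) (XT.nd (nat_lit 94) (nat_lit 0) (nat_lit 0) (XT.lf (nat_lit 0) (nat_lit 8593739012) (nat_lit 1008) (nat_lit 33410592199) (nat_lit 84) (nat_lit 5842357671) (nat_lit 74) (nat_lit 5) (nat_lit 86) (nat_lit 5) (nat_lit 75) (nat_lit 5) (nat_lit 384) (nat_lit 366) (nat_lit 138)) (XT.nd (nat_lit 94) (nat_lit 0)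 (nat_lit 0) (XT.lf (nat_lit 0) (nat_lit 10575720059) (nat_lit 1008) (nat_lit 18176553932) (nat_lit 84) (nat_lit 19978446723) (nat_lit 74) (nat_lit 5) (nat_lit 86) (nat_lit 5) (nat_lit 75) (nat_lit 5) (nat_lit 385) (nat_lit 366) (nat_lit 137)) (XT.lf (nat_lit 0) (nat_lit 12618170706) (nat_lit 1008) (nat_lit 2471070927) (nat_lit 84) (nat_lit 34552952660) (nat_lit 74) (nat_lit 5) (nat_lit 86) (nat_lit 5) (nat_lit 75) (nat_lit 5) (nat_lit 386) (nat_lit 366) (nat_lit 136)))) (XT.nd (nat_lit 188) (nat_lit 504) (nat_lit 0) (XT.nd (nat_lit 94) (nat_lit 0) (nat_lit 0) (XT.lf (nat_lit 0) (nat_lit 14002617509) (nat_lit 672) (nat_lit 859284919) (nat_lit 756) (nat_lit 35715750638) (nat_lit 66) (nat_lit 5) (nat_lit 74) (nat_lit 5) (nat_lit 75) (nat_lit 5) (nat_lit 387) (nat_lit 366) (nat_lit 135)) (XT.lf (nat_lit 0) (nat_lit 17337340776) (nat_lit 756) (nat_lit 20640028729) (nat_lit 84) (nat_lit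 13559721118) (nat_lit 66) (nat_lit 5) (nat_lit 75) (nat_lit 5) (nat_lit 67) (nat_lit 5) (nat_lit 388) (nat_lit 366) (nat_lit 134))) (XT.nd (nat_lit 94) (nat_lit 504) (nat_lit 0) (XT.lf (nat_lit 0) (nat_lit 19897413312) (nat_lit 756) (nat_lit 4220615035) (nat_lit 84) (nat_lit 28408003687) (nat_lit 66) (nat_lit 5) (nat_lit 75) (nat_lit 5) (nat_lit 67) (nat_lit 5) (nat_lit 389) (nat_lit 366) (nat_lit 133)) (XT.lf (nat_lit 0) (nat_lit 12968317039) (nat_lit 504) (nat_lit 9696312349) (nat_lit 588) (nat_lit 30877045889) (nat_lit 60) (nat_lit 5) (nat_lit 66) (nat_lit 5) (nat_lit 67) (nat_lit 5) (nat_lit 390) (nat_lit 366) (nat_lit 132))))))))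
noncomputable def xc218 : XT := (XT.nd (nat_lit 2350) (nat_lit 840) (nat_lit 0) (XT.nd (nat_lit 1128) (nat_lit 1344) (nat_lit 0) (XT.nd (nat_lit 564) (nat_lit 420) (nat_lit 0) (XT.nd (nat_lit 282) (nat_lit 420) (nat_lit 0) (XT.nd (nat_lit 94) (nat_lit 420) (nat_lit 0) (XT.lf (nat_lit 0) (nat_lit 25612599296) (nat_lit 588) (nat_lit 23860410354) (nat_lit 84) (nat_lit 5112855432) (nat_lit 60) (nat_lit 5) (nat_lit 67) (nat_lit 5) (nat_lit 61) (nat_lit 5) (nat_lit 391) (nat_lit 366) (nat_lit 131)) (XT.nd (nat_lit 94) (nat_lit 420) (nat_lit 0) (XT.lf (nat_lit 0) (nat_lit 28750305575) (nat_lit 588) (nat_lit 6729298986) (nat_lit 84) (nat_lit 20179776902) (nat_lit 60) (nat_lit 5) (nat_lit 67) (nat_lit 5) (nat_lit 61) (nat_lit 5) (nat_lit 392) (nat_lit 366) (nat_lit 130)) (XT.lf (nat_lit 0) (nat_lit 11156919537) (nat_lit 420) (nat_lit 20938242765) (nat_lit 504) (nat_lit 24667613582) (nat_lit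 55) (nat_lit 5) (nat_lit 60) (nat_lit 5) (nat_lit 61) (nat_lit 5) (nat_lit 393) (nat_lit 366) (nat_lit 129)))) (XT.nd (nat_lit 94) (nat_lit 420) (nat_lit 0) (XT.lf (nat_lit 0) (nat_lit 29739531613) (nat_lit 420) (nat_lit 5873638222) (nat_lit 504) (nat_lit 22285057623) (nat_lit 55) (nat_lit 5) (nat_lit 60) (nat_lit 5) (nat_lit 61) (nat_lit 5) (nat_lit 394) (nat_lit 366) (nat_lit 128)) (XT.nd (nat_lit 94) (nat_lit 420) (nat_lit 0) (XT.lf (nat_lit 0) (nat_lit 39335287880) (nat_lit 504) (nat_lit 10267225187) (nat_lit 84) (nat_lit 9463423382) (nat_lit 55) (nat_lit 5) (nat_lit 61) (nat_lit 5) (nat_lit 56) (nat_lit 5) (nat_lit 395) (nat_lit 366) (nat_lit 127)) (XT.lf (nat_lit 0) (nat_lit 8285010851) (nat_lit 420) (nat_lit 35029309329) (nat_lit 504) (nat_lit 16951141741) (nat_lit 50) (nat_lit 5) (nat_lit 55) (nat_lit 5) (nat_lit 56) (nat_lit 5) (nat_lit 396) (nat_lit 366) (nat_lit 126)))))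 (XT.nd (nat_lit 282) (nat_lit 84) (nat_lit 0) (XT.nd (nat_lit 94) (nat_lit 336) (nat_lit 0) (XT.lf (nat_lit 0) (nat_lit 27629312073) (nat_lit 420) (nat_lit 19893840906) (nat_lit 504) (nat_lit 13975724477) (nat_lit 50) (nat_lit 5) (nat_lit 55) (nat_lit 5) (nat_lit 56) (nat_lit 5) (nat_lit 397) (nat_lit 366) (nat_lit 125)) (XT.nd (nat_lit 94) (nat_lit 336) (nat_lit 0) (XT.lf (nat_lit 0) (nat_lit 47572594188) (nat_lit 420) (nat_lit 4289168730) (nat_lit 504) (nat_lit 10908792152) (nat_lit 50) (nat_lit 5) (nat_lit 55) (nat_lit 5) (nat_lit 56) (nat_lit 5) (nat_lit 398) (nat_lit 366) (nat_lit 124)) (XT.lf (nat_lit 0) (nat_lit 4015622116) (nat_lit 336) (nat_lit 52475457431) (nat_lit 420) (nat_lit 7585737099) (nat_lit 46) (nat_lit 5) (nat_lit 50) (nat_lit 5) (nat_lit 51) (nat_lit 5) (nat_lit 399) (nat_lit 366) (nat_lit 123)))) (XT.nd (nat_lit 94) (nat_lit 84) (nat_lit 0) (XT.lf (nat_lit 0)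 (nat_lit 24101554832) (nat_lit 336) (nat_lit 37363747465) (nat_lit 420) (nat_lit 3952031044) (nat_lit 46) (nat_lit 5) (nat_lit 50) (nat_lit 5) (nat_lit 51) (nat_lit 5) (nat_lit 400) (nat_lit 366) (nat_lit 122)) (XT.nd (nat_lit 94) (nat_lit 84) (nat_lit 0) (XT.lf (nat_lit 0) (nat_lit 44809482193) (nat_lit 336) (nat_lit 21783601452) (nat_lit 420) (nat_lit 206346515) (nat_lit 46) (nat_lit 5) (nat_lit 50) (nat_lit 5) (nat_lit 51) (nat_lit 5) (nat_lit 401) (nat_lit 366) (nat_lit 121)) (XT.lf (nat_lit 0) (nat_lit 3581171623) (nat_lit 420) (nat_lit 2101945354) (nat_lit 84) (nat_lit 62540154446) (nat_lit 45) (nat_lit 5) (nat_lit 50) (nat_lit 5) (nat_lit 46) (nat_lit 5) (nat_lit 402) (nat_lit 366) (nat_lit 120)))))) (XT.nd (nat_lit 564) (nat_lit 588) (nat_lit 0) (XT.nd (nat_lit 282) (nat_lit 336) (nat_lit 0) (XT.nd (nat_lit 94) (nat_lit 0) (nat_lit 0) (XT.lf (nat_lit 0) (nat_lit 7777703306)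 (nat_lit 504) (nat_lit 51017486803) (nat_lit 84) (nat_lit 10886827571) (nat_lit 40) (nat_lit 5) (nat_lit 46) (nat_lit 5) (nat_lit 41) (nat_lit 5) (nat_lit 403) (nat_lit 366) (nat_lit 119)) (XT.nd (nat_lit 94) (nat_lit 0) (nat_lit 0) (XT.lf (nat_lit 0) (nat_lit 12184014229) (nat_lit 504) (nat_lit 31124987789) (nat_lit 84) (nat_lit 27874516477) (nat_lit 40) (nat_lit 5) (nat_lit 46) (nat_lit 5) (nat_lit 41) (nat_lit 5) (nat_lit 404) (nat_lit 366) (nat_lit 118)) (XT.lf (nat_lit 0) (nat_lit 16726336354) (nat_lit 504) (nat_lit 10616462972) (nat_lit 84) (nat_lit 45388788229) (nat_lit 40) (nat_lit 5) (nat_lit 46) (nat_lit 5) (nat_lit 41) (nat_lit 5) (nat_lit 405) (nat_lit 366) (nat_lit 117)))) (XT.nd (nat_lit 94) (nat_lit 0) (nat_lit 0) (XT.lf (nat_lit 0) (nat_lit 10743664642) (nat_lit 336) (nat_lit 10771817442) (nat_lit 420) (nat_lit 52808881804) (nat_lit 36) (nat_lit 5) (nat_lit 40) (nat_lit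 5) (nat_lit 41) (nat_lit 5) (nat_lit 406) (nat_lit 366) (nat_lit 116)) (XT.nd (nat_lit 94) (nat_lit 0) (nat_lit 0) (XT.lf (nat_lit 0) (nat_lit 26627106674) (nat_lit 420) (nat_lit 43036455268) (nat_lit 84) (nat_lit 6297563259) (nat_lit 36) (nat_lit 5) (nat_lit 41) (nat_lit 5) (nat_lit 37) (nat_lit 5) (nat_lit 407) (nat_lit 366) (nat_lit 115)) (XT.lf (nat_lit 0) (nat_lit 32006822186) (nat_lit 420) (nat_lit 21966127049) (nat_lit 84) (nat_lit 23672281619) (nat_lit 36) (nat_lit 5) (nat_lit 41) (nat_lit 5) (nat_lit 37) (nat_lit 5) (nat_lit 408) (nat_lit 366) (nat_lit 114))))) (XT.nd (nat_lit 282) (nat_lit 252) (nat_lit 0) (XT.nd (nat_lit 94) (nat_lit 336) (nat_lit 0) (XT.lf (nat_lit 0) (nat_lit 37552785316) (nat_lit 420) (nat_lit 243217075) (nat_lit 84) (nat_lit 41585560809) (nat_lit 36) (nat_lit 5) (nat_lit 41) (nat_lit 5) (nat_lit 37) (nat_lit 5) (nat_lit 409) (nat_lit 366) (nat_lit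 113)) (XT.nd (nat_lit 94) (nat_lit 0) (nat_lit 0) (XT.lf (nat_lit 0) (nat_lit 22608023980) (nat_lit 336) (nat_lit 20886415898) (nat_lit 420) (nat_lit 37670348300) (nat_lit 32) (nat_lit 5) (nat_lit 36) (nat_lit 5) (nat_lit 37) (nat_lit 5) (nat_lit 410) (nat_lit 366) (nat_lit 112)) (XT.lf (nat_lit 0) (nat_lit 46172235034) (nat_lit 336) (nat_lit 3450091135) (nat_lit 420) (nat_lit 33380906706) (nat_lit 32) (nat_lit 5) (nat_lit 36) (nat_lit 5) (nat_lit 37) (nat_lit 5) (nat_lit 411) (nat_lit 366) (nat_lit 111)))) (XT.nd (nat_lit 188) (nat_lit 0) (nat_lit 0) (XT.nd (nat_lit 94) (nat_lit 252) (nat_lit 0) (XT.lf (nat_lit 0) (nat_lit 56083800186) (nat_lit 420) (nat_lit 14576414414) (nat_lit 84) (nat_lit 14234005346) (nat_lit 32) (nat_lit 5) (nat_lit 37) (nat_lit 5) (nat_lit 33) (nat_lit 5) (nat_lit 412) (nat_lit 366) (nat_lit 110)) (XT.lf (nat_lit 0) (nat_lit 8503545108) (nat_lit 252) (nat_lit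 54361207874) (nat_lit 336) (nat_lit 23975383090) (nat_lit 29) (nat_lit 5) (nat_lit 32) (nat_lit 5) (nat_lit 33) (nat_lit 5) (nat_lit 413) (nat_lit 366) (nat_lit 109))) (XT.nd (nat_lit 94) (nat_lit 0) (nat_lit 0) (XT.lf (nat_lit 0) (nat_lit 32607444184) (nat_lit 252) (nat_lit 37400158196) (nat_lit 336) (nat_lit 18834073655) (nat_lit 29) (nat_lit 5) (nat_lit 32) (nat_lit 5) (nat_lit 33) (nat_lit 5) (nat_lit 414) (nat_lit 366) (nat_lit 108)) (XT.lf (nat_lit 0) (nat_lit 57458029196) (nat_lit 252) (nat_lit 19913403962) (nat_lit 336) (nat_lit 13533847089) (nat_lit 29) (nat_lit 5) (nat_lit 32) (nat_lit 5) (nat_lit 33) (nat_lit 5) (nat_lit 415) (nat_lit 366) (nat_lit 107))))))) (XT.nd (nat_lit 51230) (nat_lit 0) (nat_lit 4452) (XT.nd (nat_lit 564) (nat_lit 252) (nat_lit 0) (XT.nd (nat_lit 282) (nat_lit 252) (nat_lit 0) (XT.nd (nat_lit 94) (nat_lit 336) (nat_lit 0) (XT.lf (nat_lit 0) (nat_lit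 83078463493) (nat_lit 252) (nat_lit 1884645684) (nat_lit 336) (nat_lit 8069763024) (nat_lit 29) (nat_lit 5) (nat_lit 32) (nat_lit 5) (nat_lit 33) (nat_lit 5) (nat_lit 416) (nat_lit 366) (nat_lit 106)) (XT.nd (nat_lit 94) (nat_lit 84) (nat_lit 0) (XT.lf (nat_lit 0) (nat_lit 14390433071) (nat_lit 252) (nat_lit 78707723531) (nat_lit 336) (nat_lit 2118716491) (nat_lit 26) (nat_lit 5) (nat_lit 29) (nat_lit 5) (nat_lit 30) (nat_lit 5) (nat_lit 417) (nat_lit 366) (nat_lit 105)) (XT.lf (nat_lit 0) (nat_lit 4059704135) (nat_lit 336) (nat_lit 57825072984) (nat_lit 84) (nat_lit 35578729509) (nat_lit 25) (nat_lit 5) (nat_lit 29) (nat_lit 5) (nat_lit 26) (nat_lit 5) (nat_lit 418) (nat_lit 366) (nat_lit 104)))) (XT.nd (nat_lit 94) (nat_lit 252) (nat_lit 0) (XT.lf (nat_lit 0) (nat_lit 10385237393) (nat_lit 336) (nat_lit 34132841016) (nat_lit 84) (nat_lit 55261050558) (nat_lit 25) (nat_lit 5) (nat_lit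 29) (nat_lit 5) (nat_lit 26) (nat_lit 5) (nat_lit 419) (nat_lit 366) (nat_lit 103)) (XT.nd (nat_lit 94) (nat_lit 252) (nat_lit 0) (XT.lf (nat_lit 0) (nat_lit 16906466756) (nat_lit 336) (nat_lit 9706642545) (nat_lit 84) (nat_lit 75553440765) (nat_lit 25) (nat_lit 5) (nat_lit 29) (nat_lit 5) (nat_lit 26) (nat_lit 5) (nat_lit 420) (nat_lit 366) (nat_lit 102)) (XT.lf (nat_lit 0) (nat_lit 15794514471) (nat_lit 252) (nat_lit 7991639761) (nat_lit 336) (nat_lit 80836983830) (nat_lit 22) (nat_lit 5) (nat_lit 25) (nat_lit 5) (nat_lit 26) (nat_lit 5) (nat_lit 421) (nat_lit 366) (nat_lit 101))))) (XT.nd (nat_lit 282) (nat_lit 252) (nat_lit 0) (XT.nd (nat_lit 94) (nat_lit 0) (nat_lit 0) (XT.lf (nat_lit 0) (nat_lit 31092263822) (nat_lit 336) (nat_lit 64973454219) (nat_lit 84) (nat_lit 11083556619) (nat_lit 22) (nat_lit 5) (nat_lit 26) (nat_lit 5) (nat_lit 23) (nat_lit 5) (nat_lit 422) (nat_lit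 366) (nat_lit 100)) (XT.nd (nat_lit 94) (nat_lit 0) (nat_lit 0) (XT.lf (nat_lit 0) (nat_lit 38706232187) (nat_lit 336) (nat_lit 40460981500) (nat_lit 84) (nat_lit 30583987371) (nat_lit 22) (nat_lit 5) (nat_lit 26) (nat_lit 5) (nat_lit 23) (nat_lit 5) (nat_lit 423) (nat_lit 366) (nat_lit 99)) (XT.lf (nat_lit 0) (nat_lit 46555878288) (nat_lit 336) (nat_lit 15189079187) (nat_lit 84) (nat_lit 50688842668) (nat_lit 22) (nat_lit 5) (nat_lit 26) (nat_lit 5) (nat_lit 23) (nat_lit 5) (nat_lit 424) (nat_lit 366) (nat_lit 98)))) (XT.nd (nat_lit 188) (nat_lit 0) (nat_lit 0) (XT.nd (nat_lit 94) (nat_lit 0) (nat_lit 0) (XT.lf (nat_lit 0) (nat_lit 11089232093) (nat_lit 252) (nat_lit 43669293280) (nat_lit 336) (nat_lit 60437636804) (nat_lit 19) (nat_lit 5) (nat_lit 22) (nat_lit 5) (nat_lit 23) (nat_lit 5) (nat_lit 425) (nat_lit 366) (nat_lit 97)) (XT.lf (nat_lit 0) (nat_lit 38503732692) (nat_lit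 252) (nat_lit 24869926069) (nat_lit 336) (nat_lit 54665596182) (nat_lit 19) (nat_lit 5) (nat_lit 22) (nat_lit 5) (nat_lit 23) (nat_lit 5) (nat_lit 426) (nat_lit 366) (nat_lit 96))) (XT.nd (nat_lit 50102) (nat_lit 0) (nat_lit 5208) (XT.lf (nat_lit 0) (nat_lit 66767657175) (nat_lit 252) (nat_lit 5487875698) (nat_lit 336) (nat_lit 48714962678) (nat_lit 19) (nat_lit 5) (nat_lit 22) (nat_lit 5) (nat_lit 23) (nat_lit 5) (nat_lit 427) (nat_lit 366) (nat_lit 95)) (XT.lf (nat_lit 0) (nat_lit 7642699420) (nat_lit 0) (nat_lit 7642699420) (nat_lit 924) (nat_lit 2959174967) (nat_lit 81) (nat_lit 5) (nat_lit 81) (nat_lit 3) (nat_lit 92) (nat_lit 3) (nat_lit 367) (nat_lit 367) (nat_lit 154)))))) (XT.nd (nat_lit 564) (nat_lit 756) (nat_lit 0) (XT.nd (nat_lit 282) (nat_lit 0) (nat_lit 0) (XT.nd (nat_lit 94) (nat_lit 0) (nat_lit 0) (XT.lf (nat_lit 0) (nat_lit 27493549153) (nat_lit 0) (nat_lit 3588997453)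 (nat_lit 924) (nat_lit 5970731257) (nat_lit 81) (nat_lit 5) (nat_lit 81) (nat_lit 3) (nat_lit 92) (nat_lit 3) (nat_lit 368) (nat_lit 367) (nat_lit 153)) (XT.nd (nat_lit 94) (nat_lit 0) (nat_lit 0) (XT.lf (nat_lit 84) (nat_lit 2408937631) (nat_lit 0) (nat_lit 29307622759) (nat_lit 1008) (nat_lit 5915048482) (nat_lit 82) (nat_lit 5) (nat_lit 81) (nat_lit 5) (nat_lit 93) (nat_lit 5) (nat_lit 369) (nat_lit 367) (nat_lit 152)) (XT.lf (nat_lit 84) (nat_lit 14913010785) (nat_lit 0) (nat_lit 17591855011) (nat_lit 1008) (nat_lit 5718839403) (nat_lit 82) (nat_lit 5) (nat_lit 81) (nat_lit 5) (nat_lit 93) (nat_lit 5) (nat_lit 370) (nat_lit 367) (nat_lit 151)))) (XT.nd (nat_lit 94) (nat_lit 0) (nat_lit 84) (XT.lf (nat_lit 84) (nat_lit 27803913603) (nat_lit 0) (nat_lit 5512257490) (nat_lit 1008) (nat_lit 5518040470) (nat_lit 82) (nat_lit 5) (nat_lit 81) (nat_lit 5) (nat_lit 93) (nat_lit 5) (nat_lit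 371) (nat_lit 367) (nat_lit 150)) (XT.nd (nat_lit 94) (nat_lit 0) (nat_lit 0) (XT.lf (nat_lit 84) (nat_lit 1593194293) (nat_lit 0) (nat_lit 32642712651) (nat_lit 1008) (nat_lit 5225165168) (nat_lit 83) (nat_lit 5) (nat_lit 82) (nat_lit 5) (nat_lit 94) (nat_lit 5) (nat_lit 372) (nat_lit 367) (nat_lit 149)) (XT.lf (nat_lit 84) (nat_lit 14783490877) (nat_lit 0) (nat_lit 20570249456) (nat_lit 1008) (nat_lit 4748377711) (nat_lit 83) (nat_lit 5) (nat_lit 82) (nat_lit 5) (nat_lit 94) (nat_lit 5) (nat_lit 373) (nat_lit 367) (nat_lit 148))))) (XT.nd (nat_lit 282) (nat_lit 840) (nat_lit 0) (XT.nd (nat_lit 94) (nat_lit 0) (nat_lit 84) (XT.lf (nat_lit 84) (nat_lit 28381887637) (nat_lit 0) (nat_lit 8123025034) (nat_lit 1008) (nat_lit 4258174027) (nat_lit 83) (nat_lit 5) (nat_lit 82) (nat_lit 5) (nat_lit 94) (nat_lit 5) (nat_lit 374) (nat_lit 367) (nat_lit 147)) (XT.nd (nat_lit 94) (nat_lit 0)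 (nat_lit 0) (XT.lf (nat_lit 84) (nat_lit 928442211) (nat_lit 0) (nat_lit 36817994386) (nat_lit 1008) (nat_lit 3696423440) (nat_lit 84) (nat_lit 5) (nat_lit 83) (nat_lit 5) (nat_lit 95) (nat_lit 5) (nat_lit 375) (nat_lit 367) (nat_lit 146)) (XT.lf (nat_lit 84) (nat_lit 14827549214) (nat_lit 0) (nat_lit 24409131815) (nat_lit 1008) (nat_lit 2900517093) (nat_lit 84) (nat_lit 5) (nat_lit 83) (nat_lit 5) (nat_lit 95) (nat_lit 5) (nat_lit 376) (nat_lit 367) (nat_lit 145)))) (XT.nd (nat_lit 188) (nat_lit 924) (nat_lit 0) (XT.nd (nat_lit 94) (nat_lit 0) (nat_lit 84) (XT.lf (nat_lit 84) (nat_lit 29156732856) (nat_lit 0) (nat_lit 11615188051) (nat_lit 1008) (nat_lit 2081185775) (nat_lit 84) (nat_lit 5) (nat_lit 83) (nat_lit 5) (nat_lit 95) (nat_lit 5) (nat_lit 377) (nat_lit 367) (nat_lit 144)) (XT.lf (nat_lit 84) (nat_lit 329095195) (nat_lit 0) (nat_lit 42043388463) (nat_lit 1008) (nat_lit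 1218183573) (nat_lit 85) (nat_lit 5) (nat_lit 84) (nat_lit 5) (nat_lit 96) (nat_lit 5) (nat_lit 378) (nat_lit 367) (nat_lit 143))) (XT.nd (nat_lit 94) (nat_lit 1008) (nat_lit 0) (XT.lf (nat_lit 84) (nat_lit 14957658971) (nat_lit 0) (nat_lit 29324425096) (nat_lit 1008) (nat_lit 60974278) (nat_lit 85) (nat_lit 5) (nat_lit 84) (nat_lit 5) (nat_lit 96) (nat_lit 5) (nat_lit 379) (nat_lit 367) (nat_lit 142)) (XT.lf (nat_lit 0) (nat_lit 1108178920) (nat_lit 1008) (nat_lit 15091114332) (nat_lit 1092) (nat_lit 28919174631) (nat_lit 72) (nat_lit 5) (nat_lit 84) (nat_lit 5) (nat_lit 85) (nat_lit 5) (nat_lit 380) (nat_lit 367) (nat_lit 141))))))))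
noncomputable def xc219 : XT := (XT.nd (nat_lit 2444) (nat_lit 1764) (nat_lit 0) (XT.nd (nat_lit 1222) (nat_lit 1680) (nat_lit 0) (XT.nd (nat_lit 564) (nat_lit 1008) (nat_lit 0) (XT.nd (nat_lit 282) (nat_lit 0) (nat_lit 84) (XT.nd (nat_lit 94) (nat_lit 0) (nat_lit 84) (XT.lf (nat_lit 0) (nat_lit 2311222847) (nat_lit 1008) (nat_lit 355123790) (nat_lit 1092) (nat_lit 43251590322) (nat_lit 72) (nat_lit 5) (nat_lit 84) (nat_lit 5) (nat_lit 85) (nat_lit 5) (nat_lit 381) (nat_lit 367) (nat_lit 140)) (XT.nd (nat_lit 94) (nat_lit 0) (nat_lit 0) (XT.lf (nat_lit 0) (nat_lit 3814216612) (nat_lit 1008) (nat_lit 31709081861) (nat_lit 1092) (nat_lit 11210756052) (nat_lit 73) (nat_lit 5) (nat_lit 85) (nat_lit 5) (nat_lit 86) (nat_lit 5) (nat_lit 382) (nat_lit 367) (nat_lit 139)) (XT.lf (nat_lit 0) (nat_lit 5393791318) (nat_lit 1008) (nat_lit 16714088321) (nat_lit 1092) (nat_lit 25466669515) (nat_lit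 73) (nat_lit 5) (nat_lit 85) (nat_lit 5) (nat_lit 86) (nat_lit 5) (nat_lit 383) (nat_lit 367) (nat_lit 138)))) (XT.nd (nat_lit 94) (nat_lit 0) (nat_lit 84) (XT.lf (nat_lit 0) (nat_lit 7021336725) (nat_lit 1008) (nat_lit 1255029494) (nat_lit 1092) (nat_lit 40164770616) (nat_lit 73) (nat_lit 5) (nat_lit 85) (nat_lit 5) (nat_lit 86) (nat_lit 5) (nat_lit 384) (nat_lit 367) (nat_lit 137)) (XT.nd (nat_lit 94) (nat_lit 0) (nat_lit 0) (XT.lf (nat_lit 0) (nat_lit 8907900705) (nat_lit 1008) (nat_lit 34406494439) (nat_lit 84) (nat_lit 6013734717) (nat_lit 74) (nat_lit 5) (nat_lit 86) (nat_lit 5) (nat_lit 75) (nat_lit 5) (nat_lit 385) (nat_lit 367) (nat_lit 136)) (XT.lf (nat_lit 0) (nat_lit 10949887249) (nat_lit 1008) (nat_lit 18701398474) (nat_lit 84) (nat_lit 20588335271) (nat_lit 74) (nat_lit 5) (nat_lit 86) (nat_lit 5) (nat_lit 75) (nat_lit 5) (nat_lit 386) (nat_lit 367) (nat_lit 135)))))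 (XT.nd (nat_lit 282) (nat_lit 504) (nat_lit 0) (XT.nd (nat_lit 94) (nat_lit 672) (nat_lit 0) (XT.lf (nat_lit 0) (nat_lit 13054261125) (nat_lit 1008) (nat_lit 2510206977) (nat_lit 84) (nat_lit 35614934833) (nat_lit 74) (nat_lit 5) (nat_lit 86) (nat_lit 5) (nat_lit 75) (nat_lit 5) (nat_lit 387) (nat_lit 367) (nat_lit 134)) (XT.nd (nat_lit 94) (nat_lit 0) (nat_lit 0) (XT.lf (nat_lit 0) (nat_lit 14473786480) (nat_lit 672) (nat_lit 892779103) (nat_lit 756) (nat_lit 36777335039) (nat_lit 66) (nat_lit 5) (nat_lit 74) (nat_lit 5) (nat_lit 75) (nat_lit 5) (nat_lit 388) (nat_lit 367) (nat_lit 133)) (XT.lf (nat_lit 0) (nat_lit 17917355240) (nat_lit 756) (nat_lit 21242221188) (nat_lit 84) (nat_lit 13973556263) (nat_lit 66) (nat_lit 5) (nat_lit 75) (nat_lit 5) (nat_lit 67) (nat_lit 5) (nat_lit 389) (nat_lit 367) (nat_lit 132)))) (XT.nd (nat_lit 188) (nat_lit 0) (nat_lit 0) (XT.nd (nat_lit 94)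 (nat_lit 504) (nat_lit 0) (XT.lf (nat_lit 0) (nat_lit 20555510427) (nat_lit 756) (nat_lit 4314937679) (nat_lit 84) (nat_lit 29282331521) (nat_lit 66) (nat_lit 5) (nat_lit 75) (nat_lit 5) (nat_lit 67) (nat_lit 5) (nat_lit 390) (nat_lit 367) (nat_lit 131)) (XT.lf (nat_lit 0) (nat_lit 13406481593) (nat_lit 504) (nat_lit 10001146067) (nat_lit 588) (nat_lit 31792315923) (nat_lit 60) (nat_lit 5) (nat_lit 66) (nat_lit 5) (nat_lit 67) (nat_lit 5) (nat_lit 391) (nat_lit 367) (nat_lit 130))) (XT.nd (nat_lit 94) (nat_lit 0) (nat_lit 0) (XT.lf (nat_lit 0) (nat_lit 26445729176) (nat_lit 588) (nat_lit 24563504516) (nat_lit 84) (nat_lit 5267316659) (nat_lit 60) (nat_lit 5) (nat_lit 67) (nat_lit 5) (nat_lit 61) (nat_lit 5) (nat_lit 392) (nat_lit 367) (nat_lit 129)) (XT.lf (nat_lit 0) (nat_lit 29679527514) (nat_lit 588) (nat_lit 6902428536) (nat_lit 84) (nat_lit 20801434088) (nat_lit 60) (nat_lit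 5) (nat_lit 67) (nat_lit 5) (nat_lit 61) (nat_lit 5) (nat_lit 393) (nat_lit 367) (nat_lit 128)))))) (XT.nd (nat_lit 564) (nat_lit 840) (nat_lit 0) (XT.nd (nat_lit 282) (nat_lit 420) (nat_lit 0) (XT.nd (nat_lit 94) (nat_lit 0) (nat_lit 0) (XT.lf (nat_lit 0) (nat_lit 11537903571) (nat_lit 420) (nat_lit 21589378166) (nat_lit 504) (nat_lit 25393740309) (nat_lit 55) (nat_lit 5) (nat_lit 60) (nat_lit 5) (nat_lit 61) (nat_lit 5) (nat_lit 394) (nat_lit 367) (nat_lit 127)) (XT.nd (nat_lit 94) (nat_lit 0) (nat_lit 0) (XT.lf (nat_lit 0) (nat_lit 30695520651) (nat_lit 420) (nat_lit 6057709246) (nat_lit 504) (nat_lit 22938484813) (nat_lit 55) (nat_lit 5) (nat_lit 60) (nat_lit 5) (nat_lit 61) (nat_lit 5) (nat_lit 395) (nat_lit 367) (nat_lit 126)) (XT.lf (nat_lit 0) (nat_lit 40589630470) (nat_lit 504) (nat_lit 10551133726) (nat_lit 84) (nat_lit 9754899903) (nat_lit 55) (nat_lit 5) (nat_lit 61)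 (nat_lit 5) (nat_lit 56) (nat_lit 5) (nat_lit 396) (nat_lit 367) (nat_lit 125)))) (XT.nd (nat_lit 94) (nat_lit 0) (nat_lit 0) (XT.lf (nat_lit 0) (nat_lit 8575873608) (nat_lit 420) (nat_lit 36115425887) (nat_lit 504) (nat_lit 17441104483) (nat_lit 50) (nat_lit 5) (nat_lit 55) (nat_lit 5) (nat_lit 56) (nat_lit 5) (nat_lit 397) (nat_lit 367) (nat_lit 124)) (XT.nd (nat_lit 94) (nat_lit 0) (nat_lit 0) (XT.lf (nat_lit 0) (nat_lit 28518825036) (nat_lit 420) (nat_lit 20510751689) (nat_lit 504) (nat_lit 14374517376) (nat_lit 50) (nat_lit 5) (nat_lit 55) (nat_lit 5) (nat_lit 56) (nat_lit 5) (nat_lit 398) (nat_lit 367) (nat_lit 123)) (XT.lf (nat_lit 0) (nat_lit 49079356526) (nat_lit 420) (nat_lit 4422328611) (nat_lit 504) (nat_lit 11213546124) (nat_lit 50) (nat_lit 5) (nat_lit 55) (nat_lit 5) (nat_lit 56) (nat_lit 5) (nat_lit 399) (nat_lit 367) (nat_lit 122))))) (XT.nd (nat_lit 282) (nat_lit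 504) (nat_lit 0) (XT.nd (nat_lit 94) (nat_lit 0) (nat_lit 0) (XT.lf (nat_lit 0) (nat_lit 4172994905) (nat_lit 336) (nat_lit 54100871639) (nat_lit 420) (nat_lit 7788146760) (nat_lit 46) (nat_lit 5) (nat_lit 50) (nat_lit 5) (nat_lit 51) (nat_lit 5) (nat_lit 400) (nat_lit 367) (nat_lit 121)) (XT.nd (nat_lit 94) (nat_lit 0) (nat_lit 0) (XT.lf (nat_lit 0) (nat_lit 24880602647) (nat_lit 336) (nat_lit 38520738503) (nat_lit 420) (nat_lit 4042780486) (nat_lit 46) (nat_lit 5) (nat_lit 50) (nat_lit 5) (nat_lit 51) (nat_lit 5) (nat_lit 401) (nat_lit 367) (nat_lit 120)) (XT.lf (nat_lit 0) (nat_lit 46229516602) (nat_lit 336) (nat_lit 22457646605) (nat_lit 420) (nat_lit 181934800) (nat_lit 46) (nat_lit 5) (nat_lit 50) (nat_lit 5) (nat_lit 51) (nat_lit 5) (nat_lit 402) (nat_lit 367) (nat_lit 119)))) (XT.nd (nat_lit 188) (nat_lit 0) (nat_lit 0) (XT.nd (nat_lit 94) (nat_lit 420) (nat_lit 0) (XT.lf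 (nat_lit 0) (nat_lit 3721467998) (nat_lit 420) (nat_lit 2136310970) (nat_lit 84) (nat_lit 64479323702) (nat_lit 45) (nat_lit 5) (nat_lit 50) (nat_lit 5) (nat_lit 46) (nat_lit 5) (nat_lit 403) (nat_lit 367) (nat_lit 118)) (XT.lf (nat_lit 0) (nat_lit 8047531834) (nat_lit 504) (nat_lit 52567496874) (nat_lit 84) (nat_lit 11226064209) (nat_lit 40) (nat_lit 5) (nat_lit 46) (nat_lit 5) (nat_lit 41) (nat_lit 5) (nat_lit 404) (nat_lit 367) (nat_lit 117))) (XT.nd (nat_lit 94) (nat_lit 0) (nat_lit 0) (XT.lf (nat_lit 0) (nat_lit 12589574854) (nat_lit 504) (nat_lit 32059278493) (nat_lit 84) (nat_lit 28740319003) (nat_lit 40) (nat_lit 5) (nat_lit 46) (nat_lit 5) (nat_lit 41) (nat_lit 5) (nat_lit 405) (nat_lit 367) (nat_lit 116)) (XT.lf (nat_lit 0) (nat_lit 17271871388) (nat_lit 504) (nat_lit 10915909000) (nat_lit 84) (nat_lit 46797482289) (nat_lit 40) (nat_lit 5) (nat_lit 46) (nat_lit 5) (nat_lit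 41) (nat_lit 5) (nat_lit 406) (nat_lit 367) (nat_lit 115))))))) (XT.nd (nat_lit 1222) (nat_lit 504) (nat_lit 0) (XT.nd (nat_lit 564) (nat_lit 588) (nat_lit 0) (XT.nd (nat_lit 282) (nat_lit 336) (nat_lit 0) (XT.nd (nat_lit 94) (nat_lit 0) (nat_lit 0) (XT.lf (nat_lit 0) (nat_lit 11106082245) (nat_lit 336) (nat_lit 11102877292) (nat_lit 420) (nat_lit 54418476700) (nat_lit 36) (nat_lit 5) (nat_lit 40) (nat_lit 5) (nat_lit 41) (nat_lit 5) (nat_lit 407) (nat_lit 367) (nat_lit 114)) (XT.nd (nat_lit 94) (nat_lit 0) (nat_lit 0) (XT.lf (nat_lit 0) (nat_lit 27478275347) (nat_lit 420) (nat_lit 44341178499) (nat_lit 84) (nat_lit 6495512004) (nat_lit 36) (nat_lit 5) (nat_lit 41) (nat_lit 5) (nat_lit 37) (nat_lit 5) (nat_lit 408) (nat_lit 367) (nat_lit 113)) (XT.lf (nat_lit 0) (nat_lit 33023988442) (nat_lit 420) (nat_lit 22618554309) (nat_lit 84) (nat_lit 24408764720) (nat_lit 36) (nat_lit 5) (nat_lit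 41) (nat_lit 5) (nat_lit 37) (nat_lit 5) (nat_lit 409) (nat_lit 367) (nat_lit 112)))) (XT.nd (nat_lit 94) (nat_lit 336) (nat_lit 0) (XT.lf (nat_lit 0) (nat_lit 38741126091) (nat_lit 420) (nat_lit 223091743) (nat_lit 84) (nat_lit 42877276115) (nat_lit 36) (nat_lit 5) (nat_lit 41) (nat_lit 5) (nat_lit 37) (nat_lit 5) (nat_lit 410) (nat_lit 367) (nat_lit 111)) (XT.nd (nat_lit 94) (nat_lit 0) (nat_lit 0) (XT.lf (nat_lit 0) (nat_lit 23336257701) (nat_lit 336) (nat_lit 21530258130) (nat_lit 420) (nat_lit 38813501640) (nat_lit 32) (nat_lit 5) (nat_lit 36) (nat_lit 5) (nat_lit 37) (nat_lit 5) (nat_lit 411) (nat_lit 367) (nat_lit 110)) (XT.lf (nat_lit 0) (nat_lit 47630135889) (nat_lit 336) (nat_lit 3553516646) (nat_lit 420) (nat_lit 34391827853) (nat_lit 32) (nat_lit 5) (nat_lit 36) (nat_lit 5) (nat_lit 37) (nat_lit 5) (nat_lit 412) (nat_lit 367) (nat_lit 109))))) (XT.nd (nat_lit 282) (nat_lit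 336) (nat_lit 0) (XT.nd (nat_lit 94) (nat_lit 252) (nat_lit 0) (XT.lf (nat_lit 0) (nat_lit 57844773594) (nat_lit 420) (nat_lit 15001727214) (nat_lit 84) (nat_lit 14678611837) (nat_lit 32) (nat_lit 5) (nat_lit 37) (nat_lit 5) (nat_lit 33) (nat_lit 5) (nat_lit 413) (nat_lit 367) (nat_lit 108)) (XT.nd (nat_lit 94) (nat_lit 0) (nat_lit 0) (XT.lf (nat_lit 0) (nat_lit 8793442197) (nat_lit 252) (nat_lit 56042081715) (nat_lit 336) (nat_lit 24695845075) (nat_lit 29) (nat_lit 5) (nat_lit 32) (nat_lit 5) (nat_lit 33) (nat_lit 5) (nat_lit 414) (nat_lit 367) (nat_lit 107)) (XT.lf (nat_lit 0) (nat_lit 33643771744) (nat_lit 252) (nat_lit 38555369498) (nat_lit 336) (nat_lit 19395839840) (nat_lit 29) (nat_lit 5) (nat_lit 32) (nat_lit 5) (nat_lit 33) (nat_lit 5) (nat_lit 415) (nat_lit 367) (nat_lit 106)))) (XT.nd (nat_lit 188) (nat_lit 336) (nat_lit 0) (XT.nd (nat_lit 94) (nat_lit 0) (nat_lit 0) (XT.lf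 (nat_lit 0) (nat_lit 59263958257) (nat_lit 252) (nat_lit 20526651976) (nat_lit 336) (nat_lit 13931970453) (nat_lit 29) (nat_lit 5) (nat_lit 32) (nat_lit 5) (nat_lit 33) (nat_lit 5) (nat_lit 416) (nat_lit 367) (nat_lit 105)) (XT.lf (nat_lit 0) (nat_lit 85677882433) (nat_lit 252) (nat_lit 1939124493) (nat_lit 336) (nat_lit 8299144015) (nat_lit 29) (nat_lit 5) (nat_lit 32) (nat_lit 5) (nat_lit 33) (nat_lit 5) (nat_lit 417) (nat_lit 367) (nat_lit 104))) (XT.nd (nat_lit 94) (nat_lit 84) (nat_lit 0) (XT.lf (nat_lit 0) (nat_lit 14860974290) (nat_lit 252) (nat_lit 81142944316) (nat_lit 336) (nat_lit 2163950821) (nat_lit 26) (nat_lit 5) (nat_lit 29) (nat_lit 5) (nat_lit 30) (nat_lit 5) (nat_lit 418) (nat_lit 367) (nat_lit 103)) (XT.lf (nat_lit 0) (nat_lit 4204986527) (nat_lit 336) (nat_lit 59593439093) (nat_lit 84) (nat_lit 36685738735) (nat_lit 25) (nat_lit 5) (nat_lit 29) (nat_lit 5) (nat_lit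 26) (nat_lit 5) (nat_lit 419) (nat_lit 367) (nat_lit 102)))))) (XT.nd (nat_lit 564) (nat_lit 252) (nat_lit 0) (XT.nd (nat_lit 282) (nat_lit 0) (nat_lit 0) (XT.nd (nat_lit 94) (nat_lit 252) (nat_lit 0) (XT.lf (nat_lit 0) (nat_lit 10726027049) (nat_lit 336) (nat_lit 35167475912) (nat_lit 84) (nat_lit 56978089402) (nat_lit 25) (nat_lit 5) (nat_lit 29) (nat_lit 5) (nat_lit 26) (nat_lit 5) (nat_lit 420) (nat_lit 367) (nat_lit 101)) (XT.nd (nat_lit 94) (nat_lit 252) (nat_lit 0) (XT.lf (nat_lit 0) (nat_lit 17448847824) (nat_lit 336) (nat_lit 9984771378) (nat_lit 84) (nat_lit 77899425049) (nat_lit 25) (nat_lit 5) (nat_lit 29) (nat_lit 5) (nat_lit 26) (nat_lit 5) (nat_lit 421) (nat_lit 367) (nat_lit 100)) (XT.lf (nat_lit 0) (nat_lit 16306690908) (nat_lit 252) (nat_lit 8234788709) (nat_lit 336) (nat_lit 83324320036) (nat_lit 22) (nat_lit 5) (nat_lit 25) (nat_lit 5) (nat_lit 26) (nat_lit 5)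 (nat_lit 422) (nat_lit 367) (nat_lit 99)))) (XT.nd (nat_lit 94) (nat_lit 0) (nat_lit 0) (XT.lf (nat_lit 0) (nat_lit 32073582929) (nat_lit 336) (nat_lit 66965170945) (nat_lit 84) (nat_lit 11431510956) (nat_lit 22) (nat_lit 5) (nat_lit 26) (nat_lit 5) (nat_lit 23) (nat_lit 5) (nat_lit 423) (nat_lit 367) (nat_lit 98)) (XT.nd (nat_lit 94) (nat_lit 0) (nat_lit 0) (XT.lf (nat_lit 0) (nat_lit 39923059360) (nat_lit 336) (nat_lit 41693486908) (nat_lit 84) (nat_lit 31536323843) (nat_lit 22) (nat_lit 5) (nat_lit 26) (nat_lit 5) (nat_lit 23) (nat_lit 5) (nat_lit 424) (nat_lit 367) (nat_lit 97)) (XT.lf (nat_lit 0) (nat_lit 48015535322) (nat_lit 336) (nat_lit 15638810653) (nat_lit 84) (nat_lit 52264302381) (nat_lit 22) (nat_lit 5) (nat_lit 26) (nat_lit 5) (nat_lit 23) (nat_lit 5) (nat_lit 425) (nat_lit 367) (nat_lit 96))))) (XT.nd (nat_lit 50290) (nat_lit 0) (nat_lit 5208) (XT.nd (nat_lit 94)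 (nat_lit 0) (nat_lit 0) (XT.lf (nat_lit 0) (nat_lit 11453914355) (nat_lit 252) (nat_lit 45018263742) (nat_lit 336) (nat_lit 62294477112) (nat_lit 19) (nat_lit 5) (nat_lit 22) (nat_lit 5) (nat_lit 23) (nat_lit 5) (nat_lit 426) (nat_lit 367) (nat_lit 95)) (XT.nd (nat_lit 94) (nat_lit 0) (nat_lit 0) (XT.lf (nat_lit 0) (nat_lit 39717635570) (nat_lit 252) (nat_lit 25636259801) (nat_lit 336) (nat_lit 56344006159) (nat_lit 19) (nat_lit 5) (nat_lit 22) (nat_lit 5) (nat_lit 23) (nat_lit 5) (nat_lit 427) (nat_lit 367) (nat_lit 94)) (XT.lf (nat_lit 0) (nat_lit 68857131720) (nat_lit 252) (nat_lit 5653505202) (nat_lit 336) (nat_lit 50209390823) (nat_lit 19) (nat_lit 5) (nat_lit 22) (nat_lit 5) (nat_lit 23) (nat_lit 5) (nat_lit 428) (nat_lit 367) (nat_lit 93)))) (XT.nd (nat_lit 188) (nat_lit 0) (nat_lit 0) (XT.nd (nat_lit 94) (nat_lit 0) (nat_lit 0) (XT.lf (nat_lit 0) (nat_lit 7898385888) (nat_lit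 0) (nat_lit 7898385888) (nat_lit 924) (nat_lit 3011946677) (nat_lit 81) (nat_lit 5) (nat_lit 81) (nat_lit 3) (nat_lit 92) (nat_lit 3) (nat_lit 368) (nat_lit 368) (nat_lit 152)) (XT.lf (nat_lit 0) (nat_lit 28382246433) (nat_lit 0) (nat_lit 3736653630) (nat_lit 924) (nat_lit 6080241552) (nat_lit 81) (nat_lit 5) (nat_lit 81) (nat_lit 3) (nat_lit 92) (nat_lit 3) (nat_lit 369) (nat_lit 368) (nat_lit 151))) (XT.nd (nat_lit 94) (nat_lit 0) (nat_lit 0) (XT.lf (nat_lit 84) (nat_lit 2522760512) (nat_lit 0) (nat_lit 30247657107) (nat_lit 1008) (nat_lit 6025065909) (nat_lit 82) (nat_lit 5) (nat_lit 81) (nat_lit 5) (nat_lit 93) (nat_lit 5) (nat_lit 370) (nat_lit 368) (nat_lit 150)) (XT.lf (nat_lit 84) (nat_lit 15413282901) (nat_lit 0) (nat_lit 18167753480) (nat_lit 1008) (nat_lit 5824979801) (nat_lit 82) (nat_lit 5) (nat_lit 81) (nat_lit 5) (nat_lit 93) (nat_lit 5) (nat_lit 371) (nat_lit 368)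 (nat_lit 149))))))))
noncomputable def xc220 : XT := (XT.nd (nat_lit 2350) (nat_lit 2520) (nat_lit 0) (XT.nd (nat_lit 1128) (nat_lit 1428) (nat_lit 0) (XT.nd (nat_lit 564) (nat_lit 756) (nat_lit 0) (XT.nd (nat_lit 282) (nat_lit 0) (nat_lit 84) (XT.nd (nat_lit 94) (nat_lit 0) (nat_lit 84) (XT.lf (nat_lit 84) (nat_lit 28702662065) (nat_lit 0) (nat_lit 5712769832) (nat_lit 1008) (nat_lit 5620095241) (nat_lit 82) (nat_lit 5) (nat_lit 81) (nat_lit 5) (nat_lit 93) (nat_lit 5) (nat_lit 372) (nat_lit 368) (nat_lit 148)) (XT.nd (nat_lit 94) (nat_lit 0) (nat_lit 0) (XT.lf (nat_lit 84) (nat_lit 1681847813) (nat_lit 0) (nat_lit 33679937839) (nat_lit 1008) (nat_lit 5320107997) (nat_lit 83) (nat_lit 5) (nat_lit 82) (nat_lit 5) (nat_lit 94) (nat_lit 5) (nat_lit 373) (nat_lit 368) (nat_lit 147)) (XT.lf (nat_lit 84) (nat_lit 15279862991) (nat_lit 0) (nat_lit 21232467535) (nat_lit 1008) (nat_lit 4830555798)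 (nat_lit 83) (nat_lit 5) (nat_lit 82) (nat_lit 5) (nat_lit 94) (nat_lit 5) (nat_lit 374) (nat_lit 368) (nat_lit 146)))) (XT.nd (nat_lit 94) (nat_lit 0) (nat_lit 84) (XT.lf (nat_lit 84) (nat_lit 29298664948) (nat_lit 0) (nat_lit 8398641279) (nat_lit 1008) (nat_lit 4327110864) (nat_lit 83) (nat_lit 5) (nat_lit 82) (nat_lit 5) (nat_lit 94) (nat_lit 5) (nat_lit 375) (nat_lit 368) (nat_lit 145)) (XT.nd (nat_lit 94) (nat_lit 0) (nat_lit 0) (XT.lf (nat_lit 84) (nat_lit 996324228) (nat_lit 0) (nat_lit 37979325662) (nat_lit 1008) (nat_lit 3749678507) (nat_lit 84) (nat_lit 5) (nat_lit 83) (nat_lit 5) (nat_lit 95) (nat_lit 5) (nat_lit 376) (nat_lit 368) (nat_lit 144)) (XT.lf (nat_lit 84) (nat_lit 15325127884) (nat_lit 0) (nat_lit 25185187790) (nat_lit 1008) (nat_lit 2930943249) (nat_lit 84) (nat_lit 5) (nat_lit 83) (nat_lit 5) (nat_lit 95) (nat_lit 5) (nat_lit 377) (nat_lit 368) (nat_lit 143)))))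 (XT.nd (nat_lit 282) (nat_lit 924) (nat_lit 0) (XT.nd (nat_lit 94) (nat_lit 0) (nat_lit 84) (XT.lf (nat_lit 84) (nat_lit 30097375905) (nat_lit 0) (nat_lit 11994049268) (nat_lit 1008) (nat_lit 2088001395) (nat_lit 84) (nat_lit 5) (nat_lit 83) (nat_lit 5) (nat_lit 95) (nat_lit 5) (nat_lit 378) (nat_lit 368) (nat_lit 142)) (XT.nd (nat_lit 94) (nat_lit 0) (nat_lit 0) (XT.lf (nat_lit 84) (nat_lit 377998477) (nat_lit 0) (nat_lit 43362139001) (nat_lit 1008) (nat_lit 1199771657) (nat_lit 85) (nat_lit 5) (nat_lit 84) (nat_lit 5) (nat_lit 96) (nat_lit 5) (nat_lit 379) (nat_lit 368) (nat_lit 141)) (XT.lf (nat_lit 84) (nat_lit 15458884062) (nat_lit 0) (nat_lit 30248424559) (nat_lit 1008) (nat_lit 8377955) (nat_lit 85) (nat_lit 5) (nat_lit 84) (nat_lit 5) (nat_lit 96) (nat_lit 5) (nat_lit 380) (nat_lit 368) (nat_lit 140)))) (XT.nd (nat_lit 94) (nat_lit 0) (nat_lit 0) (XT.lf (nat_lit 0) (nat_lit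 1194315922) (nat_lit 1008) (nat_lit 15521107910) (nat_lit 1092) (nat_lit 29799754060) (nat_lit 72) (nat_lit 5) (nat_lit 84) (nat_lit 5) (nat_lit 85) (nat_lit 5) (nat_lit 381) (nat_lit 368) (nat_lit 139)) (XT.nd (nat_lit 94) (nat_lit 0) (nat_lit 84) (XT.lf (nat_lit 0) (nat_lit 2433097191) (nat_lit 1008) (nat_lit 329439158) (nat_lit 1092) (nat_lit 44576953168) (nat_lit 72) (nat_lit 5) (nat_lit 84) (nat_lit 5) (nat_lit 85) (nat_lit 5) (nat_lit 382) (nat_lit 368) (nat_lit 138)) (XT.lf (nat_lit 0) (nat_lit 3981407352) (nat_lit 1008) (nat_lit 32653757467) (nat_lit 1092) (nat_lit 11545791895) (nat_lit 73) (nat_lit 5) (nat_lit 85) (nat_lit 5) (nat_lit 86) (nat_lit 5) (nat_lit 383) (nat_lit 368) (nat_lit 137)))))) (XT.nd (nat_lit 564) (nat_lit 924) (nat_lit 0) (XT.nd (nat_lit 282) (nat_lit 588) (nat_lit 0) (XT.nd (nat_lit 94) (nat_lit 0) (nat_lit 0) (XT.lf (nat_lit 0) (nat_lit 5608477050)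 (nat_lit 1008) (nat_lit 17195070906) (nat_lit 1092) (nat_lit 26244014451) (nat_lit 73) (nat_lit 5) (nat_lit 85) (nat_lit 5) (nat_lit 86) (nat_lit 5) (nat_lit 384) (nat_lit 368) (nat_lit 136)) (XT.nd (nat_lit 94) (nat_lit 0) (nat_lit 84) (XT.lf (nat_lit 0) (nat_lit 7285048794) (nat_lit 1008) (nat_lit 1257898403) (nat_lit 1092) (nat_lit 41398121164) (nat_lit 73) (nat_lit 5) (nat_lit 85) (nat_lit 5) (nat_lit 86) (nat_lit 5) (nat_lit 385) (nat_lit 368) (nat_lit 135)) (XT.lf (nat_lit 0) (nat_lit 9228972755) (nat_lit 1008) (nat_lit 35435628618) (nat_lit 84) (nat_lit 6191001134) (nat_lit 74) (nat_lit 5) (nat_lit 86) (nat_lit 5) (nat_lit 75) (nat_lit 5) (nat_lit 386) (nat_lit 368) (nat_lit 134)))) (XT.nd (nat_lit 94) (nat_lit 672) (nat_lit 0) (XT.lf (nat_lit 0) (nat_lit 11332910017) (nat_lit 1008) (nat_lit 19244801236) (nat_lit 84) (nat_lit 21217689708) (nat_lit 74) (nat_lit 5) (nat_lit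 86) (nat_lit 5) (nat_lit 75) (nat_lit 5) (nat_lit 387) (nat_lit 368) (nat_lit 133)) (XT.nd (nat_lit 94) (nat_lit 672) (nat_lit 0) (XT.lf (nat_lit 0) (nat_lit 13501209237) (nat_lit 1008) (nat_lit 2552775488) (nat_lit 84) (nat_lit 36710380977) (nat_lit 74) (nat_lit 5) (nat_lit 86) (nat_lit 5) (nat_lit 75) (nat_lit 5) (nat_lit 388) (nat_lit 368) (nat_lit 132)) (XT.lf (nat_lit 0) (nat_lit 14957364912) (nat_lit 672) (nat_lit 926905494) (nat_lit 756) (nat_lit 37874529752) (nat_lit 66) (nat_lit 5) (nat_lit 74) (nat_lit 5) (nat_lit 75) (nat_lit 5) (nat_lit 389) (nat_lit 368) (nat_lit 131))))) (XT.nd (nat_lit 282) (nat_lit 420) (nat_lit 0) (XT.nd (nat_lit 94) (nat_lit 504) (nat_lit 0) (XT.lf (nat_lit 0) (nat_lit 18512829434) (nat_lit 756) (nat_lit 21865311595) (nat_lit 84) (nat_lit 14400606265) (nat_lit 66) (nat_lit 5) (nat_lit 75) (nat_lit 5) (nat_lit 67) (nat_lit 5) (nat_lit 390) (nat_lit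 368) (nat_lit 130)) (XT.nd (nat_lit 94) (nat_lit 504) (nat_lit 0) (XT.lf (nat_lit 0) (nat_lit 21231563628) (nat_lit 756) (nat_lit 4414347255) (nat_lit 84) (nat_lit 30184137879) (nat_lit 66) (nat_lit 5) (nat_lit 75) (nat_lit 5) (nat_lit 67) (nat_lit 5) (nat_lit 391) (nat_lit 368) (nat_lit 129)) (XT.lf (nat_lit 0) (nat_lit 13856088216) (nat_lit 504) (nat_lit 10315178012) (nat_lit 588) (nat_lit 32738442226) (nat_lit 60) (nat_lit 5) (nat_lit 66) (nat_lit 5) (nat_lit 67) (nat_lit 5) (nat_lit 392) (nat_lit 368) (nat_lit 128)))) (XT.nd (nat_lit 188) (nat_lit 420) (nat_lit 0) (XT.nd (nat_lit 94) (nat_lit 0) (nat_lit 0) (XT.lf (nat_lit 0) (nat_lit 27302367795) (nat_lit 588) (nat_lit 25290561207) (nat_lit 84) (nat_lit 5426805321) (nat_lit 60) (nat_lit 5) (nat_lit 67) (nat_lit 5) (nat_lit 61) (nat_lit 5) (nat_lit 393) (nat_lit 368) (nat_lit 127)) (XT.lf (nat_lit 0) (nat_lit 30635306751) (nat_lit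 588) (nat_lit 7083026567) (nat_lit 84) (nat_lit 21442594592) (nat_lit 60) (nat_lit 5) (nat_lit 67) (nat_lit 5) (nat_lit 61) (nat_lit 5) (nat_lit 394) (nat_lit 368) (nat_lit 126))) (XT.nd (nat_lit 94) (nat_lit 0) (nat_lit 0) (XT.lf (nat_lit 0) (nat_lit 11928617921) (nat_lit 420) (nat_lit 22260577347) (nat_lit 504) (nat_lit 26144661490) (nat_lit 55) (nat_lit 5) (nat_lit 60) (nat_lit 5) (nat_lit 61) (nat_lit 5) (nat_lit 395) (nat_lit 368) (nat_lit 125)) (XT.lf (nat_lit 0) (nat_lit 31679127707) (nat_lit 420) (nat_lit 6247368706) (nat_lit 504) (nat_lit 23614384080) (nat_lit 55) (nat_lit 5) (nat_lit 60) (nat_lit 5) (nat_lit 61) (nat_lit 5) (nat_lit 396) (nat_lit 368) (nat_lit 124))))))) (XT.nd (nat_lit 1222) (nat_lit 924) (nat_lit 0) (XT.nd (nat_lit 564) (nat_lit 840) (nat_lit 0) (XT.nd (nat_lit 282) (nat_lit 336) (nat_lit 0) (XT.nd (nat_lit 94) (nat_lit 420) (nat_lit 0) (XT.lf (nat_lit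 0) (nat_lit 41880787612) (nat_lit 504) (nat_lit 10845879546) (nat_lit 84) (nat_lit 10055524121) (nat_lit 55) (nat_lit 5) (nat_lit 61) (nat_lit 5) (nat_lit 56) (nat_lit 5) (nat_lit 397) (nat_lit 368) (nat_lit 123)) (XT.nd (nat_lit 94) (nat_lit 0) (nat_lit 0) (XT.lf (nat_lit 0) (nat_lit 8873737608) (nat_lit 420) (nat_lit 37235199739) (nat_lit 504) (nat_lit 17948360137) (nat_lit 50) (nat_lit 5) (nat_lit 55) (nat_lit 5) (nat_lit 56) (nat_lit 5) (nat_lit 398) (nat_lit 368) (nat_lit 122)) (XT.lf (nat_lit 0) (nat_lit 29433957999) (nat_lit 420) (nat_lit 21146774759) (nat_lit 504) (nat_lit 14787713656) (nat_lit 50) (nat_lit 5) (nat_lit 55) (nat_lit 5) (nat_lit 56) (nat_lit 5) (nat_lit 399) (nat_lit 368) (nat_lit 121)))) (XT.nd (nat_lit 94) (nat_lit 336) (nat_lit 0) (XT.lf (nat_lit 0) (nat_lit 50630932376) (nat_lit 420) (nat_lit 4559604859) (nat_lit 504) (nat_lit 11529726910) (nat_lit 50)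 (nat_lit 5) (nat_lit 55) (nat_lit 5) (nat_lit 56) (nat_lit 5) (nat_lit 400) (nat_lit 368) (nat_lit 120)) (XT.nd (nat_lit 94) (nat_lit 0) (nat_lit 0) (XT.lf (nat_lit 0) (nat_lit 4333298208) (nat_lit 336) (nat_lit 55776752168) (nat_lit 420) (nat_lit 7998770852) (nat_lit 46) (nat_lit 5) (nat_lit 50) (nat_lit 5) (nat_lit 51) (nat_lit 5) (nat_lit 401) (nat_lit 368) (nat_lit 119)) (XT.lf (nat_lit 0) (nat_lit 25681911475) (nat_lit 336) (nat_lit 39713672384) (nat_lit 420) (nat_lit 4138224569) (nat_lit 46) (nat_lit 5) (nat_lit 50) (nat_lit 5) (nat_lit 51) (nat_lit 5) (nat_lit 402) (nat_lit 368) (nat_lit 118))))) (XT.nd (nat_lit 282) (nat_lit 336) (nat_lit 0) (XT.nd (nat_lit 94) (nat_lit 504) (nat_lit 0) (XT.lf (nat_lit 0) (nat_lit 47691739421) (nat_lit 336) (nat_lit 23152660990) (nat_lit 420) (nat_lit 158591158) (nat_lit 46) (nat_lit 5) (nat_lit 50) (nat_lit 5) (nat_lit 51) (nat_lit 5) (nat_lit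 403) (nat_lit 368) (nat_lit 117)) (XT.nd (nat_lit 94) (nat_lit 420) (nat_lit 0) (XT.lf (nat_lit 0) (nat_lit 3864379252) (nat_lit 420) (nat_lit 2173565941) (nat_lit 84) (nat_lit 66478582062) (nat_lit 45) (nat_lit 5) (nat_lit 50) (nat_lit 5) (nat_lit 46) (nat_lit 5) (nat_lit 404) (nat_lit 368) (nat_lit 116)) (XT.lf (nat_lit 0) (nat_lit 8324023928) (nat_lit 504) (nat_lit 54167424954) (nat_lit 84) (nat_lit 11575713824) (nat_lit 40) (nat_lit 5) (nat_lit 46) (nat_lit 5) (nat_lit 41) (nat_lit 5) (nat_lit 405) (nat_lit 368) (nat_lit 115)))) (XT.nd (nat_lit 188) (nat_lit 336) (nat_lit 0) (XT.nd (nat_lit 94) (nat_lit 0) (nat_lit 0) (XT.lf (nat_lit 0) (nat_lit 13006057888) (nat_lit 504) (nat_lit 33024343746) (nat_lit 84) (nat_lit 29632861156) (nat_lit 40) (nat_lit 5) (nat_lit 46) (nat_lit 5) (nat_lit 41) (nat_lit 5) (nat_lit 406) (nat_lit 368) (nat_lit 114)) (XT.lf (nat_lit 0) (nat_lit 17832717649)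 (nat_lit 504) (nat_lit 11226394924) (nat_lit 84) (nat_lit 48249748628) (nat_lit 40) (nat_lit 5) (nat_lit 46) (nat_lit 5) (nat_lit 41) (nat_lit 5) (nat_lit 407) (nat_lit 368) (nat_lit 113))) (XT.nd (nat_lit 94) (nat_lit 0) (nat_lit 0) (XT.lf (nat_lit 0) (nat_lit 11477995514) (nat_lit 336) (nat_lit 11444369785) (nat_lit 420) (nat_lit 56079596750) (nat_lit 36) (nat_lit 5) (nat_lit 40) (nat_lit 5) (nat_lit 41) (nat_lit 5) (nat_lit 408) (nat_lit 368) (nat_lit 112)) (XT.lf (nat_lit 0) (nat_lit 28354306313) (nat_lit 420) (nat_lit 45688089971) (nat_lit 84) (nat_lit 6699435797) (nat_lit 36) (nat_lit 5) (nat_lit 41) (nat_lit 5) (nat_lit 37) (nat_lit 5) (nat_lit 409) (nat_lit 368) (nat_lit 111)))))) (XT.nd (nat_lit 564) (nat_lit 336) (nat_lit 0) (XT.nd (nat_lit 282) (nat_lit 252) (nat_lit 0) (XT.nd (nat_lit 94) (nat_lit 336) (nat_lit 0) (XT.lf (nat_lit 0) (nat_lit 34071208737) (nat_lit 420)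 (nat_lit 23292896261) (nat_lit 84) (nat_lit 25167922284) (nat_lit 36) (nat_lit 5) (nat_lit 41) (nat_lit 5) (nat_lit 37) (nat_lit 5) (nat_lit 410) (nat_lit 368) (nat_lit 110)) (XT.nd (nat_lit 94) (nat_lit 336) (nat_lit 0) (XT.lf (nat_lit 0) (nat_lit 39964871760) (nat_lit 420) (nat_lit 203981175) (nat_lit 84) (nat_lit 44208882788) (nat_lit 36) (nat_lit 5) (nat_lit 41) (nat_lit 5) (nat_lit 37) (nat_lit 5) (nat_lit 411) (nat_lit 368) (nat_lit 109)) (XT.lf (nat_lit 0) (nat_lit 24085444608) (nat_lit 336) (nat_lit 22194274876) (nat_lit 420) (nat_lit 39993551461) (nat_lit 32) (nat_lit 5) (nat_lit 36) (nat_lit 5) (nat_lit 37) (nat_lit 5) (nat_lit 412) (nat_lit 368) (nat_lit 108)))) (XT.nd (nat_lit 94) (nat_lit 252) (nat_lit 0) (XT.lf (nat_lit 0) (nat_lit 49131658383) (nat_lit 336) (nat_lit 3660357276) (nat_lit 420) (nat_lit 35435502421) (nat_lit 32) (nat_lit 5) (nat_lit 36) (nat_lit 5) (nat_lit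 37) (nat_lit 5) (nat_lit 413) (nat_lit 368) (nat_lit 107)) (XT.nd (nat_lit 94) (nat_lit 252) (nat_lit 0) (XT.lf (nat_lit 0) (nat_lit 59659011832) (nat_lit 420) (nat_lit 15441797671) (nat_lit 84) (nat_lit 15136802565) (nat_lit 32) (nat_lit 5) (nat_lit 37) (nat_lit 5) (nat_lit 33) (nat_lit 5) (nat_lit 414) (nat_lit 368) (nat_lit 106)) (XT.lf (nat_lit 0) (nat_lit 9090769060) (nat_lit 252) (nat_lit 57775318739) (nat_lit 336) (nat_lit 25439990377) (nat_lit 29) (nat_lit 5) (nat_lit 32) (nat_lit 5) (nat_lit 33) (nat_lit 5) (nat_lit 415) (nat_lit 368) (nat_lit 105))))) (XT.nd (nat_lit 282) (nat_lit 336) (nat_lit 0) (XT.nd (nat_lit 94) (nat_lit 0) (nat_lit 0) (XT.lf (nat_lit 0) (nat_lit 34710715239) (nat_lit 252) (nat_lit 39746640745) (nat_lit 336) (nat_lit 19976329212) (nat_lit 29) (nat_lit 5) (nat_lit 32) (nat_lit 5) (nat_lit 33) (nat_lit 5) (nat_lit 416) (nat_lit 368) (nat_lit 104)) (XT.nd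 (nat_lit 94) (nat_lit 0) (nat_lit 0) (XT.lf (nat_lit 0) (nat_lit 61124406308) (nat_lit 252) (nat_lit 21159151603) (nat_lit 336) (nat_lit 14343704735) (nat_lit 29) (nat_lit 5) (nat_lit 32) (nat_lit 5) (nat_lit 33) (nat_lit 5) (nat_lit 417) (nat_lit 368) (nat_lit 103)) (XT.lf (nat_lit 0) (nat_lit 88356462595) (nat_lit 252) (nat_lit 1995525826) (nat_lit 336) (nat_lit 8536866749) (nat_lit 29) (nat_lit 5) (nat_lit 32) (nat_lit 5) (nat_lit 33) (nat_lit 5) (nat_lit 418) (nat_lit 368) (nat_lit 102)))) (XT.nd (nat_lit 188) (nat_lit 0) (nat_lit 0) (XT.nd (nat_lit 94) (nat_lit 84) (nat_lit 0) (XT.lf (nat_lit 0) (nat_lit 15344654793) (nat_lit 252) (nat_lit 83653936438) (nat_lit 336) (nat_lit 2211798460) (nat_lit 26) (nat_lit 5) (nat_lit 29) (nat_lit 5) (nat_lit 30) (nat_lit 5) (nat_lit 419) (nat_lit 368) (nat_lit 101)) (XT.lf (nat_lit 0) (nat_lit 4353621708) (nat_lit 336) (nat_lit 61418058619)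 (nat_lit 84) (nat_lit 37826824256) (nat_lit 25) (nat_lit 5) (nat_lit 29) (nat_lit 5) (nat_lit 26) (nat_lit 5) (nat_lit 420) (nat_lit 368) (nat_lit 100))) (XT.nd (nat_lit 94) (nat_lit 0) (nat_lit 0) (XT.lf (nat_lit 0) (nat_lit 11076264827) (nat_lit 336) (nat_lit 36235575439) (nat_lit 84) (nat_lit 58748122705) (nat_lit 25) (nat_lit 5) (nat_lit 29) (nat_lit 5) (nat_lit 26) (nat_lit 5) (nat_lit 421) (nat_lit 368) (nat_lit 99)) (XT.lf (nat_lit 0) (nat_lit 18006959914) (nat_lit 336) (nat_lit 10272871331) (nat_lit 84) (nat_lit 80317908129) (nat_lit 25) (nat_lit 5) (nat_lit 29) (nat_lit 5) (nat_lit 26) (nat_lit 5) (nat_lit 422) (nat_lit 368) (nat_lit 98))))))))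
noncomputable def xc221 : XT := (XT.nd (nat_lit 52452) (nat_lit 0) (nat_lit 1092) (XT.nd (nat_lit 51230) (nat_lit 0) (nat_lit 4452) (XT.nd (nat_lit 50666) (nat_lit 0) (nat_lit 5208) (XT.nd (nat_lit 282) (nat_lit 252) (nat_lit 0) (XT.nd (nat_lit 94) (nat_lit 0) (nat_lit 0) (XT.lf (nat_lit 0) (nat_lit 16833409347) (nat_lit 252) (nat_lit 8485747259) (nat_lit 336) (nat_lit 85889865984) (nat_lit 22) (nat_lit 5) (nat_lit 25) (nat_lit 5) (nat_lit 26) (nat_lit 5) (nat_lit 423) (nat_lit 368) (nat_lit 97)) (XT.nd (nat_lit 94) (nat_lit 0) (nat_lit 0) (XT.lf (nat_lit 0) (nat_lit 33084288806) (nat_lit 336) (nat_lit 69019961256) (nat_lit 84) (nat_lit 11789993386) (nat_lit 22) (nat_lit 5) (nat_lit 26) (nat_lit 5) (nat_lit 23) (nat_lit 5) (nat_lit 424) (nat_lit 368) (nat_lit 96)) (XT.lf (nat_lit 0) (nat_lit 41176605147) (nat_lit 336) (nat_lit 42965490347) (nat_lit 84) (nat_lit 32517932025) (nat_lit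 22) (nat_lit 5) (nat_lit 26) (nat_lit 5) (nat_lit 23) (nat_lit 5) (nat_lit 425) (nat_lit 368) (nat_lit 95)))) (XT.nd (nat_lit 94) (nat_lit 252) (nat_lit 0) (XT.lf (nat_lit 0) (nat_lit 49519468854) (nat_lit 336) (nat_lit 16103735360) (nat_lit 84) (nat_lit 53888358163) (nat_lit 22) (nat_lit 5) (nat_lit 26) (nat_lit 5) (nat_lit 23) (nat_lit 5) (nat_lit 426) (nat_lit 368) (nat_lit 94)) (XT.nd (nat_lit 94) (nat_lit 0) (nat_lit 0) (XT.lf (nat_lit 0) (nat_lit 11828662872) (nat_lit 252) (nat_lit 46409335276) (nat_lit 336) (nat_lit 64209870204) (nat_lit 19) (nat_lit 5) (nat_lit 22) (nat_lit 5) (nat_lit 23) (nat_lit 5) (nat_lit 427) (nat_lit 368) (nat_lit 93)) (XT.lf (nat_lit 0) (nat_lit 40967967794) (nat_lit 252) (nat_lit 26426624357) (nat_lit 336) (nat_lit 58075407791) (nat_lit 19) (nat_lit 5) (nat_lit 22) (nat_lit 5) (nat_lit 23) (nat_lit 5) (nat_lit 428) (nat_lit 368) (nat_lit 92)))))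 (XT.nd (nat_lit 282) (nat_lit 0) (nat_lit 0) (XT.nd (nat_lit 94) (nat_lit 0) (nat_lit 0) (XT.lf (nat_lit 0) (nat_lit 8160887284) (nat_lit 0) (nat_lit 8160887284) (nat_lit 924) (nat_lit 3068662138) (nat_lit 81) (nat_lit 5) (nat_lit 81) (nat_lit 3) (nat_lit 92) (nat_lit 3) (nat_lit 369) (nat_lit 369) (nat_lit 150)) (XT.nd (nat_lit 94) (nat_lit 0) (nat_lit 0) (XT.lf (nat_lit 0) (nat_lit 29296337457) (nat_lit 0) (nat_lit 3886731277) (nat_lit 924) (nat_lit 6197623539) (nat_lit 81) (nat_lit 5) (nat_lit 81) (nat_lit 3) (nat_lit 92) (nat_lit 3) (nat_lit 370) (nat_lit 369) (nat_lit 149)) (XT.lf (nat_lit 84) (nat_lit 2637793228) (nat_lit 0) (nat_lit 31214966838) (nat_lit 1008) (nat_lit 6142838468) (nat_lit 82) (nat_lit 5) (nat_lit 81) (nat_lit 5) (nat_lit 93) (nat_lit 5) (nat_lit 371) (nat_lit 369) (nat_lit 148)))) (XT.nd (nat_lit 94) (nat_lit 0) (nat_lit 0) (XT.lf (nat_lit 84) (nat_lit 15926814496)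 (nat_lit 0) (nat_lit 18759695215) (nat_lit 1008) (nat_lit 5938624510) (nat_lit 82) (nat_lit 5) (nat_lit 81) (nat_lit 5) (nat_lit 93) (nat_lit 5) (nat_lit 372) (nat_lit 369) (nat_lit 147)) (XT.nd (nat_lit 94) (nat_lit 0) (nat_lit 84) (XT.lf (nat_lit 84) (nat_lit 29627090394) (nat_lit 0) (nat_lit 5917742882) (nat_lit 1008) (nat_lit 5729400963) (nat_lit 82) (nat_lit 5) (nat_lit 81) (nat_lit 5) (nat_lit 93) (nat_lit 5) (nat_lit 373) (nat_lit 369) (nat_lit 146)) (XT.lf (nat_lit 84) (nat_lit 1770923890) (nat_lit 0) (nat_lit 34747818381) (nat_lit 1008) (nat_lit 5421964787) (nat_lit 83) (nat_lit 5) (nat_lit 82) (nat_lit 5) (nat_lit 94) (nat_lit 5) (nat_lit 374) (nat_lit 369) (nat_lit 145)))))) (XT.nd (nat_lit 564) (nat_lit 840) (nat_lit 0) (XT.nd (nat_lit 282) (nat_lit 0) (nat_lit 84) (XT.nd (nat_lit 94) (nat_lit 0) (nat_lit 0) (XT.lf (nat_lit 84) (nat_lit 15789366866) (nat_lit 0) (nat_lit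 21913760807) (nat_lit 1008) (nat_lit 4919132749) (nat_lit 83) (nat_lit 5) (nat_lit 82) (nat_lit 5) (nat_lit 94) (nat_lit 5) (nat_lit 375) (nat_lit 369) (nat_lit 144)) (XT.nd (nat_lit 94) (nat_lit 0) (nat_lit 84) (XT.lf (nat_lit 84) (nat_lit 30241674407) (nat_lit 0) (nat_lit 8681391767) (nat_lit 1008) (nat_lit 4401920283) (nat_lit 83) (nat_lit 5) (nat_lit 82) (nat_lit 5) (nat_lit 94) (nat_lit 5) (nat_lit 376) (nat_lit 369) (nat_lit 143)) (XT.lf (nat_lit 84) (nat_lit 1063994609) (nat_lit 0) (nat_lit 39175475145) (nat_lit 1008) (nat_lit 3808217402) (nat_lit 84) (nat_lit 5) (nat_lit 83) (nat_lit 5) (nat_lit 95) (nat_lit 5) (nat_lit 377) (nat_lit 369) (nat_lit 142)))) (XT.nd (nat_lit 94) (nat_lit 0) (nat_lit 0) (XT.lf (nat_lit 84) (nat_lit 15835885151) (nat_lit 0) (nat_lit 25984154012) (nat_lit 1008) (nat_lit 2965836303) (nat_lit 84) (nat_lit 5) (nat_lit 83) (nat_lit 5) (nat_lit 95) (nat_lit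 5) (nat_lit 378) (nat_lit 369) (nat_lit 141)) (XT.nd (nat_lit 94) (nat_lit 0) (nat_lit 84) (XT.lf (nat_lit 84) (nat_lit 31065000089) (nat_lit 0) (nat_lit 12383542196) (nat_lit 1008) (nat_lit 2098446037) (nat_lit 84) (nat_lit 5) (nat_lit 83) (nat_lit 5) (nat_lit 95) (nat_lit 5) (nat_lit 379) (nat_lit 369) (nat_lit 140)) (XT.lf (nat_lit 84) (nat_lit 426125414) (nat_lit 0) (nat_lit 44720858312) (nat_lit 1008) (nat_lit 1184116348) (nat_lit 85) (nat_lit 5) (nat_lit 84) (nat_lit 5) (nat_lit 96) (nat_lit 5) (nat_lit 380) (nat_lit 369) (nat_lit 139))))) (XT.nd (nat_lit 282) (nat_lit 0) (nat_lit 84) (XT.nd (nat_lit 94) (nat_lit 0) (nat_lit 0) (XT.lf (nat_lit 0) (nat_lit 41762793) (nat_lit 1008) (nat_lit 31157984236) (nat_lit 1092) (nat_lit 15931224999) (nat_lit 72) (nat_lit 5) (nat_lit 84) (nat_lit 5) (nat_lit 85) (nat_lit 5) (nat_lit 381) (nat_lit 369) (nat_lit 138)) (XT.nd (nat_lit 94)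 (nat_lit 0) (nat_lit 0) (XT.lf (nat_lit 0) (nat_lit 1280055949) (nat_lit 1008) (nat_lit 15966672081) (nat_lit 1092) (nat_lit 30708574123) (nat_lit 72) (nat_lit 5) (nat_lit 84) (nat_lit 5) (nat_lit 85) (nat_lit 5) (nat_lit 382) (nat_lit 369) (nat_lit 137)) (XT.lf (nat_lit 0) (nat_lit 2555774643) (nat_lit 1008) (nat_lit 305131720) (nat_lit 1092) (nat_lit 45944316589) (nat_lit 72) (nat_lit 5) (nat_lit 84) (nat_lit 5) (nat_lit 85) (nat_lit 5) (nat_lit 383) (nat_lit 369) (nat_lit 136)))) (XT.nd (nat_lit 188) (nat_lit 0) (nat_lit 0) (XT.nd (nat_lit 94) (nat_lit 0) (nat_lit 0) (XT.lf (nat_lit 0) (nat_lit 4150881611) (nat_lit 1008) (nat_lit 33629986943) (nat_lit 1092) (nat_lit 11891954103) (nat_lit 73) (nat_lit 5) (nat_lit 85) (nat_lit 5) (nat_lit 86) (nat_lit 5) (nat_lit 384) (nat_lit 369) (nat_lit 135)) (XT.lf (nat_lit 0) (nat_lit 5827005824) (nat_lit 1008) (nat_lit 17693164656) (nat_lit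 1092) (nat_lit 27046175077) (nat_lit 73) (nat_lit 5) (nat_lit 85) (nat_lit 5) (nat_lit 86) (nat_lit 5) (nat_lit 385) (nat_lit 369) (nat_lit 134))) (XT.nd (nat_lit 94) (nat_lit 0) (nat_lit 84) (XT.lf (nat_lit 0) (nat_lit 7554208280) (nat_lit 1008) (nat_lit 1262990781) (nat_lit 1092) (nat_lit 42670401987) (nat_lit 73) (nat_lit 5) (nat_lit 85) (nat_lit 5) (nat_lit 86) (nat_lit 5) (nat_lit 386) (nat_lit 369) (nat_lit 133)) (XT.lf (nat_lit 0) (nat_lit 9557336927) (nat_lit 1008) (nat_lit 36498885200) (nat_lit 84) (nat_lit 6374305334) (nat_lit 74) (nat_lit 5) (nat_lit 86) (nat_lit 5) (nat_lit 75) (nat_lit 5) (nat_lit 387) (nat_lit 369) (nat_lit 132))))))) (XT.nd (nat_lit 1222) (nat_lit 1512) (nat_lit 0) (XT.nd (nat_lit 564) (nat_lit 840) (nat_lit 0) (XT.nd (nat_lit 282) (nat_lit 504) (nat_lit 0) (XT.nd (nat_lit 94) (nat_lit 672) (nat_lit 0) (XT.lf (nat_lit 0) (nat_lit 11725225395) (nat_lit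 1008) (nat_lit 19807202000) (nat_lit 84) (nat_lit 21867080344) (nat_lit 74) (nat_lit 5) (nat_lit 86) (nat_lit 5) (nat_lit 75) (nat_lit 5) (nat_lit 388) (nat_lit 369) (nat_lit 131)) (XT.nd (nat_lit 94) (nat_lit 672) (nat_lit 0) (XT.lf (nat_lit 0) (nat_lit 13959509251) (nat_lit 1008) (nat_lit 2598751416) (nat_lit 84) (nat_lit 37840296343) (nat_lit 74) (nat_lit 5) (nat_lit 86) (nat_lit 5) (nat_lit 75) (nat_lit 5) (nat_lit 389) (nat_lit 369) (nat_lit 130)) (XT.lf (nat_lit 0) (nat_lit 15453867620) (nat_lit 672) (nat_lit 961707744) (nat_lit 756) (nat_lit 39008278700) (nat_lit 66) (nat_lit 5) (nat_lit 74) (nat_lit 5) (nat_lit 75) (nat_lit 5) (nat_lit 390) (nat_lit 369) (nat_lit 129)))) (XT.nd (nat_lit 94) (nat_lit 504) (nat_lit 0) (XT.lf (nat_lit 0) (nat_lit 19124391916) (nat_lit 756) (nat_lit 22509815700) (nat_lit 84) (nat_lit 14841257921) (nat_lit 66) (nat_lit 5) (nat_lit 75) (nat_lit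 5) (nat_lit 67) (nat_lit 5) (nat_lit 391) (nat_lit 369) (nat_lit 128)) (XT.nd (nat_lit 94) (nat_lit 504) (nat_lit 0) (XT.lf (nat_lit 0) (nat_lit 21926274370) (nat_lit 756) (nat_lit 4518873344) (nat_lit 84) (nat_lit 31114252421) (nat_lit 66) (nat_lit 5) (nat_lit 75) (nat_lit 5) (nat_lit 67) (nat_lit 5) (nat_lit 392) (nat_lit 369) (nat_lit 127)) (XT.lf (nat_lit 0) (nat_lit 14317618429) (nat_lit 504) (nat_lit 10638708233) (nat_lit 588) (nat_lit 33716234275) (nat_lit 60) (nat_lit 5) (nat_lit 66) (nat_lit 5) (nat_lit 67) (nat_lit 5) (nat_lit 393) (nat_lit 369) (nat_lit 126))))) (XT.nd (nat_lit 282) (nat_lit 420) (nat_lit 0) (XT.nd (nat_lit 94) (nat_lit 420) (nat_lit 0) (XT.lf (nat_lit 0) (nat_lit 28183381239) (nat_lit 588) (nat_lit 26042194935) (nat_lit 84) (nat_lit 5591463101) (nat_lit 60) (nat_lit 5) (nat_lit 67) (nat_lit 5) (nat_lit 61) (nat_lit 5) (nat_lit 394) (nat_lit 369) (nat_lit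 125)) (XT.nd (nat_lit 94) (nat_lit 420) (nat_lit 0) (XT.lf (nat_lit 0) (nat_lit 31618599749) (nat_lit 588) (nat_lit 7271200129) (nat_lit 84) (nat_lit 22103849279) (nat_lit 60) (nat_lit 5) (nat_lit 67) (nat_lit 5) (nat_lit 61) (nat_lit 5) (nat_lit 395) (nat_lit 369) (nat_lit 124)) (XT.lf (nat_lit 0) (nat_lit 12329487439) (nat_lit 420) (nat_lit 22952469476) (nat_lit 504) (nat_lit 26921010436) (nat_lit 55) (nat_lit 5) (nat_lit 60) (nat_lit 5) (nat_lit 61) (nat_lit 5) (nat_lit 396) (nat_lit 369) (nat_lit 123)))) (XT.nd (nat_lit 188) (nat_lit 420) (nat_lit 0) (XT.nd (nat_lit 94) (nat_lit 0) (nat_lit 0) (XT.lf (nat_lit 0) (nat_lit 32691328447) (nat_lit 420) (nat_lit 6442796818) (nat_lit 504) (nat_lit 24313320811) (nat_lit 55) (nat_lit 5) (nat_lit 60) (nat_lit 5) (nat_lit 61) (nat_lit 5) (nat_lit 397) (nat_lit 369) (nat_lit 122)) (XT.lf (nat_lit 0) (nat_lit 43210023169) (nat_lit 504) (nat_lit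 11151678001) (nat_lit 84) (nat_lit 10365572985) (nat_lit 55) (nat_lit 5) (nat_lit 61) (nat_lit 5) (nat_lit 56) (nat_lit 5) (nat_lit 398) (nat_lit 369) (nat_lit 121))) (XT.nd (nat_lit 94) (nat_lit 0) (nat_lit 0) (XT.lf (nat_lit 0) (nat_lit 9178939272) (nat_lit 420) (nat_lit 38389674993) (nat_lit 504) (nat_lit 18473320157) (nat_lit 50) (nat_lit 5) (nat_lit 55) (nat_lit 5) (nat_lit 56) (nat_lit 5) (nat_lit 399) (nat_lit 369) (nat_lit 120)) (XT.lf (nat_lit 0) (nat_lit 30375620976) (nat_lit 420) (nat_lit 21802503304) (nat_lit 504) (nat_lit 15215638944) (nat_lit 50) (nat_lit 5) (nat_lit 55) (nat_lit 5) (nat_lit 56) (nat_lit 5) (nat_lit 400) (nat_lit 369) (nat_lit 119)))))) (XT.nd (nat_lit 564) (nat_lit 672) (nat_lit 0) (XT.nd (nat_lit 282) (nat_lit 504) (nat_lit 0) (XT.nd (nat_lit 94) (nat_lit 336) (nat_lit 0) (XT.lf (nat_lit 0) (nat_lit 52228823268) (nat_lit 420) (nat_lit 4701125769)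 (nat_lit 504) (nat_lit 11857571494) (nat_lit 50) (nat_lit 5) (nat_lit 55) (nat_lit 5) (nat_lit 56) (nat_lit 5) (nat_lit 401) (nat_lit 369) (nat_lit 118)) (XT.nd (nat_lit 94) (nat_lit 0) (nat_lit 0) (XT.lf (nat_lit 0) (nat_lit 4496738256) (nat_lit 336) (nat_lit 57504658825) (nat_lit 420) (nat_lit 8217749128) (nat_lit 46) (nat_lit 5) (nat_lit 50) (nat_lit 5) (nat_lit 51) (nat_lit 5) (nat_lit 402) (nat_lit 369) (nat_lit 117)) (XT.lf (nat_lit 0) (nat_lit 26506283325) (nat_lit 336) (nat_lit 40943658827) (nat_lit 420) (nat_lit 4238397387) (nat_lit 46) (nat_lit 5) (nat_lit 50) (nat_lit 5) (nat_lit 51) (nat_lit 5) (nat_lit 403) (nat_lit 369) (nat_lit 116)))) (XT.nd (nat_lit 94) (nat_lit 504) (nat_lit 0) (XT.lf (nat_lit 0) (nat_lit 49197567042) (nat_lit 336) (nat_lit 23869290279) (nat_lit 420) (nat_lit 136240613) (nat_lit 46) (nat_lit 5) (nat_lit 50) (nat_lit 5) (nat_lit 51) (nat_lit 5) (nat_lit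 404) (nat_lit 369) (nat_lit 115)) (XT.nd (nat_lit 94) (nat_lit 420) (nat_lit 0) (XT.lf (nat_lit 0) (nat_lit 4010089174) (nat_lit 420) (nat_lit 2213691799) (nat_lit 84) (nat_lit 68539793780) (nat_lit 45) (nat_lit 5) (nat_lit 50) (nat_lit 5) (nat_lit 46) (nat_lit 5) (nat_lit 405) (nat_lit 369) (nat_lit 114)) (XT.lf (nat_lit 0) (nat_lit 8607486918) (nat_lit 504) (nat_lit 55818707872) (nat_lit 84) (nat_lit 11936105340) (nat_lit 40) (nat_lit 5) (nat_lit 46) (nat_lit 5) (nat_lit 41) (nat_lit 5) (nat_lit 406) (nat_lit 369) (nat_lit 113))))) (XT.nd (nat_lit 282) (nat_lit 336) (nat_lit 0) (XT.nd (nat_lit 94) (nat_lit 336) (nat_lit 0) (XT.lf (nat_lit 0) (nat_lit 13433899658) (nat_lit 504) (nat_lit 34021030260) (nat_lit 84) (nat_lit 30552977803) (nat_lit 40) (nat_lit 5) (nat_lit 46) (nat_lit 5) (nat_lit 41) (nat_lit 5) (nat_lit 407) (nat_lit 369) (nat_lit 112)) (XT.nd (nat_lit 94) (nat_lit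 336) (nat_lit 0) (XT.lf (nat_lit 0) (nat_lit 18409444579) (nat_lit 504) (nat_lit 11548158906) (nat_lit 84) (nat_lit 49746943747) (nat_lit 40) (nat_lit 5) (nat_lit 46) (nat_lit 5) (nat_lit 41) (nat_lit 5) (nat_lit 408) (nat_lit 369) (nat_lit 111)) (XT.lf (nat_lit 0) (nat_lit 11859801835) (nat_lit 336) (nat_lit 11796608276) (nat_lit 420) (nat_lit 57793742824) (nat_lit 36) (nat_lit 5) (nat_lit 40) (nat_lit 5) (nat_lit 41) (nat_lit 5) (nat_lit 409) (nat_lit 369) (nat_lit 110)))) (XT.nd (nat_lit 188) (nat_lit 336) (nat_lit 0) (XT.nd (nat_lit 94) (nat_lit 0) (nat_lit 0) (XT.lf (nat_lit 0) (nat_lit 29256060569) (nat_lit 420) (nat_lit 47078394348) (nat_lit 84) (nat_lit 6909529420) (nat_lit 36) (nat_lit 5) (nat_lit 41) (nat_lit 5) (nat_lit 37) (nat_lit 5) (nat_lit 410) (nat_lit 369) (nat_lit 109)) (XT.lf (nat_lit 0) (nat_lit 35149502300) (nat_lit 420) (nat_lit 23989732192) (nat_lit 84) (nat_lit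 25950466492) (nat_lit 36) (nat_lit 5) (nat_lit 41) (nat_lit 5) (nat_lit 37) (nat_lit 5) (nat_lit 411) (nat_lit 369) (nat_lit 108))) (XT.nd (nat_lit 94) (nat_lit 336) (nat_lit 0) (XT.lf (nat_lit 0) (nat_lit 41225204794) (nat_lit 420) (nat_lit 185819767) (nat_lit 84) (nat_lit 45581626454) (nat_lit 36) (nat_lit 5) (nat_lit 41) (nat_lit 5) (nat_lit 37) (nat_lit 5) (nat_lit 412) (nat_lit 369) (nat_lit 107)) (XT.lf (nat_lit 0) (nat_lit 24856330328) (nat_lit 336) (nat_lit 22879078788) (nat_lit 420) (nat_lit 41211555149) (nat_lit 32) (nat_lit 5) (nat_lit 36) (nat_lit 5) (nat_lit 37) (nat_lit 5) (nat_lit 413) (nat_lit 369) (nat_lit 106))))))))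
noncomputable def xc222 : XT := (XT.nd (nat_lit 52546) (nat_lit 0) (nat_lit 2268) (XT.nd (nat_lit 1128) (nat_lit 252) (nat_lit 0) (XT.nd (nat_lit 564) (nat_lit 588) (nat_lit 0) (XT.nd (nat_lit 282) (nat_lit 0) (nat_lit 0) (XT.nd (nat_lit 94) (nat_lit 252) (nat_lit 0) (XT.lf (nat_lit 0) (nat_lit 50678247976) (nat_lit 336) (nat_lit 3770706520) (nat_lit 420) (nat_lit 36512861961) (nat_lit 32) (nat_lit 5) (nat_lit 36) (nat_lit 5) (nat_lit 37) (nat_lit 5) (nat_lit 414) (nat_lit 369) (nat_lit 105)) (XT.nd (nat_lit 94) (nat_lit 252) (nat_lit 0) (XT.lf (nat_lit 0) (nat_lit 61528244613) (nat_lit 420) (nat_lit 15896990103) (nat_lit 84) (nat_lit 15609010403) (nat_lit 32) (nat_lit 5) (nat_lit 37) (nat_lit 5) (nat_lit 33) (nat_lit 5) (nat_lit 415) (nat_lit 369) (nat_lit 104)) (XT.lf (nat_lit 0) (nat_lit 9395848247) (nat_lit 252) (nat_lit 59562527037) (nat_lit 336) (nat_lit 26208473276) (nat_lit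 29) (nat_lit 5) (nat_lit 32) (nat_lit 5) (nat_lit 33) (nat_lit 5) (nat_lit 416) (nat_lit 369) (nat_lit 103)))) (XT.nd (nat_lit 94) (nat_lit 0) (nat_lit 0) (XT.lf (nat_lit 0) (nat_lit 35809313218) (nat_lit 252) (nat_lit 40975075082) (nat_lit 336) (nat_lit 20576044688) (nat_lit 29) (nat_lit 5) (nat_lit 32) (nat_lit 5) (nat_lit 33) (nat_lit 5) (nat_lit 417) (nat_lit 369) (nat_lit 102)) (XT.nd (nat_lit 94) (nat_lit 0) (nat_lit 0) (XT.lf (nat_lit 0) (nat_lit 63041150204) (nat_lit 252) (nat_lit 21811485375) (nat_lit 336) (nat_lit 14769396701) (nat_lit 29) (nat_lit 5) (nat_lit 32) (nat_lit 5) (nat_lit 33) (nat_lit 5) (nat_lit 418) (nat_lit 369) (nat_lit 101)) (XT.lf (nat_lit 0) (nat_lit 91116742130) (nat_lit 252) (nat_lit 2053895441) (nat_lit 336) (nat_lit 8783116912) (nat_lit 29) (nat_lit 5) (nat_lit 32) (nat_lit 5) (nat_lit 33) (nat_lit 5) (nat_lit 419) (nat_lit 369) (nat_lit 100)))))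 (XT.nd (nat_lit 282) (nat_lit 252) (nat_lit 0) (XT.nd (nat_lit 94) (nat_lit 84) (nat_lit 0) (XT.lf (nat_lit 0) (nat_lit 15841967638) (nat_lit 252) (nat_lit 86243032255) (nat_lit 336) (nat_lit 2262268689) (nat_lit 26) (nat_lit 5) (nat_lit 29) (nat_lit 5) (nat_lit 30) (nat_lit 5) (nat_lit 420) (nat_lit 369) (nat_lit 99)) (XT.nd (nat_lit 94) (nat_lit 0) (nat_lit 0) (XT.lf (nat_lit 0) (nat_lit 4505781788) (nat_lit 336) (nat_lit 63300590476) (nat_lit 84) (nat_lit 39003056711) (nat_lit 25) (nat_lit 5) (nat_lit 29) (nat_lit 5) (nat_lit 26) (nat_lit 5) (nat_lit 421) (nat_lit 369) (nat_lit 98)) (XT.lf (nat_lit 0) (nat_lit 11436309742) (nat_lit 336) (nat_lit 37338094611) (nat_lit 84) (nat_lit 60572807141) (nat_lit 25) (nat_lit 5) (nat_lit 29) (nat_lit 5) (nat_lit 26) (nat_lit 5) (nat_lit 422) (nat_lit 369) (nat_lit 97)))) (XT.nd (nat_lit 94) (nat_lit 252) (nat_lit 0) (XT.lf (nat_lit 0) (nat_lit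 18581354823) (nat_lit 336) (nat_lit 10571171597) (nat_lit 84) (nat_lit 82811150897) (nat_lit 25) (nat_lit 5) (nat_lit 29) (nat_lit 5) (nat_lit 26) (nat_lit 5) (nat_lit 423) (nat_lit 369) (nat_lit 96)) (XT.nd (nat_lit 94) (nat_lit 0) (nat_lit 0) (XT.lf (nat_lit 0) (nat_lit 17375199693) (nat_lit 252) (nat_lit 8744741400) (nat_lit 336) (nat_lit 88535980884) (nat_lit 22) (nat_lit 5) (nat_lit 25) (nat_lit 5) (nat_lit 26) (nat_lit 5) (nat_lit 424) (nat_lit 369) (nat_lit 95)) (XT.lf (nat_lit 0) (nat_lit 34125353696) (nat_lit 336) (nat_lit 71139701631) (nat_lit 84) (nat_lit 12159345590) (nat_lit 22) (nat_lit 5) (nat_lit 26) (nat_lit 5) (nat_lit 23) (nat_lit 5) (nat_lit 425) (nat_lit 369) (nat_lit 94)))))) (XT.nd (nat_lit 50760) (nat_lit 0) (nat_lit 5208) (XT.nd (nat_lit 50478) (nat_lit 0) (nat_lit 5208) (XT.nd (nat_lit 94) (nat_lit 252) (nat_lit 0) (XT.lf (nat_lit 0) (nat_lit 42468067237)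 (nat_lit 336) (nat_lit 44278139827) (nat_lit 84) (nat_lit 33529734192) (nat_lit 22) (nat_lit 5) (nat_lit 26) (nat_lit 5) (nat_lit 23) (nat_lit 5) (nat_lit 426) (nat_lit 369) (nat_lit 93)) (XT.nd (nat_lit 94) (nat_lit 252) (nat_lit 0) (XT.lf (nat_lit 0) (nat_lit 51069109081) (nat_lit 336) (nat_lit 16584250165) (nat_lit 84) (nat_lit 55562530898) (nat_lit 22) (nat_lit 5) (nat_lit 26) (nat_lit 5) (nat_lit 23) (nat_lit 5) (nat_lit 427) (nat_lit 369) (nat_lit 92)) (XT.lf (nat_lit 0) (nat_lit 12213863081) (nat_lit 252) (nat_lit 47843796252) (nat_lit 336) (nat_lit 66185572535) (nat_lit 19) (nat_lit 5) (nat_lit 22) (nat_lit 5) (nat_lit 23) (nat_lit 5) (nat_lit 428) (nat_lit 369) (nat_lit 91)))) (XT.nd (nat_lit 94) (nat_lit 0) (nat_lit 0) (XT.lf (nat_lit 0) (nat_lit 8430480699) (nat_lit 0) (nat_lit 8430480699) (nat_lit 924) (nat_lit 3129306911) (nat_lit 81) (nat_lit 5) (nat_lit 81) (nat_lit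 3) (nat_lit 92) (nat_lit 3) (nat_lit 370) (nat_lit 370) (nat_lit 148)) (XT.nd (nat_lit 94) (nat_lit 0) (nat_lit 0) (XT.lf (nat_lit 0) (nat_lit 30236737127) (nat_lit 0) (nat_lit 4039433155) (nat_lit 924) (nat_lit 6322856068) (nat_lit 81) (nat_lit 5) (nat_lit 81) (nat_lit 3) (nat_lit 92) (nat_lit 3) (nat_lit 371) (nat_lit 370) (nat_lit 147)) (XT.lf (nat_lit 84) (nat_lit 2754210624) (nat_lit 0) (nat_lit 32210507994) (nat_lit 1008) (nat_lit 6268349230) (nat_lit 82) (nat_lit 5) (nat_lit 81) (nat_lit 5) (nat_lit 93) (nat_lit 5) (nat_lit 372) (nat_lit 370) (nat_lit 146))))) (XT.nd (nat_lit 282) (nat_lit 0) (nat_lit 84) (XT.nd (nat_lit 94) (nat_lit 0) (nat_lit 0) (XT.lf (nat_lit 84) (nat_lit 16454149825) (nat_lit 0) (nat_lit 19368284743) (nat_lit 1008) (nat_lit 6059756564) (nat_lit 82) (nat_lit 5) (nat_lit 81) (nat_lit 5) (nat_lit 93) (nat_lit 5) (nat_lit 373) (nat_lit 370) (nat_lit 145))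 (XT.nd (nat_lit 94) (nat_lit 0) (nat_lit 84) (XT.lf (nat_lit 84) (nat_lit 30578123872) (nat_lit 0) (nat_lit 6127418883) (nat_lit 1008) (nat_lit 5845940321) (nat_lit 82) (nat_lit 5) (nat_lit 81) (nat_lit 5) (nat_lit 93) (nat_lit 5) (nat_lit 374) (nat_lit 370) (nat_lit 144)) (XT.lf (nat_lit 84) (nat_lit 1860573376) (nat_lit 0) (nat_lit 35847393359) (nat_lit 1008) (nat_lit 5530714678) (nat_lit 83) (nat_lit 5) (nat_lit 82) (nat_lit 5) (nat_lit 94) (nat_lit 5) (nat_lit 375) (nat_lit 370) (nat_lit 143)))) (XT.nd (nat_lit 188) (nat_lit 0) (nat_lit 84) (XT.nd (nat_lit 94) (nat_lit 0) (nat_lit 0) (XT.lf (nat_lit 84) (nat_lit 16312543200) (nat_lit 0) (nat_lit 22614806702) (nat_lit 1008) (nat_lit 5014078805) (nat_lit 83) (nat_lit 5) (nat_lit 82) (nat_lit 5) (nat_lit 94) (nat_lit 5) (nat_lit 376) (nat_lit 370) (nat_lit 142)) (XT.lf (nat_lit 84) (nat_lit 31211858808) (nat_lit 0) (nat_lit 8971581167)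 (nat_lit 1008) (nat_lit 4482563072) (nat_lit 83) (nat_lit 5) (nat_lit 82) (nat_lit 5) (nat_lit 94) (nat_lit 5) (nat_lit 377) (nat_lit 370) (nat_lit 141))) (XT.nd (nat_lit 94) (nat_lit 0) (nat_lit 0) (XT.lf (nat_lit 84) (nat_lit 1131583973) (nat_lit 0) (nat_lit 40407592275) (nat_lit 1008) (nat_lit 3871988740) (nat_lit 84) (nat_lit 5) (nat_lit 83) (nat_lit 5) (nat_lit 95) (nat_lit 5) (nat_lit 378) (nat_lit 370) (nat_lit 140)) (XT.lf (nat_lit 84) (nat_lit 16360362606) (nat_lit 0) (nat_lit 26806808665) (nat_lit 1008) (nat_lit 3005126014) (nat_lit 84) (nat_lit 5) (nat_lit 83) (nat_lit 5) (nat_lit 95) (nat_lit 5) (nat_lit 379) (nat_lit 370) (nat_lit 139))))))) (XT.nd (nat_lit 1222) (nat_lit 1680) (nat_lit 0) (XT.nd (nat_lit 564) (nat_lit 504) (nat_lit 0) (XT.nd (nat_lit 282) (nat_lit 0) (nat_lit 0) (XT.nd (nat_lit 94) (nat_lit 924) (nat_lit 0) (XT.lf (nat_lit 84) (nat_lit 32060570878)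 (nat_lit 0) (nat_lit 12784062342) (nat_lit 1008) (nat_lit 2112429762) (nat_lit 84) (nat_lit 5) (nat_lit 83) (nat_lit 5) (nat_lit 95) (nat_lit 5) (nat_lit 380) (nat_lit 370) (nat_lit 138)) (XT.nd (nat_lit 94) (nat_lit 1008) (nat_lit 0) (XT.lf (nat_lit 84) (nat_lit 473587720) (nat_lit 0) (nat_lit 46120839477) (nat_lit 1008) (nat_lit 1171106016) (nat_lit 85) (nat_lit 5) (nat_lit 84) (nat_lit 5) (nat_lit 96) (nat_lit 5) (nat_lit 381) (nat_lit 370) (nat_lit 137)) (XT.lf (nat_lit 0) (nat_lit 90308879) (nat_lit 1008) (nat_lit 32089361695) (nat_lit 1092) (nat_lit 16410570847) (nat_lit 72) (nat_lit 5) (nat_lit 84) (nat_lit 5) (nat_lit 85) (nat_lit 5) (nat_lit 382) (nat_lit 370) (nat_lit 136)))) (XT.nd (nat_lit 94) (nat_lit 0) (nat_lit 0) (XT.lf (nat_lit 0) (nat_lit 1365568371) (nat_lit 1008) (nat_lit 16428156809) (nat_lit 1092) (nat_lit 31646454443) (nat_lit 72) (nat_lit 5) (nat_lit 84) (nat_lit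 5) (nat_lit 85) (nat_lit 5) (nat_lit 383) (nat_lit 370) (nat_lit 135)) (XT.nd (nat_lit 94) (nat_lit 0) (nat_lit 84) (XT.lf (nat_lit 0) (nat_lit 2679456312) (nat_lit 1008) (nat_lit 282115432) (nat_lit 1092) (nat_lit 47354928447) (nat_lit 72) (nat_lit 5) (nat_lit 84) (nat_lit 5) (nat_lit 85) (nat_lit 5) (nat_lit 384) (nat_lit 370) (nat_lit 134)) (XT.lf (nat_lit 0) (nat_lit 4322881914) (nat_lit 1008) (nat_lit 34638614067) (nat_lit 1092) (nat_lit 12249543747) (nat_lit 73) (nat_lit 5) (nat_lit 85) (nat_lit 5) (nat_lit 86) (nat_lit 5) (nat_lit 385) (nat_lit 370) (nat_lit 133))))) (XT.nd (nat_lit 282) (nat_lit 588) (nat_lit 0) (XT.nd (nat_lit 94) (nat_lit 0) (nat_lit 0) (XT.lf (nat_lit 0) (nat_lit 6049663347) (nat_lit 1008) (nat_lit 18208769665) (nat_lit 1092) (nat_lit 27873878150) (nat_lit 73) (nat_lit 5) (nat_lit 85) (nat_lit 5) (nat_lit 86) (nat_lit 5) (nat_lit 386) (nat_lit 370) (nat_lit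 132)) (XT.nd (nat_lit 94) (nat_lit 0) (nat_lit 84) (XT.lf (nat_lit 0) (nat_lit 7829145617) (nat_lit 1008) (nat_lit 1270249125) (nat_lit 1092) (nat_lit 43982778673) (nat_lit 73) (nat_lit 5) (nat_lit 85) (nat_lit 5) (nat_lit 86) (nat_lit 5) (nat_lit 387) (nat_lit 370) (nat_lit 131)) (XT.lf (nat_lit 0) (nat_lit 9893376900) (nat_lit 1008) (nat_lit 37597190530) (nat_lit 84) (nat_lit 6563802355) (nat_lit 74) (nat_lit 5) (nat_lit 86) (nat_lit 5) (nat_lit 75) (nat_lit 5) (nat_lit 388) (nat_lit 370) (nat_lit 130)))) (XT.nd (nat_lit 188) (nat_lit 672) (nat_lit 0) (XT.nd (nat_lit 94) (nat_lit 0) (nat_lit 0) (XT.lf (nat_lit 0) (nat_lit 12127274334) (nat_lit 1008) (nat_lit 20389062205) (nat_lit 84) (nat_lit 22537097134) (nat_lit 74) (nat_lit 5) (nat_lit 86) (nat_lit 5) (nat_lit 75) (nat_lit 5) (nat_lit 389) (nat_lit 370) (nat_lit 129)) (XT.lf (nat_lit 0) (nat_lit 14429661364) (nat_lit 1008) (nat_lit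 2648116729) (nat_lit 84) (nat_lit 39005719243) (nat_lit 74) (nat_lit 5) (nat_lit 86) (nat_lit 5) (nat_lit 75) (nat_lit 5) (nat_lit 390) (nat_lit 370) (nat_lit 128))) (XT.nd (nat_lit 94) (nat_lit 0) (nat_lit 0) (XT.lf (nat_lit 0) (nat_lit 15963817666) (nat_lit 672) (nat_lit 997229435) (nat_lit 756) (nat_lit 40179564545) (nat_lit 66) (nat_lit 5) (nat_lit 74) (nat_lit 5) (nat_lit 75) (nat_lit 5) (nat_lit 391) (nat_lit 370) (nat_lit 127)) (XT.lf (nat_lit 0) (nat_lit 19752681886) (nat_lit 756) (nat_lit 23176273065) (nat_lit 84) (nat_lit 15295911376) (nat_lit 66) (nat_lit 5) (nat_lit 75) (nat_lit 5) (nat_lit 67) (nat_lit 5) (nat_lit 392) (nat_lit 370) (nat_lit 126)))))) (XT.nd (nat_lit 564) (nat_lit 756) (nat_lit 0) (XT.nd (nat_lit 282) (nat_lit 420) (nat_lit 0) (XT.nd (nat_lit 94) (nat_lit 504) (nat_lit 0) (XT.lf (nat_lit 0) (nat_lit 22640357276) (nat_lit 756) (nat_lit 4628554033) (nat_lit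 84) (nat_lit 32073531840) (nat_lit 66) (nat_lit 5) (nat_lit 75) (nat_lit 5) (nat_lit 67) (nat_lit 5) (nat_lit 393) (nat_lit 370) (nat_lit 125)) (XT.nd (nat_lit 94) (nat_lit 0) (nat_lit 0) (XT.lf (nat_lit 0) (nat_lit 14791561168) (nat_lit 504) (nat_lit 10972045197) (nat_lit 588) (nat_lit 34726535355) (nat_lit 60) (nat_lit 5) (nat_lit 66) (nat_lit 5) (nat_lit 67) (nat_lit 5) (nat_lit 394) (nat_lit 370) (nat_lit 124)) (XT.lf (nat_lit 0) (nat_lit 29089654311) (nat_lit 588) (nat_lit 26819046855) (nat_lit 84) (nat_lit 5761436919) (nat_lit 60) (nat_lit 5) (nat_lit 67) (nat_lit 5) (nat_lit 61) (nat_lit 5) (nat_lit 395) (nat_lit 370) (nat_lit 123)))) (XT.nd (nat_lit 94) (nat_lit 420) (nat_lit 0) (XT.lf (nat_lit 0) (nat_lit 32630384735) (nat_lit 588) (nat_lit 7467066962) (nat_lit 84) (nat_lit 22785808143) (nat_lit 60) (nat_lit 5) (nat_lit 67) (nat_lit 5) (nat_lit 61) (nat_lit 5) (nat_lit 396)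 (nat_lit 370) (nat_lit 122)) (XT.nd (nat_lit 94) (nat_lit 0) (nat_lit 0) (XT.lf (nat_lit 0) (nat_lit 12740942850) (nat_lit 420) (nat_lit 23665702802) (nat_lit 504) (nat_lit 27723448108) (nat_lit 55) (nat_lit 5) (nat_lit 60) (nat_lit 5) (nat_lit 61) (nat_lit 5) (nat_lit 397) (nat_lit 370) (nat_lit 121)) (XT.lf (nat_lit 0) (nat_lit 33733121706) (nat_lit 420) (nat_lit 6644178972) (nat_lit 504) (nat_lit 25035885694) (nat_lit 55) (nat_lit 5) (nat_lit 60) (nat_lit 5) (nat_lit 61) (nat_lit 5) (nat_lit 398) (nat_lit 370) (nat_lit 120))))) (XT.nd (nat_lit 282) (nat_lit 336) (nat_lit 0) (XT.nd (nat_lit 94) (nat_lit 420) (nat_lit 0) (XT.lf (nat_lit 0) (nat_lit 44578632924) (nat_lit 504) (nat_lit 11468758261) (nat_lit 84) (nat_lit 10685332421) (nat_lit 55) (nat_lit 5) (nat_lit 61) (nat_lit 5) (nat_lit 56) (nat_lit 5) (nat_lit 399) (nat_lit 370) (nat_lit 119)) (XT.nd (nat_lit 94) (nat_lit 0)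 (nat_lit 0) (XT.lf (nat_lit 0) (nat_lit 9491818377) (nat_lit 420) (nat_lit 39579928077) (nat_lit 504) (nat_lit 19016416132) (nat_lit 50) (nat_lit 5) (nat_lit 55) (nat_lit 5) (nat_lit 56) (nat_lit 5) (nat_lit 400) (nat_lit 370) (nat_lit 118)) (XT.lf (nat_lit 0) (nat_lit 31344745331) (nat_lit 420) (nat_lit 22478548859) (nat_lit 504) (nat_lit 15658636118) (nat_lit 50) (nat_lit 5) (nat_lit 55) (nat_lit 5) (nat_lit 56) (nat_lit 5) (nat_lit 401) (nat_lit 370) (nat_lit 117)))) (XT.nd (nat_lit 188) (nat_lit 0) (nat_lit 0) (XT.nd (nat_lit 94) (nat_lit 336) (nat_lit 0) (XT.lf (nat_lit 0) (nat_lit 53874570624) (nat_lit 420) (nat_lit 4847023571) (nat_lit 504) (nat_lit 12197331153) (nat_lit 50) (nat_lit 5) (nat_lit 55) (nat_lit 5) (nat_lit 56) (nat_lit 5) (nat_lit 402) (nat_lit 370) (nat_lit 116)) (XT.lf (nat_lit 0) (nat_lit 4663520841) (nat_lit 336) (nat_lit 59286200047) (nat_lit 420) (nat_lit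 8445232480) (nat_lit 46) (nat_lit 5) (nat_lit 50) (nat_lit 5) (nat_lit 51) (nat_lit 5) (nat_lit 403) (nat_lit 370) (nat_lit 115))) (XT.nd (nat_lit 94) (nat_lit 0) (nat_lit 0) (XT.lf (nat_lit 0) (nat_lit 27354538437) (nat_lit 336) (nat_lit 42211842220) (nat_lit 420) (nat_lit 4343340693) (nat_lit 46) (nat_lit 5) (nat_lit 50) (nat_lit 5) (nat_lit 51) (nat_lit 5) (nat_lit 404) (nat_lit 370) (nat_lit 114)) (XT.lf (nat_lit 0) (nat_lit 50748453336) (nat_lit 336) (nat_lit 24608200420) (nat_lit 420) (nat_lit 114812265) (nat_lit 46) (nat_lit 5) (nat_lit 50) (nat_lit 5) (nat_lit 51) (nat_lit 5) (nat_lit 405) (nat_lit 370) (nat_lit 113))))))))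
noncomputable def xc223 : XT := (XT.nd (nat_lit 52734) (nat_lit 0) (nat_lit 2772) (XT.nd (nat_lit 1222) (nat_lit 588) (nat_lit 0) (XT.nd (nat_lit 564) (nat_lit 588) (nat_lit 0) (XT.nd (nat_lit 282) (nat_lit 336) (nat_lit 0) (XT.nd (nat_lit 94) (nat_lit 420) (nat_lit 0) (XT.lf (nat_lit 0) (nat_lit 4158781163) (nat_lit 420) (nat_lit 2256675901) (nat_lit 84) (nat_lit 70664880809) (nat_lit 45) (nat_lit 5) (nat_lit 50) (nat_lit 5) (nat_lit 46) (nat_lit 5) (nat_lit 406) (nat_lit 370) (nat_lit 112)) (XT.nd (nat_lit 94) (nat_lit 0) (nat_lit 0) (XT.lf (nat_lit 0) (nat_lit 8898231695) (nat_lit 504) (nat_lit 57522833555) (nat_lit 84) (nat_lit 12307577517) (nat_lit 40) (nat_lit 5) (nat_lit 46) (nat_lit 5) (nat_lit 41) (nat_lit 5) (nat_lit 407) (nat_lit 370) (nat_lit 111)) (XT.lf (nat_lit 0) (nat_lit 13873544226) (nat_lit 504) (nat_lit 35050217347) (nat_lit 84) (nat_lit 31501529341) (nat_lit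 40) (nat_lit 5) (nat_lit 46) (nat_lit 5) (nat_lit 41) (nat_lit 5) (nat_lit 408) (nat_lit 370) (nat_lit 110)))) (XT.nd (nat_lit 94) (nat_lit 336) (nat_lit 0) (XT.lf (nat_lit 0) (nat_lit 19002633654) (nat_lit 504) (nat_lit 11881452656) (nat_lit 84) (nat_lit 51290465856) (nat_lit 40) (nat_lit 5) (nat_lit 46) (nat_lit 5) (nat_lit 41) (nat_lit 5) (nat_lit 409) (nat_lit 370) (nat_lit 109)) (XT.nd (nat_lit 94) (nat_lit 0) (nat_lit 0) (XT.lf (nat_lit 0) (nat_lit 12251904811) (nat_lit 336) (nat_lit 12159916429) (nat_lit 420) (nat_lit 59562468025) (nat_lit 36) (nat_lit 5) (nat_lit 40) (nat_lit 5) (nat_lit 41) (nat_lit 5) (nat_lit 410) (nat_lit 370) (nat_lit 108)) (XT.lf (nat_lit 0) (nat_lit 30184420456) (nat_lit 420) (nat_lit 48513339749) (nat_lit 84) (nat_lit 7125993132) (nat_lit 36) (nat_lit 5) (nat_lit 41) (nat_lit 5) (nat_lit 37) (nat_lit 5) (nat_lit 411) (nat_lit 370) (nat_lit 107)))))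 (XT.nd (nat_lit 282) (nat_lit 252) (nat_lit 0) (XT.nd (nat_lit 94) (nat_lit 336) (nat_lit 0) (XT.lf (nat_lit 0) (nat_lit 36259914766) (nat_lit 420) (nat_lit 24709665274) (nat_lit 84) (nat_lit 26757131050) (nat_lit 36) (nat_lit 5) (nat_lit 41) (nat_lit 5) (nat_lit 37) (nat_lit 5) (nat_lit 412) (nat_lit 370) (nat_lit 106)) (XT.nd (nat_lit 94) (nat_lit 336) (nat_lit 0) (XT.lf (nat_lit 0) (nat_lit 42523339290) (nat_lit 420) (nat_lit 168545635) (nat_lit 84) (nat_lit 46996790819) (nat_lit 36) (nat_lit 5) (nat_lit 41) (nat_lit 5) (nat_lit 37) (nat_lit 5) (nat_lit 413) (nat_lit 370) (nat_lit 105)) (XT.lf (nat_lit 0) (nat_lit 25649677910) (nat_lit 336) (nat_lit 23585302266) (nat_lit 420) (nat_lit 42468607991) (nat_lit 32) (nat_lit 5) (nat_lit 36) (nat_lit 5) (nat_lit 37) (nat_lit 5) (nat_lit 414) (nat_lit 370) (nat_lit 104)))) (XT.nd (nat_lit 188) (nat_lit 252) (nat_lit 0) (XT.nd (nat_lit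 94) (nat_lit 0) (nat_lit 0) (XT.lf (nat_lit 0) (nat_lit 52271389417) (nat_lit 336) (nat_lit 3884661502) (nat_lit 420) (nat_lit 37624871867) (nat_lit 32) (nat_lit 5) (nat_lit 36) (nat_lit 5) (nat_lit 37) (nat_lit 5) (nat_lit 415) (nat_lit 370) (nat_lit 103)) (XT.lf (nat_lit 0) (nat_lit 63454250620) (nat_lit 420) (nat_lit 16367685641) (nat_lit 84) (nat_lit 16095680946) (nat_lit 32) (nat_lit 5) (nat_lit 37) (nat_lit 5) (nat_lit 33) (nat_lit 5) (nat_lit 416) (nat_lit 370) (nat_lit 102))) (XT.nd (nat_lit 94) (nat_lit 0) (nat_lit 0) (XT.lf (nat_lit 0) (nat_lit 9709006842) (nat_lit 252) (nat_lit 61405365446) (nat_lit 336) (nat_lit 27001973067) (nat_lit 29) (nat_lit 5) (nat_lit 32) (nat_lit 5) (nat_lit 33) (nat_lit 5) (nat_lit 417) (nat_lit 370) (nat_lit 101)) (XT.lf (nat_lit 0) (nat_lit 36940631122) (nat_lit 252) (nat_lit 42241810724) (nat_lit 336) (nat_lit 21195509366) (nat_lit 29) (nat_lit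 5) (nat_lit 32) (nat_lit 5) (nat_lit 33) (nat_lit 5) (nat_lit 418) (nat_lit 370) (nat_lit 100)))))) (XT.nd (nat_lit 564) (nat_lit 252) (nat_lit 0) (XT.nd (nat_lit 282) (nat_lit 84) (nat_lit 0) (XT.nd (nat_lit 94) (nat_lit 252) (nat_lit 0) (XT.lf (nat_lit 0) (nat_lit 65016016737) (nat_lit 252) (nat_lit 22484254723) (nat_lit 336) (nat_lit 15209408322) (nat_lit 29) (nat_lit 5) (nat_lit 32) (nat_lit 5) (nat_lit 33) (nat_lit 5) (nat_lit 419) (nat_lit 370) (nat_lit 99)) (XT.nd (nat_lit 94) (nat_lit 252) (nat_lit 0) (XT.lf (nat_lit 0) (nat_lit 93961332889) (nat_lit 252) (nat_lit 2114281332) (nat_lit 336) (nat_lit 9038090261) (nat_lit 29) (nat_lit 5) (nat_lit 32) (nat_lit 5) (nat_lit 33) (nat_lit 5) (nat_lit 420) (nat_lit 370) (nat_lit 98)) (XT.lf (nat_lit 0) (nat_lit 16353416085) (nat_lit 252) (nat_lit 88912637407) (nat_lit 336) (nat_lit 2315375323) (nat_lit 26) (nat_lit 5) (nat_lit 29)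 (nat_lit 5) (nat_lit 30) (nat_lit 5) (nat_lit 421) (nat_lit 370) (nat_lit 97)))) (XT.nd (nat_lit 94) (nat_lit 0) (nat_lit 0) (XT.lf (nat_lit 0) (nat_lit 4661640176) (nat_lit 336) (nat_lit 65242750036) (nat_lit 84) (nat_lit 40215539086) (nat_lit 25) (nat_lit 5) (nat_lit 29) (nat_lit 5) (nat_lit 26) (nat_lit 5) (nat_lit 422) (nat_lit 370) (nat_lit 96)) (XT.nd (nat_lit 94) (nat_lit 0) (nat_lit 0) (XT.lf (nat_lit 0) (nat_lit 11806528023) (nat_lit 336) (nat_lit 38476022930) (nat_lit 84) (nat_lit 62453849920) (nat_lit 25) (nat_lit 5) (nat_lit 29) (nat_lit 5) (nat_lit 26) (nat_lit 5) (nat_lit 423) (nat_lit 370) (nat_lit 95)) (XT.lf (nat_lit 0) (nat_lit 19172597656) (nat_lit 336) (nat_lit 10879913209) (nat_lit 84) (nat_lit 85381483536) (nat_lit 25) (nat_lit 5) (nat_lit 29) (nat_lit 5) (nat_lit 26) (nat_lit 5) (nat_lit 424) (nat_lit 370) (nat_lit 94))))) (XT.nd (nat_lit 282) (nat_lit 0) (nat_lit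 0) (XT.nd (nat_lit 94) (nat_lit 0) (nat_lit 0) (XT.lf (nat_lit 0) (nat_lit 17932603591) (nat_lit 252) (nat_lit 9012005078) (nat_lit 336) (nat_lit 91265100948) (nat_lit 22) (nat_lit 5) (nat_lit 25) (nat_lit 5) (nat_lit 26) (nat_lit 5) (nat_lit 425) (nat_lit 370) (nat_lit 93)) (XT.nd (nat_lit 94) (nat_lit 0) (nat_lit 0) (XT.lf (nat_lit 0) (nat_lit 35197776353) (nat_lit 336) (nat_lit 73326331391) (nat_lit 84) (nat_lit 12539918935) (nat_lit 22) (nat_lit 5) (nat_lit 26) (nat_lit 5) (nat_lit 23) (nat_lit 5) (nat_lit 426) (nat_lit 370) (nat_lit 92)) (XT.lf (nat_lit 0) (nat_lit 43798676926) (nat_lit 336) (nat_lit 45632623471) (nat_lit 84) (nat_lit 34572680328) (nat_lit 22) (nat_lit 5) (nat_lit 26) (nat_lit 5) (nat_lit 23) (nat_lit 5) (nat_lit 427) (nat_lit 370) (nat_lit 91)))) (XT.nd (nat_lit 50478) (nat_lit 0) (nat_lit 4956) (XT.nd (nat_lit 50384) (nat_lit 0) (nat_lit 4956) (XT.lf (nat_lit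 0) (nat_lit 52665927121) (nat_lit 336) (nat_lit 17080768622) (nat_lit 84) (nat_lit 57288387762) (nat_lit 22) (nat_lit 5) (nat_lit 26) (nat_lit 5) (nat_lit 23) (nat_lit 5) (nat_lit 428) (nat_lit 370) (nat_lit 90)) (XT.lf (nat_lit 0) (nat_lit 8707447913) (nat_lit 0) (nat_lit 8707447913) (nat_lit 924) (nat_lit 3193874203) (nat_lit 81) (nat_lit 5) (nat_lit 81) (nat_lit 3) (nat_lit 92) (nat_lit 3) (nat_lit 371) (nat_lit 371) (nat_lit 146))) (XT.nd (nat_lit 94) (nat_lit 0) (nat_lit 0) (XT.lf (nat_lit 0) (nat_lit 31204381143) (nat_lit 0) (nat_lit 4194960748) (nat_lit 924) (nat_lit 6455933041) (nat_lit 81) (nat_lit 5) (nat_lit 81) (nat_lit 3) (nat_lit 92) (nat_lit 3) (nat_lit 372) (nat_lit 371) (nat_lit 145)) (XT.lf (nat_lit 84) (nat_lit 2872184828) (nat_lit 0) (nat_lit 33235259714) (nat_lit 1008) (nat_lit 6401595984) (nat_lit 82) (nat_lit 5) (nat_lit 81) (nat_lit 5) (nat_lit 93) (nat_lit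 5) (nat_lit 373) (nat_lit 371) (nat_lit 144))))))) (XT.nd (nat_lit 1222) (nat_lit 1428) (nat_lit 0) (XT.nd (nat_lit 564) (nat_lit 756) (nat_lit 0) (XT.nd (nat_lit 282) (nat_lit 0) (nat_lit 84) (XT.nd (nat_lit 94) (nat_lit 0) (nat_lit 0) (XT.lf (nat_lit 84) (nat_lit 16995842122) (nat_lit 0) (nat_lit 19994138982) (nat_lit 1008) (nat_lit 6188373255) (nat_lit 82) (nat_lit 5) (nat_lit 81) (nat_lit 5) (nat_lit 93) (nat_lit 5) (nat_lit 374) (nat_lit 371) (nat_lit 143)) (XT.nd (nat_lit 94) (nat_lit 0) (nat_lit 84) (XT.lf (nat_lit 84) (nat_lit 31556708808) (nat_lit 0) (nat_lit 6342041430) (nat_lit 1008) (nat_lit 5969709802) (nat_lit 82) (nat_lit 5) (nat_lit 81) (nat_lit 5) (nat_lit 93) (nat_lit 5) (nat_lit 375) (nat_lit 371) (nat_lit 142)) (XT.lf (nat_lit 84) (nat_lit 1950943645) (nat_lit 0) (nat_lit 36979728809) (nat_lit 1008) (nat_lit 5646350093) (nat_lit 83) (nat_lit 5) (nat_lit 82) (nat_lit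 5) (nat_lit 94) (nat_lit 5) (nat_lit 376) (nat_lit 371) (nat_lit 141)))) (XT.nd (nat_lit 94) (nat_lit 0) (nat_lit 0) (XT.lf (nat_lit 84) (nat_lit 16849941539) (nat_lit 0) (nat_lit 23336298547) (nat_lit 1008) (nat_lit 5115376800) (nat_lit 83) (nat_lit 5) (nat_lit 82) (nat_lit 5) (nat_lit 94) (nat_lit 5) (nat_lit 377) (nat_lit 371) (nat_lit 140)) (XT.nd (nat_lit 94) (nat_lit 0) (nat_lit 84) (XT.lf (nat_lit 84) (nat_lit 32210182493) (nat_lit 0) (nat_lit 9269518648) (nat_lit 1008) (nat_lit 4569011908) (nat_lit 83) (nat_lit 5) (nat_lit 82) (nat_lit 5) (nat_lit 94) (nat_lit 5) (nat_lit 378) (nat_lit 371) (nat_lit 139)) (XT.lf (nat_lit 84) (nat_lit 1199218863) (nat_lit 0) (nat_lit 41676857973) (nat_lit 1008) (nat_lit 3940952288) (nat_lit 84) (nat_lit 5) (nat_lit 83) (nat_lit 5) (nat_lit 95) (nat_lit 5) (nat_lit 379) (nat_lit 371) (nat_lit 138))))) (XT.nd (nat_lit 282) (nat_lit 924) (nat_lit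 0) (XT.nd (nat_lit 94) (nat_lit 0) (nat_lit 0) (XT.lf (nat_lit 84) (nat_lit 16899110749) (nat_lit 0) (nat_lit 27653950032) (nat_lit 1008) (nat_lit 3048752328) (nat_lit 84) (nat_lit 5) (nat_lit 83) (nat_lit 5) (nat_lit 95) (nat_lit 5) (nat_lit 380) (nat_lit 371) (nat_lit 137)) (XT.nd (nat_lit 94) (nat_lit 0) (nat_lit 84) (XT.lf (nat_lit 84) (nat_lit 33085076026) (nat_lit 0) (nat_lit 13196013569) (nat_lit 1008) (nat_lit 2129871833) (nat_lit 84) (nat_lit 5) (nat_lit 83) (nat_lit 5) (nat_lit 95) (nat_lit 5) (nat_lit 381) (nat_lit 371) (nat_lit 136)) (XT.lf (nat_lit 84) (nat_lit 520492527) (nat_lit 0) (nat_lit 47563412459) (nat_lit 1008) (nat_lit 1160637242) (nat_lit 85) (nat_lit 5) (nat_lit 84) (nat_lit 5) (nat_lit 96) (nat_lit 5) (nat_lit 382) (nat_lit 371) (nat_lit 135)))) (XT.nd (nat_lit 188) (nat_lit 0) (nat_lit 0) (XT.nd (nat_lit 94) (nat_lit 0) (nat_lit 0) (XT.lf (nat_lit 0) (nat_lit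 137561109) (nat_lit 1008) (nat_lit 33051656538) (nat_lit 1092) (nat_lit 16905636587) (nat_lit 72) (nat_lit 5) (nat_lit 84) (nat_lit 5) (nat_lit 85) (nat_lit 5) (nat_lit 383) (nat_lit 371) (nat_lit 134)) (XT.lf (nat_lit 0) (nat_lit 1451017048) (nat_lit 1008) (nat_lit 16905930765) (nat_lit 1092) (nat_lit 32614243361) (nat_lit 72) (nat_lit 5) (nat_lit 84) (nat_lit 5) (nat_lit 85) (nat_lit 5) (nat_lit 384) (nat_lit 371) (nat_lit 133))) (XT.nd (nat_lit 94) (nat_lit 0) (nat_lit 84) (XT.lf (nat_lit 0) (nat_lit 2804339105) (nat_lit 1008) (nat_lit 260309212) (nat_lit 1092) (nat_lit 48810078493) (nat_lit 72) (nat_lit 5) (nat_lit 84) (nat_lit 5) (nat_lit 85) (nat_lit 5) (nat_lit 385) (nat_lit 371) (nat_lit 132)) (XT.lf (nat_lit 0) (nat_lit 4497648133) (nat_lit 1008) (nat_lit 35680516732) (nat_lit 1092) (nat_lit 12618873828) (nat_lit 73) (nat_lit 5) (nat_lit 85) (nat_lit 5) (nat_lit 86) (nat_lit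 5) (nat_lit 386) (nat_lit 371) (nat_lit 131)))))) (XT.nd (nat_lit 564) (nat_lit 924) (nat_lit 0) (XT.nd (nat_lit 282) (nat_lit 588) (nat_lit 0) (XT.nd (nat_lit 94) (nat_lit 0) (nat_lit 0) (XT.lf (nat_lit 0) (nat_lit 6276734317) (nat_lit 1008) (nat_lit 18742306150) (nat_lit 1092) (nat_lit 28727875477) (nat_lit 73) (nat_lit 5) (nat_lit 85) (nat_lit 5) (nat_lit 86) (nat_lit 5) (nat_lit 387) (nat_lit 371) (nat_lit 130)) (XT.nd (nat_lit 94) (nat_lit 0) (nat_lit 84) (XT.lf (nat_lit 0) (nat_lit 8110191910) (nat_lit 1008) (nat_lit 1279621636) (nat_lit 1092) (nat_lit 45336455389) (nat_lit 73) (nat_lit 5) (nat_lit 85) (nat_lit 5) (nat_lit 86) (nat_lit 5) (nat_lit 388) (nat_lit 371) (nat_lit 129)) (XT.lf (nat_lit 0) (nat_lit 10237478909) (nat_lit 1008) (nat_lit 38731507455) (nat_lit 84) (nat_lit 6759653941) (nat_lit 74) (nat_lit 5) (nat_lit 86) (nat_lit 5) (nat_lit 75) (nat_lit 5) (nat_lit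 389) (nat_lit 371) (nat_lit 128)))) (XT.nd (nat_lit 94) (nat_lit 672) (nat_lit 0) (XT.lf (nat_lit 0) (nat_lit 12539502405) (nat_lit 1008) (nat_lit 20990865149) (nat_lit 84) (nat_lit 23228350165) (nat_lit 74) (nat_lit 5) (nat_lit 86) (nat_lit 5) (nat_lit 75) (nat_lit 5) (nat_lit 390) (nat_lit 371) (nat_lit 127)) (XT.nd (nat_lit 94) (nat_lit 672) (nat_lit 0) (XT.lf (nat_lit 0) (nat_lit 14912172492) (nat_lit 1008) (nat_lit 2700860158) (nat_lit 84) (nat_lit 40207721971) (nat_lit 74) (nat_lit 5) (nat_lit 86) (nat_lit 5) (nat_lit 75) (nat_lit 5) (nat_lit 391) (nat_lit 371) (nat_lit 126)) (XT.lf (nat_lit 0) (nat_lit 16487747080) (nat_lit 672) (nat_lit 1033514159) (nat_lit 756) (nat_lit 41389409325) (nat_lit 66) (nat_lit 5) (nat_lit 74) (nat_lit 5) (nat_lit 75) (nat_lit 5) (nat_lit 392) (nat_lit 371) (nat_lit 125))))) (XT.nd (nat_lit 282) (nat_lit 420) (nat_lit 0) (XT.nd (nat_lit 94) (nat_lit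 504) (nat_lit 0) (XT.lf (nat_lit 0) (nat_lit 20398350040) (nat_lit 756) (nat_lit 23865247341) (nat_lit 84) (nat_lit 15764980452) (nat_lit 66) (nat_lit 5) (nat_lit 75) (nat_lit 5) (nat_lit 67) (nat_lit 5) (nat_lit 393) (nat_lit 371) (nat_lit 124)) (XT.nd (nat_lit 94) (nat_lit 504) (nat_lit 0) (XT.lf (nat_lit 0) (nat_lit 23374541053) (nat_lit 756) (nat_lit 4743435726) (nat_lit 84) (nat_lit 33062860622) (nat_lit 66) (nat_lit 5) (nat_lit 75) (nat_lit 5) (nat_lit 67) (nat_lit 5) (nat_lit 394) (nat_lit 371) (nat_lit 123)) (XT.lf (nat_lit 0) (nat_lit 15278413461) (nat_lit 504) (nat_lit 11315506104) (nat_lit 588) (nat_lit 35770223084) (nat_lit 60) (nat_lit 5) (nat_lit 66) (nat_lit 5) (nat_lit 67) (nat_lit 5) (nat_lit 395) (nat_lit 371) (nat_lit 122)))) (XT.nd (nat_lit 188) (nat_lit 420) (nat_lit 0) (XT.nd (nat_lit 94) (nat_lit 0) (nat_lit 0) (XT.lf (nat_lit 0) (nat_lit 30022091590) (nat_lit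 588) (nat_lit 27621785154) (nat_lit 84) (nat_lit 5936879036) (nat_lit 60) (nat_lit 5) (nat_lit 67) (nat_lit 5) (nat_lit 61) (nat_lit 5) (nat_lit 396) (nat_lit 371) (nat_lit 121)) (XT.lf (nat_lit 0) (nat_lit 33671662835) (nat_lit 588) (nat_lit 7670755394) (nat_lit 84) (nat_lit 23489100854) (nat_lit 60) (nat_lit 5) (nat_lit 67) (nat_lit 5) (nat_lit 61) (nat_lit 5) (nat_lit 397) (nat_lit 371) (nat_lit 120))) (XT.nd (nat_lit 94) (nat_lit 0) (nat_lit 0) (XT.lf (nat_lit 0) (nat_lit 13163421367) (nat_lit 420) (nat_lit 24400945266) (nat_lit 504) (nat_lit 28552663494) (nat_lit 55) (nat_lit 5) (nat_lit 60) (nat_lit 5) (nat_lit 61) (nat_lit 5) (nat_lit 398) (nat_lit 371) (nat_lit 119)) (XT.lf (nat_lit 0) (nat_lit 34805530621) (nat_lit 420) (nat_lit 6851705917) (nat_lit 504) (nat_lit 25782695042) (nat_lit 55) (nat_lit 5) (nat_lit 60) (nat_lit 5) (nat_lit 61) (nat_lit 5) (nat_lit 399) (nat_lit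 371) (nat_lit 118))))))))
noncomputable def xc224 : XT := (XT.nd (nat_lit 2350) (nat_lit 252) (nat_lit 0) (XT.nd (nat_lit 1128) (nat_lit 924) (nat_lit 0) (XT.nd (nat_lit 564) (nat_lit 840) (nat_lit 0) (XT.nd (nat_lit 282) (nat_lit 336) (nat_lit 0) (XT.nd (nat_lit 94) (nat_lit 420) (nat_lit 0) (XT.lf (nat_lit 0) (nat_lit 45987945996) (nat_lit 504) (nat_lit 11797363326) (nat_lit 84) (nat_lit 11015097591) (nat_lit 55) (nat_lit 5) (nat_lit 61) (nat_lit 5) (nat_lit 56) (nat_lit 5) (nat_lit 400) (nat_lit 371) (nat_lit 117)) (XT.nd (nat_lit 94) (nat_lit 0) (nat_lit 0) (XT.lf (nat_lit 0) (nat_lit 9812718582) (nat_lit 420) (nat_lit 40807068750) (nat_lit 504) (nat_lit 19578099975) (nat_lit 50) (nat_lit 5) (nat_lit 55) (nat_lit 5) (nat_lit 56) (nat_lit 5) (nat_lit 401) (nat_lit 371) (nat_lit 116)) (XT.lf (nat_lit 0) (nat_lit 32342284847) (nat_lit 420) (nat_lit 23175541879) (nat_lit 504) (nat_lit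 16117065422) (nat_lit 50) (nat_lit 5) (nat_lit 55) (nat_lit 5) (nat_lit 56) (nat_lit 5) (nat_lit 402) (nat_lit 371) (nat_lit 115)))) (XT.nd (nat_lit 94) (nat_lit 336) (nat_lit 0) (XT.lf (nat_lit 0) (nat_lit 55569757397) (nat_lit 420) (nat_lit 4997434555) (nat_lit 504) (nat_lit 12549271488) (nat_lit 50) (nat_lit 5) (nat_lit 55) (nat_lit 5) (nat_lit 56) (nat_lit 5) (nat_lit 403) (nat_lit 371) (nat_lit 114)) (XT.nd (nat_lit 94) (nat_lit 0) (nat_lit 0) (XT.lf (nat_lit 0) (nat_lit 4833851703) (nat_lit 336) (nat_lit 61123034391) (nat_lit 420) (nat_lit 8681382880) (nat_lit 46) (nat_lit 5) (nat_lit 50) (nat_lit 5) (nat_lit 51) (nat_lit 5) (nat_lit 404) (nat_lit 371) (nat_lit 113)) (XT.lf (nat_lit 0) (nat_lit 28227516243) (nat_lit 336) (nat_lit 43519402678) (nat_lit 420) (nat_lit 4453103743) (nat_lit 46) (nat_lit 5) (nat_lit 50) (nat_lit 5) (nat_lit 51) (nat_lit 5) (nat_lit 405) (nat_lit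 371) (nat_lit 112))))) (XT.nd (nat_lit 282) (nat_lit 336) (nat_lit 0) (XT.nd (nat_lit 94) (nat_lit 504) (nat_lit 0) (XT.lf (nat_lit 0) (nat_lit 52345891194) (nat_lit 336) (nat_lit 25370078250) (nat_lit 420) (nat_lit 94239039) (nat_lit 46) (nat_lit 5) (nat_lit 50) (nat_lit 5) (nat_lit 51) (nat_lit 5) (nat_lit 406) (nat_lit 371) (nat_lit 111)) (XT.nd (nat_lit 94) (nat_lit 420) (nat_lit 0) (XT.lf (nat_lit 0) (nat_lit 4310638580) (nat_lit 420) (nat_lit 2302511231) (nat_lit 84) (nat_lit 72855824601) (nat_lit 45) (nat_lit 5) (nat_lit 50) (nat_lit 5) (nat_lit 46) (nat_lit 5) (nat_lit 407) (nat_lit 371) (nat_lit 110)) (XT.lf (nat_lit 0) (nat_lit 9196573171) (nat_lit 504) (nat_lit 59281342220) (nat_lit 84) (nat_lit 12690479273) (nat_lit 40) (nat_lit 5) (nat_lit 46) (nat_lit 5) (nat_lit 41) (nat_lit 5) (nat_lit 408) (nat_lit 371) (nat_lit 109)))) (XT.nd (nat_lit 94) (nat_lit 336) (nat_lit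 0) (XT.lf (nat_lit 0) (nat_lit 14325443974) (nat_lit 504) (nat_lit 36112817562) (nat_lit 84) (nat_lit 32479402505) (nat_lit 40) (nat_lit 5) (nat_lit 46) (nat_lit 5) (nat_lit 41) (nat_lit 5) (nat_lit 409) (nat_lit 371) (nat_lit 108)) (XT.nd (nat_lit 94) (nat_lit 336) (nat_lit 0) (XT.lf (nat_lit 0) (nat_lit 19612879096) (nat_lit 504) (nat_lit 12226541487) (nat_lit 84) (nat_lit 52881756189) (nat_lit 40) (nat_lit 5) (nat_lit 46) (nat_lit 5) (nat_lit 41) (nat_lit 5) (nat_lit 410) (nat_lit 371) (nat_lit 107)) (XT.lf (nat_lit 0) (nat_lit 12654714815) (nat_lit 336) (nat_lit 12534628503) (nat_lit 420) (nat_lit 61387378979) (nat_lit 36) (nat_lit 5) (nat_lit 40) (nat_lit 5) (nat_lit 41) (nat_lit 5) (nat_lit 411) (nat_lit 371) (nat_lit 106)))))) (XT.nd (nat_lit 564) (nat_lit 588) (nat_lit 0) (XT.nd (nat_lit 282) (nat_lit 336) (nat_lit 0) (XT.nd (nat_lit 94) (nat_lit 0) (nat_lit 0) (XT.lf (nat_lit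 0) (nat_lit 31140290637) (nat_lit 420) (nat_lit 49994218735) (nat_lit 84) (nat_lit 7349032863) (nat_lit 36) (nat_lit 5) (nat_lit 41) (nat_lit 5) (nat_lit 37) (nat_lit 5) (nat_lit 412) (nat_lit 371) (nat_lit 105)) (XT.nd (nat_lit 94) (nat_lit 0) (nat_lit 0) (XT.lf (nat_lit 0) (nat_lit 37403519308) (nat_lit 420) (nat_lit 25453322952) (nat_lit 84) (nat_lit 27588671894) (nat_lit 36) (nat_lit 5) (nat_lit 41) (nat_lit 5) (nat_lit 37) (nat_lit 5) (nat_lit 413) (nat_lit 371) (nat_lit 104)) (XT.lf (nat_lit 0) (nat_lit 43860522249) (nat_lit 420) (nat_lit 152100379) (nat_lit 84) (nat_lit 48455698881) (nat_lit 36) (nat_lit 5) (nat_lit 41) (nat_lit 5) (nat_lit 37) (nat_lit 5) (nat_lit 414) (nat_lit 371) (nat_lit 103)))) (XT.nd (nat_lit 94) (nat_lit 0) (nat_lit 0) (XT.lf (nat_lit 0) (nat_lit 26466268704) (nat_lit 336) (nat_lit 24313598023) (nat_lit 420) (nat_lit 43765844038) (nat_lit 32) (nat_lit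 5) (nat_lit 36) (nat_lit 5) (nat_lit 37) (nat_lit 5) (nat_lit 415) (nat_lit 371) (nat_lit 102)) (XT.nd (nat_lit 94) (nat_lit 0) (nat_lit 0) (XT.lf (nat_lit 0) (nat_lit 53912608288) (nat_lit 336) (nat_lit 4002323046) (nat_lit 420) (nat_lit 38772532129) (nat_lit 32) (nat_lit 5) (nat_lit 36) (nat_lit 5) (nat_lit 37) (nat_lit 5) (nat_lit 416) (nat_lit 371) (nat_lit 101)) (XT.lf (nat_lit 0) (nat_lit 65438859302) (nat_lit 420) (nat_lit 16854282423) (nat_lit 84) (nat_lit 16597272946) (nat_lit 32) (nat_lit 5) (nat_lit 37) (nat_lit 5) (nat_lit 33) (nat_lit 5) (nat_lit 417) (nat_lit 371) (nat_lit 100))))) (XT.nd (nat_lit 282) (nat_lit 336) (nat_lit 0) (XT.nd (nat_lit 94) (nat_lit 0) (nat_lit 0) (XT.lf (nat_lit 0) (nat_lit 10030576932) (nat_lit 252) (nat_lit 63305545077) (nat_lit 336) (nat_lit 27821194555) (nat_lit 29) (nat_lit 5) (nat_lit 32) (nat_lit 5) (nat_lit 33) (nat_lit 5) (nat_lit 418)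 (nat_lit 371) (nat_lit 99)) (XT.nd (nat_lit 94) (nat_lit 0) (nat_lit 0) (XT.lf (nat_lit 0) (nat_lit 38105762440) (nat_lit 252) (nat_lit 43548021989) (nat_lit 336) (nat_lit 21835266881) (nat_lit 29) (nat_lit 5) (nat_lit 32) (nat_lit 5) (nat_lit 33) (nat_lit 5) (nat_lit 419) (nat_lit 371) (nat_lit 98)) (XT.lf (nat_lit 0) (nat_lit 67050884501) (nat_lit 252) (nat_lit 23178080521) (nat_lit 336) (nat_lit 15664116978) (nat_lit 29) (nat_lit 5) (nat_lit 32) (nat_lit 5) (nat_lit 33) (nat_lit 5) (nat_lit 420) (nat_lit 371) (nat_lit 97)))) (XT.nd (nat_lit 188) (nat_lit 84) (nat_lit 0) (XT.nd (nat_lit 94) (nat_lit 252) (nat_lit 0) (XT.lf (nat_lit 0) (nat_lit 96892923000) (nat_lit 252) (nat_lit 2176733754) (nat_lit 336) (nat_lit 9301992686) (nat_lit 29) (nat_lit 5) (nat_lit 32) (nat_lit 5) (nat_lit 33) (nat_lit 5) (nat_lit 421) (nat_lit 371) (nat_lit 96)) (XT.lf (nat_lit 0) (nat_lit 16879514219)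 (nat_lit 252) (nat_lit 91665233030) (nat_lit 336) (nat_lit 2371136606) (nat_lit 26) (nat_lit 5) (nat_lit 29) (nat_lit 5) (nat_lit 30) (nat_lit 5) (nat_lit 422) (nat_lit 371) (nat_lit 95))) (XT.nd (nat_lit 94) (nat_lit 0) (nat_lit 0) (XT.lf (nat_lit 0) (nat_lit 4821371854) (nat_lit 336) (nat_lit 67246310579) (nat_lit 84) (nat_lit 41465407759) (nat_lit 25) (nat_lit 5) (nat_lit 29) (nat_lit 5) (nat_lit 26) (nat_lit 5) (nat_lit 423) (nat_lit 371) (nat_lit 94)) (XT.lf (nat_lit 0) (nat_lit 12187293566) (nat_lit 336) (nat_lit 39650385161) (nat_lit 84) (nat_lit 64393010404) (nat_lit 25) (nat_lit 5) (nat_lit 29) (nat_lit 5) (nat_lit 26) (nat_lit 5) (nat_lit 424) (nat_lit 371) (nat_lit 93))))))) (XT.nd (nat_lit 51512) (nat_lit 0) (nat_lit 4200) (XT.nd (nat_lit 50854) (nat_lit 0) (nat_lit 4956) (XT.nd (nat_lit 282) (nat_lit 0) (nat_lit 0) (XT.nd (nat_lit 94) (nat_lit 252) (nat_lit 0) (XT.lf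 (nat_lit 0) (nat_lit 19781267460) (nat_lit 336) (nat_lit 11199349122) (nat_lit 84) (nat_lit 88031307719) (nat_lit 25) (nat_lit 5) (nat_lit 29) (nat_lit 5) (nat_lit 26) (nat_lit 5) (nat_lit 425) (nat_lit 371) (nat_lit 92)) (XT.nd (nat_lit 94) (nat_lit 0) (nat_lit 0) (XT.lf (nat_lit 0) (nat_lit 18506175070) (nat_lit 252) (nat_lit 9287780391) (nat_lit 336) (nat_lit 94079741550) (nat_lit 22) (nat_lit 5) (nat_lit 25) (nat_lit 5) (nat_lit 26) (nat_lit 5) (nat_lit 426) (nat_lit 371) (nat_lit 91)) (XT.lf (nat_lit 0) (nat_lit 36302583079) (nat_lit 336) (nat_lit 75581854366) (nat_lit 84) (nat_lit 12932074827) (nat_lit 22) (nat_lit 5) (nat_lit 26) (nat_lit 5) (nat_lit 23) (nat_lit 5) (nat_lit 427) (nat_lit 371) (nat_lit 90)))) (XT.nd (nat_lit 94) (nat_lit 0) (nat_lit 0) (XT.lf (nat_lit 0) (nat_lit 45169700371) (nat_lit 336) (nat_lit 47030170493) (nat_lit 84) (nat_lit 35647749040) (nat_lit 22)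 (nat_lit 5) (nat_lit 26) (nat_lit 5) (nat_lit 23) (nat_lit 5) (nat_lit 428) (nat_lit 371) (nat_lit 89)) (XT.nd (nat_lit 50384) (nat_lit 0) (nat_lit 4956) (XT.lf (nat_lit 0) (nat_lit 54311436488) (nat_lit 336) (nat_lit 17593721231) (nat_lit 84) (nat_lit 59067543710) (nat_lit 22) (nat_lit 5) (nat_lit 26) (nat_lit 5) (nat_lit 23) (nat_lit 5) (nat_lit 429) (nat_lit 371) (nat_lit 88)) (XT.lf (nat_lit 0) (nat_lit 8992075775) (nat_lit 0) (nat_lit 8992075775) (nat_lit 924) (nat_lit 3262364630) (nat_lit 81) (nat_lit 5) (nat_lit 81) (nat_lit 3) (nat_lit 92) (nat_lit 3) (nat_lit 372) (nat_lit 372) (nat_lit 144))))) (XT.nd (nat_lit 282) (nat_lit 0) (nat_lit 0) (XT.nd (nat_lit 94) (nat_lit 0) (nat_lit 0) (XT.lf (nat_lit 0) (nat_lit 32200227096) (nat_lit 0) (nat_lit 4353514669) (nat_lit 924) (nat_lit 6596862943) (nat_lit 81) (nat_lit 5) (nat_lit 81) (nat_lit 3) (nat_lit 92) (nat_lit 3) (nat_lit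 373) (nat_lit 372) (nat_lit 143)) (XT.nd (nat_lit 94) (nat_lit 0) (nat_lit 0) (XT.lf (nat_lit 84) (nat_lit 2991885654) (nat_lit 0) (nat_lit 34290225327) (nat_lit 1008) (nat_lit 6542590791) (nat_lit 82) (nat_lit 5) (nat_lit 81) (nat_lit 5) (nat_lit 93) (nat_lit 5) (nat_lit 374) (nat_lit 372) (nat_lit 142)) (XT.lf (nat_lit 84) (nat_lit 17552454349) (nat_lit 0) (nat_lit 20637888001) (nat_lit 1008) (nat_lit 6324485698) (nat_lit 82) (nat_lit 5) (nat_lit 81) (nat_lit 5) (nat_lit 93) (nat_lit 5) (nat_lit 375) (nat_lit 372) (nat_lit 141)))) (XT.nd (nat_lit 188) (nat_lit 0) (nat_lit 84) (XT.nd (nat_lit 94) (nat_lit 0) (nat_lit 84) (XT.lf (nat_lit 84) (nat_lit 32563813649) (nat_lit 0) (nat_lit 6561855878) (nat_lit 1008) (nat_lit 6100719276) (nat_lit 82) (nat_lit 5) (nat_lit 81) (nat_lit 5) (nat_lit 93) (nat_lit 5) (nat_lit 376) (nat_lit 372) (nat_lit 140)) (XT.lf (nat_lit 84) (nat_lit 2042178959)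 (nat_lit 0) (nat_lit 38145918867) (nat_lit 1008) (nat_lit 5768876327) (nat_lit 83) (nat_lit 5) (nat_lit 82) (nat_lit 5) (nat_lit 94) (nat_lit 5) (nat_lit 377) (nat_lit 372) (nat_lit 139))) (XT.nd (nat_lit 94) (nat_lit 0) (nat_lit 0) (XT.lf (nat_lit 84) (nat_lit 17402121018) (nat_lit 0) (nat_lit 24078946368) (nat_lit 1008) (nat_lit 5223021746) (nat_lit 83) (nat_lit 5) (nat_lit 82) (nat_lit 5) (nat_lit 94) (nat_lit 5) (nat_lit 378) (nat_lit 372) (nat_lit 138)) (XT.lf (nat_lit 84) (nat_lit 33237632477) (nat_lit 0) (nat_lit 9575518310) (nat_lit 1008) (nat_lit 4661250952) (nat_lit 83) (nat_lit 5) (nat_lit 82) (nat_lit 5) (nat_lit 94) (nat_lit 5) (nat_lit 379) (nat_lit 372) (nat_lit 137)))))) (XT.nd (nat_lit 564) (nat_lit 0) (nat_lit 0) (XT.nd (nat_lit 282) (nat_lit 924) (nat_lit 0) (XT.nd (nat_lit 94) (nat_lit 0) (nat_lit 0) (XT.lf (nat_lit 84) (nat_lit 1267022099) (nat_lit 0) (nat_lit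 42984485865) (nat_lit 1008) (nat_lit 4015078558) (nat_lit 84) (nat_lit 5) (nat_lit 83) (nat_lit 5) (nat_lit 95) (nat_lit 5) (nat_lit 380) (nat_lit 372) (nat_lit 136)) (XT.nd (nat_lit 94) (nat_lit 0) (nat_lit 0) (XT.lf (nat_lit 84) (nat_lit 17452689731) (nat_lit 0) (nat_lit 28526397357) (nat_lit 1008) (nat_lit 3096664959) (nat_lit 84) (nat_lit 5) (nat_lit 83) (nat_lit 5) (nat_lit 95) (nat_lit 5) (nat_lit 381) (nat_lit 372) (nat_lit 135)) (XT.lf (nat_lit 84) (nat_lit 34139526718) (nat_lit 0) (nat_lit 13619808587) (nat_lit 1008) (nat_lit 2150700292) (nat_lit 84) (nat_lit 5) (nat_lit 83) (nat_lit 5) (nat_lit 95) (nat_lit 5) (nat_lit 382) (nat_lit 372) (nat_lit 134)))) (XT.nd (nat_lit 94) (nat_lit 1008) (nat_lit 0) (XT.lf (nat_lit 84) (nat_lit 566942726) (nat_lit 0) (nat_lit 49049945442) (nat_lit 1008) (nat_lit 1152614385) (nat_lit 85) (nat_lit 5) (nat_lit 84) (nat_lit 5) (nat_lit 96)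 (nat_lit 5) (nat_lit 383) (nat_lit 372) (nat_lit 133)) (XT.nd (nat_lit 94) (nat_lit 0) (nat_lit 0) (XT.lf (nat_lit 0) (nat_lit 183645151) (nat_lit 1008) (nat_lit 34045706092) (nat_lit 1092) (nat_lit 17416858586) (nat_lit 72) (nat_lit 5) (nat_lit 84) (nat_lit 5) (nat_lit 85) (nat_lit 5) (nat_lit 384) (nat_lit 372) (nat_lit 132)) (XT.lf (nat_lit 0) (nat_lit 1536560795) (nat_lit 1008) (nat_lit 17400381449) (nat_lit 1092) (nat_lit 33612818624) (nat_lit 72) (nat_lit 5) (nat_lit 84) (nat_lit 5) (nat_lit 85) (nat_lit 5) (nat_lit 385) (nat_lit 372) (nat_lit 131))))) (XT.nd (nat_lit 282) (nat_lit 0) (nat_lit 84) (XT.nd (nat_lit 94) (nat_lit 0) (nat_lit 84) (XT.lf (nat_lit 0) (nat_lit 2930616216) (nat_lit 1008) (nat_lit 239636634) (nat_lit 1092) (nat_lit 50311099481) (nat_lit 72) (nat_lit 5) (nat_lit 84) (nat_lit 5) (nat_lit 85) (nat_lit 5) (nat_lit 386) (nat_lit 372) (nat_lit 130)) (XT.nd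 (nat_lit 94) (nat_lit 0) (nat_lit 0) (XT.lf (nat_lit 0) (nat_lit 4675418004) (nat_lit 1008) (nat_lit 36756607539) (nat_lit 1092) (nat_lit 13000269493) (nat_lit 73) (nat_lit 5) (nat_lit 85) (nat_lit 5) (nat_lit 86) (nat_lit 5) (nat_lit 387) (nat_lit 372) (nat_lit 129)) (XT.lf (nat_lit 0) (nat_lit 6508502973) (nat_lit 1008) (nat_lit 19294214622) (nat_lit 1092) (nat_lit 29608944541) (nat_lit 73) (nat_lit 5) (nat_lit 85) (nat_lit 5) (nat_lit 86) (nat_lit 5) (nat_lit 388) (nat_lit 372) (nat_lit 128)))) (XT.nd (nat_lit 188) (nat_lit 0) (nat_lit 84) (XT.nd (nat_lit 94) (nat_lit 0) (nat_lit 84) (XT.lf (nat_lit 0) (nat_lit 8397679531) (nat_lit 1008) (nat_lit 1291061954) (nat_lit 1092) (nat_lit 46732675927) (nat_lit 73) (nat_lit 5) (nat_lit 85) (nat_lit 5) (nat_lit 86) (nat_lit 5) (nat_lit 389) (nat_lit 372) (nat_lit 127)) (XT.lf (nat_lit 0) (nat_lit 10590032381) (nat_lit 1008) (nat_lit 39902835996)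 (nat_lit 84) (nat_lit 6962028645) (nat_lit 74) (nat_lit 5) (nat_lit 86) (nat_lit 5) (nat_lit 75) (nat_lit 5) (nat_lit 390) (nat_lit 372) (nat_lit 126))) (XT.nd (nat_lit 94) (nat_lit 0) (nat_lit 0) (XT.lf (nat_lit 0) (nat_lit 12962360467) (nat_lit 1008) (nat_lit 21613116217) (nat_lit 84) (nat_lit 23941470176) (nat_lit 74) (nat_lit 5) (nat_lit 86) (nat_lit 5) (nat_lit 75) (nat_lit 5) (nat_lit 391) (nat_lit 372) (nat_lit 125)) (XT.lf (nat_lit 0) (nat_lit 15407557004) (nat_lit 1008) (nat_lit 2756976976) (nat_lit 84) (nat_lit 41447411746) (nat_lit 74) (nat_lit 5) (nat_lit 86) (nat_lit 5) (nat_lit 75) (nat_lit 5) (nat_lit 392) (nat_lit 372) (nat_lit 124))))))))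
noncomputable def xc225 : XT := (XT.nd (nat_lit 2350) (nat_lit 840) (nat_lit 0) (XT.nd (nat_lit 1128) (nat_lit 1512) (nat_lit 0) (XT.nd (nat_lit 564) (nat_lit 840) (nat_lit 0) (XT.nd (nat_lit 282) (nat_lit 504) (nat_lit 0) (XT.nd (nat_lit 94) (nat_lit 0) (nat_lit 0) (XT.lf (nat_lit 0) (nat_lit 17026197561) (nat_lit 672) (nat_lit 1070605599) (nat_lit 756) (nat_lit 42638875153) (nat_lit 66) (nat_lit 5) (nat_lit 74) (nat_lit 5) (nat_lit 75) (nat_lit 5) (nat_lit 393) (nat_lit 372) (nat_lit 123)) (XT.nd (nat_lit 94) (nat_lit 0) (nat_lit 0) (XT.lf (nat_lit 0) (nat_lit 21062059416) (nat_lit 756) (nat_lit 24577326574) (nat_lit 84) (nat_lit 16248892999) (nat_lit 66) (nat_lit 5) (nat_lit 75) (nat_lit 5) (nat_lit 67) (nat_lit 5) (nat_lit 394) (nat_lit 372) (nat_lit 122)) (XT.lf (nat_lit 0) (nat_lit 24129569406) (nat_lit 756) (nat_lit 4863572985) (nat_lit 84) (nat_lit 34083151835) (nat_lit 66)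 (nat_lit 5) (nat_lit 75) (nat_lit 5) (nat_lit 67) (nat_lit 5) (nat_lit 395) (nat_lit 372) (nat_lit 121)))) (XT.nd (nat_lit 94) (nat_lit 0) (nat_lit 0) (XT.lf (nat_lit 0) (nat_lit 15778681095) (nat_lit 504) (nat_lit 11669417205) (nat_lit 588) (nat_lit 36848209998) (nat_lit 60) (nat_lit 5) (nat_lit 66) (nat_lit 5) (nat_lit 67) (nat_lit 5) (nat_lit 396) (nat_lit 372) (nat_lit 120)) (XT.nd (nat_lit 94) (nat_lit 0) (nat_lit 0) (XT.lf (nat_lit 0) (nat_lit 30981618499) (nat_lit 588) (nat_lit 28451105456) (nat_lit 84) (nat_lit 6117947173) (nat_lit 60) (nat_lit 5) (nat_lit 67) (nat_lit 5) (nat_lit 61) (nat_lit 5) (nat_lit 397) (nat_lit 372) (nat_lit 119)) (XT.lf (nat_lit 0) (nat_lit 34743459233) (nat_lit 588) (nat_lit 7882404255) (nat_lit 84) (nat_lit 24214377324) (nat_lit 60) (nat_lit 5) (nat_lit 67) (nat_lit 5) (nat_lit 61) (nat_lit 5) (nat_lit 398) (nat_lit 372) (nat_lit 118))))) (XT.nd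 (nat_lit 282) (nat_lit 420) (nat_lit 0) (XT.nd (nat_lit 94) (nat_lit 0) (nat_lit 0) (XT.lf (nat_lit 0) (nat_lit 13597367296) (nat_lit 420) (nat_lit 25158885139) (nat_lit 504) (nat_lit 29409374036) (nat_lit 55) (nat_lit 5) (nat_lit 60) (nat_lit 5) (nat_lit 61) (nat_lit 5) (nat_lit 399) (nat_lit 372) (nat_lit 117)) (XT.nd (nat_lit 94) (nat_lit 0) (nat_lit 0) (XT.lf (nat_lit 0) (nat_lit 35909603783) (nat_lit 420) (nat_lit 7065573951) (nat_lit 504) (nat_lit 26554391152) (nat_lit 55) (nat_lit 5) (nat_lit 60) (nat_lit 5) (nat_lit 61) (nat_lit 5) (nat_lit 400) (nat_lit 372) (nat_lit 116)) (XT.lf (nat_lit 0) (nat_lit 47439326278) (nat_lit 504) (nat_lit 12137750047) (nat_lit 84) (nat_lit 11355173152) (nat_lit 55) (nat_lit 5) (nat_lit 61) (nat_lit 5) (nat_lit 56) (nat_lit 5) (nat_lit 401) (nat_lit 372) (nat_lit 115)))) (XT.nd (nat_lit 94) (nat_lit 0) (nat_lit 0) (XT.lf (nat_lit 0) (nat_lit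 10141987942) (nat_lit 420) (nat_lit 42072241135) (nat_lit 504) (nat_lit 20158844143) (nat_lit 50) (nat_lit 5) (nat_lit 55) (nat_lit 5) (nat_lit 56) (nat_lit 5) (nat_lit 402) (nat_lit 372) (nat_lit 114)) (XT.nd (nat_lit 94) (nat_lit 0) (nat_lit 0) (XT.lf (nat_lit 0) (nat_lit 33369216805) (nat_lit 420) (nat_lit 23894132323) (nat_lit 504) (nat_lit 16591304604) (nat_lit 50) (nat_lit 5) (nat_lit 55) (nat_lit 5) (nat_lit 56) (nat_lit 5) (nat_lit 403) (nat_lit 372) (nat_lit 113)) (XT.lf (nat_lit 0) (nat_lit 57316009719) (nat_lit 420) (nat_lit 5152499203) (nat_lit 504) (nat_lit 12913672478) (nat_lit 50) (nat_lit 5) (nat_lit 55) (nat_lit 5) (nat_lit 56) (nat_lit 5) (nat_lit 404) (nat_lit 372) (nat_lit 112)))))) (XT.nd (nat_lit 564) (nat_lit 672) (nat_lit 0) (XT.nd (nat_lit 282) (nat_lit 504) (nat_lit 0) (XT.nd (nat_lit 94) (nat_lit 0) (nat_lit 0) (XT.lf (nat_lit 0) (nat_lit 5007936911) (nat_lit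 336) (nat_lit 63016872074) (nat_lit 420) (nat_lit 8926373343) (nat_lit 46) (nat_lit 5) (nat_lit 50) (nat_lit 5) (nat_lit 51) (nat_lit 5) (nat_lit 405) (nat_lit 372) (nat_lit 111)) (XT.nd (nat_lit 94) (nat_lit 0) (nat_lit 0) (XT.lf (nat_lit 0) (nat_lit 29126076333) (nat_lit 336) (nat_lit 44867557136) (nat_lit 420) (nat_lit 4567743163) (nat_lit 46) (nat_lit 5) (nat_lit 50) (nat_lit 5) (nat_lit 51) (nat_lit 5) (nat_lit 406) (nat_lit 372) (nat_lit 110)) (XT.lf (nat_lit 0) (nat_lit 53991414099) (nat_lit 336) (nat_lit 26155632126) (nat_lit 420) (nat_lit 74457446) (nat_lit 46) (nat_lit 5) (nat_lit 50) (nat_lit 5) (nat_lit 51) (nat_lit 5) (nat_lit 407) (nat_lit 372) (nat_lit 109)))) (XT.nd (nat_lit 94) (nat_lit 420) (nat_lit 0) (XT.lf (nat_lit 0) (nat_lit 4465845086) (nat_lit 420) (nat_lit 2351196221) (nat_lit 84) (nat_lit 75114667958) (nat_lit 45) (nat_lit 5) (nat_lit 50) (nat_lit 5) (nat_lit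 46) (nat_lit 5) (nat_lit 408) (nat_lit 372) (nat_lit 108)) (XT.nd (nat_lit 94) (nat_lit 0) (nat_lit 0) (XT.lf (nat_lit 0) (nat_lit 9502830738) (nat_lit 504) (nat_lit 61095827627) (nat_lit 84) (nat_lit 13085170023) (nat_lit 40) (nat_lit 5) (nat_lit 46) (nat_lit 5) (nat_lit 41) (nat_lit 5) (nat_lit 409) (nat_lit 372) (nat_lit 107)) (XT.lf (nat_lit 0) (nat_lit 14790060185) (nat_lit 504) (nat_lit 37209777368) (nat_lit 84) (nat_lit 33487511210) (nat_lit 40) (nat_lit 5) (nat_lit 46) (nat_lit 5) (nat_lit 41) (nat_lit 5) (nat_lit 410) (nat_lit 372) (nat_lit 106))))) (XT.nd (nat_lit 282) (nat_lit 336) (nat_lit 0) (XT.nd (nat_lit 94) (nat_lit 336) (nat_lit 0) (XT.lf (nat_lit 0) (nat_lit 20240788579) (nat_lit 504) (nat_lit 12583704392) (nat_lit 84) (nat_lit 54522300357) (nat_lit 40) (nat_lit 5) (nat_lit 46) (nat_lit 5) (nat_lit 41) (nat_lit 5) (nat_lit 411) (nat_lit 372) (nat_lit 105)) (XT.nd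 (nat_lit 94) (nat_lit 0) (nat_lit 0) (XT.lf (nat_lit 0) (nat_lit 13068649544) (nat_lit 336) (nat_lit 12921089646) (nat_lit 420) (nat_lit 63270137167) (nat_lit 36) (nat_lit 5) (nat_lit 40) (nat_lit 5) (nat_lit 41) (nat_lit 5) (nat_lit 412) (nat_lit 372) (nat_lit 104)) (XT.lf (nat_lit 0) (nat_lit 32124599088) (nat_lit 420) (nat_lit 51522369346) (nat_lit 84) (nat_lit 7578860429) (nat_lit 36) (nat_lit 5) (nat_lit 41) (nat_lit 5) (nat_lit 37) (nat_lit 5) (nat_lit 413) (nat_lit 372) (nat_lit 103)))) (XT.nd (nat_lit 188) (nat_lit 336) (nat_lit 0) (XT.nd (nat_lit 94) (nat_lit 0) (nat_lit 0) (XT.lf (nat_lit 0) (nat_lit 38581417777) (nat_lit 420) (nat_lit 26221357370) (nat_lit 84) (nat_lit 28445867907) (nat_lit 36) (nat_lit 5) (nat_lit 41) (nat_lit 5) (nat_lit 37) (nat_lit 5) (nat_lit 414) (nat_lit 372) (nat_lit 102)) (XT.lf (nat_lit 0) (nat_lit 45238034881) (nat_lit 420) (nat_lit 136428882)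 (nat_lit 84) (nat_lit 49959714183) (nat_lit 36) (nat_lit 5) (nat_lit 41) (nat_lit 5) (nat_lit 37) (nat_lit 5) (nat_lit 415) (nat_lit 372) (nat_lit 101))) (XT.nd (nat_lit 94) (nat_lit 0) (nat_lit 0) (XT.lf (nat_lit 0) (nat_lit 27306903247) (nat_lit 336) (nat_lit 25064639676) (nat_lit 420) (nat_lit 45104437030) (nat_lit 32) (nat_lit 5) (nat_lit 36) (nat_lit 5) (nat_lit 37) (nat_lit 5) (nat_lit 416) (nat_lit 372) (nat_lit 100)) (XT.lf (nat_lit 0) (nat_lit 55603472581) (nat_lit 336) (nat_lit 4123795754) (nat_lit 420) (nat_lit 39956878129) (nat_lit 32) (nat_lit 5) (nat_lit 36) (nat_lit 5) (nat_lit 37) (nat_lit 5) (nat_lit 417) (nat_lit 372) (nat_lit 99))))))) (XT.nd (nat_lit 51606) (nat_lit 0) (nat_lit 4200) (XT.nd (nat_lit 564) (nat_lit 336) (nat_lit 0) (XT.nd (nat_lit 282) (nat_lit 252) (nat_lit 0) (XT.nd (nat_lit 94) (nat_lit 252) (nat_lit 0) (XT.lf (nat_lit 0) (nat_lit 67483952703)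 (nat_lit 420) (nat_lit 17357195811) (nat_lit 84) (nat_lit 17114258763) (nat_lit 32) (nat_lit 5) (nat_lit 37) (nat_lit 5) (nat_lit 33) (nat_lit 5) (nat_lit 418) (nat_lit 372) (nat_lit 98)) (XT.nd (nat_lit 94) (nat_lit 0) (nat_lit 0) (XT.lf (nat_lit 0) (nat_lit 10360896061) (nat_lit 252) (nat_lit 65264830876) (nat_lit 336) (nat_lit 28666868584) (nat_lit 29) (nat_lit 5) (nat_lit 32) (nat_lit 5) (nat_lit 33) (nat_lit 5) (nat_lit 419) (nat_lit 372) (nat_lit 97)) (XT.lf (nat_lit 0) (nat_lit 39305829867) (nat_lit 252) (nat_lit 44894920371) (nat_lit 336) (nat_lit 22495881782) (nat_lit 29) (nat_lit 5) (nat_lit 32) (nat_lit 5) (nat_lit 33) (nat_lit 5) (nat_lit 420) (nat_lit 372) (nat_lit 96)))) (XT.nd (nat_lit 94) (nat_lit 252) (nat_lit 0) (XT.lf (nat_lit 0) (nat_lit 69147685773) (nat_lit 252) (nat_lit 23893603636) (nat_lit 336) (nat_lit 16133915688) (nat_lit 29) (nat_lit 5) (nat_lit 32) (nat_lit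 5) (nat_lit 33) (nat_lit 5) (nat_lit 421) (nat_lit 372) (nat_lit 95)) (XT.nd (nat_lit 94) (nat_lit 252) (nat_lit 0) (XT.lf (nat_lit 0) (nat_lit 99914279513) (nat_lit 252) (nat_lit 2241305245) (nat_lit 336) (nat_lit 9575040283) (nat_lit 29) (nat_lit 5) (nat_lit 32) (nat_lit 5) (nat_lit 33) (nat_lit 5) (nat_lit 422) (nat_lit 372) (nat_lit 94)) (XT.lf (nat_lit 0) (nat_lit 17420787568) (nat_lit 252) (nat_lit 94503378047) (nat_lit 336) (nat_lit 2429575105) (nat_lit 26) (nat_lit 5) (nat_lit 29) (nat_lit 5) (nat_lit 30) (nat_lit 5) (nat_lit 423) (nat_lit 372) (nat_lit 93))))) (XT.nd (nat_lit 282) (nat_lit 252) (nat_lit 0) (XT.nd (nat_lit 94) (nat_lit 0) (nat_lit 0) (XT.lf (nat_lit 0) (nat_lit 4985153658) (nat_lit 336) (nat_lit 69313104811) (nat_lit 84) (nat_lit 42753833592) (nat_lit 25) (nat_lit 5) (nat_lit 29) (nat_lit 5) (nat_lit 26) (nat_lit 5) (nat_lit 424) (nat_lit 372) (nat_lit 92))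 (XT.nd (nat_lit 94) (nat_lit 0) (nat_lit 0) (XT.lf (nat_lit 0) (nat_lit 12578988393) (nat_lit 336) (nat_lit 40862242159) (nat_lit 84) (nat_lit 66392101770) (nat_lit 25) (nat_lit 5) (nat_lit 29) (nat_lit 5) (nat_lit 26) (nat_lit 5) (nat_lit 425) (nat_lit 372) (nat_lit 91)) (XT.lf (nat_lit 0) (nat_lit 20407957873) (nat_lit 336) (nat_lit 11529744325) (nat_lit 84) (nat_lit 90763098862) (nat_lit 25) (nat_lit 5) (nat_lit 29) (nat_lit 5) (nat_lit 26) (nat_lit 5) (nat_lit 426) (nat_lit 372) (nat_lit 90)))) (XT.nd (nat_lit 188) (nat_lit 0) (nat_lit 0) (XT.nd (nat_lit 94) (nat_lit 0) (nat_lit 0) (XT.lf (nat_lit 0) (nat_lit 19096481188) (nat_lit 252) (nat_lit 9572317786) (nat_lit 336) (nat_lit 96982499462) (nat_lit 22) (nat_lit 5) (nat_lit 25) (nat_lit 5) (nat_lit 26) (nat_lit 5) (nat_lit 427) (nat_lit 372) (nat_lit 89)) (XT.lf (nat_lit 0) (nat_lit 37440828781) (nat_lit 336) (nat_lit 77908340633)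 (nat_lit 84) (nat_lit 13336185074) (nat_lit 22) (nat_lit 5) (nat_lit 26) (nat_lit 5) (nat_lit 23) (nat_lit 5) (nat_lit 428) (nat_lit 372) (nat_lit 88))) (XT.nd (nat_lit 50478) (nat_lit 0) (nat_lit 4956) (XT.lf (nat_lit 0) (nat_lit 46582439867) (nat_lit 336) (nat_lit 48472052221) (nat_lit 84) (nat_lit 36755948491) (nat_lit 22) (nat_lit 5) (nat_lit 26) (nat_lit 5) (nat_lit 23) (nat_lit 5) (nat_lit 429) (nat_lit 372) (nat_lit 87)) (XT.lf (nat_lit 0) (nat_lit 9284656573) (nat_lit 0) (nat_lit 9284656573) (nat_lit 924) (nat_lit 3334785993) (nat_lit 81) (nat_lit 5) (nat_lit 81) (nat_lit 3) (nat_lit 92) (nat_lit 3) (nat_lit 373) (nat_lit 373) (nat_lit 142)))))) (XT.nd (nat_lit 564) (nat_lit 756) (nat_lit 0) (XT.nd (nat_lit 282) (nat_lit 0) (nat_lit 0) (XT.nd (nat_lit 94) (nat_lit 0) (nat_lit 0) (XT.lf (nat_lit 0) (nat_lit 33225255570) (nat_lit 0) (nat_lit 4515295058) (nat_lit 924) (nat_lit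 6745668429) (nat_lit 81) (nat_lit 5) (nat_lit 81) (nat_lit 3) (nat_lit 92) (nat_lit 3) (nat_lit 374) (nat_lit 373) (nat_lit 141)) (XT.nd (nat_lit 94) (nat_lit 0) (nat_lit 0) (XT.lf (nat_lit 84) (nat_lit 3113480978) (nat_lit 0) (nat_lit 35376433476) (nat_lit 1008) (nat_lit 6691359576) (nat_lit 82) (nat_lit 5) (nat_lit 81) (nat_lit 5) (nat_lit 93) (nat_lit 5) (nat_lit 375) (nat_lit 373) (nat_lit 140)) (XT.lf (nat_lit 84) (nat_lit 18124559937) (nat_lit 0) (nat_lit 21300175782) (nat_lit 1008) (nat_lit 6468118440) (nat_lit 82) (nat_lit 5) (nat_lit 81) (nat_lit 5) (nat_lit 93) (nat_lit 5) (nat_lit 376) (nat_lit 373) (nat_lit 139)))) (XT.nd (nat_lit 94) (nat_lit 0) (nat_lit 84) (XT.lf (nat_lit 84) (nat_lit 33600430092) (nat_lit 0) (nat_lit 6787109738) (nat_lit 1008) (nat_lit 6238991608) (nat_lit 82) (nat_lit 5) (nat_lit 81) (nat_lit 5) (nat_lit 93) (nat_lit 5) (nat_lit 377) (nat_lit 373)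 (nat_lit 138)) (XT.nd (nat_lit 94) (nat_lit 0) (nat_lit 0) (XT.lf (nat_lit 84) (nat_lit 2134420834) (nat_lit 0) (nat_lit 39347086935) (nat_lit 1008) (nat_lit 5898311168) (nat_lit 83) (nat_lit 5) (nat_lit 82) (nat_lit 5) (nat_lit 94) (nat_lit 5) (nat_lit 378) (nat_lit 373) (nat_lit 137)) (XT.lf (nat_lit 84) (nat_lit 17969651103) (nat_lit 0) (nat_lit 24843477685) (nat_lit 1008) (nat_lit 5337020459) (nat_lit 83) (nat_lit 5) (nat_lit 82) (nat_lit 5) (nat_lit 94) (nat_lit 5) (nat_lit 379) (nat_lit 373) (nat_lit 136))))) (XT.nd (nat_lit 282) (nat_lit 840) (nat_lit 0) (XT.nd (nat_lit 94) (nat_lit 0) (nat_lit 84) (XT.lf (nat_lit 84) (nat_lit 34295219582) (nat_lit 0) (nat_lit 9889899610) (nat_lit 1008) (nat_lit 4759275473) (nat_lit 83) (nat_lit 5) (nat_lit 82) (nat_lit 5) (nat_lit 94) (nat_lit 5) (nat_lit 380) (nat_lit 373) (nat_lit 135)) (XT.nd (nat_lit 94) (nat_lit 0) (nat_lit 0) (XT.lf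 (nat_lit 84) (nat_lit 1335113119) (nat_lit 0) (nat_lit 44331723524) (nat_lit 1008) (nat_lit 4094348426) (nat_lit 84) (nat_lit 5) (nat_lit 83) (nat_lit 5) (nat_lit 95) (nat_lit 5) (nat_lit 381) (nat_lit 373) (nat_lit 134)) (XT.lf (nat_lit 84) (nat_lit 18021670091) (nat_lit 0) (nat_lit 29424991715) (nat_lit 1008) (nat_lit 3148823001) (nat_lit 84) (nat_lit 5) (nat_lit 83) (nat_lit 5) (nat_lit 95) (nat_lit 5) (nat_lit 382) (nat_lit 373) (nat_lit 133)))) (XT.nd (nat_lit 188) (nat_lit 924) (nat_lit 0) (XT.nd (nat_lit 94) (nat_lit 0) (nat_lit 84) (XT.lf (nat_lit 84) (nat_lit 35224958718) (nat_lit 0) (nat_lit 14055869442) (nat_lit 1008) (nat_lit 2174851563) (nat_lit 84) (nat_lit 5) (nat_lit 83) (nat_lit 5) (nat_lit 95) (nat_lit 5) (nat_lit 383) (nat_lit 373) (nat_lit 132)) (XT.lf (nat_lit 84) (nat_lit 613037276) (nat_lit 0) (nat_lit 50581846186) (nat_lit 1008) (nat_lit 1146949169) (nat_lit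 85) (nat_lit 5) (nat_lit 84) (nat_lit 5) (nat_lit 96) (nat_lit 5) (nat_lit 384) (nat_lit 373) (nat_lit 131))) (XT.nd (nat_lit 94) (nat_lit 0) (nat_lit 0) (XT.lf (nat_lit 0) (nat_lit 228680750) (nat_lit 1008) (nat_lit 35072380817) (nat_lit 1092) (nat_lit 17944689756) (nat_lit 72) (nat_lit 5) (nat_lit 84) (nat_lit 5) (nat_lit 85) (nat_lit 5) (nat_lit 385) (nat_lit 373) (nat_lit 130)) (XT.lf (nat_lit 0) (nat_lit 1622353830) (nat_lit 1008) (nat_lit 17911915326) (nat_lit 1092) (nat_lit 34643088120) (nat_lit 72) (nat_lit 5) (nat_lit 84) (nat_lit 5) (nat_lit 85) (nat_lit 5) (nat_lit 386) (nat_lit 373) (nat_lit 129))))))))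
noncomputable def xc226 : XT := (XT.nd (nat_lit 2350) (nat_lit 1512) (nat_lit 0) (XT.nd (nat_lit 1128) (nat_lit 1680) (nat_lit 0) (XT.nd (nat_lit 564) (nat_lit 1008) (nat_lit 0) (XT.nd (nat_lit 282) (nat_lit 0) (nat_lit 84) (XT.nd (nat_lit 94) (nat_lit 0) (nat_lit 84) (XT.lf (nat_lit 0) (nat_lit 3058477588) (nat_lit 1008) (nat_lit 220025654) (nat_lit 1092) (nat_lit 51859368316) (nat_lit 72) (nat_lit 5) (nat_lit 84) (nat_lit 5) (nat_lit 85) (nat_lit 5) (nat_lit 387) (nat_lit 373) (nat_lit 128)) (XT.nd (nat_lit 94) (nat_lit 0) (nat_lit 0) (XT.lf (nat_lit 0) (nat_lit 4856427634) (nat_lit 1008) (nat_lit 37867834420) (nat_lit 1092) (nat_lit 13394068268) (nat_lit 73) (nat_lit 5) (nat_lit 85) (nat_lit 5) (nat_lit 86) (nat_lit 5) (nat_lit 388) (nat_lit 373) (nat_lit 127)) (XT.lf (nat_lit 0) (nat_lit 6745253638) (nat_lit 1008) (nat_lit 19864956079) (nat_lit 1092) (nat_lit 30517889155) (nat_lit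 73) (nat_lit 5) (nat_lit 85) (nat_lit 5) (nat_lit 86) (nat_lit 5) (nat_lit 389) (nat_lit 373) (nat_lit 126)))) (XT.nd (nat_lit 94) (nat_lit 0) (nat_lit 84) (XT.lf (nat_lit 0) (nat_lit 8691942681) (nat_lit 1008) (nat_lit 1304528913) (nat_lit 1092) (nat_lit 48172724801) (nat_lit 73) (nat_lit 5) (nat_lit 85) (nat_lit 5) (nat_lit 86) (nat_lit 5) (nat_lit 390) (nat_lit 373) (nat_lit 125)) (XT.nd (nat_lit 94) (nat_lit 0) (nat_lit 0) (XT.lf (nat_lit 0) (nat_lit 10951430551) (nat_lit 1008) (nat_lit 41112214065) (nat_lit 84) (nat_lit 7171101926) (nat_lit 74) (nat_lit 5) (nat_lit 86) (nat_lit 5) (nat_lit 75) (nat_lit 5) (nat_lit 391) (nat_lit 373) (nat_lit 124)) (XT.lf (nat_lit 0) (nat_lit 13396305344) (nat_lit 1008) (nat_lit 22256343144) (nat_lit 84) (nat_lit 24677109091) (nat_lit 74) (nat_lit 5) (nat_lit 86) (nat_lit 5) (nat_lit 75) (nat_lit 5) (nat_lit 392) (nat_lit 373) (nat_lit 123)))))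 (XT.nd (nat_lit 282) (nat_lit 504) (nat_lit 0) (XT.nd (nat_lit 94) (nat_lit 672) (nat_lit 0) (XT.lf (nat_lit 0) (nat_lit 15916337443) (nat_lit 1008) (nat_lit 2816468795) (nat_lit 84) (nat_lit 42725931694) (nat_lit 74) (nat_lit 5) (nat_lit 86) (nat_lit 5) (nat_lit 75) (nat_lit 5) (nat_lit 393) (nat_lit 373) (nat_lit 122)) (XT.nd (nat_lit 94) (nat_lit 0) (nat_lit 0) (XT.lf (nat_lit 0) (nat_lit 17579721185) (nat_lit 672) (nat_lit 1108547606) (nat_lit 756) (nat_lit 43929064954) (nat_lit 66) (nat_lit 5) (nat_lit 74) (nat_lit 5) (nat_lit 75) (nat_lit 5) (nat_lit 394) (nat_lit 373) (nat_lit 121)) (XT.lf (nat_lit 0) (nat_lit 21744486246) (nat_lit 756) (nat_lit 25313123554) (nat_lit 84) (nat_lit 16748091256) (nat_lit 66) (nat_lit 5) (nat_lit 75) (nat_lit 5) (nat_lit 67) (nat_lit 5) (nat_lit 395) (nat_lit 373) (nat_lit 120)))) (XT.nd (nat_lit 94) (nat_lit 504) (nat_lit 0) (XT.lf (nat_lit 0)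 (nat_lit 24906201952) (nat_lit 756) (nat_lit 4989028381) (nat_lit 84) (nat_lit 35135347946) (nat_lit 66) (nat_lit 5) (nat_lit 75) (nat_lit 5) (nat_lit 67) (nat_lit 5) (nat_lit 396) (nat_lit 373) (nat_lit 119)) (XT.nd (nat_lit 94) (nat_lit 0) (nat_lit 0) (XT.lf (nat_lit 0) (nat_lit 16292879281) (nat_lit 504) (nat_lit 12034114130) (nat_lit 588) (nat_lit 37961444174) (nat_lit 60) (nat_lit 5) (nat_lit 66) (nat_lit 5) (nat_lit 67) (nat_lit 5) (nat_lit 397) (nat_lit 373) (nat_lit 118)) (XT.lf (nat_lit 0) (nat_lit 31969182377) (nat_lit 588) (nat_lit 29307731281) (nat_lit 84) (nat_lit 6304804644) (nat_lit 60) (nat_lit 5) (nat_lit 67) (nat_lit 5) (nat_lit 61) (nat_lit 5) (nat_lit 398) (nat_lit 373) (nat_lit 117)))))) (XT.nd (nat_lit 564) (nat_lit 840) (nat_lit 0) (XT.nd (nat_lit 282) (nat_lit 420) (nat_lit 0) (XT.nd (nat_lit 94) (nat_lit 420) (nat_lit 0) (XT.lf (nat_lit 0) (nat_lit 35846824320)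 (nat_lit 588) (nat_lit 8102162817) (nat_lit 84) (nat_lit 24962308286) (nat_lit 60) (nat_lit 5) (nat_lit 67) (nat_lit 5) (nat_lit 61) (nat_lit 5) (nat_lit 399) (nat_lit 373) (nat_lit 116)) (XT.nd (nat_lit 94) (nat_lit 0) (nat_lit 0) (XT.lf (nat_lit 0) (nat_lit 14043232640) (nat_lit 420) (nat_lit 25940231674) (nat_lit 504) (nat_lit 30294326090) (nat_lit 55) (nat_lit 5) (nat_lit 60) (nat_lit 5) (nat_lit 61) (nat_lit 5) (nat_lit 400) (nat_lit 373) (nat_lit 115)) (XT.lf (nat_lit 0) (nat_lit 37046416396) (nat_lit 420) (nat_lit 7285985110) (nat_lit 504) (nat_lit 27351642709) (nat_lit 55) (nat_lit 5) (nat_lit 60) (nat_lit 5) (nat_lit 61) (nat_lit 5) (nat_lit 401) (nat_lit 373) (nat_lit 114)))) (XT.nd (nat_lit 94) (nat_lit 420) (nat_lit 0) (XT.lf (nat_lit 0) (nat_lit 48934173898) (nat_lit 504) (nat_lit 12490189187) (nat_lit 84) (nat_lit 11705873534) (nat_lit 55) (nat_lit 5) (nat_lit 61) (nat_lit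 5) (nat_lit 56) (nat_lit 5) (nat_lit 402) (nat_lit 373) (nat_lit 113)) (XT.nd (nat_lit 94) (nat_lit 0) (nat_lit 0) (XT.lf (nat_lit 0) (nat_lit 10479979411) (nat_lit 420) (nat_lit 43376624787) (nat_lit 504) (nat_lit 20759141885) (nat_lit 50) (nat_lit 5) (nat_lit 55) (nat_lit 5) (nat_lit 56) (nat_lit 5) (nat_lit 403) (nat_lit 373) (nat_lit 112)) (XT.lf (nat_lit 0) (nat_lit 34426543073) (nat_lit 420) (nat_lit 24634990266) (nat_lit 504) (nat_lit 17081749085) (nat_lit 50) (nat_lit 5) (nat_lit 55) (nat_lit 5) (nat_lit 56) (nat_lit 5) (nat_lit 404) (nat_lit 373) (nat_lit 111))))) (XT.nd (nat_lit 282) (nat_lit 504) (nat_lit 0) (XT.nd (nat_lit 94) (nat_lit 336) (nat_lit 0) (XT.lf (nat_lit 0) (nat_lit 59114998597) (nat_lit 420) (nat_lit 5312362315) (nat_lit 504) (nat_lit 13290828564) (nat_lit 50) (nat_lit 5) (nat_lit 55) (nat_lit 5) (nat_lit 56) (nat_lit 5) (nat_lit 405) (nat_lit 373) (nat_lit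 110)) (XT.nd (nat_lit 94) (nat_lit 0) (nat_lit 0) (XT.lf (nat_lit 0) (nat_lit 5185983232) (nat_lit 336) (nat_lit 64969476558) (nat_lit 420) (nat_lit 9180387913) (nat_lit 46) (nat_lit 5) (nat_lit 50) (nat_lit 5) (nat_lit 51) (nat_lit 5) (nat_lit 406) (nat_lit 373) (nat_lit 109)) (XT.lf (nat_lit 0) (nat_lit 30051099420) (nat_lit 336) (nat_lit 46257560475) (nat_lit 420) (nat_lit 4687322830) (nat_lit 46) (nat_lit 5) (nat_lit 50) (nat_lit 5) (nat_lit 51) (nat_lit 5) (nat_lit 407) (nat_lit 373) (nat_lit 108)))) (XT.nd (nat_lit 188) (nat_lit 420) (nat_lit 0) (XT.nd (nat_lit 94) (nat_lit 84) (nat_lit 0) (XT.lf (nat_lit 0) (nat_lit 55686597713) (nat_lit 336) (nat_lit 26965592579) (nat_lit 420) (nat_lit 55407362) (nat_lit 46) (nat_lit 5) (nat_lit 50) (nat_lit 5) (nat_lit 51) (nat_lit 5) (nat_lit 408) (nat_lit 373) (nat_lit 107)) (XT.lf (nat_lit 0) (nat_lit 4624584969) (nat_lit 420) (nat_lit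 2402734582) (nat_lit 84) (nat_lit 77443516932) (nat_lit 45) (nat_lit 5) (nat_lit 50) (nat_lit 5) (nat_lit 46) (nat_lit 5) (nat_lit 409) (nat_lit 373) (nat_lit 106))) (XT.nd (nat_lit 94) (nat_lit 0) (nat_lit 0) (XT.lf (nat_lit 0) (nat_lit 9817328722) (nat_lit 504) (nat_lit 62967938403) (nat_lit 84) (nat_lit 13492020020) (nat_lit 40) (nat_lit 5) (nat_lit 46) (nat_lit 5) (nat_lit 41) (nat_lit 5) (nat_lit 410) (nat_lit 373) (nat_lit 105)) (XT.lf (nat_lit 0) (nat_lit 15267863623) (nat_lit 504) (nat_lit 38342077866) (nat_lit 84) (nat_lit 34526797410) (nat_lit 40) (nat_lit 5) (nat_lit 46) (nat_lit 5) (nat_lit 41) (nat_lit 5) (nat_lit 411) (nat_lit 373) (nat_lit 104))))))) (XT.nd (nat_lit 1222) (nat_lit 336) (nat_lit 0) (XT.nd (nat_lit 564) (nat_lit 504) (nat_lit 0) (XT.nd (nat_lit 282) (nat_lit 336) (nat_lit 0) (XT.nd (nat_lit 94) (nat_lit 336) (nat_lit 0) (XT.lf (nat_lit 0) (nat_lit 20886983939)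 (nat_lit 504) (nat_lit 12953234145) (nat_lit 84) (nat_lit 56213629741) (nat_lit 40) (nat_lit 5) (nat_lit 46) (nat_lit 5) (nat_lit 41) (nat_lit 5) (nat_lit 412) (nat_lit 373) (nat_lit 103)) (XT.nd (nat_lit 94) (nat_lit 0) (nat_lit 0) (XT.lf (nat_lit 0) (nat_lit 13494134560) (nat_lit 336) (nat_lit 13319656203) (nat_lit 420) (nat_lit 65212460335) (nat_lit 36) (nat_lit 5) (nat_lit 40) (nat_lit 5) (nat_lit 41) (nat_lit 5) (nat_lit 413) (nat_lit 373) (nat_lit 102)) (XT.lf (nat_lit 0) (nat_lit 33138298102) (nat_lit 420) (nat_lit 53099176187) (nat_lit 84) (nat_lit 7815693739) (nat_lit 36) (nat_lit 5) (nat_lit 41) (nat_lit 5) (nat_lit 37) (nat_lit 5) (nat_lit 414) (nat_lit 373) (nat_lit 101)))) (XT.nd (nat_lit 94) (nat_lit 336) (nat_lit 0) (XT.lf (nat_lit 0) (nat_lit 39794741866) (nat_lit 420) (nat_lit 27014445822) (nat_lit 84) (nat_lit 29329521661) (nat_lit 36) (nat_lit 5) (nat_lit 41) (nat_lit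 5) (nat_lit 37) (nat_lit 5) (nat_lit 415) (nat_lit 373) (nat_lit 100)) (XT.nd (nat_lit 94) (nat_lit 336) (nat_lit 0) (XT.lf (nat_lit 0) (nat_lit 46657193920) (nat_lit 420) (nat_lit 121479103) (nat_lit 84) (nat_lit 51510242092) (nat_lit 36) (nat_lit 5) (nat_lit 41) (nat_lit 5) (nat_lit 37) (nat_lit 5) (nat_lit 416) (nat_lit 373) (nat_lit 99)) (XT.lf (nat_lit 0) (nat_lit 28172402151) (nat_lit 336) (nat_lit 25839122355) (nat_lit 420) (nat_lit 46485601352) (nat_lit 32) (nat_lit 5) (nat_lit 36) (nat_lit 5) (nat_lit 37) (nat_lit 5) (nat_lit 417) (nat_lit 373) (nat_lit 98))))) (XT.nd (nat_lit 282) (nat_lit 252) (nat_lit 0) (XT.nd (nat_lit 94) (nat_lit 252) (nat_lit 0) (XT.lf (nat_lit 0) (nat_lit 57345594299) (nat_lit 336) (nat_lit 4249188077) (nat_lit 420) (nat_lit 41178981481) (nat_lit 32) (nat_lit 5) (nat_lit 36) (nat_lit 5) (nat_lit 37) (nat_lit 5) (nat_lit 418) (nat_lit 373) (nat_lit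 97)) (XT.nd (nat_lit 94) (nat_lit 252) (nat_lit 0) (XT.lf (nat_lit 0) (nat_lit 69591467343) (nat_lit 420) (nat_lit 17876858641) (nat_lit 84) (nat_lit 17647124817) (nat_lit 32) (nat_lit 5) (nat_lit 37) (nat_lit 5) (nat_lit 33) (nat_lit 5) (nat_lit 419) (nat_lit 373) (nat_lit 96)) (XT.lf (nat_lit 0) (nat_lit 10700307691) (nat_lit 252) (nat_lit 67285043252) (nat_lit 336) (nat_lit 29539752594) (nat_lit 29) (nat_lit 5) (nat_lit 32) (nat_lit 5) (nat_lit 33) (nat_lit 5) (nat_lit 420) (nat_lit 373) (nat_lit 95)))) (XT.nd (nat_lit 188) (nat_lit 252) (nat_lit 0) (XT.nd (nat_lit 94) (nat_lit 0) (nat_lit 0) (XT.lf (nat_lit 0) (nat_lit 40541986493) (nat_lit 252) (nat_lit 46283755647) (nat_lit 336) (nat_lit 23177939940) (nat_lit 29) (nat_lit 5) (nat_lit 32) (nat_lit 5) (nat_lit 33) (nat_lit 5) (nat_lit 421) (nat_lit 373) (nat_lit 94)) (XT.lf (nat_lit 0) (nat_lit 71308408454) (nat_lit 252) (nat_lit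 24631485509) (nat_lit 336) (nat_lit 16619213362) (nat_lit 29) (nat_lit 5) (nat_lit 32) (nat_lit 5) (nat_lit 33) (nat_lit 5) (nat_lit 422) (nat_lit 373) (nat_lit 93))) (XT.nd (nat_lit 94) (nat_lit 252) (nat_lit 0) (XT.lf (nat_lit 0) (nat_lit 103028251104) (nat_lit 252) (nat_lit 2308050653) (nat_lit 336) (nat_lit 9857459439) (nat_lit 29) (nat_lit 5) (nat_lit 32) (nat_lit 5) (nat_lit 33) (nat_lit 5) (nat_lit 423) (nat_lit 373) (nat_lit 92)) (XT.lf (nat_lit 0) (nat_lit 17977773722) (nat_lit 252) (nat_lit 97429711520) (nat_lit 336) (nat_lit 2490717626) (nat_lit 26) (nat_lit 5) (nat_lit 29) (nat_lit 5) (nat_lit 30) (nat_lit 5) (nat_lit 424) (nat_lit 373) (nat_lit 91)))))) (XT.nd (nat_lit 50948) (nat_lit 0) (nat_lit 4956) (XT.nd (nat_lit 282) (nat_lit 252) (nat_lit 0) (XT.nd (nat_lit 94) (nat_lit 0) (nat_lit 0) (XT.lf (nat_lit 0) (nat_lit 5153164543) (nat_lit 336) (nat_lit 71445026441)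 (nat_lit 84) (nat_lit 44082023038) (nat_lit 25) (nat_lit 5) (nat_lit 29) (nat_lit 5) (nat_lit 26) (nat_lit 5) (nat_lit 425) (nat_lit 373) (nat_lit 90)) (XT.nd (nat_lit 94) (nat_lit 0) (nat_lit 0) (XT.lf (nat_lit 0) (nat_lit 12982003107) (nat_lit 336) (nat_lit 42112691724) (nat_lit 84) (nat_lit 68452992719) (nat_lit 25) (nat_lit 5) (nat_lit 29) (nat_lit 5) (nat_lit 26) (nat_lit 5) (nat_lit 426) (nat_lit 373) (nat_lit 89)) (XT.lf (nat_lit 0) (nat_lit 21053277771) (nat_lit 336) (nat_lit 11871375961) (nat_lit 84) (nat_lit 93579408462) (nat_lit 25) (nat_lit 5) (nat_lit 29) (nat_lit 5) (nat_lit 26) (nat_lit 5) (nat_lit 427) (nat_lit 373) (nat_lit 88)))) (XT.nd (nat_lit 94) (nat_lit 0) (nat_lit 0) (XT.lf (nat_lit 0) (nat_lit 19704102678) (nat_lit 252) (nat_lit 9865876268) (nat_lit 336) (nat_lit 99976055178) (nat_lit 22) (nat_lit 5) (nat_lit 25) (nat_lit 5) (nat_lit 26) (nat_lit 5) (nat_lit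 428) (nat_lit 373) (nat_lit 87)) (XT.nd (nat_lit 94) (nat_lit 0) (nat_lit 0) (XT.lf (nat_lit 0) (nat_lit 38613598047) (nat_lit 336) (nat_lit 80307928332) (nat_lit 84) (nat_lit 13752632254) (nat_lit 22) (nat_lit 5) (nat_lit 26) (nat_lit 5) (nat_lit 23) (nat_lit 5) (nat_lit 429) (nat_lit 373) (nat_lit 86)) (XT.lf (nat_lit 0) (nat_lit 48038235147) (nat_lit 336) (nat_lit 49959583162) (nat_lit 84) (nat_lit 37898317368) (nat_lit 22) (nat_lit 5) (nat_lit 26) (nat_lit 5) (nat_lit 23) (nat_lit 5) (nat_lit 430) (nat_lit 373) (nat_lit 85))))) (XT.nd (nat_lit 282) (nat_lit 0) (nat_lit 0) (XT.nd (nat_lit 94) (nat_lit 0) (nat_lit 0) (XT.lf (nat_lit 0) (nat_lit 9585488412) (nat_lit 0) (nat_lit 9585488412) (nat_lit 924) (nat_lit 3411153075) (nat_lit 81) (nat_lit 5) (nat_lit 81) (nat_lit 3) (nat_lit 92) (nat_lit 3) (nat_lit 374) (nat_lit 374) (nat_lit 140)) (XT.nd (nat_lit 94) (nat_lit 0) (nat_lit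 0) (XT.lf (nat_lit 0) (nat_lit 34280471247) (nat_lit 0) (nat_lit 4680501959) (nat_lit 924) (nat_lit 6902385928) (nat_lit 81) (nat_lit 5) (nat_lit 81) (nat_lit 3) (nat_lit 92) (nat_lit 3) (nat_lit 375) (nat_lit 374) (nat_lit 139)) (XT.lf (nat_lit 84) (nat_lit 3237137107) (nat_lit 0) (nat_lit 36494939241) (nat_lit 1008) (nat_lit 6847941757) (nat_lit 82) (nat_lit 5) (nat_lit 81) (nat_lit 5) (nat_lit 93) (nat_lit 5) (nat_lit 376) (nat_lit 374) (nat_lit 138)))) (XT.nd (nat_lit 188) (nat_lit 0) (nat_lit 84) (XT.nd (nat_lit 94) (nat_lit 0) (nat_lit 0) (XT.lf (nat_lit 84) (nat_lit 18712743525) (nat_lit 0) (nat_lit 21981660986) (nat_lit 1008) (nat_lit 6619309098) (nat_lit 82) (nat_lit 5) (nat_lit 81) (nat_lit 5) (nat_lit 93) (nat_lit 5) (nat_lit 377) (nat_lit 374) (nat_lit 137)) (XT.lf (nat_lit 84) (nat_lit 34667574200) (nat_lit 0) (nat_lit 7018053064) (nat_lit 1008) (nat_lit 6384562313)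 (nat_lit 82) (nat_lit 5) (nat_lit 81) (nat_lit 5) (nat_lit 93) (nat_lit 5) (nat_lit 378) (nat_lit 374) (nat_lit 136))) (XT.nd (nat_lit 94) (nat_lit 0) (nat_lit 0) (XT.lf (nat_lit 84) (nat_lit 2227808378) (nat_lit 0) (nat_lit 40584386863) (nat_lit 1008) (nat_lit 6034684555) (nat_lit 83) (nat_lit 5) (nat_lit 82) (nat_lit 5) (nat_lit 94) (nat_lit 5) (nat_lit 379) (nat_lit 374) (nat_lit 135)) (XT.lf (nat_lit 84) (nat_lit 18553112321) (nat_lit 0) (nat_lit 25630638328) (nat_lit 1008) (nat_lit 5457391217) (nat_lit 83) (nat_lit 5) (nat_lit 82) (nat_lit 5) (nat_lit 94) (nat_lit 5) (nat_lit 380) (nat_lit 374) (nat_lit 134))))))))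
noncomputable def xc227 : XT := (XT.nd (nat_lit 2350) (nat_lit 2352) (nat_lit 0) (XT.nd (nat_lit 1128) (nat_lit 1848) (nat_lit 0) (XT.nd (nat_lit 564) (nat_lit 0) (nat_lit 0) (XT.nd (nat_lit 282) (nat_lit 840) (nat_lit 0) (XT.nd (nat_lit 94) (nat_lit 0) (nat_lit 84) (XT.lf (nat_lit 84) (nat_lit 35383979570) (nat_lit 0) (nat_lit 10212987793) (nat_lit 1008) (nat_lit 4863091503) (nat_lit 83) (nat_lit 5) (nat_lit 82) (nat_lit 5) (nat_lit 94) (nat_lit 5) (nat_lit 381) (nat_lit 374) (nat_lit 133)) (XT.nd (nat_lit 94) (nat_lit 0) (nat_lit 0) (XT.lf (nat_lit 84) (nat_lit 1403608297) (nat_lit 0) (nat_lit 45719853743) (nat_lit 1008) (nat_lit 4178752789) (nat_lit 84) (nat_lit 5) (nat_lit 83) (nat_lit 5) (nat_lit 95) (nat_lit 5) (nat_lit 382) (nat_lit 374) (nat_lit 132)) (XT.lf (nat_lit 84) (nat_lit 18606633495) (nat_lit 0) (nat_lit 30350596904) (nat_lit 1008) (nat_lit 3205194576) (nat_lit 84)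 (nat_lit 5) (nat_lit 83) (nat_lit 5) (nat_lit 95) (nat_lit 5) (nat_lit 383) (nat_lit 374) (nat_lit 131)))) (XT.nd (nat_lit 94) (nat_lit 924) (nat_lit 0) (XT.lf (nat_lit 84) (nat_lit 36342433535) (nat_lit 0) (nat_lit 14504628015) (nat_lit 1008) (nat_lit 2202270082) (nat_lit 84) (nat_lit 5) (nat_lit 83) (nat_lit 5) (nat_lit 95) (nat_lit 5) (nat_lit 384) (nat_lit 374) (nat_lit 130)) (XT.nd (nat_lit 94) (nat_lit 1008) (nat_lit 0) (XT.lf (nat_lit 84) (nat_lit 658871508) (nat_lit 0) (nat_lit 52160563428) (nat_lit 1008) (nat_lit 1143560303) (nat_lit 85) (nat_lit 5) (nat_lit 84) (nat_lit 5) (nat_lit 96) (nat_lit 5) (nat_lit 385) (nat_lit 374) (nat_lit 129)) (XT.lf (nat_lit 0) (nat_lit 272782122) (nat_lit 1008) (nat_lit 36132584907) (nat_lit 1092) (nat_lit 18489599890) (nat_lit 72) (nat_lit 5) (nat_lit 84) (nat_lit 5) (nat_lit 85) (nat_lit 5) (nat_lit 386) (nat_lit 374) (nat_lit 128)))))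 (XT.nd (nat_lit 282) (nat_lit 0) (nat_lit 84) (XT.nd (nat_lit 94) (nat_lit 0) (nat_lit 0) (XT.lf (nat_lit 0) (nat_lit 1708546187) (nat_lit 1008) (nat_lit 18440958013) (nat_lit 1092) (nat_lit 35705990633) (nat_lit 72) (nat_lit 5) (nat_lit 84) (nat_lit 5) (nat_lit 85) (nat_lit 5) (nat_lit 387) (nat_lit 374) (nat_lit 127)) (XT.nd (nat_lit 94) (nat_lit 0) (nat_lit 84) (XT.lf (nat_lit 0) (nat_lit 3188110363) (nat_lit 1008) (nat_lit 201408342) (nat_lit 1092) (nat_lit 53456307260) (nat_lit 72) (nat_lit 5) (nat_lit 84) (nat_lit 5) (nat_lit 85) (nat_lit 5) (nat_lit 388) (nat_lit 374) (nat_lit 126)) (XT.lf (nat_lit 0) (nat_lit 5040911975) (nat_lit 1008) (nat_lit 39015181325) (nat_lit 1092) (nat_lit 13800620305) (nat_lit 73) (nat_lit 5) (nat_lit 85) (nat_lit 5) (nat_lit 86) (nat_lit 5) (nat_lit 389) (nat_lit 374) (nat_lit 125)))) (XT.nd (nat_lit 94) (nat_lit 0) (nat_lit 0) (XT.lf (nat_lit 0)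 (nat_lit 6987271228) (nat_lit 1008) (nat_lit 20455012237) (nat_lit 1092) (nat_lit 31455540150) (nat_lit 73) (nat_lit 5) (nat_lit 85) (nat_lit 5) (nat_lit 86) (nat_lit 5) (nat_lit 390) (nat_lit 374) (nat_lit 124)) (XT.nd (nat_lit 94) (nat_lit 0) (nat_lit 84) (XT.lf (nat_lit 0) (nat_lit 8993317955) (nat_lit 1008) (nat_lit 1319986302) (nat_lit 1092) (nat_lit 49657928378) (nat_lit 73) (nat_lit 5) (nat_lit 85) (nat_lit 5) (nat_lit 86) (nat_lit 5) (nat_lit 391) (nat_lit 374) (nat_lit 123)) (XT.lf (nat_lit 0) (nat_lit 11322071069) (nat_lit 1008) (nat_lit 42360718234) (nat_lit 84) (nat_lit 7387056271) (nat_lit 74) (nat_lit 5) (nat_lit 86) (nat_lit 5) (nat_lit 75) (nat_lit 5) (nat_lit 392) (nat_lit 374) (nat_lit 122)))))) (XT.nd (nat_lit 564) (nat_lit 840) (nat_lit 0) (XT.nd (nat_lit 282) (nat_lit 504) (nat_lit 0) (XT.nd (nat_lit 94) (nat_lit 672) (nat_lit 0) (XT.lf (nat_lit 0) (nat_lit 13841800481)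 (nat_lit 1008) (nat_lit 22921096311) (nat_lit 84) (nat_lit 25435940583) (nat_lit 74) (nat_lit 5) (nat_lit 86) (nat_lit 5) (nat_lit 75) (nat_lit 5) (nat_lit 393) (nat_lit 374) (nat_lit 121)) (XT.nd (nat_lit 94) (nat_lit 672) (nat_lit 0) (XT.lf (nat_lit 0) (nat_lit 16439045234) (nat_lit 1008) (nat_lit 2879343371) (nat_lit 84) (nat_lit 44044461871) (nat_lit 74) (nat_lit 5) (nat_lit 86) (nat_lit 5) (nat_lit 75) (nat_lit 5) (nat_lit 394) (nat_lit 374) (nat_lit 120)) (XT.lf (nat_lit 0) (nat_lit 18148881105) (nat_lit 672) (nat_lit 1147384273) (nat_lit 756) (nat_lit 45261123269) (nat_lit 66) (nat_lit 5) (nat_lit 74) (nat_lit 5) (nat_lit 75) (nat_lit 5) (nat_lit 395) (nat_lit 374) (nat_lit 119)))) (XT.nd (nat_lit 94) (nat_lit 504) (nat_lit 0) (XT.lf (nat_lit 0) (nat_lit 22446320794) (nat_lit 756) (nat_lit 26073276196) (nat_lit 84) (nat_lit 17263032234) (nat_lit 66) (nat_lit 5) (nat_lit 75)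 (nat_lit 5) (nat_lit 67) (nat_lit 5) (nat_lit 396) (nat_lit 374) (nat_lit 118)) (XT.nd (nat_lit 94) (nat_lit 504) (nat_lit 0) (XT.lf (nat_lit 0) (nat_lit 25705215139) (nat_lit 756) (nat_lit 5119872366) (nat_lit 84) (nat_lit 36220421665) (nat_lit 66) (nat_lit 5) (nat_lit 75) (nat_lit 5) (nat_lit 67) (nat_lit 5) (nat_lit 397) (nat_lit 374) (nat_lit 117)) (XT.lf (nat_lit 0) (nat_lit 16821533319) (nat_lit 504) (nat_lit 12409942223) (nat_lit 588) (nat_lit 39110909903) (nat_lit 60) (nat_lit 5) (nat_lit 66) (nat_lit 5) (nat_lit 67) (nat_lit 5) (nat_lit 398) (nat_lit 374) (nat_lit 116))))) (XT.nd (nat_lit 282) (nat_lit 420) (nat_lit 0) (XT.nd (nat_lit 94) (nat_lit 420) (nat_lit 0) (XT.lf (nat_lit 0) (nat_lit 32985753559) (nat_lit 588) (nat_lit 30192414530) (nat_lit 84) (nat_lit 6497620480) (nat_lit 60) (nat_lit 5) (nat_lit 67) (nat_lit 5) (nat_lit 61) (nat_lit 5) (nat_lit 399) (nat_lit 374)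 (nat_lit 115)) (XT.nd (nat_lit 94) (nat_lit 420) (nat_lit 0) (XT.lf (nat_lit 0) (nat_lit 36982834874) (nat_lit 588) (nat_lit 8330190756) (nat_lit 84) (nat_lit 25733585907) (nat_lit 60) (nat_lit 5) (nat_lit 67) (nat_lit 5) (nat_lit 61) (nat_lit 5) (nat_lit 400) (nat_lit 374) (nat_lit 114)) (XT.lf (nat_lit 0) (nat_lit 14501477697) (nat_lit 420) (nat_lit 26745715778) (nat_lit 504) (nat_lit 31208295427) (nat_lit 55) (nat_lit 5) (nat_lit 60) (nat_lit 5) (nat_lit 61) (nat_lit 5) (nat_lit 401) (nat_lit 374) (nat_lit 113)))) (XT.nd (nat_lit 188) (nat_lit 420) (nat_lit 0) (XT.nd (nat_lit 94) (nat_lit 0) (nat_lit 0) (XT.lf (nat_lit 0) (nat_lit 38217071449) (nat_lit 420) (nat_lit 7513147373) (nat_lit 504) (nat_lit 28175145212) (nat_lit 55) (nat_lit 5) (nat_lit 60) (nat_lit 5) (nat_lit 61) (nat_lit 5) (nat_lit 402) (nat_lit 374) (nat_lit 112)) (XT.lf (nat_lit 0) (nat_lit 50473926698) (nat_lit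 504) (nat_lit 12854965498) (nat_lit 84) (nat_lit 12067523220) (nat_lit 55) (nat_lit 5) (nat_lit 61) (nat_lit 5) (nat_lit 56) (nat_lit 5) (nat_lit 403) (nat_lit 374) (nat_lit 111))) (XT.nd (nat_lit 94) (nat_lit 0) (nat_lit 0) (XT.lf (nat_lit 0) (nat_lit 10827051349) (nat_lit 420) (nat_lit 44721435791) (nat_lit 504) (nat_lit 21379507523) (nat_lit 50) (nat_lit 5) (nat_lit 55) (nat_lit 5) (nat_lit 56) (nat_lit 5) (nat_lit 404) (nat_lit 374) (nat_lit 110)) (XT.lf (nat_lit 0) (nat_lit 35515291200) (nat_lit 420) (nat_lit 25398806522) (nat_lit 504) (nat_lit 17588812151) (nat_lit 50) (nat_lit 5) (nat_lit 55) (nat_lit 5) (nat_lit 56) (nat_lit 5) (nat_lit 405) (nat_lit 374) (nat_lit 109))))))) (XT.nd (nat_lit 1222) (nat_lit 840) (nat_lit 0) (XT.nd (nat_lit 564) (nat_lit 672) (nat_lit 0) (XT.nd (nat_lit 282) (nat_lit 504) (nat_lit 0) (XT.nd (nat_lit 94) (nat_lit 336) (nat_lit 0) (XT.lf (nat_lit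 0) (nat_lit 60968441625) (nat_lit 420) (nat_lit 5477173149) (nat_lit 504) (nat_lit 13681048754) (nat_lit 50) (nat_lit 5) (nat_lit 55) (nat_lit 5) (nat_lit 56) (nat_lit 5) (nat_lit 406) (nat_lit 374) (nat_lit 108)) (XT.nd (nat_lit 94) (nat_lit 0) (nat_lit 0) (XT.lf (nat_lit 0) (nat_lit 5368198490) (nat_lit 336) (nat_lit 66982666189) (nat_lit 420) (nat_lit 9443621673) (nat_lit 46) (nat_lit 5) (nat_lit 50) (nat_lit 5) (nat_lit 51) (nat_lit 5) (nat_lit 407) (nat_lit 374) (nat_lit 107)) (XT.lf (nat_lit 0) (nat_lit 31003488329) (nat_lit 336) (nat_lit 47690706690) (nat_lit 420) (nat_lit 4811913770) (nat_lit 46) (nat_lit 5) (nat_lit 50) (nat_lit 5) (nat_lit 51) (nat_lit 5) (nat_lit 408) (nat_lit 374) (nat_lit 106)))) (XT.nd (nat_lit 94) (nat_lit 504) (nat_lit 0) (XT.lf (nat_lit 0) (nat_lit 57433061513) (nat_lit 336) (nat_lit 27800712991) (nat_lit 420) (nat_lit 37031811) (nat_lit 46) (nat_lit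 5) (nat_lit 50) (nat_lit 5) (nat_lit 51) (nat_lit 5) (nat_lit 409) (nat_lit 374) (nat_lit 105)) (XT.nd (nat_lit 94) (nat_lit 420) (nat_lit 0) (XT.lf (nat_lit 0) (nat_lit 4787043461) (nat_lit 420) (nat_lit 2457135155) (nat_lit 84) (nat_lit 79844542793) (nat_lit 45) (nat_lit 5) (nat_lit 50) (nat_lit 5) (nat_lit 46) (nat_lit 5) (nat_lit 410) (nat_lit 374) (nat_lit 104)) (XT.lf (nat_lit 0) (nat_lit 10140396827) (nat_lit 504) (nat_lit 64899379410) (nat_lit 84) (nat_lit 13911410712) (nat_lit 40) (nat_lit 5) (nat_lit 46) (nat_lit 5) (nat_lit 41) (nat_lit 5) (nat_lit 411) (nat_lit 374) (nat_lit 103))))) (XT.nd (nat_lit 282) (nat_lit 336) (nat_lit 0) (XT.nd (nat_lit 94) (nat_lit 336) (nat_lit 0) (XT.lf (nat_lit 0) (nat_lit 15759335111) (nat_lit 504) (nat_lit 39510735546) (nat_lit 84) (nat_lit 35598231983) (nat_lit 40) (nat_lit 5) (nat_lit 46) (nat_lit 5) (nat_lit 41) (nat_lit 5) (nat_lit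 412) (nat_lit 374) (nat_lit 102)) (XT.nd (nat_lit 94) (nat_lit 336) (nat_lit 0) (XT.lf (nat_lit 0) (nat_lit 21552101891) (nat_lit 504) (nat_lit 13335437426) (nat_lit 84) (nat_lit 57957322925) (nat_lit 40) (nat_lit 5) (nat_lit 46) (nat_lit 5) (nat_lit 41) (nat_lit 5) (nat_lit 413) (nat_lit 374) (nat_lit 101)) (XT.lf (nat_lit 0) (nat_lit 13931603839) (nat_lit 336) (nat_lit 13730696029) (nat_lit 420) (nat_lit 67216123949) (nat_lit 36) (nat_lit 5) (nat_lit 40) (nat_lit 5) (nat_lit 41) (nat_lit 5) (nat_lit 414) (nat_lit 374) (nat_lit 100)))) (XT.nd (nat_lit 188) (nat_lit 336) (nat_lit 0) (XT.nd (nat_lit 94) (nat_lit 0) (nat_lit 0) (XT.lf (nat_lit 0) (nat_lit 34182365301) (nat_lit 420) (nat_lit 54726071574) (nat_lit 84) (nat_lit 8059757015) (nat_lit 36) (nat_lit 5) (nat_lit 41) (nat_lit 5) (nat_lit 37) (nat_lit 5) (nat_lit 415) (nat_lit 374) (nat_lit 99)) (XT.lf (nat_lit 0) (nat_lit 41044654284)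 (nat_lit 420) (nat_lit 27833291242) (nat_lit 84) (nat_lit 30240460178) (nat_lit 36) (nat_lit 5) (nat_lit 41) (nat_lit 5) (nat_lit 37) (nat_lit 5) (nat_lit 416) (nat_lit 374) (nat_lit 98))) (XT.nd (nat_lit 94) (nat_lit 336) (nat_lit 0) (XT.lf (nat_lit 0) (nat_lit 48119352985) (nat_lit 420) (nat_lit 107201889) (nat_lit 84) (nat_lit 53108731125) (nat_lit 36) (nat_lit 5) (nat_lit 41) (nat_lit 5) (nat_lit 37) (nat_lit 5) (nat_lit 417) (nat_lit 374) (nat_lit 97)) (XT.lf (nat_lit 0) (nat_lit 29063607014) (nat_lit 336) (nat_lit 26637763329) (nat_lit 420) (nat_lit 47910593045) (nat_lit 32) (nat_lit 5) (nat_lit 36) (nat_lit 5) (nat_lit 37) (nat_lit 5) (nat_lit 418) (nat_lit 374) (nat_lit 96)))))) (XT.nd (nat_lit 564) (nat_lit 588) (nat_lit 0) (XT.nd (nat_lit 282) (nat_lit 0) (nat_lit 0) (XT.nd (nat_lit 94) (nat_lit 252) (nat_lit 0) (XT.lf (nat_lit 0) (nat_lit 59140631093) (nat_lit 336) (nat_lit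 4378612404) (nat_lit 420) (nat_lit 42439950907) (nat_lit 32) (nat_lit 5) (nat_lit 36) (nat_lit 5) (nat_lit 37) (nat_lit 5) (nat_lit 419) (nat_lit 374) (nat_lit 95)) (XT.nd (nat_lit 94) (nat_lit 252) (nat_lit 0) (XT.lf (nat_lit 0) (nat_lit 71763396127) (nat_lit 420) (nat_lit 18413721490) (nat_lit 84) (nat_lit 18196372062) (nat_lit 32) (nat_lit 5) (nat_lit 37) (nat_lit 5) (nat_lit 33) (nat_lit 5) (nat_lit 420) (nat_lit 374) (nat_lit 94)) (XT.lf (nat_lit 0) (nat_lit 11049161652) (nat_lit 252) (nat_lit 69368059753) (nat_lit 336) (nat_lit 30440631213) (nat_lit 29) (nat_lit 5) (nat_lit 32) (nat_lit 5) (nat_lit 33) (nat_lit 5) (nat_lit 421) (nat_lit 374) (nat_lit 93)))) (XT.nd (nat_lit 94) (nat_lit 0) (nat_lit 0) (XT.lf (nat_lit 0) (nat_lit 41815417000) (nat_lit 252) (nat_lit 47715817018) (nat_lit 336) (nat_lit 23882048987) (nat_lit 29) (nat_lit 5) (nat_lit 32) (nat_lit 5) (nat_lit 33)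 (nat_lit 5) (nat_lit 422) (nat_lit 374) (nat_lit 92)) (XT.nd (nat_lit 94) (nat_lit 0) (nat_lit 0) (XT.lf (nat_lit 0) (nat_lit 73535098045) (nat_lit 252) (nat_lit 25392408743) (nat_lit 336) (nat_lit 17120435076) (nat_lit 29) (nat_lit 5) (nat_lit 32) (nat_lit 5) (nat_lit 33) (nat_lit 5) (nat_lit 423) (nat_lit 374) (nat_lit 91)) (XT.lf (nat_lit 0) (nat_lit 106237770854) (nat_lit 252) (nat_lit 2377027172) (nat_lit 336) (nat_lit 10149486947) (nat_lit 29) (nat_lit 5) (nat_lit 32) (nat_lit 5) (nat_lit 33) (nat_lit 5) (nat_lit 424) (nat_lit 374) (nat_lit 90))))) (XT.nd (nat_lit 282) (nat_lit 252) (nat_lit 0) (XT.nd (nat_lit 94) (nat_lit 84) (nat_lit 0) (XT.lf (nat_lit 0) (nat_lit 18551022959) (nat_lit 252) (nat_lit 100446955092) (nat_lit 336) (nat_lit 2554595134) (nat_lit 26) (nat_lit 5) (nat_lit 29) (nat_lit 5) (nat_lit 30) (nat_lit 5) (nat_lit 425) (nat_lit 374) (nat_lit 89)) (XT.nd (nat_lit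 94) (nat_lit 0) (nat_lit 0) (XT.lf (nat_lit 0) (nat_lit 5325585848) (nat_lit 336) (nat_lit 73644031822) (nat_lit 84) (nat_lit 45451219287) (nat_lit 25) (nat_lit 5) (nat_lit 29) (nat_lit 5) (nat_lit 26) (nat_lit 5) (nat_lit 426) (nat_lit 374) (nat_lit 88)) (XT.lf (nat_lit 0) (nat_lit 13396737351) (nat_lit 336) (nat_lit 43402869515) (nat_lit 84) (nat_lit 70577609243) (nat_lit 25) (nat_lit 5) (nat_lit 29) (nat_lit 5) (nat_lit 26) (nat_lit 5) (nat_lit 427) (nat_lit 374) (nat_lit 87)))) (XT.nd (nat_lit 188) (nat_lit 0) (nat_lit 0) (XT.nd (nat_lit 94) (nat_lit 252) (nat_lit 0) (XT.lf (nat_lit 0) (nat_lit 21717851930) (nat_lit 336) (nat_lit 12224533473) (nat_lit 84) (nat_lit 96482866487) (nat_lit 25) (nat_lit 5) (nat_lit 29) (nat_lit 5) (nat_lit 26) (nat_lit 5) (nat_lit 428) (nat_lit 374) (nat_lit 86)) (XT.lf (nat_lit 0) (nat_lit 20329634609) (nat_lit 252) (nat_lit 10168723620) (nat_lit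 336) (nat_lit 103063175315) (nat_lit 22) (nat_lit 5) (nat_lit 25) (nat_lit 5) (nat_lit 26) (nat_lit 5) (nat_lit 429) (nat_lit 374) (nat_lit 85))) (XT.nd (nat_lit 188) (nat_lit 0) (nat_lit 0) (XT.lf (nat_lit 0) (nat_lit 39822006244) (nat_lit 336) (nat_lit 82782825539) (nat_lit 84) (nat_lit 14181810095) (nat_lit 22) (nat_lit 5) (nat_lit 26) (nat_lit 5) (nat_lit 23) (nat_lit 5) (nat_lit 430) (nat_lit 374) (nat_lit 84)) (XT.lf (nat_lit 0) (nat_lit 59555915423) (nat_lit 336) (nat_lit 19235749332) (nat_lit 84) (nat_lit 64741704739) (nat_lit 22) (nat_lit 5) (nat_lit 26) (nat_lit 5) (nat_lit 23) (nat_lit 5) (nat_lit 432) (nat_lit 374) (nat_lit 82))))))))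
noncomputable def xc228 : XT := (XT.nd (nat_lit 2350) (nat_lit 2604) (nat_lit 0) (XT.nd (nat_lit 1128) (nat_lit 1764) (nat_lit 0) (XT.nd (nat_lit 564) (nat_lit 0) (nat_lit 84) (XT.nd (nat_lit 282) (nat_lit 0) (nat_lit 0) (XT.nd (nat_lit 94) (nat_lit 0) (nat_lit 0) (XT.lf (nat_lit 0) (nat_lit 9894875582) (nat_lit 0) (nat_lit 9894875582) (nat_lit 924) (nat_lit 3491487462) (nat_lit 81) (nat_lit 5) (nat_lit 81) (nat_lit 3) (nat_lit 92) (nat_lit 3) (nat_lit 375) (nat_lit 375) (nat_lit 138)) (XT.nd (nat_lit 94) (nat_lit 0) (nat_lit 0) (XT.lf (nat_lit 0) (nat_lit 35366904031) (nat_lit 0) (nat_lit 4849335695) (nat_lit 924) (nat_lit 7067065307) (nat_lit 81) (nat_lit 5) (nat_lit 81) (nat_lit 3) (nat_lit 92) (nat_lit 3) (nat_lit 376) (nat_lit 375) (nat_lit 137)) (XT.lf (nat_lit 84) (nat_lit 3363019133) (nat_lit 0) (nat_lit 37646825281) (nat_lit 1008) (nat_lit 7012389917) (nat_lit 82) (nat_lit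 5) (nat_lit 81) (nat_lit 5) (nat_lit 93) (nat_lit 5) (nat_lit 377) (nat_lit 375) (nat_lit 136)))) (XT.nd (nat_lit 94) (nat_lit 0) (nat_lit 0) (XT.lf (nat_lit 84) (nat_lit 19317601694) (nat_lit 0) (nat_lit 22683017718) (nat_lit 1008) (nat_lit 6778108034) (nat_lit 82) (nat_lit 5) (nat_lit 81) (nat_lit 5) (nat_lit 93) (nat_lit 5) (nat_lit 378) (nat_lit 375) (nat_lit 135)) (XT.nd (nat_lit 94) (nat_lit 0) (nat_lit 84) (XT.lf (nat_lit 84) (nat_lit 35766287545) (nat_lit 0) (nat_lit 7254938840) (nat_lit 1008) (nat_lit 6537479239) (nat_lit 82) (nat_lit 5) (nat_lit 81) (nat_lit 5) (nat_lit 93) (nat_lit 5) (nat_lit 379) (nat_lit 375) (nat_lit 134)) (XT.lf (nat_lit 84) (nat_lit 2322478618) (nat_lit 0) (nat_lit 41859004151) (nat_lit 1008) (nat_lit 6178038267) (nat_lit 83) (nat_lit 5) (nat_lit 82) (nat_lit 5) (nat_lit 94) (nat_lit 5) (nat_lit 380) (nat_lit 375) (nat_lit 133))))) (XT.nd (nat_lit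 282) (nat_lit 0) (nat_lit 84) (XT.nd (nat_lit 94) (nat_lit 0) (nat_lit 0) (XT.lf (nat_lit 84) (nat_lit 19153097000) (nat_lit 0) (nat_lit 26441193252) (nat_lit 1008) (nat_lit 5584163449) (nat_lit 83) (nat_lit 5) (nat_lit 82) (nat_lit 5) (nat_lit 94) (nat_lit 5) (nat_lit 381) (nat_lit 375) (nat_lit 132)) (XT.nd (nat_lit 94) (nat_lit 0) (nat_lit 84) (XT.lf (nat_lit 84) (nat_lit 36504974301) (nat_lit 0) (nat_lit 10545114310) (nat_lit 1008) (nat_lit 4972715530) (nat_lit 83) (nat_lit 5) (nat_lit 82) (nat_lit 5) (nat_lit 94) (nat_lit 5) (nat_lit 382) (nat_lit 375) (nat_lit 131)) (XT.lf (nat_lit 84) (nat_lit 1472621251) (nat_lit 0) (nat_lit 47150195829) (nat_lit 1008) (nat_lit 4268292246) (nat_lit 84) (nat_lit 5) (nat_lit 83) (nat_lit 5) (nat_lit 95) (nat_lit 5) (nat_lit 383) (nat_lit 375) (nat_lit 130)))) (XT.nd (nat_lit 94) (nat_lit 0) (nat_lit 0) (XT.lf (nat_lit 84) (nat_lit 19208173466)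 (nat_lit 0) (nat_lit 31304100345) (nat_lit 1008) (nat_lit 3265756500) (nat_lit 84) (nat_lit 5) (nat_lit 83) (nat_lit 5) (nat_lit 95) (nat_lit 5) (nat_lit 384) (nat_lit 375) (nat_lit 129)) (XT.nd (nat_lit 94) (nat_lit 0) (nat_lit 84) (XT.lf (nat_lit 84) (nat_lit 37493039599) (nat_lit 0) (nat_lit 14966526515) (nat_lit 1008) (nat_lit 2232907955) (nat_lit 84) (nat_lit 5) (nat_lit 83) (nat_lit 5) (nat_lit 95) (nat_lit 5) (nat_lit 385) (nat_lit 375) (nat_lit 128)) (XT.lf (nat_lit 84) (nat_lit 704537410) (nat_lit 0) (nat_lit 53787588311) (nat_lit 1008) (nat_lit 1142373119) (nat_lit 85) (nat_lit 5) (nat_lit 84) (nat_lit 5) (nat_lit 96) (nat_lit 5) (nat_lit 386) (nat_lit 375) (nat_lit 127)))))) (XT.nd (nat_lit 564) (nat_lit 1008) (nat_lit 0) (XT.nd (nat_lit 282) (nat_lit 0) (nat_lit 84) (XT.nd (nat_lit 94) (nat_lit 0) (nat_lit 0) (XT.lf (nat_lit 0) (nat_lit 316058337) (nat_lit 1008) (nat_lit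 37227256932) (nat_lit 1092) (nat_lit 19052076013) (nat_lit 72) (nat_lit 5) (nat_lit 84) (nat_lit 5) (nat_lit 85) (nat_lit 5) (nat_lit 387) (nat_lit 375) (nat_lit 126)) (XT.nd (nat_lit 94) (nat_lit 0) (nat_lit 0) (XT.lf (nat_lit 0) (nat_lit 1795284124) (nat_lit 1008) (nat_lit 18987954475) (nat_lit 1092) (nat_lit 36802496640) (nat_lit 72) (nat_lit 5) (nat_lit 84) (nat_lit 5) (nat_lit 85) (nat_lit 5) (nat_lit 388) (nat_lit 375) (nat_lit 125)) (XT.lf (nat_lit 0) (nat_lit 3319699307) (nat_lit 1008) (nat_lit 183720637) (nat_lit 1092) (nat_lit 55103385178) (nat_lit 72) (nat_lit 5) (nat_lit 84) (nat_lit 5) (nat_lit 85) (nat_lit 5) (nat_lit 389) (nat_lit 375) (nat_lit 124)))) (XT.nd (nat_lit 94) (nat_lit 0) (nat_lit 0) (XT.lf (nat_lit 0) (nat_lit 5229105297) (nat_lit 1008) (nat_lit 40199668939) (nat_lit 1092) (nat_lit 14220288642) (nat_lit 73) (nat_lit 5) (nat_lit 85) (nat_lit 5) (nat_lit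 86) (nat_lit 5) (nat_lit 390) (nat_lit 375) (nat_lit 123)) (XT.nd (nat_lit 94) (nat_lit 0) (nat_lit 0) (XT.lf (nat_lit 0) (nat_lit 7234841768) (nat_lit 1008) (nat_lit 21064885796) (nat_lit 1092) (nat_lit 32422756083) (nat_lit 73) (nat_lit 5) (nat_lit 85) (nat_lit 5) (nat_lit 86) (nat_lit 5) (nat_lit 391) (nat_lit 375) (nat_lit 122)) (XT.lf (nat_lit 0) (nat_lit 9302144887) (nat_lit 1008) (nat_lit 1337402657) (nat_lit 1092) (nat_lit 51189656057) (nat_lit 73) (nat_lit 5) (nat_lit 85) (nat_lit 5) (nat_lit 86) (nat_lit 5) (nat_lit 392) (nat_lit 375) (nat_lit 121))))) (XT.nd (nat_lit 282) (nat_lit 1176) (nat_lit 0) (XT.nd (nat_lit 94) (nat_lit 0) (nat_lit 0) (XT.lf (nat_lit 0) (nat_lit 11702356602) (nat_lit 1008) (nat_lit 43649464543) (nat_lit 84) (nat_lit 7610081310) (nat_lit 74) (nat_lit 5) (nat_lit 86) (nat_lit 5) (nat_lit 75) (nat_lit 5) (nat_lit 393) (nat_lit 375) (nat_lit 120)) (XT.nd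 (nat_lit 94) (nat_lit 0) (nat_lit 0) (XT.lf (nat_lit 0) (nat_lit 14299316597) (nat_lit 1008) (nat_lit 23607949079) (nat_lit 84) (nat_lit 26218660652) (nat_lit 74) (nat_lit 5) (nat_lit 86) (nat_lit 5) (nat_lit 75) (nat_lit 5) (nat_lit 394) (nat_lit 375) (nat_lit 119)) (XT.lf (nat_lit 0) (nat_lit 16976221399) (nat_lit 1008) (nat_lit 2945614444) (nat_lit 84) (nat_lit 45404220317) (nat_lit 74) (nat_lit 5) (nat_lit 86) (nat_lit 5) (nat_lit 75) (nat_lit 5) (nat_lit 395) (nat_lit 375) (nat_lit 118)))) (XT.nd (nat_lit 188) (nat_lit 504) (nat_lit 0) (XT.nd (nat_lit 94) (nat_lit 0) (nat_lit 0) (XT.lf (nat_lit 0) (nat_lit 18734252253) (nat_lit 672) (nat_lit 1187160010) (nat_lit 756) (nat_lit 46636237103) (nat_lit 66) (nat_lit 5) (nat_lit 74) (nat_lit 5) (nat_lit 75) (nat_lit 5) (nat_lit 396) (nat_lit 375) (nat_lit 117)) (XT.lf (nat_lit 0) (nat_lit 23168268210) (nat_lit 756) (nat_lit 26858447958)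 (nat_lit 84) (nat_lit 17794188108) (nat_lit 66) (nat_lit 5) (nat_lit 75) (nat_lit 5) (nat_lit 67) (nat_lit 5) (nat_lit 397) (nat_lit 375) (nat_lit 116))) (XT.nd (nat_lit 94) (nat_lit 504) (nat_lit 0) (XT.lf (nat_lit 0) (nat_lit 26527403162) (nat_lit 756) (nat_lit 5256183170) (nat_lit 84) (nat_lit 37339376827) (nat_lit 66) (nat_lit 5) (nat_lit 75) (nat_lit 5) (nat_lit 67) (nat_lit 5) (nat_lit 398) (nat_lit 375) (nat_lit 115)) (XT.lf (nat_lit 0) (nat_lit 17365179258) (nat_lit 504) (nat_lit 12797256883) (nat_lit 588) (nat_lit 40297628408) (nat_lit 60) (nat_lit 5) (nat_lit 66) (nat_lit 5) (nat_lit 67) (nat_lit 5) (nat_lit 399) (nat_lit 375) (nat_lit 114))))))) (XT.nd (nat_lit 1222) (nat_lit 924) (nat_lit 0) (XT.nd (nat_lit 564) (nat_lit 840) (nat_lit 0) (XT.nd (nat_lit 282) (nat_lit 420) (nat_lit 0) (XT.nd (nat_lit 94) (nat_lit 420) (nat_lit 0) (XT.lf (nat_lit 0) (nat_lit 34032326468)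 (nat_lit 588) (nat_lit 31105936016) (nat_lit 84) (nat_lit 6696569570) (nat_lit 60) (nat_lit 5) (nat_lit 67) (nat_lit 5) (nat_lit 61) (nat_lit 5) (nat_lit 400) (nat_lit 375) (nat_lit 113)) (XT.nd (nat_lit 94) (nat_lit 420) (nat_lit 0) (XT.lf (nat_lit 0) (nat_lit 38152595237) (nat_lit 588) (nat_lit 8566658131) (nat_lit 84) (nat_lit 26528924408) (nat_lit 60) (nat_lit 5) (nat_lit 67) (nat_lit 5) (nat_lit 61) (nat_lit 5) (nat_lit 401) (nat_lit 375) (nat_lit 112)) (XT.lf (nat_lit 0) (nat_lit 14972571658) (nat_lit 420) (nat_lit 27576090702) (nat_lit 504) (nat_lit 32152087775) (nat_lit 55) (nat_lit 5) (nat_lit 60) (nat_lit 5) (nat_lit 61) (nat_lit 5) (nat_lit 402) (nat_lit 375) (nat_lit 111)))) (XT.nd (nat_lit 94) (nat_lit 420) (nat_lit 0) (XT.lf (nat_lit 0) (nat_lit 39422700909) (nat_lit 420) (nat_lit 7747274858) (nat_lit 504) (nat_lit 29025621454) (nat_lit 55) (nat_lit 5) (nat_lit 60)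 (nat_lit 5) (nat_lit 61) (nat_lit 5) (nat_lit 403) (nat_lit 375) (nat_lit 110)) (XT.nd (nat_lit 94) (nat_lit 420) (nat_lit 0) (XT.lf (nat_lit 0) (nat_lit 52060061743) (nat_lit 504) (nat_lit 13232377823) (nat_lit 84) (nat_lit 12440457043) (nat_lit 55) (nat_lit 5) (nat_lit 61) (nat_lit 5) (nat_lit 56) (nat_lit 5) (nat_lit 404) (nat_lit 375) (nat_lit 109)) (XT.lf (nat_lit 0) (nat_lit 11183568013) (nat_lit 420) (nat_lit 46107927903) (nat_lit 504) (nat_lit 22020476761) (nat_lit 50) (nat_lit 5) (nat_lit 55) (nat_lit 5) (nat_lit 56) (nat_lit 5) (nat_lit 405) (nat_lit 375) (nat_lit 108))))) (XT.nd (nat_lit 282) (nat_lit 504) (nat_lit 0) (XT.nd (nat_lit 94) (nat_lit 336) (nat_lit 0) (XT.lf (nat_lit 0) (nat_lit 36636515539) (nat_lit 420) (nat_lit 26186293290) (nat_lit 504) (nat_lit 18112925178) (nat_lit 50) (nat_lit 5) (nat_lit 55) (nat_lit 5) (nat_lit 56) (nat_lit 5) (nat_lit 406) (nat_lit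 375) (nat_lit 107)) (XT.nd (nat_lit 94) (nat_lit 336) (nat_lit 0) (XT.lf (nat_lit 0) (nat_lit 62878104744) (nat_lit 420) (nat_lit 5647085561) (nat_lit 504) (nat_lit 14084656755) (nat_lit 50) (nat_lit 5) (nat_lit 55) (nat_lit 5) (nat_lit 56) (nat_lit 5) (nat_lit 407) (nat_lit 375) (nat_lit 106)) (XT.lf (nat_lit 0) (nat_lit 5554791914) (nat_lit 336) (nat_lit 69058315883) (nat_lit 420) (nat_lit 9716280767) (nat_lit 46) (nat_lit 5) (nat_lit 50) (nat_lit 5) (nat_lit 51) (nat_lit 5) (nat_lit 408) (nat_lit 375) (nat_lit 105)))) (XT.nd (nat_lit 188) (nat_lit 504) (nat_lit 0) (XT.nd (nat_lit 94) (nat_lit 0) (nat_lit 0) (XT.lf (nat_lit 0) (nat_lit 31984168990) (nat_lit 336) (nat_lit 49168330083) (nat_lit 420) (nat_lit 4941594078) (nat_lit 46) (nat_lit 5) (nat_lit 50) (nat_lit 5) (nat_lit 51) (nat_lit 5) (nat_lit 409) (nat_lit 375) (nat_lit 104)) (XT.lf (nat_lit 0) (nat_lit 59232470437) (nat_lit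 336) (nat_lit 28661770288) (nat_lit 420) (nat_lit 19276772) (nat_lit 46) (nat_lit 5) (nat_lit 50) (nat_lit 5) (nat_lit 51) (nat_lit 5) (nat_lit 410) (nat_lit 375) (nat_lit 103))) (XT.nd (nat_lit 94) (nat_lit 420) (nat_lit 0) (XT.lf (nat_lit 0) (nat_lit 4953407057) (nat_lit 420) (nat_lit 2514411766) (nat_lit 84) (nat_lit 82319984059) (nat_lit 45) (nat_lit 5) (nat_lit 50) (nat_lit 5) (nat_lit 46) (nat_lit 5) (nat_lit 411) (nat_lit 375) (nat_lit 102)) (XT.lf (nat_lit 0) (nat_lit 10472370578) (nat_lit 504) (nat_lit 66891913194) (nat_lit 84) (nat_lit 14343735107) (nat_lit 40) (nat_lit 5) (nat_lit 46) (nat_lit 5) (nat_lit 41) (nat_lit 5) (nat_lit 412) (nat_lit 375) (nat_lit 101)))))) (XT.nd (nat_lit 564) (nat_lit 588) (nat_lit 0) (XT.nd (nat_lit 282) (nat_lit 0) (nat_lit 0) (XT.nd (nat_lit 94) (nat_lit 336) (nat_lit 0) (XT.lf (nat_lit 0) (nat_lit 16264966109) (nat_lit 504) (nat_lit 40716803092)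 (nat_lit 84) (nat_lit 36702815644) (nat_lit 40) (nat_lit 5) (nat_lit 46) (nat_lit 5) (nat_lit 41) (nat_lit 5) (nat_lit 413) (nat_lit 375) (nat_lit 100)) (XT.nd (nat_lit 94) (nat_lit 336) (nat_lit 0) (XT.lf (nat_lit 0) (nat_lit 22236794751) (nat_lit 504) (nat_lit 13730634962) (nat_lit 84) (nat_lit 59755007180) (nat_lit 40) (nat_lit 5) (nat_lit 46) (nat_lit 5) (nat_lit 41) (nat_lit 5) (nat_lit 414) (nat_lit 375) (nat_lit 99)) (XT.lf (nat_lit 0) (nat_lit 14381500312) (nat_lit 336) (nat_lit 14154588825) (nat_lit 420) (nat_lit 69282962725) (nat_lit 36) (nat_lit 5) (nat_lit 40) (nat_lit 5) (nat_lit 41) (nat_lit 5) (nat_lit 415) (nat_lit 375) (nat_lit 98)))) (XT.nd (nat_lit 94) (nat_lit 0) (nat_lit 0) (XT.lf (nat_lit 0) (nat_lit 35257804678) (nat_lit 420) (nat_lit 56404536727) (nat_lit 84) (nat_lit 8311281010) (nat_lit 36) (nat_lit 5) (nat_lit 41) (nat_lit 5) (nat_lit 37) (nat_lit 5) (nat_lit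 416) (nat_lit 375) (nat_lit 97)) (XT.nd (nat_lit 94) (nat_lit 0) (nat_lit 0) (XT.lf (nat_lit 0) (nat_lit 42332349966) (nat_lit 420) (nat_lit 28678622722) (nat_lit 84) (nat_lit 31179535713) (nat_lit 36) (nat_lit 5) (nat_lit 41) (nat_lit 5) (nat_lit 37) (nat_lit 5) (nat_lit 417) (nat_lit 375) (nat_lit 96)) (XT.lf (nat_lit 0) (nat_lit 49625903945) (nat_lit 420) (nat_lit 93550804) (nat_lit 84) (nat_lit 54756674311) (nat_lit 36) (nat_lit 5) (nat_lit 41) (nat_lit 5) (nat_lit 37) (nat_lit 5) (nat_lit 418) (nat_lit 375) (nat_lit 95))))) (XT.nd (nat_lit 282) (nat_lit 252) (nat_lit 0) (XT.nd (nat_lit 94) (nat_lit 0) (nat_lit 0) (XT.lf (nat_lit 0) (nat_lit 29981381325) (nat_lit 336) (nat_lit 27461302660) (nat_lit 420) (nat_lit 49380710857) (nat_lit 32) (nat_lit 5) (nat_lit 36) (nat_lit 5) (nat_lit 37) (nat_lit 5) (nat_lit 419) (nat_lit 375) (nat_lit 94)) (XT.nd (nat_lit 94) (nat_lit 0) (nat_lit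 0) (XT.lf (nat_lit 0) (nat_lit 60990287936) (nat_lit 336) (nat_lit 4512185148) (nat_lit 420) (nat_lit 43740933155) (nat_lit 32) (nat_lit 5) (nat_lit 36) (nat_lit 5) (nat_lit 37) (nat_lit 5) (nat_lit 420) (nat_lit 375) (nat_lit 93)) (XT.lf (nat_lit 0) (nat_lit 74001790318) (nat_lit 420) (nat_lit 18968252966) (nat_lit 84) (nat_lit 18762516469) (nat_lit 32) (nat_lit 5) (nat_lit 37) (nat_lit 5) (nat_lit 33) (nat_lit 5) (nat_lit 421) (nat_lit 375) (nat_lit 92)))) (XT.nd (nat_lit 188) (nat_lit 0) (nat_lit 0) (XT.nd (nat_lit 94) (nat_lit 0) (nat_lit 0) (XT.lf (nat_lit 0) (nat_lit 11407814593) (nat_lit 252) (nat_lit 71515816788) (nat_lit 336) (nat_lit 31370316879) (nat_lit 29) (nat_lit 5) (nat_lit 32) (nat_lit 5) (nat_lit 33) (nat_lit 5) (nat_lit 422) (nat_lit 375) (nat_lit 91)) (XT.lf (nat_lit 0) (nat_lit 43127338893) (nat_lit 252) (nat_lit 49192434294) (nat_lit 336) (nat_lit 24608838770)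 (nat_lit 29) (nat_lit 5) (nat_lit 32) (nat_lit 5) (nat_lit 33) (nat_lit 5) (nat_lit 423) (nat_lit 375) (nat_lit 90))) (XT.nd (nat_lit 94) (nat_lit 0) (nat_lit 0) (XT.lf (nat_lit 0) (nat_lit 75829859669) (nat_lit 252) (nat_lit 26177077728) (nat_lit 336) (nat_lit 17638022360) (nat_lit 29) (nat_lit 5) (nat_lit 32) (nat_lit 5) (nat_lit 33) (nat_lit 5) (nat_lit 424) (nat_lit 375) (nat_lit 89)) (XT.lf (nat_lit 0) (nat_lit 109545859097) (nat_lit 252) (nat_lit 2448294369) (nat_lit 336) (nat_lit 10451370118) (nat_lit 29) (nat_lit 5) (nat_lit 32) (nat_lit 5) (nat_lit 33) (nat_lit 5) (nat_lit 425) (nat_lit 375) (nat_lit 88))))))))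
noncomputable def xc229 : XT := (XT.nd (nat_lit 52734) (nat_lit 0) (nat_lit 1176) (XT.nd (nat_lit 51512) (nat_lit 0) (nat_lit 4200) (XT.nd (nat_lit 564) (nat_lit 0) (nat_lit 0) (XT.nd (nat_lit 282) (nat_lit 252) (nat_lit 0) (XT.nd (nat_lit 94) (nat_lit 84) (nat_lit 0) (XT.lf (nat_lit 0) (nat_lit 19141098872) (nat_lit 252) (nat_lit 103557915500) (nat_lit 336) (nat_lit 2621242684) (nat_lit 26) (nat_lit 5) (nat_lit 29) (nat_lit 5) (nat_lit 30) (nat_lit 5) (nat_lit 426) (nat_lit 375) (nat_lit 87)) (XT.nd (nat_lit 94) (nat_lit 0) (nat_lit 0) (XT.lf (nat_lit 0) (nat_lit 5502601558) (nat_lit 336) (nat_lit 75912141666) (nat_lit 84) (nat_lit 46862703447) (nat_lit 25) (nat_lit 5) (nat_lit 29) (nat_lit 5) (nat_lit 26) (nat_lit 5) (nat_lit 427) (nat_lit 375) (nat_lit 86)) (XT.lf (nat_lit 0) (nat_lit 13823600271) (nat_lit 336) (nat_lit 44733949990) (nat_lit 84) (nat_lit 72767936431) (nat_lit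 25) (nat_lit 5) (nat_lit 29) (nat_lit 5) (nat_lit 26) (nat_lit 5) (nat_lit 428) (nat_lit 375) (nat_lit 85)))) (XT.nd (nat_lit 94) (nat_lit 252) (nat_lit 0) (XT.lf (nat_lit 0) (nat_lit 22402321696) (nat_lit 336) (nat_lit 12589518763) (nat_lit 84) (nat_lit 99476183846) (nat_lit 25) (nat_lit 5) (nat_lit 29) (nat_lit 5) (nat_lit 26) (nat_lit 5) (nat_lit 429) (nat_lit 375) (nat_lit 84)) (XT.nd (nat_lit 94) (nat_lit 0) (nat_lit 0) (XT.lf (nat_lit 0) (nat_lit 20973687043) (nat_lit 252) (nat_lit 10481136627) (nat_lit 336) (nat_lit 106246715105) (nat_lit 22) (nat_lit 5) (nat_lit 25) (nat_lit 5) (nat_lit 26) (nat_lit 5) (nat_lit 430) (nat_lit 375) (nat_lit 83)) (XT.lf (nat_lit 0) (nat_lit 41067200644) (nat_lit 336) (nat_lit 85335312219) (nat_lit 84) (nat_lit 14624123860) (nat_lit 22) (nat_lit 5) (nat_lit 26) (nat_lit 5) (nat_lit 23) (nat_lit 5) (nat_lit 431) (nat_lit 375) (nat_lit 82)))))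 (XT.nd (nat_lit 50666) (nat_lit 0) (nat_lit 4956) (XT.nd (nat_lit 50478) (nat_lit 0) (nat_lit 4956) (XT.lf (nat_lit 0) (nat_lit 51084547242) (nat_lit 336) (nat_lit 53077073357) (nat_lit 84) (nat_lit 40289876710) (nat_lit 22) (nat_lit 5) (nat_lit 26) (nat_lit 5) (nat_lit 23) (nat_lit 5) (nat_lit 432) (nat_lit 375) (nat_lit 81)) (XT.nd (nat_lit 94) (nat_lit 0) (nat_lit 0) (XT.lf (nat_lit 0) (nat_lit 10213128934) (nat_lit 0) (nat_lit 10213128934) (nat_lit 924) (nat_lit 3575817373) (nat_lit 81) (nat_lit 5) (nat_lit 81) (nat_lit 3) (nat_lit 92) (nat_lit 3) (nat_lit 376) (nat_lit 376) (nat_lit 136)) (XT.lf (nat_lit 0) (nat_lit 36485610179) (nat_lit 0) (nat_lit 5021997224) (nat_lit 924) (nat_lit 7239769549) (nat_lit 81) (nat_lit 5) (nat_lit 81) (nat_lit 3) (nat_lit 92) (nat_lit 3) (nat_lit 377) (nat_lit 376) (nat_lit 135)))) (XT.nd (nat_lit 94) (nat_lit 0) (nat_lit 0) (XT.lf (nat_lit 84)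 (nat_lit 3491291271) (nat_lit 0) (nat_lit 38833202996) (nat_lit 1008) (nat_lit 7184769498) (nat_lit 82) (nat_lit 5) (nat_lit 81) (nat_lit 5) (nat_lit 93) (nat_lit 5) (nat_lit 378) (nat_lit 376) (nat_lit 134)) (XT.nd (nat_lit 94) (nat_lit 0) (nat_lit 0) (XT.lf (nat_lit 84) (nat_lit 19939743703) (nat_lit 0) (nat_lit 23404936302) (nat_lit 1008) (nat_lit 6944578068) (nat_lit 82) (nat_lit 5) (nat_lit 81) (nat_lit 5) (nat_lit 93) (nat_lit 5) (nat_lit 379) (nat_lit 376) (nat_lit 133)) (XT.lf (nat_lit 84) (nat_lit 36897638343) (nat_lit 0) (nat_lit 7498023356) (nat_lit 1008) (nat_lit 6697802283) (nat_lit 82) (nat_lit 5) (nat_lit 81) (nat_lit 5) (nat_lit 93) (nat_lit 5) (nat_lit 380) (nat_lit 376) (nat_lit 132)))))) (XT.nd (nat_lit 564) (nat_lit 840) (nat_lit 0) (XT.nd (nat_lit 282) (nat_lit 0) (nat_lit 84) (XT.nd (nat_lit 94) (nat_lit 0) (nat_lit 0) (XT.lf (nat_lit 84) (nat_lit 2418566820)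 (nat_lit 0) (nat_lit 43172157175) (nat_lit 1008) (nat_lit 6328425644) (nat_lit 83) (nat_lit 5) (nat_lit 82) (nat_lit 5) (nat_lit 94) (nat_lit 5) (nat_lit 381) (nat_lit 376) (nat_lit 131)) (XT.nd (nat_lit 94) (nat_lit 0) (nat_lit 0) (XT.lf (nat_lit 84) (nat_lit 19770209995) (nat_lit 0) (nat_lit 27275927367) (nat_lit 1008) (nat_lit 5717377454) (nat_lit 83) (nat_lit 5) (nat_lit 82) (nat_lit 5) (nat_lit 94) (nat_lit 5) (nat_lit 382) (nat_lit 376) (nat_lit 130)) (XT.lf (nat_lit 84) (nat_lit 37659292896) (nat_lit 0) (nat_lit 10886617241) (nat_lit 1008) (nat_lit 5088174210) (nat_lit 83) (nat_lit 5) (nat_lit 82) (nat_lit 5) (nat_lit 94) (nat_lit 5) (nat_lit 383) (nat_lit 376) (nat_lit 129)))) (XT.nd (nat_lit 94) (nat_lit 0) (nat_lit 0) (XT.lf (nat_lit 84) (nat_lit 1542263134) (nat_lit 0) (nat_lit 48624106931) (nat_lit 1008) (nat_lit 4362976805) (nat_lit 84) (nat_lit 5) (nat_lit 83) (nat_lit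 5) (nat_lit 95) (nat_lit 5) (nat_lit 384) (nat_lit 376) (nat_lit 128)) (XT.nd (nat_lit 94) (nat_lit 0) (nat_lit 0) (XT.lf (nat_lit 84) (nat_lit 19826896119) (nat_lit 0) (nat_lit 32286414004) (nat_lit 1008) (nat_lit 3330493982) (nat_lit 84) (nat_lit 5) (nat_lit 83) (nat_lit 5) (nat_lit 95) (nat_lit 5) (nat_lit 385) (nat_lit 376) (nat_lit 127)) (XT.lf (nat_lit 84) (nat_lit 38677893444) (nat_lit 0) (nat_lit 15442017982) (nat_lit 1008) (nat_lit 2266724639) (nat_lit 84) (nat_lit 5) (nat_lit 83) (nat_lit 5) (nat_lit 95) (nat_lit 5) (nat_lit 386) (nat_lit 376) (nat_lit 126))))) (XT.nd (nat_lit 282) (nat_lit 0) (nat_lit 0) (XT.nd (nat_lit 94) (nat_lit 1008) (nat_lit 0) (XT.lf (nat_lit 84) (nat_lit 750123894) (nat_lit 0) (nat_lit 55464455838) (nat_lit 1008) (nat_lit 1143319238) (nat_lit 85) (nat_lit 5) (nat_lit 84) (nat_lit 5) (nat_lit 96) (nat_lit 5) (nat_lit 387) (nat_lit 376) (nat_lit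 125)) (XT.nd (nat_lit 94) (nat_lit 0) (nat_lit 0) (XT.lf (nat_lit 0) (nat_lit 358613669) (nat_lit 1008) (nat_lit 38357370532) (nat_lit 1092) (nat_lit 19632622763) (nat_lit 72) (nat_lit 5) (nat_lit 84) (nat_lit 5) (nat_lit 85) (nat_lit 5) (nat_lit 388) (nat_lit 376) (nat_lit 124)) (XT.lf (nat_lit 0) (nat_lit 1882710505) (nat_lit 1008) (nat_lit 19553369265) (nat_lit 1092) (nat_lit 37933609141) (nat_lit 72) (nat_lit 5) (nat_lit 84) (nat_lit 5) (nat_lit 85) (nat_lit 5) (nat_lit 389) (nat_lit 376) (nat_lit 123)))) (XT.nd (nat_lit 188) (nat_lit 0) (nat_lit 84) (XT.nd (nat_lit 94) (nat_lit 0) (nat_lit 84) (XT.lf (nat_lit 0) (nat_lit 3453427224) (nat_lit 1008) (nat_lit 166902107) (nat_lit 1092) (nat_lit 56802118834) (nat_lit 72) (nat_lit 5) (nat_lit 84) (nat_lit 5) (nat_lit 85) (nat_lit 5) (nat_lit 390) (nat_lit 376) (nat_lit 122)) (XT.lf (nat_lit 0) (nat_lit 5421241637) (nat_lit 1008) (nat_lit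 41422355456) (nat_lit 1092) (nat_lit 14653449490) (nat_lit 73) (nat_lit 5) (nat_lit 85) (nat_lit 5) (nat_lit 86) (nat_lit 5) (nat_lit 391) (nat_lit 376) (nat_lit 121))) (XT.nd (nat_lit 94) (nat_lit 0) (nat_lit 0) (XT.lf (nat_lit 0) (nat_lit 7488252877) (nat_lit 1008) (nat_lit 21695100727) (nat_lit 1092) (nat_lit 33420423985) (nat_lit 73) (nat_lit 5) (nat_lit 85) (nat_lit 5) (nat_lit 86) (nat_lit 5) (nat_lit 392) (nat_lit 376) (nat_lit 120)) (XT.lf (nat_lit 0) (nat_lit 9618766485) (nat_lit 1008) (nat_lit 1356751054) (nat_lit 1092) (nat_lit 52769321489) (nat_lit 73) (nat_lit 5) (nat_lit 85) (nat_lit 5) (nat_lit 86) (nat_lit 5) (nat_lit 393) (nat_lit 376) (nat_lit 119))))))) (XT.nd (nat_lit 1222) (nat_lit 1176) (nat_lit 0) (XT.nd (nat_lit 564) (nat_lit 1344) (nat_lit 0) (XT.nd (nat_lit 282) (nat_lit 672) (nat_lit 0) (XT.nd (nat_lit 94) (nat_lit 0) (nat_lit 0) (XT.lf (nat_lit 0) (nat_lit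 12092695419) (nat_lit 1008) (nat_lit 44979609372) (nat_lit 84) (nat_lit 7840373958) (nat_lit 74) (nat_lit 5) (nat_lit 86) (nat_lit 5) (nat_lit 75) (nat_lit 5) (nat_lit 394) (nat_lit 376) (nat_lit 118)) (XT.nd (nat_lit 94) (nat_lit 0) (nat_lit 0) (XT.lf (nat_lit 0) (nat_lit 14769332330) (nat_lit 1008) (nat_lit 24317498146) (nat_lit 84) (nat_lit 27025988238) (nat_lit 74) (nat_lit 5) (nat_lit 86) (nat_lit 5) (nat_lit 75) (nat_lit 5) (nat_lit 395) (nat_lit 376) (nat_lit 117)) (XT.lf (nat_lit 0) (nat_lit 17528417257) (nat_lit 1008) (nat_lit 3015301572) (nat_lit 84) (nat_lit 46806464149) (nat_lit 74) (nat_lit 5) (nat_lit 86) (nat_lit 5) (nat_lit 75) (nat_lit 5) (nat_lit 396) (nat_lit 376) (nat_lit 116)))) (XT.nd (nat_lit 94) (nat_lit 0) (nat_lit 0) (XT.lf (nat_lit 0) (nat_lit 19336422039) (nat_lit 672) (nat_lit 1227919618) (nat_lit 756) (nat_lit 48055636828) (nat_lit 66) (nat_lit 5) (nat_lit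 74) (nat_lit 5) (nat_lit 75) (nat_lit 5) (nat_lit 397) (nat_lit 376) (nat_lit 115)) (XT.nd (nat_lit 94) (nat_lit 0) (nat_lit 0) (XT.lf (nat_lit 0) (nat_lit 23911049368) (nat_lit 756) (nat_lit 27669328284) (nat_lit 84) (nat_lit 18342046630) (nat_lit 66) (nat_lit 5) (nat_lit 75) (nat_lit 5) (nat_lit 67) (nat_lit 5) (nat_lit 398) (nat_lit 376) (nat_lit 114)) (XT.lf (nat_lit 0) (nat_lit 27373578891) (nat_lit 756) (nat_lit 5398046711) (nat_lit 84) (nat_lit 38493249294) (nat_lit 66) (nat_lit 5) (nat_lit 75) (nat_lit 5) (nat_lit 67) (nat_lit 5) (nat_lit 399) (nat_lit 376) (nat_lit 113))))) (XT.nd (nat_lit 282) (nat_lit 840) (nat_lit 0) (XT.nd (nat_lit 94) (nat_lit 0) (nat_lit 0) (XT.lf (nat_lit 0) (nat_lit 17924364555) (nat_lit 504) (nat_lit 13196423912) (nat_lit 588) (nat_lit 41522658608) (nat_lit 60) (nat_lit 5) (nat_lit 66) (nat_lit 5) (nat_lit 67) (nat_lit 5) (nat_lit 400) (nat_lit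 376) (nat_lit 112)) (XT.nd (nat_lit 94) (nat_lit 0) (nat_lit 0) (XT.lf (nat_lit 0) (nat_lit 35109920715) (nat_lit 588) (nat_lit 32049106028) (nat_lit 84) (nat_lit 6901832807) (nat_lit 60) (nat_lit 5) (nat_lit 67) (nat_lit 5) (nat_lit 61) (nat_lit 5) (nat_lit 401) (nat_lit 376) (nat_lit 111)) (XT.lf (nat_lit 0) (nat_lit 39357238517) (nat_lit 588) (nat_lit 8811745381) (nat_lit 84) (nat_lit 27349060716) (nat_lit 60) (nat_lit 5) (nat_lit 67) (nat_lit 5) (nat_lit 61) (nat_lit 5) (nat_lit 402) (nat_lit 376) (nat_lit 110)))) (XT.nd (nat_lit 188) (nat_lit 420) (nat_lit 0) (XT.nd (nat_lit 94) (nat_lit 0) (nat_lit 0) (XT.lf (nat_lit 0) (nat_lit 15456993198) (nat_lit 420) (nat_lit 28432132750) (nat_lit 504) (nat_lit 33126539392) (nat_lit 55) (nat_lit 5) (nat_lit 60) (nat_lit 5) (nat_lit 61) (nat_lit 5) (nat_lit 403) (nat_lit 376) (nat_lit 109)) (XT.lf (nat_lit 0) (nat_lit 40664466925) (nat_lit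 420) (nat_lit 7988588037) (nat_lit 504) (nat_lit 29903822019) (nat_lit 55) (nat_lit 5) (nat_lit 60) (nat_lit 5) (nat_lit 61) (nat_lit 5) (nat_lit 404) (nat_lit 376) (nat_lit 108))) (XT.nd (nat_lit 94) (nat_lit 420) (nat_lit 0) (XT.lf (nat_lit 0) (nat_lit 53694096849) (nat_lit 504) (nat_lit 13622739221) (nat_lit 84) (nat_lit 12825020488) (nat_lit 55) (nat_lit 5) (nat_lit 61) (nat_lit 5) (nat_lit 56) (nat_lit 5) (nat_lit 405) (nat_lit 376) (nat_lit 107)) (XT.lf (nat_lit 0) (nat_lit 11549900049) (nat_lit 420) (nat_lit 47537393713) (nat_lit 504) (nat_lit 22682607030) (nat_lit 50) (nat_lit 5) (nat_lit 55) (nat_lit 5) (nat_lit 56) (nat_lit 5) (nat_lit 406) (nat_lit 376) (nat_lit 106)))))) (XT.nd (nat_lit 564) (nat_lit 756) (nat_lit 0) (XT.nd (nat_lit 282) (nat_lit 84) (nat_lit 0) (XT.nd (nat_lit 94) (nat_lit 336) (nat_lit 0) (XT.lf (nat_lit 0) (nat_lit 37791298373) (nat_lit 420) (nat_lit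 26998184817) (nat_lit 504) (nat_lit 18654537875) (nat_lit 50) (nat_lit 5) (nat_lit 55) (nat_lit 5) (nat_lit 56) (nat_lit 5) (nat_lit 407) (nat_lit 376) (nat_lit 105)) (XT.nd (nat_lit 94) (nat_lit 336) (nat_lit 0) (XT.lf (nat_lit 0) (nat_lit 64845804023) (nat_lit 420) (nat_lit 5822258147) (nat_lit 504) (nat_lit 14501991121) (nat_lit 50) (nat_lit 5) (nat_lit 55) (nat_lit 5) (nat_lit 56) (nat_lit 5) (nat_lit 408) (nat_lit 376) (nat_lit 104)) (XT.lf (nat_lit 0) (nat_lit 5745974481) (nat_lit 336) (nat_lit 71198358870) (nat_lit 420) (nat_lit 9998582445) (nat_lit 46) (nat_lit 5) (nat_lit 50) (nat_lit 5) (nat_lit 51) (nat_lit 5) (nat_lit 409) (nat_lit 376) (nat_lit 103)))) (XT.nd (nat_lit 94) (nat_lit 84) (nat_lit 0) (XT.lf (nat_lit 0) (nat_lit 32994091437) (nat_lit 336) (nat_lit 50691806507) (nat_lit 420) (nat_lit 5076448843) (nat_lit 46) (nat_lit 5) (nat_lit 50) (nat_lit 5) (nat_lit 51)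 (nat_lit 5) (nat_lit 410) (nat_lit 376) (nat_lit 102)) (XT.nd (nat_lit 94) (nat_lit 84) (nat_lit 0) (XT.lf (nat_lit 0) (nat_lit 61086536583) (nat_lit 336) (nat_lit 29549565663) (nat_lit 420) (nat_lit 2090985) (nat_lit 46) (nat_lit 5) (nat_lit 50) (nat_lit 5) (nat_lit 51) (nat_lit 5) (nat_lit 411) (nat_lit 376) (nat_lit 101)) (XT.lf (nat_lit 0) (nat_lit 5123863813) (nat_lit 420) (nat_lit 2574583111) (nat_lit 84) (nat_lit 84872148578) (nat_lit 45) (nat_lit 5) (nat_lit 50) (nat_lit 5) (nat_lit 46) (nat_lit 5) (nat_lit 412) (nat_lit 376) (nat_lit 100))))) (XT.nd (nat_lit 282) (nat_lit 336) (nat_lit 0) (XT.nd (nat_lit 94) (nat_lit 0) (nat_lit 0) (XT.lf (nat_lit 0) (nat_lit 10813591767) (nat_lit 504) (nat_lit 68947361479) (nat_lit 84) (nat_lit 14789398140) (nat_lit 40) (nat_lit 5) (nat_lit 46) (nat_lit 5) (nat_lit 41) (nat_lit 5) (nat_lit 413) (nat_lit 376) (nat_lit 99)) (XT.nd (nat_lit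 94) (nat_lit 0) (nat_lit 0) (XT.lf (nat_lit 0) (nat_lit 16785259303) (nat_lit 504) (nat_lit 41961370231) (nat_lit 84) (nat_lit 37841579888) (nat_lit 40) (nat_lit 5) (nat_lit 46) (nat_lit 5) (nat_lit 41) (nat_lit 5) (nat_lit 414) (nat_lit 376) (nat_lit 98)) (XT.lf (nat_lit 0) (nat_lit 22941731164) (nat_lit 504) (nat_lit 14139161701) (nat_lit 84) (nat_lit 61608359987) (nat_lit 40) (nat_lit 5) (nat_lit 46) (nat_lit 5) (nat_lit 41) (nat_lit 5) (nat_lit 415) (nat_lit 376) (nat_lit 97)))) (XT.nd (nat_lit 188) (nat_lit 0) (nat_lit 0) (XT.nd (nat_lit 94) (nat_lit 0) (nat_lit 0) (XT.lf (nat_lit 0) (nat_lit 14844276413) (nat_lit 336) (nat_lit 14591726473) (nat_lit 420) (nat_lit 71414872212) (nat_lit 36) (nat_lit 5) (nat_lit 40) (nat_lit 5) (nat_lit 41) (nat_lit 5) (nat_lit 416) (nat_lit 376) (nat_lit 96)) (XT.lf (nat_lit 0) (nat_lit 36365647641) (nat_lit 420) (nat_lit 58136103022) (nat_lit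 84) (nat_lit 8570503243) (nat_lit 36) (nat_lit 5) (nat_lit 41) (nat_lit 5) (nat_lit 37) (nat_lit 5) (nat_lit 417) (nat_lit 376) (nat_lit 95))) (XT.nd (nat_lit 94) (nat_lit 0) (nat_lit 0) (XT.lf (nat_lit 0) (nat_lit 43659057294) (nat_lit 420) (nat_lit 29551196065) (nat_lit 84) (nat_lit 32147626559) (nat_lit 36) (nat_lit 5) (nat_lit 41) (nat_lit 5) (nat_lit 37) (nat_lit 5) (nat_lit 418) (nat_lit 376) (nat_lit 94)) (XT.lf (nat_lit 0) (nat_lit 51178278334) (nat_lit 420) (nat_lit 80481954) (nat_lit 84) (nat_lit 56455610593) (nat_lit 36) (nat_lit 5) (nat_lit 41) (nat_lit 5) (nat_lit 37) (nat_lit 5) (nat_lit 419) (nat_lit 376) (nat_lit 93))))))))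
noncomputable def xc230 : XT := (XT.nd (nat_lit 52828) (nat_lit 0) (nat_lit 1512) (XT.nd (nat_lit 1128) (nat_lit 0) (nat_lit 0) (XT.nd (nat_lit 564) (nat_lit 588) (nat_lit 0) (XT.nd (nat_lit 282) (nat_lit 252) (nat_lit 0) (XT.nd (nat_lit 94) (nat_lit 0) (nat_lit 0) (XT.lf (nat_lit 0) (nat_lit 30926611400) (nat_lit 336) (nat_lit 28310503876) (nat_lit 420) (nat_lit 50897297346) (nat_lit 32) (nat_lit 5) (nat_lit 36) (nat_lit 5) (nat_lit 37) (nat_lit 5) (nat_lit 420) (nat_lit 376) (nat_lit 92)) (XT.nd (nat_lit 94) (nat_lit 0) (nat_lit 0) (XT.lf (nat_lit 0) (nat_lit 62896318824) (nat_lit 336) (nat_lit 4650026839) (nat_lit 420) (nat_lit 45083113967) (nat_lit 32) (nat_lit 5) (nat_lit 36) (nat_lit 5) (nat_lit 37) (nat_lit 5) (nat_lit 421) (nat_lit 376) (nat_lit 91)) (XT.lf (nat_lit 0) (nat_lit 76308761542) (nat_lit 420) (nat_lit 19540940033) (nat_lit 84) (nat_lit 19346089520) (nat_lit 32)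 (nat_lit 5) (nat_lit 37) (nat_lit 5) (nat_lit 33) (nat_lit 5) (nat_lit 422) (nat_lit 376) (nat_lit 90)))) (XT.nd (nat_lit 94) (nat_lit 0) (nat_lit 0) (XT.lf (nat_lit 0) (nat_lit 11776630430) (nat_lit 252) (nat_lit 73730311423) (nat_lit 336) (nat_lit 32329650500) (nat_lit 29) (nat_lit 5) (nat_lit 32) (nat_lit 5) (nat_lit 33) (nat_lit 5) (nat_lit 423) (nat_lit 376) (nat_lit 89)) (XT.nd (nat_lit 94) (nat_lit 0) (nat_lit 0) (XT.lf (nat_lit 0) (nat_lit 44479003746) (nat_lit 252) (nat_lit 50714979111) (nat_lit 336) (nat_lit 25358961848) (nat_lit 29) (nat_lit 5) (nat_lit 32) (nat_lit 5) (nat_lit 33) (nat_lit 5) (nat_lit 424) (nat_lit 376) (nat_lit 88)) (XT.lf (nat_lit 0) (nat_lit 78194860147) (nat_lit 252) (nat_lit 26986219276) (nat_lit 336) (nat_lit 18172433523) (nat_lit 29) (nat_lit 5) (nat_lit 32) (nat_lit 5) (nat_lit 33) (nat_lit 5) (nat_lit 425) (nat_lit 376) (nat_lit 87))))) (XT.nd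 (nat_lit 282) (nat_lit 252) (nat_lit 0) (XT.nd (nat_lit 94) (nat_lit 336) (nat_lit 0) (XT.lf (nat_lit 0) (nat_lit 112955626343) (nat_lit 252) (nat_lit 2521914227) (nat_lit 336) (nat_lit 10763366927) (nat_lit 29) (nat_lit 5) (nat_lit 32) (nat_lit 5) (nat_lit 33) (nat_lit 5) (nat_lit 426) (nat_lit 376) (nat_lit 86)) (XT.nd (nat_lit 94) (nat_lit 84) (nat_lit 0) (XT.lf (nat_lit 0) (nat_lit 19748579006) (nat_lit 252) (nat_lit 106765487167) (nat_lit 336) (nat_lit 2690699364) (nat_lit 26) (nat_lit 5) (nat_lit 29) (nat_lit 5) (nat_lit 30) (nat_lit 5) (nat_lit 427) (nat_lit 376) (nat_lit 85)) (XT.lf (nat_lit 0) (nat_lit 5684398562) (nat_lit 336) (nat_lit 78251442810) (nat_lit 84) (nat_lit 48317795752) (nat_lit 25) (nat_lit 5) (nat_lit 29) (nat_lit 5) (nat_lit 26) (nat_lit 5) (nat_lit 428) (nat_lit 376) (nat_lit 84)))) (XT.nd (nat_lit 94) (nat_lit 252) (nat_lit 0) (XT.lf (nat_lit 0) (nat_lit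 14263010983) (nat_lit 336) (nat_lit 46107147398) (nat_lit 84) (nat_lit 75026020344) (nat_lit 25) (nat_lit 5) (nat_lit 29) (nat_lit 5) (nat_lit 26) (nat_lit 5) (nat_lit 429) (nat_lit 376) (nat_lit 83)) (XT.nd (nat_lit 94) (nat_lit 252) (nat_lit 0) (XT.lf (nat_lit 0) (nat_lit 23107345660) (nat_lit 336) (nat_lit 12966646375) (nat_lit 84) (nat_lit 102562154937) (nat_lit 25) (nat_lit 5) (nat_lit 29) (nat_lit 5) (nat_lit 26) (nat_lit 5) (nat_lit 430) (nat_lit 376) (nat_lit 82)) (XT.lf (nat_lit 0) (nat_lit 21636885705) (nat_lit 252) (nat_lit 10803401319) (nat_lit 336) (nat_lit 109529620974) (nat_lit 22) (nat_lit 5) (nat_lit 25) (nat_lit 5) (nat_lit 26) (nat_lit 5) (nat_lit 431) (nat_lit 376) (nat_lit 81)))))) (XT.nd (nat_lit 51042) (nat_lit 0) (nat_lit 5040) (XT.nd (nat_lit 50760) (nat_lit 0) (nat_lit 4956) (XT.nd (nat_lit 50572) (nat_lit 0) (nat_lit 4956) (XT.lf (nat_lit 0) (nat_lit 42350361569)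 (nat_lit 336) (nat_lit 87967742253) (nat_lit 84) (nat_lit 15079990751) (nat_lit 22) (nat_lit 5) (nat_lit 26) (nat_lit 5) (nat_lit 23) (nat_lit 5) (nat_lit 432) (nat_lit 376) (nat_lit 80)) (XT.nd (nat_lit 94) (nat_lit 0) (nat_lit 0) (XT.lf (nat_lit 0) (nat_lit 10540566252) (nat_lit 0) (nat_lit 10540566252) (nat_lit 924) (nat_lit 3664177516) (nat_lit 81) (nat_lit 5) (nat_lit 81) (nat_lit 3) (nat_lit 92) (nat_lit 3) (nat_lit 377) (nat_lit 377) (nat_lit 134)) (XT.lf (nat_lit 0) (nat_lit 37637673447) (nat_lit 0) (nat_lit 5198688490) (nat_lit 924) (nat_lit 7420574480) (nat_lit 81) (nat_lit 5) (nat_lit 81) (nat_lit 3) (nat_lit 92) (nat_lit 3) (nat_lit 378) (nat_lit 377) (nat_lit 133)))) (XT.nd (nat_lit 94) (nat_lit 0) (nat_lit 0) (XT.lf (nat_lit 84) (nat_lit 3622117185) (nat_lit 0) (nat_lit 40055213701) (nat_lit 1008) (nat_lit 7365158540) (nat_lit 82) (nat_lit 5) (nat_lit 81) (nat_lit 5)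 (nat_lit 93) (nat_lit 5) (nat_lit 379) (nat_lit 377) (nat_lit 132)) (XT.nd (nat_lit 94) (nat_lit 0) (nat_lit 0) (XT.lf (nat_lit 84) (nat_lit 20579792232) (nat_lit 0) (nat_lit 24148124063) (nat_lit 1008) (nat_lit 7118794215) (nat_lit 82) (nat_lit 5) (nat_lit 81) (nat_lit 5) (nat_lit 93) (nat_lit 5) (nat_lit 380) (nat_lit 377) (nat_lit 131)) (XT.lf (nat_lit 84) (nat_lit 38062722624) (nat_lit 0) (nat_lit 7747566575) (nat_lit 1008) (nat_lit 6865603142) (nat_lit 82) (nat_lit 5) (nat_lit 81) (nat_lit 5) (nat_lit 93) (nat_lit 5) (nat_lit 381) (nat_lit 377) (nat_lit 130))))) (XT.nd (nat_lit 282) (nat_lit 0) (nat_lit 84) (XT.nd (nat_lit 94) (nat_lit 0) (nat_lit 0) (XT.lf (nat_lit 84) (nat_lit 2516206783) (nat_lit 0) (nat_lit 44525098435) (nat_lit 1008) (nat_lit 6485911337) (nat_lit 83) (nat_lit 5) (nat_lit 82) (nat_lit 5) (nat_lit 94) (nat_lit 5) (nat_lit 382) (nat_lit 377) (nat_lit 129))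 (XT.nd (nat_lit 94) (nat_lit 0) (nat_lit 0) (XT.lf (nat_lit 84) (nat_lit 20405069426) (nat_lit 0) (nat_lit 28135646380) (nat_lit 1008) (nat_lit 5857084145) (nat_lit 83) (nat_lit 5) (nat_lit 82) (nat_lit 5) (nat_lit 94) (nat_lit 5) (nat_lit 383) (nat_lit 377) (nat_lit 128)) (XT.lf (nat_lit 84) (nat_lit 38848052917) (nat_lit 0) (nat_lit 11237841721) (nat_lit 1008) (nat_lit 5209504109) (nat_lit 83) (nat_lit 5) (nat_lit 82) (nat_lit 5) (nat_lit 94) (nat_lit 5) (nat_lit 384) (nat_lit 377) (nat_lit 127)))) (XT.nd (nat_lit 188) (nat_lit 0) (nat_lit 0) (XT.nd (nat_lit 94) (nat_lit 0) (nat_lit 0) (XT.lf (nat_lit 84) (nat_lit 1612642909) (nat_lit 0) (nat_lit 50142983391) (nat_lit 1008) (nat_lit 4462825624) (nat_lit 84) (nat_lit 5) (nat_lit 83) (nat_lit 5) (nat_lit 95) (nat_lit 5) (nat_lit 385) (nat_lit 377) (nat_lit 126)) (XT.lf (nat_lit 84) (nat_lit 20463420896) (nat_lit 0) (nat_lit 33298475326)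 (nat_lit 1008) (nat_lit 3399400341) (nat_lit 84) (nat_lit 5) (nat_lit 83) (nat_lit 5) (nat_lit 95) (nat_lit 5) (nat_lit 386) (nat_lit 377) (nat_lit 125))) (XT.nd (nat_lit 94) (nat_lit 0) (nat_lit 84) (XT.lf (nat_lit 84) (nat_lit 39898140922) (nat_lit 0) (nat_lit 15931566793) (nat_lit 1008) (nat_lit 2303686648) (nat_lit 84) (nat_lit 5) (nat_lit 83) (nat_lit 5) (nat_lit 95) (nat_lit 5) (nat_lit 387) (nat_lit 377) (nat_lit 124)) (XT.lf (nat_lit 84) (nat_lit 795717053) (nat_lit 0) (nat_lit 57192746384) (nat_lit 1008) (nat_lit 1146336252) (nat_lit 85) (nat_lit 5) (nat_lit 84) (nat_lit 5) (nat_lit 96) (nat_lit 5) (nat_lit 388) (nat_lit 377) (nat_lit 123))))))) (XT.nd (nat_lit 1222) (nat_lit 1680) (nat_lit 0) (XT.nd (nat_lit 564) (nat_lit 1008) (nat_lit 0) (XT.nd (nat_lit 282) (nat_lit 0) (nat_lit 84) (XT.nd (nat_lit 94) (nat_lit 0) (nat_lit 0) (XT.lf (nat_lit 0) (nat_lit 400547931) (nat_lit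 1008) (nat_lit 39523935150) (nat_lit 1092) (nat_lit 20231762783) (nat_lit 72) (nat_lit 5) (nat_lit 84) (nat_lit 5) (nat_lit 85) (nat_lit 5) (nat_lit 389) (nat_lit 377) (nat_lit 122)) (XT.nd (nat_lit 94) (nat_lit 0) (nat_lit 0) (XT.lf (nat_lit 0) (nat_lit 1970965160) (nat_lit 1008) (nat_lit 20137686788) (nat_lit 1092) (nat_lit 39100364521) (nat_lit 72) (nat_lit 5) (nat_lit 84) (nat_lit 5) (nat_lit 85) (nat_lit 5) (nat_lit 390) (nat_lit 377) (nat_lit 121)) (XT.lf (nat_lit 0) (nat_lit 3589475349) (nat_lit 1008) (nat_lit 150895739) (nat_lit 1092) (nat_lit 58554074233) (nat_lit 72) (nat_lit 5) (nat_lit 84) (nat_lit 5) (nat_lit 85) (nat_lit 5) (nat_lit 391) (nat_lit 377) (nat_lit 120)))) (XT.nd (nat_lit 94) (nat_lit 0) (nat_lit 0) (XT.lf (nat_lit 0) (nat_lit 5617555234) (nat_lit 1008) (nat_lit 42684337390) (nat_lit 1092) (nat_lit 15100492519) (nat_lit 73) (nat_lit 5) (nat_lit 85) (nat_lit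 5) (nat_lit 86) (nat_lit 5) (nat_lit 392) (nat_lit 377) (nat_lit 119)) (XT.nd (nat_lit 94) (nat_lit 0) (nat_lit 0) (XT.lf (nat_lit 0) (nat_lit 7747794251) (nat_lit 1008) (nat_lit 22346202598) (nat_lit 1092) (nat_lit 34449460130) (nat_lit 73) (nat_lit 5) (nat_lit 85) (nat_lit 5) (nat_lit 86) (nat_lit 5) (nat_lit 393) (nat_lit 377) (nat_lit 118)) (XT.lf (nat_lit 0) (nat_lit 9943529754) (nat_lit 1008) (nat_lit 1378008929) (nat_lit 1092) (nat_lit 54398383842) (nat_lit 73) (nat_lit 5) (nat_lit 85) (nat_lit 5) (nat_lit 86) (nat_lit 5) (nat_lit 394) (nat_lit 377) (nat_lit 117))))) (XT.nd (nat_lit 282) (nat_lit 1176) (nat_lit 0) (XT.nd (nat_lit 94) (nat_lit 0) (nat_lit 0) (XT.lf (nat_lit 0) (nat_lit 12493501973) (nat_lit 1008) (nat_lit 46352350343) (nat_lit 84) (nat_lit 8078138553) (nat_lit 74) (nat_lit 5) (nat_lit 86) (nat_lit 5) (nat_lit 75) (nat_lit 5) (nat_lit 395) (nat_lit 377) (nat_lit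 116)) (XT.nd (nat_lit 94) (nat_lit 0) (nat_lit 0) (XT.lf (nat_lit 0) (nat_lit 15252334876) (nat_lit 1008) (nat_lit 25050363945) (nat_lit 84) (nat_lit 27858665844) (nat_lit 74) (nat_lit 5) (nat_lit 86) (nat_lit 5) (nat_lit 75) (nat_lit 5) (nat_lit 396) (nat_lit 377) (nat_lit 115)) (XT.lf (nat_lit 0) (nat_lit 18096195131) (nat_lit 1008) (nat_lit 3088430000) (nat_lit 84) (nat_lit 48252490698) (nat_lit 74) (nat_lit 5) (nat_lit 86) (nat_lit 5) (nat_lit 75) (nat_lit 5) (nat_lit 397) (nat_lit 377) (nat_lit 114)))) (XT.nd (nat_lit 188) (nat_lit 504) (nat_lit 0) (XT.nd (nat_lit 94) (nat_lit 0) (nat_lit 0) (XT.lf (nat_lit 0) (nat_lit 19955991059) (nat_lit 672) (nat_lit 1269708355) (nat_lit 756) (nat_lit 49520597137) (nat_lit 66) (nat_lit 5) (nat_lit 74) (nat_lit 5) (nat_lit 75) (nat_lit 5) (nat_lit 398) (nat_lit 377) (nat_lit 113)) (XT.lf (nat_lit 0) (nat_lit 24675401724) (nat_lit 756) (nat_lit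 28506633098) (nat_lit 84) (nat_lit 18907111556) (nat_lit 66) (nat_lit 5) (nat_lit 75) (nat_lit 5) (nat_lit 67) (nat_lit 5) (nat_lit 399) (nat_lit 377) (nat_lit 112))) (XT.nd (nat_lit 94) (nat_lit 504) (nat_lit 0) (XT.lf (nat_lit 0) (nat_lit 28244574799) (nat_lit 756) (nat_lit 5545556515) (nat_lit 84) (nat_lit 39683107898) (nat_lit 66) (nat_lit 5) (nat_lit 75) (nat_lit 5) (nat_lit 67) (nat_lit 5) (nat_lit 400) (nat_lit 377) (nat_lit 111)) (XT.lf (nat_lit 0) (nat_lit 18499648743) (nat_lit 504) (nat_lit 13607819879) (nat_lit 588) (nat_lit 42787097932) (nat_lit 60) (nat_lit 5) (nat_lit 66) (nat_lit 5) (nat_lit 67) (nat_lit 5) (nat_lit 401) (nat_lit 377) (nat_lit 110)))))) (XT.nd (nat_lit 564) (nat_lit 840) (nat_lit 0) (XT.nd (nat_lit 282) (nat_lit 420) (nat_lit 0) (XT.nd (nat_lit 94) (nat_lit 420) (nat_lit 0) (XT.lf (nat_lit 0) (nat_lit 36219582213) (nat_lit 588) (nat_lit 33022764928)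 (nat_lit 84) (nat_lit 7113597240) (nat_lit 60) (nat_lit 5) (nat_lit 67) (nat_lit 5) (nat_lit 61) (nat_lit 5) (nat_lit 402) (nat_lit 377) (nat_lit 109)) (XT.nd (nat_lit 94) (nat_lit 420) (nat_lit 0) (XT.lf (nat_lit 0) (nat_lit 40597927806) (nat_lit 588) (nat_lit 9065643352) (nat_lit 84) (nat_lit 28194755134) (nat_lit 60) (nat_lit 5) (nat_lit 67) (nat_lit 5) (nat_lit 61) (nat_lit 5) (nat_lit 403) (nat_lit 377) (nat_lit 108)) (XT.lf (nat_lit 0) (nat_lit 15955231071) (nat_lit 420) (nat_lit 29314642016) (nat_lit 504) (nat_lit 34132517691) (nat_lit 55) (nat_lit 5) (nat_lit 60) (nat_lit 5) (nat_lit 61) (nat_lit 5) (nat_lit 404) (nat_lit 377) (nat_lit 107)))) (XT.nd (nat_lit 94) (nat_lit 420) (nat_lit 0) (XT.lf (nat_lit 0) (nat_lit 41943563056) (nat_lit 420) (nat_lit 8237313947) (nat_lit 504) (nat_lit 30810525835) (nat_lit 55) (nat_lit 5) (nat_lit 60) (nat_lit 5) (nat_lit 61) (nat_lit 5)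 (nat_lit 405) (nat_lit 377) (nat_lit 106)) (XT.nd (nat_lit 94) (nat_lit 420) (nat_lit 0) (XT.lf (nat_lit 0) (nat_lit 55377592151) (nat_lit 504) (nat_lit 14026377118) (nat_lit 84) (nat_lit 13221570005) (nat_lit 55) (nat_lit 5) (nat_lit 61) (nat_lit 5) (nat_lit 56) (nat_lit 5) (nat_lit 406) (nat_lit 377) (nat_lit 105)) (XT.lf (nat_lit 0) (nat_lit 11926424983) (nat_lit 420) (nat_lit 49011165852) (nat_lit 504) (nat_lit 23366477855) (nat_lit 50) (nat_lit 5) (nat_lit 55) (nat_lit 5) (nat_lit 56) (nat_lit 5) (nat_lit 407) (nat_lit 377) (nat_lit 104))))) (XT.nd (nat_lit 282) (nat_lit 504) (nat_lit 0) (XT.nd (nat_lit 94) (nat_lit 336) (nat_lit 0) (XT.lf (nat_lit 0) (nat_lit 38980751059) (nat_lit 420) (nat_lit 27835238085) (nat_lit 504) (nat_lit 19214118566) (nat_lit 50) (nat_lit 5) (nat_lit 55) (nat_lit 5) (nat_lit 56) (nat_lit 5) (nat_lit 408) (nat_lit 377) (nat_lit 103)) (XT.nd (nat_lit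 94) (nat_lit 336) (nat_lit 0) (XT.lf (nat_lit 0) (nat_lit 66873407495) (nat_lit 420) (nat_lit 6002854395) (nat_lit 504) (nat_lit 14933405432) (nat_lit 50) (nat_lit 5) (nat_lit 55) (nat_lit 5) (nat_lit 56) (nat_lit 5) (nat_lit 409) (nat_lit 377) (nat_lit 102)) (XT.lf (nat_lit 0) (nat_lit 5941959252) (nat_lit 336) (nat_lit 73404788490) (nat_lit 420) (nat_lit 10290755134) (nat_lit 46) (nat_lit 5) (nat_lit 50) (nat_lit 5) (nat_lit 51) (nat_lit 5) (nat_lit 410) (nat_lit 377) (nat_lit 101)))) (XT.nd (nat_lit 188) (nat_lit 420) (nat_lit 0) (XT.nd (nat_lit 94) (nat_lit 84) (nat_lit 0) (XT.lf (nat_lit 0) (nat_lit 34034230834) (nat_lit 336) (nat_lit 52262554638) (nat_lit 420) (nat_lit 5216570099) (nat_lit 46) (nat_lit 5) (nat_lit 50) (nat_lit 5) (nat_lit 51) (nat_lit 5) (nat_lit 411) (nat_lit 377) (nat_lit 100)) (XT.lf (nat_lit 0) (nat_lit 14280582) (nat_lit 420) (nat_lit 30450495668) (nat_lit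 84) (nat_lit 62982591283) (nat_lit 45) (nat_lit 5) (nat_lit 50) (nat_lit 5) (nat_lit 46) (nat_lit 5) (nat_lit 412) (nat_lit 377) (nat_lit 99))) (XT.nd (nat_lit 94) (nat_lit 420) (nat_lit 0) (XT.lf (nat_lit 0) (nat_lit 5298603644) (nat_lit 420) (nat_lit 2637672636) (nat_lit 84) (nat_lit 87503415684) (nat_lit 45) (nat_lit 5) (nat_lit 50) (nat_lit 5) (nat_lit 46) (nat_lit 5) (nat_lit 413) (nat_lit 377) (nat_lit 98)) (XT.lf (nat_lit 0) (nat_lit 11164408888) (nat_lit 504) (nat_lit 71067606739) (nat_lit 84) (nat_lit 15248817067) (nat_lit 40) (nat_lit 5) (nat_lit 46) (nat_lit 5) (nat_lit 41) (nat_lit 5) (nat_lit 414) (nat_lit 377) (nat_lit 97))))))))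
noncomputable def xc231 : XT := (XT.nd (nat_lit 53016) (nat_lit 0) (nat_lit 2016) (XT.nd (nat_lit 1222) (nat_lit 588) (nat_lit 0) (XT.nd (nat_lit 564) (nat_lit 588) (nat_lit 0) (XT.nd (nat_lit 282) (nat_lit 0) (nat_lit 0) (XT.nd (nat_lit 94) (nat_lit 336) (nat_lit 0) (XT.lf (nat_lit 0) (nat_lit 17320729185) (nat_lit 504) (nat_lit 43245564614) (nat_lit 84) (nat_lit 39015587957) (nat_lit 40) (nat_lit 5) (nat_lit 46) (nat_lit 5) (nat_lit 41) (nat_lit 5) (nat_lit 415) (nat_lit 377) (nat_lit 96)) (XT.nd (nat_lit 94) (nat_lit 336) (nat_lit 0) (XT.lf (nat_lit 0) (nat_lit 23667596841) (nat_lit 504) (nat_lit 14561366989) (nat_lit 84) (nat_lit 63519110604) (nat_lit 40) (nat_lit 5) (nat_lit 46) (nat_lit 5) (nat_lit 41) (nat_lit 5) (nat_lit 416) (nat_lit 377) (nat_lit 95)) (XT.lf (nat_lit 0) (nat_lit 15320394620) (nat_lit 336) (nat_lit 15042513393) (nat_lit 420) (nat_lit 73613810449) (nat_lit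 36) (nat_lit 5) (nat_lit 40) (nat_lit 5) (nat_lit 41) (nat_lit 5) (nat_lit 417) (nat_lit 377) (nat_lit 94)))) (XT.nd (nat_lit 94) (nat_lit 0) (nat_lit 0) (XT.lf (nat_lit 0) (nat_lit 37506954085) (nat_lit 420) (nat_lit 59922353291) (nat_lit 84) (nat_lit 8837668221) (nat_lit 36) (nat_lit 5) (nat_lit 41) (nat_lit 5) (nat_lit 37) (nat_lit 5) (nat_lit 418) (nat_lit 377) (nat_lit 93)) (XT.nd (nat_lit 94) (nat_lit 0) (nat_lit 0) (XT.lf (nat_lit 0) (nat_lit 45026039347) (nat_lit 420) (nat_lit 30451794371) (nat_lit 84) (nat_lit 33145637878) (nat_lit 36) (nat_lit 5) (nat_lit 41) (nat_lit 5) (nat_lit 37) (nat_lit 5) (nat_lit 419) (nat_lit 377) (nat_lit 92)) (XT.lf (nat_lit 0) (nat_lit 52777948781) (nat_lit 420) (nat_lit 67953837) (nat_lit 84) (nat_lit 58207126273) (nat_lit 36) (nat_lit 5) (nat_lit 41) (nat_lit 5) (nat_lit 37) (nat_lit 5) (nat_lit 420) (nat_lit 377) (nat_lit 91))))) (XT.nd (nat_lit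 282) (nat_lit 252) (nat_lit 0) (XT.nd (nat_lit 94) (nat_lit 0) (nat_lit 0) (XT.lf (nat_lit 0) (nat_lit 31900207316) (nat_lit 336) (nat_lit 29186154667) (nat_lit 420) (nat_lit 52461740027) (nat_lit 32) (nat_lit 5) (nat_lit 36) (nat_lit 5) (nat_lit 37) (nat_lit 5) (nat_lit 421) (nat_lit 377) (nat_lit 90)) (XT.nd (nat_lit 94) (nat_lit 0) (nat_lit 0) (XT.lf (nat_lit 0) (nat_lit 64860528532) (nat_lit 336) (nat_lit 4792262220) (nat_lit 420) (nat_lit 46467719078) (nat_lit 32) (nat_lit 5) (nat_lit 36) (nat_lit 5) (nat_lit 37) (nat_lit 5) (nat_lit 422) (nat_lit 377) (nat_lit 89)) (XT.lf (nat_lit 0) (nat_lit 78686483854) (nat_lit 420) (nat_lit 20132288349) (nat_lit 84) (nat_lit 19947638721) (nat_lit 32) (nat_lit 5) (nat_lit 37) (nat_lit 5) (nat_lit 33) (nat_lit 5) (nat_lit 423) (nat_lit 377) (nat_lit 88)))) (XT.nd (nat_lit 188) (nat_lit 0) (nat_lit 0) (XT.nd (nat_lit 94) (nat_lit 0) (nat_lit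 0) (XT.lf (nat_lit 0) (nat_lit 12155980801) (nat_lit 252) (nat_lit 76013603215) (nat_lit 336) (nat_lit 33319502135) (nat_lit 29) (nat_lit 5) (nat_lit 32) (nat_lit 5) (nat_lit 33) (nat_lit 5) (nat_lit 424) (nat_lit 377) (nat_lit 87)) (XT.lf (nat_lit 0) (nat_lit 45871698475) (nat_lit 252) (nat_lit 52284866197) (nat_lit 336) (nat_lit 26133094000) (nat_lit 29) (nat_lit 5) (nat_lit 32) (nat_lit 5) (nat_lit 33) (nat_lit 5) (nat_lit 425) (nat_lit 377) (nat_lit 86))) (XT.nd (nat_lit 94) (nat_lit 0) (nat_lit 0) (XT.lf (nat_lit 0) (nat_lit 80632330116) (nat_lit 252) (nat_lit 27820583280) (nat_lit 336) (nat_lit 18724143981) (nat_lit 29) (nat_lit 5) (nat_lit 32) (nat_lit 5) (nat_lit 33) (nat_lit 5) (nat_lit 426) (nat_lit 377) (nat_lit 85)) (XT.lf (nat_lit 0) (nat_lit 116470276274) (nat_lit 252) (nat_lit 2597951188) (nat_lit 336) (nat_lit 11085746160) (nat_lit 29) (nat_lit 5) (nat_lit 32) (nat_lit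 5) (nat_lit 33) (nat_lit 5) (nat_lit 427) (nat_lit 377) (nat_lit 84)))))) (XT.nd (nat_lit 51136) (nat_lit 0) (nat_lit 4956) (XT.nd (nat_lit 282) (nat_lit 252) (nat_lit 0) (XT.nd (nat_lit 94) (nat_lit 84) (nat_lit 0) (XT.lf (nat_lit 0) (nat_lit 20374055497) (nat_lit 252) (nat_lit 110072654887) (nat_lit 336) (nat_lit 2763008244) (nat_lit 26) (nat_lit 5) (nat_lit 29) (nat_lit 5) (nat_lit 30) (nat_lit 5) (nat_lit 428) (nat_lit 377) (nat_lit 83)) (XT.nd (nat_lit 94) (nat_lit 0) (nat_lit 0) (XT.lf (nat_lit 0) (nat_lit 5871166909) (nat_lit 336) (nat_lit 80664090067) (nat_lit 84) (nat_lit 49817856813) (nat_lit 25) (nat_lit 5) (nat_lit 29) (nat_lit 5) (nat_lit 26) (nat_lit 5) (nat_lit 429) (nat_lit 377) (nat_lit 82)) (XT.lf (nat_lit 0) (nat_lit 14715399039) (nat_lit 336) (nat_lit 47523716815) (nat_lit 84) (nat_lit 77353969935) (nat_lit 25) (nat_lit 5) (nat_lit 29) (nat_lit 5) (nat_lit 26)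 (nat_lit 5) (nat_lit 430) (nat_lit 377) (nat_lit 81)))) (XT.nd (nat_lit 94) (nat_lit 252) (nat_lit 0) (XT.lf (nat_lit 0) (nat_lit 23833600355) (nat_lit 336) (nat_lit 13356243690) (nat_lit 84) (nat_lit 105743660267) (nat_lit 25) (nat_lit 5) (nat_lit 29) (nat_lit 5) (nat_lit 26) (nat_lit 5) (nat_lit 431) (nat_lit 377) (nat_lit 80)) (XT.nd (nat_lit 50666) (nat_lit 0) (nat_lit 4956) (XT.lf (nat_lit 0) (nat_lit 22319872662) (nat_lit 252) (nat_lit 11135813212) (nat_lit 336) (nat_lit 112914933211) (nat_lit 22) (nat_lit 5) (nat_lit 25) (nat_lit 5) (nat_lit 26) (nat_lit 5) (nat_lit 432) (nat_lit 377) (nat_lit 79)) (XT.lf (nat_lit 0) (nat_lit 10877512629) (nat_lit 0) (nat_lit 10877512629) (nat_lit 924) (nat_lit 3756608957) (nat_lit 81) (nat_lit 5) (nat_lit 81) (nat_lit 3) (nat_lit 92) (nat_lit 3) (nat_lit 378) (nat_lit 378) (nat_lit 132))))) (XT.nd (nat_lit 282) (nat_lit 0) (nat_lit 0) (XT.nd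 (nat_lit 94) (nat_lit 0) (nat_lit 0) (XT.lf (nat_lit 0) (nat_lit 38824206256) (nat_lit 0) (nat_lit 5379612766) (nat_lit 924) (nat_lit 7609568521) (nat_lit 81) (nat_lit 5) (nat_lit 81) (nat_lit 3) (nat_lit 92) (nat_lit 3) (nat_lit 379) (nat_lit 378) (nat_lit 131)) (XT.nd (nat_lit 94) (nat_lit 0) (nat_lit 0) (XT.lf (nat_lit 84) (nat_lit 3755660309) (nat_lit 0) (nat_lit 41314029821) (nat_lit 1008) (nat_lit 7553647443) (nat_lit 82) (nat_lit 5) (nat_lit 81) (nat_lit 5) (nat_lit 93) (nat_lit 5) (nat_lit 380) (nat_lit 378) (nat_lit 130)) (XT.lf (nat_lit 84) (nat_lit 21238384115) (nat_lit 0) (nat_lit 24913306108) (nat_lit 1008) (nat_lit 7300843458) (nat_lit 82) (nat_lit 5) (nat_lit 81) (nat_lit 5) (nat_lit 93) (nat_lit 5) (nat_lit 381) (nat_lit 378) (nat_lit 129)))) (XT.nd (nat_lit 188) (nat_lit 0) (nat_lit 84) (XT.nd (nat_lit 94) (nat_lit 0) (nat_lit 84) (XT.lf (nat_lit 84) (nat_lit 39262665399)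 (nat_lit 0) (nat_lit 8003832506) (nat_lit 1008) (nat_lit 7040965086) (nat_lit 82) (nat_lit 5) (nat_lit 81) (nat_lit 5) (nat_lit 93) (nat_lit 5) (nat_lit 382) (nat_lit 378) (nat_lit 128)) (XT.lf (nat_lit 84) (nat_lit 2615531135) (nat_lit 0) (nat_lit 45919115832) (nat_lit 1008) (nat_lit 6650571087) (nat_lit 83) (nat_lit 5) (nat_lit 82) (nat_lit 5) (nat_lit 94) (nat_lit 5) (nat_lit 383) (nat_lit 378) (nat_lit 127))) (XT.nd (nat_lit 94) (nat_lit 0) (nat_lit 0) (XT.lf (nat_lit 84) (nat_lit 21058307413) (nat_lit 0) (nat_lit 29021177650) (nat_lit 1008) (nat_lit 6003344830) (nat_lit 83) (nat_lit 5) (nat_lit 82) (nat_lit 5) (nat_lit 94) (nat_lit 5) (nat_lit 384) (nat_lit 378) (nat_lit 126)) (XT.lf (nat_lit 84) (nat_lit 40072401563) (nat_lit 0) (nat_lit 11599140355) (nat_lit 1008) (nat_lit 5336751477) (nat_lit 83) (nat_lit 5) (nat_lit 82) (nat_lit 5) (nat_lit 94) (nat_lit 5) (nat_lit 385)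 (nat_lit 378) (nat_lit 125))))))) (XT.nd (nat_lit 1222) (nat_lit 2184) (nat_lit 0) (XT.nd (nat_lit 564) (nat_lit 0) (nat_lit 0) (XT.nd (nat_lit 282) (nat_lit 924) (nat_lit 0) (XT.nd (nat_lit 94) (nat_lit 0) (nat_lit 0) (XT.lf (nat_lit 84) (nat_lit 1683867620) (nat_lit 0) (nat_lit 51708262130) (nat_lit 1008) (nat_lit 4567866764) (nat_lit 84) (nat_lit 5) (nat_lit 83) (nat_lit 5) (nat_lit 95) (nat_lit 5) (nat_lit 386) (nat_lit 378) (nat_lit 124)) (XT.nd (nat_lit 94) (nat_lit 0) (nat_lit 0) (XT.lf (nat_lit 84) (nat_lit 21118381300) (nat_lit 0) (nat_lit 34341248191) (nat_lit 1008) (nat_lit 3472476751) (nat_lit 84) (nat_lit 5) (nat_lit 83) (nat_lit 5) (nat_lit 95) (nat_lit 5) (nat_lit 387) (nat_lit 378) (nat_lit 123)) (XT.lf (nat_lit 84) (nat_lit 41154958417) (nat_lit 0) (nat_lit 16435649176) (nat_lit 1008) (nat_lit 2343767277) (nat_lit 84) (nat_lit 5) (nat_lit 83) (nat_lit 5) (nat_lit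 95) (nat_lit 5) (nat_lit 388) (nat_lit 378) (nat_lit 122)))) (XT.nd (nat_lit 94) (nat_lit 1008) (nat_lit 0) (XT.lf (nat_lit 84) (nat_lit 841400404) (nat_lit 0) (nat_lit 58974087224) (nat_lit 1008) (nat_lit 1151367434) (nat_lit 85) (nat_lit 5) (nat_lit 84) (nat_lit 5) (nat_lit 96) (nat_lit 5) (nat_lit 389) (nat_lit 378) (nat_lit 121)) (XT.nd (nat_lit 94) (nat_lit 0) (nat_lit 0) (XT.lf (nat_lit 0) (nat_lit 441956798) (nat_lit 1008) (nat_lit 40727996806) (nat_lit 1092) (nat_lit 20850037145) (nat_lit 72) (nat_lit 5) (nat_lit 84) (nat_lit 5) (nat_lit 85) (nat_lit 5) (nat_lit 390) (nat_lit 378) (nat_lit 120)) (XT.lf (nat_lit 0) (nat_lit 2060185236) (nat_lit 1008) (nat_lit 20741411593) (nat_lit 1092) (nat_lit 40303833449) (nat_lit 72) (nat_lit 5) (nat_lit 84) (nat_lit 5) (nat_lit 85) (nat_lit 5) (nat_lit 391) (nat_lit 378) (nat_lit 119))))) (XT.nd (nat_lit 282) (nat_lit 0) (nat_lit 84)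 (XT.nd (nat_lit 94) (nat_lit 0) (nat_lit 84) (XT.lf (nat_lit 0) (nat_lit 3728023727) (nat_lit 1008) (nat_lit 135647721) (nat_lit 1092) (nat_lit 60360868021) (nat_lit 72) (nat_lit 5) (nat_lit 84) (nat_lit 5) (nat_lit 85) (nat_lit 5) (nat_lit 392) (nat_lit 378) (nat_lit 118)) (XT.nd (nat_lit 94) (nat_lit 0) (nat_lit 0) (XT.lf (nat_lit 0) (nat_lit 5818280954) (nat_lit 1008) (nat_lit 43986750442) (nat_lit 1092) (nat_lit 15561821173) (nat_lit 73) (nat_lit 5) (nat_lit 85) (nat_lit 5) (nat_lit 86) (nat_lit 5) (nat_lit 393) (nat_lit 378) (nat_lit 117)) (XT.lf (nat_lit 0) (nat_lit 8013758131) (nat_lit 1008) (nat_lit 23018758926) (nat_lit 1092) (nat_lit 35510810839) (nat_lit 73) (nat_lit 5) (nat_lit 85) (nat_lit 5) (nat_lit 86) (nat_lit 5) (nat_lit 394) (nat_lit 378) (nat_lit 116)))) (XT.nd (nat_lit 188) (nat_lit 0) (nat_lit 84) (XT.nd (nat_lit 94) (nat_lit 0) (nat_lit 84) (XT.lf (nat_lit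 0) (nat_lit 10276786215) (nat_lit 1008) (nat_lit 1401157902) (nat_lit 1092) (nat_lit 56078349110) (nat_lit 73) (nat_lit 5) (nat_lit 85) (nat_lit 5) (nat_lit 86) (nat_lit 5) (nat_lit 395) (nat_lit 378) (nat_lit 115)) (XT.lf (nat_lit 0) (nat_lit 12905197473) (nat_lit 1008) (nat_lit 47768927283) (nat_lit 84) (nat_lit 8323587008) (nat_lit 74) (nat_lit 5) (nat_lit 86) (nat_lit 5) (nat_lit 75) (nat_lit 5) (nat_lit 396) (nat_lit 378) (nat_lit 114))) (XT.nd (nat_lit 94) (nat_lit 0) (nat_lit 0) (XT.lf (nat_lit 0) (nat_lit 15748820632) (nat_lit 1008) (nat_lit 25807191066) (nat_lit 84) (nat_lit 28717460199) (nat_lit 74) (nat_lit 5) (nat_lit 86) (nat_lit 5) (nat_lit 75) (nat_lit 5) (nat_lit 397) (nat_lit 378) (nat_lit 113)) (XT.lf (nat_lit 0) (nat_lit 18680129047) (nat_lit 1008) (nat_lit 3165030534) (nat_lit 84) (nat_lit 49743638679) (nat_lit 74) (nat_lit 5) (nat_lit 86) (nat_lit 5) (nat_lit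 75) (nat_lit 5) (nat_lit 398) (nat_lit 378) (nat_lit 112)))))) (XT.nd (nat_lit 564) (nat_lit 1176) (nat_lit 0) (XT.nd (nat_lit 282) (nat_lit 504) (nat_lit 0) (XT.nd (nat_lit 94) (nat_lit 0) (nat_lit 0) (XT.lf (nat_lit 0) (nat_lit 20593573795) (nat_lit 672) (nat_lit 1312572011) (nat_lit 756) (nat_lit 51032438056) (nat_lit 66) (nat_lit 5) (nat_lit 74) (nat_lit 5) (nat_lit 75) (nat_lit 5) (nat_lit 399) (nat_lit 378) (nat_lit 111)) (XT.nd (nat_lit 94) (nat_lit 0) (nat_lit 0) (XT.lf (nat_lit 0) (nat_lit 25462080169) (nat_lit 756) (nat_lit 29371105316) (nat_lit 84) (nat_lit 19489903086) (nat_lit 66) (nat_lit 5) (nat_lit 75) (nat_lit 5) (nat_lit 67) (nat_lit 5) (nat_lit 400) (nat_lit 378) (nat_lit 110)) (XT.lf (nat_lit 0) (nat_lit 29141243903) (nat_lit 756) (nat_lit 5698813667) (nat_lit 84) (nat_lit 40910055409) (nat_lit 66) (nat_lit 5) (nat_lit 75) (nat_lit 5) (nat_lit 67) (nat_lit 5)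 (nat_lit 401) (nat_lit 378) (nat_lit 109)))) (XT.nd (nat_lit 94) (nat_lit 0) (nat_lit 0) (XT.lf (nat_lit 0) (nat_lit 19091604088) (nat_lit 504) (nat_lit 14031832484) (nat_lit 588) (nat_lit 44092083172) (nat_lit 60) (nat_lit 5) (nat_lit 66) (nat_lit 5) (nat_lit 67) (nat_lit 5) (nat_lit 402) (nat_lit 378) (nat_lit 108)) (XT.nd (nat_lit 94) (nat_lit 0) (nat_lit 0) (XT.lf (nat_lit 0) (nat_lit 37362384309) (nat_lit 588) (nat_lit 34027783797) (nat_lit 84) (nat_lit 7332056228) (nat_lit 60) (nat_lit 5) (nat_lit 67) (nat_lit 5) (nat_lit 61) (nat_lit 5) (nat_lit 403) (nat_lit 378) (nat_lit 107)) (XT.lf (nat_lit 0) (nat_lit 41875857406) (nat_lit 588) (nat_lit 9328553326) (nat_lit 84) (nat_lit 29066792033) (nat_lit 60) (nat_lit 5) (nat_lit 67) (nat_lit 5) (nat_lit 61) (nat_lit 5) (nat_lit 404) (nat_lit 378) (nat_lit 106))))) (XT.nd (nat_lit 282) (nat_lit 756) (nat_lit 0) (XT.nd (nat_lit 94)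 (nat_lit 0) (nat_lit 0) (XT.lf (nat_lit 0) (nat_lit 16467784705) (nat_lit 420) (nat_lit 30224443136) (nat_lit 504) (nat_lit 35170921891) (nat_lit 55) (nat_lit 5) (nat_lit 60) (nat_lit 5) (nat_lit 61) (nat_lit 5) (nat_lit 405) (nat_lit 378) (nat_lit 105)) (XT.nd (nat_lit 94) (nat_lit 0) (nat_lit 0) (XT.lf (nat_lit 0) (nat_lit 43261215519) (nat_lit 420) (nat_lit 8493686410) (nat_lit 504) (nat_lit 31746540740) (nat_lit 55) (nat_lit 5) (nat_lit 60) (nat_lit 5) (nat_lit 61) (nat_lit 5) (nat_lit 406) (nat_lit 378) (nat_lit 104)) (XT.lf (nat_lit 0) (nat_lit 57112151690) (nat_lit 504) (nat_lit 14443633469) (nat_lit 84) (nat_lit 13630473335) (nat_lit 55) (nat_lit 5) (nat_lit 61) (nat_lit 5) (nat_lit 56) (nat_lit 5) (nat_lit 407) (nat_lit 378) (nat_lit 103)))) (XT.nd (nat_lit 188) (nat_lit 336) (nat_lit 0) (XT.nd (nat_lit 94) (nat_lit 0) (nat_lit 0) (XT.lf (nat_lit 0) (nat_lit 12313527705)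 (nat_lit 420) (nat_lit 50530618238) (nat_lit 504) (nat_lit 24072691254) (nat_lit 50) (nat_lit 5) (nat_lit 55) (nat_lit 5) (nat_lit 56) (nat_lit 5) (nat_lit 408) (nat_lit 378) (nat_lit 102)) (XT.lf (nat_lit 0) (nat_lit 40206015203) (nat_lit 420) (nat_lit 28698233515) (nat_lit 504) (nat_lit 19792154482) (nat_lit 50) (nat_lit 5) (nat_lit 55) (nat_lit 5) (nat_lit 56) (nat_lit 5) (nat_lit 409) (nat_lit 378) (nat_lit 101))) (XT.nd (nat_lit 94) (nat_lit 336) (nat_lit 0) (XT.lf (nat_lit 0) (nat_lit 68962837017) (nat_lit 420) (nat_lit 6189042832) (nat_lit 504) (nat_lit 15379268489) (nat_lit 50) (nat_lit 5) (nat_lit 55) (nat_lit 5) (nat_lit 56) (nat_lit 5) (nat_lit 410) (nat_lit 378) (nat_lit 100)) (XT.lf (nat_lit 0) (nat_lit 6142961698) (nat_lit 336) (nat_lit 75679660046) (nat_lit 420) (nat_lit 10593038516) (nat_lit 46) (nat_lit 5) (nat_lit 50) (nat_lit 5) (nat_lit 51) (nat_lit 5) (nat_lit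 411) (nat_lit 378) (nat_lit 99))))))))
noncomputable def xc232 : XT := (XT.nd (nat_lit 53016) (nat_lit 0) (nat_lit 2520) (XT.nd (nat_lit 1128) (nat_lit 588) (nat_lit 0) (XT.nd (nat_lit 564) (nat_lit 672) (nat_lit 0) (XT.nd (nat_lit 282) (nat_lit 420) (nat_lit 0) (XT.nd (nat_lit 94) (nat_lit 84) (nat_lit 0) (XT.lf (nat_lit 0) (nat_lit 35105588507) (nat_lit 336) (nat_lit 53882037297) (nat_lit 420) (nat_lit 5362056782) (nat_lit 46) (nat_lit 5) (nat_lit 50) (nat_lit 5) (nat_lit 51) (nat_lit 5) (nat_lit 412) (nat_lit 378) (nat_lit 98)) (XT.nd (nat_lit 94) (nat_lit 0) (nat_lit 0) (XT.lf (nat_lit 0) (nat_lit 30145252) (nat_lit 420) (nat_lit 31378241294) (nat_lit 84) (nat_lit 64935275183) (nat_lit 45) (nat_lit 5) (nat_lit 50) (nat_lit 5) (nat_lit 46) (nat_lit 5) (nat_lit 413) (nat_lit 378) (nat_lit 97)) (XT.lf (nat_lit 0) (nat_lit 5477818622) (nat_lit 420) (nat_lit 2703708442) (nat_lit 84)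 (nat_lit 90216238418) (nat_lit 45) (nat_lit 5) (nat_lit 50) (nat_lit 5) (nat_lit 46) (nat_lit 5) (nat_lit 414) (nat_lit 378) (nat_lit 96)))) (XT.nd (nat_lit 94) (nat_lit 0) (nat_lit 0) (XT.lf (nat_lit 0) (nat_lit 11525177575) (nat_lit 504) (nat_lit 73254593824) (nat_lit 84) (nat_lit 15722421853) (nat_lit 40) (nat_lit 5) (nat_lit 46) (nat_lit 5) (nat_lit 41) (nat_lit 5) (nat_lit 415) (nat_lit 378) (nat_lit 95)) (XT.nd (nat_lit 94) (nat_lit 0) (nat_lit 0) (XT.lf (nat_lit 0) (nat_lit 17871902645) (nat_lit 504) (nat_lit 44570552748) (nat_lit 84) (nat_lit 40225935837) (nat_lit 40) (nat_lit 5) (nat_lit 46) (nat_lit 5) (nat_lit 41) (nat_lit 5) (nat_lit 416) (nat_lit 378) (nat_lit 94)) (XT.lf (nat_lit 0) (nat_lit 24415095306) (nat_lit 504) (nat_lit 14997614789) (nat_lit 84) (nat_lit 65489041687) (nat_lit 40) (nat_lit 5) (nat_lit 46) (nat_lit 5) (nat_lit 41) (nat_lit 5) (nat_lit 417) (nat_lit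 378) (nat_lit 93))))) (XT.nd (nat_lit 282) (nat_lit 336) (nat_lit 0) (XT.nd (nat_lit 94) (nat_lit 0) (nat_lit 0) (XT.lf (nat_lit 0) (nat_lit 15810328004) (nat_lit 336) (nat_lit 15507366908) (nat_lit 420) (nat_lit 75881799673) (nat_lit 36) (nat_lit 5) (nat_lit 40) (nat_lit 5) (nat_lit 41) (nat_lit 5) (nat_lit 418) (nat_lit 378) (nat_lit 92)) (XT.nd (nat_lit 94) (nat_lit 0) (nat_lit 0) (XT.lf (nat_lit 0) (nat_lit 38682813480) (nat_lit 420) (nat_lit 61764923185) (nat_lit 84) (nat_lit 9113027688) (nat_lit 36) (nat_lit 5) (nat_lit 41) (nat_lit 5) (nat_lit 37) (nat_lit 5) (nat_lit 419) (nat_lit 378) (nat_lit 91)) (XT.lf (nat_lit 0) (nat_lit 46434595179) (nat_lit 420) (nat_lit 31381228650) (nat_lit 84) (nat_lit 34174502557) (nat_lit 36) (nat_lit 5) (nat_lit 41) (nat_lit 5) (nat_lit 37) (nat_lit 5) (nat_lit 420) (nat_lit 378) (nat_lit 90)))) (XT.nd (nat_lit 94) (nat_lit 336) (nat_lit 0)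 (XT.lf (nat_lit 0) (nat_lit 54426430481) (nat_lit 420) (nat_lit 55927190) (nat_lit 84) (nat_lit 60012856503) (nat_lit 36) (nat_lit 5) (nat_lit 41) (nat_lit 5) (nat_lit 37) (nat_lit 5) (nat_lit 421) (nat_lit 378) (nat_lit 89)) (XT.nd (nat_lit 94) (nat_lit 0) (nat_lit 0) (XT.lf (nat_lit 0) (nat_lit 32903103873) (nat_lit 336) (nat_lit 30089067605) (nat_lit 420) (nat_lit 54075472569) (nat_lit 32) (nat_lit 5) (nat_lit 36) (nat_lit 5) (nat_lit 37) (nat_lit 5) (nat_lit 422) (nat_lit 378) (nat_lit 88)) (XT.lf (nat_lit 0) (nat_lit 66884774393) (nat_lit 336) (nat_lit 4939020354) (nat_lit 420) (nat_lit 47896015267) (nat_lit 32) (nat_lit 5) (nat_lit 36) (nat_lit 5) (nat_lit 37) (nat_lit 5) (nat_lit 423) (nat_lit 378) (nat_lit 87)))))) (XT.nd (nat_lit 564) (nat_lit 84) (nat_lit 0) (XT.nd (nat_lit 282) (nat_lit 252) (nat_lit 0) (XT.nd (nat_lit 94) (nat_lit 252) (nat_lit 0) (XT.lf (nat_lit 0) (nat_lit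 81137195850) (nat_lit 420) (nat_lit 20742822632) (nat_lit 84) (nat_lit 20567728119) (nat_lit 32) (nat_lit 5) (nat_lit 37) (nat_lit 5) (nat_lit 33) (nat_lit 5) (nat_lit 424) (nat_lit 378) (nat_lit 86)) (XT.nd (nat_lit 94) (nat_lit 0) (nat_lit 0) (XT.lf (nat_lit 0) (nat_lit 12546245510) (nat_lit 252) (nat_lit 78367816121) (nat_lit 336) (nat_lit 34340771720) (nat_lit 29) (nat_lit 5) (nat_lit 32) (nat_lit 5) (nat_lit 33) (nat_lit 5) (nat_lit 425) (nat_lit 378) (nat_lit 85)) (XT.lf (nat_lit 0) (nat_lit 47306746642) (nat_lit 252) (nat_lit 53903554669) (nat_lit 336) (nat_lit 26931934773) (nat_lit 29) (nat_lit 5) (nat_lit 32) (nat_lit 5) (nat_lit 33) (nat_lit 5) (nat_lit 426) (nat_lit 378) (nat_lit 84)))) (XT.nd (nat_lit 94) (nat_lit 252) (nat_lit 0) (XT.lf (nat_lit 0) (nat_lit 83144566214) (nat_lit 252) (nat_lit 28680943398) (nat_lit 336) (nat_lit 19293646624) (nat_lit 29) (nat_lit 5) (nat_lit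 32) (nat_lit 5) (nat_lit 33) (nat_lit 5) (nat_lit 427) (nat_lit 378) (nat_lit 83)) (XT.nd (nat_lit 94) (nat_lit 252) (nat_lit 0) (XT.lf (nat_lit 0) (nat_lit 120093108829) (nat_lit 252) (nat_lit 2676472192) (nat_lit 336) (nat_lit 11418787588) (nat_lit 29) (nat_lit 5) (nat_lit 32) (nat_lit 5) (nat_lit 33) (nat_lit 5) (nat_lit 428) (nat_lit 378) (nat_lit 82)) (XT.lf (nat_lit 0) (nat_lit 21018135723) (nat_lit 252) (nat_lit 113482496580) (nat_lit 336) (nat_lit 2838216337) (nat_lit 26) (nat_lit 5) (nat_lit 29) (nat_lit 5) (nat_lit 30) (nat_lit 5) (nat_lit 429) (nat_lit 378) (nat_lit 81))))) (XT.nd (nat_lit 50948) (nat_lit 0) (nat_lit 4704) (XT.nd (nat_lit 94) (nat_lit 0) (nat_lit 0) (XT.lf (nat_lit 0) (nat_lit 6063100062) (nat_lit 336) (nat_lit 83152308137) (nat_lit 84) (nat_lit 51364288900) (nat_lit 25) (nat_lit 5) (nat_lit 29) (nat_lit 5) (nat_lit 26) (nat_lit 5) (nat_lit 430) (nat_lit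 378) (nat_lit 80)) (XT.nd (nat_lit 94) (nat_lit 0) (nat_lit 0) (XT.lf (nat_lit 0) (nat_lit 15181204905) (nat_lit 336) (nat_lit 48984955215) (nat_lit 84) (nat_lit 79753959032) (nat_lit 25) (nat_lit 5) (nat_lit 29) (nat_lit 5) (nat_lit 26) (nat_lit 5) (nat_lit 431) (nat_lit 378) (nat_lit 79)) (XT.lf (nat_lit 0) (nat_lit 24581780953) (nat_lit 336) (nat_lit 13758651143) (nat_lit 84) (nat_lit 109023669147) (nat_lit 25) (nat_lit 5) (nat_lit 29) (nat_lit 5) (nat_lit 26) (nat_lit 5) (nat_lit 432) (nat_lit 378) (nat_lit 78)))) (XT.nd (nat_lit 188) (nat_lit 0) (nat_lit 0) (XT.nd (nat_lit 94) (nat_lit 0) (nat_lit 0) (XT.lf (nat_lit 0) (nat_lit 11224300842) (nat_lit 0) (nat_lit 11224300842) (nat_lit 924) (nat_lit 3853159001) (nat_lit 81) (nat_lit 5) (nat_lit 81) (nat_lit 3) (nat_lit 92) (nat_lit 3) (nat_lit 379) (nat_lit 379) (nat_lit 130)) (XT.lf (nat_lit 0) (nat_lit 40046350872) (nat_lit 0)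 (nat_lit 5564974984) (nat_lit 924) (nat_lit 7806852470) (nat_lit 81) (nat_lit 5) (nat_lit 81) (nat_lit 3) (nat_lit 92) (nat_lit 3) (nat_lit 380) (nat_lit 379) (nat_lit 129))) (XT.nd (nat_lit 94) (nat_lit 0) (nat_lit 0) (XT.lf (nat_lit 84) (nat_lit 3892084153) (nat_lit 0) (nat_lit 42610856112) (nat_lit 1008) (nat_lit 7750338761) (nat_lit 82) (nat_lit 5) (nat_lit 81) (nat_lit 5) (nat_lit 93) (nat_lit 5) (nat_lit 381) (nat_lit 379) (nat_lit 128)) (XT.lf (nat_lit 84) (nat_lit 21916171088) (nat_lit 0) (nat_lit 25701226131) (nat_lit 1008) (nat_lit 7490824549) (nat_lit 82) (nat_lit 5) (nat_lit 81) (nat_lit 5) (nat_lit 93) (nat_lit 5) (nat_lit 382) (nat_lit 379) (nat_lit 127))))))) (XT.nd (nat_lit 1222) (nat_lit 1428) (nat_lit 0) (XT.nd (nat_lit 564) (nat_lit 756) (nat_lit 0) (XT.nd (nat_lit 282) (nat_lit 0) (nat_lit 84) (XT.nd (nat_lit 94) (nat_lit 0) (nat_lit 84) (XT.lf (nat_lit 84) (nat_lit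 40498621863) (nat_lit 0) (nat_lit 8267089561) (nat_lit 1008) (nat_lit 7223982767) (nat_lit 82) (nat_lit 5) (nat_lit 81) (nat_lit 5) (nat_lit 93) (nat_lit 5) (nat_lit 383) (nat_lit 379) (nat_lit 126)) (XT.nd (nat_lit 94) (nat_lit 0) (nat_lit 0) (XT.lf (nat_lit 84) (nat_lit 2716671606) (nat_lit 0) (nat_lit 47355533963) (nat_lit 1008) (nat_lit 6822491531) (nat_lit 83) (nat_lit 5) (nat_lit 82) (nat_lit 5) (nat_lit 94) (nat_lit 5) (nat_lit 384) (nat_lit 379) (nat_lit 125)) (XT.lf (nat_lit 84) (nat_lit 21730570817) (nat_lit 0) (nat_lit 29933371054) (nat_lit 1008) (nat_lit 6156231003) (nat_lit 83) (nat_lit 5) (nat_lit 82) (nat_lit 5) (nat_lit 94) (nat_lit 5) (nat_lit 385) (nat_lit 379) (nat_lit 124)))) (XT.nd (nat_lit 94) (nat_lit 0) (nat_lit 84) (XT.lf (nat_lit 84) (nat_lit 41333516888) (nat_lit 0) (nat_lit 11970873644) (nat_lit 1008) (nat_lit 5469972038) (nat_lit 83) (nat_lit 5) (nat_lit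 82) (nat_lit 5) (nat_lit 94) (nat_lit 5) (nat_lit 386) (nat_lit 379) (nat_lit 123)) (XT.nd (nat_lit 94) (nat_lit 0) (nat_lit 0) (XT.lf (nat_lit 84) (nat_lit 1756042643) (nat_lit 0) (nat_lit 53321422067) (nat_lit 1008) (nat_lit 4678136977) (nat_lit 84) (nat_lit 5) (nat_lit 83) (nat_lit 5) (nat_lit 95) (nat_lit 5) (nat_lit 387) (nat_lit 379) (nat_lit 122)) (XT.lf (nat_lit 84) (nat_lit 21792425637) (nat_lit 0) (nat_lit 35415723889) (nat_lit 1008) (nat_lit 3549732011) (nat_lit 84) (nat_lit 5) (nat_lit 83) (nat_lit 5) (nat_lit 95) (nat_lit 5) (nat_lit 388) (nat_lit 379) (nat_lit 121))))) (XT.nd (nat_lit 282) (nat_lit 0) (nat_lit 0) (XT.nd (nat_lit 94) (nat_lit 924) (nat_lit 0) (XT.lf (nat_lit 84) (nat_lit 42449554094) (nat_lit 0) (nat_lit 16954753722) (nat_lit 1008) (nat_lit 2386946353) (nat_lit 84) (nat_lit 5) (nat_lit 83) (nat_lit 5) (nat_lit 95) (nat_lit 5) (nat_lit 389) (nat_lit 379)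 (nat_lit 120)) (XT.nd (nat_lit 94) (nat_lit 1008) (nat_lit 0) (XT.lf (nat_lit 84) (nat_lit 887255118) (nat_lit 0) (nat_lit 60810154115) (nat_lit 1008) (nat_lit 1158361460) (nat_lit 85) (nat_lit 5) (nat_lit 84) (nat_lit 5) (nat_lit 96) (nat_lit 5) (nat_lit 390) (nat_lit 379) (nat_lit 119)) (XT.lf (nat_lit 0) (nat_lit 482932100) (nat_lit 1008) (nat_lit 41970638920) (nat_lit 1092) (nat_lit 21488005783) (nat_lit 72) (nat_lit 5) (nat_lit 84) (nat_lit 5) (nat_lit 85) (nat_lit 5) (nat_lit 391) (nat_lit 379) (nat_lit 118)))) (XT.nd (nat_lit 188) (nat_lit 0) (nat_lit 84) (XT.nd (nat_lit 94) (nat_lit 0) (nat_lit 0) (XT.lf (nat_lit 0) (nat_lit 2150505529) (nat_lit 1008) (nat_lit 21365068692) (nat_lit 1092) (nat_lit 41545121818) (nat_lit 72) (nat_lit 5) (nat_lit 84) (nat_lit 5) (nat_lit 85) (nat_lit 5) (nat_lit 392) (nat_lit 379) (nat_lit 117)) (XT.lf (nat_lit 0) (nat_lit 3869251581) (nat_lit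 1008) (nat_lit 121107252) (nat_lit 1092) (nat_lit 62224168927) (nat_lit 72) (nat_lit 5) (nat_lit 84) (nat_lit 5) (nat_lit 85) (nat_lit 5) (nat_lit 393) (nat_lit 379) (nat_lit 116))) (XT.nd (nat_lit 94) (nat_lit 0) (nat_lit 0) (XT.lf (nat_lit 0) (nat_lit 6023654703) (nat_lit 1008) (nat_lit 45330770401) (nat_lit 1092) (nat_lit 16037852998) (nat_lit 73) (nat_lit 5) (nat_lit 85) (nat_lit 5) (nat_lit 86) (nat_lit 5) (nat_lit 394) (nat_lit 379) (nat_lit 115)) (XT.lf (nat_lit 0) (nat_lit 8286439763) (nat_lit 1008) (nat_lit 23713359556) (nat_lit 1092) (nat_lit 36605453317) (nat_lit 73) (nat_lit 5) (nat_lit 85) (nat_lit 5) (nat_lit 86) (nat_lit 5) (nat_lit 395) (nat_lit 379) (nat_lit 114)))))) (XT.nd (nat_lit 564) (nat_lit 924) (nat_lit 0) (XT.nd (nat_lit 282) (nat_lit 588) (nat_lit 0) (XT.nd (nat_lit 94) (nat_lit 0) (nat_lit 84) (XT.lf (nat_lit 0) (nat_lit 10618892418) (nat_lit 1008) (nat_lit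 1426183616) (nat_lit 1092) (nat_lit 57810771474) (nat_lit 73) (nat_lit 5) (nat_lit 85) (nat_lit 5) (nat_lit 86) (nat_lit 5) (nat_lit 396) (nat_lit 379) (nat_lit 113)) (XT.nd (nat_lit 94) (nat_lit 0) (nat_lit 0) (XT.lf (nat_lit 0) (nat_lit 13328210462) (nat_lit 1008) (nat_lit 49230623232) (nat_lit 84) (nat_lit 8576938974) (nat_lit 74) (nat_lit 5) (nat_lit 86) (nat_lit 5) (nat_lit 75) (nat_lit 5) (nat_lit 397) (nat_lit 379) (nat_lit 112)) (XT.lf (nat_lit 0) (nat_lit 16259295824) (nat_lit 1008) (nat_lit 26588648716) (nat_lit 84) (nat_lit 29603162929) (nat_lit 74) (nat_lit 5) (nat_lit 86) (nat_lit 5) (nat_lit 75) (nat_lit 5) (nat_lit 398) (nat_lit 379) (nat_lit 111)))) (XT.nd (nat_lit 94) (nat_lit 672) (nat_lit 0) (XT.lf (nat_lit 0) (nat_lit 19280805436) (nat_lit 1008) (nat_lit 3245139426) (nat_lit 84) (nat_lit 51281289406) (nat_lit 74) (nat_lit 5) (nat_lit 86) (nat_lit 5) (nat_lit 75)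 (nat_lit 5) (nat_lit 399) (nat_lit 379) (nat_lit 110)) (XT.nd (nat_lit 94) (nat_lit 0) (nat_lit 0) (XT.lf (nat_lit 0) (nat_lit 21249799332) (nat_lit 672) (nat_lit 1356556968) (nat_lit 756) (nat_lit 52592525999) (nat_lit 66) (nat_lit 5) (nat_lit 74) (nat_lit 5) (nat_lit 75) (nat_lit 5) (nat_lit 400) (nat_lit 379) (nat_lit 109)) (XT.lf (nat_lit 0) (nat_lit 26271857889) (nat_lit 756) (nat_lit 30263515400) (nat_lit 84) (nat_lit 20090958332) (nat_lit 66) (nat_lit 5) (nat_lit 75) (nat_lit 5) (nat_lit 67) (nat_lit 5) (nat_lit 401) (nat_lit 379) (nat_lit 108))))) (XT.nd (nat_lit 282) (nat_lit 420) (nat_lit 0) (XT.nd (nat_lit 94) (nat_lit 504) (nat_lit 0) (XT.lf (nat_lit 0) (nat_lit 30064460713) (nat_lit 756) (nat_lit 5857926764) (nat_lit 84) (nat_lit 42175229542) (nat_lit 66) (nat_lit 5) (nat_lit 75) (nat_lit 5) (nat_lit 67) (nat_lit 5) (nat_lit 402) (nat_lit 379) (nat_lit 107)) (XT.nd (nat_lit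 94) (nat_lit 0) (nat_lit 0) (XT.lf (nat_lit 0) (nat_lit 19700816262) (nat_lit 504) (nat_lit 14468860936) (nat_lit 588) (nat_lit 45438791389) (nat_lit 60) (nat_lit 5) (nat_lit 66) (nat_lit 5) (nat_lit 67) (nat_lit 5) (nat_lit 403) (nat_lit 379) (nat_lit 106)) (XT.lf (nat_lit 0) (nat_lit 38539428929) (nat_lit 588) (nat_lit 35065065105) (nat_lit 84) (nat_lit 7557409613) (nat_lit 60) (nat_lit 5) (nat_lit 67) (nat_lit 5) (nat_lit 61) (nat_lit 5) (nat_lit 404) (nat_lit 379) (nat_lit 105)))) (XT.nd (nat_lit 188) (nat_lit 0) (nat_lit 0) (XT.nd (nat_lit 94) (nat_lit 420) (nat_lit 0) (XT.lf (nat_lit 0) (nat_lit 43192254094) (nat_lit 588) (nat_lit 9600687082) (nat_lit 84) (nat_lit 29965980570) (nat_lit 60) (nat_lit 5) (nat_lit 67) (nat_lit 5) (nat_lit 61) (nat_lit 5) (nat_lit 405) (nat_lit 379) (nat_lit 104)) (XT.lf (nat_lit 0) (nat_lit 16995164797) (nat_lit 420) (nat_lit 31162386062) (nat_lit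 504) (nat_lit 36242683714) (nat_lit 55) (nat_lit 5) (nat_lit 60) (nat_lit 5) (nat_lit 61) (nat_lit 5) (nat_lit 406) (nat_lit 379) (nat_lit 103))) (XT.nd (nat_lit 94) (nat_lit 0) (nat_lit 0) (XT.lf (nat_lit 0) (nat_lit 44618684458) (nat_lit 420) (nat_lit 8757946255) (nat_lit 504) (nat_lit 32712704109) (nat_lit 55) (nat_lit 5) (nat_lit 60) (nat_lit 5) (nat_lit 61) (nat_lit 5) (nat_lit 407) (nat_lit 379) (nat_lit 102)) (XT.lf (nat_lit 0) (nat_lit 58899425041) (nat_lit 504) (nat_lit 14874864955) (nat_lit 84) (nat_lit 14052109848) (nat_lit 55) (nat_lit 5) (nat_lit 61) (nat_lit 5) (nat_lit 56) (nat_lit 5) (nat_lit 408) (nat_lit 379) (nat_lit 101))))))))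
noncomputable def xc233 : XT := (XT.nd (nat_lit 53110) (nat_lit 0) (nat_lit 2940) (XT.nd (nat_lit 1128) (nat_lit 924) (nat_lit 0) (XT.nd (nat_lit 564) (nat_lit 756) (nat_lit 0) (XT.nd (nat_lit 282) (nat_lit 420) (nat_lit 0) (XT.nd (nat_lit 94) (nat_lit 0) (nat_lit 0) (XT.lf (nat_lit 0) (nat_lit 12711600953) (nat_lit 420) (nat_lit 52097167355) (nat_lit 504) (nat_lit 24801872172) (nat_lit 50) (nat_lit 5) (nat_lit 55) (nat_lit 5) (nat_lit 56) (nat_lit 5) (nat_lit 409) (nat_lit 379) (nat_lit 100)) (XT.nd (nat_lit 94) (nat_lit 0) (nat_lit 0) (XT.lf (nat_lit 0) (nat_lit 41468263837) (nat_lit 420) (nat_lit 29587975701) (nat_lit 504) (nat_lit 20389152094) (nat_lit 50) (nat_lit 5) (nat_lit 55) (nat_lit 5) (nat_lit 56) (nat_lit 5) (nat_lit 410) (nat_lit 379) (nat_lit 99)) (XT.lf (nat_lit 0) (nat_lit 71116070186) (nat_lit 420) (nat_lit 6380997192) (nat_lit 504) (nat_lit 15839964535) (nat_lit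 50) (nat_lit 5) (nat_lit 55) (nat_lit 5) (nat_lit 56) (nat_lit 5) (nat_lit 411) (nat_lit 379) (nat_lit 98)))) (XT.nd (nat_lit 94) (nat_lit 84) (nat_lit 0) (XT.lf (nat_lit 0) (nat_lit 6349200026) (nat_lit 336) (nat_lit 78025092714) (nat_lit 420) (nat_lit 10905683631) (nat_lit 46) (nat_lit 5) (nat_lit 50) (nat_lit 5) (nat_lit 51) (nat_lit 5) (nat_lit 412) (nat_lit 379) (nat_lit 97)) (XT.nd (nat_lit 94) (nat_lit 84) (nat_lit 0) (XT.lf (nat_lit 0) (nat_lit 36209192998) (nat_lit 336) (nat_lit 55551762807) (nat_lit 420) (nat_lit 5513014704) (nat_lit 46) (nat_lit 5) (nat_lit 50) (nat_lit 5) (nat_lit 51) (nat_lit 5) (nat_lit 413) (nat_lit 379) (nat_lit 96)) (XT.lf (nat_lit 0) (nat_lit 45588257) (nat_lit 420) (nat_lit 32335707758) (nat_lit 84) (nat_lit 66948479041) (nat_lit 45) (nat_lit 5) (nat_lit 50) (nat_lit 5) (nat_lit 46) (nat_lit 5) (nat_lit 414) (nat_lit 379) (nat_lit 95))))) (XT.nd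 (nat_lit 282) (nat_lit 336) (nat_lit 0) (XT.nd (nat_lit 94) (nat_lit 420) (nat_lit 0) (XT.lf (nat_lit 0) (nat_lit 5661703262) (nat_lit 420) (nat_lit 2772723193) (nat_lit 84) (nat_lit 93013145812) (nat_lit 45) (nat_lit 5) (nat_lit 50) (nat_lit 5) (nat_lit 46) (nat_lit 5) (nat_lit 415) (nat_lit 379) (nat_lit 94)) (XT.nd (nat_lit 94) (nat_lit 0) (nat_lit 0) (XT.lf (nat_lit 0) (nat_lit 11896261042) (nat_lit 504) (nat_lit 75510331656) (nat_lit 84) (nat_lit 16210655585) (nat_lit 40) (nat_lit 5) (nat_lit 46) (nat_lit 5) (nat_lit 41) (nat_lit 5) (nat_lit 416) (nat_lit 379) (nat_lit 93)) (XT.lf (nat_lit 0) (nat_lit 18439319563) (nat_lit 504) (nat_lit 45937540973) (nat_lit 84) (nat_lit 41473753286) (nat_lit 40) (nat_lit 5) (nat_lit 46) (nat_lit 5) (nat_lit 41) (nat_lit 5) (nat_lit 417) (nat_lit 379) (nat_lit 92)))) (XT.nd (nat_lit 94) (nat_lit 336) (nat_lit 0) (XT.lf (nat_lit 0) (nat_lit 25184948651)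 (nat_lit 504) (nat_lit 15448283902) (nat_lit 84) (nat_lit 67519990959) (nat_lit 40) (nat_lit 5) (nat_lit 46) (nat_lit 5) (nat_lit 41) (nat_lit 5) (nat_lit 418) (nat_lit 379) (nat_lit 91)) (XT.nd (nat_lit 94) (nat_lit 0) (nat_lit 0) (XT.lf (nat_lit 0) (nat_lit 16314560778) (nat_lit 336) (nat_lit 15986717621) (nat_lit 420) (nat_lit 78220928112) (nat_lit 36) (nat_lit 5) (nat_lit 40) (nat_lit 5) (nat_lit 41) (nat_lit 5) (nat_lit 419) (nat_lit 379) (nat_lit 90)) (XT.lf (nat_lit 0) (nat_lit 39894345986) (nat_lit 420) (nat_lit 63665502588) (nat_lit 84) (nat_lit 9396840862) (nat_lit 36) (nat_lit 5) (nat_lit 41) (nat_lit 5) (nat_lit 37) (nat_lit 5) (nat_lit 420) (nat_lit 379) (nat_lit 89)))))) (XT.nd (nat_lit 564) (nat_lit 336) (nat_lit 0) (XT.nd (nat_lit 282) (nat_lit 252) (nat_lit 0) (XT.nd (nat_lit 94) (nat_lit 336) (nat_lit 0) (XT.lf (nat_lit 0) (nat_lit 47886061119) (nat_lit 420) (nat_lit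 32340338478) (nat_lit 84) (nat_lit 35235182084) (nat_lit 36) (nat_lit 5) (nat_lit 41) (nat_lit 5) (nat_lit 37) (nat_lit 5) (nat_lit 421) (nat_lit 379) (nat_lit 88)) (XT.nd (nat_lit 94) (nat_lit 336) (nat_lit 0) (XT.lf (nat_lit 0) (nat_lit 56125282697) (nat_lit 420) (nat_lit 44364851) (nat_lit 84) (nat_lit 61874486818) (nat_lit 36) (nat_lit 5) (nat_lit 41) (nat_lit 5) (nat_lit 37) (nat_lit 5) (nat_lit 422) (nat_lit 379) (nat_lit 87)) (XT.lf (nat_lit 0) (nat_lit 33936261564) (nat_lit 336) (nat_lit 31020080888) (nat_lit 420) (nat_lit 55739976038) (nat_lit 32) (nat_lit 5) (nat_lit 36) (nat_lit 5) (nat_lit 37) (nat_lit 5) (nat_lit 423) (nat_lit 379) (nat_lit 86)))) (XT.nd (nat_lit 94) (nat_lit 252) (nat_lit 0) (XT.lf (nat_lit 0) (nat_lit 68970968132) (nat_lit 336) (nat_lit 5090434726) (nat_lit 420) (nat_lit 49369311448) (nat_lit 32) (nat_lit 5) (nat_lit 36) (nat_lit 5) (nat_lit 37) (nat_lit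 5) (nat_lit 424) (nat_lit 379) (nat_lit 85)) (XT.nd (nat_lit 94) (nat_lit 252) (nat_lit 0) (XT.lf (nat_lit 0) (nat_lit 83663202840) (nat_lit 420) (nat_lit 21373087055) (nat_lit 84) (nat_lit 21206938849) (nat_lit 32) (nat_lit 5) (nat_lit 37) (nat_lit 5) (nat_lit 33) (nat_lit 5) (nat_lit 425) (nat_lit 379) (nat_lit 84)) (XT.lf (nat_lit 0) (nat_lit 12947812986) (nat_lit 252) (nat_lit 80795140458) (nat_lit 336) (nat_lit 35394389823) (nat_lit 29) (nat_lit 5) (nat_lit 32) (nat_lit 5) (nat_lit 33) (nat_lit 5) (nat_lit 426) (nat_lit 379) (nat_lit 83))))) (XT.nd (nat_lit 282) (nat_lit 336) (nat_lit 0) (XT.nd (nat_lit 94) (nat_lit 0) (nat_lit 0) (XT.lf (nat_lit 0) (nat_lit 48785509779) (nat_lit 252) (nat_lit 55572549380) (nat_lit 336) (nat_lit 27756208048) (nat_lit 29) (nat_lit 5) (nat_lit 32) (nat_lit 5) (nat_lit 33) (nat_lit 5) (nat_lit 427) (nat_lit 379) (nat_lit 82)) (XT.nd (nat_lit 94)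 (nat_lit 0) (nat_lit 0) (XT.lf (nat_lit 0) (nat_lit 85733933306) (nat_lit 252) (nat_lit 29568097761) (nat_lit 336) (nat_lit 19881452188) (nat_lit 29) (nat_lit 5) (nat_lit 32) (nat_lit 5) (nat_lit 33) (nat_lit 5) (nat_lit 428) (nat_lit 379) (nat_lit 81)) (XT.lf (nat_lit 0) (nat_lit 123827523368) (nat_lit 252) (nat_lit 2757546727) (nat_lit 336) (nat_lit 11762782146) (nat_lit 29) (nat_lit 5) (nat_lit 32) (nat_lit 5) (nat_lit 33) (nat_lit 5) (nat_lit 429) (nat_lit 379) (nat_lit 80)))) (XT.nd (nat_lit 188) (nat_lit 0) (nat_lit 0) (XT.nd (nat_lit 94) (nat_lit 84) (nat_lit 0) (XT.lf (nat_lit 0) (nat_lit 21681442958) (nat_lit 252) (nat_lit 116998186151) (nat_lit 336) (nat_lit 2916374566) (nat_lit 26) (nat_lit 5) (nat_lit 29) (nat_lit 5) (nat_lit 30) (nat_lit 5) (nat_lit 430) (nat_lit 379) (nat_lit 79)) (XT.lf (nat_lit 0) (nat_lit 6260395151) (nat_lit 336) (nat_lit 85718393587) (nat_lit 84)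 (nat_lit 52958537268) (nat_lit 25) (nat_lit 5) (nat_lit 29) (nat_lit 5) (nat_lit 26) (nat_lit 5) (nat_lit 431) (nat_lit 379) (nat_lit 78))) (XT.nd (nat_lit 50854) (nat_lit 0) (nat_lit 4704) (XT.lf (nat_lit 0) (nat_lit 15660880440) (nat_lit 336) (nat_lit 50492202597) (nat_lit 84) (nat_lit 82228228379) (nat_lit 25) (nat_lit 5) (nat_lit 29) (nat_lit 5) (nat_lit 26) (nat_lit 5) (nat_lit 432) (nat_lit 379) (nat_lit 77)) (XT.lf (nat_lit 0) (nat_lit 11581271734) (nat_lit 0) (nat_lit 11581271734) (nat_lit 924) (nat_lit 3953881093) (nat_lit 81) (nat_lit 5) (nat_lit 81) (nat_lit 3) (nat_lit 92) (nat_lit 3) (nat_lit 380) (nat_lit 380) (nat_lit 128))))))) (XT.nd (nat_lit 1222) (nat_lit 1008) (nat_lit 0) (XT.nd (nat_lit 564) (nat_lit 756) (nat_lit 0) (XT.nd (nat_lit 282) (nat_lit 0) (nat_lit 0) (XT.nd (nat_lit 94) (nat_lit 0) (nat_lit 0) (XT.lf (nat_lit 0) (nat_lit 41305280603) (nat_lit 0) (nat_lit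 5754982063) (nat_lit 924) (nat_lit 8012539316) (nat_lit 81) (nat_lit 5) (nat_lit 81) (nat_lit 3) (nat_lit 92) (nat_lit 3) (nat_lit 381) (nat_lit 380) (nat_lit 127)) (XT.nd (nat_lit 94) (nat_lit 0) (nat_lit 0) (XT.lf (nat_lit 84) (nat_lit 4031552598) (nat_lit 0) (nat_lit 43946930900) (nat_lit 1008) (nat_lit 7955347026) (nat_lit 82) (nat_lit 5) (nat_lit 81) (nat_lit 5) (nat_lit 93) (nat_lit 5) (nat_lit 382) (nat_lit 380) (nat_lit 126)) (XT.lf (nat_lit 84) (nat_lit 22613820536) (nat_lit 0) (nat_lit 26512647213) (nat_lit 1008) (nat_lit 7688847834) (nat_lit 82) (nat_lit 5) (nat_lit 81) (nat_lit 5) (nat_lit 93) (nat_lit 5) (nat_lit 383) (nat_lit 380) (nat_lit 125)))) (XT.nd (nat_lit 94) (nat_lit 0) (nat_lit 84) (XT.lf (nat_lit 84) (nat_lit 41771778601) (nat_lit 0) (nat_lit 8537610921) (nat_lit 1008) (nat_lit 7414762047) (nat_lit 82) (nat_lit 5) (nat_lit 81) (nat_lit 5) (nat_lit 93) (nat_lit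 5) (nat_lit 384) (nat_lit 380) (nat_lit 124)) (XT.nd (nat_lit 94) (nat_lit 0) (nat_lit 0) (XT.lf (nat_lit 84) (nat_lit 2819759302) (nat_lit 0) (nat_lit 48835715454) (nat_lit 1008) (nat_lit 7001770033) (nat_lit 83) (nat_lit 5) (nat_lit 82) (nat_lit 5) (nat_lit 94) (nat_lit 5) (nat_lit 385) (nat_lit 380) (nat_lit 123)) (XT.lf (nat_lit 84) (nat_lit 22422521981) (nat_lit 0) (nat_lit 30873099871) (nat_lit 1008) (nat_lit 6315824178) (nat_lit 83) (nat_lit 5) (nat_lit 82) (nat_lit 5) (nat_lit 94) (nat_lit 5) (nat_lit 386) (nat_lit 380) (nat_lit 122))))) (XT.nd (nat_lit 282) (nat_lit 840) (nat_lit 0) (XT.nd (nat_lit 94) (nat_lit 0) (nat_lit 84) (XT.lf (nat_lit 84) (nat_lit 42632609034) (nat_lit 0) (nat_lit 12353410411) (nat_lit 1008) (nat_lit 5609230806) (nat_lit 83) (nat_lit 5) (nat_lit 82) (nat_lit 5) (nat_lit 94) (nat_lit 5) (nat_lit 387) (nat_lit 380) (nat_lit 121)) (XT.nd (nat_lit 94)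 (nat_lit 0) (nat_lit 0) (XT.lf (nat_lit 84) (nat_lit 1829271930) (nat_lit 0) (nat_lit 54983985574) (nat_lit 1008) (nat_lit 4793681513) (nat_lit 84) (nat_lit 5) (nat_lit 83) (nat_lit 5) (nat_lit 95) (nat_lit 5) (nat_lit 388) (nat_lit 380) (nat_lit 120)) (XT.lf (nat_lit 84) (nat_lit 22486217762) (nat_lit 0) (nat_lit 36522922118) (nat_lit 1008) (nat_lit 3631182326) (nat_lit 84) (nat_lit 5) (nat_lit 83) (nat_lit 5) (nat_lit 95) (nat_lit 5) (nat_lit 389) (nat_lit 380) (nat_lit 119)))) (XT.nd (nat_lit 188) (nat_lit 924) (nat_lit 0) (XT.nd (nat_lit 94) (nat_lit 0) (nat_lit 84) (XT.lf (nat_lit 84) (nat_lit 43783169156) (nat_lit 0) (nat_lit 17489381920) (nat_lit 1008) (nat_lit 2433209995) (nat_lit 84) (nat_lit 5) (nat_lit 83) (nat_lit 5) (nat_lit 95) (nat_lit 5) (nat_lit 390) (nat_lit 380) (nat_lit 118)) (XT.lf (nat_lit 84) (nat_lit 933360240) (nat_lit 0) (nat_lit 62702672915) (nat_lit 1008)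 (nat_lit 1167272155) (nat_lit 85) (nat_lit 5) (nat_lit 84) (nat_lit 5) (nat_lit 96) (nat_lit 5) (nat_lit 391) (nat_lit 380) (nat_lit 117))) (XT.nd (nat_lit 94) (nat_lit 0) (nat_lit 0) (XT.lf (nat_lit 0) (nat_lit 523562114) (nat_lit 1008) (nat_lit 43252983179) (nat_lit 1092) (nat_lit 22146247959) (nat_lit 72) (nat_lit 5) (nat_lit 84) (nat_lit 5) (nat_lit 85) (nat_lit 5) (nat_lit 392) (nat_lit 380) (nat_lit 116)) (XT.lf (nat_lit 0) (nat_lit 2242058803) (nat_lit 1008) (nat_lit 22009203913) (nat_lit 1092) (nat_lit 42825371707) (nat_lit 72) (nat_lit 5) (nat_lit 84) (nat_lit 5) (nat_lit 85) (nat_lit 5) (nat_lit 393) (nat_lit 380) (nat_lit 115)))))) (XT.nd (nat_lit 564) (nat_lit 1008) (nat_lit 0) (XT.nd (nat_lit 282) (nat_lit 0) (nat_lit 84) (XT.nd (nat_lit 94) (nat_lit 0) (nat_lit 84) (XT.lf (nat_lit 0) (nat_lit 4013337665) (nat_lit 1008) (nat_lit 107226360) (nat_lit 1092) (nat_lit 64145699262)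 (nat_lit 72) (nat_lit 5) (nat_lit 84) (nat_lit 5) (nat_lit 85) (nat_lit 5) (nat_lit 394) (nat_lit 380) (nat_lit 114)) (XT.nd (nat_lit 94) (nat_lit 0) (nat_lit 0) (XT.lf (nat_lit 0) (nat_lit 6233913829) (nat_lit 1008) (nat_lit 46717614102) (nat_lit 1092) (nat_lit 16529019983) (nat_lit 73) (nat_lit 5) (nat_lit 85) (nat_lit 5) (nat_lit 86) (nat_lit 5) (nat_lit 395) (nat_lit 380) (nat_lit 113)) (XT.lf (nat_lit 0) (nat_lit 8566137853) (nat_lit 1008) (nat_lit 24430617077) (nat_lit 1092) (nat_lit 37734396513) (nat_lit 73) (nat_lit 5) (nat_lit 85) (nat_lit 5) (nat_lit 86) (nat_lit 5) (nat_lit 396) (nat_lit 380) (nat_lit 112)))) (XT.nd (nat_lit 94) (nat_lit 0) (nat_lit 84) (XT.lf (nat_lit 0) (nat_lit 10970210437) (nat_lit 1008) (nat_lit 1453075593) (nat_lit 1092) (nat_lit 59597254704) (nat_lit 73) (nat_lit 5) (nat_lit 85) (nat_lit 5) (nat_lit 86) (nat_lit 5) (nat_lit 397) (nat_lit 380) (nat_lit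 111)) (XT.nd (nat_lit 94) (nat_lit 0) (nat_lit 0) (XT.lf (nat_lit 0) (nat_lit 13762977374) (nat_lit 1008) (nat_lit 50738765498) (nat_lit 84) (nat_lit 8838422011) (nat_lit 74) (nat_lit 5) (nat_lit 86) (nat_lit 5) (nat_lit 75) (nat_lit 5) (nat_lit 398) (nat_lit 380) (nat_lit 110)) (XT.lf (nat_lit 0) (nat_lit 16784277146) (nat_lit 1008) (nat_lit 27395431206) (nat_lit 84) (nat_lit 30516591268) (nat_lit 74) (nat_lit 5) (nat_lit 86) (nat_lit 5) (nat_lit 75) (nat_lit 5) (nat_lit 399) (nat_lit 380) (nat_lit 109))))) (XT.nd (nat_lit 282) (nat_lit 504) (nat_lit 0) (XT.nd (nat_lit 94) (nat_lit 672) (nat_lit 0) (XT.lf (nat_lit 0) (nat_lit 19898823839) (nat_lit 1008) (nat_lit 3328798282) (nat_lit 84) (nat_lit 52866868048) (nat_lit 74) (nat_lit 5) (nat_lit 86) (nat_lit 5) (nat_lit 75) (nat_lit 5) (nat_lit 400) (nat_lit 380) (nat_lit 108)) (XT.nd (nat_lit 94) (nat_lit 0) (nat_lit 0) (XT.lf (nat_lit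 0) (nat_lit 21925312070) (nat_lit 672) (nat_lit 1401710278) (nat_lit 756) (nat_lit 54202274888) (nat_lit 66) (nat_lit 5) (nat_lit 74) (nat_lit 5) (nat_lit 75) (nat_lit 5) (nat_lit 401) (nat_lit 380) (nat_lit 107)) (XT.lf (nat_lit 0) (nat_lit 27105527239) (nat_lit 756) (nat_lit 31184661947) (nat_lit 84) (nat_lit 20710831790) (nat_lit 66) (nat_lit 5) (nat_lit 75) (nat_lit 5) (nat_lit 67) (nat_lit 5) (nat_lit 402) (nat_lit 380) (nat_lit 106)))) (XT.nd (nat_lit 188) (nat_lit 0) (nat_lit 0) (XT.nd (nat_lit 94) (nat_lit 504) (nat_lit 0) (XT.lf (nat_lit 0) (nat_lit 31015122191) (nat_lit 756) (nat_lit 6023011891) (nat_lit 84) (nat_lit 43479803995) (nat_lit 66) (nat_lit 5) (nat_lit 75) (nat_lit 5) (nat_lit 67) (nat_lit 5) (nat_lit 403) (nat_lit 380) (nat_lit 105)) (XT.lf (nat_lit 0) (nat_lit 20327885014) (nat_lit 504) (nat_lit 14919316339) (nat_lit 588) (nat_lit 46828440864) (nat_lit 60)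 (nat_lit 5) (nat_lit 66) (nat_lit 5) (nat_lit 67) (nat_lit 5) (nat_lit 404) (nat_lit 380) (nat_lit 104))) (XT.nd (nat_lit 94) (nat_lit 0) (nat_lit 0) (XT.lf (nat_lit 0) (nat_lit 39751847742) (nat_lit 588) (nat_lit 36135543426) (nat_lit 84) (nat_lit 7789863882) (nat_lit 60) (nat_lit 5) (nat_lit 67) (nat_lit 5) (nat_lit 61) (nat_lit 5) (nat_lit 405) (nat_lit 380) (nat_lit 103)) (XT.lf (nat_lit 0) (nat_lit 44548378390) (nat_lit 588) (nat_lit 9882266968) (nat_lit 84) (nat_lit 30893155426) (nat_lit 60) (nat_lit 5) (nat_lit 67) (nat_lit 5) (nat_lit 61) (nat_lit 5) (nat_lit 406) (nat_lit 380) (nat_lit 102))))))))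
noncomputable def xc234 : XT := (XT.nd (nat_lit 2350) (nat_lit 84) (nat_lit 0) (XT.nd (nat_lit 1128) (nat_lit 1176) (nat_lit 0) (XT.nd (nat_lit 564) (nat_lit 840) (nat_lit 0) (XT.nd (nat_lit 282) (nat_lit 420) (nat_lit 0) (XT.nd (nat_lit 94) (nat_lit 0) (nat_lit 0) (XT.lf (nat_lit 0) (nat_lit 17537893915) (nat_lit 420) (nat_lit 32129346864) (nat_lit 504) (nat_lit 37348768117) (nat_lit 55) (nat_lit 5) (nat_lit 60) (nat_lit 5) (nat_lit 61) (nat_lit 5) (nat_lit 407) (nat_lit 380) (nat_lit 101)) (XT.nd (nat_lit 94) (nat_lit 0) (nat_lit 0) (XT.lf (nat_lit 0) (nat_lit 46017265237) (nat_lit 420) (nat_lit 9030341555) (nat_lit 504) (nat_lit 33709883493) (nat_lit 55) (nat_lit 5) (nat_lit 60) (nat_lit 5) (nat_lit 61) (nat_lit 5) (nat_lit 408) (nat_lit 380) (nat_lit 100)) (XT.lf (nat_lit 0) (nat_lit 60741108972) (nat_lit 504) (nat_lit 15320443193) (nat_lit 84) (nat_lit 14486870884) (nat_lit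 55) (nat_lit 5) (nat_lit 61) (nat_lit 5) (nat_lit 56) (nat_lit 5) (nat_lit 409) (nat_lit 380) (nat_lit 99)))) (XT.nd (nat_lit 94) (nat_lit 0) (nat_lit 0) (XT.lf (nat_lit 0) (nat_lit 13121045804) (nat_lit 420) (nat_lit 53712273574) (nat_lit 504) (nat_lit 25554668932) (nat_lit 50) (nat_lit 5) (nat_lit 55) (nat_lit 5) (nat_lit 56) (nat_lit 5) (nat_lit 410) (nat_lit 380) (nat_lit 98)) (XT.nd (nat_lit 94) (nat_lit 0) (nat_lit 0) (XT.lf (nat_lit 0) (nat_lit 42768702635) (nat_lit 420) (nat_lit 30505294151) (nat_lit 504) (nat_lit 21005637460) (nat_lit 50) (nat_lit 5) (nat_lit 55) (nat_lit 5) (nat_lit 56) (nat_lit 5) (nat_lit 411) (nat_lit 380) (nat_lit 97)) (XT.lf (nat_lit 0) (nat_lit 73335142289) (nat_lit 420) (nat_lit 6578896566) (nat_lit 504) (nat_lit 16315893495) (nat_lit 50) (nat_lit 5) (nat_lit 55) (nat_lit 5) (nat_lit 56) (nat_lit 5) (nat_lit 412) (nat_lit 380) (nat_lit 96))))) (XT.nd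 (nat_lit 282) (nat_lit 420) (nat_lit 0) (XT.nd (nat_lit 94) (nat_lit 84) (nat_lit 0) (XT.lf (nat_lit 0) (nat_lit 6560895496) (nat_lit 336) (nat_lit 80443271512) (nat_lit 420) (nat_lit 11228952997) (nat_lit 46) (nat_lit 5) (nat_lit 50) (nat_lit 5) (nat_lit 51) (nat_lit 5) (nat_lit 413) (nat_lit 380) (nat_lit 95)) (XT.nd (nat_lit 94) (nat_lit 84) (nat_lit 0) (XT.lf (nat_lit 0) (nat_lit 37346101132) (nat_lit 336) (nat_lit 57273286391) (nat_lit 420) (nat_lit 5669556543) (nat_lit 46) (nat_lit 5) (nat_lit 50) (nat_lit 5) (nat_lit 51) (nat_lit 5) (nat_lit 414) (nat_lit 380) (nat_lit 94)) (XT.lf (nat_lit 0) (nat_lit 60650632) (nat_lit 420) (nat_lit 33323759499) (nat_lit 84) (nat_lit 69024079761) (nat_lit 45) (nat_lit 5) (nat_lit 50) (nat_lit 5) (nat_lit 46) (nat_lit 5) (nat_lit 415) (nat_lit 380) (nat_lit 93)))) (XT.nd (nat_lit 94) (nat_lit 420) (nat_lit 0) (XT.lf (nat_lit 0) (nat_lit 5850454801)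 (nat_lit 420) (nat_lit 2844754044) (nat_lit 84) (nat_lit 95896745252) (nat_lit 45) (nat_lit 5) (nat_lit 50) (nat_lit 5) (nat_lit 46) (nat_lit 5) (nat_lit 416) (nat_lit 380) (nat_lit 92)) (XT.nd (nat_lit 94) (nat_lit 0) (nat_lit 0) (XT.lf (nat_lit 0) (nat_lit 12278030524) (nat_lit 504) (nat_lit 77836894992) (nat_lit 84) (nat_lit 16713974888) (nat_lit 40) (nat_lit 5) (nat_lit 46) (nat_lit 5) (nat_lit 41) (nat_lit 5) (nat_lit 417) (nat_lit 380) (nat_lit 91)) (XT.lf (nat_lit 0) (nat_lit 19023533416) (nat_lit 504) (nat_lit 47347776474) (nat_lit 84) (nat_lit 42760204894) (nat_lit 40) (nat_lit 5) (nat_lit 46) (nat_lit 5) (nat_lit 41) (nat_lit 5) (nat_lit 418) (nat_lit 380) (nat_lit 90)))))) (XT.nd (nat_lit 564) (nat_lit 504) (nat_lit 0) (XT.nd (nat_lit 282) (nat_lit 336) (nat_lit 0) (XT.nd (nat_lit 94) (nat_lit 336) (nat_lit 0) (XT.lf (nat_lit 0) (nat_lit 25977898302) (nat_lit 504) (nat_lit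 15913768221) (nat_lit 84) (nat_lit 69613852926) (nat_lit 40) (nat_lit 5) (nat_lit 46) (nat_lit 5) (nat_lit 41) (nat_lit 5) (nat_lit 419) (nat_lit 380) (nat_lit 89)) (XT.nd (nat_lit 94) (nat_lit 0) (nat_lit 0) (XT.lf (nat_lit 0) (nat_lit 16833588855) (nat_lit 336) (nat_lit 16481009807) (nat_lit 420) (nat_lit 80633351827) (nat_lit 36) (nat_lit 5) (nat_lit 40) (nat_lit 5) (nat_lit 41) (nat_lit 5) (nat_lit 420) (nat_lit 380) (nat_lit 88)) (XT.lf (nat_lit 0) (nat_lit 41142703582) (nat_lit 420) (nat_lit 65625837086) (nat_lit 84) (nat_lit 9689374691) (nat_lit 36) (nat_lit 5) (nat_lit 41) (nat_lit 5) (nat_lit 37) (nat_lit 5) (nat_lit 421) (nat_lit 380) (nat_lit 87)))) (XT.nd (nat_lit 94) (nat_lit 336) (nat_lit 0) (XT.lf (nat_lit 0) (nat_lit 49381812109) (nat_lit 420) (nat_lit 33329992674) (nat_lit 84) (nat_lit 36328667455) (nat_lit 36) (nat_lit 5) (nat_lit 41) (nat_lit 5) (nat_lit 37) (nat_lit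 5) (nat_lit 422) (nat_lit 380) (nat_lit 86)) (XT.nd (nat_lit 94) (nat_lit 336) (nat_lit 0) (XT.lf (nat_lit 0) (nat_lit 57876110296) (nat_lit 420) (nat_lit 33231630) (nat_lit 84) (nat_lit 63793754712) (nat_lit 36) (nat_lit 5) (nat_lit 41) (nat_lit 5) (nat_lit 37) (nat_lit 5) (nat_lit 423) (nat_lit 380) (nat_lit 85)) (XT.lf (nat_lit 0) (nat_lit 35000667567) (nat_lit 336) (nat_lit 31980059109) (nat_lit 420) (nat_lit 57456780191) (nat_lit 32) (nat_lit 5) (nat_lit 36) (nat_lit 5) (nat_lit 37) (nat_lit 5) (nat_lit 424) (nat_lit 380) (nat_lit 84))))) (XT.nd (nat_lit 282) (nat_lit 252) (nat_lit 0) (XT.nd (nat_lit 94) (nat_lit 252) (nat_lit 0) (XT.lf (nat_lit 0) (nat_lit 71121077741) (nat_lit 336) (nat_lit 5246643356) (nat_lit 420) (nat_lit 50888959808) (nat_lit 32) (nat_lit 5) (nat_lit 36) (nat_lit 5) (nat_lit 37) (nat_lit 5) (nat_lit 425) (nat_lit 380) (nat_lit 83)) (XT.nd (nat_lit 94)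 (nat_lit 252) (nat_lit 0) (XT.lf (nat_lit 0) (nat_lit 86266879074) (nat_lit 420) (nat_lit 22023645654) (nat_lit 84) (nat_lit 21865869680) (nat_lit 32) (nat_lit 5) (nat_lit 37) (nat_lit 5) (nat_lit 33) (nat_lit 5) (nat_lit 426) (nat_lit 380) (nat_lit 82)) (XT.lf (nat_lit 0) (nat_lit 13361080727) (nat_lit 252) (nat_lit 83297834930) (nat_lit 336) (nat_lit 36481318426) (nat_lit 29) (nat_lit 5) (nat_lit 32) (nat_lit 5) (nat_lit 33) (nat_lit 5) (nat_lit 427) (nat_lit 380) (nat_lit 81)))) (XT.nd (nat_lit 188) (nat_lit 252) (nat_lit 0) (XT.nd (nat_lit 94) (nat_lit 0) (nat_lit 0) (XT.lf (nat_lit 0) (nat_lit 50309388748) (nat_lit 252) (nat_lit 57293402308) (nat_lit 336) (nat_lit 28606662640) (nat_lit 29) (nat_lit 5) (nat_lit 32) (nat_lit 5) (nat_lit 33) (nat_lit 5) (nat_lit 428) (nat_lit 380) (nat_lit 80)) (XT.lf (nat_lit 0) (nat_lit 88402866776) (nat_lit 252) (nat_lit 30482869701) (nat_lit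 336) (nat_lit 20488089662) (nat_lit 29) (nat_lit 5) (nat_lit 32) (nat_lit 5) (nat_lit 33) (nat_lit 5) (nat_lit 429) (nat_lit 380) (nat_lit 79))) (XT.nd (nat_lit 94) (nat_lit 252) (nat_lit 0) (XT.lf (nat_lit 0) (nat_lit 127677021925) (nat_lit 252) (nat_lit 2841246882) (nat_lit 336) (nat_lit 12118032133) (nat_lit 29) (nat_lit 5) (nat_lit 32) (nat_lit 5) (nat_lit 33) (nat_lit 5) (nat_lit 430) (nat_lit 380) (nat_lit 78)) (XT.lf (nat_lit 0) (nat_lit 22364617038) (nat_lit 252) (nat_lit 120622996425) (nat_lit 336) (nat_lit 2997537740) (nat_lit 26) (nat_lit 5) (nat_lit 29) (nat_lit 5) (nat_lit 30) (nat_lit 5) (nat_lit 431) (nat_lit 380) (nat_lit 77))))))) (XT.nd (nat_lit 52076) (nat_lit 0) (nat_lit 2940) (XT.nd (nat_lit 51418) (nat_lit 0) (nat_lit 4788) (XT.nd (nat_lit 51136) (nat_lit 0) (nat_lit 4704) (XT.nd (nat_lit 50948) (nat_lit 0) (nat_lit 4704) (XT.lf (nat_lit 0) (nat_lit 6463253224)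 (nat_lit 336) (nat_lit 88364716912) (nat_lit 84) (nat_lit 54602091512) (nat_lit 25) (nat_lit 5) (nat_lit 29) (nat_lit 5) (nat_lit 26) (nat_lit 5) (nat_lit 432) (nat_lit 380) (nat_lit 76)) (XT.nd (nat_lit 94) (nat_lit 0) (nat_lit 0) (XT.lf (nat_lit 0) (nat_lit 11948774598) (nat_lit 0) (nat_lit 11948774598) (nat_lit 924) (nat_lit 4058834733) (nat_lit 81) (nat_lit 5) (nat_lit 81) (nat_lit 3) (nat_lit 92) (nat_lit 3) (nat_lit 381) (nat_lit 381) (nat_lit 126)) (XT.lf (nat_lit 0) (nat_lit 42602201025) (nat_lit 0) (nat_lit 5949843229) (nat_lit 924) (nat_lit 8226754081) (nat_lit 81) (nat_lit 5) (nat_lit 81) (nat_lit 3) (nat_lit 92) (nat_lit 3) (nat_lit 382) (nat_lit 381) (nat_lit 125)))) (XT.nd (nat_lit 94) (nat_lit 0) (nat_lit 0) (XT.lf (nat_lit 84) (nat_lit 4174230189) (nat_lit 0) (nat_lit 45323527341) (nat_lit 1008) (nat_lit 8168798597) (nat_lit 82) (nat_lit 5) (nat_lit 81) (nat_lit 5)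 (nat_lit 93) (nat_lit 5) (nat_lit 383) (nat_lit 381) (nat_lit 124)) (XT.nd (nat_lit 94) (nat_lit 0) (nat_lit 0) (XT.lf (nat_lit 84) (nat_lit 23332016247) (nat_lit 0) (nat_lit 27348352646) (nat_lit 1008) (nat_lit 7895035108) (nat_lit 82) (nat_lit 5) (nat_lit 81) (nat_lit 5) (nat_lit 93) (nat_lit 5) (nat_lit 384) (nat_lit 381) (nat_lit 123)) (XT.lf (nat_lit 84) (nat_lit 43083354829) (nat_lit 0) (nat_lit 8815674890) (nat_lit 1008) (nat_lit 7613419855) (nat_lit 82) (nat_lit 5) (nat_lit 81) (nat_lit 5) (nat_lit 93) (nat_lit 5) (nat_lit 385) (nat_lit 381) (nat_lit 122))))) (XT.nd (nat_lit 282) (nat_lit 0) (nat_lit 84) (XT.nd (nat_lit 94) (nat_lit 0) (nat_lit 0) (XT.lf (nat_lit 84) (nat_lit 2924924963) (nat_lit 0) (nat_lit 50361062317) (nat_lit 1008) (nat_lit 7188514540) (nat_lit 83) (nat_lit 5) (nat_lit 82) (nat_lit 5) (nat_lit 94) (nat_lit 5) (nat_lit 386) (nat_lit 381) (nat_lit 121))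 (XT.nd (nat_lit 94) (nat_lit 0) (nat_lit 0) (XT.lf (nat_lit 84) (nat_lit 23134839486) (nat_lit 0) (nat_lit 31841261684) (nat_lit 1008) (nat_lit 6482215732) (nat_lit 83) (nat_lit 5) (nat_lit 82) (nat_lit 5) (nat_lit 94) (nat_lit 5) (nat_lit 387) (nat_lit 381) (nat_lit 120)) (XT.lf (nat_lit 84) (nat_lit 43970921489) (nat_lit 0) (nat_lit 12747128226) (nat_lit 1008) (nat_lit 5754601931) (nat_lit 83) (nat_lit 5) (nat_lit 82) (nat_lit 5) (nat_lit 94) (nat_lit 5) (nat_lit 388) (nat_lit 381) (nat_lit 119)))) (XT.nd (nat_lit 188) (nat_lit 0) (nat_lit 0) (XT.nd (nat_lit 94) (nat_lit 0) (nat_lit 0) (XT.lf (nat_lit 84) (nat_lit 1903658246) (nat_lit 0) (nat_lit 56697519959) (nat_lit 1008) (nat_lit 4914553945) (nat_lit 84) (nat_lit 5) (nat_lit 83) (nat_lit 5) (nat_lit 95) (nat_lit 5) (nat_lit 389) (nat_lit 381) (nat_lit 118)) (XT.lf (nat_lit 84) (nat_lit 23200437832) (nat_lit 0) (nat_lit 37663891997)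 (nat_lit 1008) (nat_lit 3716851117) (nat_lit 84) (nat_lit 5) (nat_lit 83) (nat_lit 5) (nat_lit 95) (nat_lit 5) (nat_lit 390) (nat_lit 381) (nat_lit 117))) (XT.nd (nat_lit 94) (nat_lit 0) (nat_lit 84) (XT.lf (nat_lit 84) (nat_lit 45157079135) (nat_lit 0) (nat_lit 18040048680) (nat_lit 1008) (nat_lit 2482550405) (nat_lit 84) (nat_lit 5) (nat_lit 83) (nat_lit 5) (nat_lit 95) (nat_lit 5) (nat_lit 391) (nat_lit 381) (nat_lit 116)) (XT.lf (nat_lit 84) (nat_lit 979792898) (nat_lit 0) (nat_lit 64653421245) (nat_lit 1008) (nat_lit 1178058249) (nat_lit 85) (nat_lit 5) (nat_lit 84) (nat_lit 5) (nat_lit 96) (nat_lit 5) (nat_lit 392) (nat_lit 381) (nat_lit 115)))))) (XT.nd (nat_lit 564) (nat_lit 1008) (nat_lit 0) (XT.nd (nat_lit 282) (nat_lit 0) (nat_lit 84) (XT.nd (nat_lit 94) (nat_lit 0) (nat_lit 0) (XT.lf (nat_lit 0) (nat_lit 563931824) (nat_lit 1008) (nat_lit 44576190440) (nat_lit 1092) (nat_lit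 22825362745) (nat_lit 72) (nat_lit 5) (nat_lit 84) (nat_lit 5) (nat_lit 85) (nat_lit 5) (nat_lit 393) (nat_lit 381) (nat_lit 114)) (XT.nd (nat_lit 94) (nat_lit 0) (nat_lit 0) (XT.lf (nat_lit 0) (nat_lit 2334976094) (nat_lit 1008) (nat_lit 22674384271) (nat_lit 1092) (nat_lit 44145762399) (nat_lit 72) (nat_lit 5) (nat_lit 84) (nat_lit 5) (nat_lit 85) (nat_lit 5) (nat_lit 394) (nat_lit 381) (nat_lit 113)) (XT.lf (nat_lit 0) (nat_lit 4160460606) (nat_lit 1008) (nat_lit 93959724) (nat_lit 1092) (nat_lit 66127236472) (nat_lit 72) (nat_lit 5) (nat_lit 84) (nat_lit 5) (nat_lit 85) (nat_lit 5) (nat_lit 395) (nat_lit 381) (nat_lit 112)))) (XT.nd (nat_lit 94) (nat_lit 0) (nat_lit 0) (XT.lf (nat_lit 0) (nat_lit 6449297512) (nat_lit 1008) (nat_lit 48148540425) (nat_lit 1092) (nat_lit 17035768917) (nat_lit 73) (nat_lit 5) (nat_lit 85) (nat_lit 5) (nat_lit 86) (nat_lit 5) (nat_lit 396) (nat_lit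 381) (nat_lit 111)) (XT.nd (nat_lit 94) (nat_lit 0) (nat_lit 0) (XT.lf (nat_lit 0) (nat_lit 8853155008) (nat_lit 1008) (nat_lit 25171167259) (nat_lit 1092) (nat_lit 38898682023) (nat_lit 73) (nat_lit 5) (nat_lit 85) (nat_lit 5) (nat_lit 86) (nat_lit 5) (nat_lit 397) (nat_lit 381) (nat_lit 110)) (XT.lf (nat_lit 0) (nat_lit 11331108378) (nat_lit 1008) (nat_lit 1481827099) (nat_lit 1092) (nat_lit 61439453614) (nat_lit 73) (nat_lit 5) (nat_lit 85) (nat_lit 5) (nat_lit 86) (nat_lit 5) (nat_lit 398) (nat_lit 381) (nat_lit 109))))) (XT.nd (nat_lit 282) (nat_lit 1176) (nat_lit 0) (XT.nd (nat_lit 94) (nat_lit 0) (nat_lit 0) (XT.lf (nat_lit 0) (nat_lit 14209943107) (nat_lit 1008) (nat_lit 52294726763) (nat_lit 84) (nat_lit 9108271763) (nat_lit 74) (nat_lit 5) (nat_lit 86) (nat_lit 5) (nat_lit 75) (nat_lit 5) (nat_lit 399) (nat_lit 381) (nat_lit 108)) (XT.nd (nat_lit 94) (nat_lit 0) (nat_lit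 0) (XT.lf (nat_lit 0) (nat_lit 17324292389) (nat_lit 1008) (nat_lit 28228258471) (nat_lit 84) (nat_lit 31458588789) (nat_lit 74) (nat_lit 5) (nat_lit 86) (nat_lit 5) (nat_lit 75) (nat_lit 5) (nat_lit 400) (nat_lit 381) (nat_lit 107)) (XT.lf (nat_lit 0) (nat_lit 20534797613) (nat_lit 1008) (nat_lit 3416053976) (nat_lit 84) (nat_lit 54501844926) (nat_lit 74) (nat_lit 5) (nat_lit 86) (nat_lit 5) (nat_lit 75) (nat_lit 5) (nat_lit 401) (nat_lit 381) (nat_lit 106)))) (XT.nd (nat_lit 188) (nat_lit 504) (nat_lit 0) (XT.nd (nat_lit 94) (nat_lit 0) (nat_lit 0) (XT.lf (nat_lit 0) (nat_lit 22620772448) (nat_lit 672) (nat_lit 1448079719) (nat_lit 756) (nat_lit 55863147315) (nat_lit 66) (nat_lit 5) (nat_lit 74) (nat_lit 5) (nat_lit 75) (nat_lit 5) (nat_lit 402) (nat_lit 381) (nat_lit 105)) (XT.lf (nat_lit 0) (nat_lit 27963900616) (nat_lit 756) (nat_lit 32135372304) (nat_lit 84) (nat_lit 21350095836)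 (nat_lit 66) (nat_lit 5) (nat_lit 75) (nat_lit 5) (nat_lit 67) (nat_lit 5) (nat_lit 403) (nat_lit 381) (nat_lit 104))) (XT.nd (nat_lit 94) (nat_lit 504) (nat_lit 0) (XT.lf (nat_lit 0) (nat_lit 31994148722) (nat_lit 756) (nat_lit 6194192609) (nat_lit 84) (nat_lit 44824989520) (nat_lit 66) (nat_lit 5) (nat_lit 75) (nat_lit 5) (nat_lit 67) (nat_lit 5) (nat_lit 404) (nat_lit 381) (nat_lit 103)) (XT.lf (nat_lit 0) (nat_lit 20973424846) (nat_lit 504) (nat_lit 15383622093) (nat_lit 588) (nat_lit 48262292095) (nat_lit 60) (nat_lit 5) (nat_lit 66) (nat_lit 5) (nat_lit 67) (nat_lit 5) (nat_lit 405) (nat_lit 381) (nat_lit 102))))))))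
noncomputable def xc235 : XT := (XT.nd (nat_lit 2444) (nat_lit 252) (nat_lit 0) (XT.nd (nat_lit 1222) (nat_lit 924) (nat_lit 0) (XT.nd (nat_lit 564) (nat_lit 840) (nat_lit 0) (XT.nd (nat_lit 282) (nat_lit 420) (nat_lit 0) (XT.nd (nat_lit 94) (nat_lit 420) (nat_lit 0) (XT.lf (nat_lit 0) (nat_lit 41000803343) (nat_lit 588) (nat_lit 37240186190) (nat_lit 84) (nat_lit 8029632358) (nat_lit 60) (nat_lit 5) (nat_lit 67) (nat_lit 5) (nat_lit 61) (nat_lit 5) (nat_lit 406) (nat_lit 381) (nat_lit 101)) (XT.nd (nat_lit 94) (nat_lit 420) (nat_lit 0) (XT.lf (nat_lit 0) (nat_lit 45945525861) (nat_lit 588) (nat_lit 10173525991) (nat_lit 84) (nat_lit 31849177575) (nat_lit 60) (nat_lit 5) (nat_lit 67) (nat_lit 5) (nat_lit 61) (nat_lit 5) (nat_lit 407) (nat_lit 381) (nat_lit 100)) (XT.lf (nat_lit 0) (nat_lit 18096507094) (nat_lit 420) (nat_lit 33126228553) (nat_lit 504) (nat_lit 38490174067) (nat_lit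 55) (nat_lit 5) (nat_lit 60) (nat_lit 5) (nat_lit 61) (nat_lit 5) (nat_lit 408) (nat_lit 381) (nat_lit 99)))) (XT.nd (nat_lit 94) (nat_lit 420) (nat_lit 0) (XT.lf (nat_lit 0) (nat_lit 47458289758) (nat_lit 420) (nat_lit 9311127862) (nat_lit 504) (nat_lit 34738977308) (nat_lit 55) (nat_lit 5) (nat_lit 60) (nat_lit 5) (nat_lit 61) (nat_lit 5) (nat_lit 409) (nat_lit 381) (nat_lit 98)) (XT.nd (nat_lit 94) (nat_lit 420) (nat_lit 0) (XT.lf (nat_lit 0) (nat_lit 62638949140) (nat_lit 504) (nat_lit 15780754969) (nat_lit 84) (nat_lit 14935160119) (nat_lit 55) (nat_lit 5) (nat_lit 61) (nat_lit 5) (nat_lit 56) (nat_lit 5) (nat_lit 410) (nat_lit 381) (nat_lit 97)) (XT.lf (nat_lit 0) (nat_lit 13542272152) (nat_lit 420) (nat_lit 55377442517) (nat_lit 504) (nat_lit 26331753728) (nat_lit 50) (nat_lit 5) (nat_lit 55) (nat_lit 5) (nat_lit 56) (nat_lit 5) (nat_lit 411) (nat_lit 381) (nat_lit 96)))))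 (XT.nd (nat_lit 282) (nat_lit 504) (nat_lit 0) (XT.nd (nat_lit 94) (nat_lit 336) (nat_lit 0) (XT.lf (nat_lit 0) (nat_lit 44108571144) (nat_lit 420) (nat_lit 31451044072) (nat_lit 504) (nat_lit 21642156605) (nat_lit 50) (nat_lit 5) (nat_lit 55) (nat_lit 5) (nat_lit 56) (nat_lit 5) (nat_lit 412) (nat_lit 381) (nat_lit 95)) (XT.nd (nat_lit 94) (nat_lit 336) (nat_lit 0) (XT.lf (nat_lit 0) (nat_lit 75622148313) (nat_lit 420) (nat_lit 6782925582) (nat_lit 504) (nat_lit 16807471240) (nat_lit 50) (nat_lit 5) (nat_lit 55) (nat_lit 5) (nat_lit 56) (nat_lit 5) (nat_lit 413) (nat_lit 381) (nat_lit 94)) (XT.lf (nat_lit 0) (nat_lit 6778272733) (nat_lit 336) (nat_lit 82936449338) (nat_lit 420) (nat_lit 11563120747) (nat_lit 46) (nat_lit 5) (nat_lit 50) (nat_lit 5) (nat_lit 51) (nat_lit 5) (nat_lit 414) (nat_lit 381) (nat_lit 93)))) (XT.nd (nat_lit 188) (nat_lit 420) (nat_lit 0) (XT.nd (nat_lit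 94) (nat_lit 84) (nat_lit 0) (XT.lf (nat_lit 0) (nat_lit 38517399110) (nat_lit 336) (nat_lit 59048211624) (nat_lit 420) (nat_lit 5831801842) (nat_lit 46) (nat_lit 5) (nat_lit 50) (nat_lit 5) (nat_lit 51) (nat_lit 5) (nat_lit 415) (nat_lit 381) (nat_lit 92)) (XT.lf (nat_lit 0) (nat_lit 75371478) (nat_lit 420) (nat_lit 34343291128) (nat_lit 84) (nat_lit 71164012382) (nat_lit 45) (nat_lit 5) (nat_lit 50) (nat_lit 5) (nat_lit 46) (nat_lit 5) (nat_lit 416) (nat_lit 381) (nat_lit 91))) (XT.nd (nat_lit 94) (nat_lit 420) (nat_lit 0) (XT.lf (nat_lit 0) (nat_lit 6044273484) (nat_lit 420) (nat_lit 2919842568) (nat_lit 84) (nat_lit 98869724907) (nat_lit 45) (nat_lit 5) (nat_lit 50) (nat_lit 5) (nat_lit 46) (nat_lit 5) (nat_lit 417) (nat_lit 381) (nat_lit 90)) (XT.lf (nat_lit 0) (nat_lit 12670865713) (nat_lit 504) (nat_lit 80236426254) (nat_lit 84) (nat_lit 17232850356) (nat_lit 40) (nat_lit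 5) (nat_lit 46) (nat_lit 5) (nat_lit 41) (nat_lit 5) (nat_lit 418) (nat_lit 381) (nat_lit 89)))))) (XT.nd (nat_lit 564) (nat_lit 588) (nat_lit 0) (XT.nd (nat_lit 282) (nat_lit 0) (nat_lit 0) (XT.nd (nat_lit 94) (nat_lit 336) (nat_lit 0) (XT.lf (nat_lit 0) (nat_lit 19625111878) (nat_lit 504) (nat_lit 48802548347) (nat_lit 84) (nat_lit 44086491175) (nat_lit 40) (nat_lit 5) (nat_lit 46) (nat_lit 5) (nat_lit 41) (nat_lit 5) (nat_lit 419) (nat_lit 381) (nat_lit 88)) (XT.nd (nat_lit 94) (nat_lit 336) (nat_lit 0) (XT.lf (nat_lit 0) (nat_lit 26794705803) (nat_lit 504) (nat_lit 16394476998) (nat_lit 84) (nat_lit 71772580649) (nat_lit 40) (nat_lit 5) (nat_lit 46) (nat_lit 5) (nat_lit 41) (nat_lit 5) (nat_lit 420) (nat_lit 381) (nat_lit 87)) (XT.lf (nat_lit 0) (nat_lit 17367920401) (nat_lit 336) (nat_lit 16990701818) (nat_lit 420) (nat_lit 83121296634) (nat_lit 36) (nat_lit 5) (nat_lit 40)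 (nat_lit 5) (nat_lit 41) (nat_lit 5) (nat_lit 421) (nat_lit 381) (nat_lit 86)))) (XT.nd (nat_lit 94) (nat_lit 0) (nat_lit 0) (XT.lf (nat_lit 0) (nat_lit 42429071229) (nat_lit 420) (nat_lit 67647729504) (nat_lit 84) (nat_lit 9990904110) (nat_lit 36) (nat_lit 5) (nat_lit 41) (nat_lit 5) (nat_lit 37) (nat_lit 5) (nat_lit 422) (nat_lit 381) (nat_lit 85)) (XT.nd (nat_lit 94) (nat_lit 0) (nat_lit 0) (XT.lf (nat_lit 0) (nat_lit 50923263062) (nat_lit 420) (nat_lit 34351090020) (nat_lit 84) (nat_lit 37455980106) (nat_lit 36) (nat_lit 5) (nat_lit 41) (nat_lit 5) (nat_lit 37) (nat_lit 5) (nat_lit 423) (nat_lit 381) (nat_lit 84)) (XT.lf (nat_lit 0) (nat_lit 59680565329) (nat_lit 420) (nat_lit 22494180) (nat_lit 84) (nat_lit 65772451274) (nat_lit 36) (nat_lit 5) (nat_lit 41) (nat_lit 5) (nat_lit 37) (nat_lit 5) (nat_lit 424) (nat_lit 381) (nat_lit 83))))) (XT.nd (nat_lit 282) (nat_lit 252) (nat_lit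 0) (XT.nd (nat_lit 94) (nat_lit 0) (nat_lit 0) (XT.lf (nat_lit 0) (nat_lit 36097336755) (nat_lit 336) (nat_lit 32969894048) (nat_lit 420) (nat_lit 59227464825) (nat_lit 32) (nat_lit 5) (nat_lit 36) (nat_lit 5) (nat_lit 37) (nat_lit 5) (nat_lit 425) (nat_lit 381) (nat_lit 82)) (XT.nd (nat_lit 94) (nat_lit 0) (nat_lit 0) (XT.lf (nat_lit 0) (nat_lit 73337129399) (nat_lit 336) (nat_lit 5407788919) (nat_lit 420) (nat_lit 52456356988) (nat_lit 32) (nat_lit 5) (nat_lit 36) (nat_lit 5) (nat_lit 37) (nat_lit 5) (nat_lit 426) (nat_lit 381) (nat_lit 81)) (XT.lf (nat_lit 0) (nat_lit 88950670028) (nat_lit 420) (nat_lit 22695082770) (nat_lit 84) (nat_lit 22545137587) (nat_lit 32) (nat_lit 5) (nat_lit 37) (nat_lit 5) (nat_lit 33) (nat_lit 5) (nat_lit 427) (nat_lit 381) (nat_lit 80)))) (XT.nd (nat_lit 188) (nat_lit 0) (nat_lit 0) (XT.nd (nat_lit 94) (nat_lit 0) (nat_lit 0) (XT.lf (nat_lit 0) (nat_lit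 13786455768) (nat_lit 252) (nat_lit 85878228721) (nat_lit 336) (nat_lit 37602551753) (nat_lit 29) (nat_lit 5) (nat_lit 32) (nat_lit 5) (nat_lit 33) (nat_lit 5) (nat_lit 428) (nat_lit 381) (nat_lit 79)) (XT.lf (nat_lit 0) (nat_lit 51879825131) (nat_lit 252) (nat_lit 59067713987) (nat_lit 336) (nat_lit 29484072922) (nat_lit 29) (nat_lit 5) (nat_lit 32) (nat_lit 5) (nat_lit 33) (nat_lit 5) (nat_lit 429) (nat_lit 381) (nat_lit 78))) (XT.nd (nat_lit 94) (nat_lit 0) (nat_lit 0) (XT.lf (nat_lit 0) (nat_lit 91153874883) (nat_lit 252) (nat_lit 31426108503) (nat_lit 336) (nat_lit 21114106708) (nat_lit 29) (nat_lit 5) (nat_lit 32) (nat_lit 5) (nat_lit 33) (nat_lit 5) (nat_lit 430) (nat_lit 381) (nat_lit 77)) (XT.lf (nat_lit 0) (nat_lit 131645212550) (nat_lit 252) (nat_lit 2927647399) (nat_lit 336) (nat_lit 12484851426) (nat_lit 29) (nat_lit 5) (nat_lit 32) (nat_lit 5) (nat_lit 33) (nat_lit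 5) (nat_lit 431) (nat_lit 381) (nat_lit 76))))))) (XT.nd (nat_lit 52170) (nat_lit 0) (nat_lit 2856) (XT.nd (nat_lit 51512) (nat_lit 0) (nat_lit 4704) (XT.nd (nat_lit 51230) (nat_lit 0) (nat_lit 4620) (XT.nd (nat_lit 51042) (nat_lit 0) (nat_lit 4620) (XT.lf (nat_lit 0) (nat_lit 23068315043) (nat_lit 252) (nat_lit 124360302188) (nat_lit 336) (nat_lit 3081764535) (nat_lit 26) (nat_lit 5) (nat_lit 29) (nat_lit 5) (nat_lit 30) (nat_lit 5) (nat_lit 432) (nat_lit 381) (nat_lit 75)) (XT.nd (nat_lit 94) (nat_lit 0) (nat_lit 0) (XT.lf (nat_lit 0) (nat_lit 12327167563) (nat_lit 0) (nat_lit 12327167563) (nat_lit 924) (nat_lit 4168085402) (nat_lit 81) (nat_lit 5) (nat_lit 81) (nat_lit 3) (nat_lit 92) (nat_lit 3) (nat_lit 382) (nat_lit 382) (nat_lit 124)) (XT.lf (nat_lit 0) (nat_lit 43938351219) (nat_lit 0) (nat_lit 6149770332) (nat_lit 924) (nat_lit 8449633685) (nat_lit 81) (nat_lit 5) (nat_lit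 81) (nat_lit 3) (nat_lit 92) (nat_lit 3) (nat_lit 383) (nat_lit 382) (nat_lit 123)))) (XT.nd (nat_lit 94) (nat_lit 0) (nat_lit 0) (XT.lf (nat_lit 84) (nat_lit 4320282416) (nat_lit 0) (nat_lit 46741954719) (nat_lit 1008) (nat_lit 8390831539) (nat_lit 82) (nat_lit 5) (nat_lit 81) (nat_lit 5) (nat_lit 93) (nat_lit 5) (nat_lit 384) (nat_lit 382) (nat_lit 122)) (XT.nd (nat_lit 94) (nat_lit 0) (nat_lit 0) (XT.lf (nat_lit 84) (nat_lit 24071459179) (nat_lit 0) (nat_lit 28209146757) (nat_lit 1008) (nat_lit 8109519494) (nat_lit 82) (nat_lit 5) (nat_lit 81) (nat_lit 5) (nat_lit 93) (nat_lit 5) (nat_lit 385) (nat_lit 382) (nat_lit 121)) (XT.lf (nat_lit 84) (nat_lit 44434603647) (nat_lit 0) (nat_lit 9101565253) (nat_lit 1008) (nat_lit 7820084074) (nat_lit 82) (nat_lit 5) (nat_lit 81) (nat_lit 5) (nat_lit 93) (nat_lit 5) (nat_lit 386) (nat_lit 382) (nat_lit 120))))) (XT.nd (nat_lit 282) (nat_lit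 0) (nat_lit 84) (XT.nd (nat_lit 94) (nat_lit 0) (nat_lit 0) (XT.lf (nat_lit 84) (nat_lit 3032299211) (nat_lit 0) (nat_lit 51933017342) (nat_lit 1008) (nat_lit 7382843461) (nat_lit 83) (nat_lit 5) (nat_lit 82) (nat_lit 5) (nat_lit 94) (nat_lit 5) (nat_lit 387) (nat_lit 382) (nat_lit 119)) (XT.nd (nat_lit 94) (nat_lit 0) (nat_lit 0) (XT.lf (nat_lit 84) (nat_lit 23868218904) (nat_lit 0) (nat_lit 32838779295) (nat_lit 1008) (nat_lit 6655506776) (nat_lit 83) (nat_lit 5) (nat_lit 82) (nat_lit 5) (nat_lit 94) (nat_lit 5) (nat_lit 388) (nat_lit 382) (nat_lit 118)) (XT.lf (nat_lit 84) (nat_lit 45349732366) (nat_lit 0) (nat_lit 13152413837) (nat_lit 1008) (nat_lit 5906168555) (nat_lit 83) (nat_lit 5) (nat_lit 82) (nat_lit 5) (nat_lit 94) (nat_lit 5) (nat_lit 389) (nat_lit 382) (nat_lit 117)))) (XT.nd (nat_lit 188) (nat_lit 0) (nat_lit 0) (XT.nd (nat_lit 94) (nat_lit 0) (nat_lit 0) (XT.lf (nat_lit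 84) (nat_lit 1979303386) (nat_lit 0) (nat_lit 58463638998) (nat_lit 1008) (nat_lit 5040816018) (nat_lit 84) (nat_lit 5) (nat_lit 83) (nat_lit 5) (nat_lit 95) (nat_lit 5) (nat_lit 390) (nat_lit 382) (nat_lit 116)) (XT.lf (nat_lit 84) (nat_lit 23935783058) (nat_lit 0) (nat_lit 38839713115) (nat_lit 1008) (nat_lit 3806768846) (nat_lit 84) (nat_lit 5) (nat_lit 83) (nat_lit 5) (nat_lit 95) (nat_lit 5) (nat_lit 391) (nat_lit 382) (nat_lit 115))) (XT.nd (nat_lit 94) (nat_lit 0) (nat_lit 84) (XT.lf (nat_lit 84) (nat_lit 46572595197) (nat_lit 0) (nat_lit 18607282882) (nat_lit 1008) (nat_lit 2534965670) (nat_lit 84) (nat_lit 5) (nat_lit 83) (nat_lit 5) (nat_lit 95) (nat_lit 5) (nat_lit 392) (nat_lit 382) (nat_lit 114)) (XT.lf (nat_lit 84) (nat_lit 1026628504) (nat_lit 0) (nat_lit 66664230196) (nat_lit 1008) (nat_lit 1190683158) (nat_lit 85) (nat_lit 5) (nat_lit 84) (nat_lit 5) (nat_lit 96)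 (nat_lit 5) (nat_lit 393) (nat_lit 382) (nat_lit 113)))))) (XT.nd (nat_lit 564) (nat_lit 1008) (nat_lit 0) (XT.nd (nat_lit 282) (nat_lit 0) (nat_lit 84) (XT.nd (nat_lit 94) (nat_lit 0) (nat_lit 0) (XT.lf (nat_lit 0) (nat_lit 604123185) (nat_lit 1008) (nat_lit 45941461691) (nat_lit 1092) (nat_lit 23525969523) (nat_lit 72) (nat_lit 5) (nat_lit 84) (nat_lit 5) (nat_lit 85) (nat_lit 5) (nat_lit 394) (nat_lit 382) (nat_lit 112)) (XT.nd (nat_lit 94) (nat_lit 0) (nat_lit 0) (XT.lf (nat_lit 0) (nat_lit 2429387000) (nat_lit 1008) (nat_lit 23361198376) (nat_lit 1092) (nat_lit 45507511424) (nat_lit 72) (nat_lit 5) (nat_lit 84) (nat_lit 5) (nat_lit 85) (nat_lit 5) (nat_lit 395) (nat_lit 382) (nat_lit 111)) (XT.lf (nat_lit 0) (nat_lit 4310799237) (nat_lit 1008) (nat_lit 81264515) (nat_lit 1092) (nat_lit 68170614742) (nat_lit 72) (nat_lit 5) (nat_lit 84) (nat_lit 5) (nat_lit 85) (nat_lit 5) (nat_lit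 396) (nat_lit 382) (nat_lit 110)))) (XT.nd (nat_lit 94) (nat_lit 0) (nat_lit 0) (XT.lf (nat_lit 0) (nat_lit 6670047152) (nat_lit 1008) (nat_lit 49624851340) (nat_lit 1092) (nat_lit 17558561768) (nat_lit 73) (nat_lit 5) (nat_lit 85) (nat_lit 5) (nat_lit 86) (nat_lit 5) (nat_lit 397) (nat_lit 382) (nat_lit 109)) (XT.nd (nat_lit 94) (nat_lit 0) (nat_lit 0) (XT.lf (nat_lit 0) (nat_lit 9147798174) (nat_lit 1008) (nat_lit 25935669527) (nat_lit 1092) (nat_lit 40099385021) (nat_lit 73) (nat_lit 5) (nat_lit 85) (nat_lit 5) (nat_lit 86) (nat_lit 5) (nat_lit 398) (nat_lit 382) (nat_lit 108)) (XT.lf (nat_lit 0) (nat_lit 11701960867) (nat_lit 1008) (nat_lit 1512435013) (nat_lit 1092) (nat_lit 63339075566) (nat_lit 73) (nat_lit 5) (nat_lit 85) (nat_lit 5) (nat_lit 86) (nat_lit 5) (nat_lit 399) (nat_lit 382) (nat_lit 107))))) (XT.nd (nat_lit 282) (nat_lit 1176) (nat_lit 0) (XT.nd (nat_lit 94) (nat_lit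 0) (nat_lit 0) (XT.lf (nat_lit 0) (nat_lit 14669561578) (nat_lit 1008) (nat_lit 53899926240) (nat_lit 84) (nat_lit 9386732156) (nat_lit 74) (nat_lit 5) (nat_lit 86) (nat_lit 5) (nat_lit 75) (nat_lit 5) (nat_lit 400) (nat_lit 382) (nat_lit 106)) (XT.nd (nat_lit 94) (nat_lit 0) (nat_lit 0) (XT.lf (nat_lit 0) (nat_lit 17879881084) (nat_lit 1008) (nat_lit 29087876625) (nat_lit 84) (nat_lit 32430026155) (nat_lit 74) (nat_lit 5) (nat_lit 86) (nat_lit 5) (nat_lit 75) (nat_lit 5) (nat_lit 401) (nat_lit 382) (nat_lit 105)) (XT.lf (nat_lit 0) (nat_lit 21189354642) (nat_lit 1008) (nat_lit 3506958576) (nat_lit 84) (nat_lit 56187736855) (nat_lit 74) (nat_lit 5) (nat_lit 86) (nat_lit 5) (nat_lit 75) (nat_lit 5) (nat_lit 402) (nat_lit 382) (nat_lit 104)))) (XT.nd (nat_lit 188) (nat_lit 504) (nat_lit 0) (XT.nd (nat_lit 94) (nat_lit 0) (nat_lit 0) (XT.lf (nat_lit 0) (nat_lit 23336857677) (nat_lit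 672) (nat_lit 1495713868) (nat_lit 756) (nat_lit 57576655771) (nat_lit 66) (nat_lit 5) (nat_lit 74) (nat_lit 5) (nat_lit 75) (nat_lit 5) (nat_lit 403) (nat_lit 382) (nat_lit 103)) (XT.lf (nat_lit 0) (nat_lit 28847811354) (nat_lit 756) (nat_lit 33116503228) (nat_lit 84) (nat_lit 22009341242) (nat_lit 66) (nat_lit 5) (nat_lit 75) (nat_lit 5) (nat_lit 67) (nat_lit 5) (nat_lit 404) (nat_lit 382) (nat_lit 102))) (XT.nd (nat_lit 94) (nat_lit 504) (nat_lit 0) (XT.lf (nat_lit 0) (nat_lit 33002485100) (nat_lit 756) (nat_lit 6371599954) (nat_lit 84) (nat_lit 46212035034) (nat_lit 66) (nat_lit 5) (nat_lit 75) (nat_lit 5) (nat_lit 67) (nat_lit 5) (nat_lit 405) (nat_lit 382) (nat_lit 101)) (XT.lf (nat_lit 0) (nat_lit 21638065702) (nat_lit 504) (nat_lit 15862214297) (nat_lit 588) (nat_lit 49741648842) (nat_lit 60) (nat_lit 5) (nat_lit 66) (nat_lit 5) (nat_lit 67) (nat_lit 5) (nat_lit 406) (nat_lit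 382) (nat_lit 100))))))))
noncomputable def xc236 : XT := (XT.nd (nat_lit 2350) (nat_lit 0) (nat_lit 0) (XT.nd (nat_lit 1128) (nat_lit 1344) (nat_lit 0) (XT.nd (nat_lit 564) (nat_lit 420) (nat_lit 0) (XT.nd (nat_lit 282) (nat_lit 420) (nat_lit 0) (XT.nd (nat_lit 94) (nat_lit 420) (nat_lit 0) (XT.lf (nat_lit 0) (nat_lit 42287490460) (nat_lit 588) (nat_lit 38379994471) (nat_lit 84) (nat_lit 8276935375) (nat_lit 60) (nat_lit 5) (nat_lit 67) (nat_lit 5) (nat_lit 61) (nat_lit 5) (nat_lit 407) (nat_lit 382) (nat_lit 99)) (XT.nd (nat_lit 94) (nat_lit 420) (nat_lit 0) (XT.lf (nat_lit 0) (nat_lit 47385028446) (nat_lit 588) (nat_lit 10474707925) (nat_lit 84) (nat_lit 32834935071) (nat_lit 60) (nat_lit 5) (nat_lit 67) (nat_lit 5) (nat_lit 61) (nat_lit 5) (nat_lit 408) (nat_lit 382) (nat_lit 98)) (XT.lf (nat_lit 0) (nat_lit 18671552450) (nat_lit 420) (nat_lit 34153961929) (nat_lit 504) (nat_lit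 39667935348) (nat_lit 55) (nat_lit 5) (nat_lit 60) (nat_lit 5) (nat_lit 61) (nat_lit 5) (nat_lit 409) (nat_lit 382) (nat_lit 97)))) (XT.nd (nat_lit 94) (nat_lit 420) (nat_lit 0) (XT.lf (nat_lit 0) (nat_lit 48943127814) (nat_lit 420) (nat_lit 9600568452) (nat_lit 504) (nat_lit 35800915561) (nat_lit 55) (nat_lit 5) (nat_lit 60) (nat_lit 5) (nat_lit 61) (nat_lit 5) (nat_lit 410) (nat_lit 382) (nat_lit 96)) (XT.nd (nat_lit 94) (nat_lit 420) (nat_lit 0) (XT.lf (nat_lit 0) (nat_lit 64594741826) (nat_lit 504) (nat_lit 16256202495) (nat_lit 84) (nat_lit 15397393928) (nat_lit 55) (nat_lit 5) (nat_lit 61) (nat_lit 5) (nat_lit 56) (nat_lit 5) (nat_lit 411) (nat_lit 382) (nat_lit 95)) (XT.lf (nat_lit 0) (nat_lit 13975699201) (nat_lit 420) (nat_lit 57094226457) (nat_lit 504) (nat_lit 27133823141) (nat_lit 50) (nat_lit 5) (nat_lit 55) (nat_lit 5) (nat_lit 56) (nat_lit 5) (nat_lit 412) (nat_lit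 382) (nat_lit 94))))) (XT.nd (nat_lit 282) (nat_lit 84) (nat_lit 0) (XT.nd (nat_lit 94) (nat_lit 336) (nat_lit 0) (XT.lf (nat_lit 0) (nat_lit 45489144040) (nat_lit 420) (nat_lit 32426107158) (nat_lit 504) (nat_lit 22299275921) (nat_lit 50) (nat_lit 5) (nat_lit 55) (nat_lit 5) (nat_lit 56) (nat_lit 5) (nat_lit 413) (nat_lit 382) (nat_lit 93)) (XT.nd (nat_lit 94) (nat_lit 336) (nat_lit 0) (XT.lf (nat_lit 0) (nat_lit 77979244988) (nat_lit 420) (nat_lit 6993274567) (nat_lit 504) (nat_lit 17315129872) (nat_lit 50) (nat_lit 5) (nat_lit 55) (nat_lit 5) (nat_lit 56) (nat_lit 5) (nat_lit 414) (nat_lit 382) (nat_lit 92)) (XT.lf (nat_lit 0) (nat_lit 7001560044) (nat_lit 336) (nat_lit 85506949059) (nat_lit 420) (nat_lit 11908472782) (nat_lit 46) (nat_lit 5) (nat_lit 50) (nat_lit 5) (nat_lit 51) (nat_lit 5) (nat_lit 415) (nat_lit 382) (nat_lit 91)))) (XT.nd (nat_lit 94) (nat_lit 84) (nat_lit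 0) (XT.lf (nat_lit 0) (nat_lit 39724203619) (nat_lit 336) (nat_lit 60878191918) (nat_lit 420) (nat_lit 5999877023) (nat_lit 46) (nat_lit 5) (nat_lit 50) (nat_lit 5) (nat_lit 51) (nat_lit 5) (nat_lit 416) (nat_lit 382) (nat_lit 90)) (XT.nd (nat_lit 94) (nat_lit 0) (nat_lit 0) (XT.lf (nat_lit 0) (nat_lit 89788096) (nat_lit 420) (nat_lit 35395228156) (nat_lit 84) (nat_lit 73370271890) (nat_lit 45) (nat_lit 5) (nat_lit 50) (nat_lit 5) (nat_lit 46) (nat_lit 5) (nat_lit 417) (nat_lit 382) (nat_lit 89)) (XT.lf (nat_lit 0) (nat_lit 6243362841) (nat_lit 420) (nat_lit 2998034703) (nat_lit 84) (nat_lit 101934856237) (nat_lit 45) (nat_lit 5) (nat_lit 50) (nat_lit 5) (nat_lit 46) (nat_lit 5) (nat_lit 418) (nat_lit 382) (nat_lit 88)))))) (XT.nd (nat_lit 564) (nat_lit 588) (nat_lit 0) (XT.nd (nat_lit 282) (nat_lit 336) (nat_lit 0) (XT.nd (nat_lit 94) (nat_lit 0) (nat_lit 0) (XT.lf (nat_lit 0) (nat_lit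 13075155204) (nat_lit 504) (nat_lit 82711137430) (nat_lit 84) (nat_lit 17767767000) (nat_lit 40) (nat_lit 5) (nat_lit 46) (nat_lit 5) (nat_lit 41) (nat_lit 5) (nat_lit 419) (nat_lit 382) (nat_lit 87)) (XT.nd (nat_lit 94) (nat_lit 0) (nat_lit 0) (XT.lf (nat_lit 0) (nat_lit 20244637440) (nat_lit 504) (nat_lit 50303188706) (nat_lit 84) (nat_lit 45453849688) (nat_lit 40) (nat_lit 5) (nat_lit 46) (nat_lit 5) (nat_lit 41) (nat_lit 5) (nat_lit 420) (nat_lit 382) (nat_lit 86)) (XT.lf (nat_lit 0) (nat_lit 27636153607) (nat_lit 504) (nat_lit 16890835135) (nat_lit 84) (nat_lit 73998187572) (nat_lit 40) (nat_lit 5) (nat_lit 46) (nat_lit 5) (nat_lit 41) (nat_lit 5) (nat_lit 421) (nat_lit 382) (nat_lit 85)))) (XT.nd (nat_lit 94) (nat_lit 0) (nat_lit 0) (XT.lf (nat_lit 0) (nat_lit 17918076404) (nat_lit 336) (nat_lit 17516266503) (nat_lit 420) (nat_lit 85687060095) (nat_lit 36) (nat_lit 5) (nat_lit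 40) (nat_lit 5) (nat_lit 41) (nat_lit 5) (nat_lit 422) (nat_lit 382) (nat_lit 84)) (XT.nd (nat_lit 94) (nat_lit 0) (nat_lit 0) (XT.lf (nat_lit 0) (nat_lit 43754668051) (nat_lit 420) (nat_lit 69733041489) (nat_lit 84) (nat_lit 10301712303) (nat_lit 36) (nat_lit 5) (nat_lit 41) (nat_lit 5) (nat_lit 37) (nat_lit 5) (nat_lit 423) (nat_lit 382) (nat_lit 83)) (XT.lf (nat_lit 0) (nat_lit 52511870263) (nat_lit 420) (nat_lit 35404560009) (nat_lit 84) (nat_lit 38618172876) (nat_lit 36) (nat_lit 5) (nat_lit 41) (nat_lit 5) (nat_lit 37) (nat_lit 5) (nat_lit 424) (nat_lit 382) (nat_lit 82))))) (XT.nd (nat_lit 282) (nat_lit 252) (nat_lit 0) (XT.nd (nat_lit 94) (nat_lit 336) (nat_lit 0) (XT.lf (nat_lit 0) (nat_lit 61540348641) (nat_lit 420) (nat_lit 12120886) (nat_lit 84) (nat_lit 67812422857) (nat_lit 36) (nat_lit 5) (nat_lit 41) (nat_lit 5) (nat_lit 37) (nat_lit 5) (nat_lit 425) (nat_lit 382)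 (nat_lit 81)) (XT.nd (nat_lit 94) (nat_lit 0) (nat_lit 0) (XT.lf (nat_lit 0) (nat_lit 37227312728) (nat_lit 336) (nat_lit 33990505496) (nat_lit 420) (nat_lit 61053661167) (nat_lit 32) (nat_lit 5) (nat_lit 36) (nat_lit 5) (nat_lit 37) (nat_lit 5) (nat_lit 426) (nat_lit 382) (nat_lit 80)) (XT.lf (nat_lit 0) (nat_lit 75621209444) (nat_lit 336) (nat_lit 5574018864) (nat_lit 420) (nat_lit 54072945308) (nat_lit 32) (nat_lit 5) (nat_lit 36) (nat_lit 5) (nat_lit 37) (nat_lit 5) (nat_lit 427) (nat_lit 382) (nat_lit 79)))) (XT.nd (nat_lit 188) (nat_lit 0) (nat_lit 0) (XT.nd (nat_lit 94) (nat_lit 252) (nat_lit 0) (XT.lf (nat_lit 0) (nat_lit 91717094751) (nat_lit 420) (nat_lit 23388003512) (nat_lit 84) (nat_lit 23245378338) (nat_lit 32) (nat_lit 5) (nat_lit 37) (nat_lit 5) (nat_lit 33) (nat_lit 5) (nat_lit 428) (nat_lit 382) (nat_lit 78)) (XT.lf (nat_lit 0) (nat_lit 14224355133) (nat_lit 252)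 (nat_lit 88538723653) (nat_lit 336) (nat_lit 38759117124) (nat_lit 29) (nat_lit 5) (nat_lit 32) (nat_lit 5) (nat_lit 33) (nat_lit 5) (nat_lit 429) (nat_lit 382) (nat_lit 77))) (XT.nd (nat_lit 94) (nat_lit 0) (nat_lit 0) (XT.lf (nat_lit 0) (nat_lit 53498302656) (nat_lit 252) (nat_lit 60897134984) (nat_lit 336) (nat_lit 30389239479) (nat_lit 29) (nat_lit 5) (nat_lit 32) (nat_lit 5) (nat_lit 33) (nat_lit 5) (nat_lit 430) (nat_lit 382) (nat_lit 76)) (XT.lf (nat_lit 0) (nat_lit 93989541168) (nat_lit 252) (nat_lit 32398690188) (nat_lit 336) (nat_lit 21760070104) (nat_lit 29) (nat_lit 5) (nat_lit 32) (nat_lit 5) (nat_lit 33) (nat_lit 5) (nat_lit 431) (nat_lit 382) (nat_lit 75))))))) (XT.nd (nat_lit 52264) (nat_lit 0) (nat_lit 2604) (XT.nd (nat_lit 51606) (nat_lit 0) (nat_lit 4452) (XT.nd (nat_lit 51324) (nat_lit 0) (nat_lit 4368) (XT.nd (nat_lit 51136) (nat_lit 0) (nat_lit 4368) (XT.lf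 (nat_lit 0) (nat_lit 135735812746) (nat_lit 252) (nat_lit 3016825731) (nat_lit 336) (nat_lit 12863565707) (nat_lit 29) (nat_lit 5) (nat_lit 32) (nat_lit 5) (nat_lit 33) (nat_lit 5) (nat_lit 432) (nat_lit 382) (nat_lit 74)) (XT.nd (nat_lit 94) (nat_lit 0) (nat_lit 0) (XT.lf (nat_lit 0) (nat_lit 12716817983) (nat_lit 0) (nat_lit 12716817983) (nat_lit 924) (nat_lit 4281704502) (nat_lit 81) (nat_lit 5) (nat_lit 81) (nat_lit 3) (nat_lit 92) (nat_lit 3) (nat_lit 383) (nat_lit 383) (nat_lit 122)) (XT.lf (nat_lit 0) (nat_lit 45315005046) (nat_lit 0) (nat_lit 6354978152) (nat_lit 924) (nat_lit 8681326843) (nat_lit 81) (nat_lit 5) (nat_lit 81) (nat_lit 3) (nat_lit 92) (nat_lit 3) (nat_lit 384) (nat_lit 383) (nat_lit 121)))) (XT.nd (nat_lit 94) (nat_lit 0) (nat_lit 0) (XT.lf (nat_lit 84) (nat_lit 4469875990) (nat_lit 0) (nat_lit 48203559757) (nat_lit 1008) (nat_lit 8621595520) (nat_lit 82)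 (nat_lit 5) (nat_lit 81) (nat_lit 5) (nat_lit 93) (nat_lit 5) (nat_lit 385) (nat_lit 383) (nat_lit 120)) (XT.nd (nat_lit 94) (nat_lit 0) (nat_lit 0) (XT.lf (nat_lit 84) (nat_lit 24832868224) (nat_lit 0) (nat_lit 29095855759) (nat_lit 1008) (nat_lit 8332445349) (nat_lit 82) (nat_lit 5) (nat_lit 81) (nat_lit 5) (nat_lit 93) (nat_lit 5) (nat_lit 386) (nat_lit 383) (nat_lit 119)) (XT.lf (nat_lit 84) (nat_lit 45826813325) (nat_lit 0) (nat_lit 9395571635) (nat_lit 1008) (nat_lit 8034893441) (nat_lit 82) (nat_lit 5) (nat_lit 81) (nat_lit 5) (nat_lit 93) (nat_lit 5) (nat_lit 387) (nat_lit 383) (nat_lit 118))))) (XT.nd (nat_lit 282) (nat_lit 0) (nat_lit 84) (XT.nd (nat_lit 94) (nat_lit 0) (nat_lit 0) (XT.lf (nat_lit 84) (nat_lit 3142012799) (nat_lit 0) (nat_lit 53553065514) (nat_lit 1008) (nat_lit 7584885572) (nat_lit 83) (nat_lit 5) (nat_lit 82) (nat_lit 5) (nat_lit 94) (nat_lit 5) (nat_lit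 388) (nat_lit 383) (nat_lit 117)) (XT.nd (nat_lit 94) (nat_lit 0) (nat_lit 0) (XT.lf (nat_lit 84) (nat_lit 24623373565) (nat_lit 0) (nat_lit 33866601662) (nat_lit 1008) (nat_lit 6835808053) (nat_lit 83) (nat_lit 5) (nat_lit 82) (nat_lit 5) (nat_lit 94) (nat_lit 5) (nat_lit 389) (nat_lit 383) (nat_lit 116)) (XT.lf (nat_lit 84) (nat_lit 46770355714) (nat_lit 0) (nat_lit 13569663601) (nat_lit 1008) (nat_lit 6064022697) (nat_lit 83) (nat_lit 5) (nat_lit 82) (nat_lit 5) (nat_lit 94) (nat_lit 5) (nat_lit 390) (nat_lit 383) (nat_lit 115)))) (XT.nd (nat_lit 188) (nat_lit 0) (nat_lit 0) (XT.nd (nat_lit 94) (nat_lit 0) (nat_lit 0) (XT.lf (nat_lit 84) (nat_lit 2056308400) (nat_lit 0) (nat_lit 60284004500) (nat_lit 1008) (nat_lit 5172537517) (nat_lit 84) (nat_lit 5) (nat_lit 83) (nat_lit 5) (nat_lit 95) (nat_lit 5) (nat_lit 391) (nat_lit 383) (nat_lit 114)) (XT.lf (nat_lit 84) (nat_lit 24692968481)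 (nat_lit 0) (nat_lit 40051496591) (nat_lit 1008) (nat_lit 3900972864) (nat_lit 84) (nat_lit 5) (nat_lit 83) (nat_lit 5) (nat_lit 95) (nat_lit 5) (nat_lit 392) (nat_lit 383) (nat_lit 113))) (XT.nd (nat_lit 94) (nat_lit 0) (nat_lit 84) (XT.lf (nat_lit 84) (nat_lit 48031065481) (nat_lit 0) (nat_lit 19191627923) (nat_lit 1008) (nat_lit 2590459580) (nat_lit 84) (nat_lit 5) (nat_lit 83) (nat_lit 5) (nat_lit 95) (nat_lit 5) (nat_lit 393) (nat_lit 383) (nat_lit 112)) (XT.lf (nat_lit 84) (nat_lit 1073940939) (nat_lit 0) (nat_lit 68736986086) (nat_lit 1008) (nat_lit 1205114775) (nat_lit 85) (nat_lit 5) (nat_lit 84) (nat_lit 5) (nat_lit 96) (nat_lit 5) (nat_lit 394) (nat_lit 383) (nat_lit 111)))))) (XT.nd (nat_lit 564) (nat_lit 1008) (nat_lit 0) (XT.nd (nat_lit 282) (nat_lit 0) (nat_lit 84) (XT.nd (nat_lit 94) (nat_lit 0) (nat_lit 0) (XT.lf (nat_lit 0) (nat_lit 644215356) (nat_lit 1008) (nat_lit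 47350039043) (nat_lit 1092) (nat_lit 24248708517) (nat_lit 72) (nat_lit 5) (nat_lit 84) (nat_lit 5) (nat_lit 85) (nat_lit 5) (nat_lit 395) (nat_lit 383) (nat_lit 110)) (XT.nd (nat_lit 94) (nat_lit 0) (nat_lit 0) (XT.lf (nat_lit 0) (nat_lit 2525419969) (nat_lit 1008) (nat_lit 24070256864) (nat_lit 1092) (nat_lit 46911875645) (nat_lit 72) (nat_lit 5) (nat_lit 84) (nat_lit 5) (nat_lit 85) (nat_lit 5) (nat_lit 396) (nat_lit 383) (nat_lit 109)) (XT.lf (nat_lit 0) (nat_lit 4464532919) (nat_lit 1008) (nat_lit 69100241) (nat_lit 1092) (nat_lit 70277726656) (nat_lit 72) (nat_lit 5) (nat_lit 84) (nat_lit 5) (nat_lit 85) (nat_lit 5) (nat_lit 397) (nat_lit 383) (nat_lit 108)))) (XT.nd (nat_lit 94) (nat_lit 0) (nat_lit 0) (XT.lf (nat_lit 0) (nat_lit 6896406743) (nat_lit 1008) (nat_lit 51147893006) (nat_lit 1092) (nat_lit 18097876072) (nat_lit 73) (nat_lit 5) (nat_lit 85) (nat_lit 5) (nat_lit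 86) (nat_lit 5) (nat_lit 398) (nat_lit 383) (nat_lit 107)) (XT.nd (nat_lit 94) (nat_lit 0) (nat_lit 0) (XT.lf (nat_lit 0) (nat_lit 9450379073) (nat_lit 1008) (nat_lit 26724807459) (nat_lit 1092) (nat_lit 41337615219) (nat_lit 73) (nat_lit 5) (nat_lit 85) (nat_lit 5) (nat_lit 86) (nat_lit 5) (nat_lit 399) (nat_lit 383) (nat_lit 106)) (XT.lf (nat_lit 0) (nat_lit 12083149545) (nat_lit 1008) (nat_lit 1544899719) (nat_lit 1092) (nat_lit 65297882022) (nat_lit 73) (nat_lit 5) (nat_lit 85) (nat_lit 5) (nat_lit 86) (nat_lit 5) (nat_lit 400) (nat_lit 383) (nat_lit 105))))) (XT.nd (nat_lit 282) (nat_lit 1176) (nat_lit 0) (XT.nd (nat_lit 94) (nat_lit 0) (nat_lit 0) (XT.lf (nat_lit 0) (nat_lit 15142296290) (nat_lit 1008) (nat_lit 55555830879) (nat_lit 84) (nat_lit 9674055590) (nat_lit 74) (nat_lit 5) (nat_lit 86) (nat_lit 5) (nat_lit 75) (nat_lit 5) (nat_lit 401) (nat_lit 383) (nat_lit 104))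 (XT.nd (nat_lit 94) (nat_lit 0) (nat_lit 0) (XT.lf (nat_lit 0) (nat_lit 18451595131) (nat_lit 1008) (nat_lit 29975058536) (nat_lit 84) (nat_lit 33431801910) (nat_lit 74) (nat_lit 5) (nat_lit 86) (nat_lit 5) (nat_lit 75) (nat_lit 5) (nat_lit 402) (nat_lit 383) (nat_lit 103)) (XT.lf (nat_lit 0) (nat_lit 21863138053) (nat_lit 1008) (nat_lit 3601569283) (nat_lit 84) (nat_lit 57926108535) (nat_lit 74) (nat_lit 5) (nat_lit 86) (nat_lit 5) (nat_lit 75) (nat_lit 5) (nat_lit 403) (nat_lit 383) (nat_lit 102)))) (XT.nd (nat_lit 188) (nat_lit 504) (nat_lit 0) (XT.nd (nat_lit 94) (nat_lit 0) (nat_lit 0) (XT.lf (nat_lit 0) (nat_lit 24074262473) (nat_lit 672) (nat_lit 1544662163) (nat_lit 756) (nat_lit 59344363914) (nat_lit 66) (nat_lit 5) (nat_lit 74) (nat_lit 5) (nat_lit 75) (nat_lit 5) (nat_lit 404) (nat_lit 383) (nat_lit 101)) (XT.lf (nat_lit 0) (nat_lit 29758114619) (nat_lit 756) (nat_lit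 34128941573) (nat_lit 84) (nat_lit 22689177707) (nat_lit 66) (nat_lit 5) (nat_lit 75) (nat_lit 5) (nat_lit 67) (nat_lit 5) (nat_lit 405) (nat_lit 383) (nat_lit 100))) (XT.nd (nat_lit 94) (nat_lit 504) (nat_lit 0) (XT.lf (nat_lit 0) (nat_lit 34041101531) (nat_lit 756) (nat_lit 6555372458) (nat_lit 84) (nat_lit 47642228766) (nat_lit 66) (nat_lit 5) (nat_lit 75) (nat_lit 5) (nat_lit 67) (nat_lit 5) (nat_lit 406) (nat_lit 383) (nat_lit 99)) (XT.lf (nat_lit 0) (nat_lit 22322453657) (nat_lit 504) (nat_lit 16355542169) (nat_lit 588) (nat_lit 51267859218) (nat_lit 60) (nat_lit 5) (nat_lit 66) (nat_lit 5) (nat_lit 67) (nat_lit 5) (nat_lit 407) (nat_lit 383) (nat_lit 98))))))))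
noncomputable def xc237 : XT := (XT.nd (nat_lit 53956) (nat_lit 0) (nat_lit 1512) (XT.nd (nat_lit 1128) (nat_lit 1092) (nat_lit 0) (XT.nd (nat_lit 564) (nat_lit 420) (nat_lit 0) (XT.nd (nat_lit 282) (nat_lit 420) (nat_lit 0) (XT.nd (nat_lit 94) (nat_lit 420) (nat_lit 0) (XT.lf (nat_lit 0) (nat_lit 43613137177) (nat_lit 588) (nat_lit 39556003812) (nat_lit 84) (nat_lit 8532000480) (nat_lit 60) (nat_lit 5) (nat_lit 67) (nat_lit 5) (nat_lit 61) (nat_lit 5) (nat_lit 408) (nat_lit 383) (nat_lit 97)) (XT.nd (nat_lit 94) (nat_lit 420) (nat_lit 0) (XT.lf (nat_lit 0) (nat_lit 48868255805) (nat_lit 588) (nat_lit 10786067433) (nat_lit 84) (nat_lit 33851343866) (nat_lit 60) (nat_lit 5) (nat_lit 67) (nat_lit 5) (nat_lit 61) (nat_lit 5) (nat_lit 409) (nat_lit 383) (nat_lit 96)) (XT.lf (nat_lit 0) (nat_lit 19263591792) (nat_lit 420) (nat_lit 35213506452) (nat_lit 504) (nat_lit 40883121418) (nat_lit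 55) (nat_lit 5) (nat_lit 60) (nat_lit 5) (nat_lit 61) (nat_lit 5) (nat_lit 410) (nat_lit 383) (nat_lit 95)))) (XT.nd (nat_lit 94) (nat_lit 420) (nat_lit 0) (XT.lf (nat_lit 0) (nat_lit 50473188458) (nat_lit 420) (nat_lit 9898934573) (nat_lit 504) (nat_lit 36896660601) (nat_lit 55) (nat_lit 5) (nat_lit 60) (nat_lit 5) (nat_lit 61) (nat_lit 5) (nat_lit 411) (nat_lit 383) (nat_lit 94)) (XT.nd (nat_lit 94) (nat_lit 420) (nat_lit 0) (XT.lf (nat_lit 0) (nat_lit 66610335715) (nat_lit 504) (nat_lit 16747203679) (nat_lit 84) (nat_lit 15874001773) (nat_lit 55) (nat_lit 5) (nat_lit 61) (nat_lit 5) (nat_lit 56) (nat_lit 5) (nat_lit 412) (nat_lit 383) (nat_lit 93)) (XT.lf (nat_lit 0) (nat_lit 14421755953) (nat_lit 420) (nat_lit 58864225770) (nat_lit 504) (nat_lit 27961598681) (nat_lit 50) (nat_lit 5) (nat_lit 55) (nat_lit 5) (nat_lit 56) (nat_lit 5) (nat_lit 413) (nat_lit 383) (nat_lit 92)))))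 (XT.nd (nat_lit 282) (nat_lit 84) (nat_lit 0) (XT.nd (nat_lit 94) (nat_lit 336) (nat_lit 0) (XT.lf (nat_lit 0) (nat_lit 46911732410) (nat_lit 420) (nat_lit 33431392418) (nat_lit 504) (nat_lit 22977582595) (nat_lit 50) (nat_lit 5) (nat_lit 55) (nat_lit 5) (nat_lit 56) (nat_lit 5) (nat_lit 414) (nat_lit 383) (nat_lit 91)) (XT.nd (nat_lit 94) (nat_lit 336) (nat_lit 0) (XT.lf (nat_lit 0) (nat_lit 80408652897) (nat_lit 420) (nat_lit 7210139734) (nat_lit 504) (nat_lit 17839318026) (nat_lit 50) (nat_lit 5) (nat_lit 55) (nat_lit 5) (nat_lit 56) (nat_lit 5) (nat_lit 415) (nat_lit 383) (nat_lit 90)) (XT.lf (nat_lit 0) (nat_lit 7230989722) (nat_lit 336) (nat_lit 88157165676) (nat_lit 420) (nat_lit 12265306945) (nat_lit 46) (nat_lit 5) (nat_lit 50) (nat_lit 5) (nat_lit 51) (nat_lit 5) (nat_lit 416) (nat_lit 383) (nat_lit 89)))) (XT.nd (nat_lit 94) (nat_lit 84) (nat_lit 0) (XT.lf (nat_lit 0)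 (nat_lit 40967662967) (nat_lit 336) (nat_lit 62764932062) (nat_lit 420) (nat_lit 6173915409) (nat_lit 46) (nat_lit 5) (nat_lit 50) (nat_lit 5) (nat_lit 51) (nat_lit 5) (nat_lit 417) (nat_lit 383) (nat_lit 88)) (XT.nd (nat_lit 94) (nat_lit 0) (nat_lit 0) (XT.lf (nat_lit 0) (nat_lit 103936103) (nat_lit 420) (nat_lit 36480527771) (nat_lit 84) (nat_lit 75644915069) (nat_lit 45) (nat_lit 5) (nat_lit 50) (nat_lit 5) (nat_lit 46) (nat_lit 5) (nat_lit 418) (nat_lit 383) (nat_lit 87)) (XT.lf (nat_lit 0) (nat_lit 6447929956) (nat_lit 420) (nat_lit 3079380706) (nat_lit 84) (nat_lit 105094996577) (nat_lit 45) (nat_lit 5) (nat_lit 50) (nat_lit 5) (nat_lit 46) (nat_lit 5) (nat_lit 419) (nat_lit 383) (nat_lit 86)))))) (XT.nd (nat_lit 564) (nat_lit 336) (nat_lit 0) (XT.nd (nat_lit 282) (nat_lit 336) (nat_lit 0) (XT.nd (nat_lit 94) (nat_lit 0) (nat_lit 0) (XT.lf (nat_lit 0) (nat_lit 13491296940)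 (nat_lit 504) (nat_lit 85263312041) (nat_lit 84) (nat_lit 18319224699) (nat_lit 40) (nat_lit 5) (nat_lit 46) (nat_lit 5) (nat_lit 41) (nat_lit 5) (nat_lit 420) (nat_lit 383) (nat_lit 85)) (XT.nd (nat_lit 94) (nat_lit 0) (nat_lit 0) (XT.lf (nat_lit 0) (nat_lit 20882708033) (nat_lit 504) (nat_lit 51851073832) (nat_lit 84) (nat_lit 46863556198) (nat_lit 40) (nat_lit 5) (nat_lit 46) (nat_lit 5) (nat_lit 41) (nat_lit 5) (nat_lit 421) (nat_lit 383) (nat_lit 84)) (XT.lf (nat_lit 0) (nat_lit 28503045884) (nat_lit 504) (nat_lit 17403283493) (nat_lit 84) (nat_lit 76292749398) (nat_lit 40) (nat_lit 5) (nat_lit 46) (nat_lit 5) (nat_lit 41) (nat_lit 5) (nat_lit 422) (nat_lit 383) (nat_lit 83)))) (XT.nd (nat_lit 94) (nat_lit 0) (nat_lit 0) (XT.lf (nat_lit 0) (nat_lit 18484591242) (nat_lit 336) (nat_lit 18058191636) (nat_lit 420) (nat_lit 88333013579) (nat_lit 36) (nat_lit 5) (nat_lit 40) (nat_lit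 5) (nat_lit 41) (nat_lit 5) (nat_lit 423) (nat_lit 383) (nat_lit 82)) (XT.nd (nat_lit 94) (nat_lit 0) (nat_lit 0) (XT.lf (nat_lit 0) (nat_lit 45120748547) (nat_lit 420) (nat_lit 71883695161) (nat_lit 84) (nat_lit 10622090978) (nat_lit 36) (nat_lit 5) (nat_lit 41) (nat_lit 5) (nat_lit 37) (nat_lit 5) (nat_lit 424) (nat_lit 383) (nat_lit 81)) (XT.lf (nat_lit 0) (nat_lit 54149132797) (nat_lit 420) (nat_lit 36491363626) (nat_lit 84) (nat_lit 39816330991) (nat_lit 36) (nat_lit 5) (nat_lit 41) (nat_lit 5) (nat_lit 37) (nat_lit 5) (nat_lit 425) (nat_lit 383) (nat_lit 80))))) (XT.nd (nat_lit 51888) (nat_lit 0) (nat_lit 4116) (XT.nd (nat_lit 94) (nat_lit 336) (nat_lit 0) (XT.lf (nat_lit 0) (nat_lit 63457211530) (nat_lit 420) (nat_lit 2081752) (nat_lit 84) (nat_lit 69915572811) (nat_lit 36) (nat_lit 5) (nat_lit 41) (nat_lit 5) (nat_lit 37) (nat_lit 5) (nat_lit 426) (nat_lit 383) (nat_lit 79))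 (XT.nd (nat_lit 51700) (nat_lit 0) (nat_lit 4116) (XT.lf (nat_lit 0) (nat_lit 38391668863) (nat_lit 336) (nat_lit 35042842097) (nat_lit 420) (nat_lit 62937053328) (nat_lit 32) (nat_lit 5) (nat_lit 36) (nat_lit 5) (nat_lit 37) (nat_lit 5) (nat_lit 427) (nat_lit 383) (nat_lit 78)) (XT.lf (nat_lit 0) (nat_lit 13118102842) (nat_lit 0) (nat_lit 13118102842) (nat_lit 924) (nat_lit 4399769307) (nat_lit 81) (nat_lit 5) (nat_lit 81) (nat_lit 3) (nat_lit 92) (nat_lit 3) (nat_lit 384) (nat_lit 384) (nat_lit 120)))) (XT.nd (nat_lit 188) (nat_lit 0) (nat_lit 0) (XT.nd (nat_lit 94) (nat_lit 0) (nat_lit 0) (XT.lf (nat_lit 0) (nat_lit 46733472436) (nat_lit 0) (nat_lit 6565684708) (nat_lit 924) (nat_lit 8921993980) (nat_lit 81) (nat_lit 5) (nat_lit 81) (nat_lit 3) (nat_lit 92) (nat_lit 3) (nat_lit 385) (nat_lit 384) (nat_lit 119)) (XT.lf (nat_lit 84) (nat_lit 4623179110) (nat_lit 0) (nat_lit 49709727968)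 (nat_lit 1008) (nat_lit 8861251742) (nat_lit 82) (nat_lit 5) (nat_lit 81) (nat_lit 5) (nat_lit 93) (nat_lit 5) (nat_lit 386) (nat_lit 384) (nat_lit 118))) (XT.nd (nat_lit 94) (nat_lit 0) (nat_lit 0) (XT.lf (nat_lit 84) (nat_lit 25616980994) (nat_lit 0) (nat_lit 30009328606) (nat_lit 1008) (nat_lit 8563968187) (nat_lit 82) (nat_lit 5) (nat_lit 81) (nat_lit 5) (nat_lit 93) (nat_lit 5) (nat_lit 387) (nat_lit 384) (nat_lit 117)) (XT.lf (nat_lit 84) (nat_lit 47261308607) (nat_lit 0) (nat_lit 9697989853) (nat_lit 1008) (nat_lit 8257997478) (nat_lit 82) (nat_lit 5) (nat_lit 81) (nat_lit 5) (nat_lit 93) (nat_lit 5) (nat_lit 388) (nat_lit 384) (nat_lit 116))))))) (XT.nd (nat_lit 1222) (nat_lit 1848) (nat_lit 0) (XT.nd (nat_lit 564) (nat_lit 840) (nat_lit 0) (XT.nd (nat_lit 282) (nat_lit 0) (nat_lit 84) (XT.nd (nat_lit 94) (nat_lit 0) (nat_lit 0) (XT.lf (nat_lit 84) (nat_lit 3254196840) (nat_lit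 0) (nat_lit 55222735481) (nat_lit 1008) (nat_lit 7794779941) (nat_lit 83) (nat_lit 5) (nat_lit 82) (nat_lit 5) (nat_lit 94) (nat_lit 5) (nat_lit 389) (nat_lit 384) (nat_lit 115)) (XT.nd (nat_lit 94) (nat_lit 0) (nat_lit 0) (XT.lf (nat_lit 84) (nat_lit 25401035337) (nat_lit 0) (nat_lit 34925704854) (nat_lit 1008) (nat_lit 7023239845) (nat_lit 83) (nat_lit 5) (nat_lit 82) (nat_lit 5) (nat_lit 94) (nat_lit 5) (nat_lit 390) (nat_lit 384) (nat_lit 114)) (XT.lf (nat_lit 84) (nat_lit 48234142844) (nat_lit 0) (nat_lit 13999283930) (nat_lit 1008) (nat_lit 6228265152) (nat_lit 83) (nat_lit 5) (nat_lit 82) (nat_lit 5) (nat_lit 94) (nat_lit 5) (nat_lit 391) (nat_lit 384) (nat_lit 113)))) (XT.nd (nat_lit 94) (nat_lit 0) (nat_lit 0) (XT.lf (nat_lit 84) (nat_lit 2134773794) (nat_lit 0) (nat_lit 62160327911) (nat_lit 1008) (nat_lit 5309796154) (nat_lit 84) (nat_lit 5) (nat_lit 83) (nat_lit 5) (nat_lit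 95) (nat_lit 5) (nat_lit 392) (nat_lit 384) (nat_lit 112)) (XT.nd (nat_lit 94) (nat_lit 0) (nat_lit 0) (XT.lf (nat_lit 84) (nat_lit 25472727743) (nat_lit 0) (nat_lit 41300386168) (nat_lit 1008) (nat_lit 3999507265) (nat_lit 84) (nat_lit 5) (nat_lit 83) (nat_lit 5) (nat_lit 95) (nat_lit 5) (nat_lit 393) (nat_lit 384) (nat_lit 111)) (XT.lf (nat_lit 84) (nat_lit 49533876463) (nat_lit 0) (nat_lit 19793642281) (nat_lit 1008) (nat_lit 2649041463) (nat_lit 84) (nat_lit 5) (nat_lit 83) (nat_lit 5) (nat_lit 95) (nat_lit 5) (nat_lit 394) (nat_lit 384) (nat_lit 110))))) (XT.nd (nat_lit 282) (nat_lit 0) (nat_lit 0) (XT.nd (nat_lit 94) (nat_lit 1008) (nat_lit 0) (XT.lf (nat_lit 84) (nat_lit 1121802741) (nat_lit 0) (nat_lit 70873632259) (nat_lit 1008) (nat_lit 1221325276) (nat_lit 85) (nat_lit 5) (nat_lit 84) (nat_lit 5) (nat_lit 96) (nat_lit 5) (nat_lit 395) (nat_lit 384) (nat_lit 109)) (XT.nd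 (nat_lit 94) (nat_lit 0) (nat_lit 0) (XT.lf (nat_lit 0) (nat_lit 684284937) (nat_lit 1008) (nat_lit 48803206780) (nat_lit 1092) (nat_lit 24994241339) (nat_lit 72) (nat_lit 5) (nat_lit 84) (nat_lit 5) (nat_lit 85) (nat_lit 5) (nat_lit 396) (nat_lit 384) (nat_lit 108)) (XT.lf (nat_lit 0) (nat_lit 2623202562) (nat_lit 1008) (nat_lit 24802192854) (nat_lit 1092) (nat_lit 48360152381) (nat_lit 72) (nat_lit 5) (nat_lit 84) (nat_lit 5) (nat_lit 85) (nat_lit 5) (nat_lit 397) (nat_lit 384) (nat_lit 107)))) (XT.nd (nat_lit 188) (nat_lit 0) (nat_lit 84) (XT.nd (nat_lit 94) (nat_lit 0) (nat_lit 84) (XT.lf (nat_lit 0) (nat_lit 4621841853) (nat_lit 1008) (nat_lit 57428602) (nat_lit 1092) (nat_lit 72450524923) (nat_lit 72) (nat_lit 5) (nat_lit 84) (nat_lit 5) (nat_lit 85) (nat_lit 5) (nat_lit 398) (nat_lit 384) (nat_lit 106)) (XT.lf (nat_lit 0) (nat_lit 7128623243) (nat_lit 1008) (nat_lit 52719056909)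 (nat_lit 1092) (nat_lit 18654205343) (nat_lit 73) (nat_lit 5) (nat_lit 85) (nat_lit 5) (nat_lit 86) (nat_lit 5) (nat_lit 399) (nat_lit 384) (nat_lit 105))) (XT.nd (nat_lit 94) (nat_lit 0) (nat_lit 0) (XT.lf (nat_lit 0) (nat_lit 9761214627) (nat_lit 1008) (nat_lit 27539289313) (nat_lit 1092) (nat_lit 42614517870) (nat_lit 73) (nat_lit 5) (nat_lit 85) (nat_lit 5) (nat_lit 86) (nat_lit 5) (nat_lit 400) (nat_lit 384) (nat_lit 104)) (XT.lf (nat_lit 0) (nat_lit 12475063556) (nat_lit 1008) (nat_lit 1579224998) (nat_lit 1092) (nat_lit 67317690156) (nat_lit 73) (nat_lit 5) (nat_lit 85) (nat_lit 5) (nat_lit 86) (nat_lit 5) (nat_lit 401) (nat_lit 384) (nat_lit 103)))))) (XT.nd (nat_lit 564) (nat_lit 1344) (nat_lit 0) (XT.nd (nat_lit 282) (nat_lit 672) (nat_lit 0) (XT.nd (nat_lit 94) (nat_lit 0) (nat_lit 0) (XT.lf (nat_lit 0) (nat_lit 15628620893) (nat_lit 1008) (nat_lit 57263956628) (nat_lit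 84) (nat_lit 9970503150) (nat_lit 74) (nat_lit 5) (nat_lit 86) (nat_lit 5) (nat_lit 75) (nat_lit 5) (nat_lit 402) (nat_lit 384) (nat_lit 102)) (XT.nd (nat_lit 94) (nat_lit 0) (nat_lit 0) (XT.lf (nat_lit 0) (nat_lit 19039999446) (nat_lit 1008) (nat_lit 30890604450) (nat_lit 84) (nat_lit 34464843285) (nat_lit 74) (nat_lit 5) (nat_lit 86) (nat_lit 5) (nat_lit 75) (nat_lit 5) (nat_lit 403) (nat_lit 384) (nat_lit 101)) (XT.lf (nat_lit 0) (nat_lit 22556806939) (nat_lit 1008) (nat_lit 3699948386) (nat_lit 84) (nat_lit 59718573976) (nat_lit 74) (nat_lit 5) (nat_lit 86) (nat_lit 5) (nat_lit 75) (nat_lit 5) (nat_lit 404) (nat_lit 384) (nat_lit 100)))) (XT.nd (nat_lit 94) (nat_lit 0) (nat_lit 0) (XT.lf (nat_lit 0) (nat_lit 24833699812) (nat_lit 672) (nat_lit 1594974969) (nat_lit 756) (nat_lit 61167887911) (nat_lit 66) (nat_lit 5) (nat_lit 74) (nat_lit 5) (nat_lit 75) (nat_lit 5) (nat_lit 405)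 (nat_lit 384) (nat_lit 99)) (XT.nd (nat_lit 94) (nat_lit 0) (nat_lit 0) (XT.lf (nat_lit 0) (nat_lit 30695688328) (nat_lit 756) (nat_lit 35173605014) (nat_lit 84) (nat_lit 23390234404) (nat_lit 66) (nat_lit 5) (nat_lit 75) (nat_lit 5) (nat_lit 67) (nat_lit 5) (nat_lit 406) (nat_lit 384) (nat_lit 98)) (XT.lf (nat_lit 0) (nat_lit 35110994645) (nat_lit 756) (nat_lit 6745656173) (nat_lit 84) (nat_lit 49116899437) (nat_lit 66) (nat_lit 5) (nat_lit 75) (nat_lit 5) (nat_lit 67) (nat_lit 5) (nat_lit 407) (nat_lit 384) (nat_lit 97))))) (XT.nd (nat_lit 282) (nat_lit 840) (nat_lit 0) (XT.nd (nat_lit 94) (nat_lit 0) (nat_lit 0) (XT.lf (nat_lit 0) (nat_lit 23027251618) (nat_lit 504) (nat_lit 16864068481) (nat_lit 588) (nat_lit 52842316837) (nat_lit 60) (nat_lit 5) (nat_lit 66) (nat_lit 5) (nat_lit 67) (nat_lit 5) (nat_lit 408) (nat_lit 384) (nat_lit 96)) (XT.nd (nat_lit 94) (nat_lit 0) (nat_lit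 0) (XT.lf (nat_lit 0) (nat_lit 44979006192) (nat_lit 588) (nat_lit 40769285093) (nat_lit 84) (nat_lit 8795062628) (nat_lit 60) (nat_lit 5) (nat_lit 67) (nat_lit 5) (nat_lit 61) (nat_lit 5) (nat_lit 409) (nat_lit 384) (nat_lit 95)) (XT.lf (nat_lit 0) (nat_lit 50396616704) (nat_lit 588) (nat_lit 11107870210) (nat_lit 84) (nat_lit 34899348653) (nat_lit 60) (nat_lit 5) (nat_lit 67) (nat_lit 5) (nat_lit 61) (nat_lit 5) (nat_lit 410) (nat_lit 384) (nat_lit 94)))) (XT.nd (nat_lit 188) (nat_lit 420) (nat_lit 0) (XT.nd (nat_lit 94) (nat_lit 0) (nat_lit 0) (XT.lf (nat_lit 0) (nat_lit 19873201238) (nat_lit 420) (nat_lit 36305851145) (nat_lit 504) (nat_lit 42136838296) (nat_lit 55) (nat_lit 5) (nat_lit 60) (nat_lit 5) (nat_lit 61) (nat_lit 5) (nat_lit 411) (nat_lit 384) (nat_lit 93)) (XT.lf (nat_lit 0) (nat_lit 52049921414) (nat_lit 420) (nat_lit 10206505710) (nat_lit 504) (nat_lit 38027207918)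 (nat_lit 55) (nat_lit 5) (nat_lit 60) (nat_lit 5) (nat_lit 61) (nat_lit 5) (nat_lit 412) (nat_lit 384) (nat_lit 92))) (XT.nd (nat_lit 94) (nat_lit 420) (nat_lit 0) (XT.lf (nat_lit 0) (nat_lit 68687633709) (nat_lit 504) (nat_lit 17254192422) (nat_lit 84) (nat_lit 16365426597) (nat_lit 55) (nat_lit 5) (nat_lit 61) (nat_lit 5) (nat_lit 56) (nat_lit 5) (nat_lit 413) (nat_lit 384) (nat_lit 91)) (XT.lf (nat_lit 0) (nat_lit 14880881702) (nat_lit 420) (nat_lit 60689090424) (nat_lit 504) (nat_lit 28815827368) (nat_lit 50) (nat_lit 5) (nat_lit 55) (nat_lit 5) (nat_lit 56) (nat_lit 5) (nat_lit 414) (nat_lit 384) (nat_lit 90))))))))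
noncomputable def xc238 : XT := (XT.nd (nat_lit 54144) (nat_lit 0) (nat_lit 336) (XT.nd (nat_lit 52922) (nat_lit 0) (nat_lit 3024) (XT.nd (nat_lit 564) (nat_lit 756) (nat_lit 0) (XT.nd (nat_lit 282) (nat_lit 84) (nat_lit 0) (XT.nd (nat_lit 94) (nat_lit 336) (nat_lit 0) (XT.lf (nat_lit 0) (nat_lit 48377685071) (nat_lit 420) (nat_lit 34467837024) (nat_lit 504) (nat_lit 23677685063) (nat_lit 50) (nat_lit 5) (nat_lit 55) (nat_lit 5) (nat_lit 56) (nat_lit 5) (nat_lit 415) (nat_lit 384) (nat_lit 89)) (XT.nd (nat_lit 94) (nat_lit 336) (nat_lit 0) (XT.lf (nat_lit 0) (nat_lit 82912658631) (nat_lit 420) (nat_lit 7433723358) (nat_lit 504) (nat_lit 18380501199) (nat_lit 50) (nat_lit 5) (nat_lit 55) (nat_lit 5) (nat_lit 56) (nat_lit 5) (nat_lit 416) (nat_lit 384) (nat_lit 88)) (XT.lf (nat_lit 0) (nat_lit 7466798353) (nat_lit 336) (nat_lit 90889568553) (nat_lit 420) (nat_lit 12633933205) (nat_lit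 46) (nat_lit 5) (nat_lit 50) (nat_lit 5) (nat_lit 51) (nat_lit 5) (nat_lit 417) (nat_lit 384) (nat_lit 87)))) (XT.nd (nat_lit 94) (nat_lit 84) (nat_lit 0) (XT.lf (nat_lit 0) (nat_lit 42248958240) (nat_lit 336) (nat_lit 64710189807) (nat_lit 420) (nat_lit 6354057267) (nat_lit 46) (nat_lit 5) (nat_lit 50) (nat_lit 5) (nat_lit 51) (nat_lit 5) (nat_lit 418) (nat_lit 384) (nat_lit 86)) (XT.nd (nat_lit 94) (nat_lit 0) (nat_lit 0) (XT.lf (nat_lit 0) (nat_lit 117849556) (nat_lit 420) (nat_lit 37600179639) (nat_lit 84) (nat_lit 77990062428) (nat_lit 45) (nat_lit 5) (nat_lit 50) (nat_lit 5) (nat_lit 46) (nat_lit 5) (nat_lit 419) (nat_lit 384) (nat_lit 85)) (XT.lf (nat_lit 0) (nat_lit 6658185749) (nat_lit 420) (nat_lit 3163935113) (nat_lit 84) (nat_lit 108353091802) (nat_lit 45) (nat_lit 5) (nat_lit 50) (nat_lit 5) (nat_lit 46) (nat_lit 5) (nat_lit 420) (nat_lit 384) (nat_lit 84))))) (XT.nd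 (nat_lit 282) (nat_lit 336) (nat_lit 0) (XT.nd (nat_lit 94) (nat_lit 0) (nat_lit 0) (XT.lf (nat_lit 0) (nat_lit 13919698661) (nat_lit 504) (nat_lit 87895307183) (nat_lit 84) (nat_lit 18887738676) (nat_lit 40) (nat_lit 5) (nat_lit 46) (nat_lit 5) (nat_lit 41) (nat_lit 5) (nat_lit 421) (nat_lit 384) (nat_lit 83)) (XT.nd (nat_lit 94) (nat_lit 0) (nat_lit 0) (XT.lf (nat_lit 0) (nat_lit 21539937662) (nat_lit 504) (nat_lit 53447625374) (nat_lit 84) (nat_lit 48316925870) (nat_lit 40) (nat_lit 5) (nat_lit 46) (nat_lit 5) (nat_lit 41) (nat_lit 5) (nat_lit 422) (nat_lit 384) (nat_lit 82)) (XT.lf (nat_lit 0) (nat_lit 29396209346) (nat_lit 504) (nat_lit 17932279223) (nat_lit 84) (nat_lit 78658406035) (nat_lit 40) (nat_lit 5) (nat_lit 46) (nat_lit 5) (nat_lit 41) (nat_lit 5) (nat_lit 423) (nat_lit 384) (nat_lit 81)))) (XT.nd (nat_lit 94) (nat_lit 0) (nat_lit 0) (XT.lf (nat_lit 0) (nat_lit 19068013265)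 (nat_lit 336) (nat_lit 18616980367) (nat_lit 420) (nat_lit 91061604396) (nat_lit 36) (nat_lit 5) (nat_lit 40) (nat_lit 5) (nat_lit 41) (nat_lit 5) (nat_lit 424) (nat_lit 384) (nat_lit 80)) (XT.nd (nat_lit 94) (nat_lit 0) (nat_lit 0) (XT.lf (nat_lit 0) (nat_lit 46528603833) (nat_lit 420) (nat_lit 74101674829) (nat_lit 84) (nat_lit 10952340644) (nat_lit 36) (nat_lit 5) (nat_lit 41) (nat_lit 5) (nat_lit 37) (nat_lit 5) (nat_lit 425) (nat_lit 384) (nat_lit 79)) (XT.lf (nat_lit 0) (nat_lit 55836594013) (nat_lit 420) (nat_lit 37612494170) (nat_lit 84) (nat_lit 41051573087) (nat_lit 36) (nat_lit 5) (nat_lit 41) (nat_lit 5) (nat_lit 37) (nat_lit 5) (nat_lit 426) (nat_lit 384) (nat_lit 78)))))) (XT.nd (nat_lit 564) (nat_lit 756) (nat_lit 0) (XT.nd (nat_lit 282) (nat_lit 0) (nat_lit 0) (XT.nd (nat_lit 94) (nat_lit 0) (nat_lit 0) (XT.lf (nat_lit 0) (nat_lit 13531409148) (nat_lit 0) (nat_lit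 13531409148) (nat_lit 924) (nat_lit 4522362934) (nat_lit 81) (nat_lit 5) (nat_lit 81) (nat_lit 3) (nat_lit 92) (nat_lit 3) (nat_lit 385) (nat_lit 385) (nat_lit 118)) (XT.nd (nat_lit 94) (nat_lit 0) (nat_lit 0) (XT.lf (nat_lit 0) (nat_lit 48195100708) (nat_lit 0) (nat_lit 6782111560) (nat_lit 924) (nat_lit 9171807178) (nat_lit 81) (nat_lit 5) (nat_lit 81) (nat_lit 3) (nat_lit 92) (nat_lit 3) (nat_lit 386) (nat_lit 385) (nat_lit 117)) (XT.lf (nat_lit 84) (nat_lit 4780361731) (nat_lit 0) (nat_lit 51261885033) (nat_lit 1008) (nat_lit 9109972886) (nat_lit 82) (nat_lit 5) (nat_lit 81) (nat_lit 5) (nat_lit 93) (nat_lit 5) (nat_lit 387) (nat_lit 385) (nat_lit 116)))) (XT.nd (nat_lit 94) (nat_lit 0) (nat_lit 0) (XT.lf (nat_lit 84) (nat_lit 26424554610) (nat_lit 0) (nat_lit 30950437868) (nat_lit 1008) (nat_lit 8804254635) (nat_lit 82) (nat_lit 5) (nat_lit 81) (nat_lit 5) (nat_lit 93) (nat_lit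 5) (nat_lit 388) (nat_lit 385) (nat_lit 115)) (XT.nd (nat_lit 94) (nat_lit 0) (nat_lit 84) (XT.lf (nat_lit 84) (nat_lit 48739452050) (nat_lit 0) (nat_lit 10009122277) (nat_lit 1008) (nat_lit 8489556441) (nat_lit 82) (nat_lit 5) (nat_lit 81) (nat_lit 5) (nat_lit 93) (nat_lit 5) (nat_lit 389) (nat_lit 385) (nat_lit 114)) (XT.lf (nat_lit 84) (nat_lit 3368983044) (nat_lit 0) (nat_lit 56943601038) (nat_lit 1008) (nat_lit 8012675871) (nat_lit 83) (nat_lit 5) (nat_lit 82) (nat_lit 5) (nat_lit 94) (nat_lit 5) (nat_lit 390) (nat_lit 385) (nat_lit 113))))) (XT.nd (nat_lit 282) (nat_lit 840) (nat_lit 0) (XT.nd (nat_lit 94) (nat_lit 0) (nat_lit 0) (XT.lf (nat_lit 84) (nat_lit 26201955408) (nat_lit 0) (nat_lit 36017093031) (nat_lit 1008) (nat_lit 7217931911) (nat_lit 83) (nat_lit 5) (nat_lit 82) (nat_lit 5) (nat_lit 94) (nat_lit 5) (nat_lit 391) (nat_lit 385) (nat_lit 112)) (XT.nd (nat_lit 94)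 (nat_lit 0) (nat_lit 84) (XT.lf (nat_lit 84) (nat_lit 49742483692) (nat_lit 0) (nat_lit 14441691728) (nat_lit 1008) (nat_lit 6399005418) (nat_lit 83) (nat_lit 5) (nat_lit 82) (nat_lit 5) (nat_lit 94) (nat_lit 5) (nat_lit 392) (nat_lit 385) (nat_lit 111)) (XT.lf (nat_lit 84) (nat_lit 2214799734) (nat_lit 0) (nat_lit 64094371969) (nat_lit 1008) (nat_lit 5452677470) (nat_lit 84) (nat_lit 5) (nat_lit 83) (nat_lit 5) (nat_lit 95) (nat_lit 5) (nat_lit 393) (nat_lit 385) (nat_lit 110)))) (XT.nd (nat_lit 188) (nat_lit 924) (nat_lit 0) (XT.nd (nat_lit 94) (nat_lit 0) (nat_lit 0) (XT.lf (nat_lit 84) (nat_lit 26275813876) (nat_lit 0) (nat_lit 42587559335) (nat_lit 1008) (nat_lit 4102422771) (nat_lit 84) (nat_lit 5) (nat_lit 83) (nat_lit 5) (nat_lit 95) (nat_lit 5) (nat_lit 394) (nat_lit 385) (nat_lit 109)) (XT.lf (nat_lit 84) (nat_lit 51082454348) (nat_lit 0) (nat_lit 20413900085) (nat_lit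 1008) (nat_lit 2710726037) (nat_lit 84) (nat_lit 5) (nat_lit 83) (nat_lit 5) (nat_lit 95) (nat_lit 5) (nat_lit 395) (nat_lit 385) (nat_lit 108))) (XT.nd (nat_lit 94) (nat_lit 1008) (nat_lit 0) (XT.lf (nat_lit 84) (nat_lit 1170285274) (nat_lit 0) (nat_lit 73076170943) (nat_lit 1008) (nat_lit 1239290937) (nat_lit 85) (nat_lit 5) (nat_lit 84) (nat_lit 5) (nat_lit 96) (nat_lit 5) (nat_lit 396) (nat_lit 385) (nat_lit 107)) (XT.lf (nat_lit 0) (nat_lit 724406183) (nat_lit 1008) (nat_lit 50302292443) (nat_lit 1092) (nat_lit 25763251561) (nat_lit 72) (nat_lit 5) (nat_lit 84) (nat_lit 5) (nat_lit 85) (nat_lit 5) (nat_lit 397) (nat_lit 385) (nat_lit 106))))))) (XT.nd (nat_lit 1222) (nat_lit 1680) (nat_lit 0) (XT.nd (nat_lit 564) (nat_lit 1008) (nat_lit 0) (XT.nd (nat_lit 282) (nat_lit 0) (nat_lit 84) (XT.nd (nat_lit 94) (nat_lit 0) (nat_lit 0) (XT.lf (nat_lit 0) (nat_lit 2722861718) (nat_lit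 1008) (nat_lit 25557662437) (nat_lit 1092) (nat_lit 49853680578) (nat_lit 72) (nat_lit 5) (nat_lit 84) (nat_lit 5) (nat_lit 85) (nat_lit 5) (nat_lit 398) (nat_lit 385) (nat_lit 105)) (XT.nd (nat_lit 94) (nat_lit 0) (nat_lit 84) (XT.lf (nat_lit 0) (nat_lit 4782907385) (nat_lit 1008) (nat_lit 46213354) (nat_lit 1092) (nat_lit 74691024147) (nat_lit 72) (nat_lit 5) (nat_lit 84) (nat_lit 5) (nat_lit 85) (nat_lit 5) (nat_lit 399) (nat_lit 385) (nat_lit 104)) (XT.lf (nat_lit 0) (nat_lit 7366946938) (nat_lit 1008) (nat_lit 54339781062) (nat_lit 1092) (nat_lit 19228059501) (nat_lit 73) (nat_lit 5) (nat_lit 85) (nat_lit 5) (nat_lit 86) (nat_lit 5) (nat_lit 400) (nat_lit 385) (nat_lit 103)))) (XT.nd (nat_lit 94) (nat_lit 0) (nat_lit 0) (XT.lf (nat_lit 0) (nat_lit 10080627388) (nat_lit 1008) (nat_lit 28379848590) (nat_lit 1092) (nat_lit 43931274803) (nat_lit 73) (nat_lit 5) (nat_lit 85) (nat_lit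 5) (nat_lit 86) (nat_lit 5) (nat_lit 401) (nat_lit 385) (nat_lit 102)) (XT.nd (nat_lit 94) (nat_lit 0) (nat_lit 84) (XT.lf (nat_lit 0) (nat_lit 12878100038) (nat_lit 1008) (nat_lit 1615417934) (nat_lit 1092) (nat_lit 69400374515) (nat_lit 73) (nat_lit 5) (nat_lit 85) (nat_lit 5) (nat_lit 86) (nat_lit 5) (nat_lit 402) (nat_lit 385) (nat_lit 101)) (XT.lf (nat_lit 0) (nat_lit 16129019747) (nat_lit 1008) (nat_lit 59025869738) (nat_lit 84) (nat_lit 10276344825) (nat_lit 74) (nat_lit 5) (nat_lit 86) (nat_lit 5) (nat_lit 75) (nat_lit 5) (nat_lit 403) (nat_lit 385) (nat_lit 100))))) (XT.nd (nat_lit 282) (nat_lit 504) (nat_lit 0) (XT.nd (nat_lit 94) (nat_lit 672) (nat_lit 0) (XT.lf (nat_lit 0) (nat_lit 19645672607) (nat_lit 1008) (nat_lit 31835342631) (nat_lit 84) (nat_lit 35530107042) (nat_lit 74) (nat_lit 5) (nat_lit 86) (nat_lit 5) (nat_lit 75) (nat_lit 5) (nat_lit 404) (nat_lit 385) (nat_lit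 99)) (XT.nd (nat_lit 94) (nat_lit 672) (nat_lit 0) (XT.lf (nat_lit 0) (nat_lit 23271037089) (nat_lit 1008) (nat_lit 3802163219) (nat_lit 84) (nat_lit 61566797990) (nat_lit 74) (nat_lit 5) (nat_lit 86) (nat_lit 5) (nat_lit 75) (nat_lit 5) (nat_lit 405) (nat_lit 385) (nat_lit 98)) (XT.lf (nat_lit 0) (nat_lit 25615901688) (nat_lit 672) (nat_lit 1646703640) (nat_lit 756) (nat_lit 63048897820) (nat_lit 66) (nat_lit 5) (nat_lit 74) (nat_lit 5) (nat_lit 75) (nat_lit 5) (nat_lit 406) (nat_lit 385) (nat_lit 97)))) (XT.nd (nat_lit 188) (nat_lit 504) (nat_lit 0) (XT.nd (nat_lit 94) (nat_lit 0) (nat_lit 0) (XT.lf (nat_lit 0) (nat_lit 31661434072) (nat_lit 756) (nat_lit 36251442801) (nat_lit 84) (nat_lit 24113160554) (nat_lit 66) (nat_lit 5) (nat_lit 75) (nat_lit 5) (nat_lit 67) (nat_lit 5) (nat_lit 407) (nat_lit 385) (nat_lit 96)) (XT.lf (nat_lit 0) (nat_lit 36213188540) (nat_lit 756) (nat_lit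 6942604717) (nat_lit 84) (nat_lit 50637417485) (nat_lit 66) (nat_lit 5) (nat_lit 75) (nat_lit 5) (nat_lit 67) (nat_lit 5) (nat_lit 408) (nat_lit 385) (nat_lit 95))) (XT.nd (nat_lit 94) (nat_lit 0) (nat_lit 0) (XT.lf (nat_lit 0) (nat_lit 23753140037) (nat_lit 504) (nat_lit 17388269994) (nat_lit 588) (nat_lit 54466461996) (nat_lit 60) (nat_lit 5) (nat_lit 66) (nat_lit 5) (nat_lit 67) (nat_lit 5) (nat_lit 409) (nat_lit 385) (nat_lit 94)) (XT.lf (nat_lit 0) (nat_lit 46386396091) (nat_lit 588) (nat_lit 42020945430) (nat_lit 84) (nat_lit 9066364397) (nat_lit 60) (nat_lit 5) (nat_lit 67) (nat_lit 5) (nat_lit 61) (nat_lit 5) (nat_lit 410) (nat_lit 385) (nat_lit 93)))))) (XT.nd (nat_lit 564) (nat_lit 840) (nat_lit 0) (XT.nd (nat_lit 282) (nat_lit 420) (nat_lit 0) (XT.nd (nat_lit 94) (nat_lit 420) (nat_lit 0) (XT.lf (nat_lit 0) (nat_lit 51971560422) (nat_lit 588) (nat_lit 11440393139) (nat_lit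 84) (nat_lit 35979923735) (nat_lit 60) (nat_lit 5) (nat_lit 67) (nat_lit 5) (nat_lit 61) (nat_lit 5) (nat_lit 411) (nat_lit 385) (nat_lit 92)) (XT.nd (nat_lit 94) (nat_lit 0) (nat_lit 0) (XT.lf (nat_lit 0) (nat_lit 20500971847) (nat_lit 420) (nat_lit 37432015523) (nat_lit 504) (nat_lit 43430229496) (nat_lit 55) (nat_lit 5) (nat_lit 60) (nat_lit 5) (nat_lit 61) (nat_lit 5) (nat_lit 412) (nat_lit 385) (nat_lit 91)) (XT.lf (nat_lit 0) (nat_lit 53674818512) (nat_lit 420) (nat_lit 10523569842) (nat_lit 504) (nat_lit 39193586973) (nat_lit 55) (nat_lit 5) (nat_lit 60) (nat_lit 5) (nat_lit 61) (nat_lit 5) (nat_lit 413) (nat_lit 385) (nat_lit 90)))) (XT.nd (nat_lit 94) (nat_lit 420) (nat_lit 0) (XT.lf (nat_lit 0) (nat_lit 70828594796) (nat_lit 504) (nat_lit 17777618936) (nat_lit 84) (nat_lit 16872125230) (nat_lit 55) (nat_lit 5) (nat_lit 61) (nat_lit 5) (nat_lit 56) (nat_lit 5) (nat_lit 414)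 (nat_lit 385) (nat_lit 89)) (XT.nd (nat_lit 94) (nat_lit 0) (nat_lit 0) (XT.lf (nat_lit 0) (nat_lit 15353526529) (nat_lit 420) (nat_lit 62570521519) (nat_lit 504) (nat_lit 29697282330) (nat_lit 50) (nat_lit 5) (nat_lit 55) (nat_lit 5) (nat_lit 56) (nat_lit 5) (nat_lit 415) (nat_lit 385) (nat_lit 88)) (XT.lf (nat_lit 0) (nat_lit 49888389908) (nat_lit 420) (nat_lit 35536407180) (nat_lit 504) (nat_lit 24400213488) (nat_lit 50) (nat_lit 5) (nat_lit 55) (nat_lit 5) (nat_lit 56) (nat_lit 5) (nat_lit 416) (nat_lit 385) (nat_lit 87))))) (XT.nd (nat_lit 282) (nat_lit 504) (nat_lit 0) (XT.nd (nat_lit 94) (nat_lit 336) (nat_lit 0) (XT.lf (nat_lit 0) (nat_lit 85493617004) (nat_lit 420) (nat_lit 7664233971) (nat_lit 504) (nat_lit 18939162098) (nat_lit 50) (nat_lit 5) (nat_lit 55) (nat_lit 5) (nat_lit 56) (nat_lit 5) (nat_lit 417) (nat_lit 385) (nat_lit 86)) (XT.nd (nat_lit 94) (nat_lit 0) (nat_lit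 0) (XT.lf (nat_lit 0) (nat_lit 7709227123) (nat_lit 336) (nat_lit 93706703715) (nat_lit 420) (nat_lit 13014673864) (nat_lit 46) (nat_lit 5) (nat_lit 50) (nat_lit 5) (nat_lit 51) (nat_lit 5) (nat_lit 418) (nat_lit 385) (nat_lit 85)) (XT.lf (nat_lit 0) (nat_lit 43569304482) (nat_lit 336) (nat_lit 66715777501) (nat_lit 420) (nat_lit 6540449850) (nat_lit 46) (nat_lit 5) (nat_lit 50) (nat_lit 5) (nat_lit 51) (nat_lit 5) (nat_lit 419) (nat_lit 385) (nat_lit 84)))) (XT.nd (nat_lit 188) (nat_lit 420) (nat_lit 0) (XT.nd (nat_lit 94) (nat_lit 0) (nat_lit 0) (XT.lf (nat_lit 0) (nat_lit 131561053) (nat_lit 420) (nat_lit 38755206745) (nat_lit 84) (nat_lit 80407900174) (nat_lit 45) (nat_lit 5) (nat_lit 50) (nat_lit 5) (nat_lit 46) (nat_lit 5) (nat_lit 420) (nat_lit 385) (nat_lit 83)) (XT.lf (nat_lit 0) (nat_lit 6874345241) (nat_lit 420) (nat_lit 3251756711) (nat_lit 84) (nat_lit 111712179076)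 (nat_lit 45) (nat_lit 5) (nat_lit 50) (nat_lit 5) (nat_lit 46) (nat_lit 5) (nat_lit 421) (nat_lit 385) (nat_lit 82))) (XT.nd (nat_lit 94) (nat_lit 0) (nat_lit 0) (XT.lf (nat_lit 0) (nat_lit 14360778358) (nat_lit 504) (nat_lit 90609555647) (nat_lit 84) (nat_lit 19473839981) (nat_lit 40) (nat_lit 5) (nat_lit 46) (nat_lit 5) (nat_lit 41) (nat_lit 5) (nat_lit 422) (nat_lit 385) (nat_lit 81)) (XT.lf (nat_lit 0) (nat_lit 22216957048) (nat_lit 504) (nat_lit 55094311596) (nat_lit 84) (nat_lit 49815314495) (nat_lit 40) (nat_lit 5) (nat_lit 46) (nat_lit 5) (nat_lit 41) (nat_lit 5) (nat_lit 423) (nat_lit 385) (nat_lit 80))))))))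
noncomputable def xc239 : XT := (XT.nd (nat_lit 54332) (nat_lit 0) (nat_lit 0) (XT.nd (nat_lit 53110) (nat_lit 0) (nat_lit 2520) (XT.nd (nat_lit 52452) (nat_lit 0) (nat_lit 3780) (XT.nd (nat_lit 52170) (nat_lit 0) (nat_lit 3780) (XT.nd (nat_lit 94) (nat_lit 336) (nat_lit 0) (XT.lf (nat_lit 0) (nat_lit 30316494084) (nat_lit 504) (nat_lit 18478296111) (nat_lit 84) (nat_lit 81097363590) (nat_lit 40) (nat_lit 5) (nat_lit 46) (nat_lit 5) (nat_lit 41) (nat_lit 5) (nat_lit 424) (nat_lit 385) (nat_lit 79)) (XT.nd (nat_lit 94) (nat_lit 0) (nat_lit 0) (XT.lf (nat_lit 0) (nat_lit 19668905379) (nat_lit 336) (nat_lit 19193151681) (nat_lit 420) (nat_lit 93875358006) (nat_lit 36) (nat_lit 5) (nat_lit 40) (nat_lit 5) (nat_lit 41) (nat_lit 5) (nat_lit 425) (nat_lit 385) (nat_lit 78)) (XT.lf (nat_lit 0) (nat_lit 47979562909) (nat_lit 420) (nat_lit 76389028759) (nat_lit 84) (nat_lit 11292770900) (nat_lit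 36) (nat_lit 5) (nat_lit 41) (nat_lit 5) (nat_lit 37) (nat_lit 5) (nat_lit 426) (nat_lit 385) (nat_lit 77)))) (XT.nd (nat_lit 94) (nat_lit 0) (nat_lit 0) (XT.lf (nat_lit 0) (nat_lit 13957134348) (nat_lit 0) (nat_lit 13957134348) (nat_lit 924) (nat_lit 4649574316) (nat_lit 81) (nat_lit 5) (nat_lit 81) (nat_lit 3) (nat_lit 92) (nat_lit 3) (nat_lit 386) (nat_lit 386) (nat_lit 116)) (XT.nd (nat_lit 94) (nat_lit 0) (nat_lit 0) (XT.lf (nat_lit 0) (nat_lit 49701275923) (nat_lit 0) (nat_lit 7004484111) (nat_lit 924) (nat_lit 9430950136) (nat_lit 81) (nat_lit 5) (nat_lit 81) (nat_lit 3) (nat_lit 92) (nat_lit 3) (nat_lit 387) (nat_lit 386) (nat_lit 115)) (XT.lf (nat_lit 84) (nat_lit 4941595821) (nat_lit 0) (nat_lit 52861498207) (nat_lit 1008) (nat_lit 9367943087) (nat_lit 82) (nat_lit 5) (nat_lit 81) (nat_lit 5) (nat_lit 93) (nat_lit 5) (nat_lit 388) (nat_lit 386) (nat_lit 114))))) (XT.nd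 (nat_lit 282) (nat_lit 0) (nat_lit 84) (XT.nd (nat_lit 94) (nat_lit 0) (nat_lit 0) (XT.lf (nat_lit 84) (nat_lit 27256366507) (nat_lit 0) (nat_lit 31920080626) (nat_lit 1008) (nat_lit 9053482398) (nat_lit 82) (nat_lit 5) (nat_lit 81) (nat_lit 5) (nat_lit 93) (nat_lit 5) (nat_lit 389) (nat_lit 386) (nat_lit 113)) (XT.nd (nat_lit 94) (nat_lit 0) (nat_lit 84) (XT.lf (nat_lit 84) (nat_lit 50262645388) (nat_lit 0) (nat_lit 10329278185) (nat_lit 1008) (nat_lit 8729741294) (nat_lit 82) (nat_lit 5) (nat_lit 81) (nat_lit 5) (nat_lit 93) (nat_lit 5) (nat_lit 390) (nat_lit 386) (nat_lit 112)) (XT.lf (nat_lit 84) (nat_lit 3486503939) (nat_lit 0) (nat_lit 58717282667) (nat_lit 1008) (nat_lit 8238732869) (nat_lit 83) (nat_lit 5) (nat_lit 82) (nat_lit 5) (nat_lit 94) (nat_lit 5) (nat_lit 391) (nat_lit 386) (nat_lit 111)))) (XT.nd (nat_lit 188) (nat_lit 0) (nat_lit 84) (XT.nd (nat_lit 94) (nat_lit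 0) (nat_lit 0) (XT.lf (nat_lit 84) (nat_lit 27026905085) (nat_lit 0) (nat_lit 37141799439) (nat_lit 1008) (nat_lit 7420023442) (nat_lit 83) (nat_lit 5) (nat_lit 82) (nat_lit 5) (nat_lit 94) (nat_lit 5) (nat_lit 392) (nat_lit 386) (nat_lit 110)) (XT.lf (nat_lit 84) (nat_lit 51296808213) (nat_lit 0) (nat_lit 14897314845) (nat_lit 1008) (nat_lit 6576361628) (nat_lit 83) (nat_lit 5) (nat_lit 82) (nat_lit 5) (nat_lit 94) (nat_lit 5) (nat_lit 393) (nat_lit 386) (nat_lit 109))) (XT.nd (nat_lit 94) (nat_lit 0) (nat_lit 0) (XT.lf (nat_lit 84) (nat_lit 2296486240) (nat_lit 0) (nat_lit 66087952393) (nat_lit 1008) (nat_lit 5601274760) (nat_lit 84) (nat_lit 5) (nat_lit 83) (nat_lit 5) (nat_lit 95) (nat_lit 5) (nat_lit 394) (nat_lit 386) (nat_lit 108)) (XT.lf (nat_lit 84) (nat_lit 27103000105) (nat_lit 0) (nat_lit 43914228469) (nat_lit 1008) (nat_lit 4209776625) (nat_lit 84) (nat_lit 5) (nat_lit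 83) (nat_lit 5) (nat_lit 95) (nat_lit 5) (nat_lit 395) (nat_lit 386) (nat_lit 107)))))) (XT.nd (nat_lit 564) (nat_lit 504) (nat_lit 0) (XT.nd (nat_lit 282) (nat_lit 0) (nat_lit 0) (XT.nd (nat_lit 94) (nat_lit 924) (nat_lit 0) (XT.lf (nat_lit 84) (nat_lit 52678266493) (nat_lit 0) (nat_lit 21052991701) (nat_lit 1008) (nat_lit 2775533274) (nat_lit 84) (nat_lit 5) (nat_lit 83) (nat_lit 5) (nat_lit 95) (nat_lit 5) (nat_lit 396) (nat_lit 386) (nat_lit 106)) (XT.nd (nat_lit 94) (nat_lit 1008) (nat_lit 0) (XT.lf (nat_lit 84) (nat_lit 1219458898) (nat_lit 0) (nat_lit 75346665154) (nat_lit 1008) (nat_lit 1258991974) (nat_lit 85) (nat_lit 5) (nat_lit 84) (nat_lit 5) (nat_lit 96) (nat_lit 5) (nat_lit 397) (nat_lit 386) (nat_lit 105)) (XT.lf (nat_lit 0) (nat_lit 764651210) (nat_lit 1008) (nat_lit 51848667974) (nat_lit 1092) (nat_lit 26556445311) (nat_lit 72) (nat_lit 5) (nat_lit 84) (nat_lit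 5) (nat_lit 85) (nat_lit 5) (nat_lit 398) (nat_lit 386) (nat_lit 104)))) (XT.nd (nat_lit 94) (nat_lit 0) (nat_lit 0) (XT.lf (nat_lit 0) (nat_lit 2824524005) (nat_lit 1008) (nat_lit 26337345186) (nat_lit 1092) (nat_lit 51393842010) (nat_lit 72) (nat_lit 5) (nat_lit 84) (nat_lit 5) (nat_lit 85) (nat_lit 5) (nat_lit 399) (nat_lit 386) (nat_lit 103)) (XT.nd (nat_lit 94) (nat_lit 0) (nat_lit 84) (XT.lf (nat_lit 0) (nat_lit 4947912310) (nat_lit 1008) (nat_lit 35420181) (nat_lit 1092) (nat_lit 77001302670) (nat_lit 72) (nat_lit 5) (nat_lit 84) (nat_lit 5) (nat_lit 85) (nat_lit 5) (nat_lit 400) (nat_lit 386) (nat_lit 102)) (XT.lf (nat_lit 0) (nat_lit 7611631805) (nat_lit 1008) (nat_lit 56011551236) (nat_lit 1092) (nat_lit 19819965310) (nat_lit 73) (nat_lit 5) (nat_lit 85) (nat_lit 5) (nat_lit 86) (nat_lit 5) (nat_lit 401) (nat_lit 386) (nat_lit 101))))) (XT.nd (nat_lit 282) (nat_lit 588)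 (nat_lit 0) (XT.nd (nat_lit 94) (nat_lit 0) (nat_lit 0) (XT.lf (nat_lit 0) (nat_lit 10408945956) (nat_lit 1008) (nat_lit 29247244615) (nat_lit 1092) (nat_lit 45289105489) (nat_lit 73) (nat_lit 5) (nat_lit 85) (nat_lit 5) (nat_lit 86) (nat_lit 5) (nat_lit 402) (nat_lit 386) (nat_lit 100)) (XT.nd (nat_lit 94) (nat_lit 0) (nat_lit 84) (XT.lf (nat_lit 0) (nat_lit 13292664611) (nat_lit 1008) (nat_lit 1653488829) (nat_lit 1092) (nat_lit 71547868732) (nat_lit 73) (nat_lit 5) (nat_lit 85) (nat_lit 5) (nat_lit 86) (nat_lit 5) (nat_lit 403) (nat_lit 386) (nat_lit 99)) (XT.lf (nat_lit 0) (nat_lit 16643988494) (nat_lit 1008) (nat_lit 60843188133) (nat_lit 84) (nat_lit 10591859736) (nat_lit 74) (nat_lit 5) (nat_lit 86) (nat_lit 5) (nat_lit 75) (nat_lit 5) (nat_lit 404) (nat_lit 386) (nat_lit 98)))) (XT.nd (nat_lit 188) (nat_lit 672) (nat_lit 0) (XT.nd (nat_lit 94) (nat_lit 0) (nat_lit 0) (XT.lf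 (nat_lit 0) (nat_lit 20269207502) (nat_lit 1008) (nat_lit 32810130040) (nat_lit 84) (nat_lit 36628580342) (nat_lit 74) (nat_lit 5) (nat_lit 86) (nat_lit 5) (nat_lit 75) (nat_lit 5) (nat_lit 405) (nat_lit 386) (nat_lit 97)) (XT.lf (nat_lit 0) (nat_lit 24006521726) (nat_lit 1008) (nat_lit 3908286135) (nat_lit 84) (nat_lit 63472497711) (nat_lit 74) (nat_lit 5) (nat_lit 86) (nat_lit 5) (nat_lit 75) (nat_lit 5) (nat_lit 406) (nat_lit 386) (nat_lit 96))) (XT.nd (nat_lit 94) (nat_lit 0) (nat_lit 0) (XT.lf (nat_lit 0) (nat_lit 26421619886) (nat_lit 672) (nat_lit 1699900589) (nat_lit 756) (nat_lit 64989119040) (nat_lit 66) (nat_lit 5) (nat_lit 74) (nat_lit 5) (nat_lit 75) (nat_lit 5) (nat_lit 407) (nat_lit 386) (nat_lit 95)) (XT.lf (nat_lit 0) (nat_lit 32656278063) (nat_lit 756) (nat_lit 37363436561) (nat_lit 84) (nat_lit 24858626014) (nat_lit 66) (nat_lit 5) (nat_lit 75) (nat_lit 5) (nat_lit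 67) (nat_lit 5) (nat_lit 408) (nat_lit 386) (nat_lit 94))))))) (XT.nd (nat_lit 1222) (nat_lit 756) (nat_lit 0) (XT.nd (nat_lit 564) (nat_lit 840) (nat_lit 0) (XT.nd (nat_lit 282) (nat_lit 420) (nat_lit 0) (XT.nd (nat_lit 94) (nat_lit 504) (nat_lit 0) (XT.lf (nat_lit 0) (nat_lit 37348735828) (nat_lit 756) (nat_lit 7146379327) (nat_lit 84) (nat_lit 52205196324) (nat_lit 66) (nat_lit 5) (nat_lit 75) (nat_lit 5) (nat_lit 67) (nat_lit 5) (nat_lit 409) (nat_lit 386) (nat_lit 93)) (XT.nd (nat_lit 94) (nat_lit 0) (nat_lit 0) (XT.lf (nat_lit 0) (nat_lit 24500817634) (nat_lit 504) (nat_lit 17928637918) (nat_lit 588) (nat_lit 56141782925) (nat_lit 60) (nat_lit 5) (nat_lit 66) (nat_lit 5) (nat_lit 67) (nat_lit 5) (nat_lit 410) (nat_lit 386) (nat_lit 92)) (XT.lf (nat_lit 0) (nat_lit 47836642653) (nat_lit 588) (nat_lit 43312129125) (nat_lit 84) (nat_lit 9346156197) (nat_lit 60) (nat_lit 5) (nat_lit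 67) (nat_lit 5) (nat_lit 61) (nat_lit 5) (nat_lit 411) (nat_lit 386) (nat_lit 91)))) (XT.nd (nat_lit 94) (nat_lit 420) (nat_lit 0) (XT.lf (nat_lit 0) (nat_lit 53594578196) (nat_lit 588) (nat_lit 11783924459) (nat_lit 84) (nat_lit 37094073925) (nat_lit 60) (nat_lit 5) (nat_lit 67) (nat_lit 5) (nat_lit 61) (nat_lit 5) (nat_lit 412) (nat_lit 386) (nat_lit 90)) (XT.nd (nat_lit 94) (nat_lit 0) (nat_lit 0) (XT.lf (nat_lit 0) (nat_lit 21147510253) (nat_lit 420) (nat_lit 38593050541) (nat_lit 504) (nat_lit 44764476997) (nat_lit 55) (nat_lit 5) (nat_lit 60) (nat_lit 5) (nat_lit 61) (nat_lit 5) (nat_lit 413) (nat_lit 386) (nat_lit 89)) (XT.lf (nat_lit 0) (nat_lit 55349415169) (nat_lit 420) (nat_lit 10850423725) (nat_lit 504) (nat_lit 40396862065) (nat_lit 55) (nat_lit 5) (nat_lit 60) (nat_lit 5) (nat_lit 61) (nat_lit 5) (nat_lit 414) (nat_lit 386) (nat_lit 88))))) (XT.nd (nat_lit 282) (nat_lit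 420) (nat_lit 0) (XT.nd (nat_lit 94) (nat_lit 420) (nat_lit 0) (XT.lf (nat_lit 0) (nat_lit 73035235955) (nat_lit 504) (nat_lit 18317950081) (nat_lit 84) (nat_lit 17394568812) (nat_lit 55) (nat_lit 5) (nat_lit 61) (nat_lit 5) (nat_lit 56) (nat_lit 5) (nat_lit 415) (nat_lit 386) (nat_lit 87)) (XT.nd (nat_lit 94) (nat_lit 0) (nat_lit 0) (XT.lf (nat_lit 0) (nat_lit 15840151807) (nat_lit 420) (nat_lit 64510272874) (nat_lit 504) (nat_lit 30606763445) (nat_lit 50) (nat_lit 5) (nat_lit 55) (nat_lit 5) (nat_lit 56) (nat_lit 5) (nat_lit 416) (nat_lit 386) (nat_lit 86)) (XT.lf (nat_lit 0) (nat_lit 51445275248) (nat_lit 420) (nat_lit 36638099031) (nat_lit 504) (nat_lit 25145820264) (nat_lit 50) (nat_lit 5) (nat_lit 55) (nat_lit 5) (nat_lit 56) (nat_lit 5) (nat_lit 417) (nat_lit 386) (nat_lit 85)))) (XT.nd (nat_lit 188) (nat_lit 84) (nat_lit 0) (XT.nd (nat_lit 94) (nat_lit 336) (nat_lit 0) (XT.lf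 (nat_lit 0) (nat_lit 88153953323) (nat_lit 420) (nat_lit 7901886551) (nat_lit 504) (nat_lit 19515801009) (nat_lit 50) (nat_lit 5) (nat_lit 55) (nat_lit 5) (nat_lit 56) (nat_lit 5) (nat_lit 418) (nat_lit 386) (nat_lit 84)) (XT.lf (nat_lit 0) (nat_lit 7958522124) (nat_lit 336) (nat_lit 96611196215) (nat_lit 420) (nat_lit 13407863776) (nat_lit 46) (nat_lit 5) (nat_lit 50) (nat_lit 5) (nat_lit 51) (nat_lit 5) (nat_lit 419) (nat_lit 386) (nat_lit 83))) (XT.nd (nat_lit 94) (nat_lit 84) (nat_lit 0) (XT.lf (nat_lit 0) (nat_lit 44929951912) (nat_lit 336) (nat_lit 68783563776) (nat_lit 420) (nat_lit 6733247464) (nat_lit 46) (nat_lit 5) (nat_lit 50) (nat_lit 5) (nat_lit 51) (nat_lit 5) (nat_lit 420) (nat_lit 386) (nat_lit 82)) (XT.lf (nat_lit 0) (nat_lit 145101845) (nat_lit 420) (nat_lit 39946666272) (nat_lit 84) (nat_lit 82900682255) (nat_lit 45) (nat_lit 5) (nat_lit 50) (nat_lit 5) (nat_lit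 46) (nat_lit 5) (nat_lit 421) (nat_lit 386) (nat_lit 81)))))) (XT.nd (nat_lit 52546) (nat_lit 0) (nat_lit 3780) (XT.nd (nat_lit 282) (nat_lit 336) (nat_lit 0) (XT.nd (nat_lit 94) (nat_lit 420) (nat_lit 0) (XT.lf (nat_lit 0) (nat_lit 7096627828) (nat_lit 420) (nat_lit 3342908519) (nat_lit 84) (nat_lit 115175389677) (nat_lit 45) (nat_lit 5) (nat_lit 50) (nat_lit 5) (nat_lit 46) (nat_lit 5) (nat_lit 422) (nat_lit 386) (nat_lit 80)) (XT.nd (nat_lit 94) (nat_lit 0) (nat_lit 0) (XT.lf (nat_lit 0) (nat_lit 14814964736) (nat_lit 504) (nat_lit 93408568105) (nat_lit 84) (nat_lit 20078075988) (nat_lit 40) (nat_lit 5) (nat_lit 46) (nat_lit 5) (nat_lit 41) (nat_lit 5) (nat_lit 423) (nat_lit 386) (nat_lit 79)) (XT.lf (nat_lit 0) (nat_lit 22914414286) (nat_lit 504) (nat_lit 56792648673) (nat_lit 84) (nat_lit 51360119767) (nat_lit 40) (nat_lit 5) (nat_lit 46) (nat_lit 5) (nat_lit 41) (nat_lit 5)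 (nat_lit 424) (nat_lit 386) (nat_lit 78)))) (XT.nd (nat_lit 94) (nat_lit 336) (nat_lit 0) (XT.lf (nat_lit 0) (nat_lit 31264774431) (nat_lit 504) (nat_lit 19041824956) (nat_lit 84) (nat_lit 83611896431) (nat_lit 40) (nat_lit 5) (nat_lit 46) (nat_lit 5) (nat_lit 41) (nat_lit 5) (nat_lit 425) (nat_lit 386) (nat_lit 77)) (XT.nd (nat_lit 52076) (nat_lit 0) (nat_lit 3780) (XT.lf (nat_lit 0) (nat_lit 20287845643) (nat_lit 336) (nat_lit 19787240877) (nat_lit 420) (nat_lit 96776880312) (nat_lit 36) (nat_lit 5) (nat_lit 40) (nat_lit 5) (nat_lit 41) (nat_lit 5) (nat_lit 426) (nat_lit 386) (nat_lit 76)) (XT.lf (nat_lit 0) (nat_lit 14395686741) (nat_lit 0) (nat_lit 14395686741) (nat_lit 924) (nat_lit 4781498188) (nat_lit 81) (nat_lit 5) (nat_lit 81) (nat_lit 3) (nat_lit 92) (nat_lit 3) (nat_lit 387) (nat_lit 387) (nat_lit 114))))) (XT.nd (nat_lit 282) (nat_lit 0) (nat_lit 0) (XT.nd (nat_lit 94)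 (nat_lit 0) (nat_lit 0) (XT.lf (nat_lit 0) (nat_lit 51253424260) (nat_lit 0) (nat_lit 7233031903) (nat_lit 924) (nat_lit 9699618162) (nat_lit 81) (nat_lit 5) (nat_lit 81) (nat_lit 3) (nat_lit 92) (nat_lit 3) (nat_lit 388) (nat_lit 387) (nat_lit 113)) (XT.nd (nat_lit 94) (nat_lit 0) (nat_lit 0) (XT.lf (nat_lit 84) (nat_lit 5107055616) (nat_lit 0) (nat_lit 54510077769) (nat_lit 1008) (nat_lit 9635357926) (nat_lit 82) (nat_lit 5) (nat_lit 81) (nat_lit 5) (nat_lit 93) (nat_lit 5) (nat_lit 389) (nat_lit 387) (nat_lit 112)) (XT.lf (nat_lit 84) (nat_lit 28113215251) (nat_lit 0) (nat_lit 32919179379) (nat_lit 1008) (nat_lit 9311840258) (nat_lit 82) (nat_lit 5) (nat_lit 81) (nat_lit 5) (nat_lit 93) (nat_lit 5) (nat_lit 390) (nat_lit 387) (nat_lit 111)))) (XT.nd (nat_lit 188) (nat_lit 0) (nat_lit 84) (XT.nd (nat_lit 94) (nat_lit 0) (nat_lit 84) (XT.lf (nat_lit 84) (nat_lit 51832330927) (nat_lit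 0) (nat_lit 10658774124) (nat_lit 1008) (nat_lit 8978733697) (nat_lit 82) (nat_lit 5) (nat_lit 81) (nat_lit 5) (nat_lit 93) (nat_lit 5) (nat_lit 391) (nat_lit 387) (nat_lit 110)) (XT.lf (nat_lit 84) (nat_lit 3606893087) (nat_lit 0) (nat_lit 60545449103) (nat_lit 1008) (nat_lit 8473120631) (nat_lit 83) (nat_lit 5) (nat_lit 82) (nat_lit 5) (nat_lit 94) (nat_lit 5) (nat_lit 392) (nat_lit 387) (nat_lit 109))) (XT.nd (nat_lit 94) (nat_lit 0) (nat_lit 0) (XT.lf (nat_lit 84) (nat_lit 27876676607) (nat_lit 0) (nat_lit 38300887437) (nat_lit 1008) (nat_lit 7629663027) (nat_lit 83) (nat_lit 5) (nat_lit 82) (nat_lit 5) (nat_lit 94) (nat_lit 5) (nat_lit 393) (nat_lit 387) (nat_lit 108)) (XT.lf (nat_lit 84) (nat_lit 52898587797) (nat_lit 0) (nat_lit 15366592532) (nat_lit 1008) (nat_lit 6760460515) (nat_lit 83) (nat_lit 5) (nat_lit 82) (nat_lit 5) (nat_lit 94) (nat_lit 5) (nat_lit 394) (nat_lit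 387) (nat_lit 107))))))))
noncomputable def xc240 : XT := (XT.nd (nat_lit 2350) (nat_lit 1176) (nat_lit 0) (XT.nd (nat_lit 1128) (nat_lit 1848) (nat_lit 0) (XT.nd (nat_lit 564) (nat_lit 0) (nat_lit 0) (XT.nd (nat_lit 282) (nat_lit 924) (nat_lit 0) (XT.nd (nat_lit 94) (nat_lit 0) (nat_lit 0) (XT.lf (nat_lit 84) (nat_lit 2379933374) (nat_lit 0) (nat_lit 68142939630) (nat_lit 1008) (nat_lit 5755689008) (nat_lit 84) (nat_lit 5) (nat_lit 83) (nat_lit 5) (nat_lit 95) (nat_lit 5) (nat_lit 395) (nat_lit 387) (nat_lit 106)) (XT.nd (nat_lit 94) (nat_lit 0) (nat_lit 0) (XT.lf (nat_lit 84) (nat_lit 27955080655) (nat_lit 0) (nat_lit 45281642018) (nat_lit 1008) (nat_lit 4321632494) (nat_lit 84) (nat_lit 5) (nat_lit 83) (nat_lit 5) (nat_lit 95) (nat_lit 5) (nat_lit 396) (nat_lit 387) (nat_lit 105)) (XT.lf (nat_lit 84) (nat_lit 54322822868) (nat_lit 0) (nat_lit 21711524324) (nat_lit 1008) (nat_lit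 2843488282) (nat_lit 84) (nat_lit 5) (nat_lit 83) (nat_lit 5) (nat_lit 95) (nat_lit 5) (nat_lit 397) (nat_lit 387) (nat_lit 104)))) (XT.nd (nat_lit 94) (nat_lit 1008) (nat_lit 0) (XT.lf (nat_lit 84) (nat_lit 1269393124) (nat_lit 0) (nat_lit 77687240653) (nat_lit 1008) (nat_lit 1280412382) (nat_lit 85) (nat_lit 5) (nat_lit 84) (nat_lit 5) (nat_lit 96) (nat_lit 5) (nat_lit 398) (nat_lit 387) (nat_lit 103)) (XT.nd (nat_lit 94) (nat_lit 0) (nat_lit 0) (XT.lf (nat_lit 0) (nat_lit 805090194) (nat_lit 1008) (nat_lit 53443750894) (nat_lit 1092) (nat_lit 27374551889) (nat_lit 72) (nat_lit 5) (nat_lit 84) (nat_lit 5) (nat_lit 85) (nat_lit 5) (nat_lit 399) (nat_lit 387) (nat_lit 102)) (XT.lf (nat_lit 0) (nat_lit 2928315865) (nat_lit 1008) (nat_lit 27141944703) (nat_lit 1092) (nat_lit 52982062532) (nat_lit 72) (nat_lit 5) (nat_lit 84) (nat_lit 5) (nat_lit 85) (nat_lit 5) (nat_lit 400) (nat_lit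 387) (nat_lit 101))))) (XT.nd (nat_lit 282) (nat_lit 0) (nat_lit 84) (XT.nd (nat_lit 94) (nat_lit 0) (nat_lit 84) (XT.lf (nat_lit 0) (nat_lit 5117041157) (nat_lit 1008) (nat_lit 25016574) (nat_lit 1092) (nat_lit 79383504469) (nat_lit 72) (nat_lit 5) (nat_lit 84) (nat_lit 5) (nat_lit 85) (nat_lit 5) (nat_lit 401) (nat_lit 387) (nat_lit 100)) (XT.nd (nat_lit 94) (nat_lit 0) (nat_lit 0) (XT.lf (nat_lit 0) (nat_lit 7862935863) (nat_lit 1008) (nat_lit 57735902263) (nat_lit 1092) (nat_lit 20430466841) (nat_lit 73) (nat_lit 5) (nat_lit 85) (nat_lit 5) (nat_lit 86) (nat_lit 5) (nat_lit 402) (nat_lit 387) (nat_lit 99)) (XT.lf (nat_lit 0) (nat_lit 10746505406) (nat_lit 1008) (nat_lit 30142263164) (nat_lit 1092) (nat_lit 46689268154) (nat_lit 73) (nat_lit 5) (nat_lit 85) (nat_lit 5) (nat_lit 86) (nat_lit 5) (nat_lit 403) (nat_lit 387) (nat_lit 98)))) (XT.nd (nat_lit 94) (nat_lit 0) (nat_lit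 84) (XT.lf (nat_lit 0) (nat_lit 13719171865) (nat_lit 1008) (nat_lit 1693451119) (nat_lit 1092) (nat_lit 73762167304) (nat_lit 73) (nat_lit 5) (nat_lit 85) (nat_lit 5) (nat_lit 86) (nat_lit 5) (nat_lit 404) (nat_lit 387) (nat_lit 97)) (XT.nd (nat_lit 94) (nat_lit 0) (nat_lit 0) (XT.lf (nat_lit 0) (nat_lit 17174034625) (nat_lit 1008) (nat_lit 62717582822) (nat_lit 84) (nat_lit 10917336370) (nat_lit 74) (nat_lit 5) (nat_lit 86) (nat_lit 5) (nat_lit 75) (nat_lit 5) (nat_lit 405) (nat_lit 387) (nat_lit 96)) (XT.lf (nat_lit 0) (nat_lit 20911211991) (nat_lit 1008) (nat_lit 33815853049) (nat_lit 84) (nat_lit 37761281640) (nat_lit 74) (nat_lit 5) (nat_lit 86) (nat_lit 5) (nat_lit 75) (nat_lit 5) (nat_lit 406) (nat_lit 387) (nat_lit 95)))))) (XT.nd (nat_lit 564) (nat_lit 840) (nat_lit 0) (XT.nd (nat_lit 282) (nat_lit 504) (nat_lit 0) (XT.nd (nat_lit 94) (nat_lit 672) (nat_lit 0) (XT.lf (nat_lit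 0) (nat_lit 24763972257) (nat_lit 1008) (nat_lit 4018394487) (nat_lit 84) (nat_lit 65437444177) (nat_lit 74) (nat_lit 5) (nat_lit 86) (nat_lit 5) (nat_lit 75) (nat_lit 5) (nat_lit 407) (nat_lit 387) (nat_lit 94)) (XT.nd (nat_lit 94) (nat_lit 0) (nat_lit 0) (XT.lf (nat_lit 0) (nat_lit 27251626764) (nat_lit 672) (nat_lit 1754619345) (nat_lit 756) (nat_lit 66990333811) (nat_lit 66) (nat_lit 5) (nat_lit 74) (nat_lit 5) (nat_lit 75) (nat_lit 5) (nat_lit 408) (nat_lit 387) (nat_lit 93)) (XT.lf (nat_lit 0) (nat_lit 33681172095) (nat_lit 756) (nat_lit 38510601118) (nat_lit 84) (nat_lit 25627321885) (nat_lit 66) (nat_lit 5) (nat_lit 75) (nat_lit 5) (nat_lit 67) (nat_lit 5) (nat_lit 409) (nat_lit 387) (nat_lit 92)))) (XT.nd (nat_lit 94) (nat_lit 504) (nat_lit 0) (XT.lf (nat_lit 0) (nat_lit 38518718716) (nat_lit 756) (nat_lit 7357148923) (nat_lit 84) (nat_lit 53821693651) (nat_lit 66) (nat_lit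 5) (nat_lit 75) (nat_lit 5) (nat_lit 67) (nat_lit 5) (nat_lit 410) (nat_lit 387) (nat_lit 91)) (XT.nd (nat_lit 94) (nat_lit 0) (nat_lit 0) (XT.lf (nat_lit 0) (nat_lit 25271002125) (nat_lit 504) (nat_lit 18485678378) (nat_lit 588) (nat_lit 57869817072) (nat_lit 60) (nat_lit 5) (nat_lit 66) (nat_lit 5) (nat_lit 67) (nat_lit 5) (nat_lit 411) (nat_lit 387) (nat_lit 90)) (XT.lf (nat_lit 0) (nat_lit 49331120187) (nat_lit 588) (nat_lit 44644018642) (nat_lit 84) (nat_lit 9634696501) (nat_lit 60) (nat_lit 5) (nat_lit 67) (nat_lit 5) (nat_lit 61) (nat_lit 5) (nat_lit 412) (nat_lit 387) (nat_lit 89))))) (XT.nd (nat_lit 282) (nat_lit 420) (nat_lit 0) (XT.nd (nat_lit 94) (nat_lit 420) (nat_lit 0) (XT.lf (nat_lit 0) (nat_lit 55267204700) (nat_lit 588) (nat_lit 12138763958) (nat_lit 84) (nat_lit 38242835476) (nat_lit 60) (nat_lit 5) (nat_lit 67) (nat_lit 5) (nat_lit 61) (nat_lit 5) (nat_lit 413)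 (nat_lit 387) (nat_lit 88)) (XT.nd (nat_lit 94) (nat_lit 0) (nat_lit 0) (XT.lf (nat_lit 0) (nat_lit 21813439310) (nat_lit 420) (nat_lit 39790039586) (nat_lit 504) (nat_lit 46140802259) (nat_lit 55) (nat_lit 5) (nat_lit 60) (nat_lit 5) (nat_lit 61) (nat_lit 5) (nat_lit 414) (nat_lit 387) (nat_lit 87)) (XT.lf (nat_lit 0) (nat_lit 57075291888) (nat_lit 420) (nat_lit 11187373163) (nat_lit 504) (nat_lit 41638133242) (nat_lit 55) (nat_lit 5) (nat_lit 60) (nat_lit 5) (nat_lit 61) (nat_lit 5) (nat_lit 415) (nat_lit 387) (nat_lit 86)))) (XT.nd (nat_lit 188) (nat_lit 0) (nat_lit 0) (XT.nd (nat_lit 94) (nat_lit 420) (nat_lit 0) (XT.lf (nat_lit 0) (nat_lit 75309634124) (nat_lit 504) (nat_lit 18875669715) (nat_lit 84) (nat_lit 17933243229) (nat_lit 55) (nat_lit 5) (nat_lit 61) (nat_lit 5) (nat_lit 56) (nat_lit 5) (nat_lit 416) (nat_lit 387) (nat_lit 85)) (XT.lf (nat_lit 0) (nat_lit 16341230705)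 (nat_lit 420) (nat_lit 66510152660) (nat_lit 504) (nat_lit 31545097997) (nat_lit 50) (nat_lit 5) (nat_lit 55) (nat_lit 5) (nat_lit 56) (nat_lit 5) (nat_lit 417) (nat_lit 387) (nat_lit 84))) (XT.nd (nat_lit 94) (nat_lit 0) (nat_lit 0) (XT.lf (nat_lit 0) (nat_lit 53049811266) (nat_lit 420) (nat_lit 37773939584) (nat_lit 504) (nat_lit 25915180542) (nat_lit 50) (nat_lit 5) (nat_lit 55) (nat_lit 5) (nat_lit 56) (nat_lit 5) (nat_lit 418) (nat_lit 387) (nat_lit 83)) (XT.lf (nat_lit 0) (nat_lit 90896165726) (nat_lit 420) (nat_lit 8146902728) (nat_lit 504) (nat_lit 20110936185) (nat_lit 50) (nat_lit 5) (nat_lit 55) (nat_lit 5) (nat_lit 56) (nat_lit 5) (nat_lit 419) (nat_lit 387) (nat_lit 82))))))) (XT.nd (nat_lit 53204) (nat_lit 0) (nat_lit 3024) (XT.nd (nat_lit 564) (nat_lit 336) (nat_lit 0) (XT.nd (nat_lit 282) (nat_lit 420) (nat_lit 0) (XT.nd (nat_lit 94) (nat_lit 84) (nat_lit 0) (XT.lf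 (nat_lit 0) (nat_lit 8214934651) (nat_lit 336) (nat_lit 99605752583) (nat_lit 420) (nat_lit 13813850587) (nat_lit 46) (nat_lit 5) (nat_lit 50) (nat_lit 5) (nat_lit 51) (nat_lit 5) (nat_lit 420) (nat_lit 387) (nat_lit 81)) (XT.nd (nat_lit 94) (nat_lit 84) (nat_lit 0) (XT.lf (nat_lit 0) (nat_lit 46332187154) (nat_lit 336) (nat_lit 70915475286) (nat_lit 420) (nat_lit 6932611535) (nat_lit 46) (nat_lit 5) (nat_lit 50) (nat_lit 5) (nat_lit 51) (nat_lit 5) (nat_lit 421) (nat_lit 387) (nat_lit 80)) (XT.lf (nat_lit 0) (nat_lit 158501927) (nat_lit 420) (nat_lit 41175650511) (nat_lit 84) (nat_lit 85470732454) (nat_lit 45) (nat_lit 5) (nat_lit 50) (nat_lit 5) (nat_lit 46) (nat_lit 5) (nat_lit 422) (nat_lit 387) (nat_lit 79)))) (XT.nd (nat_lit 94) (nat_lit 420) (nat_lit 0) (XT.lf (nat_lit 0) (nat_lit 7325257554) (nat_lit 420) (nat_lit 3437457776) (nat_lit 84) (nat_lit 118745951927) (nat_lit 45)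 (nat_lit 5) (nat_lit 50) (nat_lit 5) (nat_lit 46) (nat_lit 5) (nat_lit 423) (nat_lit 387) (nat_lit 78)) (XT.nd (nat_lit 94) (nat_lit 0) (nat_lit 0) (XT.lf (nat_lit 0) (nat_lit 15282697673) (nat_lit 504) (nat_lit 96294935382) (nat_lit 84) (nat_lit 20701010914) (nat_lit 40) (nat_lit 5) (nat_lit 46) (nat_lit 5) (nat_lit 41) (nat_lit 5) (nat_lit 424) (nat_lit 387) (nat_lit 77)) (XT.lf (nat_lit 0) (nat_lit 23632975513) (nat_lit 504) (nat_lit 58544202028) (nat_lit 84) (nat_lit 52952782577) (nat_lit 40) (nat_lit 5) (nat_lit 46) (nat_lit 5) (nat_lit 41) (nat_lit 5) (nat_lit 425) (nat_lit 387) (nat_lit 76))))) (XT.nd (nat_lit 52264) (nat_lit 0) (nat_lit 3780) (XT.nd (nat_lit 94) (nat_lit 336) (nat_lit 0) (XT.lf (nat_lit 0) (nat_lit 32241949833) (nat_lit 504) (nat_lit 19623373951) (nat_lit 84) (nat_lit 86204349312) (nat_lit 40) (nat_lit 5) (nat_lit 46) (nat_lit 5) (nat_lit 41) (nat_lit 5)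 (nat_lit 426) (nat_lit 387) (nat_lit 75)) (XT.nd (nat_lit 52076) (nat_lit 0) (nat_lit 3780) (XT.lf (nat_lit 0) (nat_lit 20925427875) (nat_lit 336) (nat_lit 20399800058) (nat_lit 420) (nat_lit 99768860019) (nat_lit 36) (nat_lit 5) (nat_lit 40) (nat_lit 5) (nat_lit 41) (nat_lit 5) (nat_lit 427) (nat_lit 387) (nat_lit 74)) (XT.lf (nat_lit 0) (nat_lit 14847485903) (nat_lit 0) (nat_lit 14847485903) (nat_lit 924) (nat_lit 4918235093) (nat_lit 81) (nat_lit 5) (nat_lit 81) (nat_lit 3) (nat_lit 92) (nat_lit 3) (nat_lit 388) (nat_lit 388) (nat_lit 112)))) (XT.nd (nat_lit 188) (nat_lit 0) (nat_lit 0) (XT.nd (nat_lit 94) (nat_lit 0) (nat_lit 0) (XT.lf (nat_lit 0) (nat_lit 52853013435) (nat_lit 0) (nat_lit 7467988914) (nat_lit 924) (nat_lit 9978018180) (nat_lit 81) (nat_lit 5) (nat_lit 81) (nat_lit 3) (nat_lit 92) (nat_lit 3) (nat_lit 389) (nat_lit 388) (nat_lit 111)) (XT.lf (nat_lit 84) (nat_lit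 5276917872) (nat_lit 0) (nat_lit 56209178496) (nat_lit 1008) (nat_lit 9912424444) (nat_lit 82) (nat_lit 5) (nat_lit 81) (nat_lit 5) (nat_lit 93) (nat_lit 5) (nat_lit 390) (nat_lit 388) (nat_lit 110))) (XT.nd (nat_lit 94) (nat_lit 0) (nat_lit 0) (XT.lf (nat_lit 84) (nat_lit 28995921366) (nat_lit 0) (nat_lit 33948682975) (nat_lit 1008) (nat_lit 9579528085) (nat_lit 82) (nat_lit 5) (nat_lit 81) (nat_lit 5) (nat_lit 93) (nat_lit 5) (nat_lit 391) (nat_lit 388) (nat_lit 109)) (XT.lf (nat_lit 84) (nat_lit 53449992975) (nat_lit 0) (nat_lit 10997934275) (nat_lit 1008) (nat_lit 9236726021) (nat_lit 82) (nat_lit 5) (nat_lit 81) (nat_lit 5) (nat_lit 93) (nat_lit 5) (nat_lit 392) (nat_lit 388) (nat_lit 108)))))) (XT.nd (nat_lit 564) (nat_lit 840) (nat_lit 0) (XT.nd (nat_lit 282) (nat_lit 0) (nat_lit 84) (XT.nd (nat_lit 94) (nat_lit 0) (nat_lit 0) (XT.lf (nat_lit 84) (nat_lit 3730285303) (nat_lit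 0) (nat_lit 62429818951) (nat_lit 1008) (nat_lit 8716019046) (nat_lit 83) (nat_lit 5) (nat_lit 82) (nat_lit 5) (nat_lit 94) (nat_lit 5) (nat_lit 393) (nat_lit 388) (nat_lit 107)) (XT.nd (nat_lit 94) (nat_lit 0) (nat_lit 0) (XT.lf (nat_lit 84) (nat_lit 28752083970) (nat_lit 0) (nat_lit 39495451539) (nat_lit 1008) (nat_lit 7847008648) (nat_lit 83) (nat_lit 5) (nat_lit 82) (nat_lit 5) (nat_lit 94) (nat_lit 5) (nat_lit 394) (nat_lit 388) (nat_lit 106)) (XT.lf (nat_lit 84) (nat_lit 54549336733) (nat_lit 0) (nat_lit 15849975903) (nat_lit 1008) (nat_lit 6951437379) (nat_lit 83) (nat_lit 5) (nat_lit 82) (nat_lit 5) (nat_lit 94) (nat_lit 5) (nat_lit 395) (nat_lit 388) (nat_lit 105)))) (XT.nd (nat_lit 94) (nat_lit 0) (nat_lit 0) (XT.lf (nat_lit 84) (nat_lit 2465241421) (nat_lit 0) (nat_lit 70261260639) (nat_lit 1008) (nat_lit 5916028844) (nat_lit 84) (nat_lit 5) (nat_lit 83) (nat_lit 5) (nat_lit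 95) (nat_lit 5) (nat_lit 396) (nat_lit 388) (nat_lit 104)) (XT.nd (nat_lit 94) (nat_lit 0) (nat_lit 0) (XT.lf (nat_lit 84) (nat_lit 28832871582) (nat_lit 0) (nat_lit 46691085705) (nat_lit 1008) (nat_lit 4438060401) (nat_lit 84) (nat_lit 5) (nat_lit 83) (nat_lit 5) (nat_lit 95) (nat_lit 5) (nat_lit 397) (nat_lit 388) (nat_lit 103)) (XT.lf (nat_lit 84) (nat_lit 56017677542) (nat_lit 0) (nat_lit 22390122590) (nat_lit 1008) (nat_lit 2914621191) (nat_lit 84) (nat_lit 5) (nat_lit 83) (nat_lit 5) (nat_lit 95) (nat_lit 5) (nat_lit 398) (nat_lit 388) (nat_lit 102))))) (XT.nd (nat_lit 282) (nat_lit 0) (nat_lit 0) (XT.nd (nat_lit 94) (nat_lit 1008) (nat_lit 0) (XT.lf (nat_lit 84) (nat_lit 1320156771) (nat_lit 0) (nat_lit 80100087971) (nat_lit 1008) (nat_lit 1303539795) (nat_lit 85) (nat_lit 5) (nat_lit 84) (nat_lit 5) (nat_lit 96) (nat_lit 5) (nat_lit 399) (nat_lit 388) (nat_lit 101)) (XT.nd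 (nat_lit 94) (nat_lit 0) (nat_lit 0) (XT.lf (nat_lit 0) (nat_lit 845791555) (nat_lit 1008) (nat_lit 55089005539) (nat_lit 1092) (nat_lit 28218324414) (nat_lit 72) (nat_lit 5) (nat_lit 84) (nat_lit 5) (nat_lit 85) (nat_lit 5) (nat_lit 400) (nat_lit 388) (nat_lit 100)) (XT.lf (nat_lit 0) (nat_lit 3034363846) (nat_lit 1008) (nat_lit 27972189186) (nat_lit 1092) (nat_lit 54619813373) (nat_lit 72) (nat_lit 5) (nat_lit 84) (nat_lit 5) (nat_lit 85) (nat_lit 5) (nat_lit 401) (nat_lit 388) (nat_lit 99)))) (XT.nd (nat_lit 188) (nat_lit 0) (nat_lit 84) (XT.nd (nat_lit 94) (nat_lit 0) (nat_lit 84) (XT.lf (nat_lit 0) (nat_lit 5290480479) (nat_lit 1008) (nat_lit 14971717) (nat_lit 1092) (nat_lit 81839841121) (nat_lit 72) (nat_lit 5) (nat_lit 84) (nat_lit 5) (nat_lit 85) (nat_lit 5) (nat_lit 402) (nat_lit 388) (nat_lit 98)) (XT.lf (nat_lit 0) (nat_lit 8121121526) (nat_lit 1008) (nat_lit 59514419370)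 (nat_lit 1092) (nat_lit 21060125954) (nat_lit 73) (nat_lit 5) (nat_lit 85) (nat_lit 5) (nat_lit 86) (nat_lit 5) (nat_lit 403) (nat_lit 388) (nat_lit 97))) (XT.nd (nat_lit 94) (nat_lit 0) (nat_lit 0) (XT.lf (nat_lit 0) (nat_lit 11093647706) (nat_lit 1008) (nat_lit 31065717102) (nat_lit 1092) (nat_lit 48133060919) (nat_lit 73) (nat_lit 5) (nat_lit 85) (nat_lit 5) (nat_lit 86) (nat_lit 5) (nat_lit 404) (nat_lit 388) (nat_lit 96)) (XT.lf (nat_lit 0) (nat_lit 14158045856) (nat_lit 1008) (nat_lit 1735321314) (nat_lit 1092) (nat_lit 76045327421) (nat_lit 73) (nat_lit 5) (nat_lit 85) (nat_lit 5) (nat_lit 86) (nat_lit 5) (nat_lit 405) (nat_lit 388) (nat_lit 95))))))))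
noncomputable def xc241 : XT := (XT.nd (nat_lit 54426) (nat_lit 0) (nat_lit 1260) (XT.nd (nat_lit 1128) (nat_lit 1260) (nat_lit 0) (XT.nd (nat_lit 564) (nat_lit 924) (nat_lit 0) (XT.nd (nat_lit 282) (nat_lit 672) (nat_lit 0) (XT.nd (nat_lit 94) (nat_lit 0) (nat_lit 0) (XT.lf (nat_lit 0) (nat_lit 17719678055) (nat_lit 1008) (nat_lit 64650779371) (nat_lit 84) (nat_lit 11253072835) (nat_lit 74) (nat_lit 5) (nat_lit 86) (nat_lit 5) (nat_lit 75) (nat_lit 5) (nat_lit 406) (nat_lit 388) (nat_lit 94)) (XT.nd (nat_lit 94) (nat_lit 0) (nat_lit 0) (XT.lf (nat_lit 0) (nat_lit 21572309571) (nat_lit 1008) (nat_lit 34853428181) (nat_lit 84) (nat_lit 38929261621) (nat_lit 74) (nat_lit 5) (nat_lit 86) (nat_lit 5) (nat_lit 75) (nat_lit 5) (nat_lit 407) (nat_lit 388) (nat_lit 93)) (XT.lf (nat_lit 0) (nat_lit 25544119032) (nat_lit 1008) (nat_lit 4132570621) (nat_lit 84) (nat_lit 67463463968) (nat_lit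 74) (nat_lit 5) (nat_lit 86) (nat_lit 5) (nat_lit 75) (nat_lit 5) (nat_lit 408) (nat_lit 388) (nat_lit 92)))) (XT.nd (nat_lit 94) (nat_lit 0) (nat_lit 0) (XT.lf (nat_lit 0) (nat_lit 28106716058) (nat_lit 672) (nat_lit 1810914627) (nat_lit 756) (nat_lit 69054382784) (nat_lit 66) (nat_lit 5) (nat_lit 74) (nat_lit 5) (nat_lit 75) (nat_lit 5) (nat_lit 409) (nat_lit 388) (nat_lit 91)) (XT.nd (nat_lit 94) (nat_lit 0) (nat_lit 0) (XT.lf (nat_lit 0) (nat_lit 34737094518) (nat_lit 756) (nat_lit 39693985366) (nat_lit 84) (nat_lit 26419961144) (nat_lit 66) (nat_lit 5) (nat_lit 75) (nat_lit 5) (nat_lit 67) (nat_lit 5) (nat_lit 410) (nat_lit 388) (nat_lit 90)) (XT.lf (nat_lit 0) (nat_lit 39724250101) (nat_lit 756) (nat_lit 7575090194) (nat_lit 84) (nat_lit 55488412789) (nat_lit 66) (nat_lit 5) (nat_lit 75) (nat_lit 5) (nat_lit 67) (nat_lit 5) (nat_lit 411) (nat_lit 388) (nat_lit 89))))) (XT.nd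 (nat_lit 282) (nat_lit 420) (nat_lit 0) (XT.nd (nat_lit 94) (nat_lit 0) (nat_lit 0) (XT.lf (nat_lit 0) (nat_lit 26064430976) (nat_lit 504) (nat_lit 19059912893) (nat_lit 588) (nat_lit 59652152447) (nat_lit 60) (nat_lit 5) (nat_lit 66) (nat_lit 5) (nat_lit 67) (nat_lit 5) (nat_lit 412) (nat_lit 388) (nat_lit 88)) (XT.nd (nat_lit 94) (nat_lit 0) (nat_lit 0) (XT.lf (nat_lit 0) (nat_lit 50871242895) (nat_lit 588) (nat_lit 46017835636) (nat_lit 84) (nat_lit 9932252072) (nat_lit 60) (nat_lit 5) (nat_lit 67) (nat_lit 5) (nat_lit 61) (nat_lit 5) (nat_lit 413) (nat_lit 388) (nat_lit 87)) (XT.lf (nat_lit 0) (nat_lit 56991019552) (nat_lit 588) (nat_lit 12505223173) (nat_lit 84) (nat_lit 39427277031) (nat_lit 60) (nat_lit 5) (nat_lit 67) (nat_lit 5) (nat_lit 61) (nat_lit 5) (nat_lit 414) (nat_lit 388) (nat_lit 86)))) (XT.nd (nat_lit 94) (nat_lit 0) (nat_lit 0) (XT.lf (nat_lit 0) (nat_lit 22499398750)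 (nat_lit 420) (nat_lit 41024099487) (nat_lit 504) (nat_lit 47560467278) (nat_lit 55) (nat_lit 5) (nat_lit 60) (nat_lit 5) (nat_lit 61) (nat_lit 5) (nat_lit 415) (nat_lit 388) (nat_lit 85)) (XT.nd (nat_lit 94) (nat_lit 0) (nat_lit 0) (XT.lf (nat_lit 0) (nat_lit 58854075811) (nat_lit 420) (nat_lit 11534733307) (nat_lit 504) (nat_lit 42918537243) (nat_lit 55) (nat_lit 5) (nat_lit 60) (nat_lit 5) (nat_lit 61) (nat_lit 5) (nat_lit 416) (nat_lit 388) (nat_lit 84)) (XT.lf (nat_lit 0) (nat_lit 77653928203) (nat_lit 504) (nat_lit 19451279078) (nat_lit 84) (nat_lit 18488649557) (nat_lit 55) (nat_lit 5) (nat_lit 61) (nat_lit 5) (nat_lit 56) (nat_lit 5) (nat_lit 417) (nat_lit 388) (nat_lit 83)))))) (XT.nd (nat_lit 564) (nat_lit 420) (nat_lit 0) (XT.nd (nat_lit 282) (nat_lit 420) (nat_lit 0) (XT.nd (nat_lit 94) (nat_lit 0) (nat_lit 0) (XT.lf (nat_lit 0) (nat_lit 16857248707) (nat_lit 420) (nat_lit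 68572025087) (nat_lit 504) (nat_lit 32513141380) (nat_lit 50) (nat_lit 5) (nat_lit 55) (nat_lit 5) (nat_lit 56) (nat_lit 5) (nat_lit 418) (nat_lit 388) (nat_lit 82)) (XT.nd (nat_lit 94) (nat_lit 0) (nat_lit 0) (XT.lf (nat_lit 0) (nat_lit 54703511429) (nat_lit 420) (nat_lit 38944987671) (nat_lit 504) (nat_lit 26708992792) (nat_lit 50) (nat_lit 5) (nat_lit 55) (nat_lit 5) (nat_lit 56) (nat_lit 5) (nat_lit 419) (nat_lit 388) (nat_lit 81)) (XT.lf (nat_lit 0) (nat_lit 93722827575) (nat_lit 420) (nat_lit 8399510990) (nat_lit 504) (nat_lit 20725104259) (nat_lit 50) (nat_lit 5) (nat_lit 55) (nat_lit 5) (nat_lit 56) (nat_lit 5) (nat_lit 420) (nat_lit 388) (nat_lit 80)))) (XT.nd (nat_lit 94) (nat_lit 84) (nat_lit 0) (XT.lf (nat_lit 0) (nat_lit 8478721518) (nat_lit 336) (nat_lit 102693163340) (nat_lit 420) (nat_lit 14232994989) (nat_lit 46) (nat_lit 5) (nat_lit 50) (nat_lit 5) (nat_lit 51)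 (nat_lit 5) (nat_lit 421) (nat_lit 388) (nat_lit 79)) (XT.nd (nat_lit 94) (nat_lit 84) (nat_lit 0) (XT.lf (nat_lit 0) (nat_lit 47777334513) (nat_lit 336) (nat_lit 73113498500) (nat_lit 420) (nat_lit 7138710691) (nat_lit 46) (nat_lit 5) (nat_lit 50) (nat_lit 5) (nat_lit 51) (nat_lit 5) (nat_lit 422) (nat_lit 388) (nat_lit 78)) (XT.lf (nat_lit 0) (nat_lit 171790136) (nat_lit 420) (nat_lit 42443287813) (nat_lit 84) (nat_lit 88120446566) (nat_lit 45) (nat_lit 5) (nat_lit 50) (nat_lit 5) (nat_lit 46) (nat_lit 5) (nat_lit 423) (nat_lit 388) (nat_lit 77))))) (XT.nd (nat_lit 282) (nat_lit 0) (nat_lit 0) (XT.nd (nat_lit 94) (nat_lit 420) (nat_lit 0) (XT.lf (nat_lit 0) (nat_lit 7560463378) (nat_lit 420) (nat_lit 3535475937) (nat_lit 84) (nat_lit 122427194192) (nat_lit 45) (nat_lit 5) (nat_lit 50) (nat_lit 5) (nat_lit 46) (nat_lit 5) (nat_lit 424) (nat_lit 388) (nat_lit 76)) (XT.nd (nat_lit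 94) (nat_lit 0) (nat_lit 0) (XT.lf (nat_lit 0) (nat_lit 15764428696) (nat_lit 504) (nat_lit 99271330800) (nat_lit 84) (nat_lit 21343226343) (nat_lit 40) (nat_lit 5) (nat_lit 46) (nat_lit 5) (nat_lit 41) (nat_lit 5) (nat_lit 425) (nat_lit 388) (nat_lit 75)) (XT.lf (nat_lit 0) (nat_lit 24373325586) (nat_lit 504) (nat_lit 60350587734) (nat_lit 84) (nat_lit 54594788373) (nat_lit 40) (nat_lit 5) (nat_lit 46) (nat_lit 5) (nat_lit 41) (nat_lit 5) (nat_lit 426) (nat_lit 388) (nat_lit 74)))) (XT.nd (nat_lit 52264) (nat_lit 0) (nat_lit 3444) (XT.nd (nat_lit 52170) (nat_lit 0) (nat_lit 3444) (XT.lf (nat_lit 0) (nat_lit 33248945750) (nat_lit 504) (nat_lit 20223469100) (nat_lit 84) (nat_lit 88877139558) (nat_lit 40) (nat_lit 5) (nat_lit 46) (nat_lit 5) (nat_lit 41) (nat_lit 5) (nat_lit 427) (nat_lit 388) (nat_lit 73)) (XT.lf (nat_lit 0) (nat_lit 15312963118) (nat_lit 0) (nat_lit 15312963118)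 (nat_lit 924) (nat_lit 5059891387) (nat_lit 81) (nat_lit 5) (nat_lit 81) (nat_lit 3) (nat_lit 92) (nat_lit 3) (nat_lit 389) (nat_lit 389) (nat_lit 110))) (XT.nd (nat_lit 94) (nat_lit 0) (nat_lit 0) (XT.lf (nat_lit 0) (nat_lit 54501554138) (nat_lit 0) (nat_lit 7709593857) (nat_lit 924) (nat_lit 10266368764) (nat_lit 81) (nat_lit 5) (nat_lit 81) (nat_lit 3) (nat_lit 92) (nat_lit 3) (nat_lit 390) (nat_lit 389) (nat_lit 109)) (XT.lf (nat_lit 84) (nat_lit 5451362115) (nat_lit 0) (nat_lit 57960401182) (nat_lit 1008) (nat_lit 10199361182) (nat_lit 82) (nat_lit 5) (nat_lit 81) (nat_lit 5) (nat_lit 93) (nat_lit 5) (nat_lit 391) (nat_lit 389) (nat_lit 108))))))) (XT.nd (nat_lit 1222) (nat_lit 1428) (nat_lit 0) (XT.nd (nat_lit 564) (nat_lit 756) (nat_lit 0) (XT.nd (nat_lit 282) (nat_lit 0) (nat_lit 84) (XT.nd (nat_lit 94) (nat_lit 0) (nat_lit 0) (XT.lf (nat_lit 84) (nat_lit 29905328186) (nat_lit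 0) (nat_lit 35009567562) (nat_lit 1008) (nat_lit 9856756869) (nat_lit 82) (nat_lit 5) (nat_lit 81) (nat_lit 5) (nat_lit 93) (nat_lit 5) (nat_lit 392) (nat_lit 389) (nat_lit 107)) (XT.nd (nat_lit 94) (nat_lit 0) (nat_lit 84) (XT.lf (nat_lit 84) (nat_lit 55117159302) (nat_lit 0) (nat_lit 11347090815) (nat_lit 1008) (nat_lit 9503921379) (nat_lit 82) (nat_lit 5) (nat_lit 81) (nat_lit 5) (nat_lit 93) (nat_lit 5) (nat_lit 393) (nat_lit 389) (nat_lit 106)) (XT.lf (nat_lit 84) (nat_lit 3856816861) (nat_lit 0) (nat_lit 64372162341) (nat_lit 1008) (nat_lit 8967618225) (nat_lit 83) (nat_lit 5) (nat_lit 82) (nat_lit 5) (nat_lit 94) (nat_lit 5) (nat_lit 394) (nat_lit 389) (nat_lit 105)))) (XT.nd (nat_lit 94) (nat_lit 0) (nat_lit 0) (XT.lf (nat_lit 84) (nat_lit 29653963766) (nat_lit 0) (nat_lit 40726618492) (nat_lit 1008) (nat_lit 8072227689) (nat_lit 83) (nat_lit 5) (nat_lit 82) (nat_lit 5) (nat_lit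 94) (nat_lit 5) (nat_lit 395) (nat_lit 389) (nat_lit 104)) (XT.nd (nat_lit 94) (nat_lit 0) (nat_lit 84) (XT.lf (nat_lit 84) (nat_lit 56250613692) (nat_lit 0) (nat_lit 16347928410) (nat_lit 1008) (nat_lit 7149436082) (nat_lit 83) (nat_lit 5) (nat_lit 82) (nat_lit 5) (nat_lit 94) (nat_lit 5) (nat_lit 396) (nat_lit 389) (nat_lit 103)) (XT.lf (nat_lit 84) (nat_lit 2552511070) (nat_lit 0) (nat_lit 72444900731) (nat_lit 1008) (nat_lit 6082410510) (nat_lit 84) (nat_lit 5) (nat_lit 83) (nat_lit 5) (nat_lit 95) (nat_lit 5) (nat_lit 397) (nat_lit 389) (nat_lit 102))))) (XT.nd (nat_lit 282) (nat_lit 924) (nat_lit 0) (XT.nd (nat_lit 94) (nat_lit 0) (nat_lit 0) (XT.lf (nat_lit 84) (nat_lit 29737211614) (nat_lit 0) (nat_lit 48143883768) (nat_lit 1008) (nat_lit 4559136658) (nat_lit 84) (nat_lit 5) (nat_lit 83) (nat_lit 5) (nat_lit 95) (nat_lit 5) (nat_lit 398) (nat_lit 389) (nat_lit 101)) (XT.nd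 (nat_lit 94) (nat_lit 0) (nat_lit 84) (XT.lf (nat_lit 84) (nat_lit 57764430214) (nat_lit 0) (nat_lit 23089429199) (nat_lit 1008) (nat_lit 2988967061) (nat_lit 84) (nat_lit 5) (nat_lit 83) (nat_lit 5) (nat_lit 95) (nat_lit 5) (nat_lit 399) (nat_lit 389) (nat_lit 100)) (XT.lf (nat_lit 84) (nat_lit 1371818112) (nat_lit 0) (nat_lit 82587464474) (nat_lit 1008) (nat_lit 1328365353) (nat_lit 85) (nat_lit 5) (nat_lit 84) (nat_lit 5) (nat_lit 96) (nat_lit 5) (nat_lit 400) (nat_lit 389) (nat_lit 99)))) (XT.nd (nat_lit 188) (nat_lit 0) (nat_lit 0) (XT.nd (nat_lit 94) (nat_lit 0) (nat_lit 0) (XT.lf (nat_lit 0) (nat_lit 886822140) (nat_lit 1008) (nat_lit 56785944340) (nat_lit 1092) (nat_lit 29088540484) (nat_lit 72) (nat_lit 5) (nat_lit 84) (nat_lit 5) (nat_lit 85) (nat_lit 5) (nat_lit 401) (nat_lit 389) (nat_lit 98)) (XT.lf (nat_lit 0) (nat_lit 3142794835) (nat_lit 1008) (nat_lit 28828832025)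 (nat_lit 1092) (nat_lit 56308612470) (nat_lit 72) (nat_lit 5) (nat_lit 84) (nat_lit 5) (nat_lit 85) (nat_lit 5) (nat_lit 402) (nat_lit 389) (nat_lit 97))) (XT.nd (nat_lit 94) (nat_lit 0) (nat_lit 84) (XT.lf (nat_lit 0) (nat_lit 5468419137) (nat_lit 1008) (nat_lit 5256378) (nat_lit 1092) (nat_lit 84372593831) (nat_lit 72) (nat_lit 5) (nat_lit 84) (nat_lit 5) (nat_lit 85) (nat_lit 5) (nat_lit 403) (nat_lit 389) (nat_lit 96)) (XT.lf (nat_lit 0) (nat_lit 8386455956) (nat_lit 1008) (nat_lit 61348739581) (nat_lit 1092) (nat_lit 21709522790) (nat_lit 73) (nat_lit 5) (nat_lit 85) (nat_lit 5) (nat_lit 86) (nat_lit 5) (nat_lit 404) (nat_lit 389) (nat_lit 95)))))) (XT.nd (nat_lit 564) (nat_lit 924) (nat_lit 0) (XT.nd (nat_lit 282) (nat_lit 588) (nat_lit 0) (XT.nd (nat_lit 94) (nat_lit 0) (nat_lit 0) (XT.lf (nat_lit 0) (nat_lit 11450722135) (nat_lit 1008) (nat_lit 32018447067) (nat_lit 1092)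 (nat_lit 49621822986) (nat_lit 73) (nat_lit 5) (nat_lit 85) (nat_lit 5) (nat_lit 86) (nat_lit 5) (nat_lit 405) (nat_lit 389) (nat_lit 94)) (XT.nd (nat_lit 94) (nat_lit 0) (nat_lit 84) (XT.lf (nat_lit 0) (nat_lit 14609720593) (nat_lit 1008) (nat_lit 1779118928) (nat_lit 1092) (nat_lit 78399470862) (nat_lit 73) (nat_lit 5) (nat_lit 85) (nat_lit 5) (nat_lit 86) (nat_lit 5) (nat_lit 406) (nat_lit 389) (nat_lit 93)) (XT.lf (nat_lit 0) (nat_lit 18281451710) (nat_lit 1008) (nat_lit 66644559436) (nat_lit 84) (nat_lit 11599377114) (nat_lit 74) (nat_lit 5) (nat_lit 86) (nat_lit 5) (nat_lit 75) (nat_lit 5) (nat_lit 407) (nat_lit 389) (nat_lit 92)))) (XT.nd (nat_lit 94) (nat_lit 672) (nat_lit 0) (XT.lf (nat_lit 0) (nat_lit 22253140047) (nat_lit 1008) (nat_lit 35923802888) (nat_lit 84) (nat_lit 40133604154) (nat_lit 74) (nat_lit 5) (nat_lit 86) (nat_lit 5) (nat_lit 75) (nat_lit 5) (nat_lit 408)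 (nat_lit 389) (nat_lit 91)) (XT.nd (nat_lit 94) (nat_lit 672) (nat_lit 0) (XT.lf (nat_lit 0) (nat_lit 26347712114) (nat_lit 1008) (nat_lit 4250901875) (nat_lit 84) (nat_lit 69552440878) (nat_lit 74) (nat_lit 5) (nat_lit 86) (nat_lit 5) (nat_lit 75) (nat_lit 5) (nat_lit 409) (nat_lit 389) (nat_lit 90)) (XT.lf (nat_lit 0) (nat_lit 28987703694) (nat_lit 672) (nat_lit 1868842398) (nat_lit 756) (nat_lit 71183166638) (nat_lit 66) (nat_lit 5) (nat_lit 74) (nat_lit 5) (nat_lit 75) (nat_lit 5) (nat_lit 410) (nat_lit 389) (nat_lit 89))))) (XT.nd (nat_lit 282) (nat_lit 420) (nat_lit 0) (XT.nd (nat_lit 94) (nat_lit 504) (nat_lit 0) (XT.lf (nat_lit 0) (nat_lit 35825051242) (nat_lit 756) (nat_lit 40914673165) (nat_lit 84) (nat_lit 27237279294) (nat_lit 66) (nat_lit 5) (nat_lit 75) (nat_lit 5) (nat_lit 67) (nat_lit 5) (nat_lit 411) (nat_lit 389) (nat_lit 88)) (XT.nd (nat_lit 94) (nat_lit 504) (nat_lit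 0) (XT.lf (nat_lit 0) (nat_lit 40966474690) (nat_lit 756) (nat_lit 7800387682) (nat_lit 84) (nat_lit 57206904075) (nat_lit 66) (nat_lit 5) (nat_lit 75) (nat_lit 5) (nat_lit 67) (nat_lit 5) (nat_lit 412) (nat_lit 389) (nat_lit 87)) (XT.lf (nat_lit 0) (nat_lit 26881862159) (nat_lit 504) (nat_lit 19651878874) (nat_lit 588) (nat_lit 61490429022) (nat_lit 60) (nat_lit 5) (nat_lit 66) (nat_lit 5) (nat_lit 67) (nat_lit 5) (nat_lit 413) (nat_lit 389) (nat_lit 86)))) (XT.nd (nat_lit 188) (nat_lit 420) (nat_lit 0) (XT.nd (nat_lit 94) (nat_lit 0) (nat_lit 0) (XT.lf (nat_lit 0) (nat_lit 52458466271) (nat_lit 588) (nat_lit 47434842015) (nat_lit 84) (nat_lit 10239098206) (nat_lit 60) (nat_lit 5) (nat_lit 67) (nat_lit 5) (nat_lit 61) (nat_lit 5) (nat_lit 414) (nat_lit 389) (nat_lit 85)) (XT.lf (nat_lit 0) (nat_lit 58767648865) (nat_lit 588) (nat_lit 12883625610) (nat_lit 84) (nat_lit 40648500621)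 (nat_lit 60) (nat_lit 5) (nat_lit 67) (nat_lit 5) (nat_lit 61) (nat_lit 5) (nat_lit 415) (nat_lit 389) (nat_lit 84))) (XT.nd (nat_lit 94) (nat_lit 0) (nat_lit 0) (XT.lf (nat_lit 0) (nat_lit 23206045848) (nat_lit 420) (nat_lit 42296381562) (nat_lit 504) (nat_lit 49024775682) (nat_lit 55) (nat_lit 5) (nat_lit 60) (nat_lit 5) (nat_lit 61) (nat_lit 5) (nat_lit 416) (nat_lit 389) (nat_lit 83)) (XT.lf (nat_lit 0) (nat_lit 60687442305) (nat_lit 420) (nat_lit 11892828944) (nat_lit 504) (nat_lit 44239248482) (nat_lit 55) (nat_lit 5) (nat_lit 60) (nat_lit 5) (nat_lit 61) (nat_lit 5) (nat_lit 417) (nat_lit 389) (nat_lit 82))))))))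
noncomputable def xc242 : XT := (XT.nd (nat_lit 54520) (nat_lit 0) (nat_lit 420) (XT.nd (nat_lit 53298) (nat_lit 0) (nat_lit 2688) (XT.nd (nat_lit 564) (nat_lit 504) (nat_lit 0) (XT.nd (nat_lit 282) (nat_lit 336) (nat_lit 0) (XT.nd (nat_lit 94) (nat_lit 420) (nat_lit 0) (XT.lf (nat_lit 0) (nat_lit 80070321122) (nat_lit 504) (nat_lit 20045297190) (nat_lit 84) (nat_lit 19061304532) (nat_lit 55) (nat_lit 5) (nat_lit 61) (nat_lit 5) (nat_lit 56) (nat_lit 5) (nat_lit 418) (nat_lit 389) (nat_lit 81)) (XT.nd (nat_lit 94) (nat_lit 0) (nat_lit 0) (XT.lf (nat_lit 0) (nat_lit 17388704128) (nat_lit 420) (nat_lit 70697812142) (nat_lit 504) (nat_lit 33511777816) (nat_lit 50) (nat_lit 5) (nat_lit 55) (nat_lit 5) (nat_lit 56) (nat_lit 5) (nat_lit 419) (nat_lit 389) (nat_lit 80)) (XT.lf (nat_lit 0) (nat_lit 56407933970) (nat_lit 420) (nat_lit 40152334934) (nat_lit 504) (nat_lit 27527979380) (nat_lit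 50) (nat_lit 5) (nat_lit 55) (nat_lit 5) (nat_lit 56) (nat_lit 5) (nat_lit 420) (nat_lit 389) (nat_lit 79)))) (XT.nd (nat_lit 94) (nat_lit 336) (nat_lit 0) (XT.lf (nat_lit 0) (nat_lit 96636589922) (nat_lit 420) (nat_lit 8659946893) (nat_lit 504) (nat_lit 21358860678) (nat_lit 50) (nat_lit 5) (nat_lit 55) (nat_lit 5) (nat_lit 56) (nat_lit 5) (nat_lit 421) (nat_lit 389) (nat_lit 78)) (XT.nd (nat_lit 94) (nat_lit 0) (nat_lit 0) (XT.lf (nat_lit 0) (nat_lit 8750145354) (nat_lit 336) (nat_lit 105876305603) (nat_lit 420) (nat_lit 14665670985) (nat_lit 46) (nat_lit 5) (nat_lit 50) (nat_lit 5) (nat_lit 51) (nat_lit 5) (nat_lit 422) (nat_lit 389) (nat_lit 77)) (XT.lf (nat_lit 0) (nat_lit 49266757264) (nat_lit 336) (nat_lit 75379681550) (nat_lit 420) (nat_lit 7351720860) (nat_lit 46) (nat_lit 5) (nat_lit 50) (nat_lit 5) (nat_lit 51) (nat_lit 5) (nat_lit 423) (nat_lit 389) (nat_lit 76))))) (XT.nd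 (nat_lit 282) (nat_lit 0) (nat_lit 0) (XT.nd (nat_lit 94) (nat_lit 420) (nat_lit 0) (XT.lf (nat_lit 0) (nat_lit 184994234) (nat_lit 420) (nat_lit 43750743577) (nat_lit 84) (nat_lit 90852294625) (nat_lit 45) (nat_lit 5) (nat_lit 50) (nat_lit 5) (nat_lit 46) (nat_lit 5) (nat_lit 424) (nat_lit 389) (nat_lit 75)) (XT.nd (nat_lit 94) (nat_lit 420) (nat_lit 0) (XT.lf (nat_lit 0) (nat_lit 7802479454) (nat_lit 420) (nat_lit 3637038680) (nat_lit 84) (nat_lit 126222547992) (nat_lit 45) (nat_lit 5) (nat_lit 50) (nat_lit 5) (nat_lit 46) (nat_lit 5) (nat_lit 425) (nat_lit 389) (nat_lit 74)) (XT.lf (nat_lit 0) (nat_lit 16260621458) (nat_lit 504) (nat_lit 102340512611) (nat_lit 84) (nat_lit 22005321777) (nat_lit 40) (nat_lit 5) (nat_lit 46) (nat_lit 5) (nat_lit 41) (nat_lit 5) (nat_lit 426) (nat_lit 389) (nat_lit 73)))) (XT.nd (nat_lit 52264) (nat_lit 0) (nat_lit 3444) (XT.lf (nat_lit 0) (nat_lit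 25136168779) (nat_lit 504) (nat_lit 62213473952) (nat_lit 84) (nat_lit 56287668537) (nat_lit 40) (nat_lit 5) (nat_lit 46) (nat_lit 5) (nat_lit 41) (nat_lit 5) (nat_lit 427) (nat_lit 389) (nat_lit 72)) (XT.nd (nat_lit 94) (nat_lit 0) (nat_lit 0) (XT.lf (nat_lit 0) (nat_lit 15792561816) (nat_lit 0) (nat_lit 15792561816) (nat_lit 924) (nat_lit 5206579262) (nat_lit 81) (nat_lit 5) (nat_lit 81) (nat_lit 3) (nat_lit 92) (nat_lit 3) (nat_lit 390) (nat_lit 390) (nat_lit 108)) (XT.lf (nat_lit 0) (nat_lit 56200601524) (nat_lit 0) (nat_lit 7958090474) (nat_lit 924) (nat_lit 10564900185) (nat_lit 81) (nat_lit 5) (nat_lit 81) (nat_lit 3) (nat_lit 92) (nat_lit 3) (nat_lit 391) (nat_lit 390) (nat_lit 107)))))) (XT.nd (nat_lit 564) (nat_lit 756) (nat_lit 0) (XT.nd (nat_lit 282) (nat_lit 0) (nat_lit 84) (XT.nd (nat_lit 94) (nat_lit 0) (nat_lit 0) (XT.lf (nat_lit 84) (nat_lit 5630570886) (nat_lit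 0) (nat_lit 59765394195) (nat_lit 1008) (nat_lit 10496398230) (nat_lit 82) (nat_lit 5) (nat_lit 81) (nat_lit 5) (nat_lit 93) (nat_lit 5) (nat_lit 392) (nat_lit 390) (nat_lit 106)) (XT.nd (nat_lit 94) (nat_lit 0) (nat_lit 0) (XT.lf (nat_lit 84) (nat_lit 30842302715) (nat_lit 0) (nat_lit 36102837558) (nat_lit 1008) (nat_lit 10143748777) (nat_lit 82) (nat_lit 5) (nat_lit 81) (nat_lit 5) (nat_lit 93) (nat_lit 5) (nat_lit 393) (nat_lit 390) (nat_lit 105)) (XT.lf (nat_lit 84) (nat_lit 56835402642) (nat_lit 0) (nat_lit 11706584288) (nat_lit 1008) (nat_lit 9780533674) (nat_lit 82) (nat_lit 5) (nat_lit 81) (nat_lit 5) (nat_lit 93) (nat_lit 5) (nat_lit 394) (nat_lit 390) (nat_lit 104)))) (XT.nd (nat_lit 94) (nat_lit 0) (nat_lit 0) (XT.lf (nat_lit 84) (nat_lit 3986625704) (nat_lit 0) (nat_lit 66374302629) (nat_lit 1008) (nat_lit 9228118534) (nat_lit 83) (nat_lit 5) (nat_lit 82) (nat_lit 5)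 (nat_lit 94) (nat_lit 5) (nat_lit 395) (nat_lit 390) (nat_lit 103)) (XT.nd (nat_lit 94) (nat_lit 0) (nat_lit 0) (XT.lf (nat_lit 84) (nat_lit 30583176042) (nat_lit 0) (nat_lit 41995548375) (nat_lit 1008) (nat_lit 8305496956) (nat_lit 83) (nat_lit 5) (nat_lit 82) (nat_lit 5) (nat_lit 94) (nat_lit 5) (nat_lit 396) (nat_lit 390) (nat_lit 102)) (XT.lf (nat_lit 84) (nat_lit 58004023258) (nat_lit 0) (nat_lit 16860926324) (nat_lit 1008) (nat_lit 7354609054) (nat_lit 83) (nat_lit 5) (nat_lit 82) (nat_lit 5) (nat_lit 94) (nat_lit 5) (nat_lit 397) (nat_lit 390) (nat_lit 101))))) (XT.nd (nat_lit 282) (nat_lit 924) (nat_lit 0) (XT.nd (nat_lit 94) (nat_lit 0) (nat_lit 0) (XT.lf (nat_lit 84) (nat_lit 2641843582) (nat_lit 0) (nat_lit 74695905463) (nat_lit 1008) (nat_lit 6254957849) (nat_lit 84) (nat_lit 5) (nat_lit 83) (nat_lit 5) (nat_lit 95) (nat_lit 5) (nat_lit 398) (nat_lit 390) (nat_lit 100))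 (XT.nd (nat_lit 94) (nat_lit 0) (nat_lit 0) (XT.lf (nat_lit 84) (nat_lit 30668963010) (nat_lit 0) (nat_lit 49641400235) (nat_lit 1008) (nat_lit 4684943816) (nat_lit 84) (nat_lit 5) (nat_lit 83) (nat_lit 5) (nat_lit 95) (nat_lit 5) (nat_lit 399) (nat_lit 390) (nat_lit 99)) (XT.lf (nat_lit 84) (nat_lit 59564727779) (nat_lit 0) (nat_lit 23810105550) (nat_lit 1008) (nat_lit 3066565798) (nat_lit 84) (nat_lit 5) (nat_lit 83) (nat_lit 5) (nat_lit 95) (nat_lit 5) (nat_lit 400) (nat_lit 390) (nat_lit 98)))) (XT.nd (nat_lit 188) (nat_lit 0) (nat_lit 0) (XT.nd (nat_lit 94) (nat_lit 1008) (nat_lit 0) (XT.lf (nat_lit 84) (nat_lit 1424445014) (nat_lit 0) (nat_lit 85151696505) (nat_lit 1008) (nat_lit 1354883581) (nat_lit 85) (nat_lit 5) (nat_lit 84) (nat_lit 5) (nat_lit 96) (nat_lit 5) (nat_lit 401) (nat_lit 390) (nat_lit 97)) (XT.lf (nat_lit 0) (nat_lit 928247389) (nat_lit 1008) (nat_lit 58536129152)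 (nat_lit 1092) (nat_lit 29986002875) (nat_lit 72) (nat_lit 5) (nat_lit 84) (nat_lit 5) (nat_lit 85) (nat_lit 5) (nat_lit 402) (nat_lit 390) (nat_lit 96))) (XT.nd (nat_lit 94) (nat_lit 0) (nat_lit 0) (XT.lf (nat_lit 0) (nat_lit 3253736279) (nat_lit 1008) (nat_lit 29712652431) (nat_lit 1092) (nat_lit 58050025854) (nat_lit 72) (nat_lit 5) (nat_lit 84) (nat_lit 5) (nat_lit 85) (nat_lit 5) (nat_lit 403) (nat_lit 390) (nat_lit 95)) (XT.lf (nat_lit 84) (nat_lit 4242669) (nat_lit 0) (nat_lit 5646847991) (nat_lit 1092) (nat_lit 86979914945) (nat_lit 73) (nat_lit 5) (nat_lit 72) (nat_lit 5) (nat_lit 85) (nat_lit 5) (nat_lit 404) (nat_lit 390) (nat_lit 94))))))) (XT.nd (nat_lit 1222) (nat_lit 840) (nat_lit 0) (XT.nd (nat_lit 564) (nat_lit 1512) (nat_lit 0) (XT.nd (nat_lit 282) (nat_lit 0) (nat_lit 84) (XT.nd (nat_lit 94) (nat_lit 0) (nat_lit 0) (XT.lf (nat_lit 0) (nat_lit 8659211407) (nat_lit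 1008) (nat_lit 63240553161) (nat_lit 1092) (nat_lit 22379256287) (nat_lit 73) (nat_lit 5) (nat_lit 85) (nat_lit 5) (nat_lit 86) (nat_lit 5) (nat_lit 405) (nat_lit 390) (nat_lit 93)) (XT.nd (nat_lit 94) (nat_lit 0) (nat_lit 0) (XT.lf (nat_lit 0) (nat_lit 11818085710) (nat_lit 1008) (nat_lit 33001322179) (nat_lit 1092) (nat_lit 51156935862) (nat_lit 73) (nat_lit 5) (nat_lit 85) (nat_lit 5) (nat_lit 86) (nat_lit 5) (nat_lit 406) (nat_lit 390) (nat_lit 92)) (XT.lf (nat_lit 0) (nat_lit 15074640543) (nat_lit 1008) (nat_lit 1824866429) (nat_lit 1092) (nat_lit 80826785947) (nat_lit 73) (nat_lit 5) (nat_lit 85) (nat_lit 5) (nat_lit 86) (nat_lit 5) (nat_lit 407) (nat_lit 390) (nat_lit 91)))) (XT.nd (nat_lit 94) (nat_lit 0) (nat_lit 0) (XT.lf (nat_lit 0) (nat_lit 18859902105) (nat_lit 1008) (nat_lit 68700762343) (nat_lit 84) (nat_lit 11956567331) (nat_lit 74) (nat_lit 5) (nat_lit 86) (nat_lit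 5) (nat_lit 75) (nat_lit 5) (nat_lit 408) (nat_lit 390) (nat_lit 90)) (XT.nd (nat_lit 94) (nat_lit 0) (nat_lit 0) (XT.lf (nat_lit 0) (nat_lit 22954360222) (nat_lit 1008) (nat_lit 37027956359) (nat_lit 84) (nat_lit 41375427286) (nat_lit 74) (nat_lit 5) (nat_lit 86) (nat_lit 5) (nat_lit 75) (nat_lit 5) (nat_lit 409) (nat_lit 390) (nat_lit 89)) (XT.lf (nat_lit 0) (nat_lit 27175522067) (nat_lit 1008) (nat_lit 4373480591) (nat_lit 84) (nat_lit 71706317664) (nat_lit 74) (nat_lit 5) (nat_lit 86) (nat_lit 5) (nat_lit 75) (nat_lit 5) (nat_lit 410) (nat_lit 390) (nat_lit 88))))) (XT.nd (nat_lit 282) (nat_lit 924) (nat_lit 0) (XT.nd (nat_lit 94) (nat_lit 0) (nat_lit 0) (XT.lf (nat_lit 0) (nat_lit 29895428616) (nat_lit 672) (nat_lit 1928459940) (nat_lit 756) (nat_lit 73378647767) (nat_lit 66) (nat_lit 5) (nat_lit 74) (nat_lit 5) (nat_lit 75) (nat_lit 5) (nat_lit 411) (nat_lit 390) (nat_lit 87))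 (XT.nd (nat_lit 94) (nat_lit 0) (nat_lit 0) (XT.lf (nat_lit 0) (nat_lit 36946076750) (nat_lit 756) (nat_lit 42173784281) (nat_lit 84) (nat_lit 28080035039) (nat_lit 66) (nat_lit 5) (nat_lit 75) (nat_lit 5) (nat_lit 67) (nat_lit 5) (nat_lit 412) (nat_lit 390) (nat_lit 86)) (XT.lf (nat_lit 0) (nat_lit 42246570148) (nat_lit 756) (nat_lit 8033233888) (nat_lit 84) (nat_lit 58978766294) (nat_lit 66) (nat_lit 5) (nat_lit 75) (nat_lit 5) (nat_lit 67) (nat_lit 5) (nat_lit 413) (nat_lit 390) (nat_lit 85)))) (XT.nd (nat_lit 188) (nat_lit 420) (nat_lit 0) (XT.nd (nat_lit 94) (nat_lit 0) (nat_lit 0) (XT.lf (nat_lit 0) (nat_lit 27724074927) (nat_lit 504) (nat_lit 20262130132) (nat_lit 588) (nat_lit 63386340175) (nat_lit 60) (nat_lit 5) (nat_lit 66) (nat_lit 5) (nat_lit 67) (nat_lit 5) (nat_lit 414) (nat_lit 390) (nat_lit 84)) (XT.lf (nat_lit 0) (nat_lit 54094288528) (nat_lit 588) (nat_lit 48896341049)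 (nat_lit 84) (nat_lit 10555518981) (nat_lit 60) (nat_lit 5) (nat_lit 67) (nat_lit 5) (nat_lit 61) (nat_lit 5) (nat_lit 415) (nat_lit 390) (nat_lit 83))) (XT.nd (nat_lit 94) (nat_lit 420) (nat_lit 0) (XT.lf (nat_lit 0) (nat_lit 60598766836) (nat_lit 588) (nat_lit 13274306978) (nat_lit 84) (nat_lit 41907642677) (nat_lit 60) (nat_lit 5) (nat_lit 67) (nat_lit 5) (nat_lit 61) (nat_lit 5) (nat_lit 416) (nat_lit 390) (nat_lit 82)) (XT.lf (nat_lit 0) (nat_lit 23934056104) (nat_lit 420) (nat_lit 43608072693) (nat_lit 504) (nat_lit 50535073879) (nat_lit 55) (nat_lit 5) (nat_lit 60) (nat_lit 5) (nat_lit 61) (nat_lit 5) (nat_lit 417) (nat_lit 390) (nat_lit 81)))))) (XT.nd (nat_lit 564) (nat_lit 84) (nat_lit 0) (XT.nd (nat_lit 282) (nat_lit 336) (nat_lit 0) (XT.nd (nat_lit 94) (nat_lit 420) (nat_lit 0) (XT.lf (nat_lit 0) (nat_lit 62577116581) (nat_lit 420) (nat_lit 12261994810) (nat_lit 504)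 (nat_lit 45601480074) (nat_lit 55) (nat_lit 5) (nat_lit 60) (nat_lit 5) (nat_lit 61) (nat_lit 5) (nat_lit 418) (nat_lit 390) (nat_lit 80)) (XT.nd (nat_lit 94) (nat_lit 420) (nat_lit 0) (XT.lf (nat_lit 0) (nat_lit 82561081960) (nat_lit 504) (nat_lit 20658261262) (nat_lit 84) (nat_lit 19651741021) (nat_lit 55) (nat_lit 5) (nat_lit 61) (nat_lit 5) (nat_lit 56) (nat_lit 5) (nat_lit 419) (nat_lit 390) (nat_lit 79)) (XT.lf (nat_lit 0) (nat_lit 17936108648) (nat_lit 420) (nat_lit 72889495381) (nat_lit 504) (nat_lit 34541921115) (nat_lit 50) (nat_lit 5) (nat_lit 55) (nat_lit 5) (nat_lit 56) (nat_lit 5) (nat_lit 420) (nat_lit 390) (nat_lit 78)))) (XT.nd (nat_lit 94) (nat_lit 336) (nat_lit 0) (XT.lf (nat_lit 0) (nat_lit 58164683407) (nat_lit 420) (nat_lit 41397106843) (nat_lit 504) (nat_lit 28372887174) (nat_lit 50) (nat_lit 5) (nat_lit 55) (nat_lit 5) (nat_lit 56) (nat_lit 5) (nat_lit 421)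 (nat_lit 390) (nat_lit 77)) (XT.nd (nat_lit 94) (nat_lit 336) (nat_lit 0) (XT.lf (nat_lit 0) (nat_lit 99640184038) (nat_lit 420) (nat_lit 8928453284) (nat_lit 504) (nat_lit 22012780154) (nat_lit 50) (nat_lit 5) (nat_lit 55) (nat_lit 5) (nat_lit 56) (nat_lit 5) (nat_lit 422) (nat_lit 390) (nat_lit 76)) (XT.lf (nat_lit 0) (nat_lit 9029474915) (nat_lit 336) (nat_lit 109158145759) (nat_lit 420) (nat_lit 15112266181) (nat_lit 46) (nat_lit 5) (nat_lit 50) (nat_lit 5) (nat_lit 51) (nat_lit 5) (nat_lit 423) (nat_lit 390) (nat_lit 75))))) (XT.nd (nat_lit 52640) (nat_lit 0) (nat_lit 3024) (XT.nd (nat_lit 94) (nat_lit 84) (nat_lit 0) (XT.lf (nat_lit 0) (nat_lit 50801858995) (nat_lit 336) (nat_lit 77716136142) (nat_lit 420) (nat_lit 7571825366) (nat_lit 46) (nat_lit 5) (nat_lit 50) (nat_lit 5) (nat_lit 51) (nat_lit 5) (nat_lit 424) (nat_lit 390) (nat_lit 74)) (XT.nd (nat_lit 94) (nat_lit 0)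 (nat_lit 0) (XT.lf (nat_lit 0) (nat_lit 198140996) (nat_lit 420) (nat_lit 45099221272) (nat_lit 84) (nat_lit 93668823208) (nat_lit 45) (nat_lit 5) (nat_lit 50) (nat_lit 5) (nat_lit 46) (nat_lit 5) (nat_lit 425) (nat_lit 390) (nat_lit 73)) (XT.lf (nat_lit 0) (nat_lit 8051545397) (nat_lit 420) (nat_lit 3742225914) (nat_lit 84) (nat_lit 130135551199) (nat_lit 45) (nat_lit 5) (nat_lit 50) (nat_lit 5) (nat_lit 46) (nat_lit 5) (nat_lit 426) (nat_lit 390) (nat_lit 72)))) (XT.nd (nat_lit 188) (nat_lit 0) (nat_lit 0) (XT.nd (nat_lit 94) (nat_lit 0) (nat_lit 0) (XT.lf (nat_lit 0) (nat_lit 16286738025) (nat_lit 0) (nat_lit 16286738025) (nat_lit 924) (nat_lit 5358416774) (nat_lit 81) (nat_lit 5) (nat_lit 81) (nat_lit 3) (nat_lit 92) (nat_lit 3) (nat_lit 391) (nat_lit 391) (nat_lit 106)) (XT.lf (nat_lit 0) (nat_lit 57951756725) (nat_lit 0) (nat_lit 8213727832) (nat_lit 924) (nat_lit 10873854486)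 (nat_lit 81) (nat_lit 5) (nat_lit 81) (nat_lit 3) (nat_lit 92) (nat_lit 3) (nat_lit 392) (nat_lit 391) (nat_lit 105))) (XT.nd (nat_lit 94) (nat_lit 0) (nat_lit 0) (XT.lf (nat_lit 84) (nat_lit 5814729985) (nat_lit 0) (nat_lit 61625855073) (nat_lit 1008) (nat_lit 10803777307) (nat_lit 82) (nat_lit 5) (nat_lit 81) (nat_lit 5) (nat_lit 93) (nat_lit 5) (nat_lit 393) (nat_lit 391) (nat_lit 104)) (XT.lf (nat_lit 84) (nat_lit 31807736506) (nat_lit 0) (nat_lit 37229526646) (nat_lit 1008) (nat_lit 10440737223) (nat_lit 82) (nat_lit 5) (nat_lit 81) (nat_lit 5) (nat_lit 93) (nat_lit 5) (nat_lit 394) (nat_lit 391) (nat_lit 103))))))))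
noncomputable def xc243 : XT := (XT.nd (nat_lit 2444) (nat_lit 756) (nat_lit 0) (XT.nd (nat_lit 1222) (nat_lit 1428) (nat_lit 0) (XT.nd (nat_lit 564) (nat_lit 756) (nat_lit 0) (XT.nd (nat_lit 282) (nat_lit 0) (nat_lit 84) (XT.nd (nat_lit 94) (nat_lit 0) (nat_lit 84) (XT.lf (nat_lit 84) (nat_lit 58606342226) (nat_lit 0) (nat_lit 12076763981) (nat_lit 1008) (nat_lit 10066787671) (nat_lit 82) (nat_lit 5) (nat_lit 81) (nat_lit 5) (nat_lit 93) (nat_lit 5) (nat_lit 395) (nat_lit 391) (nat_lit 102)) (XT.nd (nat_lit 94) (nat_lit 0) (nat_lit 0) (XT.lf (nat_lit 84) (nat_lit 4119851642) (nat_lit 0) (nat_lit 68438118143) (nat_lit 1008) (nat_lit 9497730662) (nat_lit 83) (nat_lit 5) (nat_lit 82) (nat_lit 5) (nat_lit 94) (nat_lit 5) (nat_lit 396) (nat_lit 391) (nat_lit 101)) (XT.lf (nat_lit 84) (nat_lit 31540605170) (nat_lit 0) (nat_lit 43303435721) (nat_lit 1008) (nat_lit 8547002719) (nat_lit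 83) (nat_lit 5) (nat_lit 82) (nat_lit 5) (nat_lit 94) (nat_lit 5) (nat_lit 397) (nat_lit 391) (nat_lit 100)))) (XT.nd (nat_lit 94) (nat_lit 0) (nat_lit 84) (XT.lf (nat_lit 84) (nat_lit 59811217495) (nat_lit 0) (nat_lit 17389459218) (nat_lit 1008) (nat_lit 7567117316) (nat_lit 83) (nat_lit 5) (nat_lit 82) (nat_lit 5) (nat_lit 94) (nat_lit 5) (nat_lit 398) (nat_lit 391) (nat_lit 99)) (XT.nd (nat_lit 94) (nat_lit 0) (nat_lit 0) (XT.lf (nat_lit 84) (nat_lit 2733340962) (nat_lit 0) (nat_lit 77016382577) (nat_lit 1008) (nat_lit 6433802301) (nat_lit 84) (nat_lit 5) (nat_lit 83) (nat_lit 5) (nat_lit 95) (nat_lit 5) (nat_lit 399) (nat_lit 391) (nat_lit 98)) (XT.lf (nat_lit 84) (nat_lit 31629012434) (nat_lit 0) (nat_lit 51185040233) (nat_lit 1008) (nat_lit 4815570632) (nat_lit 84) (nat_lit 5) (nat_lit 83) (nat_lit 5) (nat_lit 95) (nat_lit 5) (nat_lit 400) (nat_lit 391) (nat_lit 97))))) (XT.nd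 (nat_lit 282) (nat_lit 0) (nat_lit 0) (XT.nd (nat_lit 94) (nat_lit 924) (nat_lit 0) (XT.lf (nat_lit 84) (nat_lit 61420265931) (nat_lit 0) (nat_lit 24552832392) (nat_lit 1008) (nat_lit 3147462080) (nat_lit 84) (nat_lit 5) (nat_lit 83) (nat_lit 5) (nat_lit 95) (nat_lit 5) (nat_lit 401) (nat_lit 391) (nat_lit 96)) (XT.nd (nat_lit 94) (nat_lit 1008) (nat_lit 0) (XT.lf (nat_lit 84) (nat_lit 1478105078) (nat_lit 0) (nat_lit 87795181581) (nat_lit 1008) (nat_lit 1383092275) (nat_lit 85) (nat_lit 5) (nat_lit 84) (nat_lit 5) (nat_lit 96) (nat_lit 5) (nat_lit 402) (nat_lit 391) (nat_lit 95)) (XT.lf (nat_lit 0) (nat_lit 970131501) (nat_lit 1008) (nat_lit 60341172641) (nat_lit 1092) (nat_lit 30911540252) (nat_lit 72) (nat_lit 5) (nat_lit 84) (nat_lit 5) (nat_lit 85) (nat_lit 5) (nat_lit 403) (nat_lit 391) (nat_lit 94)))) (XT.nd (nat_lit 188) (nat_lit 0) (nat_lit 84) (XT.nd (nat_lit 94) (nat_lit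 0) (nat_lit 0) (XT.lf (nat_lit 0) (nat_lit 3367316403) (nat_lit 1008) (nat_lit 30624456087) (nat_lit 1092) (nat_lit 59845669077) (nat_lit 72) (nat_lit 5) (nat_lit 84) (nat_lit 5) (nat_lit 85) (nat_lit 5) (nat_lit 404) (nat_lit 391) (nat_lit 93)) (XT.lf (nat_lit 84) (nat_lit 13568723) (nat_lit 0) (nat_lit 5825128966) (nat_lit 1092) (nat_lit 89663398903) (nat_lit 73) (nat_lit 5) (nat_lit 72) (nat_lit 5) (nat_lit 85) (nat_lit 5) (nat_lit 405) (nat_lit 391) (nat_lit 92))) (XT.nd (nat_lit 94) (nat_lit 0) (nat_lit 0) (XT.lf (nat_lit 0) (nat_lit 8939665572) (nat_lit 1008) (nat_lit 65191605122) (nat_lit 1092) (nat_lit 23069944720) (nat_lit 73) (nat_lit 5) (nat_lit 85) (nat_lit 5) (nat_lit 86) (nat_lit 5) (nat_lit 406) (nat_lit 391) (nat_lit 91)) (XT.lf (nat_lit 0) (nat_lit 12196103605) (nat_lit 1008) (nat_lit 34015240774) (nat_lit 1092) (nat_lit 52739824626) (nat_lit 73) (nat_lit 5) (nat_lit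 85) (nat_lit 5) (nat_lit 86) (nat_lit 5) (nat_lit 407) (nat_lit 391) (nat_lit 90)))))) (XT.nd (nat_lit 564) (nat_lit 924) (nat_lit 0) (XT.nd (nat_lit 282) (nat_lit 588) (nat_lit 0) (XT.nd (nat_lit 94) (nat_lit 0) (nat_lit 84) (XT.lf (nat_lit 0) (nat_lit 15553261129) (nat_lit 1008) (nat_lit 1872589186) (nat_lit 1092) (nat_lit 83329529553) (nat_lit 73) (nat_lit 5) (nat_lit 85) (nat_lit 5) (nat_lit 86) (nat_lit 5) (nat_lit 408) (nat_lit 391) (nat_lit 89)) (XT.nd (nat_lit 94) (nat_lit 0) (nat_lit 0) (XT.lf (nat_lit 0) (nat_lit 19455589948) (nat_lit 1008) (nat_lit 70821286734) (nat_lit 84) (nat_lit 12324972037) (nat_lit 74) (nat_lit 5) (nat_lit 86) (nat_lit 5) (nat_lit 75) (nat_lit 5) (nat_lit 409) (nat_lit 391) (nat_lit 88)) (XT.lf (nat_lit 0) (nat_lit 23676644591) (nat_lit 1008) (nat_lit 38166900366) (nat_lit 84) (nat_lit 42655884270) (nat_lit 74) (nat_lit 5) (nat_lit 86) (nat_lit 5)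 (nat_lit 75) (nat_lit 5) (nat_lit 410) (nat_lit 391) (nat_lit 87)))) (XT.nd (nat_lit 94) (nat_lit 672) (nat_lit 0) (XT.lf (nat_lit 0) (nat_lit 28028340751) (nat_lit 1008) (nat_lit 4500404134) (nat_lit 84) (nat_lit 73927097835) (nat_lit 74) (nat_lit 5) (nat_lit 86) (nat_lit 5) (nat_lit 75) (nat_lit 5) (nat_lit 411) (nat_lit 391) (nat_lit 86)) (XT.nd (nat_lit 94) (nat_lit 0) (nat_lit 0) (XT.lf (nat_lit 0) (nat_lit 30830753641) (nat_lit 672) (nat_lit 1989825914) (nat_lit 756) (nat_lit 75642852032) (nat_lit 66) (nat_lit 5) (nat_lit 74) (nat_lit 5) (nat_lit 75) (nat_lit 5) (nat_lit 412) (nat_lit 391) (nat_lit 85)) (XT.lf (nat_lit 0) (nat_lit 38101235141) (nat_lit 756) (nat_lit 43472475365) (nat_lit 84) (nat_lit 28949010978) (nat_lit 66) (nat_lit 5) (nat_lit 75) (nat_lit 5) (nat_lit 67) (nat_lit 5) (nat_lit 413) (nat_lit 391) (nat_lit 84))))) (XT.nd (nat_lit 282) (nat_lit 420) (nat_lit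 0) (XT.nd (nat_lit 94) (nat_lit 504) (nat_lit 0) (XT.lf (nat_lit 0) (nat_lit 43565748266) (nat_lit 756) (nat_lit 8273829387) (nat_lit 84) (nat_lit 60805648158) (nat_lit 66) (nat_lit 5) (nat_lit 75) (nat_lit 5) (nat_lit 67) (nat_lit 5) (nat_lit 414) (nat_lit 391) (nat_lit 83)) (XT.nd (nat_lit 94) (nat_lit 0) (nat_lit 0) (XT.lf (nat_lit 0) (nat_lit 28591870606) (nat_lit 504) (nat_lit 20891237399) (nat_lit 588) (nat_lit 65341634195) (nat_lit 60) (nat_lit 5) (nat_lit 66) (nat_lit 5) (nat_lit 67) (nat_lit 5) (nat_lit 415) (nat_lit 391) (nat_lit 82)) (XT.lf (nat_lit 0) (nat_lit 55780252070) (nat_lit 588) (nat_lit 50403678518) (nat_lit 84) (nat_lit 10881807516) (nat_lit 60) (nat_lit 5) (nat_lit 67) (nat_lit 5) (nat_lit 61) (nat_lit 5) (nat_lit 416) (nat_lit 391) (nat_lit 81)))) (XT.nd (nat_lit 188) (nat_lit 0) (nat_lit 0) (XT.nd (nat_lit 94) (nat_lit 420) (nat_lit 0) (XT.lf (nat_lit 0)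 (nat_lit 62486097374) (nat_lit 588) (nat_lit 13677615437) (nat_lit 84) (nat_lit 43205875086) (nat_lit 60) (nat_lit 5) (nat_lit 67) (nat_lit 5) (nat_lit 61) (nat_lit 5) (nat_lit 417) (nat_lit 391) (nat_lit 80)) (XT.lf (nat_lit 0) (nat_lit 24684123933) (nat_lit 420) (nat_lit 44960396437) (nat_lit 504) (nat_lit 52092752235) (nat_lit 55) (nat_lit 5) (nat_lit 60) (nat_lit 5) (nat_lit 61) (nat_lit 5) (nat_lit 418) (nat_lit 391) (nat_lit 79))) (XT.nd (nat_lit 94) (nat_lit 0) (nat_lit 0) (XT.lf (nat_lit 0) (nat_lit 64524875371) (nat_lit 420) (nat_lit 12642575903) (nat_lit 504) (nat_lit 47006484895) (nat_lit 55) (nat_lit 5) (nat_lit 60) (nat_lit 5) (nat_lit 61) (nat_lit 5) (nat_lit 419) (nat_lit 391) (nat_lit 78)) (XT.lf (nat_lit 0) (nat_lit 85128548124) (nat_lit 504) (nat_lit 21290727144) (nat_lit 84) (nat_lit 20260508523) (nat_lit 55) (nat_lit 5) (nat_lit 61) (nat_lit 5) (nat_lit 56) (nat_lit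 5) (nat_lit 420) (nat_lit 391) (nat_lit 77))))))) (XT.nd (nat_lit 53768) (nat_lit 0) (nat_lit 2184) (XT.nd (nat_lit 53110) (nat_lit 0) (nat_lit 2940) (XT.nd (nat_lit 282) (nat_lit 336) (nat_lit 0) (XT.nd (nat_lit 94) (nat_lit 0) (nat_lit 0) (XT.lf (nat_lit 0) (nat_lit 18499987845) (nat_lit 420) (nat_lit 75149117775) (nat_lit 504) (nat_lit 35604515464) (nat_lit 50) (nat_lit 5) (nat_lit 55) (nat_lit 5) (nat_lit 56) (nat_lit 5) (nat_lit 421) (nat_lit 391) (nat_lit 76)) (XT.nd (nat_lit 94) (nat_lit 0) (nat_lit 0) (XT.lf (nat_lit 0) (nat_lit 59975412093) (nat_lit 420) (nat_lit 42680463749) (nat_lit 504) (nat_lit 29244488184) (nat_lit 50) (nat_lit 5) (nat_lit 55) (nat_lit 5) (nat_lit 56) (nat_lit 5) (nat_lit 422) (nat_lit 391) (nat_lit 75)) (XT.lf (nat_lit 0) (nat_lit 102736424022) (nat_lit 420) (nat_lit 9205280528) (nat_lit 504) (nat_lit 22687457142) (nat_lit 50) (nat_lit 5) (nat_lit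 55) (nat_lit 5) (nat_lit 56) (nat_lit 5) (nat_lit 423) (nat_lit 391) (nat_lit 74)))) (XT.nd (nat_lit 94) (nat_lit 0) (nat_lit 0) (XT.lf (nat_lit 0) (nat_lit 9316985394) (nat_lit 336) (nat_lit 112541742229) (nat_lit 420) (nat_lit 15573182087) (nat_lit 46) (nat_lit 5) (nat_lit 50) (nat_lit 5) (nat_lit 51) (nat_lit 5) (nat_lit 424) (nat_lit 391) (nat_lit 73)) (XT.nd (nat_lit 52640) (nat_lit 0) (nat_lit 2940) (XT.lf (nat_lit 0) (nat_lit 52384084961) (nat_lit 336) (nat_lit 80125039516) (nat_lit 420) (nat_lit 7799215051) (nat_lit 46) (nat_lit 5) (nat_lit 50) (nat_lit 5) (nat_lit 51) (nat_lit 5) (nat_lit 425) (nat_lit 391) (nat_lit 72)) (XT.lf (nat_lit 0) (nat_lit 16795960829) (nat_lit 0) (nat_lit 16795960829) (nat_lit 924) (nat_lit 5515527885) (nat_lit 81) (nat_lit 5) (nat_lit 81) (nat_lit 3) (nat_lit 92) (nat_lit 3) (nat_lit 392) (nat_lit 392) (nat_lit 104))))) (XT.nd (nat_lit 282) (nat_lit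 0) (nat_lit 0) (XT.nd (nat_lit 94) (nat_lit 0) (nat_lit 0) (XT.lf (nat_lit 0) (nat_lit 59756668409) (nat_lit 0) (nat_lit 8476760621) (nat_lit 924) (nat_lit 11193485569) (nat_lit 81) (nat_lit 5) (nat_lit 81) (nat_lit 3) (nat_lit 92) (nat_lit 3) (nat_lit 393) (nat_lit 392) (nat_lit 103)) (XT.nd (nat_lit 94) (nat_lit 0) (nat_lit 0) (XT.lf (nat_lit 84) (nat_lit 6004028716) (nat_lit 0) (nat_lit 63543532161) (nat_lit 1008) (nat_lit 11121751857) (nat_lit 82) (nat_lit 5) (nat_lit 81) (nat_lit 5) (nat_lit 93) (nat_lit 5) (nat_lit 394) (nat_lit 392) (nat_lit 102)) (XT.lf (nat_lit 84) (nat_lit 32802546563) (nat_lit 0) (nat_lit 38390698791) (nat_lit 1008) (nat_lit 10747966956) (nat_lit 82) (nat_lit 5) (nat_lit 81) (nat_lit 5) (nat_lit 93) (nat_lit 5) (nat_lit 395) (nat_lit 392) (nat_lit 101)))) (XT.nd (nat_lit 188) (nat_lit 0) (nat_lit 84) (XT.nd (nat_lit 94) (nat_lit 0) (nat_lit 84) (XT.lf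 (nat_lit 84) (nat_lit 60431645358) (nat_lit 0) (nat_lit 12457988300) (nat_lit 1008) (nat_lit 10362919077) (nat_lit 82) (nat_lit 5) (nat_lit 81) (nat_lit 5) (nat_lit 93) (nat_lit 5) (nat_lit 396) (nat_lit 392) (nat_lit 100)) (XT.lf (nat_lit 84) (nat_lit 4256636559) (nat_lit 0) (nat_lit 70565543983) (nat_lit 1008) (nat_lit 9776675694) (nat_lit 83) (nat_lit 5) (nat_lit 82) (nat_lit 5) (nat_lit 94) (nat_lit 5) (nat_lit 397) (nat_lit 392) (nat_lit 99))) (XT.nd (nat_lit 94) (nat_lit 0) (nat_lit 0) (XT.lf (nat_lit 84) (nat_lit 32527160745) (nat_lit 0) (nat_lit 44651510684) (nat_lit 1008) (nat_lit 8796940774) (nat_lit 83) (nat_lit 5) (nat_lit 82) (nat_lit 5) (nat_lit 94) (nat_lit 5) (nat_lit 398) (nat_lit 392) (nat_lit 98)) (XT.lf (nat_lit 84) (nat_lit 61673897550) (nat_lit 0) (nat_lit 17934030470) (nat_lit 1008) (nat_lit 7787130514) (nat_lit 83) (nat_lit 5) (nat_lit 82) (nat_lit 5) (nat_lit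 94) (nat_lit 5) (nat_lit 399) (nat_lit 392) (nat_lit 97)))))) (XT.nd (nat_lit 564) (nat_lit 0) (nat_lit 0) (XT.nd (nat_lit 282) (nat_lit 924) (nat_lit 0) (XT.nd (nat_lit 94) (nat_lit 0) (nat_lit 0) (XT.lf (nat_lit 84) (nat_lit 2827106122) (nat_lit 0) (nat_lit 79408504008) (nat_lit 1008) (nat_lit 6619082915) (nat_lit 84) (nat_lit 5) (nat_lit 83) (nat_lit 5) (nat_lit 95) (nat_lit 5) (nat_lit 400) (nat_lit 392) (nat_lit 96)) (XT.nd (nat_lit 94) (nat_lit 0) (nat_lit 0) (XT.lf (nat_lit 84) (nat_lit 32618271849) (nat_lit 0) (nat_lit 52776251330) (nat_lit 1008) (nat_lit 4951112044) (nat_lit 84) (nat_lit 5) (nat_lit 83) (nat_lit 5) (nat_lit 95) (nat_lit 5) (nat_lit 401) (nat_lit 392) (nat_lit 95)) (XT.lf (nat_lit 84) (nat_lit 63332790809) (nat_lit 0) (nat_lit 25318310497) (nat_lit 1008) (nat_lit 3231705299) (nat_lit 84) (nat_lit 5) (nat_lit 83) (nat_lit 5) (nat_lit 95) (nat_lit 5) (nat_lit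 402) (nat_lit 392) (nat_lit 94)))) (XT.nd (nat_lit 94) (nat_lit 1008) (nat_lit 0) (XT.lf (nat_lit 84) (nat_lit 1532865768) (nat_lit 0) (nat_lit 90520390651) (nat_lit 1008) (nat_lit 1412992404) (nat_lit 85) (nat_lit 5) (nat_lit 84) (nat_lit 5) (nat_lit 96) (nat_lit 5) (nat_lit 403) (nat_lit 392) (nat_lit 93)) (XT.nd (nat_lit 94) (nat_lit 0) (nat_lit 0) (XT.lf (nat_lit 0) (nat_lit 1012537584) (nat_lit 1008) (nat_lit 62202739711) (nat_lit 1092) (nat_lit 31866007914) (nat_lit 72) (nat_lit 5) (nat_lit 84) (nat_lit 5) (nat_lit 85) (nat_lit 5) (nat_lit 404) (nat_lit 392) (nat_lit 92)) (XT.lf (nat_lit 0) (nat_lit 3483664421) (nat_lit 1008) (nat_lit 31565075834) (nat_lit 1092) (nat_lit 61697208694) (nat_lit 72) (nat_lit 5) (nat_lit 84) (nat_lit 5) (nat_lit 85) (nat_lit 5) (nat_lit 405) (nat_lit 392) (nat_lit 91))))) (XT.nd (nat_lit 282) (nat_lit 0) (nat_lit 84) (XT.nd (nat_lit 94) (nat_lit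 0) (nat_lit 84) (XT.lf (nat_lit 84) (nat_lit 22639277) (nat_lit 0) (nat_lit 6008745410) (nat_lit 1092) (nat_lit 92430834563) (nat_lit 73) (nat_lit 5) (nat_lit 72) (nat_lit 5) (nat_lit 85) (nat_lit 5) (nat_lit 406) (nat_lit 392) (nat_lit 90)) (XT.nd (nat_lit 94) (nat_lit 0) (nat_lit 0) (XT.lf (nat_lit 0) (nat_lit 9228101934) (nat_lit 1008) (nat_lit 67203696780) (nat_lit 1092) (nat_lit 23782226248) (nat_lit 73) (nat_lit 5) (nat_lit 85) (nat_lit 5) (nat_lit 86) (nat_lit 5) (nat_lit 407) (nat_lit 392) (nat_lit 89)) (XT.lf (nat_lit 0) (nat_lit 12585149576) (nat_lit 1008) (nat_lit 35061131180) (nat_lit 1092) (nat_lit 54371959229) (nat_lit 73) (nat_lit 5) (nat_lit 85) (nat_lit 5) (nat_lit 86) (nat_lit 5) (nat_lit 408) (nat_lit 392) (nat_lit 88)))) (XT.nd (nat_lit 188) (nat_lit 0) (nat_lit 84) (XT.nd (nat_lit 94) (nat_lit 0) (nat_lit 84) (XT.lf (nat_lit 0) (nat_lit 16046049236) (nat_lit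 1008) (nat_lit 1922315438) (nat_lit 1092) (nat_lit 85910029198) (nat_lit 73) (nat_lit 5) (nat_lit 85) (nat_lit 5) (nat_lit 86) (nat_lit 5) (nat_lit 409) (nat_lit 392) (nat_lit 87)) (XT.lf (nat_lit 0) (nat_lit 20069090735) (nat_lit 1008) (nat_lit 73008092268) (nat_lit 84) (nat_lit 12704930495) (nat_lit 74) (nat_lit 5) (nat_lit 86) (nat_lit 5) (nat_lit 75) (nat_lit 5) (nat_lit 410) (nat_lit 392) (nat_lit 86))) (XT.nd (nat_lit 94) (nat_lit 0) (nat_lit 0) (XT.lf (nat_lit 0) (nat_lit 24420686043) (nat_lit 1008) (nat_lit 39341680141) (nat_lit 84) (nat_lit 43976164620) (nat_lit 74) (nat_lit 5) (nat_lit 86) (nat_lit 5) (nat_lit 75) (nat_lit 5) (nat_lit 411) (nat_lit 392) (nat_lit 85)) (XT.lf (nat_lit 0) (nat_lit 28906982136) (nat_lit 1008) (nat_lit 4631774919) (nat_lit 84) (nat_lit 76216847507) (nat_lit 74) (nat_lit 5) (nat_lit 86) (nat_lit 5) (nat_lit 75) (nat_lit 5) (nat_lit 412) (nat_lit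 392) (nat_lit 84))))))))
noncomputable def xc244 : XT := (XT.nd (nat_lit 55084) (nat_lit 0) (nat_lit 0) (XT.nd (nat_lit 53862) (nat_lit 0) (nat_lit 1848) (XT.nd (nat_lit 564) (nat_lit 840) (nat_lit 0) (XT.nd (nat_lit 282) (nat_lit 504) (nat_lit 0) (XT.nd (nat_lit 94) (nat_lit 0) (nat_lit 0) (XT.lf (nat_lit 0) (nat_lit 31794566318) (nat_lit 672) (nat_lit 2053000427) (nat_lit 756) (nat_lit 77977870564) (nat_lit 66) (nat_lit 5) (nat_lit 74) (nat_lit 5) (nat_lit 75) (nat_lit 5) (nat_lit 413) (nat_lit 392) (nat_lit 83)) (XT.nd (nat_lit 94) (nat_lit 0) (nat_lit 0) (XT.lf (nat_lit 0) (nat_lit 39291621194) (nat_lit 756) (nat_lit 44811940966) (nat_lit 84) (nat_lit 29845014323) (nat_lit 66) (nat_lit 5) (nat_lit 75) (nat_lit 5) (nat_lit 67) (nat_lit 5) (nat_lit 414) (nat_lit 392) (nat_lit 82)) (XT.lf (nat_lit 0) (nat_lit 44925256165) (nat_lit 756) (nat_lit 8522382952) (nat_lit 84) (nat_lit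 62689249832) (nat_lit 66) (nat_lit 5) (nat_lit 75) (nat_lit 5) (nat_lit 67) (nat_lit 5) (nat_lit 415) (nat_lit 392) (nat_lit 81)))) (XT.nd (nat_lit 94) (nat_lit 0) (nat_lit 0) (XT.lf (nat_lit 0) (nat_lit 29486073406) (nat_lit 504) (nat_lit 21539788871) (nat_lit 588) (nat_lit 67358115842) (nat_lit 60) (nat_lit 5) (nat_lit 66) (nat_lit 5) (nat_lit 67) (nat_lit 5) (nat_lit 416) (nat_lit 392) (nat_lit 80)) (XT.nd (nat_lit 94) (nat_lit 0) (nat_lit 0) (XT.lf (nat_lit 0) (nat_lit 57517944992) (nat_lit 588) (nat_lit 51958243903) (nat_lit 84) (nat_lit 11218266231) (nat_lit 60) (nat_lit 5) (nat_lit 67) (nat_lit 5) (nat_lit 61) (nat_lit 5) (nat_lit 417) (nat_lit 392) (nat_lit 79)) (XT.lf (nat_lit 0) (nat_lit 64431415769) (nat_lit 588) (nat_lit 14093911865) (nat_lit 84) (nat_lit 44544406275) (nat_lit 60) (nat_lit 5) (nat_lit 67) (nat_lit 5) (nat_lit 61) (nat_lit 5) (nat_lit 418) (nat_lit 392)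 (nat_lit 78))))) (XT.nd (nat_lit 282) (nat_lit 420) (nat_lit 0) (XT.nd (nat_lit 94) (nat_lit 0) (nat_lit 0) (XT.lf (nat_lit 0) (nat_lit 25456963372) (nat_lit 420) (nat_lit 46354614172) (nat_lit 504) (nat_lit 53699246311) (nat_lit 55) (nat_lit 5) (nat_lit 60) (nat_lit 5) (nat_lit 61) (nat_lit 5) (nat_lit 419) (nat_lit 392) (nat_lit 77)) (XT.nd (nat_lit 94) (nat_lit 0) (nat_lit 0) (XT.lf (nat_lit 0) (nat_lit 66532548638) (nat_lit 420) (nat_lit 13034927808) (nat_lit 504) (nat_lit 48455556690) (nat_lit 55) (nat_lit 5) (nat_lit 60) (nat_lit 5) (nat_lit 61) (nat_lit 5) (nat_lit 420) (nat_lit 392) (nat_lit 76)) (XT.lf (nat_lit 0) (nat_lit 87775127583) (nat_lit 504) (nat_lit 21943269782) (nat_lit 84) (nat_lit 20888173669) (nat_lit 55) (nat_lit 5) (nat_lit 61) (nat_lit 5) (nat_lit 56) (nat_lit 5) (nat_lit 421) (nat_lit 392) (nat_lit 75)))) (XT.nd (nat_lit 94) (nat_lit 0) (nat_lit 0) (XT.lf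 (nat_lit 0) (nat_lit 19080881747) (nat_lit 420) (nat_lit 77478785619) (nat_lit 504) (nat_lit 36700536247) (nat_lit 50) (nat_lit 5) (nat_lit 55) (nat_lit 5) (nat_lit 56) (nat_lit 5) (nat_lit 422) (nat_lit 392) (nat_lit 74)) (XT.nd (nat_lit 94) (nat_lit 0) (nat_lit 0) (XT.lf (nat_lit 0) (nat_lit 61841821816) (nat_lit 420) (nat_lit 44003601959) (nat_lit 504) (nat_lit 30143580221) (nat_lit 50) (nat_lit 5) (nat_lit 55) (nat_lit 5) (nat_lit 56) (nat_lit 5) (nat_lit 423) (nat_lit 392) (nat_lit 73)) (XT.lf (nat_lit 0) (nat_lit 105928209468) (nat_lit 420) (nat_lit 9490686740) (nat_lit 504) (nat_lit 23383506338) (nat_lit 50) (nat_lit 5) (nat_lit 55) (nat_lit 5) (nat_lit 56) (nat_lit 5) (nat_lit 424) (nat_lit 392) (nat_lit 72)))))) (XT.nd (nat_lit 564) (nat_lit 756) (nat_lit 0) (XT.nd (nat_lit 282) (nat_lit 0) (nat_lit 0) (XT.nd (nat_lit 94) (nat_lit 0) (nat_lit 0) (XT.lf (nat_lit 0) (nat_lit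 17320712834) (nat_lit 0) (nat_lit 17320712834) (nat_lit 924) (nat_lit 5678042516) (nat_lit 81) (nat_lit 5) (nat_lit 81) (nat_lit 3) (nat_lit 92) (nat_lit 3) (nat_lit 393) (nat_lit 393) (nat_lit 102)) (XT.nd (nat_lit 94) (nat_lit 0) (nat_lit 0) (XT.lf (nat_lit 0) (nat_lit 61617034381) (nat_lit 0) (nat_lit 8747449452) (nat_lit 924) (nat_lit 11524059307) (nat_lit 81) (nat_lit 5) (nat_lit 81) (nat_lit 3) (nat_lit 92) (nat_lit 3) (nat_lit 394) (nat_lit 393) (nat_lit 101)) (XT.lf (nat_lit 84) (nat_lit 6198660129) (nat_lit 0) (nat_lit 65520226293) (nat_lit 1008) (nat_lit 11450587153) (nat_lit 82) (nat_lit 5) (nat_lit 81) (nat_lit 5) (nat_lit 93) (nat_lit 5) (nat_lit 395) (nat_lit 393) (nat_lit 100)))) (XT.nd (nat_lit 94) (nat_lit 0) (nat_lit 0) (XT.lf (nat_lit 84) (nat_lit 33827676256) (nat_lit 0) (nat_lit 39587449285) (nat_lit 1008) (nat_lit 11065694173) (nat_lit 82) (nat_lit 5) (nat_lit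 81) (nat_lit 5) (nat_lit 93) (nat_lit 5) (nat_lit 396) (nat_lit 393) (nat_lit 99)) (XT.nd (nat_lit 94) (nat_lit 0) (nat_lit 84) (XT.lf (nat_lit 84) (nat_lit 62313029031) (nat_lit 0) (nat_lit 12850625153) (nat_lit 1008) (nat_lit 10669174652) (nat_lit 82) (nat_lit 5) (nat_lit 81) (nat_lit 5) (nat_lit 93) (nat_lit 5) (nat_lit 397) (nat_lit 393) (nat_lit 98)) (XT.lf (nat_lit 84) (nat_lit 4397124606) (nat_lit 0) (nat_lit 72758573863) (nat_lit 1008) (nat_lit 10065185202) (nat_lit 83) (nat_lit 5) (nat_lit 82) (nat_lit 5) (nat_lit 94) (nat_lit 5) (nat_lit 398) (nat_lit 393) (nat_lit 97))))) (XT.nd (nat_lit 282) (nat_lit 840) (nat_lit 0) (XT.nd (nat_lit 94) (nat_lit 0) (nat_lit 0) (XT.lf (nat_lit 84) (nat_lit 33543778492) (nat_lit 0) (nat_lit 46041040219) (nat_lit 1008) (nat_lit 9055516512) (nat_lit 83) (nat_lit 5) (nat_lit 82) (nat_lit 5) (nat_lit 94) (nat_lit 5) (nat_lit 399) (nat_lit 393)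 (nat_lit 96)) (XT.nd (nat_lit 94) (nat_lit 0) (nat_lit 84) (XT.lf (nat_lit 84) (nat_lit 63593815304) (nat_lit 0) (nat_lit 18495157775) (nat_lit 1008) (nat_lit 8014826976) (nat_lit 83) (nat_lit 5) (nat_lit 82) (nat_lit 5) (nat_lit 94) (nat_lit 5) (nat_lit 400) (nat_lit 393) (nat_lit 95)) (XT.lf (nat_lit 84) (nat_lit 2923243046) (nat_lit 0) (nat_lit 81874507932) (nat_lit 1008) (nat_lit 6810946379) (nat_lit 84) (nat_lit 5) (nat_lit 83) (nat_lit 5) (nat_lit 95) (nat_lit 5) (nat_lit 401) (nat_lit 393) (nat_lit 94)))) (XT.nd (nat_lit 188) (nat_lit 924) (nat_lit 0) (XT.nd (nat_lit 94) (nat_lit 0) (nat_lit 0) (XT.lf (nat_lit 84) (nat_lit 33637679434) (nat_lit 0) (nat_lit 54416524918) (nat_lit 1008) (nat_lit 5091669159) (nat_lit 84) (nat_lit 5) (nat_lit 83) (nat_lit 5) (nat_lit 95) (nat_lit 5) (nat_lit 402) (nat_lit 393) (nat_lit 93)) (XT.lf (nat_lit 84) (nat_lit 65304100688) (nat_lit 0)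 (nat_lit 26107261339) (nat_lit 1008) (nat_lit 3319349503) (nat_lit 84) (nat_lit 5) (nat_lit 83) (nat_lit 5) (nat_lit 95) (nat_lit 5) (nat_lit 403) (nat_lit 393) (nat_lit 92))) (XT.nd (nat_lit 94) (nat_lit 1008) (nat_lit 0) (XT.lf (nat_lit 84) (nat_lit 1588794542) (nat_lit 0) (nat_lit 93329870429) (nat_lit 1008) (nat_lit 1444588013) (nat_lit 85) (nat_lit 5) (nat_lit 84) (nat_lit 5) (nat_lit 96) (nat_lit 5) (nat_lit 404) (nat_lit 393) (nat_lit 91)) (XT.lf (nat_lit 0) (nat_lit 1055527811) (nat_lit 1008) (nat_lit 64122548995) (nat_lit 1092) (nat_lit 32850288568) (nat_lit 72) (nat_lit 5) (nat_lit 84) (nat_lit 5) (nat_lit 85) (nat_lit 5) (nat_lit 405) (nat_lit 393) (nat_lit 90))))))) (XT.nd (nat_lit 1222) (nat_lit 840) (nat_lit 0) (XT.nd (nat_lit 564) (nat_lit 1008) (nat_lit 0) (XT.nd (nat_lit 282) (nat_lit 0) (nat_lit 84) (XT.nd (nat_lit 94) (nat_lit 0) (nat_lit 0) (XT.lf (nat_lit 0)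 (nat_lit 3602910745) (nat_lit 1008) (nat_lit 32535372383) (nat_lit 1092) (nat_lit 63606363781) (nat_lit 72) (nat_lit 5) (nat_lit 84) (nat_lit 5) (nat_lit 85) (nat_lit 5) (nat_lit 406) (nat_lit 393) (nat_lit 89)) (XT.nd (nat_lit 94) (nat_lit 0) (nat_lit 84) (XT.lf (nat_lit 84) (nat_lit 31478668) (nat_lit 0) (nat_lit 6197874050) (nat_lit 1092) (nat_lit 95284779191) (nat_lit 73) (nat_lit 5) (nat_lit 72) (nat_lit 5) (nat_lit 85) (nat_lit 5) (nat_lit 407) (nat_lit 393) (nat_lit 88)) (XT.lf (nat_lit 0) (nat_lit 9524810106) (nat_lit 1008) (nat_lit 69278687367) (nat_lit 1092) (nat_lit 24516759490) (nat_lit 73) (nat_lit 5) (nat_lit 85) (nat_lit 5) (nat_lit 86) (nat_lit 5) (nat_lit 408) (nat_lit 393) (nat_lit 87)))) (XT.nd (nat_lit 94) (nat_lit 0) (nat_lit 0) (XT.lf (nat_lit 0) (nat_lit 12985606393) (nat_lit 1008) (nat_lit 36139952519) (nat_lit 1092) (nat_lit 56054855852) (nat_lit 73) (nat_lit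 5) (nat_lit 85) (nat_lit 5) (nat_lit 86) (nat_lit 5) (nat_lit 409) (nat_lit 393) (nat_lit 86)) (XT.nd (nat_lit 94) (nat_lit 0) (nat_lit 84) (XT.lf (nat_lit 0) (nat_lit 16553483726) (nat_lit 1008) (nat_lit 1974076249) (nat_lit 1092) (nat_lit 88570685191) (nat_lit 73) (nat_lit 5) (nat_lit 85) (nat_lit 5) (nat_lit 86) (nat_lit 5) (nat_lit 410) (nat_lit 393) (nat_lit 85)) (XT.lf (nat_lit 0) (nat_lit 20700995371) (nat_lit 1008) (nat_lit 75263201385) (nat_lit 84) (nat_lit 13096792979) (nat_lit 74) (nat_lit 5) (nat_lit 86) (nat_lit 5) (nat_lit 75) (nat_lit 5) (nat_lit 411) (nat_lit 393) (nat_lit 84))))) (XT.nd (nat_lit 282) (nat_lit 504) (nat_lit 0) (XT.nd (nat_lit 94) (nat_lit 672) (nat_lit 0) (XT.lf (nat_lit 0) (nat_lit 25187196586) (nat_lit 1008) (nat_lit 40553375287) (nat_lit 84) (nat_lit 45337495209) (nat_lit 74) (nat_lit 5) (nat_lit 86) (nat_lit 5) (nat_lit 75) (nat_lit 5) (nat_lit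 412) (nat_lit 393) (nat_lit 83)) (XT.nd (nat_lit 94) (nat_lit 672) (nat_lit 0) (XT.lf (nat_lit 0) (nat_lit 29812283136) (nat_lit 1008) (nat_lit 4767700448) (nat_lit 84) (nat_lit 78577697311) (nat_lit 74) (nat_lit 5) (nat_lit 86) (nat_lit 5) (nat_lit 75) (nat_lit 5) (nat_lit 413) (nat_lit 393) (nat_lit 82)) (XT.lf (nat_lit 0) (nat_lit 32787779822) (nat_lit 672) (nat_lit 2118045099) (nat_lit 756) (nat_lit 80385861650) (nat_lit 66) (nat_lit 5) (nat_lit 74) (nat_lit 5) (nat_lit 75) (nat_lit 5) (nat_lit 414) (nat_lit 393) (nat_lit 81)))) (XT.nd (nat_lit 188) (nat_lit 504) (nat_lit 0) (XT.nd (nat_lit 94) (nat_lit 0) (nat_lit 0) (XT.lf (nat_lit 0) (nat_lit 40518361454) (nat_lit 756) (nat_lit 46193414582) (nat_lit 84) (nat_lit 30768877644) (nat_lit 66) (nat_lit 5) (nat_lit 75) (nat_lit 5) (nat_lit 67) (nat_lit 5) (nat_lit 415) (nat_lit 393) (nat_lit 80)) (XT.lf (nat_lit 0) (nat_lit 46326377518)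 (nat_lit 756) (nat_lit 8779111689) (nat_lit 84) (nat_lit 64631324508) (nat_lit 66) (nat_lit 5) (nat_lit 75) (nat_lit 5) (nat_lit 67) (nat_lit 5) (nat_lit 416) (nat_lit 393) (nat_lit 79))) (XT.nd (nat_lit 94) (nat_lit 0) (nat_lit 0) (XT.lf (nat_lit 0) (nat_lit 30407531238) (nat_lit 504) (nat_lit 22208390762) (nat_lit 588) (nat_lit 69437647963) (nat_lit 60) (nat_lit 5) (nat_lit 66) (nat_lit 5) (nat_lit 67) (nat_lit 5) (nat_lit 417) (nat_lit 393) (nat_lit 78)) (XT.lf (nat_lit 0) (nat_lit 59309002622) (nat_lit 588) (nat_lit 53561471626) (nat_lit 84) (nat_lit 11565207132) (nat_lit 60) (nat_lit 5) (nat_lit 67) (nat_lit 5) (nat_lit 61) (nat_lit 5) (nat_lit 418) (nat_lit 393) (nat_lit 77)))))) (XT.nd (nat_lit 53486) (nat_lit 0) (nat_lit 2604) (XT.nd (nat_lit 282) (nat_lit 420) (nat_lit 0) (XT.nd (nat_lit 94) (nat_lit 420) (nat_lit 0) (XT.lf (nat_lit 0) (nat_lit 66436550410) (nat_lit 588)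 (nat_lit 14523570139) (nat_lit 84) (nat_lit 45924482334) (nat_lit 60) (nat_lit 5) (nat_lit 67) (nat_lit 5) (nat_lit 61) (nat_lit 5) (nat_lit 419) (nat_lit 393) (nat_lit 76)) (XT.nd (nat_lit 94) (nat_lit 0) (nat_lit 0) (XT.lf (nat_lit 0) (nat_lit 26253308801) (nat_lit 420) (nat_lit 47792026272) (nat_lit 504) (nat_lit 55356038139) (nat_lit 55) (nat_lit 5) (nat_lit 60) (nat_lit 5) (nat_lit 61) (nat_lit 5) (nat_lit 420) (nat_lit 393) (nat_lit 75)) (XT.lf (nat_lit 0) (nat_lit 68602021336) (nat_lit 420) (nat_lit 13439417030) (nat_lit 504) (nat_lit 49950031220) (nat_lit 55) (nat_lit 5) (nat_lit 60) (nat_lit 5) (nat_lit 61) (nat_lit 5) (nat_lit 421) (nat_lit 393) (nat_lit 74)))) (XT.nd (nat_lit 94) (nat_lit 420) (nat_lit 0) (XT.lf (nat_lit 0) (nat_lit 90503301173) (nat_lit 504) (nat_lit 22616483696) (nat_lit 84) (nat_lit 21535320757) (nat_lit 55) (nat_lit 5) (nat_lit 61) (nat_lit 5) (nat_lit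 56) (nat_lit 5) (nat_lit 422) (nat_lit 393) (nat_lit 73)) (XT.nd (nat_lit 53016) (nat_lit 0) (nat_lit 2604) (XT.lf (nat_lit 0) (nat_lit 19679345383) (nat_lit 420) (nat_lit 79880670488) (nat_lit 504) (nat_lit 37830990895) (nat_lit 50) (nat_lit 5) (nat_lit 55) (nat_lit 5) (nat_lit 56) (nat_lit 5) (nat_lit 423) (nat_lit 393) (nat_lit 72)) (XT.lf (nat_lit 0) (nat_lit 17861490650) (nat_lit 0) (nat_lit 17861490650) (nat_lit 924) (nat_lit 5846096598) (nat_lit 81) (nat_lit 5) (nat_lit 81) (nat_lit 3) (nat_lit 92) (nat_lit 3) (nat_lit 394) (nat_lit 394) (nat_lit 100))))) (XT.nd (nat_lit 282) (nat_lit 0) (nat_lit 0) (XT.nd (nat_lit 94) (nat_lit 0) (nat_lit 0) (XT.lf (nat_lit 0) (nat_lit 63534603220) (nat_lit 0) (nat_lit 9026061158) (nat_lit 924) (nat_lit 11865853670) (nat_lit 81) (nat_lit 5) (nat_lit 81) (nat_lit 3) (nat_lit 92) (nat_lit 3) (nat_lit 395) (nat_lit 394) (nat_lit 99)) (XT.nd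 (nat_lit 94) (nat_lit 0) (nat_lit 0) (XT.lf (nat_lit 84) (nat_lit 6398821260) (nat_lit 0) (nat_lit 67557792524) (nat_lit 1008) (nat_lit 11790560438) (nat_lit 82) (nat_lit 5) (nat_lit 81) (nat_lit 5) (nat_lit 93) (nat_lit 5) (nat_lit 396) (nat_lit 394) (nat_lit 98)) (XT.lf (nat_lit 84) (nat_lit 34884096263) (nat_lit 0) (nat_lit 40820905815) (nat_lit 1008) (nat_lit 11394186641) (nat_lit 82) (nat_lit 5) (nat_lit 81) (nat_lit 5) (nat_lit 93) (nat_lit 5) (nat_lit 397) (nat_lit 394) (nat_lit 97)))) (XT.nd (nat_lit 188) (nat_lit 0) (nat_lit 84) (XT.nd (nat_lit 94) (nat_lit 0) (nat_lit 84) (XT.lf (nat_lit 84) (nat_lit 64252261586) (nat_lit 0) (nat_lit 13255052343) (nat_lit 1008) (nat_lit 10985812324) (nat_lit 82) (nat_lit 5) (nat_lit 81) (nat_lit 5) (nat_lit 93) (nat_lit 5) (nat_lit 398) (nat_lit 394) (nat_lit 96)) (XT.lf (nat_lit 84) (nat_lit 4541462398) (nat_lit 0) (nat_lit 75019262013)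 (nat_lit 1008) (nat_lit 10363501359) (nat_lit 83) (nat_lit 5) (nat_lit 82) (nat_lit 5) (nat_lit 94) (nat_lit 5) (nat_lit 399) (nat_lit 394) (nat_lit 95))) (XT.nd (nat_lit 94) (nat_lit 0) (nat_lit 0) (XT.lf (nat_lit 84) (nat_lit 34591421202) (nat_lit 0) (nat_lit 47473329303) (nat_lit 1008) (nat_lit 9322945008) (nat_lit 83) (nat_lit 5) (nat_lit 82) (nat_lit 5) (nat_lit 94) (nat_lit 5) (nat_lit 400) (nat_lit 394) (nat_lit 94)) (XT.lf (nat_lit 84) (nat_lit 65572775059) (nat_lit 0) (nat_lit 19073373658) (nat_lit 1008) (nat_lit 8250393774) (nat_lit 83) (nat_lit 5) (nat_lit 82) (nat_lit 5) (nat_lit 94) (nat_lit 5) (nat_lit 401) (nat_lit 394) (nat_lit 93))))))))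
noncomputable def xc245 : XT := (XT.nd (nat_lit 55460) (nat_lit 0) (nat_lit 0) (XT.nd (nat_lit 1128) (nat_lit 1428) (nat_lit 0) (XT.nd (nat_lit 564) (nat_lit 0) (nat_lit 0) (XT.nd (nat_lit 282) (nat_lit 924) (nat_lit 0) (XT.nd (nat_lit 94) (nat_lit 0) (nat_lit 0) (XT.lf (nat_lit 84) (nat_lit 3021856945) (nat_lit 0) (nat_lit 84416700895) (nat_lit 1008) (nat_lit 7009547057) (nat_lit 84) (nat_lit 5) (nat_lit 83) (nat_lit 5) (nat_lit 95) (nat_lit 5) (nat_lit 402) (nat_lit 394) (nat_lit 92)) (XT.nd (nat_lit 94) (nat_lit 0) (nat_lit 0) (XT.lf (nat_lit 84) (nat_lit 34688200517) (nat_lit 0) (nat_lit 56107397634) (nat_lit 1008) (nat_lit 5237349254) (nat_lit 84) (nat_lit 5) (nat_lit 83) (nat_lit 5) (nat_lit 95) (nat_lit 5) (nat_lit 403) (nat_lit 394) (nat_lit 91)) (XT.lf (nat_lit 84) (nat_lit 67336047713) (nat_lit 0) (nat_lit 26920427802) (nat_lit 1008) (nat_lit 3410453364) (nat_lit 84) (nat_lit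 5) (nat_lit 83) (nat_lit 5) (nat_lit 95) (nat_lit 5) (nat_lit 404) (nat_lit 394) (nat_lit 90)))) (XT.nd (nat_lit 94) (nat_lit 1008) (nat_lit 0) (XT.lf (nat_lit 84) (nat_lit 1645958973) (nat_lit 0) (nat_lit 96226245793) (nat_lit 1008) (nat_lit 1477886135) (nat_lit 85) (nat_lit 5) (nat_lit 84) (nat_lit 5) (nat_lit 96) (nat_lit 5) (nat_lit 405) (nat_lit 394) (nat_lit 89)) (XT.nd (nat_lit 94) (nat_lit 0) (nat_lit 0) (XT.lf (nat_lit 0) (nat_lit 1099163554) (nat_lit 1008) (nat_lit 66102374395) (nat_lit 1092) (nat_lit 33865293118) (nat_lit 72) (nat_lit 5) (nat_lit 84) (nat_lit 5) (nat_lit 85) (nat_lit 5) (nat_lit 406) (nat_lit 394) (nat_lit 88)) (XT.lf (nat_lit 0) (nat_lit 3725187186) (nat_lit 1008) (nat_lit 33536235057) (nat_lit 1092) (nat_lit 65574907522) (nat_lit 72) (nat_lit 5) (nat_lit 84) (nat_lit 5) (nat_lit 85) (nat_lit 5) (nat_lit 407) (nat_lit 394) (nat_lit 87))))) (XT.nd (nat_lit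 282) (nat_lit 0) (nat_lit 84) (XT.nd (nat_lit 94) (nat_lit 0) (nat_lit 84) (XT.lf (nat_lit 84) (nat_lit 40110078) (nat_lit 0) (nat_lit 6392696422) (nat_lit 1092) (nat_lit 98227872009) (nat_lit 73) (nat_lit 5) (nat_lit 72) (nat_lit 5) (nat_lit 85) (nat_lit 5) (nat_lit 408) (nat_lit 394) (nat_lit 86)) (XT.nd (nat_lit 94) (nat_lit 0) (nat_lit 0) (XT.lf (nat_lit 0) (nat_lit 9830086183) (nat_lit 1008) (nat_lit 71418495707) (nat_lit 1092) (nat_lit 25274224123) (nat_lit 73) (nat_lit 5) (nat_lit 85) (nat_lit 5) (nat_lit 86) (nat_lit 5) (nat_lit 409) (nat_lit 394) (nat_lit 85)) (XT.lf (nat_lit 0) (nat_lit 13397866266) (nat_lit 1008) (nat_lit 37252695540) (nat_lit 1092) (nat_lit 57790078292) (nat_lit 73) (nat_lit 5) (nat_lit 85) (nat_lit 5) (nat_lit 86) (nat_lit 5) (nat_lit 410) (nat_lit 394) (nat_lit 84)))) (XT.nd (nat_lit 94) (nat_lit 0) (nat_lit 84) (XT.lf (nat_lit 0) (nat_lit 17076055956)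 (nat_lit 1008) (nat_lit 2027905487) (nat_lit 1092) (nat_lit 91313972853) (nat_lit 73) (nat_lit 5) (nat_lit 85) (nat_lit 5) (nat_lit 86) (nat_lit 5) (nat_lit 411) (nat_lit 394) (nat_lit 83)) (XT.nd (nat_lit 94) (nat_lit 0) (nat_lit 0) (XT.lf (nat_lit 0) (nat_lit 21351910781) (nat_lit 1008) (nat_lit 77588701135) (nat_lit 84) (nat_lit 13500921093) (nat_lit 74) (nat_lit 5) (nat_lit 86) (nat_lit 5) (nat_lit 75) (nat_lit 5) (nat_lit 412) (nat_lit 394) (nat_lit 82)) (XT.lf (nat_lit 0) (nat_lit 25976908073) (nat_lit 1008) (nat_lit 41803100733) (nat_lit 84) (nat_lit 46741141393) (nat_lit 74) (nat_lit 5) (nat_lit 86) (nat_lit 5) (nat_lit 75) (nat_lit 5) (nat_lit 413) (nat_lit 394) (nat_lit 81)))))) (XT.nd (nat_lit 564) (nat_lit 420) (nat_lit 0) (XT.nd (nat_lit 282) (nat_lit 504) (nat_lit 0) (XT.nd (nat_lit 94) (nat_lit 672) (nat_lit 0) (XT.lf (nat_lit 0) (nat_lit 30745104450) (nat_lit 1008)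 (nat_lit 4908293354) (nat_lit 84) (nat_lit 81011844369) (nat_lit 74) (nat_lit 5) (nat_lit 86) (nat_lit 5) (nat_lit 75) (nat_lit 5) (nat_lit 414) (nat_lit 394) (nat_lit 80)) (XT.nd (nat_lit 94) (nat_lit 0) (nat_lit 0) (XT.lf (nat_lit 0) (nat_lit 33811333853) (nat_lit 672) (nat_lit 2185023134) (nat_lit 756) (nat_lit 82869052671) (nat_lit 66) (nat_lit 5) (nat_lit 74) (nat_lit 5) (nat_lit 75) (nat_lit 5) (nat_lit 415) (nat_lit 394) (nat_lit 79)) (XT.lf (nat_lit 0) (nat_lit 41782615345) (nat_lit 756) (nat_lit 47618169761) (nat_lit 84) (nat_lit 31721459632) (nat_lit 66) (nat_lit 5) (nat_lit 75) (nat_lit 5) (nat_lit 67) (nat_lit 5) (nat_lit 416) (nat_lit 394) (nat_lit 78)))) (XT.nd (nat_lit 94) (nat_lit 504) (nat_lit 0) (XT.lf (nat_lit 0) (nat_lit 47770433812) (nat_lit 756) (nat_lit 9044241190) (nat_lit 84) (nat_lit 66633680030) (nat_lit 66) (nat_lit 5) (nat_lit 75) (nat_lit 5) (nat_lit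 67) (nat_lit 5) (nat_lit 417) (nat_lit 394) (nat_lit 77)) (XT.nd (nat_lit 94) (nat_lit 0) (nat_lit 0) (XT.lf (nat_lit 0) (nat_lit 31357116566) (nat_lit 504) (nat_lit 22897667872) (nat_lit 588) (nat_lit 71582153164) (nat_lit 60) (nat_lit 5) (nat_lit 66) (nat_lit 5) (nat_lit 67) (nat_lit 5) (nat_lit 418) (nat_lit 394) (nat_lit 76)) (XT.lf (nat_lit 0) (nat_lit 61155109106) (nat_lit 588) (nat_lit 55214842335) (nat_lit 84) (nat_lit 11922952088) (nat_lit 60) (nat_lit 5) (nat_lit 67) (nat_lit 5) (nat_lit 61) (nat_lit 5) (nat_lit 419) (nat_lit 394) (nat_lit 75))))) (XT.nd (nat_lit 53392) (nat_lit 0) (nat_lit 2184) (XT.nd (nat_lit 94) (nat_lit 420) (nat_lit 0) (XT.lf (nat_lit 0) (nat_lit 68503384542) (nat_lit 588) (nat_lit 14966977426) (nat_lit 84) (nat_lit 47347388167) (nat_lit 60) (nat_lit 5) (nat_lit 67) (nat_lit 5) (nat_lit 61) (nat_lit 5) (nat_lit 420) (nat_lit 394) (nat_lit 74)) (XT.nd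 (nat_lit 94) (nat_lit 0) (nat_lit 0) (XT.lf (nat_lit 0) (nat_lit 27073915680) (nat_lit 420) (nat_lit 49273973325) (nat_lit 504) (nat_lit 57064657545) (nat_lit 55) (nat_lit 5) (nat_lit 60) (nat_lit 5) (nat_lit 61) (nat_lit 5) (nat_lit 421) (nat_lit 394) (nat_lit 73)) (XT.lf (nat_lit 0) (nat_lit 70735235216) (nat_lit 420) (nat_lit 13856421343) (nat_lit 504) (nat_lit 51491287448) (nat_lit 55) (nat_lit 5) (nat_lit 60) (nat_lit 5) (nat_lit 61) (nat_lit 5) (nat_lit 422) (nat_lit 394) (nat_lit 72)))) (XT.nd (nat_lit 188) (nat_lit 0) (nat_lit 0) (XT.nd (nat_lit 94) (nat_lit 0) (nat_lit 0) (XT.lf (nat_lit 0) (nat_lit 18418805382) (nat_lit 0) (nat_lit 18418805382) (nat_lit 924) (nat_lit 6019832152) (nat_lit 81) (nat_lit 5) (nat_lit 81) (nat_lit 3) (nat_lit 92) (nat_lit 3) (nat_lit 395) (nat_lit 395) (nat_lit 98)) (XT.lf (nat_lit 0) (nat_lit 65511175963) (nat_lit 0) (nat_lit 9312869097) (nat_lit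 924) (nat_lit 12219158877) (nat_lit 81) (nat_lit 5) (nat_lit 81) (nat_lit 3) (nat_lit 92) (nat_lit 3) (nat_lit 396) (nat_lit 395) (nat_lit 97))) (XT.nd (nat_lit 94) (nat_lit 0) (nat_lit 0) (XT.lf (nat_lit 84) (nat_lit 6604713374) (nat_lit 0) (nat_lit 69658141902) (nat_lit 1008) (nat_lit 12141961070) (nat_lit 82) (nat_lit 5) (nat_lit 81) (nat_lit 5) (nat_lit 93) (nat_lit 5) (nat_lit 397) (nat_lit 395) (nat_lit 96)) (XT.lf (nat_lit 84) (nat_lit 35972805531) (nat_lit 0) (nat_lit 42092229559) (nat_lit 1008) (nat_lit 11733723846) (nat_lit 82) (nat_lit 5) (nat_lit 81) (nat_lit 5) (nat_lit 93) (nat_lit 5) (nat_lit 398) (nat_lit 395) (nat_lit 95))))))) (XT.nd (nat_lit 1222) (nat_lit 1428) (nat_lit 0) (XT.nd (nat_lit 564) (nat_lit 756) (nat_lit 0) (XT.nd (nat_lit 282) (nat_lit 0) (nat_lit 84) (XT.nd (nat_lit 94) (nat_lit 0) (nat_lit 84) (XT.lf (nat_lit 84) (nat_lit 66251164415) (nat_lit 0)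 (nat_lit 13671657961) (nat_lit 1008) (nat_lit 11313101331) (nat_lit 82) (nat_lit 5) (nat_lit 81) (nat_lit 5) (nat_lit 93) (nat_lit 5) (nat_lit 399) (nat_lit 395) (nat_lit 94)) (XT.nd (nat_lit 94) (nat_lit 0) (nat_lit 0) (XT.lf (nat_lit 84) (nat_lit 4689799213) (nat_lit 0) (nat_lit 77349725128) (nat_lit 1008) (nat_lit 10671877063) (nat_lit 83) (nat_lit 5) (nat_lit 82) (nat_lit 5) (nat_lit 94) (nat_lit 5) (nat_lit 400) (nat_lit 395) (nat_lit 93)) (XT.lf (nat_lit 84) (nat_lit 35671079683) (nat_lit 0) (nat_lit 48949722194) (nat_lit 1008) (nat_lit 9599451125) (nat_lit 83) (nat_lit 5) (nat_lit 82) (nat_lit 5) (nat_lit 94) (nat_lit 5) (nat_lit 401) (nat_lit 395) (nat_lit 92)))) (XT.nd (nat_lit 94) (nat_lit 0) (nat_lit 84) (XT.lf (nat_lit 84) (nat_lit 67612635280) (nat_lit 0) (nat_lit 19669226013) (nat_lit 1008) (nat_lit 8494026808) (nat_lit 83) (nat_lit 5) (nat_lit 82) (nat_lit 5) (nat_lit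 94) (nat_lit 5) (nat_lit 402) (nat_lit 395) (nat_lit 91)) (XT.nd (nat_lit 94) (nat_lit 0) (nat_lit 0) (XT.lf (nat_lit 84) (nat_lit 3123054413) (nat_lit 0) (nat_lit 87037459984) (nat_lit 1008) (nat_lit 7215047042) (nat_lit 84) (nat_lit 5) (nat_lit 83) (nat_lit 5) (nat_lit 95) (nat_lit 5) (nat_lit 403) (nat_lit 395) (nat_lit 90)) (XT.lf (nat_lit 84) (nat_lit 35770828529) (nat_lit 0) (nat_lit 57850452821) (nat_lit 1008) (nat_lit 5388265788) (nat_lit 84) (nat_lit 5) (nat_lit 83) (nat_lit 5) (nat_lit 95) (nat_lit 5) (nat_lit 404) (nat_lit 395) (nat_lit 89))))) (XT.nd (nat_lit 282) (nat_lit 0) (nat_lit 0) (XT.nd (nat_lit 94) (nat_lit 924) (nat_lit 0) (XT.lf (nat_lit 84) (nat_lit 69430539678) (nat_lit 0) (nat_lit 27758574894) (nat_lit 1008) (nat_lit 3505080141) (nat_lit 84) (nat_lit 5) (nat_lit 83) (nat_lit 5) (nat_lit 95) (nat_lit 5) (nat_lit 405) (nat_lit 395) (nat_lit 88)) (XT.nd (nat_lit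 94) (nat_lit 1008) (nat_lit 0) (XT.lf (nat_lit 84) (nat_lit 1704426872) (nat_lit 0) (nat_lit 99212222249) (nat_lit 1008) (nat_lit 1512896723) (nat_lit 85) (nat_lit 5) (nat_lit 84) (nat_lit 5) (nat_lit 96) (nat_lit 5) (nat_lit 406) (nat_lit 395) (nat_lit 87)) (XT.lf (nat_lit 0) (nat_lit 1143505527) (nat_lit 1008) (nat_lit 68144046672) (nat_lit 1092) (nat_lit 34911961495) (nat_lit 72) (nat_lit 5) (nat_lit 84) (nat_lit 5) (nat_lit 85) (nat_lit 5) (nat_lit 407) (nat_lit 395) (nat_lit 86)))) (XT.nd (nat_lit 188) (nat_lit 0) (nat_lit 84) (XT.nd (nat_lit 94) (nat_lit 0) (nat_lit 0) (XT.lf (nat_lit 0) (nat_lit 3850627158) (nat_lit 1008) (nat_lit 34568582565) (nat_lit 1092) (nat_lit 67604668832) (nat_lit 72) (nat_lit 5) (nat_lit 84) (nat_lit 5) (nat_lit 85) (nat_lit 5) (nat_lit 408) (nat_lit 395) (nat_lit 85)) (XT.lf (nat_lit 84) (nat_lit 48555609) (nat_lit 0) (nat_lit 6593399057) (nat_lit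 1092) (nat_lit 101262836578) (nat_lit 73) (nat_lit 5) (nat_lit 72) (nat_lit 5) (nat_lit 85) (nat_lit 5) (nat_lit 409) (nat_lit 395) (nat_lit 84))) (XT.nd (nat_lit 94) (nat_lit 0) (nat_lit 0) (XT.lf (nat_lit 0) (nat_lit 10144233089) (nat_lit 1008) (nat_lit 73625101948) (nat_lit 1092) (nat_lit 26055321491) (nat_lit 73) (nat_lit 5) (nat_lit 85) (nat_lit 5) (nat_lit 86) (nat_lit 5) (nat_lit 410) (nat_lit 395) (nat_lit 83)) (XT.lf (nat_lit 0) (nat_lit 13822331288) (nat_lit 1008) (nat_lit 38400383490) (nat_lit 1092) (nat_lit 59579239410) (nat_lit 73) (nat_lit 5) (nat_lit 85) (nat_lit 5) (nat_lit 86) (nat_lit 5) (nat_lit 411) (nat_lit 395) (nat_lit 82)))))) (XT.nd (nat_lit 564) (nat_lit 924) (nat_lit 0) (XT.nd (nat_lit 282) (nat_lit 588) (nat_lit 0) (XT.nd (nat_lit 94) (nat_lit 0) (nat_lit 84) (XT.lf (nat_lit 0) (nat_lit 17614270303) (nat_lit 1008) (nat_lit 2083839798) (nat_lit 1092) (nat_lit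 94142444800) (nat_lit 73) (nat_lit 5) (nat_lit 85) (nat_lit 5) (nat_lit 86) (nat_lit 5) (nat_lit 412) (nat_lit 395) (nat_lit 81)) (XT.nd (nat_lit 94) (nat_lit 0) (nat_lit 0) (XT.lf (nat_lit 0) (nat_lit 22022460552) (nat_lit 1008) (nat_lit 79986745061) (nat_lit 84) (nat_lit 13917688088) (nat_lit 74) (nat_lit 5) (nat_lit 86) (nat_lit 5) (nat_lit 75) (nat_lit 5) (nat_lit 413) (nat_lit 395) (nat_lit 80)) (XT.lf (nat_lit 0) (nat_lit 26790572958) (nat_lit 1008) (nat_lit 43092007710) (nat_lit 84) (nat_lit 48188408183) (nat_lit 74) (nat_lit 5) (nat_lit 86) (nat_lit 5) (nat_lit 75) (nat_lit 5) (nat_lit 414) (nat_lit 395) (nat_lit 79)))) (XT.nd (nat_lit 94) (nat_lit 672) (nat_lit 0) (XT.lf (nat_lit 0) (nat_lit 31706331431) (nat_lit 1008) (nat_lit 5053671452) (nat_lit 84) (nat_lit 83521554326) (nat_lit 74) (nat_lit 5) (nat_lit 86) (nat_lit 5) (nat_lit 75) (nat_lit 5) (nat_lit 415) (nat_lit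 395) (nat_lit 78)) (XT.nd (nat_lit 94) (nat_lit 0) (nat_lit 0) (XT.lf (nat_lit 0) (nat_lit 34866195567) (nat_lit 672) (nat_lit 2253999383) (nat_lit 756) (nat_lit 85429742117) (nat_lit 66) (nat_lit 5) (nat_lit 74) (nat_lit 5) (nat_lit 75) (nat_lit 5) (nat_lit 416) (nat_lit 395) (nat_lit 77)) (XT.lf (nat_lit 0) (nat_lit 43085576315) (nat_lit 756) (nat_lit 49087521228) (nat_lit 84) (nat_lit 32703645891) (nat_lit 66) (nat_lit 5) (nat_lit 75) (nat_lit 5) (nat_lit 67) (nat_lit 5) (nat_lit 417) (nat_lit 395) (nat_lit 76))))) (XT.nd (nat_lit 282) (nat_lit 420) (nat_lit 0) (XT.nd (nat_lit 94) (nat_lit 504) (nat_lit 0) (XT.lf (nat_lit 0) (nat_lit 49258785634) (nat_lit 756) (nat_lit 9318005687) (nat_lit 84) (nat_lit 68698180571) (nat_lit 66) (nat_lit 5) (nat_lit 75) (nat_lit 5) (nat_lit 67) (nat_lit 5) (nat_lit 418) (nat_lit 395) (nat_lit 75)) (XT.nd (nat_lit 94) (nat_lit 0) (nat_lit 0) (XT.lf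 (nat_lit 0) (nat_lit 32335727270) (nat_lit 504) (nat_lit 23608264180) (nat_lit 588) (nat_lit 73793615545) (nat_lit 60) (nat_lit 5) (nat_lit 66) (nat_lit 5) (nat_lit 67) (nat_lit 5) (nat_lit 419) (nat_lit 395) (nat_lit 74)) (XT.lf (nat_lit 0) (nat_lit 63057999030) (nat_lit 588) (nat_lit 56919884225) (nat_lit 84) (nat_lit 12291833128) (nat_lit 60) (nat_lit 5) (nat_lit 67) (nat_lit 5) (nat_lit 61) (nat_lit 5) (nat_lit 420) (nat_lit 395) (nat_lit 73)))) (XT.nd (nat_lit 53392) (nat_lit 0) (nat_lit 2184) (XT.nd (nat_lit 94) (nat_lit 420) (nat_lit 0) (XT.lf (nat_lit 0) (nat_lit 70633858078) (nat_lit 588) (nat_lit 15424534500) (nat_lit 84) (nat_lit 48814448690) (nat_lit 60) (nat_lit 5) (nat_lit 67) (nat_lit 5) (nat_lit 61) (nat_lit 5) (nat_lit 421) (nat_lit 395) (nat_lit 72)) (XT.lf (nat_lit 0) (nat_lit 27919561304) (nat_lit 420) (nat_lit 50801837386) (nat_lit 504) (nat_lit 58826683520)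 (nat_lit 55) (nat_lit 5) (nat_lit 60) (nat_lit 5) (nat_lit 61) (nat_lit 5) (nat_lit 422) (nat_lit 395) (nat_lit 71))) (XT.nd (nat_lit 94) (nat_lit 0) (nat_lit 0) (XT.lf (nat_lit 0) (nat_lit 18993183133) (nat_lit 0) (nat_lit 18993183133) (nat_lit 924) (nat_lit 6199397358) (nat_lit 81) (nat_lit 5) (nat_lit 81) (nat_lit 3) (nat_lit 92) (nat_lit 3) (nat_lit 396) (nat_lit 396) (nat_lit 96)) (XT.lf (nat_lit 0) (nat_lit 67548607836) (nat_lit 0) (nat_lit 9608153457) (nat_lit 924) (nat_lit 12584277552) (nat_lit 81) (nat_lit 5) (nat_lit 81) (nat_lit 3) (nat_lit 92) (nat_lit 3) (nat_lit 397) (nat_lit 396) (nat_lit 95))))))))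
noncomputable def xc246 : XT := (XT.nd (nat_lit 55648) (nat_lit 0) (nat_lit 0) (XT.nd (nat_lit 1128) (nat_lit 1008) (nat_lit 0) (XT.nd (nat_lit 564) (nat_lit 756) (nat_lit 0) (XT.nd (nat_lit 282) (nat_lit 0) (nat_lit 84) (XT.nd (nat_lit 94) (nat_lit 0) (nat_lit 0) (XT.lf (nat_lit 84) (nat_lit 6816542209) (nat_lit 0) (nat_lit 71823243297) (nat_lit 1008) (nat_lit 12505090687) (nat_lit 82) (nat_lit 5) (nat_lit 81) (nat_lit 5) (nat_lit 93) (nat_lit 5) (nat_lit 398) (nat_lit 396) (nat_lit 94)) (XT.nd (nat_lit 94) (nat_lit 0) (nat_lit 0) (XT.lf (nat_lit 84) (nat_lit 37094832260) (nat_lit 0) (nat_lit 43402616314) (nat_lit 1008) (nat_lit 12084597146) (nat_lit 82) (nat_lit 5) (nat_lit 81) (nat_lit 5) (nat_lit 93) (nat_lit 5) (nat_lit 399) (nat_lit 396) (nat_lit 93)) (XT.lf (nat_lit 84) (nat_lit 68311613710) (nat_lit 0) (nat_lit 14100840792) (nat_lit 1008) (nat_lit 11651322371) (nat_lit 82)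 (nat_lit 5) (nat_lit 81) (nat_lit 5) (nat_lit 93) (nat_lit 5) (nat_lit 400) (nat_lit 396) (nat_lit 92)))) (XT.nd (nat_lit 94) (nat_lit 0) (nat_lit 0) (XT.lf (nat_lit 84) (nat_lit 4842287182) (nat_lit 0) (nat_lit 79752144378) (nat_lit 1008) (nat_lit 10990576078) (nat_lit 83) (nat_lit 5) (nat_lit 82) (nat_lit 5) (nat_lit 94) (nat_lit 5) (nat_lit 401) (nat_lit 396) (nat_lit 91)) (XT.nd (nat_lit 94) (nat_lit 0) (nat_lit 0) (XT.lf (nat_lit 84) (nat_lit 36783773739) (nat_lit 0) (nat_lit 50471603709) (nat_lit 1008) (nat_lit 9885269635) (nat_lit 83) (nat_lit 5) (nat_lit 82) (nat_lit 5) (nat_lit 94) (nat_lit 5) (nat_lit 402) (nat_lit 396) (nat_lit 90)) (XT.lf (nat_lit 84) (nat_lit 69715310373) (nat_lit 0) (nat_lit 20283278641) (nat_lit 1008) (nat_lit 8745930897) (nat_lit 83) (nat_lit 5) (nat_lit 82) (nat_lit 5) (nat_lit 94) (nat_lit 5) (nat_lit 403) (nat_lit 396) (nat_lit 89))))) (XT.nd (nat_lit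 282) (nat_lit 924) (nat_lit 0) (XT.nd (nat_lit 94) (nat_lit 0) (nat_lit 0) (XT.lf (nat_lit 84) (nat_lit 3226943587) (nat_lit 0) (nat_lit 89739235075) (nat_lit 1008) (nat_lit 7427616222) (nat_lit 84) (nat_lit 5) (nat_lit 83) (nat_lit 5) (nat_lit 95) (nat_lit 5) (nat_lit 404) (nat_lit 396) (nat_lit 88)) (XT.nd (nat_lit 94) (nat_lit 0) (nat_lit 0) (XT.lf (nat_lit 84) (nat_lit 36886585985) (nat_lit 0) (nat_lit 59647322028) (nat_lit 1008) (nat_lit 5544538421) (nat_lit 84) (nat_lit 5) (nat_lit 83) (nat_lit 5) (nat_lit 95) (nat_lit 5) (nat_lit 405) (nat_lit 396) (nat_lit 87)) (XT.lf (nat_lit 84) (nat_lit 71589541861) (nat_lit 0) (nat_lit 28622490494) (nat_lit 1008) (nat_lit 3603297658) (nat_lit 84) (nat_lit 5) (nat_lit 83) (nat_lit 5) (nat_lit 95) (nat_lit 5) (nat_lit 406) (nat_lit 396) (nat_lit 86)))) (XT.nd (nat_lit 94) (nat_lit 1008) (nat_lit 0) (XT.lf (nat_lit 84) (nat_lit 1764266403)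 (nat_lit 0) (nat_lit 102290588482) (nat_lit 1008) (nat_lit 1549632571) (nat_lit 85) (nat_lit 5) (nat_lit 84) (nat_lit 5) (nat_lit 96) (nat_lit 5) (nat_lit 407) (nat_lit 396) (nat_lit 85)) (XT.nd (nat_lit 94) (nat_lit 0) (nat_lit 0) (XT.lf (nat_lit 0) (nat_lit 1188613916) (nat_lit 1008) (nat_lit 70249455107) (nat_lit 1092) (nat_lit 35991263511) (nat_lit 72) (nat_lit 5) (nat_lit 84) (nat_lit 5) (nat_lit 85) (nat_lit 5) (nat_lit 408) (nat_lit 396) (nat_lit 84)) (XT.lf (nat_lit 0) (nat_lit 3979365871) (nat_lit 1008) (nat_lit 35633363802) (nat_lit 1092) (nat_lit 69697534040) (nat_lit 72) (nat_lit 5) (nat_lit 84) (nat_lit 5) (nat_lit 85) (nat_lit 5) (nat_lit 409) (nat_lit 396) (nat_lit 83)))))) (XT.nd (nat_lit 564) (nat_lit 1008) (nat_lit 0) (XT.nd (nat_lit 282) (nat_lit 0) (nat_lit 84) (XT.nd (nat_lit 94) (nat_lit 0) (nat_lit 84) (XT.lf (nat_lit 84) (nat_lit 56836358) (nat_lit 0) (nat_lit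 6800173673) (nat_lit 1092) (nat_lit 104392483257) (nat_lit 73) (nat_lit 5) (nat_lit 72) (nat_lit 5) (nat_lit 85) (nat_lit 5) (nat_lit 410) (nat_lit 396) (nat_lit 82)) (XT.nd (nat_lit 94) (nat_lit 0) (nat_lit 0) (XT.lf (nat_lit 0) (nat_lit 10467560927) (nat_lit 1008) (nat_lit 75900549350) (nat_lit 1092) (nat_lit 26860775246) (nat_lit 73) (nat_lit 5) (nat_lit 85) (nat_lit 5) (nat_lit 86) (nat_lit 5) (nat_lit 411) (nat_lit 396) (nat_lit 81)) (XT.lf (nat_lit 0) (nat_lit 14259413871) (nat_lit 1008) (nat_lit 39584073013) (nat_lit 1092) (nat_lit 61424002611) (nat_lit 73) (nat_lit 5) (nat_lit 85) (nat_lit 5) (nat_lit 86) (nat_lit 5) (nat_lit 412) (nat_lit 396) (nat_lit 80)))) (XT.nd (nat_lit 94) (nat_lit 0) (nat_lit 84) (XT.lf (nat_lit 0) (nat_lit 18168644703) (nat_lit 1008) (nat_lit 2141918594) (nat_lit 1092) (nat_lit 97058733313) (nat_lit 73) (nat_lit 5) (nat_lit 85) (nat_lit 5) (nat_lit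 86) (nat_lit 5) (nat_lit 413) (nat_lit 396) (nat_lit 79)) (XT.nd (nat_lit 94) (nat_lit 0) (nat_lit 0) (XT.lf (nat_lit 0) (nat_lit 22713285572) (nat_lit 1008) (nat_lit 82459555162) (nat_lit 84) (nat_lit 14347479200) (nat_lit 74) (nat_lit 5) (nat_lit 86) (nat_lit 5) (nat_lit 75) (nat_lit 5) (nat_lit 414) (nat_lit 396) (nat_lit 78)) (XT.lf (nat_lit 0) (nat_lit 27628965048) (nat_lit 1008) (nat_lit 44421284783) (nat_lit 84) (nat_lit 49680641447) (nat_lit 74) (nat_lit 5) (nat_lit 86) (nat_lit 5) (nat_lit 75) (nat_lit 5) (nat_lit 415) (nat_lit 396) (nat_lit 77))))) (XT.nd (nat_lit 282) (nat_lit 504) (nat_lit 0) (XT.nd (nat_lit 94) (nat_lit 672) (nat_lit 0) (XT.lf (nat_lit 0) (nat_lit 32696874969) (nat_lit 1008) (nat_lit 5203957802) (nat_lit 84) (nat_lit 86109163451) (nat_lit 74) (nat_lit 5) (nat_lit 86) (nat_lit 5) (nat_lit 75) (nat_lit 5) (nat_lit 416) (nat_lit 396) (nat_lit 76)) (XT.nd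 (nat_lit 94) (nat_lit 0) (nat_lit 0) (XT.lf (nat_lit 0) (nat_lit 35953360528) (nat_lit 672) (nat_lit 2325040417) (nat_lit 756) (nat_lit 88070301668) (nat_lit 66) (nat_lit 5) (nat_lit 74) (nat_lit 5) (nat_lit 75) (nat_lit 5) (nat_lit 417) (nat_lit 396) (nat_lit 75)) (XT.lf (nat_lit 0) (nat_lit 44428472996) (nat_lit 756) (nat_lit 50602826064) (nat_lit 84) (nat_lit 33716349759) (nat_lit 66) (nat_lit 5) (nat_lit 75) (nat_lit 5) (nat_lit 67) (nat_lit 5) (nat_lit 418) (nat_lit 396) (nat_lit 74)))) (XT.nd (nat_lit 188) (nat_lit 0) (nat_lit 0) (XT.nd (nat_lit 94) (nat_lit 504) (nat_lit 0) (XT.lf (nat_lit 0) (nat_lit 50792833998) (nat_lit 756) (nat_lit 9600648226) (nat_lit 84) (nat_lit 70826748364) (nat_lit 66) (nat_lit 5) (nat_lit 75) (nat_lit 5) (nat_lit 67) (nat_lit 5) (nat_lit 419) (nat_lit 396) (nat_lit 73)) (XT.lf (nat_lit 0) (nat_lit 33344287524) (nat_lit 504) (nat_lit 24340843448)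 (nat_lit 588) (nat_lit 76074082495) (nat_lit 60) (nat_lit 5) (nat_lit 66) (nat_lit 5) (nat_lit 67) (nat_lit 5) (nat_lit 420) (nat_lit 396) (nat_lit 72))) (XT.nd (nat_lit 94) (nat_lit 0) (nat_lit 0) (XT.lf (nat_lit 0) (nat_lit 65019459090) (nat_lit 588) (nat_lit 58678174423) (nat_lit 84) (nat_lit 12672192748) (nat_lit 60) (nat_lit 5) (nat_lit 67) (nat_lit 5) (nat_lit 61) (nat_lit 5) (nat_lit 421) (nat_lit 396) (nat_lit 71)) (XT.lf (nat_lit 0) (nat_lit 72829969453) (nat_lit 588) (nat_lit 15896656066) (nat_lit 84) (nat_lit 50327030056) (nat_lit 60) (nat_lit 5) (nat_lit 67) (nat_lit 5) (nat_lit 61) (nat_lit 5) (nat_lit 422) (nat_lit 396) (nat_lit 70))))))) (XT.nd (nat_lit 1222) (nat_lit 1008) (nat_lit 0) (XT.nd (nat_lit 564) (nat_lit 756) (nat_lit 0) (XT.nd (nat_lit 282) (nat_lit 0) (nat_lit 0) (XT.nd (nat_lit 94) (nat_lit 0) (nat_lit 0) (XT.lf (nat_lit 0) (nat_lit 19585165514) (nat_lit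 0) (nat_lit 19585165514) (nat_lit 924) (nat_lit 6384946644) (nat_lit 81) (nat_lit 5) (nat_lit 81) (nat_lit 3) (nat_lit 92) (nat_lit 3) (nat_lit 397) (nat_lit 397) (nat_lit 94)) (XT.nd (nat_lit 94) (nat_lit 0) (nat_lit 0) (XT.lf (nat_lit 0) (nat_lit 69648810032) (nat_lit 0) (nat_lit 9912201568) (nat_lit 924) (nat_lit 12961524915) (nat_lit 81) (nat_lit 5) (nat_lit 81) (nat_lit 3) (nat_lit 92) (nat_lit 3) (nat_lit 398) (nat_lit 397) (nat_lit 93)) (XT.lf (nat_lit 84) (nat_lit 7034518215) (nat_lit 0) (nat_lit 74055125274) (nat_lit 1008) (nat_lit 12880263398) (nat_lit 82) (nat_lit 5) (nat_lit 81) (nat_lit 5) (nat_lit 93) (nat_lit 5) (nat_lit 399) (nat_lit 397) (nat_lit 92)))) (XT.nd (nat_lit 94) (nat_lit 0) (nat_lit 0) (XT.lf (nat_lit 84) (nat_lit 38251234910) (nat_lit 0) (nat_lit 44753297647) (nat_lit 1008) (nat_lit 12447109957) (nat_lit 82) (nat_lit 5) (nat_lit 81) (nat_lit 5) (nat_lit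 93) (nat_lit 5) (nat_lit 400) (nat_lit 397) (nat_lit 91)) (XT.nd (nat_lit 94) (nat_lit 0) (nat_lit 84) (XT.lf (nat_lit 84) (nat_lit 70435542261) (nat_lit 0) (nat_lit 14543010724) (nat_lit 1008) (nat_lit 12000767778) (nat_lit 82) (nat_lit 5) (nat_lit 81) (nat_lit 5) (nat_lit 93) (nat_lit 5) (nat_lit 401) (nat_lit 397) (nat_lit 90)) (XT.lf (nat_lit 84) (nat_lit 4999081485) (nat_lit 0) (nat_lit 82228767476) (nat_lit 1008) (nat_lit 11319873195) (nat_lit 83) (nat_lit 5) (nat_lit 82) (nat_lit 5) (nat_lit 94) (nat_lit 5) (nat_lit 402) (nat_lit 397) (nat_lit 89))))) (XT.nd (nat_lit 282) (nat_lit 840) (nat_lit 0) (XT.nd (nat_lit 94) (nat_lit 0) (nat_lit 0) (XT.lf (nat_lit 84) (nat_lit 37930553169) (nat_lit 0) (nat_lit 52040400555) (nat_lit 1008) (nat_lit 10180645349) (nat_lit 83) (nat_lit 5) (nat_lit 82) (nat_lit 5) (nat_lit 94) (nat_lit 5) (nat_lit 403) (nat_lit 397) (nat_lit 88)) (XT.nd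 (nat_lit 94) (nat_lit 0) (nat_lit 84) (XT.lf (nat_lit 84) (nat_lit 71882772526) (nat_lit 0) (nat_lit 20916111813) (nat_lit 1008) (nat_lit 9006319891) (nat_lit 83) (nat_lit 5) (nat_lit 82) (nat_lit 5) (nat_lit 94) (nat_lit 5) (nat_lit 404) (nat_lit 397) (nat_lit 87)) (XT.lf (nat_lit 84) (nat_lit 3333634290) (nat_lit 0) (nat_lit 92524551139) (nat_lit 1008) (nat_lit 7647432358) (nat_lit 84) (nat_lit 5) (nat_lit 83) (nat_lit 5) (nat_lit 95) (nat_lit 5) (nat_lit 405) (nat_lit 397) (nat_lit 86)))) (XT.nd (nat_lit 188) (nat_lit 924) (nat_lit 0) (XT.nd (nat_lit 94) (nat_lit 0) (nat_lit 0) (XT.lf (nat_lit 84) (nat_lit 38036525487) (nat_lit 0) (nat_lit 61499686565) (nat_lit 1008) (nat_lit 5706293053) (nat_lit 84) (nat_lit 5) (nat_lit 83) (nat_lit 5) (nat_lit 95) (nat_lit 5) (nat_lit 406) (nat_lit 397) (nat_lit 85)) (XT.lf (nat_lit 84) (nat_lit 73815078898) (nat_lit 0) (nat_lit 29512986102)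 (nat_lit 1008) (nat_lit 3705178296) (nat_lit 84) (nat_lit 5) (nat_lit 83) (nat_lit 5) (nat_lit 95) (nat_lit 5) (nat_lit 407) (nat_lit 397) (nat_lit 84))) (XT.nd (nat_lit 94) (nat_lit 1008) (nat_lit 0) (XT.lf (nat_lit 84) (nat_lit 1825546203) (nat_lit 0) (nat_lit 105464218969) (nat_lit 1008) (nat_lit 1588109259) (nat_lit 85) (nat_lit 5) (nat_lit 84) (nat_lit 5) (nat_lit 96) (nat_lit 5) (nat_lit 408) (nat_lit 397) (nat_lit 83)) (XT.lf (nat_lit 0) (nat_lit 1234548504) (nat_lit 1008) (nat_lit 72420549203) (nat_lit 1092) (nat_lit 37104199735) (nat_lit 72) (nat_lit 5) (nat_lit 84) (nat_lit 5) (nat_lit 85) (nat_lit 5) (nat_lit 409) (nat_lit 397) (nat_lit 82)))))) (XT.nd (nat_lit 564) (nat_lit 1008) (nat_lit 0) (XT.nd (nat_lit 282) (nat_lit 0) (nat_lit 84) (XT.nd (nat_lit 94) (nat_lit 0) (nat_lit 0) (XT.lf (nat_lit 0) (nat_lit 4111540525) (nat_lit 1008) (nat_lit 36731558688) (nat_lit 1092)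 (nat_lit 71855448629) (nat_lit 72) (nat_lit 5) (nat_lit 84) (nat_lit 5) (nat_lit 85) (nat_lit 5) (nat_lit 410) (nat_lit 397) (nat_lit 81)) (XT.nd (nat_lit 94) (nat_lit 0) (nat_lit 84) (XT.lf (nat_lit 84) (nat_lit 64972483) (nat_lit 0) (nat_lit 7013217376) (nat_lit 1092) (nat_lit 107619711758) (nat_lit 73) (nat_lit 5) (nat_lit 72) (nat_lit 5) (nat_lit 85) (nat_lit 5) (nat_lit 411) (nat_lit 397) (nat_lit 80)) (XT.lf (nat_lit 0) (nat_lit 10800387336) (nat_lit 1008) (nat_lit 78246946142) (nat_lit 1092) (nat_lit 27691332003) (nat_lit 73) (nat_lit 5) (nat_lit 85) (nat_lit 5) (nat_lit 86) (nat_lit 5) (nat_lit 412) (nat_lit 397) (nat_lit 79)))) (XT.nd (nat_lit 94) (nat_lit 0) (nat_lit 0) (XT.lf (nat_lit 0) (nat_lit 14709537196) (nat_lit 1008) (nat_lit 40804855089) (nat_lit 1092) (nat_lit 63326083378) (nat_lit 73) (nat_lit 5) (nat_lit 85) (nat_lit 5) (nat_lit 86) (nat_lit 5) (nat_lit 413)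 (nat_lit 397) (nat_lit 78)) (XT.nd (nat_lit 94) (nat_lit 0) (nat_lit 84) (XT.lf (nat_lit 0) (nat_lit 18739711190) (nat_lit 1008) (nat_lit 2202184038) (nat_lit 1092) (nat_lit 100065552771) (nat_lit 73) (nat_lit 5) (nat_lit 85) (nat_lit 5) (nat_lit 86) (nat_lit 5) (nat_lit 414) (nat_lit 397) (nat_lit 77)) (XT.lf (nat_lit 0) (nat_lit 23425044688) (nat_lit 1008) (nat_lit 85009423908) (nat_lit 84) (nat_lit 14790691996) (nat_lit 74) (nat_lit 5) (nat_lit 86) (nat_lit 5) (nat_lit 75) (nat_lit 5) (nat_lit 415) (nat_lit 397) (nat_lit 76))))) (XT.nd (nat_lit 282) (nat_lit 504) (nat_lit 0) (XT.nd (nat_lit 94) (nat_lit 672) (nat_lit 0) (XT.lf (nat_lit 0) (nat_lit 28492880291) (nat_lit 1008) (nat_lit 45792158904) (nat_lit 84) (nat_lit 51219229151) (nat_lit 74) (nat_lit 5) (nat_lit 86) (nat_lit 5) (nat_lit 75) (nat_lit 5) (nat_lit 416) (nat_lit 397) (nat_lit 75)) (XT.nd (nat_lit 94) (nat_lit 672)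 (nat_lit 0) (XT.lf (nat_lit 0) (nat_lit 33717672397) (nat_lit 1008) (nat_lit 5359280778) (nat_lit 84) (nat_lit 88777080805) (nat_lit 74) (nat_lit 5) (nat_lit 86) (nat_lit 5) (nat_lit 75) (nat_lit 5) (nat_lit 417) (nat_lit 397) (nat_lit 74)) (XT.lf (nat_lit 0) (nat_lit 37073853679) (nat_lit 672) (nat_lit 2398214596) (nat_lit 756) (nat_lit 90793178348) (nat_lit 66) (nat_lit 5) (nat_lit 74) (nat_lit 5) (nat_lit 75) (nat_lit 5) (nat_lit 418) (nat_lit 397) (nat_lit 73)))) (XT.nd (nat_lit 188) (nat_lit 504) (nat_lit 0) (XT.nd (nat_lit 94) (nat_lit 0) (nat_lit 0) (XT.lf (nat_lit 0) (nat_lit 45812570411) (nat_lit 756) (nat_lit 52165484926) (nat_lit 84) (nat_lit 34760513143) (nat_lit 66) (nat_lit 5) (nat_lit 75) (nat_lit 5) (nat_lit 67) (nat_lit 5) (nat_lit 419) (nat_lit 397) (nat_lit 72)) (XT.lf (nat_lit 0) (nat_lit 52374021699) (nat_lit 756) (nat_lit 9892420847) (nat_lit 84) (nat_lit 73021365479)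 (nat_lit 66) (nat_lit 5) (nat_lit 75) (nat_lit 5) (nat_lit 67) (nat_lit 5) (nat_lit 420) (nat_lit 397) (nat_lit 71))) (XT.nd (nat_lit 94) (nat_lit 0) (nat_lit 0) (XT.lf (nat_lit 0) (nat_lit 34383748711) (nat_lit 504) (nat_lit 25096089845) (nat_lit 588) (nat_lit 78425666547) (nat_lit 60) (nat_lit 5) (nat_lit 66) (nat_lit 5) (nat_lit 67) (nat_lit 5) (nat_lit 421) (nat_lit 397) (nat_lit 70)) (XT.lf (nat_lit 0) (nat_lit 67041329805) (nat_lit 588) (nat_lit 60491340406) (nat_lit 84) (nat_lit 13064384221) (nat_lit 60) (nat_lit 5) (nat_lit 67) (nat_lit 5) (nat_lit 61) (nat_lit 5) (nat_lit 422) (nat_lit 397) (nat_lit 69))))))))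
noncomputable def xc247 : XT := (XT.nd (nat_lit 55836) (nat_lit 0) (nat_lit 0) (XT.nd (nat_lit 1222) (nat_lit 1008) (nat_lit 0) (XT.nd (nat_lit 564) (nat_lit 756) (nat_lit 0) (XT.nd (nat_lit 282) (nat_lit 0) (nat_lit 0) (XT.nd (nat_lit 94) (nat_lit 0) (nat_lit 0) (XT.lf (nat_lit 0) (nat_lit 20195310181) (nat_lit 0) (nat_lit 20195310181) (nat_lit 924) (nat_lit 6576640784) (nat_lit 81) (nat_lit 5) (nat_lit 81) (nat_lit 3) (nat_lit 92) (nat_lit 3) (nat_lit 398) (nat_lit 398) (nat_lit 92)) (XT.nd (nat_lit 94) (nat_lit 0) (nat_lit 0) (XT.lf (nat_lit 0) (nat_lit 71813751535) (nat_lit 0) (nat_lit 10225308208) (nat_lit 924) (nat_lit 13351228976) (nat_lit 81) (nat_lit 5) (nat_lit 81) (nat_lit 3) (nat_lit 92) (nat_lit 3) (nat_lit 399) (nat_lit 398) (nat_lit 91)) (XT.lf (nat_lit 84) (nat_lit 7258856806) (nat_lit 0) (nat_lit 76355878024) (nat_lit 1008) (nat_lit 13267805976) (nat_lit 82) (nat_lit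 5) (nat_lit 81) (nat_lit 5) (nat_lit 93) (nat_lit 5) (nat_lit 400) (nat_lit 398) (nat_lit 90)))) (XT.nd (nat_lit 94) (nat_lit 0) (nat_lit 0) (XT.lf (nat_lit 84) (nat_lit 39443103237) (nat_lit 0) (nat_lit 46145542083) (nat_lit 1008) (nat_lit 12821577944) (nat_lit 82) (nat_lit 5) (nat_lit 81) (nat_lit 5) (nat_lit 93) (nat_lit 5) (nat_lit 401) (nat_lit 398) (nat_lit 89)) (XT.nd (nat_lit 94) (nat_lit 0) (nat_lit 84) (XT.lf (nat_lit 84) (nat_lit 72624941301) (nat_lit 0) (nat_lit 14998589167) (nat_lit 1008) (nat_lit 12361741703) (nat_lit 82) (nat_lit 5) (nat_lit 81) (nat_lit 5) (nat_lit 93) (nat_lit 5) (nat_lit 402) (nat_lit 398) (nat_lit 88)) (XT.lf (nat_lit 84) (nat_lit 5160340542) (nat_lit 0) (nat_lit 84781910801) (nat_lit 1008) (nat_lit 11660054400) (nat_lit 83) (nat_lit 5) (nat_lit 82) (nat_lit 5) (nat_lit 94) (nat_lit 5) (nat_lit 403) (nat_lit 398) (nat_lit 87))))) (XT.nd (nat_lit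 282) (nat_lit 840) (nat_lit 0) (XT.nd (nat_lit 94) (nat_lit 0) (nat_lit 0) (XT.lf (nat_lit 84) (nat_lit 39112498795) (nat_lit 0) (nat_lit 53657582685) (nat_lit 1008) (nat_lit 10485833266) (nat_lit 83) (nat_lit 5) (nat_lit 82) (nat_lit 5) (nat_lit 94) (nat_lit 5) (nat_lit 404) (nat_lit 398) (nat_lit 86)) (XT.nd (nat_lit 94) (nat_lit 0) (nat_lit 84) (XT.lf (nat_lit 84) (nat_lit 74117053584) (nat_lit 0) (nat_lit 21568322833) (nat_lit 1008) (nat_lit 9275416788) (nat_lit 83) (nat_lit 5) (nat_lit 82) (nat_lit 5) (nat_lit 94) (nat_lit 5) (nat_lit 405) (nat_lit 398) (nat_lit 85)) (XT.lf (nat_lit 84) (nat_lit 3443238192) (nat_lit 0) (nat_lit 95396010627) (nat_lit 1008) (nat_lit 7874681172) (nat_lit 84) (nat_lit 5) (nat_lit 83) (nat_lit 5) (nat_lit 95) (nat_lit 5) (nat_lit 406) (nat_lit 398) (nat_lit 84)))) (XT.nd (nat_lit 188) (nat_lit 924) (nat_lit 0) (XT.nd (nat_lit 94) (nat_lit 0) (nat_lit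 0) (XT.lf (nat_lit 84) (nat_lit 39221730754) (nat_lit 0) (nat_lit 63409279082) (nat_lit 1008) (nat_lit 5873661863) (nat_lit 84) (nat_lit 5) (nat_lit 83) (nat_lit 5) (nat_lit 95) (nat_lit 5) (nat_lit 407) (nat_lit 398) (nat_lit 83)) (XT.lf (nat_lit 84) (nat_lit 76109236718) (nat_lit 0) (nat_lit 30430897627) (nat_lit 1008) (nat_lit 3810798982) (nat_lit 84) (nat_lit 5) (nat_lit 83) (nat_lit 5) (nat_lit 95) (nat_lit 5) (nat_lit 408) (nat_lit 398) (nat_lit 82))) (XT.nd (nat_lit 94) (nat_lit 1008) (nat_lit 0) (XT.lf (nat_lit 84) (nat_lit 1888335484) (nat_lit 0) (nat_lit 108736076681) (nat_lit 1008) (nat_lit 1628345093) (nat_lit 85) (nat_lit 5) (nat_lit 84) (nat_lit 5) (nat_lit 96) (nat_lit 5) (nat_lit 409) (nat_lit 398) (nat_lit 81)) (XT.lf (nat_lit 0) (nat_lit 1281368792) (nat_lit 1008) (nat_lit 74659340455) (nat_lit 1092) (nat_lit 38251802413) (nat_lit 72) (nat_lit 5) (nat_lit 84) (nat_lit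 5) (nat_lit 85) (nat_lit 5) (nat_lit 410) (nat_lit 398) (nat_lit 80)))))) (XT.nd (nat_lit 564) (nat_lit 1008) (nat_lit 0) (XT.nd (nat_lit 282) (nat_lit 0) (nat_lit 84) (XT.nd (nat_lit 94) (nat_lit 0) (nat_lit 0) (XT.lf (nat_lit 0) (nat_lit 4247290507) (nat_lit 1008) (nat_lit 37864179032) (nat_lit 1092) (nat_lit 74080419026) (nat_lit 72) (nat_lit 5) (nat_lit 84) (nat_lit 5) (nat_lit 85) (nat_lit 5) (nat_lit 411) (nat_lit 398) (nat_lit 79)) (XT.nd (nat_lit 94) (nat_lit 0) (nat_lit 84) (XT.lf (nat_lit 84) (nat_lit 72983275) (nat_lit 0) (nat_lit 7232732854) (nat_lit 1092) (nat_lit 110947513785) (nat_lit 73) (nat_lit 5) (nat_lit 72) (nat_lit 5) (nat_lit 85) (nat_lit 5) (nat_lit 412) (nat_lit 398) (nat_lit 78)) (XT.lf (nat_lit 0) (nat_lit 11143037844) (nat_lit 1008) (nat_lit 80666467440) (nat_lit 1092) (nat_lit 28547762021) (nat_lit 73) (nat_lit 5) (nat_lit 85) (nat_lit 5) (nat_lit 86)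 (nat_lit 5) (nat_lit 413) (nat_lit 398) (nat_lit 77)))) (XT.nd (nat_lit 94) (nat_lit 0) (nat_lit 0) (XT.lf (nat_lit 0) (nat_lit 15173135662) (nat_lit 1008) (nat_lit 42063856001) (nat_lit 1092) (nat_lit 65287250863) (nat_lit 73) (nat_lit 5) (nat_lit 85) (nat_lit 5) (nat_lit 86) (nat_lit 5) (nat_lit 414) (nat_lit 398) (nat_lit 76)) (XT.nd (nat_lit 94) (nat_lit 0) (nat_lit 84) (XT.lf (nat_lit 0) (nat_lit 19328016449) (nat_lit 1008) (nat_lit 2264681039) (nat_lit 1092) (nat_lit 103165702172) (nat_lit 73) (nat_lit 5) (nat_lit 85) (nat_lit 5) (nat_lit 86) (nat_lit 5) (nat_lit 415) (nat_lit 398) (nat_lit 75)) (XT.lf (nat_lit 0) (nat_lit 24158415377) (nat_lit 1008) (nat_lit 87638716332) (nat_lit 84) (nat_lit 15247736735) (nat_lit 74) (nat_lit 5) (nat_lit 86) (nat_lit 5) (nat_lit 75) (nat_lit 5) (nat_lit 416) (nat_lit 398) (nat_lit 74))))) (XT.nd (nat_lit 282) (nat_lit 504) (nat_lit 0) (XT.nd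 (nat_lit 94) (nat_lit 672) (nat_lit 0) (XT.lf (nat_lit 0) (nat_lit 29383137566) (nat_lit 1008) (nat_lit 47205896512) (nat_lit 84) (nat_lit 52805602643) (nat_lit 74) (nat_lit 5) (nat_lit 86) (nat_lit 5) (nat_lit 75) (nat_lit 5) (nat_lit 417) (nat_lit 398) (nat_lit 73)) (XT.nd (nat_lit 94) (nat_lit 672) (nat_lit 0) (XT.lf (nat_lit 0) (nat_lit 34769688413) (nat_lit 1008) (nat_lit 5519774139) (nat_lit 84) (nat_lit 91527790473) (nat_lit 74) (nat_lit 5) (nat_lit 86) (nat_lit 5) (nat_lit 75) (nat_lit 5) (nat_lit 418) (nat_lit 398) (nat_lit 72)) (XT.lf (nat_lit 0) (nat_lit 38228730343) (nat_lit 672) (nat_lit 2473592143) (nat_lit 756) (nat_lit 93600896755) (nat_lit 66) (nat_lit 5) (nat_lit 74) (nat_lit 5) (nat_lit 75) (nat_lit 5) (nat_lit 419) (nat_lit 398) (nat_lit 71)))) (XT.nd (nat_lit 188) (nat_lit 504) (nat_lit 0) (XT.nd (nat_lit 94) (nat_lit 0) (nat_lit 0) (XT.lf (nat_lit 0) (nat_lit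 47239171197) (nat_lit 756) (nat_lit 53776943306) (nat_lit 84) (nat_lit 35837107398) (nat_lit 66) (nat_lit 5) (nat_lit 75) (nat_lit 5) (nat_lit 67) (nat_lit 5) (nat_lit 420) (nat_lit 398) (nat_lit 70)) (XT.lf (nat_lit 0) (nat_lit 54003834706) (nat_lit 756) (nat_lit 10193584776) (nat_lit 84) (nat_lit 75284075673) (nat_lit 66) (nat_lit 5) (nat_lit 75) (nat_lit 5) (nat_lit 67) (nat_lit 5) (nat_lit 421) (nat_lit 398) (nat_lit 69))) (XT.nd (nat_lit 94) (nat_lit 0) (nat_lit 0) (XT.lf (nat_lit 0) (nat_lit 35455090345) (nat_lit 504) (nat_lit 25874708587) (nat_lit 588) (nat_lit 80850547297) (nat_lit 60) (nat_lit 5) (nat_lit 66) (nat_lit 5) (nat_lit 67) (nat_lit 5) (nat_lit 422) (nat_lit 398) (nat_lit 68)) (XT.lf (nat_lit 0) (nat_lit 69125507278) (nat_lit 588) (nat_lit 62361061479) (nat_lit 84) (nat_lit 13468771923) (nat_lit 60) (nat_lit 5) (nat_lit 67) (nat_lit 5) (nat_lit 61) (nat_lit 5)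 (nat_lit 423) (nat_lit 398) (nat_lit 67))))))) (XT.nd (nat_lit 1222) (nat_lit 1008) (nat_lit 0) (XT.nd (nat_lit 564) (nat_lit 756) (nat_lit 0) (XT.nd (nat_lit 282) (nat_lit 0) (nat_lit 0) (XT.nd (nat_lit 94) (nat_lit 0) (nat_lit 0) (XT.lf (nat_lit 0) (nat_lit 20824191369) (nat_lit 0) (nat_lit 20824191369) (nat_lit 924) (nat_lit 6774647002) (nat_lit 81) (nat_lit 5) (nat_lit 81) (nat_lit 3) (nat_lit 92) (nat_lit 3) (nat_lit 399) (nat_lit 399) (nat_lit 90)) (XT.nd (nat_lit 94) (nat_lit 0) (nat_lit 0) (XT.lf (nat_lit 0) (nat_lit 74045460998) (nat_lit 0) (nat_lit 10547775928) (nat_lit 924) (nat_lit 13753730757) (nat_lit 81) (nat_lit 5) (nat_lit 81) (nat_lit 3) (nat_lit 92) (nat_lit 3) (nat_lit 400) (nat_lit 399) (nat_lit 89)) (XT.lf (nat_lit 84) (nat_lit 7489778597) (nat_lit 0) (nat_lit 78727655354) (nat_lit 1008) (nat_lit 13668058086) (nat_lit 82) (nat_lit 5) (nat_lit 81) (nat_lit 5)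 (nat_lit 93) (nat_lit 5) (nat_lit 401) (nat_lit 399) (nat_lit 88)))) (XT.nd (nat_lit 94) (nat_lit 0) (nat_lit 0) (XT.lf (nat_lit 84) (nat_lit 40671559350) (nat_lit 0) (nat_lit 47580656323) (nat_lit 1008) (nat_lit 13208329231) (nat_lit 82) (nat_lit 5) (nat_lit 81) (nat_lit 5) (nat_lit 93) (nat_lit 5) (nat_lit 402) (nat_lit 399) (nat_lit 87)) (XT.nd (nat_lit 94) (nat_lit 0) (nat_lit 84) (XT.lf (nat_lit 84) (nat_lit 74881862408) (nat_lit 0) (nat_lit 15468009480) (nat_lit 1008) (nat_lit 12734560323) (nat_lit 82) (nat_lit 5) (nat_lit 81) (nat_lit 5) (nat_lit 93) (nat_lit 5) (nat_lit 403) (nat_lit 399) (nat_lit 86)) (XT.lf (nat_lit 84) (nat_lit 5326226208) (nat_lit 0) (nat_lit 87413961590) (nat_lit 1008) (nat_lit 12011417067) (nat_lit 83) (nat_lit 5) (nat_lit 82) (nat_lit 5) (nat_lit 94) (nat_lit 5) (nat_lit 404) (nat_lit 399) (nat_lit 85))))) (XT.nd (nat_lit 282) (nat_lit 840) (nat_lit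 0) (XT.nd (nat_lit 94) (nat_lit 0) (nat_lit 0) (XT.lf (nat_lit 84) (nat_lit 40330723512) (nat_lit 0) (nat_lit 55324664697) (nat_lit 1008) (nat_lit 10801098734) (nat_lit 83) (nat_lit 5) (nat_lit 82) (nat_lit 5) (nat_lit 94) (nat_lit 5) (nat_lit 405) (nat_lit 399) (nat_lit 84)) (XT.nd (nat_lit 94) (nat_lit 0) (nat_lit 84) (XT.lf (nat_lit 84) (nat_lit 76420246992) (nat_lit 0) (nat_lit 22240526630) (nat_lit 1008) (nat_lit 9553453871) (nat_lit 83) (nat_lit 5) (nat_lit 82) (nat_lit 5) (nat_lit 94) (nat_lit 5) (nat_lit 406) (nat_lit 399) (nat_lit 83)) (XT.lf (nat_lit 84) (nat_lit 3555868951) (nat_lit 0) (nat_lit 98356295913) (nat_lit 1008) (nat_lit 8109556448) (nat_lit 84) (nat_lit 5) (nat_lit 83) (nat_lit 5) (nat_lit 95) (nat_lit 5) (nat_lit 407) (nat_lit 399) (nat_lit 82)))) (XT.nd (nat_lit 188) (nat_lit 924) (nat_lit 0) (XT.nd (nat_lit 94) (nat_lit 0) (nat_lit 0) (XT.lf (nat_lit 84)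 (nat_lit 40443317671) (nat_lit 0) (nat_lit 65377885216) (nat_lit 1008) (nat_lit 6046783363) (nat_lit 84) (nat_lit 5) (nat_lit 83) (nat_lit 5) (nat_lit 95) (nat_lit 5) (nat_lit 408) (nat_lit 399) (nat_lit 81)) (XT.lf (nat_lit 84) (nat_lit 78474164534) (nat_lit 0) (nat_lit 31377086183) (nat_lit 1008) (nat_lit 3920241202) (nat_lit 84) (nat_lit 5) (nat_lit 83) (nat_lit 5) (nat_lit 95) (nat_lit 5) (nat_lit 409) (nat_lit 399) (nat_lit 80))) (XT.nd (nat_lit 94) (nat_lit 1008) (nat_lit 0) (XT.lf (nat_lit 84) (nat_lit 1952704154) (nat_lit 0) (nat_lit 112109215862) (nat_lit 1008) (nat_lit 1670361060) (nat_lit 85) (nat_lit 5) (nat_lit 84) (nat_lit 5) (nat_lit 96) (nat_lit 5) (nat_lit 410) (nat_lit 399) (nat_lit 79)) (XT.lf (nat_lit 0) (nat_lit 1329134121) (nat_lit 1008) (nat_lit 76967904184) (nat_lit 1092) (nat_lit 39435136407) (nat_lit 72) (nat_lit 5) (nat_lit 84) (nat_lit 5) (nat_lit 85)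 (nat_lit 5) (nat_lit 411) (nat_lit 399) (nat_lit 78)))))) (XT.nd (nat_lit 564) (nat_lit 1008) (nat_lit 0) (XT.nd (nat_lit 282) (nat_lit 0) (nat_lit 84) (XT.nd (nat_lit 94) (nat_lit 0) (nat_lit 0) (XT.lf (nat_lit 0) (nat_lit 4386757576) (nat_lit 1008) (nat_lit 39032269430) (nat_lit 1092) (nat_lit 76374514459) (nat_lit 72) (nat_lit 5) (nat_lit 84) (nat_lit 5) (nat_lit 85) (nat_lit 5) (nat_lit 412) (nat_lit 399) (nat_lit 77)) (XT.nd (nat_lit 94) (nat_lit 0) (nat_lit 84) (XT.lf (nat_lit 84) (nat_lit 80887209) (nat_lit 0) (nat_lit 7458928585) (nat_lit 1092) (nat_lit 114378975756) (nat_lit 73) (nat_lit 5) (nat_lit 72) (nat_lit 5) (nat_lit 85) (nat_lit 5) (nat_lit 413) (nat_lit 399) (nat_lit 76)) (XT.lf (nat_lit 0) (nat_lit 11495846231) (nat_lit 1008) (nat_lit 83161357227) (nat_lit 1092) (nat_lit 29430859909) (nat_lit 73) (nat_lit 5) (nat_lit 85) (nat_lit 5) (nat_lit 86) (nat_lit 5) (nat_lit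 414) (nat_lit 399) (nat_lit 75)))) (XT.nd (nat_lit 94) (nat_lit 0) (nat_lit 0) (XT.lf (nat_lit 0) (nat_lit 15650655353) (nat_lit 1008) (nat_lit 43362238346) (nat_lit 1092) (nat_lit 67309329515) (nat_lit 73) (nat_lit 5) (nat_lit 85) (nat_lit 5) (nat_lit 86) (nat_lit 5) (nat_lit 415) (nat_lit 399) (nat_lit 74)) (XT.nd (nat_lit 94) (nat_lit 0) (nat_lit 84) (XT.lf (nat_lit 0) (nat_lit 19934122385) (nat_lit 1008) (nat_lit 2329457256) (nat_lit 1092) (nat_lit 106362067722) (nat_lit 73) (nat_lit 5) (nat_lit 85) (nat_lit 5) (nat_lit 86) (nat_lit 5) (nat_lit 416) (nat_lit 399) (nat_lit 73)) (XT.lf (nat_lit 0) (nat_lit 24914094426) (nat_lit 1008) (nat_lit 90349872196) (nat_lit 84) (nat_lit 15719036736) (nat_lit 74) (nat_lit 5) (nat_lit 86) (nat_lit 5) (nat_lit 75) (nat_lit 5) (nat_lit 417) (nat_lit 399) (nat_lit 72))))) (XT.nd (nat_lit 282) (nat_lit 504) (nat_lit 0) (XT.nd (nat_lit 94) (nat_lit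 672) (nat_lit 0) (XT.lf (nat_lit 0) (nat_lit 30300579498) (nat_lit 1008) (nat_lit 48663804675) (nat_lit 84) (nat_lit 54441237976) (nat_lit 74) (nat_lit 5) (nat_lit 86) (nat_lit 5) (nat_lit 75) (nat_lit 5) (nat_lit 418) (nat_lit 399) (nat_lit 71)) (XT.nd (nat_lit 94) (nat_lit 672) (nat_lit 0) (XT.lf (nat_lit 0) (nat_lit 35853916036) (nat_lit 1008) (nat_lit 5685577118) (nat_lit 84) (nat_lit 94363853870) (nat_lit 74) (nat_lit 5) (nat_lit 86) (nat_lit 5) (nat_lit 75) (nat_lit 5) (nat_lit 419) (nat_lit 399) (nat_lit 70)) (XT.lf (nat_lit 0) (nat_lit 39419077243) (nat_lit 672) (nat_lit 2551245213) (nat_lit 756) (nat_lit 96496061362) (nat_lit 66) (nat_lit 5) (nat_lit 74) (nat_lit 5) (nat_lit 75) (nat_lit 5) (nat_lit 420) (nat_lit 399) (nat_lit 69)))) (XT.nd (nat_lit 188) (nat_lit 504) (nat_lit 0) (XT.nd (nat_lit 94) (nat_lit 0) (nat_lit 0) (XT.lf (nat_lit 0) (nat_lit 48709616866) (nat_lit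 756) (nat_lit 55438692838) (nat_lit 84) (nat_lit 36947134220) (nat_lit 66) (nat_lit 5) (nat_lit 75) (nat_lit 5) (nat_lit 67) (nat_lit 5) (nat_lit 421) (nat_lit 399) (nat_lit 68)) (XT.lf (nat_lit 0) (nat_lit 55683803593) (nat_lit 756) (nat_lit 10504410626) (nat_lit 84) (nat_lit 77616986279) (nat_lit 66) (nat_lit 5) (nat_lit 75) (nat_lit 5) (nat_lit 67) (nat_lit 5) (nat_lit 422) (nat_lit 399) (nat_lit 67))) (XT.nd (nat_lit 53580) (nat_lit 0) (nat_lit 1764) (XT.lf (nat_lit 0) (nat_lit 36559321029) (nat_lit 504) (nat_lit 26677426605) (nat_lit 588) (nat_lit 83350973394) (nat_lit 60) (nat_lit 5) (nat_lit 66) (nat_lit 5) (nat_lit 67) (nat_lit 5) (nat_lit 423) (nat_lit 399) (nat_lit 66)) (XT.lf (nat_lit 0) (nat_lit 21472400451) (nat_lit 0) (nat_lit 21472400451) (nat_lit 924) (nat_lit 6979139082) (nat_lit 81) (nat_lit 5) (nat_lit 81) (nat_lit 3) (nat_lit 92) (nat_lit 3) (nat_lit 400) (nat_lit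 400) (nat_lit 88))))))))
noncomputable def xc248 : XT := (XT.nd (nat_lit 55836) (nat_lit 0) (nat_lit 504) (XT.nd (nat_lit 1128) (nat_lit 1008) (nat_lit 0) (XT.nd (nat_lit 564) (nat_lit 756) (nat_lit 0) (XT.nd (nat_lit 282) (nat_lit 0) (nat_lit 0) (XT.nd (nat_lit 94) (nat_lit 0) (nat_lit 0) (XT.lf (nat_lit 0) (nat_lit 76346028678) (nat_lit 0) (nat_lit 10879915371) (nat_lit 924) (nat_lit 14169384524) (nat_lit 81) (nat_lit 5) (nat_lit 81) (nat_lit 3) (nat_lit 92) (nat_lit 3) (nat_lit 401) (nat_lit 400) (nat_lit 87)) (XT.nd (nat_lit 94) (nat_lit 0) (nat_lit 0) (XT.lf (nat_lit 84) (nat_lit 7727509661) (nat_lit 0) (nat_lit 81172676719) (nat_lit 1008) (nat_lit 14081372513) (nat_lit 82) (nat_lit 5) (nat_lit 81) (nat_lit 5) (nat_lit 93) (nat_lit 5) (nat_lit 402) (nat_lit 400) (nat_lit 86)) (XT.lf (nat_lit 84) (nat_lit 41937758803) (nat_lit 0) (nat_lit 49059986494) (nat_lit 1008) (nat_lit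 13607704631) (nat_lit 82) (nat_lit 5) (nat_lit 81) (nat_lit 5) (nat_lit 93) (nat_lit 5) (nat_lit 403) (nat_lit 400) (nat_lit 85)))) (XT.nd (nat_lit 94) (nat_lit 0) (nat_lit 84) (XT.lf (nat_lit 84) (nat_lit 77208419457) (nat_lit 0) (nat_lit 15951717410) (nat_lit 1008) (nat_lit 13119552056) (nat_lit 82) (nat_lit 5) (nat_lit 81) (nat_lit 5) (nat_lit 93) (nat_lit 5) (nat_lit 404) (nat_lit 400) (nat_lit 84)) (XT.nd (nat_lit 94) (nat_lit 0) (nat_lit 0) (XT.lf (nat_lit 84) (nat_lit 5496903968) (nat_lit 0) (nat_lit 90127380188) (nat_lit 1008) (nat_lit 12374270159) (nat_lit 83) (nat_lit 5) (nat_lit 82) (nat_lit 5) (nat_lit 94) (nat_lit 5) (nat_lit 405) (nat_lit 400) (nat_lit 83)) (XT.lf (nat_lit 84) (nat_lit 41586373369) (nat_lit 0) (nat_lit 57043207274) (nat_lit 1008) (nat_lit 11126717628) (nat_lit 83) (nat_lit 5) (nat_lit 82) (nat_lit 5) (nat_lit 94) (nat_lit 5) (nat_lit 406) (nat_lit 400)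 (nat_lit 82))))) (XT.nd (nat_lit 282) (nat_lit 840) (nat_lit 0) (XT.nd (nat_lit 94) (nat_lit 0) (nat_lit 84) (XT.lf (nat_lit 84) (nat_lit 78794509787) (nat_lit 0) (nat_lit 22933356353) (nat_lit 1008) (nat_lit 9840672855) (nat_lit 83) (nat_lit 5) (nat_lit 82) (nat_lit 5) (nat_lit 94) (nat_lit 5) (nat_lit 407) (nat_lit 400) (nat_lit 81)) (XT.nd (nat_lit 94) (nat_lit 0) (nat_lit 0) (XT.lf (nat_lit 84) (nat_lit 3671642366) (nat_lit 0) (nat_lit 101408171816) (nat_lit 1008) (nat_lit 8352260149) (nat_lit 84) (nat_lit 5) (nat_lit 83) (nat_lit 5) (nat_lit 95) (nat_lit 5) (nat_lit 408) (nat_lit 400) (nat_lit 80)) (XT.lf (nat_lit 84) (nat_lit 41702435376) (nat_lit 0) (nat_lit 67407345274) (nat_lit 1008) (nat_lit 6225802465) (nat_lit 84) (nat_lit 5) (nat_lit 83) (nat_lit 5) (nat_lit 95) (nat_lit 5) (nat_lit 409) (nat_lit 400) (nat_lit 79)))) (XT.nd (nat_lit 94) (nat_lit 924) (nat_lit 0) (XT.lf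 (nat_lit 84) (nat_lit 80912076882) (nat_lit 0) (nat_lit 32352438916) (nat_lit 1008) (nat_lit 4033591005) (nat_lit 84) (nat_lit 5) (nat_lit 83) (nat_lit 5) (nat_lit 95) (nat_lit 5) (nat_lit 410) (nat_lit 400) (nat_lit 78)) (XT.nd (nat_lit 94) (nat_lit 1008) (nat_lit 0) (XT.lf (nat_lit 84) (nat_lit 2018722916) (nat_lit 0) (nat_lit 115586784893) (nat_lit 1008) (nat_lit 1714180784) (nat_lit 85) (nat_lit 5) (nat_lit 84) (nat_lit 5) (nat_lit 96) (nat_lit 5) (nat_lit 411) (nat_lit 400) (nat_lit 77)) (XT.lf (nat_lit 0) (nat_lit 1377903780) (nat_lit 1008) (nat_lit 79348381424) (nat_lit 1092) (nat_lit 40655300167) (nat_lit 72) (nat_lit 5) (nat_lit 84) (nat_lit 5) (nat_lit 85) (nat_lit 5) (nat_lit 412) (nat_lit 400) (nat_lit 76)))))) (XT.nd (nat_lit 564) (nat_lit 1008) (nat_lit 0) (XT.nd (nat_lit 282) (nat_lit 0) (nat_lit 84) (XT.nd (nat_lit 94) (nat_lit 0) (nat_lit 0) (XT.lf (nat_lit 0) (nat_lit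 4530086054) (nat_lit 1008) (nat_lit 40236908202) (nat_lit 1092) (nat_lit 78739868862) (nat_lit 72) (nat_lit 5) (nat_lit 84) (nat_lit 5) (nat_lit 85) (nat_lit 5) (nat_lit 413) (nat_lit 400) (nat_lit 75)) (XT.nd (nat_lit 94) (nat_lit 0) (nat_lit 84) (XT.lf (nat_lit 84) (nat_lit 88702012) (nat_lit 0) (nat_lit 7692019045) (nat_lit 1092) (nat_lit 117917281627) (nat_lit 73) (nat_lit 5) (nat_lit 72) (nat_lit 5) (nat_lit 85) (nat_lit 5) (nat_lit 414) (nat_lit 400) (nat_lit 74)) (XT.lf (nat_lit 0) (nat_lit 11859154889) (nat_lit 1008) (nat_lit 85733930406) (nat_lit 1092) (nat_lit 30341445349) (nat_lit 73) (nat_lit 5) (nat_lit 85) (nat_lit 5) (nat_lit 86) (nat_lit 5) (nat_lit 415) (nat_lit 400) (nat_lit 73)))) (XT.nd (nat_lit 94) (nat_lit 0) (nat_lit 0) (XT.lf (nat_lit 0) (nat_lit 16142554501) (nat_lit 1008) (nat_lit 44701202075) (nat_lit 1092) (nat_lit 69394200769) (nat_lit 73) (nat_lit 5)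 (nat_lit 85) (nat_lit 5) (nat_lit 86) (nat_lit 5) (nat_lit 416) (nat_lit 400) (nat_lit 72)) (XT.nd (nat_lit 94) (nat_lit 0) (nat_lit 84) (XT.lf (nat_lit 0) (nat_lit 20558606689) (nat_lit 1008) (nat_lit 2396563099) (nat_lit 1092) (nat_lit 109657625517) (nat_lit 73) (nat_lit 5) (nat_lit 85) (nat_lit 5) (nat_lit 86) (nat_lit 5) (nat_lit 417) (nat_lit 400) (nat_lit 71)) (XT.lf (nat_lit 0) (nat_lit 25692798635) (nat_lit 1008) (nat_lit 93145408215) (nat_lit 84) (nat_lit 16205028768) (nat_lit 74) (nat_lit 5) (nat_lit 86) (nat_lit 5) (nat_lit 75) (nat_lit 5) (nat_lit 418) (nat_lit 400) (nat_lit 70))))) (XT.nd (nat_lit 282) (nat_lit 504) (nat_lit 0) (XT.nd (nat_lit 94) (nat_lit 672) (nat_lit 0) (XT.lf (nat_lit 0) (nat_lit 31246073294) (nat_lit 1008) (nat_lit 50167232262) (nat_lit 84) (nat_lit 56127657278) (nat_lit 74) (nat_lit 5) (nat_lit 86) (nat_lit 5) (nat_lit 75) (nat_lit 5) (nat_lit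 419) (nat_lit 400) (nat_lit 69)) (XT.nd (nat_lit 94) (nat_lit 672) (nat_lit 0) (XT.lf (nat_lit 0) (nat_lit 36971377570) (nat_lit 1008) (nat_lit 5856834511) (nat_lit 84) (nat_lit 97287912122) (nat_lit 74) (nat_lit 5) (nat_lit 86) (nat_lit 5) (nat_lit 75) (nat_lit 5) (nat_lit 420) (nat_lit 400) (nat_lit 68)) (XT.lf (nat_lit 0) (nat_lit 40646013560) (nat_lit 672) (nat_lit 2631247973) (nat_lit 756) (nat_lit 99481358897) (nat_lit 66) (nat_lit 5) (nat_lit 74) (nat_lit 5) (nat_lit 75) (nat_lit 5) (nat_lit 421) (nat_lit 400) (nat_lit 67)))) (XT.nd (nat_lit 188) (nat_lit 504) (nat_lit 0) (XT.nd (nat_lit 94) (nat_lit 0) (nat_lit 0) (XT.lf (nat_lit 0) (nat_lit 50225289103) (nat_lit 756) (nat_lit 57152272648) (nat_lit 84) (nat_lit 38091626574) (nat_lit 66) (nat_lit 5) (nat_lit 75) (nat_lit 5) (nat_lit 67) (nat_lit 5) (nat_lit 422) (nat_lit 400) (nat_lit 66)) (XT.lf (nat_lit 0) (nat_lit 57415505010)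 (nat_lit 756) (nat_lit 10825178619) (nat_lit 84) (nat_lit 80022270171) (nat_lit 66) (nat_lit 5) (nat_lit 75) (nat_lit 5) (nat_lit 67) (nat_lit 5) (nat_lit 423) (nat_lit 400) (nat_lit 65))) (XT.nd (nat_lit 53580) (nat_lit 0) (nat_lit 1764) (XT.lf (nat_lit 0) (nat_lit 37697479426) (nat_lit 504) (nat_lit 27504993220) (nat_lit 588) (nat_lit 85929264588) (nat_lit 60) (nat_lit 5) (nat_lit 66) (nat_lit 5) (nat_lit 67) (nat_lit 5) (nat_lit 424) (nat_lit 400) (nat_lit 64)) (XT.lf (nat_lit 0) (nat_lit 22140546508) (nat_lit 0) (nat_lit 22140546508) (nat_lit 924) (nat_lit 7190297492) (nat_lit 81) (nat_lit 5) (nat_lit 81) (nat_lit 3) (nat_lit 92) (nat_lit 3) (nat_lit 401) (nat_lit 401) (nat_lit 86))))))) (XT.nd (nat_lit 1222) (nat_lit 504) (nat_lit 0) (XT.nd (nat_lit 564) (nat_lit 756) (nat_lit 0) (XT.nd (nat_lit 282) (nat_lit 0) (nat_lit 0) (XT.nd (nat_lit 94) (nat_lit 0) (nat_lit 0) (XT.lf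 (nat_lit 0) (nat_lit 78717608416) (nat_lit 0) (nat_lit 11222045596) (nat_lit 924) (nat_lit 14598558041) (nat_lit 81) (nat_lit 5) (nat_lit 81) (nat_lit 3) (nat_lit 92) (nat_lit 3) (nat_lit 402) (nat_lit 401) (nat_lit 85)) (XT.nd (nat_lit 94) (nat_lit 0) (nat_lit 0) (XT.lf (nat_lit 84) (nat_lit 7972281774) (nat_lit 0) (nat_lit 83693229333) (nat_lit 1008) (nat_lit 14508115424) (nat_lit 82) (nat_lit 5) (nat_lit 81) (nat_lit 5) (nat_lit 93) (nat_lit 5) (nat_lit 403) (nat_lit 401) (nat_lit 84)) (XT.lf (nat_lit 84) (nat_lit 43242891706) (nat_lit 0) (nat_lit 50584919437) (nat_lit 1008) (nat_lit 14020057891) (nat_lit 82) (nat_lit 5) (nat_lit 81) (nat_lit 5) (nat_lit 93) (nat_lit 5) (nat_lit 404) (nat_lit 401) (nat_lit 83)))) (XT.nd (nat_lit 94) (nat_lit 0) (nat_lit 84) (XT.lf (nat_lit 84) (nat_lit 79606790625) (nat_lit 0) (nat_lit 16450171535) (nat_lit 1008) (nat_lit 13517057798) (nat_lit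 82) (nat_lit 5) (nat_lit 81) (nat_lit 5) (nat_lit 93) (nat_lit 5) (nat_lit 405) (nat_lit 401) (nat_lit 82)) (XT.nd (nat_lit 94) (nat_lit 0) (nat_lit 0) (XT.lf (nat_lit 84) (nat_lit 5672543129) (nat_lit 0) (nat_lit 92924702371) (nat_lit 1008) (nat_lit 12748934448) (nat_lit 83) (nat_lit 5) (nat_lit 82) (nat_lit 5) (nat_lit 94) (nat_lit 5) (nat_lit 406) (nat_lit 401) (nat_lit 81)) (XT.lf (nat_lit 84) (nat_lit 42880628671) (nat_lit 0) (nat_lit 58814818666) (nat_lit 1008) (nat_lit 11462976537) (nat_lit 83) (nat_lit 5) (nat_lit 82) (nat_lit 5) (nat_lit 94) (nat_lit 5) (nat_lit 407) (nat_lit 401) (nat_lit 80))))) (XT.nd (nat_lit 282) (nat_lit 840) (nat_lit 0) (XT.nd (nat_lit 94) (nat_lit 0) (nat_lit 84) (XT.lf (nat_lit 84) (nat_lit 81242064642) (nat_lit 0) (nat_lit 23647463984) (nat_lit 1008) (nat_lit 10137325045) (nat_lit 83) (nat_lit 5) (nat_lit 82) (nat_lit 5) (nat_lit 94) (nat_lit 5)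 (nat_lit 408) (nat_lit 401) (nat_lit 79)) (XT.nd (nat_lit 94) (nat_lit 0) (nat_lit 0) (XT.lf (nat_lit 84) (nat_lit 3790676526) (nat_lit 0) (nat_lit 104554488204) (nat_lit 1008) (nat_lit 8603002539) (nat_lit 84) (nat_lit 5) (nat_lit 83) (nat_lit 5) (nat_lit 95) (nat_lit 5) (nat_lit 409) (nat_lit 401) (nat_lit 78)) (XT.lf (nat_lit 84) (nat_lit 43000267368) (nat_lit 0) (nat_lit 69499555966) (nat_lit 1008) (nat_lit 6410870552) (nat_lit 84) (nat_lit 5) (nat_lit 83) (nat_lit 5) (nat_lit 95) (nat_lit 5) (nat_lit 410) (nat_lit 401) (nat_lit 77)))) (XT.nd (nat_lit 188) (nat_lit 924) (nat_lit 0) (XT.nd (nat_lit 94) (nat_lit 0) (nat_lit 84) (XT.lf (nat_lit 84) (nat_lit 83425255722) (nat_lit 0) (nat_lit 33357869846) (nat_lit 1008) (nat_lit 4150939030) (nat_lit 84) (nat_lit 5) (nat_lit 83) (nat_lit 5) (nat_lit 95) (nat_lit 5) (nat_lit 411) (nat_lit 401) (nat_lit 76)) (XT.lf (nat_lit 84) (nat_lit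 2086463377) (nat_lit 0) (nat_lit 119172029240) (nat_lit 1008) (nat_lit 1759830491) (nat_lit 85) (nat_lit 5) (nat_lit 84) (nat_lit 5) (nat_lit 96) (nat_lit 5) (nat_lit 412) (nat_lit 401) (nat_lit 75))) (XT.nd (nat_lit 94) (nat_lit 0) (nat_lit 0) (XT.lf (nat_lit 0) (nat_lit 1427737122) (nat_lit 1008) (nat_lit 81802980879) (nat_lit 1092) (nat_lit 41913426746) (nat_lit 72) (nat_lit 5) (nat_lit 84) (nat_lit 5) (nat_lit 85) (nat_lit 5) (nat_lit 413) (nat_lit 401) (nat_lit 74)) (XT.lf (nat_lit 0) (nat_lit 4677423013) (nat_lit 1008) (nat_lit 41479208351) (nat_lit 1092) (nat_lit 81178682850) (nat_lit 72) (nat_lit 5) (nat_lit 84) (nat_lit 5) (nat_lit 85) (nat_lit 5) (nat_lit 414) (nat_lit 401) (nat_lit 73)))))) (XT.nd (nat_lit 564) (nat_lit 504) (nat_lit 0) (XT.nd (nat_lit 282) (nat_lit 0) (nat_lit 84) (XT.nd (nat_lit 94) (nat_lit 0) (nat_lit 84) (XT.lf (nat_lit 84) (nat_lit 96444713) (nat_lit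 0) (nat_lit 7932224921) (nat_lit 1092) (nat_lit 121565715805) (nat_lit 73) (nat_lit 5) (nat_lit 72) (nat_lit 5) (nat_lit 85) (nat_lit 5) (nat_lit 415) (nat_lit 401) (nat_lit 72)) (XT.nd (nat_lit 94) (nat_lit 0) (nat_lit 0) (XT.lf (nat_lit 0) (nat_lit 12233315201) (nat_lit 1008) (nat_lit 88386574916) (nat_lit 1092) (nat_lit 31280363849) (nat_lit 73) (nat_lit 5) (nat_lit 85) (nat_lit 5) (nat_lit 86) (nat_lit 5) (nat_lit 416) (nat_lit 401) (nat_lit 71)) (XT.lf (nat_lit 0) (nat_lit 16649303962) (nat_lit 1008) (nat_lit 46081985574) (nat_lit 1092) (nat_lit 71543804790) (nat_lit 73) (nat_lit 5) (nat_lit 85) (nat_lit 5) (nat_lit 86) (nat_lit 5) (nat_lit 417) (nat_lit 401) (nat_lit 70)))) (XT.nd (nat_lit 94) (nat_lit 0) (nat_lit 84) (XT.lf (nat_lit 0) (nat_lit 21202063430) (nat_lit 1008) (nat_lit 2466051739) (nat_lit 1092) (nat_lit 113055444301) (nat_lit 73) (nat_lit 5) (nat_lit 85) (nat_lit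 5) (nat_lit 86) (nat_lit 5) (nat_lit 418) (nat_lit 401) (nat_lit 69)) (XT.nd (nat_lit 94) (nat_lit 0) (nat_lit 0) (XT.lf (nat_lit 0) (nat_lit 26495265529) (nat_lit 1008) (nat_lit 96027920372) (nat_lit 84) (nat_lit 16706163442) (nat_lit 74) (nat_lit 5) (nat_lit 86) (nat_lit 5) (nat_lit 75) (nat_lit 5) (nat_lit 419) (nat_lit 401) (nat_lit 68)) (XT.lf (nat_lit 0) (nat_lit 32220511592) (nat_lit 1008) (nat_lit 51717571169) (nat_lit 84) (nat_lit 57866430155) (nat_lit 74) (nat_lit 5) (nat_lit 86) (nat_lit 5) (nat_lit 75) (nat_lit 5) (nat_lit 420) (nat_lit 401) (nat_lit 67))))) (XT.nd (nat_lit 282) (nat_lit 0) (nat_lit 0) (XT.nd (nat_lit 94) (nat_lit 672) (nat_lit 0) (XT.lf (nat_lit 0) (nat_lit 38123125605) (nat_lit 1008) (nat_lit 6033696776) (nat_lit 84) (nat_lit 100302688515) (nat_lit 74) (nat_lit 5) (nat_lit 86) (nat_lit 5) (nat_lit 75) (nat_lit 5) (nat_lit 421) (nat_lit 401) (nat_lit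 66)) (XT.nd (nat_lit 94) (nat_lit 0) (nat_lit 0) (XT.lf (nat_lit 0) (nat_lit 41910692007) (nat_lit 672) (nat_lit 2713676670) (nat_lit 756) (nat_lit 102559560807) (nat_lit 66) (nat_lit 5) (nat_lit 74) (nat_lit 5) (nat_lit 75) (nat_lit 5) (nat_lit 422) (nat_lit 401) (nat_lit 65)) (XT.lf (nat_lit 0) (nat_lit 51787611092) (nat_lit 756) (nat_lit 58919270756) (nat_lit 84) (nat_lit 39271649652) (nat_lit 66) (nat_lit 5) (nat_lit 75) (nat_lit 5) (nat_lit 67) (nat_lit 5) (nat_lit 423) (nat_lit 401) (nat_lit 64)))) (XT.nd (nat_lit 53768) (nat_lit 0) (nat_lit 1260) (XT.nd (nat_lit 53674) (nat_lit 0) (nat_lit 1260) (XT.lf (nat_lit 0) (nat_lit 59200563189) (nat_lit 756) (nat_lit 11156178803) (nat_lit 84) (nat_lit 82502167776) (nat_lit 66) (nat_lit 5) (nat_lit 75) (nat_lit 5) (nat_lit 67) (nat_lit 5) (nat_lit 424) (nat_lit 401) (nat_lit 63)) (XT.lf (nat_lit 0) (nat_lit 22829256917) (nat_lit 0)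 (nat_lit 22829256917) (nat_lit 924) (nat_lit 7408309516) (nat_lit 81) (nat_lit 5) (nat_lit 81) (nat_lit 3) (nat_lit 92) (nat_lit 3) (nat_lit 402) (nat_lit 402) (nat_lit 84))) (XT.nd (nat_lit 94) (nat_lit 0) (nat_lit 0) (XT.lf (nat_lit 0) (nat_lit 81162419683) (nat_lit 0) (nat_lit 11574494415) (nat_lit 924) (nat_lit 15041632839) (nat_lit 81) (nat_lit 5) (nat_lit 81) (nat_lit 3) (nat_lit 92) (nat_lit 3) (nat_lit 403) (nat_lit 402) (nat_lit 83)) (XT.lf (nat_lit 84) (nat_lit 8224332674) (nat_lit 0) (nat_lit 86291670327) (nat_lit 1008) (nat_lit 14948666630) (nat_lit 82) (nat_lit 5) (nat_lit 81) (nat_lit 5) (nat_lit 93) (nat_lit 5) (nat_lit 404) (nat_lit 402) (nat_lit 82))))))))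
noncomputable def xc249 : XT := (XT.nd (nat_lit 56024) (nat_lit 0) (nat_lit 0) (XT.nd (nat_lit 1128) (nat_lit 504) (nat_lit 0) (XT.nd (nat_lit 564) (nat_lit 756) (nat_lit 0) (XT.nd (nat_lit 282) (nat_lit 0) (nat_lit 84) (XT.nd (nat_lit 94) (nat_lit 0) (nat_lit 0) (XT.lf (nat_lit 84) (nat_lit 44588183875) (nat_lit 0) (nat_lit 52156884029) (nat_lit 1008) (nat_lit 14445755949) (nat_lit 82) (nat_lit 5) (nat_lit 81) (nat_lit 5) (nat_lit 93) (nat_lit 5) (nat_lit 405) (nat_lit 402) (nat_lit 81)) (XT.nd (nat_lit 94) (nat_lit 0) (nat_lit 84) (XT.lf (nat_lit 84) (nat_lit 82079220462) (nat_lit 0) (nat_lit 16963843719) (nat_lit 1008) (nat_lit 13927431171) (nat_lit 82) (nat_lit 5) (nat_lit 81) (nat_lit 5) (nat_lit 93) (nat_lit 5) (nat_lit 406) (nat_lit 402) (nat_lit 80)) (XT.lf (nat_lit 84) (nat_lit 5853317018) (nat_lit 0) (nat_lit 95808541729) (nat_lit 1008) (nat_lit 13135742747) (nat_lit 83)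 (nat_lit 5) (nat_lit 82) (nat_lit 5) (nat_lit 94) (nat_lit 5) (nat_lit 407) (nat_lit 402) (nat_lit 79)))) (XT.nd (nat_lit 94) (nat_lit 0) (nat_lit 0) (XT.lf (nat_lit 84) (nat_lit 44214705126) (nat_lit 0) (nat_lit 60641156206) (nat_lit 1008) (nat_lit 11810172973) (nat_lit 83) (nat_lit 5) (nat_lit 82) (nat_lit 5) (nat_lit 94) (nat_lit 5) (nat_lit 408) (nat_lit 402) (nat_lit 78)) (XT.nd (nat_lit 94) (nat_lit 0) (nat_lit 84) (XT.lf (nat_lit 84) (nat_lit 83765201979) (nat_lit 0) (nat_lit 24383520976) (nat_lit 1008) (nat_lit 10443671513) (nat_lit 83) (nat_lit 5) (nat_lit 82) (nat_lit 5) (nat_lit 94) (nat_lit 5) (nat_lit 409) (nat_lit 402) (nat_lit 77)) (XT.lf (nat_lit 84) (nat_lit 3913091956) (nat_lit 0) (nat_lit 107798182662) (nat_lit 1008) (nat_lit 8862002321) (nat_lit 84) (nat_lit 5) (nat_lit 83) (nat_lit 5) (nat_lit 95) (nat_lit 5) (nat_lit 410) (nat_lit 402) (nat_lit 76))))) (XT.nd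 (nat_lit 282) (nat_lit 924) (nat_lit 0) (XT.nd (nat_lit 94) (nat_lit 0) (nat_lit 0) (XT.lf (nat_lit 84) (nat_lit 44338032647) (nat_lit 0) (nat_lit 71656472195) (nat_lit 1008) (nat_lit 6602145564) (nat_lit 84) (nat_lit 5) (nat_lit 83) (nat_lit 5) (nat_lit 95) (nat_lit 5) (nat_lit 411) (nat_lit 402) (nat_lit 75)) (XT.nd (nat_lit 94) (nat_lit 0) (nat_lit 84) (XT.lf (nat_lit 84) (nat_lit 86016052607) (nat_lit 0) (nat_lit 34394320741) (nat_lit 1008) (nat_lit 4272380530) (nat_lit 84) (nat_lit 5) (nat_lit 83) (nat_lit 5) (nat_lit 95) (nat_lit 5) (nat_lit 412) (nat_lit 402) (nat_lit 74)) (XT.lf (nat_lit 84) (nat_lit 2155998154) (nat_lit 0) (nat_lit 122868294500) (nat_lit 1008) (nat_lit 1807338979) (nat_lit 85) (nat_lit 5) (nat_lit 84) (nat_lit 5) (nat_lit 96) (nat_lit 5) (nat_lit 413) (nat_lit 402) (nat_lit 73)))) (XT.nd (nat_lit 94) (nat_lit 0) (nat_lit 0) (XT.lf (nat_lit 0) (nat_lit 1478693666)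 (nat_lit 1008) (nat_lit 84333980943) (nat_lit 1092) (nat_lit 43210684832) (nat_lit 72) (nat_lit 5) (nat_lit 84) (nat_lit 5) (nat_lit 85) (nat_lit 5) (nat_lit 414) (nat_lit 402) (nat_lit 72)) (XT.nd (nat_lit 94) (nat_lit 0) (nat_lit 0) (XT.lf (nat_lit 0) (nat_lit 4828918465) (nat_lit 1008) (nat_lit 42760318569) (nat_lit 1092) (nat_lit 83693225759) (nat_lit 72) (nat_lit 5) (nat_lit 84) (nat_lit 5) (nat_lit 85) (nat_lit 5) (nat_lit 415) (nat_lit 402) (nat_lit 71)) (XT.lf (nat_lit 84) (nat_lit 104131699) (nat_lit 0) (nat_lit 8179773329) (nat_lit 1092) (nat_lit 125327666157) (nat_lit 73) (nat_lit 5) (nat_lit 72) (nat_lit 5) (nat_lit 85) (nat_lit 5) (nat_lit 416) (nat_lit 402) (nat_lit 70)))))) (XT.nd (nat_lit 564) (nat_lit 588) (nat_lit 0) (XT.nd (nat_lit 282) (nat_lit 0) (nat_lit 84) (XT.nd (nat_lit 94) (nat_lit 0) (nat_lit 0) (XT.lf (nat_lit 0) (nat_lit 12618687906) (nat_lit 1008) (nat_lit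 91121753922) (nat_lit 1092) (nat_lit 32248487522) (nat_lit 73) (nat_lit 5) (nat_lit 85) (nat_lit 5) (nat_lit 86) (nat_lit 5) (nat_lit 417) (nat_lit 402) (nat_lit 69)) (XT.nd (nat_lit 94) (nat_lit 0) (nat_lit 0) (XT.lf (nat_lit 0) (nat_lit 17171387704) (nat_lit 1008) (nat_lit 47505866781) (nat_lit 1092) (nat_lit 73760142266) (nat_lit 73) (nat_lit 5) (nat_lit 85) (nat_lit 5) (nat_lit 86) (nat_lit 5) (nat_lit 418) (nat_lit 402) (nat_lit 68)) (XT.lf (nat_lit 0) (nat_lit 21865103651) (nat_lit 1008) (nat_lit 2537979124) (nat_lit 1092) (nat_lit 116558688319) (nat_lit 73) (nat_lit 5) (nat_lit 85) (nat_lit 5) (nat_lit 86) (nat_lit 5) (nat_lit 419) (nat_lit 402) (nat_lit 67)))) (XT.nd (nat_lit 94) (nat_lit 0) (nat_lit 0) (XT.lf (nat_lit 0) (nat_lit 27322254092) (nat_lit 1008) (nat_lit 99000086298) (nat_lit 84) (nat_lit 17222905626) (nat_lit 74) (nat_lit 5) (nat_lit 86) (nat_lit 5) (nat_lit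 75) (nat_lit 5) (nat_lit 420) (nat_lit 402) (nat_lit 66)) (XT.nd (nat_lit 94) (nat_lit 0) (nat_lit 0) (XT.lf (nat_lit 0) (nat_lit 33224813339) (nat_lit 1008) (nat_lit 53316257577) (nat_lit 84) (nat_lit 59659175151) (nat_lit 74) (nat_lit 5) (nat_lit 86) (nat_lit 5) (nat_lit 75) (nat_lit 5) (nat_lit 421) (nat_lit 402) (nat_lit 65)) (XT.lf (nat_lit 0) (nat_lit 39310244039) (nat_lit 1008) (nat_lit 6216320136) (nat_lit 84) (nat_lit 103410991026) (nat_lit 74) (nat_lit 5) (nat_lit 86) (nat_lit 5) (nat_lit 75) (nat_lit 5) (nat_lit 422) (nat_lit 402) (nat_lit 64))))) (XT.nd (nat_lit 53956) (nat_lit 0) (nat_lit 1260) (XT.nd (nat_lit 94) (nat_lit 0) (nat_lit 0) (XT.lf (nat_lit 0) (nat_lit 43214299937) (nat_lit 672) (nat_lit 2798609718) (nat_lit 756) (nat_lit 105733525794) (nat_lit 66) (nat_lit 5) (nat_lit 74) (nat_lit 5) (nat_lit 75) (nat_lit 5) (nat_lit 423) (nat_lit 402) (nat_lit 63)) (XT.nd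 (nat_lit 53768) (nat_lit 0) (nat_lit 1260) (XT.lf (nat_lit 0) (nat_lit 53398048882) (nat_lit 756) (nat_lit 60741325517) (nat_lit 84) (nat_lit 40488301858) (nat_lit 66) (nat_lit 5) (nat_lit 75) (nat_lit 5) (nat_lit 67) (nat_lit 5) (nat_lit 424) (nat_lit 402) (nat_lit 62)) (XT.lf (nat_lit 0) (nat_lit 23539177948) (nat_lit 0) (nat_lit 23539177948) (nat_lit 924) (nat_lit 7633369390) (nat_lit 81) (nat_lit 5) (nat_lit 81) (nat_lit 3) (nat_lit 92) (nat_lit 3) (nat_lit 403) (nat_lit 403) (nat_lit 82)))) (XT.nd (nat_lit 188) (nat_lit 0) (nat_lit 0) (XT.nd (nat_lit 94) (nat_lit 0) (nat_lit 0) (XT.lf (nat_lit 0) (nat_lit 83682749682) (nat_lit 0) (nat_lit 11937598731) (nat_lit 924) (nat_lit 15499004503) (nat_lit 81) (nat_lit 5) (nat_lit 81) (nat_lit 3) (nat_lit 92) (nat_lit 3) (nat_lit 404) (nat_lit 403) (nat_lit 81)) (XT.lf (nat_lit 84) (nat_lit 8483906315) (nat_lit 0) (nat_lit 88970428974)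 (nat_lit 1008) (nat_lit 15403419877) (nat_lit 82) (nat_lit 5) (nat_lit 81) (nat_lit 5) (nat_lit 93) (nat_lit 5) (nat_lit 405) (nat_lit 403) (nat_lit 80))) (XT.nd (nat_lit 94) (nat_lit 0) (nat_lit 0) (XT.lf (nat_lit 84) (nat_lit 45974898009) (nat_lit 0) (nat_lit 53777352543) (nat_lit 1008) (nat_lit 14885179215) (nat_lit 82) (nat_lit 5) (nat_lit 81) (nat_lit 5) (nat_lit 93) (nat_lit 5) (nat_lit 406) (nat_lit 403) (nat_lit 79)) (XT.lf (nat_lit 84) (nat_lit 84628022013) (nat_lit 0) (nat_lit 17493219585) (nat_lit 1008) (nat_lit 14351038794) (nat_lit 82) (nat_lit 5) (nat_lit 81) (nat_lit 5) (nat_lit 93) (nat_lit 5) (nat_lit 407) (nat_lit 403) (nat_lit 78))))))) (XT.nd (nat_lit 1222) (nat_lit 504) (nat_lit 0) (XT.nd (nat_lit 564) (nat_lit 840) (nat_lit 0) (XT.nd (nat_lit 282) (nat_lit 0) (nat_lit 84) (XT.nd (nat_lit 94) (nat_lit 0) (nat_lit 0) (XT.lf (nat_lit 84) (nat_lit 6039403178) (nat_lit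 0) (nat_lit 98781592131) (nat_lit 1008) (nat_lit 13535040164) (nat_lit 83) (nat_lit 5) (nat_lit 82) (nat_lit 5) (nat_lit 94) (nat_lit 5) (nat_lit 408) (nat_lit 403) (nat_lit 77)) (XT.nd (nat_lit 94) (nat_lit 0) (nat_lit 0) (XT.lf (nat_lit 84) (nat_lit 45589855003) (nat_lit 0) (nat_lit 62523927885) (nat_lit 1008) (nat_lit 12168615582) (nat_lit 83) (nat_lit 5) (nat_lit 82) (nat_lit 5) (nat_lit 94) (nat_lit 5) (nat_lit 409) (nat_lit 403) (nat_lit 76)) (XT.lf (nat_lit 84) (nat_lit 86366282132) (nat_lit 0) (nat_lit 25142218891) (nat_lit 1008) (nat_lit 10759983281) (nat_lit 83) (nat_lit 5) (nat_lit 82) (nat_lit 5) (nat_lit 94) (nat_lit 5) (nat_lit 410) (nat_lit 403) (nat_lit 75)))) (XT.nd (nat_lit 94) (nat_lit 0) (nat_lit 0) (XT.lf (nat_lit 84) (nat_lit 4039011764) (nat_lit 0) (nat_lit 111142283253) (nat_lit 1008) (nat_lit 9129486784) (nat_lit 84) (nat_lit 5) (nat_lit 83) (nat_lit 5) (nat_lit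 95) (nat_lit 5) (nat_lit 411) (nat_lit 403) (nat_lit 74)) (XT.nd (nat_lit 94) (nat_lit 0) (nat_lit 0) (XT.lf (nat_lit 84) (nat_lit 45716986885) (nat_lit 0) (nat_lit 73880108894) (nat_lit 1008) (nat_lit 6799792087) (nat_lit 84) (nat_lit 5) (nat_lit 83) (nat_lit 5) (nat_lit 95) (nat_lit 5) (nat_lit 412) (nat_lit 403) (nat_lit 73)) (XT.lf (nat_lit 84) (nat_lit 88686890903) (nat_lit 0) (nat_lit 35462762008) (nat_lit 1008) (nat_lit 4398015413) (nat_lit 84) (nat_lit 5) (nat_lit 83) (nat_lit 5) (nat_lit 95) (nat_lit 5) (nat_lit 413) (nat_lit 403) (nat_lit 72))))) (XT.nd (nat_lit 282) (nat_lit 0) (nat_lit 0) (XT.nd (nat_lit 94) (nat_lit 1008) (nat_lit 0) (XT.lf (nat_lit 84) (nat_lit 2227400974) (nat_lit 0) (nat_lit 126679029525) (nat_lit 1008) (nat_lit 1856737591) (nat_lit 85) (nat_lit 5) (nat_lit 84) (nat_lit 5) (nat_lit 96) (nat_lit 5) (nat_lit 414) (nat_lit 403) (nat_lit 71)) (XT.nd (nat_lit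 94) (nat_lit 0) (nat_lit 0) (XT.lf (nat_lit 0) (nat_lit 1530833208) (nat_lit 1008) (nat_lit 86943731792) (nat_lit 1092) (nat_lit 44548279826) (nat_lit 72) (nat_lit 5) (nat_lit 84) (nat_lit 5) (nat_lit 85) (nat_lit 5) (nat_lit 415) (nat_lit 403) (nat_lit 70)) (XT.lf (nat_lit 0) (nat_lit 4984725546) (nat_lit 1008) (nat_lit 44081424273) (nat_lit 1092) (nat_lit 86285837740) (nat_lit 72) (nat_lit 5) (nat_lit 84) (nat_lit 5) (nat_lit 85) (nat_lit 5) (nat_lit 416) (nat_lit 403) (nat_lit 69)))) (XT.nd (nat_lit 188) (nat_lit 0) (nat_lit 84) (XT.nd (nat_lit 94) (nat_lit 0) (nat_lit 84) (XT.lf (nat_lit 84) (nat_lit 111778757) (nat_lit 0) (nat_lit 8434898038) (nat_lit 1092) (nat_lit 129206627119) (nat_lit 73) (nat_lit 5) (nat_lit 72) (nat_lit 5) (nat_lit 85) (nat_lit 5) (nat_lit 417) (nat_lit 403) (nat_lit 68)) (XT.lf (nat_lit 0) (nat_lit 13015643486) (nat_lit 1008) (nat_lit 93942008075) (nat_lit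 1092) (nat_lit 33246715880) (nat_lit 73) (nat_lit 5) (nat_lit 85) (nat_lit 5) (nat_lit 86) (nat_lit 5) (nat_lit 418) (nat_lit 403) (nat_lit 67))) (XT.nd (nat_lit 94) (nat_lit 0) (nat_lit 0) (XT.lf (nat_lit 0) (nat_lit 17709303298) (nat_lit 1008) (nat_lit 48974164346) (nat_lit 1092) (nat_lit 76045276265) (nat_lit 73) (nat_lit 5) (nat_lit 85) (nat_lit 5) (nat_lit 86) (nat_lit 5) (nat_lit 419) (nat_lit 403) (nat_lit 66)) (XT.lf (nat_lit 0) (nat_lit 22548355982) (nat_lit 1008) (nat_lit 2612403998) (nat_lit 1092) (nat_lit 120170620254) (nat_lit 73) (nat_lit 5) (nat_lit 85) (nat_lit 5) (nat_lit 86) (nat_lit 5) (nat_lit 420) (nat_lit 403) (nat_lit 65)))))) (XT.nd (nat_lit 54238) (nat_lit 0) (nat_lit 1260) (XT.nd (nat_lit 282) (nat_lit 672) (nat_lit 0) (XT.nd (nat_lit 94) (nat_lit 0) (nat_lit 0) (XT.lf (nat_lit 0) (nat_lit 28174545509) (nat_lit 1008) (nat_lit 102064667734) (nat_lit 84) (nat_lit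 17755734867) (nat_lit 74) (nat_lit 5) (nat_lit 86) (nat_lit 5) (nat_lit 75) (nat_lit 5) (nat_lit 421) (nat_lit 403) (nat_lit 64)) (XT.nd (nat_lit 94) (nat_lit 0) (nat_lit 0) (XT.lf (nat_lit 0) (nat_lit 34259924687) (nat_lit 1008) (nat_lit 54964773259) (nat_lit 84) (nat_lit 61507561246) (nat_lit 74) (nat_lit 5) (nat_lit 86) (nat_lit 5) (nat_lit 75) (nat_lit 5) (nat_lit 422) (nat_lit 403) (nat_lit 63)) (XT.lf (nat_lit 0) (nat_lit 40533849126) (nat_lit 1008) (nat_lit 6404866698) (nat_lit 84) (nat_lit 106615714935) (nat_lit 74) (nat_lit 5) (nat_lit 86) (nat_lit 5) (nat_lit 75) (nat_lit 5) (nat_lit 423) (nat_lit 403) (nat_lit 62)))) (XT.nd (nat_lit 94) (nat_lit 0) (nat_lit 0) (XT.lf (nat_lit 0) (nat_lit 44558060488) (nat_lit 672) (nat_lit 2886127767) (nat_lit 756) (nat_lit 109006202445) (nat_lit 66) (nat_lit 5) (nat_lit 74) (nat_lit 5) (nat_lit 75) (nat_lit 5) (nat_lit 424) (nat_lit 403)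 (nat_lit 61)) (XT.nd (nat_lit 53768) (nat_lit 0) (nat_lit 1260) (XT.lf (nat_lit 0) (nat_lit 55058112791) (nat_lit 756) (nat_lit 62620127121) (nat_lit 84) (nat_lit 41742715828) (nat_lit 66) (nat_lit 5) (nat_lit 75) (nat_lit 5) (nat_lit 67) (nat_lit 5) (nat_lit 425) (nat_lit 403) (nat_lit 60)) (XT.lf (nat_lit 0) (nat_lit 24270975388) (nat_lit 0) (nat_lit 24270975388) (nat_lit 924) (nat_lit 7865678451) (nat_lit 81) (nat_lit 5) (nat_lit 81) (nat_lit 3) (nat_lit 92) (nat_lit 3) (nat_lit 404) (nat_lit 404) (nat_lit 80))))) (XT.nd (nat_lit 282) (nat_lit 0) (nat_lit 0) (XT.nd (nat_lit 94) (nat_lit 0) (nat_lit 0) (XT.lf (nat_lit 0) (nat_lit 86280955512) (nat_lit 0) (nat_lit 12311704882) (nat_lit 924) (nat_lit 15971082973) (nat_lit 81) (nat_lit 5) (nat_lit 81) (nat_lit 3) (nat_lit 92) (nat_lit 3) (nat_lit 405) (nat_lit 404) (nat_lit 79)) (XT.nd (nat_lit 94) (nat_lit 0) (nat_lit 0) (XT.lf (nat_lit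 84) (nat_lit 8751253127) (nat_lit 0) (nat_lit 91732008983) (nat_lit 1008) (nat_lit 15872783150) (nat_lit 82) (nat_lit 5) (nat_lit 81) (nat_lit 5) (nat_lit 93) (nat_lit 5) (nat_lit 406) (nat_lit 404) (nat_lit 78)) (XT.lf (nat_lit 84) (nat_lit 47404334898) (nat_lit 0) (nat_lit 55447842043) (nat_lit 1008) (nat_lit 15338721862) (nat_lit 82) (nat_lit 5) (nat_lit 81) (nat_lit 5) (nat_lit 93) (nat_lit 5) (nat_lit 407) (nat_lit 404) (nat_lit 77)))) (XT.nd (nat_lit 188) (nat_lit 0) (nat_lit 84) (XT.nd (nat_lit 94) (nat_lit 0) (nat_lit 84) (XT.lf (nat_lit 84) (nat_lit 87255579008) (nat_lit 0) (nat_lit 18038798986) (nat_lit 1008) (nat_lit 14788260562) (nat_lit 82) (nat_lit 5) (nat_lit 81) (nat_lit 5) (nat_lit 93) (nat_lit 5) (nat_lit 408) (nat_lit 404) (nat_lit 76)) (XT.lf (nat_lit 84) (nat_lit 6230983569) (nat_lit 0) (nat_lit 101846630252) (nat_lit 1008) (nat_lit 13947184359) (nat_lit 83)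 (nat_lit 5) (nat_lit 82) (nat_lit 5) (nat_lit 94) (nat_lit 5) (nat_lit 409) (nat_lit 404) (nat_lit 75))) (XT.nd (nat_lit 94) (nat_lit 0) (nat_lit 0) (XT.lf (nat_lit 84) (nat_lit 47007368338) (nat_lit 0) (nat_lit 64464893962) (nat_lit 1008) (nat_lit 12538624382) (nat_lit 83) (nat_lit 5) (nat_lit 82) (nat_lit 5) (nat_lit 94) (nat_lit 5) (nat_lit 410) (nat_lit 404) (nat_lit 74)) (XT.lf (nat_lit 84) (nat_lit 89047737586) (nat_lit 0) (nat_lit 25924270074) (nat_lit 1008) (nat_lit 11086541518) (nat_lit 83) (nat_lit 5) (nat_lit 82) (nat_lit 5) (nat_lit 94) (nat_lit 5) (nat_lit 411) (nat_lit 404) (nat_lit 73))))))))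
noncomputable def xc250 : XT := (XT.nd (nat_lit 56118) (nat_lit 0) (nat_lit 504) (XT.nd (nat_lit 1128) (nat_lit 504) (nat_lit 0) (XT.nd (nat_lit 564) (nat_lit 0) (nat_lit 0) (XT.nd (nat_lit 282) (nat_lit 924) (nat_lit 0) (XT.nd (nat_lit 94) (nat_lit 0) (nat_lit 0) (XT.lf (nat_lit 84) (nat_lit 4168561794) (nat_lit 0) (nat_lit 114589911358) (nat_lit 1008) (nat_lit 9405691961) (nat_lit 84) (nat_lit 5) (nat_lit 83) (nat_lit 5) (nat_lit 95) (nat_lit 5) (nat_lit 412) (nat_lit 404) (nat_lit 72)) (XT.nd (nat_lit 94) (nat_lit 0) (nat_lit 0) (XT.lf (nat_lit 84) (nat_lit 47138423629) (nat_lit 0) (nat_lit 76172542924) (nat_lit 1008) (nat_lit 7003981458) (nat_lit 84) (nat_lit 5) (nat_lit 83) (nat_lit 5) (nat_lit 95) (nat_lit 5) (nat_lit 413) (nat_lit 404) (nat_lit 71)) (XT.lf (nat_lit 84) (nat_lit 91440268081) (nat_lit 0) (nat_lit 36564193618) (nat_lit 1008) (nat_lit 4527948281) (nat_lit 84)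 (nat_lit 5) (nat_lit 83) (nat_lit 5) (nat_lit 95) (nat_lit 5) (nat_lit 414) (nat_lit 404) (nat_lit 70)))) (XT.nd (nat_lit 94) (nat_lit 1008) (nat_lit 0) (XT.lf (nat_lit 84) (nat_lit 2300746777) (nat_lit 0) (nat_lit 130607789660) (nat_lit 1008) (nat_lit 1908060201) (nat_lit 85) (nat_lit 5) (nat_lit 84) (nat_lit 5) (nat_lit 96) (nat_lit 5) (nat_lit 415) (nat_lit 404) (nat_lit 69)) (XT.nd (nat_lit 94) (nat_lit 0) (nat_lit 0) (XT.lf (nat_lit 0) (nat_lit 1584215912) (nat_lit 1008) (nat_lit 89634657534) (nat_lit 1092) (nat_lit 45927454951) (nat_lit 72) (nat_lit 5) (nat_lit 84) (nat_lit 5) (nat_lit 85) (nat_lit 5) (nat_lit 416) (nat_lit 404) (nat_lit 68)) (XT.lf (nat_lit 0) (nat_lit 5145000704) (nat_lit 1008) (nat_lit 45443748675) (nat_lit 1092) (nat_lit 88958931931) (nat_lit 72) (nat_lit 5) (nat_lit 84) (nat_lit 5) (nat_lit 85) (nat_lit 5) (nat_lit 417) (nat_lit 404) (nat_lit 67))))) (XT.nd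 (nat_lit 282) (nat_lit 0) (nat_lit 84) (XT.nd (nat_lit 94) (nat_lit 0) (nat_lit 84) (XT.lf (nat_lit 84) (nat_lit 119401131) (nat_lit 0) (nat_lit 8697839702) (nat_lit 1092) (nat_lit 133206202912) (nat_lit 73) (nat_lit 5) (nat_lit 72) (nat_lit 5) (nat_lit 85) (nat_lit 5) (nat_lit 418) (nat_lit 404) (nat_lit 66)) (XT.nd (nat_lit 94) (nat_lit 0) (nat_lit 0) (XT.lf (nat_lit 0) (nat_lit 13424562551) (nat_lit 1008) (nat_lit 96849957847) (nat_lit 1092) (nat_lit 34275976669) (nat_lit 73) (nat_lit 5) (nat_lit 85) (nat_lit 5) (nat_lit 86) (nat_lit 5) (nat_lit 419) (nat_lit 404) (nat_lit 65)) (XT.lf (nat_lit 0) (nat_lit 18263562425) (nat_lit 1008) (nat_lit 50488238825) (nat_lit 1092) (nat_lit 78401334142) (nat_lit 73) (nat_lit 5) (nat_lit 85) (nat_lit 5) (nat_lit 86) (nat_lit 5) (nat_lit 420) (nat_lit 404) (nat_lit 64)))) (XT.nd (nat_lit 94) (nat_lit 0) (nat_lit 84) (XT.lf (nat_lit 0) (nat_lit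 23252467263) (nat_lit 1008) (nat_lit 2689387925) (nat_lit 1092) (nat_lit 123894604258) (nat_lit 73) (nat_lit 5) (nat_lit 85) (nat_lit 5) (nat_lit 86) (nat_lit 5) (nat_lit 421) (nat_lit 404) (nat_lit 63)) (XT.nd (nat_lit 94) (nat_lit 0) (nat_lit 0) (XT.lf (nat_lit 0) (nat_lit 29052943941) (nat_lit 1008) (nat_lit 105224513071) (nat_lit 84) (nat_lit 18305145835) (nat_lit 74) (nat_lit 5) (nat_lit 86) (nat_lit 5) (nat_lit 75) (nat_lit 5) (nat_lit 422) (nat_lit 404) (nat_lit 62)) (XT.lf (nat_lit 0) (nat_lit 35326819910) (nat_lit 1008) (nat_lit 56664646931) (nat_lit 84) (nat_lit 63413309405) (nat_lit 74) (nat_lit 5) (nat_lit 86) (nat_lit 5) (nat_lit 75) (nat_lit 5) (nat_lit 423) (nat_lit 404) (nat_lit 61)))))) (XT.nd (nat_lit 54332) (nat_lit 0) (nat_lit 1260) (XT.nd (nat_lit 54050) (nat_lit 0) (nat_lit 1260) (XT.nd (nat_lit 94) (nat_lit 672) (nat_lit 0) (XT.lf (nat_lit 0) (nat_lit 41795090550)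 (nat_lit 1008) (nat_lit 6599504570) (nat_lit 84) (nat_lit 109919845512) (nat_lit 74) (nat_lit 5) (nat_lit 86) (nat_lit 5) (nat_lit 75) (nat_lit 5) (nat_lit 424) (nat_lit 404) (nat_lit 60)) (XT.nd (nat_lit 53862) (nat_lit 0) (nat_lit 1260) (XT.lf (nat_lit 0) (nat_lit 45943233744) (nat_lit 672) (nat_lit 2976313792) (nat_lit 756) (nat_lit 112380631942) (nat_lit 66) (nat_lit 5) (nat_lit 74) (nat_lit 5) (nat_lit 75) (nat_lit 5) (nat_lit 425) (nat_lit 404) (nat_lit 59)) (XT.lf (nat_lit 0) (nat_lit 25025335174) (nat_lit 0) (nat_lit 25025335174) (nat_lit 924) (nat_lit 8105445293) (nat_lit 81) (nat_lit 5) (nat_lit 81) (nat_lit 3) (nat_lit 92) (nat_lit 3) (nat_lit 405) (nat_lit 405) (nat_lit 78)))) (XT.nd (nat_lit 94) (nat_lit 0) (nat_lit 0) (XT.lf (nat_lit 0) (nat_lit 88959466391) (nat_lit 0) (nat_lit 12697168992) (nat_lit 924) (nat_lit 16458292869) (nat_lit 81) (nat_lit 5) (nat_lit 81) (nat_lit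 3) (nat_lit 92) (nat_lit 3) (nat_lit 406) (nat_lit 405) (nat_lit 77)) (XT.nd (nat_lit 94) (nat_lit 0) (nat_lit 0) (XT.lf (nat_lit 84) (nat_lit 9026630287) (nat_lit 0) (nat_lit 94578990856) (nat_lit 1008) (nat_lit 16357178993) (nat_lit 82) (nat_lit 5) (nat_lit 81) (nat_lit 5) (nat_lit 93) (nat_lit 5) (nat_lit 407) (nat_lit 405) (nat_lit 76)) (XT.lf (nat_lit 84) (nat_lit 48877834666) (nat_lit 0) (nat_lit 57169915830) (nat_lit 1008) (nat_lit 15806792138) (nat_lit 82) (nat_lit 5) (nat_lit 81) (nat_lit 5) (nat_lit 93) (nat_lit 5) (nat_lit 408) (nat_lit 405) (nat_lit 75))))) (XT.nd (nat_lit 282) (nat_lit 0) (nat_lit 84) (XT.nd (nat_lit 94) (nat_lit 0) (nat_lit 84) (XT.lf (nat_lit 84) (nat_lit 89964348112) (nat_lit 0) (nat_lit 18601096501) (nat_lit 1008) (nat_lit 15239489945) (nat_lit 82) (nat_lit 5) (nat_lit 81) (nat_lit 5) (nat_lit 93) (nat_lit 5) (nat_lit 409) (nat_lit 405) (nat_lit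 74)) (XT.nd (nat_lit 94) (nat_lit 0) (nat_lit 0) (XT.lf (nat_lit 84) (nat_lit 6428244768) (nat_lit 0) (nat_lit 105006518187) (nat_lit 1008) (nat_lit 14372545830) (nat_lit 83) (nat_lit 5) (nat_lit 82) (nat_lit 5) (nat_lit 94) (nat_lit 5) (nat_lit 410) (nat_lit 405) (nat_lit 73)) (XT.lf (nat_lit 84) (nat_lit 48468574164) (nat_lit 0) (nat_lit 66465868620) (nat_lit 1008) (nat_lit 12920531006) (nat_lit 83) (nat_lit 5) (nat_lit 82) (nat_lit 5) (nat_lit 94) (nat_lit 5) (nat_lit 411) (nat_lit 405) (nat_lit 72)))) (XT.nd (nat_lit 188) (nat_lit 0) (nat_lit 84) (XT.nd (nat_lit 94) (nat_lit 0) (nat_lit 84) (XT.lf (nat_lit 84) (nat_lit 91812075267) (nat_lit 0) (nat_lit 26730408330) (nat_lit 1008) (nat_lit 11423637757) (nat_lit 83) (nat_lit 5) (nat_lit 82) (nat_lit 5) (nat_lit 94) (nat_lit 5) (nat_lit 412) (nat_lit 405) (nat_lit 71)) (XT.lf (nat_lit 84) (nat_lit 4301870770) (nat_lit 0) (nat_lit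 118144284599) (nat_lit 1008) (nat_lit 9690862802) (nat_lit 84) (nat_lit 5) (nat_lit 83) (nat_lit 5) (nat_lit 95) (nat_lit 5) (nat_lit 413) (nat_lit 405) (nat_lit 70))) (XT.nd (nat_lit 94) (nat_lit 0) (nat_lit 0) (XT.lf (nat_lit 84) (nat_lit 48603675537) (nat_lit 0) (nat_lit 78535915021) (nat_lit 1008) (nat_lit 7214891876) (nat_lit 84) (nat_lit 5) (nat_lit 83) (nat_lit 5) (nat_lit 95) (nat_lit 5) (nat_lit 414) (nat_lit 405) (nat_lit 69)) (XT.lf (nat_lit 84) (nat_lit 94278758076) (nat_lit 0) (nat_lit 37699646052) (nat_lit 1008) (nat_lit 4662288483) (nat_lit 84) (nat_lit 5) (nat_lit 83) (nat_lit 5) (nat_lit 95) (nat_lit 5) (nat_lit 415) (nat_lit 405) (nat_lit 68))))))) (XT.nd (nat_lit 55178) (nat_lit 0) (nat_lit 0) (XT.nd (nat_lit 564) (nat_lit 0) (nat_lit 84) (XT.nd (nat_lit 282) (nat_lit 0) (nat_lit 0) (XT.nd (nat_lit 94) (nat_lit 1008) (nat_lit 0) (XT.lf (nat_lit 84) (nat_lit 2376111819)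 (nat_lit 0) (nat_lit 134658240059) (nat_lit 1008) (nat_lit 1961343196) (nat_lit 85) (nat_lit 5) (nat_lit 84) (nat_lit 5) (nat_lit 96) (nat_lit 5) (nat_lit 416) (nat_lit 405) (nat_lit 67)) (XT.nd (nat_lit 94) (nat_lit 0) (nat_lit 0) (XT.lf (nat_lit 0) (nat_lit 1638902422) (nat_lit 1008) (nat_lit 92409258444) (nat_lit 1092) (nat_lit 47349492398) (nat_lit 72) (nat_lit 5) (nat_lit 84) (nat_lit 5) (nat_lit 85) (nat_lit 5) (nat_lit 417) (nat_lit 405) (nat_lit 66)) (XT.lf (nat_lit 0) (nat_lit 5309903889) (nat_lit 1008) (nat_lit 46848553891) (nat_lit 1092) (nat_lit 91714996691) (nat_lit 72) (nat_lit 5) (nat_lit 84) (nat_lit 5) (nat_lit 85) (nat_lit 5) (nat_lit 418) (nat_lit 405) (nat_lit 65)))) (XT.nd (nat_lit 94) (nat_lit 0) (nat_lit 84) (XT.lf (nat_lit 84) (nat_lit 127013558) (nat_lit 0) (nat_lit 8968846089) (nat_lit 1092) (nat_lit 137330110854) (nat_lit 73) (nat_lit 5) (nat_lit 72) (nat_lit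 5) (nat_lit 85) (nat_lit 5) (nat_lit 419) (nat_lit 405) (nat_lit 64)) (XT.nd (nat_lit 94) (nat_lit 0) (nat_lit 0) (XT.lf (nat_lit 0) (nat_lit 13845836236) (nat_lit 1008) (nat_lit 99848305943) (nat_lit 1092) (nat_lit 35337226722) (nat_lit 73) (nat_lit 5) (nat_lit 85) (nat_lit 5) (nat_lit 86) (nat_lit 5) (nat_lit 420) (nat_lit 405) (nat_lit 63)) (XT.lf (nat_lit 0) (nat_lit 18834691391) (nat_lit 1008) (nat_lit 52049493922) (nat_lit 1092) (nat_lit 80830509522) (nat_lit 73) (nat_lit 5) (nat_lit 85) (nat_lit 5) (nat_lit 86) (nat_lit 5) (nat_lit 421) (nat_lit 405) (nat_lit 62))))) (XT.nd (nat_lit 54238) (nat_lit 0) (nat_lit 672) (XT.nd (nat_lit 94) (nat_lit 0) (nat_lit 84) (XT.lf (nat_lit 0) (nat_lit 23978103186) (nat_lit 1008) (nat_lit 2768995316) (nat_lit 1092) (nat_lit 127734109076) (nat_lit 73) (nat_lit 5) (nat_lit 85) (nat_lit 5) (nat_lit 86) (nat_lit 5) (nat_lit 422) (nat_lit 405)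 (nat_lit 61)) (XT.nd (nat_lit 94) (nat_lit 0) (nat_lit 0) (XT.lf (nat_lit 0) (nat_lit 29958277305) (nat_lit 1008) (nat_lit 108482559980) (nat_lit 84) (nat_lit 18871648770) (nat_lit 74) (nat_lit 5) (nat_lit 86) (nat_lit 5) (nat_lit 75) (nat_lit 5) (nat_lit 423) (nat_lit 405) (nat_lit 60)) (XT.lf (nat_lit 0) (nat_lit 36426502347) (nat_lit 1008) (nat_lit 58417455646) (nat_lit 84) (nat_lit 65378194173) (nat_lit 74) (nat_lit 5) (nat_lit 86) (nat_lit 5) (nat_lit 75) (nat_lit 5) (nat_lit 424) (nat_lit 405) (nat_lit 59)))) (XT.nd (nat_lit 188) (nat_lit 0) (nat_lit 0) (XT.nd (nat_lit 94) (nat_lit 0) (nat_lit 0) (XT.lf (nat_lit 0) (nat_lit 25802964046) (nat_lit 0) (nat_lit 25802964046) (nat_lit 924) (nat_lit 8352885932) (nat_lit 81) (nat_lit 5) (nat_lit 81) (nat_lit 3) (nat_lit 92) (nat_lit 3) (nat_lit 406) (nat_lit 406) (nat_lit 76)) (XT.lf (nat_lit 0) (nat_lit 91720785953) (nat_lit 0) (nat_lit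 13094357334) (nat_lit 924) (nat_lit 16961073828) (nat_lit 81) (nat_lit 5) (nat_lit 81) (nat_lit 3) (nat_lit 92) (nat_lit 3) (nat_lit 407) (nat_lit 406) (nat_lit 75))) (XT.nd (nat_lit 94) (nat_lit 0) (nat_lit 0) (XT.lf (nat_lit 84) (nat_lit 9310301980) (nat_lit 0) (nat_lit 97514034318) (nat_lit 1008) (nat_lit 16857044848) (nat_lit 82) (nat_lit 5) (nat_lit 81) (nat_lit 5) (nat_lit 93) (nat_lit 5) (nat_lit 408) (nat_lit 406) (nat_lit 74)) (XT.lf (nat_lit 84) (nat_lit 50396778049) (nat_lit 0) (nat_lit 58945184914) (nat_lit 1008) (nat_lit 16289812691) (nat_lit 82) (nat_lit 5) (nat_lit 81) (nat_lit 5) (nat_lit 93) (nat_lit 5) (nat_lit 409) (nat_lit 406) (nat_lit 73)))))) (XT.nd (nat_lit 564) (nat_lit 756) (nat_lit 0) (XT.nd (nat_lit 282) (nat_lit 0) (nat_lit 84) (XT.nd (nat_lit 94) (nat_lit 0) (nat_lit 84) (XT.lf (nat_lit 84) (nat_lit 92756861244) (nat_lit 0) (nat_lit 19180641931) (nat_lit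 1008) (nat_lit 15705134304) (nat_lit 82) (nat_lit 5) (nat_lit 81) (nat_lit 5) (nat_lit 93) (nat_lit 5) (nat_lit 410) (nat_lit 406) (nat_lit 72)) (XT.nd (nat_lit 94) (nat_lit 0) (nat_lit 0) (XT.lf (nat_lit 84) (nat_lit 6631378171) (nat_lit 0) (nat_lit 108264206135) (nat_lit 1008) (nat_lit 14811508203) (nat_lit 83) (nat_lit 5) (nat_lit 82) (nat_lit 5) (nat_lit 94) (nat_lit 5) (nat_lit 411) (nat_lit 406) (nat_lit 71)) (XT.lf (nat_lit 84) (nat_lit 49974841783) (nat_lit 0) (nat_lit 68528721686) (nat_lit 1008) (nat_lit 13314678963) (nat_lit 83) (nat_lit 5) (nat_lit 82) (nat_lit 5) (nat_lit 94) (nat_lit 5) (nat_lit 412) (nat_lit 406) (nat_lit 70)))) (XT.nd (nat_lit 94) (nat_lit 0) (nat_lit 84) (XT.lf (nat_lit 84) (nat_lit 94661878911) (nat_lit 0) (nat_lit 27561389628) (nat_lit 1008) (nat_lit 11771574111) (nat_lit 83) (nat_lit 5) (nat_lit 82) (nat_lit 5) (nat_lit 94) (nat_lit 5) (nat_lit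 413) (nat_lit 406) (nat_lit 69)) (XT.nd (nat_lit 94) (nat_lit 0) (nat_lit 0) (XT.lf (nat_lit 84) (nat_lit 4439070447) (nat_lit 0) (nat_lit 121808719853) (nat_lit 1008) (nat_lit 9985253354) (nat_lit 84) (nat_lit 5) (nat_lit 83) (nat_lit 5) (nat_lit 95) (nat_lit 5) (nat_lit 414) (nat_lit 406) (nat_lit 68)) (XT.lf (nat_lit 84) (nat_lit 50114115651) (nat_lit 0) (nat_lit 80972431812) (nat_lit 1008) (nat_lit 7432708525) (nat_lit 84) (nat_lit 5) (nat_lit 83) (nat_lit 5) (nat_lit 95) (nat_lit 5) (nat_lit 415) (nat_lit 406) (nat_lit 67))))) (XT.nd (nat_lit 282) (nat_lit 0) (nat_lit 0) (XT.nd (nat_lit 94) (nat_lit 924) (nat_lit 0) (XT.lf (nat_lit 84) (nat_lit 97205013710) (nat_lit 0) (nat_lit 38870181273) (nat_lit 1008) (nat_lit 4801150174) (nat_lit 84) (nat_lit 5) (nat_lit 83) (nat_lit 5) (nat_lit 95) (nat_lit 5) (nat_lit 416) (nat_lit 406) (nat_lit 66)) (XT.nd (nat_lit 94) (nat_lit 1008)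 (nat_lit 0) (XT.lf (nat_lit 84) (nat_lit 2453573769) (nat_lit 0) (nat_lit 138834159122) (nat_lit 1008) (nat_lit 2016625469) (nat_lit 85) (nat_lit 5) (nat_lit 84) (nat_lit 5) (nat_lit 96) (nat_lit 5) (nat_lit 417) (nat_lit 406) (nat_lit 65)) (XT.lf (nat_lit 0) (nat_lit 1694953948) (nat_lit 1008) (nat_lit 95270113261) (nat_lit 1092) (nat_lit 48815714509) (nat_lit 72) (nat_lit 5) (nat_lit 84) (nat_lit 5) (nat_lit 85) (nat_lit 5) (nat_lit 418) (nat_lit 406) (nat_lit 64)))) (XT.nd (nat_lit 188) (nat_lit 0) (nat_lit 84) (XT.nd (nat_lit 94) (nat_lit 0) (nat_lit 0) (XT.lf (nat_lit 0) (nat_lit 5479598739) (nat_lit 1008) (nat_lit 48297142093) (nat_lit 1092) (nat_lit 94556597909) (nat_lit 72) (nat_lit 5) (nat_lit 84) (nat_lit 5) (nat_lit 85) (nat_lit 5) (nat_lit 419) (nat_lit 406) (nat_lit 63)) (XT.lf (nat_lit 84) (nat_lit 134630316) (nat_lit 0) (nat_lit 9248172328) (nat_lit 1092) (nat_lit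 141582184790) (nat_lit 73) (nat_lit 5) (nat_lit 72) (nat_lit 5) (nat_lit 85) (nat_lit 5) (nat_lit 420) (nat_lit 406) (nat_lit 62))) (XT.nd (nat_lit 94) (nat_lit 0) (nat_lit 0) (XT.lf (nat_lit 0) (nat_lit 14279866597) (nat_lit 1008) (nat_lit 102939839793) (nat_lit 1092) (nat_lit 36431452836) (nat_lit 73) (nat_lit 5) (nat_lit 85) (nat_lit 5) (nat_lit 86) (nat_lit 5) (nat_lit 421) (nat_lit 406) (nat_lit 61)) (XT.lf (nat_lit 0) (nat_lit 19423231653) (nat_lit 1008) (nat_lit 53659377763) (nat_lit 1092) (nat_lit 83335064324) (nat_lit 73) (nat_lit 5) (nat_lit 85) (nat_lit 5) (nat_lit 86) (nat_lit 5) (nat_lit 422) (nat_lit 406) (nat_lit 60))))))))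
noncomputable def xc251 : XT := (XT.nd (nat_lit 110732) (nat_lit 0) (nat_lit 0) (XT.nd (nat_lit 55272) (nat_lit 84) (nat_lit 0) (XT.nd (nat_lit 54614) (nat_lit 0) (nat_lit 672) (XT.nd (nat_lit 54332) (nat_lit 0) (nat_lit 672) (XT.nd (nat_lit 94) (nat_lit 0) (nat_lit 84) (XT.lf (nat_lit 0) (nat_lit 24725948952) (nat_lit 1008) (nat_lit 2851293463) (nat_lit 1092) (nat_lit 131692711275) (nat_lit 73) (nat_lit 5) (nat_lit 85) (nat_lit 5) (nat_lit 86) (nat_lit 5) (nat_lit 423) (nat_lit 406) (nat_lit 59)) (XT.nd (nat_lit 54144) (nat_lit 0) (nat_lit 588) (XT.lf (nat_lit 0) (nat_lit 30891398082) (nat_lit 1008) (nat_lit 111841838117) (nat_lit 84) (nat_lit 19455769956) (nat_lit 74) (nat_lit 5) (nat_lit 86) (nat_lit 5) (nat_lit 75) (nat_lit 5) (nat_lit 424) (nat_lit 406) (nat_lit 58)) (XT.lf (nat_lit 0) (nat_lit 26604590220) (nat_lit 0) (nat_lit 26604590220) (nat_lit 924) (nat_lit 8608223980)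 (nat_lit 81) (nat_lit 5) (nat_lit 81) (nat_lit 3) (nat_lit 92) (nat_lit 3) (nat_lit 407) (nat_lit 407) (nat_lit 74)))) (XT.nd (nat_lit 94) (nat_lit 0) (nat_lit 0) (XT.lf (nat_lit 0) (nat_lit 94567494602) (nat_lit 0) (nat_lit 13503646696) (nat_lit 924) (nat_lit 17479880858) (nat_lit 81) (nat_lit 5) (nat_lit 81) (nat_lit 3) (nat_lit 92) (nat_lit 3) (nat_lit 408) (nat_lit 407) (nat_lit 73)) (XT.nd (nat_lit 94) (nat_lit 0) (nat_lit 0) (XT.lf (nat_lit 84) (nat_lit 9602539682) (nat_lit 0) (nat_lit 100539880821) (nat_lit 1008) (nat_lit 17372833409) (nat_lit 82) (nat_lit 5) (nat_lit 81) (nat_lit 5) (nat_lit 93) (nat_lit 5) (nat_lit 409) (nat_lit 407) (nat_lit 72)) (XT.lf (nat_lit 84) (nat_lit 51962587713) (nat_lit 0) (nat_lit 60775309544) (nat_lit 1008) (nat_lit 16788220910) (nat_lit 82) (nat_lit 5) (nat_lit 81) (nat_lit 5) (nat_lit 93) (nat_lit 5) (nat_lit 410) (nat_lit 407) (nat_lit 71)))))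 (XT.nd (nat_lit 282) (nat_lit 0) (nat_lit 84) (XT.nd (nat_lit 94) (nat_lit 0) (nat_lit 84) (XT.lf (nat_lit 84) (nat_lit 95635727963) (nat_lit 0) (nat_lit 19777980821) (nat_lit 1008) (nat_lit 16185615219) (nat_lit 82) (nat_lit 5) (nat_lit 81) (nat_lit 5) (nat_lit 93) (nat_lit 5) (nat_lit 411) (nat_lit 407) (nat_lit 70)) (XT.nd (nat_lit 94) (nat_lit 0) (nat_lit 0) (XT.lf (nat_lit 84) (nat_lit 6840580205) (nat_lit 0) (nat_lit 111622735165) (nat_lit 1008) (nat_lit 15264468541) (nat_lit 83) (nat_lit 5) (nat_lit 82) (nat_lit 5) (nat_lit 94) (nat_lit 5) (nat_lit 412) (nat_lit 407) (nat_lit 69)) (XT.lf (nat_lit 84) (nat_lit 51527582063) (nat_lit 0) (nat_lit 70655380380) (nat_lit 1008) (nat_lit 13721423908) (nat_lit 83) (nat_lit 5) (nat_lit 82) (nat_lit 5) (nat_lit 94) (nat_lit 5) (nat_lit 413) (nat_lit 407) (nat_lit 68)))) (XT.nd (nat_lit 188) (nat_lit 0) (nat_lit 84) (XT.nd (nat_lit 94)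 (nat_lit 0) (nat_lit 84) (XT.lf (nat_lit 84) (nat_lit 97599811498) (nat_lit 0) (nat_lit 28417992826) (nat_lit 1008) (nat_lit 12130663517) (nat_lit 83) (nat_lit 5) (nat_lit 82) (nat_lit 5) (nat_lit 94) (nat_lit 5) (nat_lit 414) (nat_lit 407) (nat_lit 67)) (XT.lf (nat_lit 84) (nat_lit 4580295766) (nat_lit 0) (nat_lit 125586636362) (nat_lit 1008) (nat_lit 10289126955) (nat_lit 84) (nat_lit 5) (nat_lit 83) (nat_lit 5) (nat_lit 95) (nat_lit 5) (nat_lit 415) (nat_lit 407) (nat_lit 66))) (XT.nd (nat_lit 94) (nat_lit 0) (nat_lit 0) (XT.lf (nat_lit 84) (nat_lit 51671158701) (nat_lit 0) (nat_lit 83484367880) (nat_lit 1008) (nat_lit 7657623699) (nat_lit 84) (nat_lit 5) (nat_lit 83) (nat_lit 5) (nat_lit 95) (nat_lit 5) (nat_lit 416) (nat_lit 407) (nat_lit 65)) (XT.lf (nat_lit 84) (nat_lit 100221769198) (nat_lit 0) (nat_lit 40076893732) (nat_lit 1008) (nat_lit 4944652376) (nat_lit 84) (nat_lit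 5) (nat_lit 83) (nat_lit 5) (nat_lit 95) (nat_lit 5) (nat_lit 417) (nat_lit 407) (nat_lit 64)))))) (XT.nd (nat_lit 54802) (nat_lit 0) (nat_lit 756) (XT.nd (nat_lit 282) (nat_lit 0) (nat_lit 0) (XT.nd (nat_lit 94) (nat_lit 1008) (nat_lit 0) (XT.lf (nat_lit 84) (nat_lit 2533211811) (nat_lit 0) (nat_lit 143139442022) (nat_lit 1008) (nat_lit 2073948414) (nat_lit 85) (nat_lit 5) (nat_lit 84) (nat_lit 5) (nat_lit 96) (nat_lit 5) (nat_lit 418) (nat_lit 407) (nat_lit 63)) (XT.nd (nat_lit 94) (nat_lit 0) (nat_lit 0) (XT.lf (nat_lit 0) (nat_lit 1752432369) (nat_lit 1008) (nat_lit 98219881566) (nat_lit 1092) (nat_lit 50327484996) (nat_lit 72) (nat_lit 5) (nat_lit 84) (nat_lit 5) (nat_lit 85) (nat_lit 5) (nat_lit 419) (nat_lit 407) (nat_lit 62)) (XT.lf (nat_lit 0) (nat_lit 5654252767) (nat_lit 1008) (nat_lit 49790856692) (nat_lit 1092) (nat_lit 97486381384) (nat_lit 72) (nat_lit 5) (nat_lit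 84) (nat_lit 5) (nat_lit 85) (nat_lit 5) (nat_lit 420) (nat_lit 407) (nat_lit 61)))) (XT.nd (nat_lit 94) (nat_lit 0) (nat_lit 84) (XT.lf (nat_lit 84) (nat_lit 142265260) (nat_lit 0) (nat_lit 9536081152) (nat_lit 1092) (nat_lit 145966378624) (nat_lit 73) (nat_lit 5) (nat_lit 72) (nat_lit 5) (nat_lit 85) (nat_lit 5) (nat_lit 421) (nat_lit 407) (nat_lit 60)) (XT.nd (nat_lit 94) (nat_lit 0) (nat_lit 0) (XT.lf (nat_lit 0) (nat_lit 14727067029) (nat_lit 1008) (nat_lit 106127434118) (nat_lit 1092) (nat_lit 37559672692) (nat_lit 73) (nat_lit 5) (nat_lit 85) (nat_lit 5) (nat_lit 86) (nat_lit 5) (nat_lit 422) (nat_lit 407) (nat_lit 59)) (XT.lf (nat_lit 0) (nat_lit 20029740357) (nat_lit 1008) (nat_lit 55319384227) (nat_lit 1092) (nat_lit 85917330869) (nat_lit 73) (nat_lit 5) (nat_lit 85) (nat_lit 5) (nat_lit 86) (nat_lit 5) (nat_lit 423) (nat_lit 407) (nat_lit 58))))) (XT.nd (nat_lit 282) (nat_lit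 0) (nat_lit 0) (XT.nd (nat_lit 94) (nat_lit 0) (nat_lit 0) (XT.lf (nat_lit 0) (nat_lit 27430964081) (nat_lit 0) (nat_lit 27430964081) (nat_lit 924) (nat_lit 8871690825) (nat_lit 81) (nat_lit 5) (nat_lit 81) (nat_lit 3) (nat_lit 92) (nat_lit 3) (nat_lit 408) (nat_lit 408) (nat_lit 72)) (XT.nd (nat_lit 94) (nat_lit 0) (nat_lit 0) (XT.lf (nat_lit 0) (nat_lit 97502251947) (nat_lit 0) (nat_lit 13925424756) (nat_lit 924) (nat_lit 18015184714) (nat_lit 81) (nat_lit 5) (nat_lit 81) (nat_lit 3) (nat_lit 92) (nat_lit 3) (nat_lit 409) (nat_lit 408) (nat_lit 71)) (XT.lf (nat_lit 84) (nat_lit 9903622433) (nat_lit 0) (nat_lit 103659356116) (nat_lit 1008) (nat_lit 17905012996) (nat_lit 82) (nat_lit 5) (nat_lit 81) (nat_lit 5) (nat_lit 93) (nat_lit 5) (nat_lit 410) (nat_lit 408) (nat_lit 70)))) (XT.nd (nat_lit 188) (nat_lit 0) (nat_lit 84) (XT.nd (nat_lit 94) (nat_lit 0) (nat_lit 0) (XT.lf (nat_lit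 84) (nat_lit 53576729601) (nat_lit 0) (nat_lit 62662000774) (nat_lit 1008) (nat_lit 17302469291) (nat_lit 82) (nat_lit 5) (nat_lit 81) (nat_lit 5) (nat_lit 93) (nat_lit 5) (nat_lit 411) (nat_lit 408) (nat_lit 69)) (XT.lf (nat_lit 84) (nat_lit 98603637924) (nat_lit 0) (nat_lit 20393674981) (nat_lit 1008) (nat_lit 16681368837) (nat_lit 82) (nat_lit 5) (nat_lit 81) (nat_lit 5) (nat_lit 93) (nat_lit 5) (nat_lit 412) (nat_lit 408) (nat_lit 68))) (XT.nd (nat_lit 94) (nat_lit 0) (nat_lit 0) (XT.lf (nat_lit 84) (nat_lit 7056052532) (nat_lit 0) (nat_lit 115085240074) (nat_lit 1008) (nat_lit 15731837674) (nat_lit 83) (nat_lit 5) (nat_lit 82) (nat_lit 5) (nat_lit 94) (nat_lit 5) (nat_lit 413) (nat_lit 408) (nat_lit 67)) (XT.lf (nat_lit 84) (nat_lit 53128248785) (nat_lit 0) (nat_lit 72847831138) (nat_lit 1008) (nat_lit 14141133935) (nat_lit 83) (nat_lit 5) (nat_lit 82) (nat_lit 5) (nat_lit 94)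 (nat_lit 5) (nat_lit 414) (nat_lit 408) (nat_lit 66))))))) (XT.nd (nat_lit 55554) (nat_lit 0) (nat_lit 0) (XT.nd (nat_lit 564) (nat_lit 0) (nat_lit 0) (XT.nd (nat_lit 282) (nat_lit 840) (nat_lit 0) (XT.nd (nat_lit 94) (nat_lit 0) (nat_lit 84) (XT.lf (nat_lit 84) (nat_lit 100628617758) (nat_lit 0) (nat_lit 29301020405) (nat_lit 1008) (nat_lit 12501229979) (nat_lit 83) (nat_lit 5) (nat_lit 82) (nat_lit 5) (nat_lit 94) (nat_lit 5) (nat_lit 415) (nat_lit 408) (nat_lit 65)) (XT.nd (nat_lit 94) (nat_lit 0) (nat_lit 0) (XT.lf (nat_lit 84) (nat_lit 4725684997) (nat_lit 0) (nat_lit 129481558929) (nat_lit 1008) (nat_lit 10602756438) (nat_lit 84) (nat_lit 5) (nat_lit 83) (nat_lit 5) (nat_lit 95) (nat_lit 5) (nat_lit 416) (nat_lit 408) (nat_lit 64)) (XT.lf (nat_lit 84) (nat_lit 53276262451) (nat_lit 0) (nat_lit 86074067902) (nat_lit 1008) (nat_lit 7889836946) (nat_lit 84) (nat_lit 5) (nat_lit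 83) (nat_lit 5) (nat_lit 95) (nat_lit 5) (nat_lit 417) (nat_lit 408) (nat_lit 63)))) (XT.nd (nat_lit 94) (nat_lit 924) (nat_lit 0) (XT.lf (nat_lit 84) (nat_lit 103331842715) (nat_lit 0) (nat_lit 41320911402) (nat_lit 1008) (nat_lit 5092919056) (nat_lit 84) (nat_lit 5) (nat_lit 83) (nat_lit 5) (nat_lit 95) (nat_lit 5) (nat_lit 418) (nat_lit 408) (nat_lit 62)) (XT.nd (nat_lit 94) (nat_lit 1008) (nat_lit 0) (XT.lf (nat_lit 84) (nat_lit 2615106746) (nat_lit 0) (nat_lit 147578104347) (nat_lit 1008) (nat_lit 2133355927) (nat_lit 85) (nat_lit 5) (nat_lit 84) (nat_lit 5) (nat_lit 96) (nat_lit 5) (nat_lit 419) (nat_lit 408) (nat_lit 61)) (XT.lf (nat_lit 0) (nat_lit 1811400321) (nat_lit 1008) (nat_lit 101261306230) (nat_lit 1092) (nat_lit 51886210203) (nat_lit 72) (nat_lit 5) (nat_lit 84) (nat_lit 5) (nat_lit 85) (nat_lit 5) (nat_lit 420) (nat_lit 408) (nat_lit 60))))) (XT.nd (nat_lit 54614)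 (nat_lit 0) (nat_lit 756) (XT.nd (nat_lit 94) (nat_lit 0) (nat_lit 0) (XT.lf (nat_lit 0) (nat_lit 5834037560) (nat_lit 1008) (nat_lit 51331083566) (nat_lit 1092) (nat_lit 100507075281) (nat_lit 72) (nat_lit 5) (nat_lit 84) (nat_lit 5) (nat_lit 85) (nat_lit 5) (nat_lit 421) (nat_lit 408) (nat_lit 59)) (XT.nd (nat_lit 94) (nat_lit 0) (nat_lit 84) (XT.lf (nat_lit 84) (nat_lit 149931862) (nat_lit 0) (nat_lit 9832843155) (nat_lit 1092) (nat_lit 150486769971) (nat_lit 73) (nat_lit 5) (nat_lit 72) (nat_lit 5) (nat_lit 85) (nat_lit 5) (nat_lit 422) (nat_lit 408) (nat_lit 58)) (XT.lf (nat_lit 0) (nat_lit 15187862676) (nat_lit 1008) (nat_lit 109414053590) (nat_lit 1092) (nat_lit 38722935787) (nat_lit 73) (nat_lit 5) (nat_lit 85) (nat_lit 5) (nat_lit 86) (nat_lit 5) (nat_lit 423) (nat_lit 408) (nat_lit 57)))) (XT.nd (nat_lit 188) (nat_lit 0) (nat_lit 0) (XT.nd (nat_lit 94) (nat_lit 0) (nat_lit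 0) (XT.lf (nat_lit 0) (nat_lit 28282858891) (nat_lit 0) (nat_lit 28282858891) (nat_lit 924) (nat_lit 9143525825) (nat_lit 81) (nat_lit 5) (nat_lit 81) (nat_lit 3) (nat_lit 92) (nat_lit 3) (nat_lit 409) (nat_lit 409) (nat_lit 70)) (XT.lf (nat_lit 0) (nat_lit 100527799301) (nat_lit 0) (nat_lit 14360090467) (nat_lit 924) (nat_lit 18567472288) (nat_lit 81) (nat_lit 5) (nat_lit 81) (nat_lit 3) (nat_lit 92) (nat_lit 3) (nat_lit 410) (nat_lit 409) (nat_lit 69))) (XT.nd (nat_lit 94) (nat_lit 0) (nat_lit 0) (XT.lf (nat_lit 84) (nat_lit 10213837122) (nat_lit 0) (nat_lit 106875372910) (nat_lit 1008) (nat_lit 18454067945) (nat_lit 82) (nat_lit 5) (nat_lit 81) (nat_lit 5) (nat_lit 93) (nat_lit 5) (nat_lit 411) (nat_lit 409) (nat_lit 68)) (XT.lf (nat_lit 84) (nat_lit 55240714323) (nat_lit 0) (nat_lit 64607022075) (nat_lit 1008) (nat_lit 17833025806) (nat_lit 82) (nat_lit 5) (nat_lit 81) (nat_lit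 5) (nat_lit 93) (nat_lit 5) (nat_lit 412) (nat_lit 409) (nat_lit 67)))))) (XT.nd (nat_lit 564) (nat_lit 756) (nat_lit 0) (XT.nd (nat_lit 282) (nat_lit 0) (nat_lit 84) (XT.nd (nat_lit 94) (nat_lit 0) (nat_lit 84) (XT.lf (nat_lit 84) (nat_lit 101663363410) (nat_lit 0) (nat_lit 21028303034) (nat_lit 1008) (nat_lit 17192846235) (nat_lit 82) (nat_lit 5) (nat_lit 81) (nat_lit 5) (nat_lit 93) (nat_lit 5) (nat_lit 413) (nat_lit 409) (nat_lit 66)) (XT.nd (nat_lit 94) (nat_lit 0) (nat_lit 0) (XT.lf (nat_lit 84) (nat_lit 7278002264) (nat_lit 0) (nat_lit 118654952318) (nat_lit 1008) (nat_lit 16214040535) (nat_lit 83) (nat_lit 5) (nat_lit 82) (nat_lit 5) (nat_lit 94) (nat_lit 5) (nat_lit 414) (nat_lit 409) (nat_lit 65)) (XT.lf (nat_lit 84) (nat_lit 54778340020) (nat_lit 0) (nat_lit 75108121471) (nat_lit 1008) (nat_lit 14574189875) (nat_lit 83) (nat_lit 5) (nat_lit 82) (nat_lit 5) (nat_lit 94)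 (nat_lit 5) (nat_lit 415) (nat_lit 409) (nat_lit 64)))) (XT.nd (nat_lit 94) (nat_lit 0) (nat_lit 84) (XT.lf (nat_lit 84) (nat_lit 103751126753) (nat_lit 0) (nat_lit 30211299242) (nat_lit 1008) (nat_lit 12883608835) (nat_lit 83) (nat_lit 5) (nat_lit 82) (nat_lit 5) (nat_lit 94) (nat_lit 5) (nat_lit 416) (nat_lit 409) (nat_lit 63)) (XT.nd (nat_lit 94) (nat_lit 0) (nat_lit 0) (XT.lf (nat_lit 84) (nat_lit 4875379904) (nat_lit 0) (nat_lit 133497121220) (nat_lit 1008) (nat_lit 10926424343) (nat_lit 84) (nat_lit 5) (nat_lit 83) (nat_lit 5) (nat_lit 95) (nat_lit 5) (nat_lit 417) (nat_lit 409) (nat_lit 62)) (XT.lf (nat_lit 84) (nat_lit 54930929081) (nat_lit 0) (nat_lit 88743948841) (nat_lit 1008) (nat_lit 8129555215) (nat_lit 84) (nat_lit 5) (nat_lit 83) (nat_lit 5) (nat_lit 95) (nat_lit 5) (nat_lit 418) (nat_lit 409) (nat_lit 61))))) (XT.nd (nat_lit 282) (nat_lit 0) (nat_lit 0) (XT.nd (nat_lit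 94) (nat_lit 924) (nat_lit 0) (XT.lf (nat_lit 84) (nat_lit 106538139047) (nat_lit 0) (nat_lit 42603396837) (nat_lit 1008) (nat_lit 5246079201) (nat_lit 84) (nat_lit 5) (nat_lit 83) (nat_lit 5) (nat_lit 95) (nat_lit 5) (nat_lit 419) (nat_lit 409) (nat_lit 60)) (XT.nd (nat_lit 94) (nat_lit 1008) (nat_lit 0) (XT.lf (nat_lit 84) (nat_lit 2699341088) (nat_lit 0) (nat_lit 152154285856) (nat_lit 1008) (nat_lit 2194894414) (nat_lit 85) (nat_lit 5) (nat_lit 84) (nat_lit 5) (nat_lit 96) (nat_lit 5) (nat_lit 420) (nat_lit 409) (nat_lit 59)) (XT.lf (nat_lit 0) (nat_lit 1871921294) (nat_lit 1008) (nat_lit 104397215952) (nat_lit 1092) (nat_lit 53493340405) (nat_lit 72) (nat_lit 5) (nat_lit 84) (nat_lit 5) (nat_lit 85) (nat_lit 5) (nat_lit 421) (nat_lit 409) (nat_lit 58)))) (XT.nd (nat_lit 188) (nat_lit 0) (nat_lit 84) (XT.nd (nat_lit 94) (nat_lit 0) (nat_lit 0) (XT.lf (nat_lit 0) (nat_lit 6019128964)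 (nat_lit 1008) (nat_lit 52919252325) (nat_lit 1092) (nat_lit 103621492660) (nat_lit 72) (nat_lit 5) (nat_lit 84) (nat_lit 5) (nat_lit 85) (nat_lit 5) (nat_lit 422) (nat_lit 409) (nat_lit 57)) (XT.lf (nat_lit 84) (nat_lit 157643248) (nat_lit 0) (nat_lit 10138737050) (nat_lit 1092) (nat_lit 155147563925) (nat_lit 73) (nat_lit 5) (nat_lit 72) (nat_lit 5) (nat_lit 85) (nat_lit 5) (nat_lit 423) (nat_lit 409) (nat_lit 56))) (XT.nd (nat_lit 54426) (nat_lit 0) (nat_lit 672) (XT.lf (nat_lit 0) (nat_lit 15662690864) (nat_lit 1008) (nat_lit 112802755565) (nat_lit 1092) (nat_lit 39922324408) (nat_lit 73) (nat_lit 5) (nat_lit 85) (nat_lit 5) (nat_lit 86) (nat_lit 5) (nat_lit 424) (nat_lit 409) (nat_lit 55)) (XT.lf (nat_lit 0) (nat_lit 29161071524) (nat_lit 0) (nat_lit 29161071524) (nat_lit 924) (nat_lit 9423976507) (nat_lit 81) (nat_lit 5) (nat_lit 81) (nat_lit 3) (nat_lit 92) (nat_lit 3) (nat_lit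 410) (nat_lit 410) (nat_lit 68))))))))
noncomputable def xc252 : XT := (XT.nd (nat_lit 56776) (nat_lit 0) (nat_lit 0) (XT.nd (nat_lit 1128) (nat_lit 0) (nat_lit 0) (XT.nd (nat_lit 564) (nat_lit 756) (nat_lit 0) (XT.nd (nat_lit 282) (nat_lit 0) (nat_lit 0) (XT.nd (nat_lit 94) (nat_lit 0) (nat_lit 0) (XT.lf (nat_lit 0) (nat_lit 103646962258) (nat_lit 0) (nat_lit 14808054450) (nat_lit 924) (nat_lit 19137247015) (nat_lit 81) (nat_lit 5) (nat_lit 81) (nat_lit 3) (nat_lit 92) (nat_lit 3) (nat_lit 411) (nat_lit 410) (nat_lit 67)) (XT.nd (nat_lit 94) (nat_lit 0) (nat_lit 0) (XT.lf (nat_lit 84) (nat_lit 10533478784) (nat_lit 0) (nat_lit 110190933599) (nat_lit 1008) (nat_lit 19020499015) (nat_lit 82) (nat_lit 5) (nat_lit 81) (nat_lit 5) (nat_lit 93) (nat_lit 5) (nat_lit 412) (nat_lit 410) (nat_lit 66)) (XT.lf (nat_lit 84) (nat_lit 56956098592) (nat_lit 0) (nat_lit 66612191000) (nat_lit 1008)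 (nat_lit 18380374304) (nat_lit 82) (nat_lit 5) (nat_lit 81) (nat_lit 5) (nat_lit 93) (nat_lit 5) (nat_lit 413) (nat_lit 410) (nat_lit 65)))) (XT.nd (nat_lit 94) (nat_lit 0) (nat_lit 84) (XT.lf (nat_lit 84) (nat_lit 104817761939) (nat_lit 0) (nat_lit 21682460971) (nat_lit 1008) (nat_lit 17720513797) (nat_lit 82) (nat_lit 5) (nat_lit 81) (nat_lit 5) (nat_lit 93) (nat_lit 5) (nat_lit 414) (nat_lit 410) (nat_lit 64)) (XT.nd (nat_lit 94) (nat_lit 0) (nat_lit 0) (XT.lf (nat_lit 84) (nat_lit 7506642179) (nat_lit 0) (nat_lit 122335203044) (nat_lit 1008) (nat_lit 16711516518) (nat_lit 83) (nat_lit 5) (nat_lit 82) (nat_lit 5) (nat_lit 94) (nat_lit 5) (nat_lit 415) (nat_lit 410) (nat_lit 63)) (XT.lf (nat_lit 84) (nat_lit 56479399545) (nat_lit 0) (nat_lit 77438361892) (nat_lit 1008) (nat_lit 15020985616) (nat_lit 83) (nat_lit 5) (nat_lit 82) (nat_lit 5) (nat_lit 94) (nat_lit 5) (nat_lit 416)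 (nat_lit 410) (nat_lit 62))))) (XT.nd (nat_lit 282) (nat_lit 840) (nat_lit 0) (XT.nd (nat_lit 94) (nat_lit 0) (nat_lit 84) (XT.lf (nat_lit 84) (nat_lit 106970254538) (nat_lit 0) (nat_lit 31149681386) (nat_lit 1008) (nat_lit 13278147027) (nat_lit 83) (nat_lit 5) (nat_lit 82) (nat_lit 5) (nat_lit 94) (nat_lit 5) (nat_lit 417) (nat_lit 410) (nat_lit 61)) (XT.nd (nat_lit 94) (nat_lit 0) (nat_lit 0) (XT.lf (nat_lit 84) (nat_lit 5029525889) (nat_lit 0) (nat_lit 137637069159) (nat_lit 1008) (nat_lit 11260423152) (nat_lit 84) (nat_lit 5) (nat_lit 83) (nat_lit 5) (nat_lit 95) (nat_lit 5) (nat_lit 418) (nat_lit 410) (nat_lit 60)) (XT.lf (nat_lit 84) (nat_lit 56636706611) (nat_lit 0) (nat_lit 91496502217) (nat_lit 1008) (nat_lit 8376993011) (nat_lit 84) (nat_lit 5) (nat_lit 83) (nat_lit 5) (nat_lit 95) (nat_lit 5) (nat_lit 419) (nat_lit 410) (nat_lit 59)))) (XT.nd (nat_lit 94) (nat_lit 924)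 (nat_lit 0) (XT.lf (nat_lit 84) (nat_lit 109843652326) (nat_lit 0) (nat_lit 43925548271) (nat_lit 1008) (nat_lit 5404266904) (nat_lit 84) (nat_lit 5) (nat_lit 83) (nat_lit 5) (nat_lit 95) (nat_lit 5) (nat_lit 420) (nat_lit 410) (nat_lit 58)) (XT.nd (nat_lit 94) (nat_lit 1008) (nat_lit 0) (XT.lf (nat_lit 84) (nat_lit 2785999164) (nat_lit 0) (nat_lit 156872254344) (nat_lit 1008) (nat_lit 2258612796) (nat_lit 85) (nat_lit 5) (nat_lit 84) (nat_lit 5) (nat_lit 96) (nat_lit 5) (nat_lit 421) (nat_lit 410) (nat_lit 57)) (XT.lf (nat_lit 0) (nat_lit 1934059719) (nat_lit 1008) (nat_lit 107630527871) (nat_lit 1092) (nat_lit 55150371150) (nat_lit 72) (nat_lit 5) (nat_lit 84) (nat_lit 5) (nat_lit 85) (nat_lit 5) (nat_lit 422) (nat_lit 410) (nat_lit 56)))))) (XT.nd (nat_lit 54990) (nat_lit 0) (nat_lit 756) (XT.nd (nat_lit 54708) (nat_lit 0) (nat_lit 756) (XT.nd (nat_lit 94) (nat_lit 0) (nat_lit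 0) (XT.lf (nat_lit 0) (nat_lit 6209707281) (nat_lit 1008) (nat_lit 54556837629) (nat_lit 1092) (nat_lit 106832534096) (nat_lit 72) (nat_lit 5) (nat_lit 84) (nat_lit 5) (nat_lit 85) (nat_lit 5) (nat_lit 423) (nat_lit 410) (nat_lit 55)) (XT.nd (nat_lit 54520) (nat_lit 0) (nat_lit 756) (XT.lf (nat_lit 84) (nat_lit 165412231) (nat_lit 0) (nat_lit 10454049936) (nat_lit 1092) (nat_lit 159953096946) (nat_lit 73) (nat_lit 5) (nat_lit 72) (nat_lit 5) (nat_lit 85) (nat_lit 5) (nat_lit 424) (nat_lit 410) (nat_lit 54)) (XT.lf (nat_lit 0) (nat_lit 30066423218) (nat_lit 0) (nat_lit 30066423218) (nat_lit 924) (nat_lit 9713298773) (nat_lit 81) (nat_lit 5) (nat_lit 81) (nat_lit 3) (nat_lit 92) (nat_lit 3) (nat_lit 411) (nat_lit 411) (nat_lit 66)))) (XT.nd (nat_lit 94) (nat_lit 0) (nat_lit 0) (XT.lf (nat_lit 0) (nat_lit 106862653348) (nat_lit 0) (nat_lit 15269739397) (nat_lit 924) (nat_lit 19725029304)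 (nat_lit 81) (nat_lit 5) (nat_lit 81) (nat_lit 3) (nat_lit 92) (nat_lit 3) (nat_lit 412) (nat_lit 411) (nat_lit 65)) (XT.nd (nat_lit 94) (nat_lit 0) (nat_lit 0) (XT.lf (nat_lit 84) (nat_lit 10862850889) (nat_lit 0) (nat_lit 113609133084) (nat_lit 1008) (nat_lit 19604823813) (nat_lit 82) (nat_lit 5) (nat_lit 81) (nat_lit 5) (nat_lit 93) (nat_lit 5) (nat_lit 413) (nat_lit 411) (nat_lit 64)) (XT.lf (nat_lit 84) (nat_lit 58724486691) (nat_lit 0) (nat_lit 68679380893) (nat_lit 1008) (nat_lit 18945014917) (nat_lit 82) (nat_lit 5) (nat_lit 81) (nat_lit 5) (nat_lit 93) (nat_lit 5) (nat_lit 414) (nat_lit 411) (nat_lit 63))))) (XT.nd (nat_lit 282) (nat_lit 0) (nat_lit 84) (XT.nd (nat_lit 94) (nat_lit 0) (nat_lit 84) (XT.lf (nat_lit 84) (nat_lit 108069778944) (nat_lit 0) (nat_lit 22356762724) (nat_lit 1008) (nat_lit 18264853613) (nat_lit 82) (nat_lit 5) (nat_lit 81) (nat_lit 5) (nat_lit 93)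 (nat_lit 5) (nat_lit 415) (nat_lit 411) (nat_lit 62)) (XT.nd (nat_lit 94) (nat_lit 0) (nat_lit 0) (XT.lf (nat_lit 84) (nat_lit 7742190942) (nat_lit 0) (nat_lit 126129426206) (nat_lit 1008) (nat_lit 17224719849) (nat_lit 83) (nat_lit 5) (nat_lit 82) (nat_lit 5) (nat_lit 94) (nat_lit 5) (nat_lit 416) (nat_lit 411) (nat_lit 61)) (XT.lf (nat_lit 84) (nat_lit 58233018308) (nat_lit 0) (nat_lit 79840727898) (nat_lit 1008) (nat_lit 15481928429) (nat_lit 83) (nat_lit 5) (nat_lit 82) (nat_lit 5) (nat_lit 94) (nat_lit 5) (nat_lit 417) (nat_lit 411) (nat_lit 60)))) (XT.nd (nat_lit 188) (nat_lit 0) (nat_lit 84) (XT.nd (nat_lit 94) (nat_lit 0) (nat_lit 84) (XT.lf (nat_lit 84) (nat_lit 110289006897) (nat_lit 0) (nat_lit 32117044872) (nat_lit 1008) (nat_lit 13685203396) (nat_lit 83) (nat_lit 5) (nat_lit 82) (nat_lit 5) (nat_lit 94) (nat_lit 5) (nat_lit 418) (nat_lit 411) (nat_lit 59)) (XT.lf (nat_lit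 84) (nat_lit 5188272160) (nat_lit 0) (nat_lit 141905264435) (nat_lit 1008) (nat_lit 11605055518) (nat_lit 84) (nat_lit 5) (nat_lit 83) (nat_lit 5) (nat_lit 95) (nat_lit 5) (nat_lit 419) (nat_lit 411) (nat_lit 58))) (XT.nd (nat_lit 94) (nat_lit 0) (nat_lit 0) (XT.lf (nat_lit 84) (nat_lit 58395190363) (nat_lit 0) (nat_lit 94334296435) (nat_lit 1008) (nat_lit 8632372567) (nat_lit 84) (nat_lit 5) (nat_lit 83) (nat_lit 5) (nat_lit 95) (nat_lit 5) (nat_lit 420) (nat_lit 411) (nat_lit 57)) (XT.lf (nat_lit 84) (nat_lit 113251468833) (nat_lit 0) (nat_lit 45288600742) (nat_lit 1008) (nat_lit 5567621460) (nat_lit 84) (nat_lit 5) (nat_lit 83) (nat_lit 5) (nat_lit 95) (nat_lit 5) (nat_lit 421) (nat_lit 411) (nat_lit 56))))))) (XT.nd (nat_lit 55648) (nat_lit 0) (nat_lit 0) (XT.nd (nat_lit 54990) (nat_lit 0) (nat_lit 756) (XT.nd (nat_lit 282) (nat_lit 0) (nat_lit 0) (XT.nd (nat_lit 94) (nat_lit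 1008) (nat_lit 0) (XT.lf (nat_lit 84) (nat_lit 2875167219) (nat_lit 0) (nat_lit 161736409628) (nat_lit 1008) (nat_lit 2324562527) (nat_lit 85) (nat_lit 5) (nat_lit 84) (nat_lit 5) (nat_lit 96) (nat_lit 5) (nat_lit 422) (nat_lit 411) (nat_lit 55)) (XT.nd (nat_lit 94) (nat_lit 0) (nat_lit 0) (XT.lf (nat_lit 0) (nat_lit 1997881059) (nat_lit 1008) (nat_lit 110964250260) (nat_lit 1092) (nat_lit 56858844647) (nat_lit 72) (nat_lit 5) (nat_lit 84) (nat_lit 5) (nat_lit 85) (nat_lit 5) (nat_lit 423) (nat_lit 411) (nat_lit 54)) (XT.lf (nat_lit 0) (nat_lit 6405957469) (nat_lit 1008) (nat_lit 56245360531) (nat_lit 1092) (nat_lit 110143190365) (nat_lit 72) (nat_lit 5) (nat_lit 84) (nat_lit 5) (nat_lit 85) (nat_lit 5) (nat_lit 424) (nat_lit 411) (nat_lit 53)))) (XT.nd (nat_lit 54520) (nat_lit 0) (nat_lit 756) (XT.lf (nat_lit 84) (nat_lit 173251344) (nat_lit 0) (nat_lit 10779077577) (nat_lit 1092)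 (nat_lit 164907840874) (nat_lit 73) (nat_lit 5) (nat_lit 72) (nat_lit 5) (nat_lit 85) (nat_lit 5) (nat_lit 425) (nat_lit 411) (nat_lit 52)) (XT.nd (nat_lit 94) (nat_lit 0) (nat_lit 0) (XT.lf (nat_lit 0) (nat_lit 30999760349) (nat_lit 0) (nat_lit 30999760349) (nat_lit 924) (nat_lit 10011757122) (nat_lit 81) (nat_lit 5) (nat_lit 81) (nat_lit 3) (nat_lit 92) (nat_lit 3) (nat_lit 412) (nat_lit 412) (nat_lit 64)) (XT.lf (nat_lit 0) (nat_lit 110177874770) (nat_lit 0) (nat_lit 15745580488) (nat_lit 924) (nat_lit 20331356982) (nat_lit 81) (nat_lit 5) (nat_lit 81) (nat_lit 3) (nat_lit 92) (nat_lit 3) (nat_lit 413) (nat_lit 412) (nat_lit 63))))) (XT.nd (nat_lit 282) (nat_lit 0) (nat_lit 84) (XT.nd (nat_lit 94) (nat_lit 0) (nat_lit 0) (XT.lf (nat_lit 84) (nat_lit 11202265651) (nat_lit 0) (nat_lit 117133161673) (nat_lit 1008) (nat_lit 20207577240) (nat_lit 82) (nat_lit 5) (nat_lit 81) (nat_lit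 5) (nat_lit 93) (nat_lit 5) (nat_lit 414) (nat_lit 412) (nat_lit 62)) (XT.nd (nat_lit 94) (nat_lit 0) (nat_lit 0) (XT.lf (nat_lit 84) (nat_lit 60547531991) (nat_lit 0) (nat_lit 70810522654) (nat_lit 1008) (nat_lit 19527464490) (nat_lit 82) (nat_lit 5) (nat_lit 81) (nat_lit 5) (nat_lit 93) (nat_lit 5) (nat_lit 415) (nat_lit 412) (nat_lit 61)) (XT.lf (nat_lit 84) (nat_lit 111422450541) (nat_lit 0) (nat_lit 23051840752) (nat_lit 1008) (nat_lit 18826363892) (nat_lit 82) (nat_lit 5) (nat_lit 81) (nat_lit 5) (nat_lit 93) (nat_lit 5) (nat_lit 416) (nat_lit 412) (nat_lit 60)))) (XT.nd (nat_lit 188) (nat_lit 0) (nat_lit 0) (XT.nd (nat_lit 94) (nat_lit 0) (nat_lit 0) (XT.lf (nat_lit 84) (nat_lit 7984873330) (nat_lit 0) (nat_lit 130041161782) (nat_lit 1008) (nat_lit 17754119975) (nat_lit 83) (nat_lit 5) (nat_lit 82) (nat_lit 5) (nat_lit 94) (nat_lit 5) (nat_lit 417) (nat_lit 412) (nat_lit 59))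 (XT.lf (nat_lit 84) (nat_lit 60040835928) (nat_lit 0) (nat_lit 82317462008) (nat_lit 1008) (nat_lit 15957439317) (nat_lit 83) (nat_lit 5) (nat_lit 82) (nat_lit 5) (nat_lit 94) (nat_lit 5) (nat_lit 418) (nat_lit 412) (nat_lit 58))) (XT.nd (nat_lit 94) (nat_lit 0) (nat_lit 84) (XT.lf (nat_lit 84) (nat_lit 113710482166) (nat_lit 0) (nat_lit 33114294549) (nat_lit 1008) (nat_lit 14105148975) (nat_lit 83) (nat_lit 5) (nat_lit 82) (nat_lit 5) (nat_lit 94) (nat_lit 5) (nat_lit 419) (nat_lit 412) (nat_lit 57)) (XT.lf (nat_lit 84) (nat_lit 5351771882) (nat_lit 0) (nat_lit 146305688107) (nat_lit 1008) (nat_lit 11960634521) (nat_lit 84) (nat_lit 5) (nat_lit 83) (nat_lit 5) (nat_lit 95) (nat_lit 5) (nat_lit 420) (nat_lit 412) (nat_lit 56)))))) (XT.nd (nat_lit 55084) (nat_lit 0) (nat_lit 756) (XT.nd (nat_lit 282) (nat_lit 924) (nat_lit 0) (XT.nd (nat_lit 94) (nat_lit 0) (nat_lit 0) (XT.lf (nat_lit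 84) (nat_lit 60208024470) (nat_lit 0) (nat_lit 97259979193) (nat_lit 1008) (nat_lit 8895924013) (nat_lit 84) (nat_lit 5) (nat_lit 83) (nat_lit 5) (nat_lit 95) (nat_lit 5) (nat_lit 421) (nat_lit 412) (nat_lit 55)) (XT.nd (nat_lit 94) (nat_lit 0) (nat_lit 84) (XT.lf (nat_lit 84) (nat_lit 116764769901) (nat_lit 0) (nat_lit 46693827257) (nat_lit 1008) (nat_lit 5736287460) (nat_lit 84) (nat_lit 5) (nat_lit 83) (nat_lit 5) (nat_lit 95) (nat_lit 5) (nat_lit 422) (nat_lit 412) (nat_lit 54)) (XT.lf (nat_lit 84) (nat_lit 2966933512) (nat_lit 0) (nat_lit 166751287659) (nat_lit 1008) (nat_lit 2392797610) (nat_lit 85) (nat_lit 5) (nat_lit 84) (nat_lit 5) (nat_lit 96) (nat_lit 5) (nat_lit 423) (nat_lit 412) (nat_lit 53)))) (XT.nd (nat_lit 94) (nat_lit 0) (nat_lit 0) (XT.lf (nat_lit 0) (nat_lit 2063451902) (nat_lit 1008) (nat_lit 114401485312) (nat_lit 1092) (nat_lit 58620351190) (nat_lit 72) (nat_lit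 5) (nat_lit 84) (nat_lit 5) (nat_lit 85) (nat_lit 5) (nat_lit 424) (nat_lit 412) (nat_lit 52)) (XT.nd (nat_lit 54614) (nat_lit 0) (nat_lit 756) (XT.lf (nat_lit 0) (nat_lit 6608069338) (nat_lit 1008) (nat_lit 57986389883) (nat_lit 1092) (nat_lit 113556545230) (nat_lit 72) (nat_lit 5) (nat_lit 84) (nat_lit 5) (nat_lit 85) (nat_lit 5) (nat_lit 425) (nat_lit 412) (nat_lit 51)) (XT.lf (nat_lit 0) (nat_lit 31961955233) (nat_lit 0) (nat_lit 31961955233) (nat_lit 924) (nat_lit 10319624875) (nat_lit 81) (nat_lit 5) (nat_lit 81) (nat_lit 3) (nat_lit 92) (nat_lit 3) (nat_lit 413) (nat_lit 413) (nat_lit 62))))) (XT.nd (nat_lit 282) (nat_lit 0) (nat_lit 0) (XT.nd (nat_lit 94) (nat_lit 0) (nat_lit 0) (XT.lf (nat_lit 0) (nat_lit 113595721211) (nat_lit 0) (nat_lit 16236025806) (nat_lit 924) (nat_lit 20956785756) (nat_lit 81) (nat_lit 5) (nat_lit 81) (nat_lit 3) (nat_lit 92) (nat_lit 3) (nat_lit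 414) (nat_lit 413) (nat_lit 61)) (XT.nd (nat_lit 94) (nat_lit 0) (nat_lit 0) (XT.lf (nat_lit 84) (nat_lit 11552044336) (nat_lit 0) (nat_lit 120766308068) (nat_lit 1008) (nat_lit 20829311952) (nat_lit 82) (nat_lit 5) (nat_lit 81) (nat_lit 5) (nat_lit 93) (nat_lit 5) (nat_lit 415) (nat_lit 413) (nat_lit 60)) (XT.lf (nat_lit 84) (nat_lit 62426938508) (nat_lit 0) (nat_lit 73007606551) (nat_lit 1008) (nat_lit 20128257031) (nat_lit 82) (nat_lit 5) (nat_lit 81) (nat_lit 5) (nat_lit 93) (nat_lit 5) (nat_lit 416) (nat_lit 413) (nat_lit 59)))) (XT.nd (nat_lit 188) (nat_lit 0) (nat_lit 84) (XT.nd (nat_lit 94) (nat_lit 0) (nat_lit 84) (XT.lf (nat_lit 84) (nat_lit 114878906378) (nat_lit 0) (nat_lit 23768346647) (nat_lit 1008) (nat_lit 19405559390) (nat_lit 82) (nat_lit 5) (nat_lit 81) (nat_lit 5) (nat_lit 93) (nat_lit 5) (nat_lit 417) (nat_lit 413) (nat_lit 58)) (XT.lf (nat_lit 84) (nat_lit 8234920458)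 (nat_lit 0) (nat_lit 134074059083) (nat_lit 1008) (nat_lit 18300201968) (nat_lit 83) (nat_lit 5) (nat_lit 82) (nat_lit 5) (nat_lit 94) (nat_lit 5) (nat_lit 418) (nat_lit 413) (nat_lit 57))) (XT.nd (nat_lit 94) (nat_lit 0) (nat_lit 0) (XT.lf (nat_lit 84) (nat_lit 61904542245) (nat_lit 0) (nat_lit 84870875867) (nat_lit 1008) (nat_lit 16447953373) (nat_lit 83) (nat_lit 5) (nat_lit 82) (nat_lit 5) (nat_lit 94) (nat_lit 5) (nat_lit 419) (nat_lit 413) (nat_lit 56)) (XT.lf (nat_lit 84) (nat_lit 117237874138) (nat_lit 0) (nat_lit 34142362934) (nat_lit 1008) (nat_lit 14538367310) (nat_lit 83) (nat_lit 5) (nat_lit 82) (nat_lit 5) (nat_lit 94) (nat_lit 5) (nat_lit 420) (nat_lit 413) (nat_lit 55))))))))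
noncomputable def xc253 : XT := (XT.nd (nat_lit 111484) (nat_lit 0) (nat_lit 756) (XT.nd (nat_lit 55648) (nat_lit 0) (nat_lit 0) (XT.nd (nat_lit 55084) (nat_lit 0) (nat_lit 756) (XT.nd (nat_lit 282) (nat_lit 924) (nat_lit 0) (XT.nd (nat_lit 94) (nat_lit 0) (nat_lit 0) (XT.lf (nat_lit 84) (nat_lit 5520182344) (nat_lit 0) (nat_lit 150842444330) (nat_lit 1008) (nat_lit 12327483926) (nat_lit 84) (nat_lit 5) (nat_lit 83) (nat_lit 5) (nat_lit 95) (nat_lit 5) (nat_lit 421) (nat_lit 413) (nat_lit 54)) (XT.nd (nat_lit 94) (nat_lit 0) (nat_lit 0) (XT.lf (nat_lit 84) (nat_lit 62076903426) (nat_lit 0) (nat_lit 100276279956) (nat_lit 1008) (nat_lit 9167885568) (nat_lit 84) (nat_lit 5) (nat_lit 83) (nat_lit 5) (nat_lit 95) (nat_lit 5) (nat_lit 422) (nat_lit 413) (nat_lit 53)) (XT.lf (nat_lit 84) (nat_lit 120386834895) (nat_lit 0) (nat_lit 48142539983) (nat_lit 1008) (nat_lit 5910414903) (nat_lit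 84) (nat_lit 5) (nat_lit 83) (nat_lit 5) (nat_lit 95) (nat_lit 5) (nat_lit 423) (nat_lit 413) (nat_lit 52)))) (XT.nd (nat_lit 94) (nat_lit 1008) (nat_lit 0) (XT.lf (nat_lit 84) (nat_lit 3061388419) (nat_lit 0) (nat_lit 171921564756) (nat_lit 1008) (nat_lit 2463374623) (nat_lit 85) (nat_lit 5) (nat_lit 84) (nat_lit 5) (nat_lit 96) (nat_lit 5) (nat_lit 424) (nat_lit 413) (nat_lit 51)) (XT.nd (nat_lit 94) (nat_lit 0) (nat_lit 0) (XT.lf (nat_lit 0) (nat_lit 2130840043) (nat_lit 1008) (nat_lit 117945432011) (nat_lit 1092) (nat_lit 60436530636) (nat_lit 72) (nat_lit 5) (nat_lit 84) (nat_lit 5) (nat_lit 85) (nat_lit 5) (nat_lit 425) (nat_lit 413) (nat_lit 50)) (XT.lf (nat_lit 0) (nat_lit 6816237753) (nat_lit 1008) (nat_lit 59781543774) (nat_lit 1092) (nat_lit 117075778306) (nat_lit 72) (nat_lit 5) (nat_lit 84) (nat_lit 5) (nat_lit 85) (nat_lit 5) (nat_lit 426) (nat_lit 413) (nat_lit 49)))))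 (XT.nd (nat_lit 282) (nat_lit 0) (nat_lit 0) (XT.nd (nat_lit 94) (nat_lit 0) (nat_lit 0) (XT.lf (nat_lit 0) (nat_lit 32953906943) (nat_lit 0) (nat_lit 32953906943) (nat_lit 924) (nat_lit 10637184414) (nat_lit 81) (nat_lit 5) (nat_lit 81) (nat_lit 3) (nat_lit 92) (nat_lit 3) (nat_lit 414) (nat_lit 414) (nat_lit 60)) (XT.nd (nat_lit 94) (nat_lit 0) (nat_lit 0) (XT.lf (nat_lit 0) (nat_lit 117119382745) (nat_lit 0) (nat_lit 16741536782) (nat_lit 924) (nat_lit 21601889699) (nat_lit 81) (nat_lit 5) (nat_lit 81) (nat_lit 3) (nat_lit 92) (nat_lit 3) (nat_lit 415) (nat_lit 414) (nat_lit 59)) (XT.lf (nat_lit 84) (nat_lit 11912517581) (nat_lit 0) (nat_lit 124511962449) (nat_lit 1008) (nat_lit 21470598839) (nat_lit 82) (nat_lit 5) (nat_lit 81) (nat_lit 5) (nat_lit 93) (nat_lit 5) (nat_lit 416) (nat_lit 414) (nat_lit 58)))) (XT.nd (nat_lit 94) (nat_lit 0) (nat_lit 0) (XT.lf (nat_lit 84) (nat_lit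 64364462516) (nat_lit 0) (nat_lit 75272684092) (nat_lit 1008) (nat_lit 20747944170) (nat_lit 82) (nat_lit 5) (nat_lit 81) (nat_lit 5) (nat_lit 93) (nat_lit 5) (nat_lit 417) (nat_lit 414) (nat_lit 57)) (XT.nd (nat_lit 94) (nat_lit 0) (nat_lit 84) (XT.lf (nat_lit 84) (nat_lit 118442372567) (nat_lit 0) (nat_lit 24506951753) (nat_lit 1008) (nat_lit 20002971858) (nat_lit 82) (nat_lit 5) (nat_lit 81) (nat_lit 5) (nat_lit 93) (nat_lit 5) (nat_lit 418) (nat_lit 414) (nat_lit 56)) (XT.lf (nat_lit 84) (nat_lit 8492570017) (nat_lit 0) (nat_lit 138231880168) (nat_lit 1008) (nat_lit 18863466946) (nat_lit 83) (nat_lit 5) (nat_lit 82) (nat_lit 5) (nat_lit 94) (nat_lit 5) (nat_lit 419) (nat_lit 414) (nat_lit 55)))))) (XT.nd (nat_lit 564) (nat_lit 840) (nat_lit 0) (XT.nd (nat_lit 282) (nat_lit 0) (nat_lit 84) (XT.nd (nat_lit 94) (nat_lit 0) (nat_lit 0) (XT.lf (nat_lit 84) (nat_lit 63825878908) (nat_lit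 0) (nat_lit 87503352412) (nat_lit 1008) (nat_lit 16953920158) (nat_lit 83) (nat_lit 5) (nat_lit 82) (nat_lit 5) (nat_lit 94) (nat_lit 5) (nat_lit 420) (nat_lit 414) (nat_lit 54)) (XT.nd (nat_lit 94) (nat_lit 0) (nat_lit 84) (XT.lf (nat_lit 84) (nat_lit 120874475059) (nat_lit 0) (nat_lit 35202211095) (nat_lit 1008) (nat_lit 14985254786) (nat_lit 83) (nat_lit 5) (nat_lit 82) (nat_lit 5) (nat_lit 94) (nat_lit 5) (nat_lit 421) (nat_lit 414) (nat_lit 53)) (XT.lf (nat_lit 84) (nat_lit 5693665124) (nat_lit 0) (nat_lit 155519764186) (nat_lit 1008) (nat_lit 12705938459) (nat_lit 84) (nat_lit 5) (nat_lit 83) (nat_lit 5) (nat_lit 95) (nat_lit 5) (nat_lit 422) (nat_lit 414) (nat_lit 52)))) (XT.nd (nat_lit 94) (nat_lit 0) (nat_lit 0) (XT.lf (nat_lit 84) (nat_lit 64003573685) (nat_lit 0) (nat_lit 103386012512) (nat_lit 1008) (nat_lit 9448503727) (nat_lit 84) (nat_lit 5) (nat_lit 83) (nat_lit 5)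 (nat_lit 95) (nat_lit 5) (nat_lit 423) (nat_lit 414) (nat_lit 51)) (XT.nd (nat_lit 94) (nat_lit 0) (nat_lit 84) (XT.lf (nat_lit 84) (nat_lit 124121044287) (nat_lit 0) (nat_lit 49636091485) (nat_lit 1008) (nat_lit 6090159303) (nat_lit 84) (nat_lit 5) (nat_lit 83) (nat_lit 5) (nat_lit 95) (nat_lit 5) (nat_lit 424) (nat_lit 414) (nat_lit 50)) (XT.lf (nat_lit 84) (nat_lit 3158624535) (nat_lit 0) (nat_lit 177252061969) (nat_lit 1008) (nat_lit 2536352740) (nat_lit 85) (nat_lit 5) (nat_lit 84) (nat_lit 5) (nat_lit 96) (nat_lit 5) (nat_lit 425) (nat_lit 414) (nat_lit 49))))) (XT.nd (nat_lit 54896) (nat_lit 0) (nat_lit 756) (XT.nd (nat_lit 54708) (nat_lit 0) (nat_lit 756) (XT.lf (nat_lit 0) (nat_lit 2200114576) (nat_lit 1008) (nat_lit 121599389099) (nat_lit 1092) (nat_lit 62309073923) (nat_lit 72) (nat_lit 5) (nat_lit 84) (nat_lit 5) (nat_lit 85) (nat_lit 5) (nat_lit 426) (nat_lit 414) (nat_lit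 48)) (XT.nd (nat_lit 94) (nat_lit 0) (nat_lit 0) (XT.lf (nat_lit 0) (nat_lit 33976542159) (nat_lit 0) (nat_lit 33976542159) (nat_lit 924) (nat_lit 10964727424) (nat_lit 81) (nat_lit 5) (nat_lit 81) (nat_lit 3) (nat_lit 92) (nat_lit 3) (nat_lit 415) (nat_lit 415) (nat_lit 58)) (XT.lf (nat_lit 0) (nat_lit 120752147821) (nat_lit 0) (nat_lit 17262588633) (nat_lit 924) (nat_lit 22267261748) (nat_lit 81) (nat_lit 5) (nat_lit 81) (nat_lit 3) (nat_lit 92) (nat_lit 3) (nat_lit 416) (nat_lit 415) (nat_lit 57)))) (XT.nd (nat_lit 188) (nat_lit 0) (nat_lit 0) (XT.nd (nat_lit 94) (nat_lit 0) (nat_lit 0) (XT.lf (nat_lit 84) (nat_lit 12284025717) (nat_lit 0) (nat_lit 128373619646) (nat_lit 1008) (nat_lit 22132027530) (nat_lit 82) (nat_lit 5) (nat_lit 81) (nat_lit 5) (nat_lit 93) (nat_lit 5) (nat_lit 417) (nat_lit 415) (nat_lit 56)) (XT.lf (nat_lit 84) (nat_lit 66361914192) (nat_lit 0) (nat_lit 77607869947)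 (nat_lit 1008) (nat_lit 21387095644) (nat_lit 82) (nat_lit 5) (nat_lit 81) (nat_lit 5) (nat_lit 93) (nat_lit 5) (nat_lit 418) (nat_lit 415) (nat_lit 55))) (XT.nd (nat_lit 94) (nat_lit 0) (nat_lit 84) (XT.lf (nat_lit 84) (nat_lit 122116174707) (nat_lit 0) (nat_lit 25268347809) (nat_lit 1008) (nat_lit 20619150508) (nat_lit 82) (nat_lit 5) (nat_lit 81) (nat_lit 5) (nat_lit 93) (nat_lit 5) (nat_lit 419) (nat_lit 415) (nat_lit 54)) (XT.lf (nat_lit 84) (nat_lit 8758066510) (nat_lit 0) (nat_lit 142518503364) (nat_lit 1008) (nat_lit 19444432511) (nat_lit 83) (nat_lit 5) (nat_lit 82) (nat_lit 5) (nat_lit 94) (nat_lit 5) (nat_lit 420) (nat_lit 415) (nat_lit 53))))))) (XT.nd (nat_lit 55930) (nat_lit 0) (nat_lit 0) (XT.nd (nat_lit 55272) (nat_lit 84) (nat_lit 0) (XT.nd (nat_lit 282) (nat_lit 0) (nat_lit 84) (XT.nd (nat_lit 94) (nat_lit 0) (nat_lit 0) (XT.lf (nat_lit 84) (nat_lit 65806641020)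 (nat_lit 0) (nat_lit 90217348102) (nat_lit 1008) (nat_lit 17475804087) (nat_lit 83) (nat_lit 5) (nat_lit 82) (nat_lit 5) (nat_lit 94) (nat_lit 5) (nat_lit 421) (nat_lit 415) (nat_lit 52)) (XT.nd (nat_lit 94) (nat_lit 0) (nat_lit 84) (XT.lf (nat_lit 84) (nat_lit 124623678709) (nat_lit 0) (nat_lit 36294829557) (nat_lit 1008) (nat_lit 15446220967) (nat_lit 83) (nat_lit 5) (nat_lit 82) (nat_lit 5) (nat_lit 94) (nat_lit 5) (nat_lit 422) (nat_lit 415) (nat_lit 51)) (XT.lf (nat_lit 84) (nat_lit 5872386253) (nat_lit 0) (nat_lit 160342009637) (nat_lit 1008) (nat_lit 13096344090) (nat_lit 84) (nat_lit 5) (nat_lit 83) (nat_lit 5) (nat_lit 95) (nat_lit 5) (nat_lit 423) (nat_lit 415) (nat_lit 50)))) (XT.nd (nat_lit 94) (nat_lit 0) (nat_lit 0) (XT.lf (nat_lit 84) (nat_lit 65989835304) (nat_lit 0) (nat_lit 106592077602) (nat_lit 1008) (nat_lit 9738033471) (nat_lit 84) (nat_lit 5) (nat_lit 83) (nat_lit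 5) (nat_lit 95) (nat_lit 5) (nat_lit 424) (nat_lit 415) (nat_lit 49)) (XT.nd (nat_lit 94) (nat_lit 0) (nat_lit 84) (XT.lf (nat_lit 84) (nat_lit 127970882823) (nat_lit 0) (nat_lit 51175875987) (nat_lit 1008) (nat_lit 6275681816) (nat_lit 84) (nat_lit 5) (nat_lit 83) (nat_lit 5) (nat_lit 95) (nat_lit 5) (nat_lit 425) (nat_lit 415) (nat_lit 48)) (XT.lf (nat_lit 84) (nat_lit 3258736778) (nat_lit 0) (nat_lit 182747749588) (nat_lit 1008) (nat_lit 2611793767) (nat_lit 85) (nat_lit 5) (nat_lit 84) (nat_lit 5) (nat_lit 96) (nat_lit 5) (nat_lit 426) (nat_lit 415) (nat_lit 47))))) (XT.nd (nat_lit 282) (nat_lit 0) (nat_lit 0) (XT.nd (nat_lit 94) (nat_lit 0) (nat_lit 0) (XT.lf (nat_lit 0) (nat_lit 35030816038) (nat_lit 0) (nat_lit 35030816038) (nat_lit 924) (nat_lit 11302555152) (nat_lit 81) (nat_lit 5) (nat_lit 81) (nat_lit 3) (nat_lit 92) (nat_lit 3) (nat_lit 416) (nat_lit 416) (nat_lit 56))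 (XT.nd (nat_lit 94) (nat_lit 0) (nat_lit 0) (XT.lf (nat_lit 0) (nat_lit 124497406348) (nat_lit 0) (nat_lit 17799670825) (nat_lit 924) (nat_lit 22953514230) (nat_lit 81) (nat_lit 5) (nat_lit 81) (nat_lit 3) (nat_lit 92) (nat_lit 3) (nat_lit 417) (nat_lit 416) (nat_lit 55)) (XT.lf (nat_lit 84) (nat_lit 12666919105) (nat_lit 0) (nat_lit 132354882406) (nat_lit 1008) (nat_lit 22814206906) (nat_lit 82) (nat_lit 5) (nat_lit 81) (nat_lit 5) (nat_lit 93) (nat_lit 5) (nat_lit 418) (nat_lit 416) (nat_lit 54)))) (XT.nd (nat_lit 188) (nat_lit 0) (nat_lit 84) (XT.nd (nat_lit 94) (nat_lit 0) (nat_lit 0) (XT.lf (nat_lit 84) (nat_lit 68421159323) (nat_lit 0) (nat_lit 80015343936) (nat_lit 1008) (nat_lit 22046299802) (nat_lit 82) (nat_lit 5) (nat_lit 81) (nat_lit 5) (nat_lit 93) (nat_lit 5) (nat_lit 419) (nat_lit 416) (nat_lit 53)) (XT.lf (nat_lit 84) (nat_lit 125903741004) (nat_lit 0) (nat_lit 26053247600)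 (nat_lit 1008) (nat_lit 21254662499) (nat_lit 82) (nat_lit 5) (nat_lit 81) (nat_lit 5) (nat_lit 93) (nat_lit 5) (nat_lit 420) (nat_lit 416) (nat_lit 52))) (XT.nd (nat_lit 94) (nat_lit 0) (nat_lit 0) (XT.lf (nat_lit 84) (nat_lit 9031661495) (nat_lit 0) (nat_lit 146937926886) (nat_lit 1008) (nat_lit 20043633201) (nat_lit 83) (nat_lit 5) (nat_lit 82) (nat_lit 5) (nat_lit 94) (nat_lit 5) (nat_lit 421) (nat_lit 416) (nat_lit 51)) (XT.lf (nat_lit 84) (nat_lit 67848678825) (nat_lit 0) (nat_lit 93015395222) (nat_lit 1008) (nat_lit 18014084841) (nat_lit 83) (nat_lit 5) (nat_lit 82) (nat_lit 5) (nat_lit 94) (nat_lit 5) (nat_lit 422) (nat_lit 416) (nat_lit 50)))))) (XT.nd (nat_lit 55272) (nat_lit 0) (nat_lit 0) (XT.nd (nat_lit 282) (nat_lit 84) (nat_lit 0) (XT.nd (nat_lit 94) (nat_lit 0) (nat_lit 84) (XT.lf (nat_lit 84) (nat_lit 128488983587) (nat_lit 0) (nat_lit 37421239234) (nat_lit 1008)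 (nat_lit 15921688955) (nat_lit 83) (nat_lit 5) (nat_lit 82) (nat_lit 5) (nat_lit 94) (nat_lit 5) (nat_lit 423) (nat_lit 416) (nat_lit 49)) (XT.nd (nat_lit 94) (nat_lit 0) (nat_lit 0) (XT.lf (nat_lit 84) (nat_lit 6056516390) (nat_lit 0) (nat_lit 165313677602) (nat_lit 1008) (nat_lit 13499058330) (nat_lit 84) (nat_lit 5) (nat_lit 83) (nat_lit 5) (nat_lit 95) (nat_lit 5) (nat_lit 424) (nat_lit 416) (nat_lit 48)) (XT.lf (nat_lit 84) (nat_lit 68037543635) (nat_lit 0) (nat_lit 109897465631) (nat_lit 1008) (nat_lit 10036738477) (nat_lit 84) (nat_lit 5) (nat_lit 83) (nat_lit 5) (nat_lit 95) (nat_lit 5) (nat_lit 425) (nat_lit 416) (nat_lit 47)))) (XT.nd (nat_lit 94) (nat_lit 168) (nat_lit 0) (XT.lf (nat_lit 84) (nat_lit 131939942787) (nat_lit 0) (nat_lit 52763330687) (nat_lit 1008) (nat_lit 6467149357) (nat_lit 84) (nat_lit 5) (nat_lit 83) (nat_lit 5) (nat_lit 95) (nat_lit 5) (nat_lit 426)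 (nat_lit 416) (nat_lit 46)) (XT.nd (nat_lit 54802) (nat_lit 252) (nat_lit 0) (XT.lf (nat_lit 84) (nat_lit 3361822495) (nat_lit 0) (nat_lit 188413751772) (nat_lit 1008) (nat_lit 2689762173) (nat_lit 85) (nat_lit 5) (nat_lit 84) (nat_lit 5) (nat_lit 96) (nat_lit 5) (nat_lit 427) (nat_lit 416) (nat_lit 45)) (XT.lf (nat_lit 0) (nat_lit 36117713112) (nat_lit 0) (nat_lit 36117713112) (nat_lit 924) (nat_lit 11650978672) (nat_lit 81) (nat_lit 5) (nat_lit 81) (nat_lit 3) (nat_lit 92) (nat_lit 3) (nat_lit 417) (nat_lit 417) (nat_lit 54))))) (XT.nd (nat_lit 282) (nat_lit 0) (nat_lit 0) (XT.nd (nat_lit 94) (nat_lit 0) (nat_lit 0) (XT.lf (nat_lit 0) (nat_lit 128358652864) (nat_lit 0) (nat_lit 18353287541) (nat_lit 924) (nat_lit 23661279398) (nat_lit 81) (nat_lit 5) (nat_lit 81) (nat_lit 3) (nat_lit 92) (nat_lit 3) (nat_lit 418) (nat_lit 417) (nat_lit 53)) (XT.nd (nat_lit 94) (nat_lit 0) (nat_lit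 0) (XT.lf (nat_lit 84) (nat_lit 13061558478) (nat_lit 0) (nat_lit 136459464769) (nat_lit 1008) (nat_lit 23517765645) (nat_lit 82) (nat_lit 5) (nat_lit 81) (nat_lit 5) (nat_lit 93) (nat_lit 5) (nat_lit 419) (nat_lit 417) (nat_lit 52)) (XT.lf (nat_lit 84) (nat_lit 70544121063) (nat_lit 0) (nat_lit 82497353069) (nat_lit 1008) (nat_lit 22726164121) (nat_lit 82) (nat_lit 5) (nat_lit 81) (nat_lit 5) (nat_lit 93) (nat_lit 5) (nat_lit 420) (nat_lit 417) (nat_lit 51)))) (XT.nd (nat_lit 188) (nat_lit 0) (nat_lit 84) (XT.nd (nat_lit 94) (nat_lit 0) (nat_lit 84) (XT.lf (nat_lit 84) (nat_lit 129808605472) (nat_lit 0) (nat_lit 26862385639) (nat_lit 1008) (nat_lit 21910093433) (nat_lit 82) (nat_lit 5) (nat_lit 81) (nat_lit 5) (nat_lit 93) (nat_lit 5) (nat_lit 421) (nat_lit 417) (nat_lit 50)) (XT.lf (nat_lit 84) (nat_lit 9313613839) (nat_lit 0) (nat_lit 151494272580) (nat_lit 1008) (nat_lit 20661620969)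 (nat_lit 83) (nat_lit 5) (nat_lit 82) (nat_lit 5) (nat_lit 94) (nat_lit 5) (nat_lit 422) (nat_lit 417) (nat_lit 49))) (XT.nd (nat_lit 94) (nat_lit 0) (nat_lit 0) (XT.lf (nat_lit 84) (nat_lit 69953899448) (nat_lit 0) (nat_lit 95900104250) (nat_lit 1008) (nat_lit 18569257783) (nat_lit 83) (nat_lit 5) (nat_lit 82) (nat_lit 5) (nat_lit 94) (nat_lit 5) (nat_lit 423) (nat_lit 417) (nat_lit 48)) (XT.lf (nat_lit 84) (nat_lit 132473996180) (nat_lit 0) (nat_lit 38582492388) (nat_lit 1008) (nat_lit 16412095758) (nat_lit 83) (nat_lit 5) (nat_lit 82) (nat_lit 5) (nat_lit 94) (nat_lit 5) (nat_lit 424) (nat_lit 417) (nat_lit 47))))))))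
noncomputable def xc254 : XT := (XT.nd (nat_lit 166944) (nat_lit 0) (nat_lit 0) (XT.nd (nat_lit 55930) (nat_lit 0) (nat_lit 0) (XT.nd (nat_lit 55366) (nat_lit 0) (nat_lit 0) (XT.nd (nat_lit 55084) (nat_lit 168) (nat_lit 0) (XT.nd (nat_lit 94) (nat_lit 0) (nat_lit 0) (XT.lf (nat_lit 84) (nat_lit 6246230995) (nat_lit 0) (nat_lit 170439404153) (nat_lit 1008) (nat_lit 13914450544) (nat_lit 84) (nat_lit 5) (nat_lit 83) (nat_lit 5) (nat_lit 95) (nat_lit 5) (nat_lit 425) (nat_lit 417) (nat_lit 46)) (XT.nd (nat_lit 94) (nat_lit 0) (nat_lit 0) (XT.lf (nat_lit 84) (nat_lit 70148611073) (nat_lit 0) (nat_lit 113305259466) (nat_lit 1008) (nat_lit 10344891342) (nat_lit 84) (nat_lit 5) (nat_lit 83) (nat_lit 5) (nat_lit 95) (nat_lit 5) (nat_lit 426) (nat_lit 417) (nat_lit 45)) (XT.lf (nat_lit 84) (nat_lit 136031927362) (nat_lit 0) (nat_lit 54399937101) (nat_lit 1008) (nat_lit 6664734743) (nat_lit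 84) (nat_lit 5) (nat_lit 83) (nat_lit 5) (nat_lit 95) (nat_lit 5) (nat_lit 427) (nat_lit 417) (nat_lit 44)))) (XT.nd (nat_lit 94) (nat_lit 0) (nat_lit 0) (XT.lf (nat_lit 0) (nat_lit 37238248213) (nat_lit 0) (nat_lit 37238248213) (nat_lit 924) (nat_lit 12010319160) (nat_lit 81) (nat_lit 5) (nat_lit 81) (nat_lit 3) (nat_lit 92) (nat_lit 3) (nat_lit 418) (nat_lit 418) (nat_lit 52)) (XT.nd (nat_lit 94) (nat_lit 0) (nat_lit 0) (XT.lf (nat_lit 0) (nat_lit 132339489811) (nat_lit 0) (nat_lit 18923958162) (nat_lit 924) (nat_lit 24391209998) (nat_lit 81) (nat_lit 5) (nat_lit 81) (nat_lit 3) (nat_lit 92) (nat_lit 3) (nat_lit 419) (nat_lit 418) (nat_lit 51)) (XT.lf (nat_lit 84) (nat_lit 13468315288) (nat_lit 0) (nat_lit 140691195541) (nat_lit 1008) (nat_lit 24243352777) (nat_lit 82) (nat_lit 5) (nat_lit 81) (nat_lit 5) (nat_lit 93) (nat_lit 5) (nat_lit 420) (nat_lit 418) (nat_lit 50))))) (XT.nd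 (nat_lit 282) (nat_lit 0) (nat_lit 84) (XT.nd (nat_lit 94) (nat_lit 0) (nat_lit 0) (XT.lf (nat_lit 84) (nat_lit 72732781733) (nat_lit 0) (nat_lit 85056213656) (nat_lit 1008) (nat_lit 23427315749) (nat_lit 82) (nat_lit 5) (nat_lit 81) (nat_lit 5) (nat_lit 93) (nat_lit 5) (nat_lit 421) (nat_lit 418) (nat_lit 49)) (XT.nd (nat_lit 94) (nat_lit 0) (nat_lit 84) (XT.lf (nat_lit 84) (nat_lit 133834411249) (nat_lit 0) (nat_lit 27696518858) (nat_lit 1008) (nat_lit 22586047882) (nat_lit 82) (nat_lit 5) (nat_lit 81) (nat_lit 5) (nat_lit 93) (nat_lit 5) (nat_lit 422) (nat_lit 418) (nat_lit 48)) (XT.lf (nat_lit 84) (nat_lit 9604189970) (nat_lit 0) (nat_lit 156191789768) (nat_lit 1008) (nat_lit 21298965663) (nat_lit 83) (nat_lit 5) (nat_lit 82) (nat_lit 5) (nat_lit 94) (nat_lit 5) (nat_lit 423) (nat_lit 418) (nat_lit 47)))) (XT.nd (nat_lit 94) (nat_lit 0) (nat_lit 0) (XT.lf (nat_lit 84) (nat_lit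 72124268683) (nat_lit 0) (nat_lit 98874166296) (nat_lit 1008) (nat_lit 19141834401) (nat_lit 83) (nat_lit 5) (nat_lit 82) (nat_lit 5) (nat_lit 94) (nat_lit 5) (nat_lit 424) (nat_lit 418) (nat_lit 46)) (XT.nd (nat_lit 94) (nat_lit 0) (nat_lit 84) (XT.lf (nat_lit 84) (nat_lit 136582434341) (nat_lit 0) (nat_lit 39779673624) (nat_lit 1008) (nat_lit 16917892672) (nat_lit 83) (nat_lit 5) (nat_lit 82) (nat_lit 5) (nat_lit 94) (nat_lit 5) (nat_lit 425) (nat_lit 418) (nat_lit 45)) (XT.lf (nat_lit 84) (nat_lit 6441710504) (nat_lit 0) (nat_lit 175723968844) (nat_lit 1008) (nat_lit 14342902267) (nat_lit 84) (nat_lit 5) (nat_lit 83) (nat_lit 5) (nat_lit 95) (nat_lit 5) (nat_lit 426) (nat_lit 418) (nat_lit 44)))))) (XT.nd (nat_lit 55460) (nat_lit 0) (nat_lit 0) (XT.nd (nat_lit 55178) (nat_lit 0) (nat_lit 0) (XT.nd (nat_lit 54990) (nat_lit 168) (nat_lit 0) (XT.lf (nat_lit 84) (nat_lit 72325008849)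 (nat_lit 0) (nat_lit 116818637313) (nat_lit 1008) (nat_lit 10662773814) (nat_lit 84) (nat_lit 5) (nat_lit 83) (nat_lit 5) (nat_lit 95) (nat_lit 5) (nat_lit 427) (nat_lit 418) (nat_lit 43)) (XT.nd (nat_lit 94) (nat_lit 0) (nat_lit 0) (XT.lf (nat_lit 0) (nat_lit 38393467422) (nat_lit 0) (nat_lit 38393467422) (nat_lit 924) (nat_lit 12380908180) (nat_lit 81) (nat_lit 5) (nat_lit 81) (nat_lit 3) (nat_lit 92) (nat_lit 3) (nat_lit 419) (nat_lit 419) (nat_lit 50)) (XT.lf (nat_lit 0) (nat_lit 136443630902) (nat_lit 0) (nat_lit 19512217772) (nat_lit 924) (nat_lit 25143979849) (nat_lit 81) (nat_lit 5) (nat_lit 81) (nat_lit 3) (nat_lit 92) (nat_lit 3) (nat_lit 420) (nat_lit 419) (nat_lit 49)))) (XT.nd (nat_lit 94) (nat_lit 0) (nat_lit 0) (XT.lf (nat_lit 84) (nat_lit 13887572070) (nat_lit 0) (nat_lit 145054021866) (nat_lit 1008) (nat_lit 24991638265) (nat_lit 82) (nat_lit 5) (nat_lit 81) (nat_lit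 5) (nat_lit 93) (nat_lit 5) (nat_lit 421) (nat_lit 419) (nat_lit 48)) (XT.nd (nat_lit 94) (nat_lit 0) (nat_lit 0) (XT.lf (nat_lit 84) (nat_lit 74989184686) (nat_lit 0) (nat_lit 87694313470) (nat_lit 1008) (nat_lit 24150402064) (nat_lit 82) (nat_lit 5) (nat_lit 81) (nat_lit 5) (nat_lit 93) (nat_lit 5) (nat_lit 422) (nat_lit 419) (nat_lit 47)) (XT.lf (nat_lit 84) (nat_lit 137984914001) (nat_lit 0) (nat_lit 28556427326) (nat_lit 1008) (nat_lit 23283149922) (nat_lit 82) (nat_lit 5) (nat_lit 81) (nat_lit 5) (nat_lit 93) (nat_lit 5) (nat_lit 423) (nat_lit 419) (nat_lit 46))))) (XT.nd (nat_lit 282) (nat_lit 84) (nat_lit 0) (XT.nd (nat_lit 94) (nat_lit 0) (nat_lit 0) (XT.lf (nat_lit 84) (nat_lit 9903664139) (nat_lit 0) (nat_lit 161034859223) (nat_lit 1008) (nat_lit 21956255544) (nat_lit 83) (nat_lit 5) (nat_lit 82) (nat_lit 5) (nat_lit 94) (nat_lit 5) (nat_lit 424) (nat_lit 419) (nat_lit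 45)) (XT.nd (nat_lit 94) (nat_lit 0) (nat_lit 0) (XT.lf (nat_lit 84) (nat_lit 74361812845) (nat_lit 0) (nat_lit 101940355628) (nat_lit 1008) (nat_lit 19732342757) (nat_lit 83) (nat_lit 5) (nat_lit 82) (nat_lit 5) (nat_lit 94) (nat_lit 5) (nat_lit 425) (nat_lit 419) (nat_lit 44)) (XT.lf (nat_lit 84) (nat_lit 140818130769) (nat_lit 0) (nat_lit 41013900904) (nat_lit 1008) (nat_lit 17439545686) (nat_lit 83) (nat_lit 5) (nat_lit 82) (nat_lit 5) (nat_lit 94) (nat_lit 5) (nat_lit 426) (nat_lit 419) (nat_lit 43)))) (XT.nd (nat_lit 55084) (nat_lit 168) (nat_lit 0) (XT.nd (nat_lit 94) (nat_lit 0) (nat_lit 0) (XT.lf (nat_lit 84) (nat_lit 6643140515) (nat_lit 0) (nat_lit 181172299176) (nat_lit 1008) (nat_lit 14784807542) (nat_lit 84) (nat_lit 5) (nat_lit 83) (nat_lit 5) (nat_lit 95) (nat_lit 5) (nat_lit 427) (nat_lit 419) (nat_lit 42)) (XT.lf (nat_lit 84) (nat_lit 74568768882) (nat_lit 0) (nat_lit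 120440875688) (nat_lit 1008) (nat_lit 10990677033) (nat_lit 84) (nat_lit 5) (nat_lit 83) (nat_lit 5) (nat_lit 95) (nat_lit 5) (nat_lit 428) (nat_lit 419) (nat_lit 41))) (XT.nd (nat_lit 94) (nat_lit 0) (nat_lit 0) (XT.lf (nat_lit 0) (nat_lit 39584449057) (nat_lit 0) (nat_lit 39584449057) (nat_lit 924) (nat_lit 12763087983) (nat_lit 81) (nat_lit 5) (nat_lit 81) (nat_lit 3) (nat_lit 92) (nat_lit 3) (nat_lit 420) (nat_lit 420) (nat_lit 48)) (XT.lf (nat_lit 0) (nat_lit 140674904593) (nat_lit 0) (nat_lit 20118617656) (nat_lit 924) (nat_lit 25920284444) (nat_lit 81) (nat_lit 5) (nat_lit 81) (nat_lit 3) (nat_lit 92) (nat_lit 3) (nat_lit 421) (nat_lit 420) (nat_lit 47))))))) (XT.nd (nat_lit 56118) (nat_lit 0) (nat_lit 0) (XT.nd (nat_lit 564) (nat_lit 0) (nat_lit 0) (XT.nd (nat_lit 282) (nat_lit 0) (nat_lit 84) (XT.nd (nat_lit 94) (nat_lit 0) (nat_lit 0) (XT.lf (nat_lit 84) (nat_lit 14319722807)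 (nat_lit 0) (nat_lit 149552012928) (nat_lit 1008) (nat_lit 25763313607) (nat_lit 82) (nat_lit 5) (nat_lit 81) (nat_lit 5) (nat_lit 93) (nat_lit 5) (nat_lit 422) (nat_lit 420) (nat_lit 46)) (XT.nd (nat_lit 94) (nat_lit 0) (nat_lit 0) (XT.lf (nat_lit 84) (nat_lit 77315436223) (nat_lit 0) (nat_lit 90414113990) (nat_lit 1008) (nat_lit 24896091255) (nat_lit 82) (nat_lit 5) (nat_lit 81) (nat_lit 5) (nat_lit 93) (nat_lit 5) (nat_lit 423) (nat_lit 420) (nat_lit 45)) (XT.lf (nat_lit 84) (nat_lit 142263985435) (nat_lit 0) (nat_lit 29442914985) (nat_lit 1008) (nat_lit 24002043696) (nat_lit 82) (nat_lit 5) (nat_lit 81) (nat_lit 5) (nat_lit 93) (nat_lit 5) (nat_lit 424) (nat_lit 420) (nat_lit 44)))) (XT.nd (nat_lit 94) (nat_lit 0) (nat_lit 0) (XT.lf (nat_lit 84) (nat_lit 10212318691) (nat_lit 0) (nat_lit 166027997256) (nat_lit 1008) (nat_lit 22634097807) (nat_lit 83) (nat_lit 5) (nat_lit 82)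 (nat_lit 5) (nat_lit 94) (nat_lit 5) (nat_lit 425) (nat_lit 420) (nat_lit 43)) (XT.nd (nat_lit 94) (nat_lit 0) (nat_lit 0) (XT.lf (nat_lit 84) (nat_lit 76668620667) (nat_lit 0) (nat_lit 105101532256) (nat_lit 1008) (nat_lit 20341327963) (nat_lit 83) (nat_lit 5) (nat_lit 82) (nat_lit 5) (nat_lit 94) (nat_lit 5) (nat_lit 426) (nat_lit 420) (nat_lit 42)) (XT.lf (nat_lit 84) (nat_lit 145185036589) (nat_lit 0) (nat_lit 42286326598) (nat_lit 1008) (nat_lit 17977535890) (nat_lit 83) (nat_lit 5) (nat_lit 82) (nat_lit 5) (nat_lit 94) (nat_lit 5) (nat_lit 427) (nat_lit 420) (nat_lit 41))))) (XT.nd (nat_lit 55178) (nat_lit 0) (nat_lit 0) (XT.nd (nat_lit 94) (nat_lit 168) (nat_lit 0) (XT.lf (nat_lit 84) (nat_lit 6850711973) (nat_lit 0) (nat_lit 186789475192) (nat_lit 1008) (nat_lit 15240573270) (nat_lit 84) (nat_lit 5) (nat_lit 83) (nat_lit 5) (nat_lit 95) (nat_lit 5) (nat_lit 428) (nat_lit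 420) (nat_lit 40)) (XT.nd (nat_lit 54990) (nat_lit 168) (nat_lit 0) (XT.lf (nat_lit 84) (nat_lit 76881985685) (nat_lit 0) (nat_lit 124175352477) (nat_lit 1008) (nat_lit 11328901788) (nat_lit 84) (nat_lit 5) (nat_lit 83) (nat_lit 5) (nat_lit 95) (nat_lit 5) (nat_lit 429) (nat_lit 420) (nat_lit 39)) (XT.lf (nat_lit 0) (nat_lit 40812304676) (nat_lit 0) (nat_lit 40812304676) (nat_lit 924) (nat_lit 13157211810) (nat_lit 81) (nat_lit 5) (nat_lit 81) (nat_lit 3) (nat_lit 92) (nat_lit 3) (nat_lit 421) (nat_lit 421) (nat_lit 46)))) (XT.nd (nat_lit 188) (nat_lit 0) (nat_lit 0) (XT.nd (nat_lit 94) (nat_lit 0) (nat_lit 0) (XT.lf (nat_lit 0) (nat_lit 145037257670) (nat_lit 0) (nat_lit 20743725838) (nat_lit 924) (nat_lit 26720841582) (nat_lit 81) (nat_lit 5) (nat_lit 81) (nat_lit 3) (nat_lit 92) (nat_lit 3) (nat_lit 422) (nat_lit 421) (nat_lit 45)) (XT.lf (nat_lit 84) (nat_lit 14765173314) (nat_lit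 0) (nat_lit 154189363740) (nat_lit 1008) (nat_lit 26559092456) (nat_lit 82) (nat_lit 5) (nat_lit 81) (nat_lit 5) (nat_lit 93) (nat_lit 5) (nat_lit 423) (nat_lit 421) (nat_lit 44))) (XT.nd (nat_lit 94) (nat_lit 0) (nat_lit 0) (XT.lf (nat_lit 84) (nat_lit 79713707568) (nat_lit 0) (nat_lit 93218152699) (nat_lit 1008) (nat_lit 25665072923) (nat_lit 82) (nat_lit 5) (nat_lit 81) (nat_lit 5) (nat_lit 93) (nat_lit 5) (nat_lit 424) (nat_lit 421) (nat_lit 43)) (XT.lf (nat_lit 84) (nat_lit 146675616920) (nat_lit 0) (nat_lit 30356810408) (nat_lit 1008) (nat_lit 24743393995) (nat_lit 82) (nat_lit 5) (nat_lit 81) (nat_lit 5) (nat_lit 93) (nat_lit 5) (nat_lit 425) (nat_lit 421) (nat_lit 42)))))) (XT.nd (nat_lit 55554) (nat_lit 0) (nat_lit 0) (XT.nd (nat_lit 282) (nat_lit 84) (nat_lit 0) (XT.nd (nat_lit 94) (nat_lit 0) (nat_lit 0) (XT.lf (nat_lit 84) (nat_lit 10530444336) (nat_lit 0) (nat_lit 171175859937)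 (nat_lit 1008) (nat_lit 23333119127) (nat_lit 83) (nat_lit 5) (nat_lit 82) (nat_lit 5) (nat_lit 94) (nat_lit 5) (nat_lit 426) (nat_lit 421) (nat_lit 41)) (XT.nd (nat_lit 94) (nat_lit 0) (nat_lit 0) (XT.lf (nat_lit 84) (nat_lit 79046845256) (nat_lit 0) (nat_lit 108360644611) (nat_lit 1008) (nat_lit 20969352669) (nat_lit 83) (nat_lit 5) (nat_lit 82) (nat_lit 5) (nat_lit 94) (nat_lit 5) (nat_lit 427) (nat_lit 421) (nat_lit 40)) (XT.lf (nat_lit 84) (nat_lit 149687225049) (nat_lit 0) (nat_lit 43598138566) (nat_lit 1008) (nat_lit 18532359908) (nat_lit 83) (nat_lit 5) (nat_lit 82) (nat_lit 5) (nat_lit 94) (nat_lit 5) (nat_lit 428) (nat_lit 421) (nat_lit 39)))) (XT.nd (nat_lit 55084) (nat_lit 168) (nat_lit 0) (XT.lf (nat_lit 84) (nat_lit 7064621355) (nat_lit 0) (nat_lit 192580734221) (nat_lit 1008) (nat_lit 15710619564) (nat_lit 84) (nat_lit 5) (nat_lit 83) (nat_lit 5) (nat_lit 95) (nat_lit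 5) (nat_lit 429) (nat_lit 421) (nat_lit 38)) (XT.nd (nat_lit 94) (nat_lit 0) (nat_lit 0) (XT.lf (nat_lit 0) (nat_lit 42078180124) (nat_lit 0) (nat_lit 42078180124) (nat_lit 924) (nat_lit 13563644212) (nat_lit 81) (nat_lit 5) (nat_lit 81) (nat_lit 3) (nat_lit 92) (nat_lit 3) (nat_lit 422) (nat_lit 422) (nat_lit 44)) (XT.lf (nat_lit 0) (nat_lit 149534758930) (nat_lit 0) (nat_lit 21388127611) (nat_lit 924) (nat_lit 27546392009) (nat_lit 81) (nat_lit 5) (nat_lit 81) (nat_lit 3) (nat_lit 92) (nat_lit 3) (nat_lit 423) (nat_lit 422) (nat_lit 43))))) (XT.nd (nat_lit 282) (nat_lit 0) (nat_lit 84) (XT.nd (nat_lit 94) (nat_lit 0) (nat_lit 0) (XT.lf (nat_lit 84) (nat_lit 15224341623) (nat_lit 0) (nat_lit 158970399075) (nat_lit 1008) (nat_lit 27379711266) (nat_lit 82) (nat_lit 5) (nat_lit 81) (nat_lit 5) (nat_lit 93) (nat_lit 5) (nat_lit 424) (nat_lit 422) (nat_lit 42)) (XT.nd (nat_lit 94) (nat_lit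 0) (nat_lit 0) (XT.lf (nat_lit 84) (nat_lit 82186236903) (nat_lit 0) (nat_lit 96109045461) (nat_lit 1008) (nat_lit 26458058704) (nat_lit 82) (nat_lit 5) (nat_lit 81) (nat_lit 5) (nat_lit 93) (nat_lit 5) (nat_lit 425) (nat_lit 422) (nat_lit 41)) (XT.lf (nat_lit 84) (nat_lit 151223923217) (nat_lit 0) (nat_lit 31298967580) (nat_lit 1008) (nat_lit 25507886851) (nat_lit 82) (nat_lit 5) (nat_lit 81) (nat_lit 5) (nat_lit 93) (nat_lit 5) (nat_lit 426) (nat_lit 422) (nat_lit 40)))) (XT.nd (nat_lit 188) (nat_lit 0) (nat_lit 0) (XT.nd (nat_lit 94) (nat_lit 0) (nat_lit 0) (XT.lf (nat_lit 84) (nat_lit 10858340437) (nat_lit 0) (nat_lit 176483247439) (nat_lit 1008) (nat_lit 24053966226) (nat_lit 83) (nat_lit 5) (nat_lit 82) (nat_lit 5) (nat_lit 94) (nat_lit 5) (nat_lit 427) (nat_lit 422) (nat_lit 39)) (XT.lf (nat_lit 84) (nat_lit 81498706117) (nat_lit 0) (nat_lit 111720732299) (nat_lit 1008) (nat_lit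 21616997563) (nat_lit 83) (nat_lit 5) (nat_lit 82) (nat_lit 5) (nat_lit 94) (nat_lit 5) (nat_lit 428) (nat_lit 422) (nat_lit 38))) (XT.nd (nat_lit 94) (nat_lit 0) (nat_lit 84) (XT.lf (nat_lit 84) (nat_lit 154328895328) (nat_lit 0) (nat_lit 44950561274) (nat_lit 1008) (nat_lit 19104530342) (nat_lit 83) (nat_lit 5) (nat_lit 82) (nat_lit 5) (nat_lit 94) (nat_lit 5) (nat_lit 429) (nat_lit 422) (nat_lit 37)) (XT.lf (nat_lit 84) (nat_lit 7285070870) (nat_lit 0) (nat_lit 198551475765) (nat_lit 1008) (nat_lit 16195380129) (nat_lit 84) (nat_lit 5) (nat_lit 83) (nat_lit 5) (nat_lit 95) (nat_lit 5) (nat_lit 430) (nat_lit 422) (nat_lit 36))))))))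
noncomputable def xc255 : XT := (XT.nd (nat_lit 167696) (nat_lit 0) (nat_lit 0) (XT.nd (nat_lit 56306) (nat_lit 0) (nat_lit 0) (XT.nd (nat_lit 564) (nat_lit 0) (nat_lit 0) (XT.nd (nat_lit 282) (nat_lit 0) (nat_lit 0) (XT.nd (nat_lit 94) (nat_lit 0) (nat_lit 0) (XT.lf (nat_lit 0) (nat_lit 43383256604) (nat_lit 0) (nat_lit 43383256604) (nat_lit 924) (nat_lit 13982761381) (nat_lit 81) (nat_lit 5) (nat_lit 81) (nat_lit 3) (nat_lit 92) (nat_lit 3) (nat_lit 423) (nat_lit 423) (nat_lit 42)) (XT.nd (nat_lit 94) (nat_lit 0) (nat_lit 0) (XT.lf (nat_lit 0) (nat_lit 154171602987) (nat_lit 0) (nat_lit 22052426097) (nat_lit 924) (nat_lit 28397700091) (nat_lit 81) (nat_lit 5) (nat_lit 81) (nat_lit 3) (nat_lit 92) (nat_lit 3) (nat_lit 424) (nat_lit 423) (nat_lit 41)) (XT.lf (nat_lit 84) (nat_lit 15697658386) (nat_lit 0) (nat_lit 163899577496) (nat_lit 1008) (nat_lit 28225929958) (nat_lit 82) (nat_lit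 5) (nat_lit 81) (nat_lit 5) (nat_lit 93) (nat_lit 5) (nat_lit 425) (nat_lit 423) (nat_lit 40)))) (XT.nd (nat_lit 94) (nat_lit 0) (nat_lit 0) (XT.lf (nat_lit 84) (nat_lit 84735331462) (nat_lit 0) (nat_lit 99089488964) (nat_lit 1008) (nat_lit 27275782910) (nat_lit 82) (nat_lit 5) (nat_lit 81) (nat_lit 5) (nat_lit 93) (nat_lit 5) (nat_lit 426) (nat_lit 423) (nat_lit 39)) (XT.nd (nat_lit 94) (nat_lit 0) (nat_lit 84) (XT.lf (nat_lit 84) (nat_lit 155913146326) (nat_lit 0) (nat_lit 32270266704) (nat_lit 1008) (nat_lit 26296230167) (nat_lit 82) (nat_lit 5) (nat_lit 81) (nat_lit 5) (nat_lit 93) (nat_lit 5) (nat_lit 427) (nat_lit 423) (nat_lit 38)) (XT.lf (nat_lit 84) (nat_lit 11196315293) (nat_lit 0) (nat_lit 181955108522) (nat_lit 1008) (nat_lit 24797306456) (nat_lit 83) (nat_lit 5) (nat_lit 82) (nat_lit 5) (nat_lit 94) (nat_lit 5) (nat_lit 428) (nat_lit 423) (nat_lit 37))))) (XT.nd (nat_lit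 55366) (nat_lit 0) (nat_lit 0) (XT.nd (nat_lit 94) (nat_lit 84) (nat_lit 0) (XT.lf (nat_lit 84) (nat_lit 84026491227) (nat_lit 0) (nat_lit 115184928941) (nat_lit 1008) (nat_lit 22284861904) (nat_lit 83) (nat_lit 5) (nat_lit 82) (nat_lit 5) (nat_lit 94) (nat_lit 5) (nat_lit 429) (nat_lit 423) (nat_lit 36)) (XT.nd (nat_lit 55178) (nat_lit 84) (nat_lit 0) (XT.lf (nat_lit 84) (nat_lit 159114376458) (nat_lit 0) (nat_lit 46344856938) (nat_lit 1008) (nat_lit 19694576230) (nat_lit 83) (nat_lit 5) (nat_lit 82) (nat_lit 5) (nat_lit 94) (nat_lit 5) (nat_lit 430) (nat_lit 423) (nat_lit 35)) (XT.lf (nat_lit 0) (nat_lit 44728751783) (nat_lit 0) (nat_lit 44728751783) (nat_lit 924) (nat_lit 14414951489) (nat_lit 81) (nat_lit 5) (nat_lit 81) (nat_lit 3) (nat_lit 92) (nat_lit 3) (nat_lit 424) (nat_lit 424) (nat_lit 40)))) (XT.nd (nat_lit 188) (nat_lit 0) (nat_lit 0) (XT.nd (nat_lit 94) (nat_lit 0)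 (nat_lit 0) (XT.lf (nat_lit 0) (nat_lit 158952114191) (nat_lit 0) (nat_lit 22737242817) (nat_lit 924) (nat_lit 29275554507) (nat_lit 81) (nat_lit 5) (nat_lit 81) (nat_lit 3) (nat_lit 92) (nat_lit 3) (nat_lit 425) (nat_lit 424) (nat_lit 39)) (XT.lf (nat_lit 84) (nat_lit 16185567285) (nat_lit 0) (nat_lit 168981495528) (nat_lit 1008) (nat_lit 29098532610) (nat_lit 82) (nat_lit 5) (nat_lit 81) (nat_lit 5) (nat_lit 93) (nat_lit 5) (nat_lit 426) (nat_lit 424) (nat_lit 38))) (XT.nd (nat_lit 94) (nat_lit 0) (nat_lit 0) (XT.lf (nat_lit 84) (nat_lit 87363369694) (nat_lit 0) (nat_lit 102162263247) (nat_lit 1008) (nat_lit 28119003202) (nat_lit 82) (nat_lit 5) (nat_lit 81) (nat_lit 5) (nat_lit 93) (nat_lit 5) (nat_lit 427) (nat_lit 424) (nat_lit 37)) (XT.lf (nat_lit 84) (nat_lit 160747659446) (nat_lit 0) (nat_lit 33271615026) (nat_lit 1008) (nat_lit 27109154351) (nat_lit 82) (nat_lit 5) (nat_lit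 81) (nat_lit 5) (nat_lit 93) (nat_lit 5) (nat_lit 428) (nat_lit 424) (nat_lit 36)))))) (XT.nd (nat_lit 55648) (nat_lit 0) (nat_lit 0) (XT.nd (nat_lit 55366) (nat_lit 84) (nat_lit 0) (XT.nd (nat_lit 94) (nat_lit 0) (nat_lit 0) (XT.lf (nat_lit 84) (nat_lit 11544686441) (nat_lit 0) (nat_lit 187596545150) (nat_lit 1008) (nat_lit 25563828404) (nat_lit 83) (nat_lit 5) (nat_lit 82) (nat_lit 5) (nat_lit 94) (nat_lit 5) (nat_lit 429) (nat_lit 424) (nat_lit 35)) (XT.nd (nat_lit 188) (nat_lit 0) (nat_lit 84) (XT.lf (nat_lit 84) (nat_lit 86632559180) (nat_lit 0) (nat_lit 118756465098) (nat_lit 1008) (nat_lit 22973564057) (nat_lit 83) (nat_lit 5) (nat_lit 82) (nat_lit 5) (nat_lit 94) (nat_lit 5) (nat_lit 430) (nat_lit 424) (nat_lit 34)) (XT.lf (nat_lit 84) (nat_lit 7746428983) (nat_lit 0) (nat_lit 211053845657) (nat_lit 1008) (nat_lit 17210849179) (nat_lit 84) (nat_lit 5) (nat_lit 83) (nat_lit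 5) (nat_lit 95) (nat_lit 5) (nat_lit 432) (nat_lit 424) (nat_lit 32)))) (XT.nd (nat_lit 94) (nat_lit 0) (nat_lit 0) (XT.lf (nat_lit 0) (nat_lit 46115920931) (nat_lit 0) (nat_lit 46115920931) (nat_lit 924) (nat_lit 14860615040) (nat_lit 81) (nat_lit 5) (nat_lit 81) (nat_lit 3) (nat_lit 92) (nat_lit 3) (nat_lit 425) (nat_lit 425) (nat_lit 38)) (XT.nd (nat_lit 94) (nat_lit 0) (nat_lit 0) (XT.lf (nat_lit 0) (nat_lit 163880750667) (nat_lit 0) (nat_lit 23443218281) (nat_lit 924) (nat_lit 30180768967) (nat_lit 81) (nat_lit 5) (nat_lit 81) (nat_lit 3) (nat_lit 92) (nat_lit 3) (nat_lit 426) (nat_lit 425) (nat_lit 37)) (XT.lf (nat_lit 84) (nat_lit 16688525454) (nat_lit 0) (nat_lit 174220891943) (nat_lit 1008) (nat_lit 29998328170) (nat_lit 82) (nat_lit 5) (nat_lit 81) (nat_lit 5) (nat_lit 93) (nat_lit 5) (nat_lit 427) (nat_lit 425) (nat_lit 36))))) (XT.nd (nat_lit 282) (nat_lit 0) (nat_lit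 0) (XT.nd (nat_lit 94) (nat_lit 0) (nat_lit 0) (XT.lf (nat_lit 84) (nat_lit 90072803490) (nat_lit 0) (nat_lit 105330234294) (nat_lit 1008) (nat_lit 28988501272) (nat_lit 82) (nat_lit 5) (nat_lit 81) (nat_lit 5) (nat_lit 93) (nat_lit 5) (nat_lit 428) (nat_lit 425) (nat_lit 35)) (XT.nd (nat_lit 94) (nat_lit 0) (nat_lit 84) (XT.lf (nat_lit 84) (nat_lit 165731971064) (nat_lit 0) (nat_lit 34303947687) (nat_lit 1008) (nat_lit 27947412987) (nat_lit 82) (nat_lit 5) (nat_lit 81) (nat_lit 5) (nat_lit 93) (nat_lit 5) (nat_lit 429) (nat_lit 425) (nat_lit 34)) (XT.lf (nat_lit 84) (nat_lit 11903780960) (nat_lit 0) (nat_lit 193412817255) (nat_lit 1008) (nat_lit 26354242519) (nat_lit 83) (nat_lit 5) (nat_lit 82) (nat_lit 5) (nat_lit 94) (nat_lit 5) (nat_lit 430) (nat_lit 425) (nat_lit 33)))) (XT.nd (nat_lit 55272) (nat_lit 84) (nat_lit 0) (XT.nd (nat_lit 94) (nat_lit 0) (nat_lit 0) (XT.lf (nat_lit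 84) (nat_lit 89319341395) (nat_lit 0) (nat_lit 122438671292) (nat_lit 1008) (nat_lit 23683742054) (nat_lit 83) (nat_lit 5) (nat_lit 82) (nat_lit 5) (nat_lit 94) (nat_lit 5) (nat_lit 431) (nat_lit 425) (nat_lit 32)) (XT.lf (nat_lit 84) (nat_lit 169134761053) (nat_lit 0) (nat_lit 49264311887) (nat_lit 1008) (nat_lit 20930495600) (nat_lit 83) (nat_lit 5) (nat_lit 82) (nat_lit 5) (nat_lit 94) (nat_lit 5) (nat_lit 432) (nat_lit 425) (nat_lit 31))) (XT.nd (nat_lit 94) (nat_lit 0) (nat_lit 0) (XT.lf (nat_lit 0) (nat_lit 47546058096) (nat_lit 0) (nat_lit 47546058096) (nat_lit 924) (nat_lit 15320165236) (nat_lit 81) (nat_lit 5) (nat_lit 81) (nat_lit 3) (nat_lit 92) (nat_lit 3) (nat_lit 426) (nat_lit 426) (nat_lit 36)) (XT.lf (nat_lit 0) (nat_lit 168962108478) (nat_lit 0) (nat_lit 24171012589) (nat_lit 924) (nat_lit 31114182950) (nat_lit 81) (nat_lit 5) (nat_lit 81) (nat_lit 3) (nat_lit 92)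 (nat_lit 3) (nat_lit 427) (nat_lit 426) (nat_lit 35))))))) (XT.nd (nat_lit 111672) (nat_lit 0) (nat_lit 0) (XT.nd (nat_lit 55742) (nat_lit 0) (nat_lit 0) (XT.nd (nat_lit 282) (nat_lit 0) (nat_lit 0) (XT.nd (nat_lit 94) (nat_lit 0) (nat_lit 0) (XT.lf (nat_lit 84) (nat_lit 17207003919) (nat_lit 0) (nat_lit 179622652188) (nat_lit 1008) (nat_lit 30926151194) (nat_lit 82) (nat_lit 5) (nat_lit 81) (nat_lit 5) (nat_lit 93) (nat_lit 5) (nat_lit 428) (nat_lit 426) (nat_lit 34)) (XT.nd (nat_lit 94) (nat_lit 0) (nat_lit 0) (XT.lf (nat_lit 84) (nat_lit 92866160471) (nat_lit 0) (nat_lit 108596356713) (nat_lit 1008) (nat_lit 29885083561) (nat_lit 82) (nat_lit 5) (nat_lit 81) (nat_lit 5) (nat_lit 93) (nat_lit 5) (nat_lit 429) (nat_lit 426) (nat_lit 33)) (XT.lf (nat_lit 84) (nat_lit 170870729163) (nat_lit 0) (nat_lit 35368228607) (nat_lit 1008) (nat_lit 28811783516) (nat_lit 82) (nat_lit 5) (nat_lit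 81) (nat_lit 5) (nat_lit 93) (nat_lit 5) (nat_lit 430) (nat_lit 426) (nat_lit 32)))) (XT.nd (nat_lit 94) (nat_lit 84) (nat_lit 0) (XT.lf (nat_lit 84) (nat_lit 12273935783) (nat_lit 0) (nat_lit 199409347640) (nat_lit 1008) (nat_lit 27169281759) (nat_lit 83) (nat_lit 5) (nat_lit 82) (nat_lit 5) (nat_lit 94) (nat_lit 5) (nat_lit 431) (nat_lit 426) (nat_lit 31)) (XT.nd (nat_lit 55272) (nat_lit 84) (nat_lit 0) (XT.lf (nat_lit 84) (nat_lit 92089344386) (nat_lit 0) (nat_lit 126234981111) (nat_lit 1008) (nat_lit 24416054181) (nat_lit 83) (nat_lit 5) (nat_lit 82) (nat_lit 5) (nat_lit 94) (nat_lit 5) (nat_lit 432) (nat_lit 426) (nat_lit 30)) (XT.lf (nat_lit 0) (nat_lit 49020497313) (nat_lit 0) (nat_lit 49020497313) (nat_lit 924) (nat_lit 15794028353) (nat_lit 81) (nat_lit 5) (nat_lit 81) (nat_lit 3) (nat_lit 92) (nat_lit 3) (nat_lit 427) (nat_lit 427) (nat_lit 34))))) (XT.nd (nat_lit 282)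 (nat_lit 0) (nat_lit 0) (XT.nd (nat_lit 94) (nat_lit 0) (nat_lit 0) (XT.lf (nat_lit 0) (nat_lit 174200925920) (nat_lit 0) (nat_lit 24921306058) (nat_lit 924) (nat_lit 32076662475) (nat_lit 81) (nat_lit 5) (nat_lit 81) (nat_lit 3) (nat_lit 92) (nat_lit 3) (nat_lit 428) (nat_lit 427) (nat_lit 33)) (XT.nd (nat_lit 94) (nat_lit 0) (nat_lit 0) (XT.lf (nat_lit 84) (nat_lit 17741488036) (nat_lit 0) (nat_lit 185191812947) (nat_lit 1008) (nat_lit 31882862608) (nat_lit 82) (nat_lit 5) (nat_lit 81) (nat_lit 5) (nat_lit 93) (nat_lit 5) (nat_lit 429) (nat_lit 427) (nat_lit 32)) (XT.lf (nat_lit 84) (nat_lit 95746046359) (nat_lit 0) (nat_lit 111963676498) (nat_lit 1008) (nat_lit 30809581992) (nat_lit 82) (nat_lit 5) (nat_lit 81) (nat_lit 5) (nat_lit 93) (nat_lit 5) (nat_lit 430) (nat_lit 427) (nat_lit 31)))) (XT.nd (nat_lit 55460) (nat_lit 0) (nat_lit 0) (XT.nd (nat_lit 94) (nat_lit 0) (nat_lit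 84) (XT.lf (nat_lit 84) (nat_lit 176168725563) (nat_lit 0) (nat_lit 36465451382) (nat_lit 1008) (nat_lit 29703067952) (nat_lit 82) (nat_lit 5) (nat_lit 81) (nat_lit 5) (nat_lit 93) (nat_lit 5) (nat_lit 431) (nat_lit 427) (nat_lit 30)) (XT.lf (nat_lit 84) (nat_lit 12655498024) (nat_lit 0) (nat_lit 205591727048) (nat_lit 1008) (nat_lit 28009702261) (nat_lit 83) (nat_lit 5) (nat_lit 82) (nat_lit 5) (nat_lit 94) (nat_lit 5) (nat_lit 432) (nat_lit 427) (nat_lit 29))) (XT.nd (nat_lit 94) (nat_lit 0) (nat_lit 0) (XT.lf (nat_lit 0) (nat_lit 50540613854) (nat_lit 0) (nat_lit 50540613854) (nat_lit 924) (nat_lit 16282644132) (nat_lit 81) (nat_lit 5) (nat_lit 81) (nat_lit 3) (nat_lit 92) (nat_lit 3) (nat_lit 428) (nat_lit 428) (nat_lit 32)) (XT.lf (nat_lit 0) (nat_lit 179602087940) (nat_lit 0) (nat_lit 25694799862) (nat_lit 924) (nat_lit 33069100892) (nat_lit 81) (nat_lit 5) (nat_lit 81) (nat_lit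 3) (nat_lit 92) (nat_lit 3) (nat_lit 429) (nat_lit 428) (nat_lit 31)))))) (XT.nd (nat_lit 55930) (nat_lit 0) (nat_lit 0) (XT.nd (nat_lit 55648) (nat_lit 0) (nat_lit 0) (XT.nd (nat_lit 94) (nat_lit 0) (nat_lit 0) (XT.lf (nat_lit 84) (nat_lit 18292477962) (nat_lit 0) (nat_lit 190933566837) (nat_lit 1008) (nat_lit 32869350496) (nat_lit 82) (nat_lit 5) (nat_lit 81) (nat_lit 5) (nat_lit 93) (nat_lit 5) (nat_lit 430) (nat_lit 428) (nat_lit 30)) (XT.nd (nat_lit 94) (nat_lit 0) (nat_lit 0) (XT.lf (nat_lit 84) (nat_lit 98715147410) (nat_lit 0) (nat_lit 115435333872) (nat_lit 1008) (nat_lit 31762854734) (nat_lit 82) (nat_lit 5) (nat_lit 81) (nat_lit 5) (nat_lit 93) (nat_lit 5) (nat_lit 431) (nat_lit 428) (nat_lit 29)) (XT.lf (nat_lit 84) (nat_lit 181630900395) (nat_lit 0) (nat_lit 37596640222) (nat_lit 1008) (nat_lit 30622093612) (nat_lit 82) (nat_lit 5) (nat_lit 81) (nat_lit 5) (nat_lit 93)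 (nat_lit 5) (nat_lit 432) (nat_lit 428) (nat_lit 28)))) (XT.nd (nat_lit 94) (nat_lit 0) (nat_lit 0) (XT.lf (nat_lit 0) (nat_lit 52107825511) (nat_lit 0) (nat_lit 52107825511) (nat_lit 924) (nat_lit 16786466177) (nat_lit 81) (nat_lit 5) (nat_lit 81) (nat_lit 3) (nat_lit 92) (nat_lit 3) (nat_lit 429) (nat_lit 429) (nat_lit 30)) (XT.nd (nat_lit 94) (nat_lit 0) (nat_lit 0) (XT.lf (nat_lit 0) (nat_lit 185170630700) (nat_lit 0) (nat_lit 26492216692) (nat_lit 924) (nat_lit 34092419697) (nat_lit 81) (nat_lit 5) (nat_lit 81) (nat_lit 3) (nat_lit 92) (nat_lit 3) (nat_lit 430) (nat_lit 429) (nat_lit 29)) (XT.lf (nat_lit 84) (nat_lit 18860489118) (nat_lit 0) (nat_lit 196853267256) (nat_lit 1008) (nat_lit 33886530914) (nat_lit 82) (nat_lit 5) (nat_lit 81) (nat_lit 5) (nat_lit 93) (nat_lit 5) (nat_lit 431) (nat_lit 429) (nat_lit 28))))) (XT.nd (nat_lit 55742) (nat_lit 0) (nat_lit 0) (XT.nd (nat_lit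 55554) (nat_lit 0) (nat_lit 0) (XT.lf (nat_lit 84) (nat_lit 101776232925) (nat_lit 0) (nat_lit 119014566222) (nat_lit 1008) (nat_lit 32745786988) (nat_lit 82) (nat_lit 5) (nat_lit 81) (nat_lit 5) (nat_lit 93) (nat_lit 5) (nat_lit 432) (nat_lit 429) (nat_lit 27)) (XT.nd (nat_lit 94) (nat_lit 0) (nat_lit 0) (XT.lf (nat_lit 0) (nat_lit 53723593918) (nat_lit 0) (nat_lit 53723593918) (nat_lit 924) (nat_lit 17305962379) (nat_lit 81) (nat_lit 5) (nat_lit 81) (nat_lit 3) (nat_lit 92) (nat_lit 3) (nat_lit 430) (nat_lit 430) (nat_lit 28)) (XT.lf (nat_lit 0) (nat_lit 190911746279) (nat_lit 0) (nat_lit 27314301436) (nat_lit 924) (nat_lit 35147569384) (nat_lit 81) (nat_lit 5) (nat_lit 81) (nat_lit 3) (nat_lit 92) (nat_lit 3) (nat_lit 431) (nat_lit 430) (nat_lit 27)))) (XT.nd (nat_lit 55742) (nat_lit 0) (nat_lit 0) (XT.nd (nat_lit 55648) (nat_lit 0) (nat_lit 0) (XT.lf (nat_lit 84) (nat_lit 19446052685)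 (nat_lit 0) (nat_lit 202956433382) (nat_lit 1008) (nat_lit 34935348733) (nat_lit 82) (nat_lit 5) (nat_lit 81) (nat_lit 5) (nat_lit 93) (nat_lit 5) (nat_lit 432) (nat_lit 430) (nat_lit 26)) (XT.lf (nat_lit 0) (nat_lit 55389425925) (nat_lit 0) (nat_lit 55389425925) (nat_lit 924) (nat_lit 17841615339) (nat_lit 81) (nat_lit 5) (nat_lit 81) (nat_lit 3) (nat_lit 92) (nat_lit 3) (nat_lit 431) (nat_lit 431) (nat_lit 26))) (XT.nd (nat_lit 55742) (nat_lit 0) (nat_lit 0) (XT.lf (nat_lit 0) (nat_lit 196830787513) (nat_lit 0) (nat_lit 28161821880) (nat_lit 924) (nat_lit 36235530313) (nat_lit 81) (nat_lit 5) (nat_lit 81) (nat_lit 3) (nat_lit 92) (nat_lit 3) (nat_lit 432) (nat_lit 431) (nat_lit 25)) (XT.lf (nat_lit 0) (nat_lit 57106874995) (nat_lit 0) (nat_lit 57106874995) (nat_lit 924) (nat_lit 18393922815) (nat_lit 81) (nat_lit 5) (nat_lit 81) (nat_lit 3) (nat_lit 92) (nat_lit 3) (nat_lit 432)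 (nat_lit 432) (nat_lit 24))))))))

set_option maxRecDepth 10000000 in
noncomputable def Tp : PT := (PT.nd (nat_lit 2232030) (PT.nd (nat_lit 1676114) (PT.nd (nat_lit 1230742) (PT.nd (nat_lit 896384) pc0 pc1) (PT.nd (nat_lit 223156) pc2 pc3)) (PT.nd (nat_lit 333042) (PT.nd (nat_lit 167038) pc4 pc5) (PT.nd (nat_lit 111578) pc6 pc7))) (PT.nd (nat_lit 335110) (PT.nd (nat_lit 168166) (PT.nd (nat_lit 57810) pc8 pc9) (PT.nd (nat_lit 109792) pc10 pc11)) (PT.nd (nat_lit 165534) (PT.nd (nat_lit 56964) pc12 pc13) (PT.nd (nat_lit 59032) pc14 pc15))))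

set_option maxRecDepth 10000000 in
noncomputable def Tx : XT := (XT.nd (nat_lit 12749784) (nat_lit 0) (nat_lit 84) XT.nil (XT.nd (nat_lit 11371462) (nat_lit 0) (nat_lit 0) (XT.nd (nat_lit 4785070) (nat_lit 0) (nat_lit 336) (XT.nd (nat_lit 3280506) (nat_lit 0) (nat_lit 84) (XT.nd (nat_lit 2388916) (nat_lit 0) (nat_lit 84) (XT.nd (nat_lit 1671508) (nat_lit 0) (nat_lit 84) (XT.nd (nat_lit 1222470) (nat_lit 0) (nat_lit 84) (XT.nd (nat_lit 834626) (nat_lit 0) (nat_lit 84) (XT.nd (nat_lit 557044) (nat_lit 0) (nat_lit 0) (XT.nd (nat_lit 389442) (nat_lit 0) (nat_lit 0) xc0 xc1) (XT.nd (nat_lit 166098) (nat_lit 0) (nat_lit 84) xc2 xc3)) (XT.nd (nat_lit 221088) (nat_lit 0) (nat_lit 0) (XT.nd (nat_lit 110826) (nat_lit 0) (nat_lit 0) xc4 xc5) (XT.nd (nat_lit 57340) (nat_lit 0) (nat_lit 0) xc6 xc7))) (XT.nd (nat_lit 277488) (nat_lit 0) (nat_lit 0) (XT.nd (nat_lit 113552) (nat_lit 0) (nat_lit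 0) (XT.nd (nat_lit 56870) (nat_lit 0) (nat_lit 0) xc8 xc9) (XT.nd (nat_lit 56400) (nat_lit 0) (nat_lit 0) xc10 xc11)) (XT.nd (nat_lit 111296) (nat_lit 0) (nat_lit 0) (XT.nd (nat_lit 55742) (nat_lit 0) (nat_lit 0) xc12 xc13) (XT.nd (nat_lit 55366) (nat_lit 0) (nat_lit 0) xc14 xc15)))) (XT.nd (nat_lit 388032) (nat_lit 0) (nat_lit 0) (XT.nd (nat_lit 220148) (nat_lit 0) (nat_lit 0) (XT.nd (nat_lit 110356) (nat_lit 0) (nat_lit 0) (XT.nd (nat_lit 55272) (nat_lit 0) (nat_lit 0) xc16 xc17) (XT.nd (nat_lit 54990) (nat_lit 0) (nat_lit 0) xc18 xc19)) (XT.nd (nat_lit 108946) (nat_lit 0) (nat_lit 0) (XT.nd (nat_lit 54614) (nat_lit 0) (nat_lit 0) xc20 xc21) (XT.nd (nat_lit 4794) (nat_lit 0) (nat_lit 0) xc22 xc23))) (XT.nd (nat_lit 165722) (nat_lit 0) (nat_lit 0) (XT.nd (nat_lit 107442) (nat_lit 0) (nat_lit 0) (XT.nd (nat_lit 53862) (nat_lit 0) (nat_lit 0) xc24 xc25) (XT.nd (nat_lit 4794) (nat_lit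 0) (nat_lit 0) xc26 xc27)) (XT.nd (nat_lit 57904) (nat_lit 0) (nat_lit 0) (XT.nd (nat_lit 53110) (nat_lit 0) (nat_lit 84) xc28 xc29) (XT.nd (nat_lit 52922) (nat_lit 0) (nat_lit 0) xc30 xc31))))) (XT.nd (nat_lit 451670) (nat_lit 0) (nat_lit 0) (XT.nd (nat_lit 227762) (nat_lit 0) (nat_lit 0) (XT.nd (nat_lit 114398) (nat_lit 0) (nat_lit 0) (XT.nd (nat_lit 57340) (nat_lit 0) (nat_lit 0) (XT.nd (nat_lit 4794) (nat_lit 168) (nat_lit 0) xc32 xc33) (XT.nd (nat_lit 4794) (nat_lit 0) (nat_lit 0) xc34 xc35)) (XT.nd (nat_lit 56776) (nat_lit 0) (nat_lit 0) (XT.nd (nat_lit 4794) (nat_lit 0) (nat_lit 0) xc36 xc37) (XT.nd (nat_lit 51700) (nat_lit 0) (nat_lit 168) xc38 xc39))) (XT.nd (nat_lit 112330) (nat_lit 0) (nat_lit 0) (XT.nd (nat_lit 56212) (nat_lit 0) (nat_lit 0) (XT.nd (nat_lit 51418) (nat_lit 0) (nat_lit 168) xc40 xc41) (XT.nd (nat_lit 51230) (nat_lit 0) (nat_lit 84) xc42 xc43)) (XT.nd (nat_lit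 55836) (nat_lit 0) (nat_lit 0) (XT.nd (nat_lit 51042) (nat_lit 0) (nat_lit 84) xc44 xc45) (XT.nd (nat_lit 50854) (nat_lit 0) (nat_lit 84) xc46 xc47)))) (XT.nd (nat_lit 220900) (nat_lit 0) (nat_lit 0) (XT.nd (nat_lit 110826) (nat_lit 0) (nat_lit 0) (XT.nd (nat_lit 55460) (nat_lit 0) (nat_lit 0) (XT.nd (nat_lit 50666) (nat_lit 0) (nat_lit 168) xc48 xc49) (XT.nd (nat_lit 50478) (nat_lit 0) (nat_lit 168) xc50 xc51)) (XT.nd (nat_lit 55084) (nat_lit 0) (nat_lit 0) (XT.nd (nat_lit 50290) (nat_lit 0) (nat_lit 252) xc52 xc53) (XT.nd (nat_lit 50102) (nat_lit 0) (nat_lit 336) xc54 xc55))) (XT.nd (nat_lit 109792) (nat_lit 0) (nat_lit 0) (XT.nd (nat_lit 54896) (nat_lit 0) (nat_lit 0) (XT.nd (nat_lit 50102) (nat_lit 0) (nat_lit 588) xc56 xc57) (XT.nd (nat_lit 4794) (nat_lit 0) (nat_lit 0) xc58 xc59)) (XT.nd (nat_lit 54614) (nat_lit 0) (nat_lit 0) (XT.nd (nat_lit 4794) (nat_lit 84) (nat_lit 0)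 xc60 xc61) (XT.nd (nat_lit 4794) (nat_lit 168) (nat_lit 0) xc62 xc63)))))) (XT.nd (nat_lit 725774) (nat_lit 0) (nat_lit 84) (XT.nd (nat_lit 386528) (nat_lit 0) (nat_lit 84) (XT.nd (nat_lit 172114) (nat_lit 0) (nat_lit 0) (XT.nd (nat_lit 108476) (nat_lit 0) (nat_lit 0) (XT.nd (nat_lit 54332) (nat_lit 0) (nat_lit 0) (XT.nd (nat_lit 4794) (nat_lit 252) (nat_lit 0) xc64 xc65) (XT.nd (nat_lit 4794) (nat_lit 588) (nat_lit 0) xc66 xc67)) (XT.nd (nat_lit 9588) (nat_lit 84) (nat_lit 0) (XT.nd (nat_lit 4794) (nat_lit 1176) (nat_lit 0) xc68 xc69) (XT.nd (nat_lit 49162) (nat_lit 0) (nat_lit 252) xc70 xc71))) (XT.nd (nat_lit 107536) (nat_lit 0) (nat_lit 0) (XT.nd (nat_lit 53768) (nat_lit 0) (nat_lit 0) (XT.nd (nat_lit 48974) (nat_lit 0) (nat_lit 672) xc72 xc73) (XT.nd (nat_lit 4794) (nat_lit 84) (nat_lit 0) xc74 xc75)) (XT.nd (nat_lit 53486) (nat_lit 0) (nat_lit 84) (XT.nd (nat_lit 4794) (nat_lit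 252) (nat_lit 0) xc76 xc77) (XT.nd (nat_lit 4794) (nat_lit 588) (nat_lit 0) xc78 xc79)))) (XT.nd (nat_lit 169106) (nat_lit 0) (nat_lit 0) (XT.nd (nat_lit 62792) (nat_lit 0) (nat_lit 0) (XT.nd (nat_lit 9588) (nat_lit 168) (nat_lit 0) (XT.nd (nat_lit 4794) (nat_lit 1512) (nat_lit 0) xc80 xc81) (XT.nd (nat_lit 48410) (nat_lit 0) (nat_lit 588) xc82 xc83)) (XT.nd (nat_lit 53016) (nat_lit 0) (nat_lit 0) (XT.nd (nat_lit 48222) (nat_lit 0) (nat_lit 2268) xc84 xc85) (XT.nd (nat_lit 4794) (nat_lit 168) (nat_lit 0) xc86 xc87))) (XT.nd (nat_lit 62980) (nat_lit 0) (nat_lit 0) (XT.nd (nat_lit 53298) (nat_lit 0) (nat_lit 252) (XT.nd (nat_lit 4794) (nat_lit 756) (nat_lit 0) xc88 xc89) (XT.nd (nat_lit 4794) (nat_lit 2268) (nat_lit 0) xc90 xc91)) (XT.nd (nat_lit 53486) (nat_lit 0) (nat_lit 0) (XT.nd (nat_lit 48692) (nat_lit 0) (nat_lit 756) xc92 xc93) (XT.nd (nat_lit 48786) (nat_lit 0) (nat_lit 1932)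 xc94 xc95))))) (XT.nd (nat_lit 386904) (nat_lit 0) (nat_lit 84) (XT.nd (nat_lit 170892) (nat_lit 0) (nat_lit 0) (XT.nd (nat_lit 107442) (nat_lit 0) (nat_lit 0) (XT.nd (nat_lit 53674) (nat_lit 0) (nat_lit 0) (XT.nd (nat_lit 4794) (nat_lit 168) (nat_lit 0) xc96 xc97) (XT.nd (nat_lit 4794) (nat_lit 588) (nat_lit 0) xc98 xc99)) (XT.nd (nat_lit 9588) (nat_lit 168) (nat_lit 0) (XT.nd (nat_lit 4794) (nat_lit 1428) (nat_lit 0) xc100 xc101) (XT.nd (nat_lit 48974) (nat_lit 0) (nat_lit 420) xc102 xc103))) (XT.nd (nat_lit 107818) (nat_lit 0) (nat_lit 84) (XT.nd (nat_lit 53862) (nat_lit 0) (nat_lit 0) (XT.nd (nat_lit 49068) (nat_lit 0) (nat_lit 1008) xc104 xc105) (XT.nd (nat_lit 4794) (nat_lit 84) (nat_lit 0) xc106 xc107)) (XT.nd (nat_lit 53956) (nat_lit 0) (nat_lit 0) (XT.nd (nat_lit 4794) (nat_lit 168) (nat_lit 0) xc108 xc109) (XT.nd (nat_lit 4794) (nat_lit 504) (nat_lit 0) xc110 xc111))))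 (XT.nd (nat_lit 172866) (nat_lit 0) (nat_lit 84) (XT.nd (nat_lit 63920) (nat_lit 0) (nat_lit 0) (XT.nd (nat_lit 9588) (nat_lit 84) (nat_lit 0) (XT.nd (nat_lit 4794) (nat_lit 1176) (nat_lit 0) xc112 xc113) (XT.nd (nat_lit 49444) (nat_lit 0) (nat_lit 168) xc114 xc115)) (XT.nd (nat_lit 54332) (nat_lit 0) (nat_lit 84) (XT.nd (nat_lit 49538) (nat_lit 0) (nat_lit 504) xc116 xc117) (XT.nd (nat_lit 49726) (nat_lit 0) (nat_lit 840) xc118 xc119))) (XT.nd (nat_lit 109416) (nat_lit 0) (nat_lit 0) (XT.nd (nat_lit 54614) (nat_lit 0) (nat_lit 0) (XT.nd (nat_lit 49820) (nat_lit 0) (nat_lit 1428) xc120 xc121) (XT.nd (nat_lit 4794) (nat_lit 0) (nat_lit 0) xc122 xc123)) (XT.nd (nat_lit 54708) (nat_lit 0) (nat_lit 0) (XT.nd (nat_lit 4794) (nat_lit 84) (nat_lit 0) xc124 xc125) (XT.nd (nat_lit 4794) (nat_lit 420) (nat_lit 0) xc126 xc127))))))) (XT.nd (nat_lit 1841742) (nat_lit 0) (nat_lit 588) (XT.nd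 (nat_lit 837258) (nat_lit 0) (nat_lit 0) (XT.nd (nat_lit 394518) (nat_lit 0) (nat_lit 0) (XT.nd (nat_lit 174182) (nat_lit 0) (nat_lit 0) (XT.nd (nat_lit 109604) (nat_lit 0) (nat_lit 0) (XT.nd (nat_lit 54802) (nat_lit 0) (nat_lit 0) (XT.nd (nat_lit 4794) (nat_lit 588) (nat_lit 0) xc128 xc129) (XT.nd (nat_lit 4794) (nat_lit 1008) (nat_lit 0) xc130 xc131)) (XT.nd (nat_lit 9588) (nat_lit 0) (nat_lit 0) (XT.nd (nat_lit 4794) (nat_lit 1764) (nat_lit 0) xc132 xc133) (XT.nd (nat_lit 50102) (nat_lit 0) (nat_lit 84) xc134 xc135))) (XT.nd (nat_lit 109980) (nat_lit 0) (nat_lit 0) (XT.nd (nat_lit 54896) (nat_lit 0) (nat_lit 0) (XT.nd (nat_lit 50102) (nat_lit 0) (nat_lit 420) xc136 xc137) (XT.nd (nat_lit 50196) (nat_lit 0) (nat_lit 588) xc138 xc139)) (XT.nd (nat_lit 55084) (nat_lit 0) (nat_lit 0) (XT.nd (nat_lit 50290) (nat_lit 0) (nat_lit 756) xc140 xc141) (XT.nd (nat_lit 50384) (nat_lit 0) (nat_lit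 1176) xc142 xc143)))) (XT.nd (nat_lit 220900) (nat_lit 0) (nat_lit 0) (XT.nd (nat_lit 110356) (nat_lit 0) (nat_lit 0) (XT.nd (nat_lit 55178) (nat_lit 0) (nat_lit 0) (XT.nd (nat_lit 50384) (nat_lit 0) (nat_lit 1428) xc144 xc145) (XT.nd (nat_lit 4794) (nat_lit 0) (nat_lit 0) xc146 xc147)) (XT.nd (nat_lit 55272) (nat_lit 0) (nat_lit 0) (XT.nd (nat_lit 4794) (nat_lit 84) (nat_lit 0) xc148 xc149) (XT.nd (nat_lit 4794) (nat_lit 84) (nat_lit 0) xc150 xc151))) (XT.nd (nat_lit 110732) (nat_lit 0) (nat_lit 0) (XT.nd (nat_lit 55272) (nat_lit 0) (nat_lit 0) (XT.nd (nat_lit 4794) (nat_lit 336) (nat_lit 0) xc152 xc153) (XT.nd (nat_lit 4794) (nat_lit 420) (nat_lit 0) xc154 xc155)) (XT.nd (nat_lit 55460) (nat_lit 0) (nat_lit 0) (XT.nd (nat_lit 4794) (nat_lit 588) (nat_lit 0) xc156 xc157) (XT.nd (nat_lit 4794) (nat_lit 588) (nat_lit 0) xc158 xc159))))) (XT.nd (nat_lit 449602) (nat_lit 0) (nat_lit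 252) (XT.nd (nat_lit 223250) (nat_lit 0) (nat_lit 84) (XT.nd (nat_lit 111390) (nat_lit 0) (nat_lit 84) (XT.nd (nat_lit 55648) (nat_lit 0) (nat_lit 84) (XT.nd (nat_lit 4794) (nat_lit 756) (nat_lit 0) xc160 xc161) (XT.nd (nat_lit 4794) (nat_lit 672) (nat_lit 0) xc162 xc163)) (XT.nd (nat_lit 55836) (nat_lit 0) (nat_lit 0) (XT.nd (nat_lit 4794) (nat_lit 672) (nat_lit 0) xc164 xc165) (XT.nd (nat_lit 4794) (nat_lit 672) (nat_lit 0) xc166 xc167))) (XT.nd (nat_lit 112894) (nat_lit 0) (nat_lit 168) (XT.nd (nat_lit 56306) (nat_lit 0) (nat_lit 0) (XT.nd (nat_lit 4794) (nat_lit 672) (nat_lit 0) xc168 xc169) (XT.nd (nat_lit 4794) (nat_lit 504) (nat_lit 0) xc170 xc171)) (XT.nd (nat_lit 56588) (nat_lit 0) (nat_lit 0) (XT.nd (nat_lit 4794) (nat_lit 168) (nat_lit 0) xc172 xc173) (XT.nd (nat_lit 51982) (nat_lit 0) (nat_lit 1428) xc174 xc175)))) (XT.nd (nat_lit 275796) (nat_lit 0) (nat_lit 168) (XT.nd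 (nat_lit 113834) (nat_lit 0) (nat_lit 0) (XT.nd (nat_lit 56870) (nat_lit 0) (nat_lit 0) (XT.nd (nat_lit 52076) (nat_lit 0) (nat_lit 924) xc176 xc177) (XT.nd (nat_lit 52076) (nat_lit 0) (nat_lit 336) xc178 xc179)) (XT.nd (nat_lit 104622) (nat_lit 0) (nat_lit 84) (XT.nd (nat_lit 52264) (nat_lit 0) (nat_lit 84) xc180 xc181) (XT.nd (nat_lit 4794) (nat_lit 1428) (nat_lit 0) xc182 xc183))) (XT.nd (nat_lit 115056) (nat_lit 0) (nat_lit 0) (XT.nd (nat_lit 57434) (nat_lit 0) (nat_lit 0) (XT.nd (nat_lit 4794) (nat_lit 588) (nat_lit 0) xc184 xc185) (XT.nd (nat_lit 52734) (nat_lit 0) (nat_lit 1260) xc186 xc187)) (XT.nd (nat_lit 57716) (nat_lit 0) (nat_lit 0) (XT.nd (nat_lit 52922) (nat_lit 0) (nat_lit 336) xc188 xc189) (XT.nd (nat_lit 53016) (nat_lit 0) (nat_lit 168) xc190 xc191)))))) (XT.nd (nat_lit 1341286) (nat_lit 0) (nat_lit 840) (XT.nd (nat_lit 615512) (nat_lit 0) (nat_lit 420) (XT.nd (nat_lit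 282188) (nat_lit 0) (nat_lit 168) (XT.nd (nat_lit 116466) (nat_lit 0) (nat_lit 0) (XT.nd (nat_lit 58186) (nat_lit 0) (nat_lit 0) (XT.nd (nat_lit 4794) (nat_lit 420) (nat_lit 0) xc192 xc193) (XT.nd (nat_lit 53486) (nat_lit 0) (nat_lit 420) xc194 xc195)) (XT.nd (nat_lit 107160) (nat_lit 0) (nat_lit 168) (XT.nd (nat_lit 53580) (nat_lit 0) (nat_lit 0) xc196 xc197) (XT.nd (nat_lit 4794) (nat_lit 0) (nat_lit 0) xc198 xc199))) (XT.nd (nat_lit 166192) (nat_lit 0) (nat_lit 0) (XT.nd (nat_lit 107442) (nat_lit 0) (nat_lit 0) (XT.nd (nat_lit 53674) (nat_lit 0) (nat_lit 0) xc200 xc201) (XT.nd (nat_lit 4794) (nat_lit 924) (nat_lit 0) xc202 xc203)) (XT.nd (nat_lit 58750) (nat_lit 0) (nat_lit 0) (XT.nd (nat_lit 53956) (nat_lit 0) (nat_lit 252) xc204 xc205) (XT.nd (nat_lit 54050) (nat_lit 0) (nat_lit 252) xc206 xc207)))) (XT.nd (nat_lit 336802) (nat_lit 0) (nat_lit 168) (XT.nd (nat_lit 168072) (nat_lit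 0) (nat_lit 168) (XT.nd (nat_lit 59126) (nat_lit 0) (nat_lit 0) (XT.nd (nat_lit 54332) (nat_lit 0) (nat_lit 0) xc208 xc209) (XT.nd (nat_lit 54426) (nat_lit 0) (nat_lit 0) xc210 xc211)) (XT.nd (nat_lit 109228) (nat_lit 0) (nat_lit 0) (XT.nd (nat_lit 54614) (nat_lit 0) (nat_lit 0) xc212 xc213) (XT.nd (nat_lit 4794) (nat_lit 0) (nat_lit 0) xc214 xc215))) (XT.nd (nat_lit 219114) (nat_lit 0) (nat_lit 0) (XT.nd (nat_lit 109416) (nat_lit 0) (nat_lit 0) (XT.nd (nat_lit 54708) (nat_lit 0) (nat_lit 0) xc216 xc217) (XT.nd (nat_lit 54802) (nat_lit 0) (nat_lit 0) xc218 xc219)) (XT.nd (nat_lit 59690) (nat_lit 0) (nat_lit 0) (XT.nd (nat_lit 4794) (nat_lit 504) (nat_lit 0) xc220 xc221) (XT.nd (nat_lit 54990) (nat_lit 0) (nat_lit 252) xc222 xc223))))) (XT.nd (nat_lit 891402) (nat_lit 0) (nat_lit 1176) (XT.nd (nat_lit 391322) (nat_lit 0) (nat_lit 252) (XT.nd (nat_lit 220618) (nat_lit 0) (nat_lit 0)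 (XT.nd (nat_lit 110262) (nat_lit 0) (nat_lit 0) (XT.nd (nat_lit 55084) (nat_lit 0) (nat_lit 0) xc224 xc225) (XT.nd (nat_lit 55178) (nat_lit 0) (nat_lit 0) xc226 xc227)) (XT.nd (nat_lit 59972) (nat_lit 0) (nat_lit 0) (XT.nd (nat_lit 4794) (nat_lit 588) (nat_lit 0) xc228 xc229) (XT.nd (nat_lit 55272) (nat_lit 0) (nat_lit 0) xc230 xc231))) (XT.nd (nat_lit 222498) (nat_lit 0) (nat_lit 336) (XT.nd (nat_lit 111014) (nat_lit 0) (nat_lit 0) (XT.nd (nat_lit 55460) (nat_lit 0) (nat_lit 0) xc232 xc233) (XT.nd (nat_lit 55648) (nat_lit 0) (nat_lit 84) xc234 xc235)) (XT.nd (nat_lit 112236) (nat_lit 0) (nat_lit 588) (XT.nd (nat_lit 55836) (nat_lit 0) (nat_lit 252) xc236 xc237) (XT.nd (nat_lit 56588) (nat_lit 0) (nat_lit 0) xc238 xc239)))) (XT.nd (nat_lit 725210) (nat_lit 0) (nat_lit 2016) (XT.nd (nat_lit 280402) (nat_lit 0) (nat_lit 1176) (XT.nd (nat_lit 113646) (nat_lit 0) (nat_lit 336) (XT.nd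 (nat_lit 56776) (nat_lit 0) (nat_lit 336) xc240 xc241) (XT.nd (nat_lit 109322) (nat_lit 0) (nat_lit 504) xc242 xc243)) (XT.nd (nat_lit 221558) (nat_lit 0) (nat_lit 840) (XT.nd (nat_lit 110450) (nat_lit 0) (nat_lit 420) xc244 xc245) (XT.nd (nat_lit 111484) (nat_lit 0) (nat_lit 0) xc246 xc247))) (XT.nd (nat_lit 558360) (nat_lit 0) (nat_lit 1008) (XT.nd (nat_lit 224002) (nat_lit 0) (nat_lit 504) (XT.nd (nat_lit 111860) (nat_lit 0) (nat_lit 504) xc248 xc249) (XT.nd (nat_lit 112518) (nat_lit 0) (nat_lit 504) xc250 xc251)) (XT.nd (nat_lit 391510) (nat_lit 0) (nat_lit 756) (XT.nd (nat_lit 168166) (nat_lit 0) (nat_lit 0) xc252 xc253) (XT.nd (nat_lit 334264) (nat_lit 0) (nat_lit 0) xc254 xc255)))))))) XT.nil))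

set_option maxRecDepth 10000000 in
noncomputable def Te : XT := XT.nil

set_option maxRecDepth 10000000 in
noncomputable def Tz : ZL := (ZL.cons (nat_lit 84) (nat_lit 3) (nat_lit 68526811642110549295) (ZL.cons (nat_lit 168) (nat_lit 6) (nat_lit 135594663085367473174) (ZL.cons (nat_lit 252) (nat_lit 6) (nat_lit 134204306764439279356) (ZL.cons (nat_lit 336) (nat_lit 3) (nat_lit 67074129836161073951) (ZL.cons (nat_lit 420) (nat_lit 6) (nat_lit 132770849397562311526) (ZL.cons (nat_lit 504) (nat_lit 6) (nat_lit 131461148370424487616) (ZL.cons (nat_lit 588) (nat_lit 3) (nat_lit 65703393248201025839) (ZL.cons (nat_lit 672) (nat_lit 6) (nat_lit 130217935812356707746) (ZL.cons (nat_lit 756) (nat_lit 6) (nat_lit 130110846611445391166) (ZL.cons (nat_lit 840) (nat_lit 6) (nat_lit 128881821790966390762) (ZL.cons (nat_lit 924) (nat_lit 3) (nat_lit 64414547232038755060) (ZL.cons (nat_lit 1008)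 (nat_lit 6) (nat_lit 127718566455088735888) (ZL.cons (nat_lit 1092) (nat_lit 6) (nat_lit 127614697201052541340) (ZL.cons (nat_lit 1176) (nat_lit 6) (nat_lit 126619996327985289380) (ZL.cons (nat_lit 1260) (nat_lit 6) (nat_lit 126466522876909993076) (ZL.cons (nat_lit 1344) (nat_lit 3) (nat_lit 63207690474881339585) (ZL.cons (nat_lit 1428) (nat_lit 6) (nat_lit 125383501272905441480) (ZL.cons (nat_lit 1512) (nat_lit 6) (nat_lit 125282755148719025818) (ZL.cons (nat_lit 1596) (nat_lit 6) (nat_lit 124364622899454552532) (ZL.cons (nat_lit 1680) (nat_lit 6) (nat_lit 124215764072029434876) (ZL.cons (nat_lit 1764) (nat_lit 3) (nat_lit 62083079937495166560) (ZL.cons (nat_lit 1848) (nat_lit 6) (nat_lit 123408938055183042714) (ZL.cons (nat_lit 1932) (nat_lit 6) (nat_lit 123213413172240270364) (ZL.cons (nat_lit 2016) (nat_lit 6) (nat_lit 123115696271962466614) (ZL.cons (nat_lit 2100) (nat_lit 6)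 (nat_lit 122515555941705514436) (ZL.cons (nat_lit 2184) (nat_lit 6) (nat_lit 122274768153313998440) (ZL.cons (nat_lit 2268) (nat_lit 6) (nat_lit 122130385197518539996) (ZL.cons (nat_lit 2352) (nat_lit 3) (nat_lit 61041136247139919001) (ZL.cons (nat_lit 2436) (nat_lit 6) (nat_lit 121398954099767410428) (ZL.cons (nat_lit 2520) (nat_lit 6) (nat_lit 121209308238523208338) (ZL.cons (nat_lit 2604) (nat_lit 6) (nat_lit 121114529479766851650) (ZL.cons (nat_lit 2688) (nat_lit 6) (nat_lit 120585154661158742726) (ZL.cons (nat_lit 2772) (nat_lit 6) (nat_lit 120351606854765419740) (ZL.cons (nat_lit 2856) (nat_lit 6) (nat_lit 120211565190560319406) (ZL.cons (nat_lit 2940) (nat_lit 3) (nat_lit 60082449567521332356) (ZL.cons (nat_lit 3024) (nat_lit 6) (nat_lit 119832611291163550208) (ZL.cons (nat_lit 3108) (nat_lit 6) (nat_lit 119556481578709004238) (ZL.cons (nat_lit 3192) (nat_lit 6) (nat_lit 119372537969354783008)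 (ZL.cons (nat_lit 3276) (nat_lit 6) (nat_lit 119280609008388384668) (ZL.cons (nat_lit 3360) (nat_lit 6) (nat_lit 119140622540530072074) (ZL.cons (nat_lit 3444) (nat_lit 6) (nat_lit 118823191270305183734) (ZL.cons (nat_lit 3528) (nat_lit 6) (nat_lit 118596665754889739520) (ZL.cons (nat_lit 3612) (nat_lit 6) (nat_lit 118460834848774220284) (ZL.cons (nat_lit 3696) (nat_lit 3) (nat_lit 59207785971662738319) (ZL.cons (nat_lit 3780) (nat_lit 6) (nat_lit 118508543403255050546) (ZL.cons (nat_lit 3864) (nat_lit 6) (nat_lit 118151052426172410150) (ZL.cons (nat_lit 3948) (nat_lit 6) (nat_lit 117883225352986623566) (ZL.cons (nat_lit 4032) (nat_lit 6) (nat_lit 117704812540809881346) (ZL.cons (nat_lit 4116) (nat_lit 6) (nat_lit 117615647690212016804) (ZL.cons (nat_lit 4200) (nat_lit 6) (nat_lit 117539438542499615010) (ZL.cons (nat_lit 4284) (nat_lit 6) (nat_lit 117231551762456076370) (ZL.cons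 (nat_lit 4368) (nat_lit 6) (nat_lit 117011837392508991780) (ZL.cons (nat_lit 4452) (nat_lit 6) (nat_lit 116880090635849904254) (ZL.cons (nat_lit 4536) (nat_lit 3) (nat_lit 58418094345350391679) (ZL.cons (nat_lit 4620) (nat_lit 6) (nat_lit 116987779531079029588) (ZL.cons (nat_lit 4704) (nat_lit 6) (nat_lit 116641037555247176636) (ZL.cons (nat_lit 4788) (nat_lit 6) (nat_lit 116381263478442339990) (ZL.cons (nat_lit 4872) (nat_lit 6) (nat_lit 116208215164012910094) (ZL.cons (nat_lit 4956) (nat_lit 6) (nat_lit 116121731312802566214) (ZL.cons (nat_lit 5040) (nat_lit 6) (nat_lit 116495561187924257010) (ZL.cons (nat_lit 5124) (nat_lit 6) (nat_lit 116111132310260867380) (ZL.cons (nat_lit 5208) (nat_lit 6) (nat_lit 115812503037667716422) (ZL.cons (nat_lit 5292) (nat_lit 6) (nat_lit 115599395016380534470) (ZL.cons (nat_lit 5376) (nat_lit 6) (nat_lit 115471609607399848220) (ZL.cons (nat_lit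 5460) (nat_lit 3) (nat_lit 57714513850669312618) (ZL.cons (nat_lit 5544) (nat_lit 6) (nat_lit 116062324713978292678) (ZL.cons (nat_lit 5628) (nat_lit 6) (nat_lit 115641342100299833528) (ZL.cons (nat_lit 5712) (nat_lit 6) (nat_lit 115305025925875145892) (ZL.cons (nat_lit 5796) (nat_lit 6) (nat_lit 115053062708799649628) (ZL.cons (nat_lit 5880) (nat_lit 6) (nat_lit 114885217592961211322) (ZL.cons (nat_lit 5964) (nat_lit 6) (nat_lit 114801334129129645968) (ZL.cons (nat_lit 6048) (nat_lit 6) (nat_lit 115112740968500918560) (ZL.cons (nat_lit 6132) (nat_lit 6) (nat_lit 115371236687483627028) (ZL.cons (nat_lit 6216) (nat_lit 6) (nat_lit 115687666287464742730) (ZL.cons (nat_lit 6300) (nat_lit 6) (nat_lit 115231229031676613822) (ZL.cons (nat_lit 6384) (nat_lit 6) (nat_lit 114858359121236856666) (ZL.cons (nat_lit 6468) (nat_lit 6) (nat_lit 114568709002329823724) (ZL.cons (nat_lit 6552) (nat_lit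 6) (nat_lit 114362008690703071106) (ZL.cons (nat_lit 6636) (nat_lit 6) (nat_lit 114238065520013753696) (ZL.cons (nat_lit 6720) (nat_lit 3) (nat_lit 57098381981121705663) (ZL.cons (nat_lit 6804) (nat_lit 6) (nat_lit 114006216757272925940) (ZL.cons (nat_lit 6888) (nat_lit 6) (nat_lit 114064369790507297936) (ZL.cons (nat_lit 6972) (nat_lit 6) (nat_lit 114180730061694701704) (ZL.cons (nat_lit 7056) (nat_lit 6) (nat_lit 114355406030796932684) (ZL.cons (nat_lit 7140) (nat_lit 6) (nat_lit 114588560514114967832) (ZL.cons (nat_lit 7224) (nat_lit 6) (nat_lit 114880410836050813584) (ZL.cons (nat_lit 7308) (nat_lit 6) (nat_lit 114472086283501386670) (ZL.cons (nat_lit 7392) (nat_lit 6) (nat_lit 114145882428579284208) (ZL.cons (nat_lit 7476) (nat_lit 6) (nat_lit 113901495215120994912) (ZL.cons (nat_lit 7560) (nat_lit 6) (nat_lit 113738696848643363190) (ZL.cons (nat_lit 7644) (nat_lit 6) (nat_lit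 113657335584015268764) (ZL.cons (nat_lit 7728) (nat_lit 3) (nat_lit 56703231287952021654) (ZL.cons (nat_lit 7812) (nat_lit 6) (nat_lit 113435982899520309940) (ZL.cons (nat_lit 7896) (nat_lit 6) (nat_lit 113524571386403052832) (ZL.cons (nat_lit 7980) (nat_lit 6) (nat_lit 113672310610301926994) (ZL.cons (nat_lit 8064) (nat_lit 6) (nat_lit 113879338279649683950) (ZL.cons (nat_lit 8148) (nat_lit 6) (nat_lit 114145847365920856382) (ZL.cons (nat_lit 8232) (nat_lit 6) (nat_lit 113784188868889084162) (ZL.cons (nat_lit 8316) (nat_lit 6) (nat_lit 113503247919415725346) (ZL.cons (nat_lit 8400) (nat_lit 6) (nat_lit 113302762651106556946) (ZL.cons (nat_lit 8484) (nat_lit 6) (nat_lit 113182546190690148208) (ZL.cons (nat_lit 8568) (nat_lit 3) (nat_lit 56571243241916198076) (ZL.cons (nat_lit 8652) (nat_lit 6) (nat_lit 112882894773669082002) (ZL.cons (nat_lit 8736) (nat_lit 6) (nat_lit 112942850550933719530)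 (ZL.cons (nat_lit 8820) (nat_lit 6) (nat_lit 113062817990527932816) (ZL.cons (nat_lit 8904) (nat_lit 6) (nat_lit 113242908914672332954) (ZL.cons (nat_lit 8988) (nat_lit 6) (nat_lit 113483291186973227194) (ZL.cons (nat_lit 9072) (nat_lit 6) (nat_lit 113166895595390198620) (ZL.cons (nat_lit 9156) (nat_lit 6) (nat_lit 112929856591065960700) (ZL.cons (nat_lit 9240) (nat_lit 6) (nat_lit 112771953228818015284) (ZL.cons (nat_lit 9324) (nat_lit 6) (nat_lit 112693038326171948916) (ZL.cons (nat_lit 9408) (nat_lit 3) (nat_lit 56202294938441432171) (ZL.cons (nat_lit 9492) (nat_lit 6) (nat_lit 112435025330531235238) (ZL.cons (nat_lit 9576) (nat_lit 6) (nat_lit 112526360060507343160) (ZL.cons (nat_lit 9660) (nat_lit 6) (nat_lit 112678679200347082422) (ZL.cons (nat_lit 9744) (nat_lit 6) (nat_lit 112892124727444619844) (ZL.cons (nat_lit 9828) (nat_lit 6) (nat_lit 112619631081010712166) (ZL.cons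 (nat_lit 9912) (nat_lit 6) (nat_lit 112425173982747697230) (ZL.cons (nat_lit 9996) (nat_lit 6) (nat_lit 112308572178270094184) (ZL.cons (nat_lit 10080) (nat_lit 3) (nat_lit 56134858491240889936) (ZL.cons (nat_lit 10164) (nat_lit 6) (nat_lit 112000622378894138474) (ZL.cons (nat_lit 10248) (nat_lit 6) (nat_lit 112062436785253979764) (ZL.cons (nat_lit 10332) (nat_lit 6) (nat_lit 112186123215475613662) (ZL.cons (nat_lit 10416) (nat_lit 6) (nat_lit 112371796958268490208) (ZL.cons (nat_lit 10500) (nat_lit 6) (nat_lit 112141885217895805514) (ZL.cons (nat_lit 10584) (nat_lit 6) (nat_lit 111988729677403132948) (ZL.cons (nat_lit 10668) (nat_lit 6) (nat_lit 111912187579783281958) (ZL.cons (nat_lit 10752) (nat_lit 3) (nat_lit 55819618393483317795) (ZL.cons (nat_lit 10836) (nat_lit 6) (nat_lit 111670615739678105984) (ZL.cons (nat_lit 10920) (nat_lit 6) (nat_lit 111764781846283473250) (ZL.cons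 (nat_lit 11004) (nat_lit 6) (nat_lit 111921822879458244432) (ZL.cons (nat_lit 11088) (nat_lit 6) (nat_lit 111733212696855902108) (ZL.cons (nat_lit 11172) (nat_lit 6) (nat_lit 111620116863220981598) (ZL.cons (nat_lit 11256) (nat_lit 3) (nat_lit 55791214980694722460) (ZL.cons (nat_lit 11340) (nat_lit 6) (nat_lit 111350531705520945470) (ZL.cons (nat_lit 11424) (nat_lit 6) (nat_lit 111414262358477941840) (ZL.cons (nat_lit 11508) (nat_lit 6) (nat_lit 111541783068036446390) (ZL.cons (nat_lit 11592) (nat_lit 6) (nat_lit 111393232592291856122) (ZL.cons (nat_lit 11676) (nat_lit 6) (nat_lit 111318991954445249924) (ZL.cons (nat_lit 11760) (nat_lit 3) (nat_lit 55550943165466503703) (ZL.cons (nat_lit 11844) (nat_lit 6) (nat_lit 111134238031178533382) (ZL.cons (nat_lit 11928) (nat_lit 6) (nat_lit 111231323287088667036) (ZL.cons (nat_lit 12012) (nat_lit 6) (nat_lit 111121628007132391080) (ZL.cons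 (nat_lit 12096) (nat_lit 3) (nat_lit 55542537135558660780) (ZL.cons (nat_lit 12180) (nat_lit 6) (nat_lit 110924447852378909630) (ZL.cons (nat_lit 12264) (nat_lit 6) (nat_lit 110990154155577572890) (ZL.cons (nat_lit 12348) (nat_lit 6) (nat_lit 110918145777452833612) (ZL.cons (nat_lit 12432) (nat_lit 3) (nat_lit 55392348137828174266) (ZL.cons (nat_lit 12516) (nat_lit 6) (nat_lit 110818050878609485816) (ZL.cons (nat_lit 12600) (nat_lit 3) (nat_lit 55391298118249908029) (ZL.cons (nat_lit 12684) (nat_lit 6) (nat_lit 110714853037901994238) (ZL.cons (nat_lit 12768) (nat_lit 1) (nat_lit 18446744073709551617) ZL.nil))))))))))))))))))))))))))))))))))))))))))))))))))))))))))))))))))))))))))))))))))))))))))))))))))))))))))))))))))))))))))))))))))))))))))))))))))))))))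

noncomputable def vl : XL := ⟨(nat_lit 0), (nat_lit 84), (nat_lit 378292931), (nat_lit 168), (nat_lit 247044482), (nat_lit 168), (nat_lit 247044482), (nat_lit 1), (nat_lit 4), (nat_lit 2), (nat_lit 5), (nat_lit 2), (nat_lit 4), (nat_lit 0), (nat_lit 0), (nat_lit 0)⟩

noncomputable def cp0 : Nat := (nat_lit 13008410271745812937582225328692666706025775284570184438042729753419448320)

noncomputable def cp1 : Nat := (nat_lit 811610339045960606037707878832358648767306768085427942265062137374414871872667086286638236864568762389901650431678921196082210624362630715270988705967241843983889432798719442645042046696507043464969019704908421243116705484857861429692822130524654065741490055109092511227803288790338889673944972683006858130496256557422102332206256320558663681028220813137209716344650488356949900328160234437247000758474506652032317279112143235913149750032961608459614104980059182258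7853067044203688506655945863051211040160077903487655856266012991105565211210342022371274442402733694152963391643051411555824067339517531151718019751405078409197696320410979091153625034402960919868277738845496007769445838655519837541527756602915372196490302083118516772063659299882610174363988384980602732991477753528444588761548546434790680305355632423685911387341389172686645841201969175975015113608802978123597335130558046417815451684870846157247355693510903793878479171850094641973079047003168356720988747029257065800470916330664924739980816476828908277149451840634725745507546932145134680493813446201225744508763005868386227675977376909502900169468722672136670566126218333614053132356017135406060675706744833543621649590518187939088866815738661330116697720859011254683307931587558871589481561195395055010289543331286211418422896581304484506200325450698550758464658709910464378503411980152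7541213675848381836580506221806843916263810809677879191051225105561445223878091112739574470384456324690178970793588981682717740464852751777636769537718720218631100992441322202092403053764993984765172929699825506947677471497996397495009767056410765301923914544992676162203457514149006122140908593508853647065543040046537330143799462491389249976334213233018857017319812846361595997918348135792735005067271893860973082004037148011326554252991587489569922071948670196110899360607369793899926161926616781558222593150383077958244213681010761708576360919930254735232243406650859945258879994695534989158045944770096885407088167901968187682783776238192119805129330499667186054100645574425113964550445513242482931901054592865375904884027344189542133181749926628712731244378594098094257336645547559573165914259006951617268292200042673599395018921651874880498187206000148882462290639299135648116052690427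4798053805508281055025298174046502408953639854496317506079437139161533792918326865471087187662427359206130286580645236532328057809089825557980940441894037297419840556980900049350506549988520246914795149587486958509221754696083368861090098414480683581704048591123646553857500498549723530117100774483511393480880391768354079106525704843850605255501357197685355575053009368221345649226877990926648512720913335854155583476995405825781334324120157617075766805367244885834233162016817716176886239672136853993563343901560452155633797327051025079101921398423347384536638921620307744135724320593448256839556476381130365893075748191192388383021212952101558868917270863582547765448918580520452636296663350856712400119510828670150269637045030845521689993336938019193630200896470013123926747052311930023258598629809596138396207877295962592329615629024975016388673035969418534550100283975732226796143770457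647103707441358818655271636578155300667022017420927540689793753257489007310423410737748040823561475037745484903921312618382513999847291008613609710365971515468231595812923042705886195334714533517873331977080781314666767581359359262001573560389766704895141299587351457846140192820056702505813049341415875656514850696077353005959885286815676739110802267397901178495860185063874712065347053446516741861751476425417457033423076857285322229876011350993208050794556268996860672156494959126660137556606741596253753114639616788206174031285505621443893214797773340498714223793300348944203382594860417086672661952006455840131342612826980000828722527442901297235630399091181661602510170018656856333107191792533901281865326040671322112)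

noncomputable def rc0 : Nat := (nat_lit 8116103390459606060377078788323586487673067680854279422650621373744148718726670862866382368645687623899016504316789211960822106243626307152709887059672418439838894327987194426450420466965070434649690197049084212431167054848578614296928221305246540657414900551090925112278032887903388896739449726830068581304962565574221023322062563205586636810282208131372097163446504883569499003281602344372470007584745066520323172791121432359131497500329616084596141049800591822587853067044203688506655945863051211040160077903487655856266012991105565211210342022371274442402733694152963391643051411555824067339517531151718019751405078409197696320410979091153625034402960919868277738845496007769445838655519837541527756602915372196490302083118516772063659299882610174363988384980602732991477753528444588761548546434790680305355632423685911387341389172686645841201969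1759750151136088029781235973351305580464178154516848708461572473556935109037938784791718500946419730790470031683567209887470292570658004709163306649247399808164768289082771494518406347257455075469321451346804938134462012257445087630058683862276759773769095029001694687226721366705661262183336140531323560171354060606757067448335436216495905181879390888668157386613301166977208590112546833079315875588715894815611953950550102895433312862114184228965813044845062003254506985507584646587099104643785034119801527541213675848381836580506221806843916263810809677879191051225105561445223878091112739574470384456324690178970793588981682717740464852751777636769537718720218631100992441322202092403053764993984765172929699825506947677471497996397495009767056410765301923914544992676162203457514149006122140908593508853647065543040046537330143799462491389249976334213233018857017319812846361595997918348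1357927350050672718938609730820040371480113265542529915874895699220719486701961108993606073697938999261619266167815582225931503830779582442136810107617085763609199302547352322434066508599452588799946955349891580459447700968854070881679019681876827837762381921198051293304996671860541006455744251139645504455132424829319010545928653759048840273441895421331817499266287127312443785940980942573366455475595731659142590069516172682922000426735993950189216518748804981872060001488824622906392991356481160526904274798053805508281055025298174046502408953639854496317506079437139161533792918326865471087187662427359206130286580645236532328057809089825557980940441894037297419840556980900049350506549988520246914795149587486958509221754696083368861090098414480683581704048591123646553857500498549723530117100774483511393480880391768354079106525704843850605255501357197685355575053009368221345649226877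990926648512720913335854155583476995405825781334324120157617075766805367244885834233162016817716176886239672136853993563343901560452155633797327051025079101921398423347384536638921620307744135724320593448256839556476381130365893075748191192388383021212952101558868917270863582547765448918580520452636296663350856712400119510828670150269637045030845521689993336938019193630200896470013123926747052311930023258598629809596138396207877295962592329615629024975016388673035969418534550100283975732226796143770457647103707441358818655271636578155300667022017420927540689793753257489007310423410737748040823561475037745484903921312618382513999847291008613609710365971515468231595812923042705886195334714533517873331977080781314666767581359359262001573560389766704895141299587351457846140192820056702505813049341415875656514850696077353005959885286815676739110802267397901178495860185063874712065347053446516741861751476425417457033423076857285322229876011350993208050794556268996860672156494959126660137556606741596253753114639616788206174031285505621443893214797773340498714223793300348944203382594860417086672661952006455840131342612826980000828722527442901297235630399091181661602510170018656856333107191792533901281865326040671322112)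

end Vale.Agent.Lib.P154.Chain.D8.S0
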