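import Vale.Agent.Lib.P154.Chain.D8.R0_0

set_option linter.all false

namespace Vale.Agent.Lib.P154.Chain.D8.S1

noncomputable def pc0 : PT := (PT.nd (nat_lit 729346) (PT.nd (nat_lit 562308) (PT.nd (nat_lit 506378) (PT.nd (nat_lit 395082) (PT.nd (nat_lit 227950) (PT.nd (nat_lit 172302) PT.nil (PT.lf (nat_lit 84) (nat_lit 3) (nat_lit 1) (nat_lit 1) (nat_lit 54) (nat_lit 3) (nat_lit 54))) (PT.nd (nat_lit 94) (PT.lf (nat_lit 168) (nat_lit 6) (nat_lit 2) (nat_lit 3) (nat_lit 53) (nat_lit 4) (nat_lit 54)) (PT.lf (nat_lit 168) (nat_lit 6) (nat_lit 2) (nat_lit 1) (nat_lit 54) (nat_lit 4) (nat_lit 53)))) (PT.nd (nat_lit 55648) (PT.lf (nat_lit 588) (nat_lit 3) (nat_lit 7) (nat_lit 1) (nat_lit 52) (nat_lit 7) (nat_lit 52)) (PT.nd (nat_lit 94) (PT.lf (nat_lit 756) (nat_lit 6) (nat_lit 9) (nat_lit 3) (nat_lit 51) (nat_lit 8) (nat_lit 52)) (PT.lf (nat_lit 756) (nat_lit 6) (nat_lit 9) (nat_lit 1) (nat_lit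 52) (nat_lit 8) (nat_lit 51))))) (PT.nd (nat_lit 55648) (PT.nd (nat_lit 94) (PT.lf (nat_lit 840) (nat_lit 6) (nat_lit 10) (nat_lit 3) (nat_lit 50) (nat_lit 9) (nat_lit 52)) (PT.nd (nat_lit 94) (PT.lf (nat_lit 924) (nat_lit 3) (nat_lit 11) (nat_lit 1) (nat_lit 51) (nat_lit 9) (nat_lit 51)) (PT.lf (nat_lit 840) (nat_lit 6) (nat_lit 10) (nat_lit 1) (nat_lit 52) (nat_lit 9) (nat_lit 50)))) (PT.nd (nat_lit 94) (PT.lf (nat_lit 1008) (nat_lit 6) (nat_lit 12) (nat_lit 3) (nat_lit 49) (nat_lit 10) (nat_lit 52)) (PT.nd (nat_lit 94) (PT.lf (nat_lit 1092) (nat_lit 6) (nat_lit 13) (nat_lit 3) (nat_lit 50) (nat_lit 10) (nat_lit 51)) (PT.lf (nat_lit 1092) (nat_lit 6) (nat_lit 13) (nat_lit 1) (nat_lit 51) (nat_lit 10) (nat_lit 50)))))) (PT.nd (nat_lit 111108) (PT.nd (nat_lit 55554) (PT.nd (nat_lit 55366) (PT.lf (nat_lit 1008) (nat_lit 6) (nat_lit 12) (nat_lit 1) (nat_lit 52) (nat_lit 10) (nat_lit 49))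 (PT.nd (nat_lit 94) (PT.lf (nat_lit 1176) (nat_lit 6) (nat_lit 14) (nat_lit 3) (nat_lit 48) (nat_lit 11) (nat_lit 52)) (PT.lf (nat_lit 1260) (nat_lit 6) (nat_lit 15) (nat_lit 3) (nat_lit 49) (nat_lit 11) (nat_lit 51)))) (PT.nd (nat_lit 94) (PT.lf (nat_lit 1344) (nat_lit 3) (nat_lit 16) (nat_lit 1) (nat_lit 50) (nat_lit 11) (nat_lit 50)) (PT.nd (nat_lit 94) (PT.lf (nat_lit 1260) (nat_lit 6) (nat_lit 15) (nat_lit 1) (nat_lit 51) (nat_lit 11) (nat_lit 49)) (PT.lf (nat_lit 1176) (nat_lit 6) (nat_lit 14) (nat_lit 1) (nat_lit 52) (nat_lit 11) (nat_lit 48))))) (PT.nd (nat_lit 282) (PT.nd (nat_lit 94) (PT.lf (nat_lit 1428) (nat_lit 6) (nat_lit 17) (nat_lit 3) (nat_lit 48) (nat_lit 12) (nat_lit 51)) (PT.nd (nat_lit 94) (PT.lf (nat_lit 1512) (nat_lit 6) (nat_lit 18) (nat_lit 3) (nat_lit 49) (nat_lit 12) (nat_lit 50)) (PT.lf (nat_lit 1512) (nat_lit 6) (nat_lit 18) (nat_lit 1) (nat_lit 50) (nat_lit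 12) (nat_lit 49)))) (PT.nd (nat_lit 55460) (PT.nd (nat_lit 55366) (PT.lf (nat_lit 1428) (nat_lit 6) (nat_lit 17) (nat_lit 1) (nat_lit 51) (nat_lit 12) (nat_lit 48)) (PT.lf (nat_lit 1596) (nat_lit 6) (nat_lit 19) (nat_lit 3) (nat_lit 47) (nat_lit 13) (nat_lit 51))) (PT.nd (nat_lit 94) (PT.lf (nat_lit 1680) (nat_lit 6) (nat_lit 20) (nat_lit 3) (nat_lit 48) (nat_lit 13) (nat_lit 50)) (PT.lf (nat_lit 1764) (nat_lit 3) (nat_lit 21) (nat_lit 1) (nat_lit 49) (nat_lit 13) (nat_lit 49))))))) (PT.nd (nat_lit 111390) (PT.nd (nat_lit 55742) (PT.nd (nat_lit 55460) (PT.nd (nat_lit 94) (PT.lf (nat_lit 1680) (nat_lit 6) (nat_lit 20) (nat_lit 1) (nat_lit 50) (nat_lit 13) (nat_lit 48)) (PT.nd (nat_lit 55272) (PT.lf (nat_lit 1596) (nat_lit 6) (nat_lit 19) (nat_lit 1) (nat_lit 51) (nat_lit 13) (nat_lit 47)) (PT.lf (nat_lit 1848) (nat_lit 6) (nat_lit 22) (nat_lit 3) (nat_lit 46) (nat_lit 14) (nat_lit 51))))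 (PT.nd (nat_lit 94) (PT.lf (nat_lit 1932) (nat_lit 6) (nat_lit 23) (nat_lit 3) (nat_lit 47) (nat_lit 14) (nat_lit 50)) (PT.nd (nat_lit 94) (PT.lf (nat_lit 2016) (nat_lit 6) (nat_lit 24) (nat_lit 3) (nat_lit 48) (nat_lit 14) (nat_lit 49)) (PT.lf (nat_lit 2016) (nat_lit 6) (nat_lit 24) (nat_lit 1) (nat_lit 49) (nat_lit 14) (nat_lit 48))))) (PT.nd (nat_lit 55366) (PT.nd (nat_lit 94) (PT.lf (nat_lit 1932) (nat_lit 6) (nat_lit 23) (nat_lit 1) (nat_lit 50) (nat_lit 14) (nat_lit 47)) (PT.nd (nat_lit 55178) (PT.lf (nat_lit 1848) (nat_lit 6) (nat_lit 22) (nat_lit 1) (nat_lit 51) (nat_lit 14) (nat_lit 46)) (PT.lf (nat_lit 2100) (nat_lit 6) (nat_lit 25) (nat_lit 3) (nat_lit 45) (nat_lit 15) (nat_lit 51)))) (PT.nd (nat_lit 94) (PT.lf (nat_lit 2184) (nat_lit 6) (nat_lit 26) (nat_lit 3) (nat_lit 46) (nat_lit 15) (nat_lit 50)) (PT.nd (nat_lit 94) (PT.lf (nat_lit 2268) (nat_lit 6) (nat_lit 27) (nat_lit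 3) (nat_lit 47) (nat_lit 15) (nat_lit 49)) (PT.lf (nat_lit 2352) (nat_lit 3) (nat_lit 28) (nat_lit 1) (nat_lit 48) (nat_lit 15) (nat_lit 48)))))) (PT.nd (nat_lit 55648) (PT.nd (nat_lit 55366) (PT.nd (nat_lit 94) (PT.lf (nat_lit 2268) (nat_lit 6) (nat_lit 27) (nat_lit 1) (nat_lit 49) (nat_lit 15) (nat_lit 47)) (PT.nd (nat_lit 94) (PT.lf (nat_lit 2184) (nat_lit 6) (nat_lit 26) (nat_lit 1) (nat_lit 50) (nat_lit 15) (nat_lit 46)) (PT.lf (nat_lit 2100) (nat_lit 6) (nat_lit 25) (nat_lit 1) (nat_lit 51) (nat_lit 15) (nat_lit 45)))) (PT.nd (nat_lit 94) (PT.lf (nat_lit 2436) (nat_lit 6) (nat_lit 29) (nat_lit 3) (nat_lit 45) (nat_lit 16) (nat_lit 50)) (PT.nd (nat_lit 94) (PT.lf (nat_lit 2520) (nat_lit 6) (nat_lit 30) (nat_lit 3) (nat_lit 46) (nat_lit 16) (nat_lit 49)) (PT.lf (nat_lit 2604) (nat_lit 6) (nat_lit 31) (nat_lit 3) (nat_lit 47) (nat_lit 16) (nat_lit 48))))) (PT.nd (nat_lit 55366) (PT.nd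 (nat_lit 94) (PT.lf (nat_lit 2604) (nat_lit 6) (nat_lit 31) (nat_lit 1) (nat_lit 48) (nat_lit 16) (nat_lit 47)) (PT.nd (nat_lit 94) (PT.lf (nat_lit 2520) (nat_lit 6) (nat_lit 30) (nat_lit 1) (nat_lit 49) (nat_lit 16) (nat_lit 46)) (PT.lf (nat_lit 2436) (nat_lit 6) (nat_lit 29) (nat_lit 1) (nat_lit 50) (nat_lit 16) (nat_lit 45)))) (PT.nd (nat_lit 188) (PT.nd (nat_lit 94) (PT.lf (nat_lit 2688) (nat_lit 6) (nat_lit 32) (nat_lit 3) (nat_lit 44) (nat_lit 17) (nat_lit 50)) (PT.lf (nat_lit 2772) (nat_lit 6) (nat_lit 33) (nat_lit 3) (nat_lit 45) (nat_lit 17) (nat_lit 49))) (PT.nd (nat_lit 94) (PT.lf (nat_lit 2856) (nat_lit 6) (nat_lit 34) (nat_lit 3) (nat_lit 46) (nat_lit 17) (nat_lit 48)) (PT.lf (nat_lit 2940) (nat_lit 3) (nat_lit 35) (nat_lit 1) (nat_lit 47) (nat_lit 17) (nat_lit 47))))))))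
noncomputable def pc1 : PT := (PT.nd (nat_lit 167132) (PT.nd (nat_lit 111014) (PT.nd (nat_lit 55554) (PT.nd (nat_lit 55272) (PT.nd (nat_lit 94) (PT.lf (nat_lit 2856) (nat_lit 6) (nat_lit 34) (nat_lit 1) (nat_lit 48) (nat_lit 17) (nat_lit 46)) (PT.nd (nat_lit 94) (PT.lf (nat_lit 2772) (nat_lit 6) (nat_lit 33) (nat_lit 1) (nat_lit 49) (nat_lit 17) (nat_lit 45)) (PT.lf (nat_lit 2688) (nat_lit 6) (nat_lit 32) (nat_lit 1) (nat_lit 50) (nat_lit 17) (nat_lit 44)))) (PT.nd (nat_lit 94) (PT.lf (nat_lit 3024) (nat_lit 6) (nat_lit 36) (nat_lit 3) (nat_lit 43) (nat_lit 18) (nat_lit 50)) (PT.nd (nat_lit 94) (PT.lf (nat_lit 3108) (nat_lit 6) (nat_lit 37) (nat_lit 3) (nat_lit 44) (nat_lit 18) (nat_lit 49)) (PT.lf (nat_lit 3192) (nat_lit 6) (nat_lit 38) (nat_lit 3) (nat_lit 45) (nat_lit 18) (nat_lit 48))))) (PT.nd (nat_lit 282) (PT.nd (nat_lit 94) (PT.lf (nat_lit 3276) (nat_lit 6) (nat_lit 39) (nat_lit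 3) (nat_lit 46) (nat_lit 18) (nat_lit 47)) (PT.nd (nat_lit 94) (PT.lf (nat_lit 3276) (nat_lit 6) (nat_lit 39) (nat_lit 1) (nat_lit 47) (nat_lit 18) (nat_lit 46)) (PT.lf (nat_lit 3192) (nat_lit 6) (nat_lit 38) (nat_lit 1) (nat_lit 48) (nat_lit 18) (nat_lit 45)))) (PT.nd (nat_lit 94) (PT.lf (nat_lit 3108) (nat_lit 6) (nat_lit 37) (nat_lit 1) (nat_lit 49) (nat_lit 18) (nat_lit 44)) (PT.nd (nat_lit 54990) (PT.lf (nat_lit 3024) (nat_lit 6) (nat_lit 36) (nat_lit 1) (nat_lit 50) (nat_lit 18) (nat_lit 43)) (PT.lf (nat_lit 3360) (nat_lit 6) (nat_lit 40) (nat_lit 3) (nat_lit 42) (nat_lit 19) (nat_lit 50)))))) (PT.nd (nat_lit 564) (PT.nd (nat_lit 282) (PT.nd (nat_lit 94) (PT.lf (nat_lit 3444) (nat_lit 6) (nat_lit 41) (nat_lit 3) (nat_lit 43) (nat_lit 19) (nat_lit 49)) (PT.nd (nat_lit 94) (PT.lf (nat_lit 3528) (nat_lit 6) (nat_lit 42) (nat_lit 3) (nat_lit 44) (nat_lit 19) (nat_lit 48)) (PT.lf (nat_lit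 3612) (nat_lit 6) (nat_lit 43) (nat_lit 3) (nat_lit 45) (nat_lit 19) (nat_lit 47)))) (PT.nd (nat_lit 94) (PT.lf (nat_lit 3696) (nat_lit 3) (nat_lit 44) (nat_lit 1) (nat_lit 46) (nat_lit 19) (nat_lit 46)) (PT.nd (nat_lit 94) (PT.lf (nat_lit 3612) (nat_lit 6) (nat_lit 43) (nat_lit 1) (nat_lit 47) (nat_lit 19) (nat_lit 45)) (PT.lf (nat_lit 3528) (nat_lit 6) (nat_lit 42) (nat_lit 1) (nat_lit 48) (nat_lit 19) (nat_lit 44))))) (PT.nd (nat_lit 55178) (PT.nd (nat_lit 94) (PT.lf (nat_lit 3444) (nat_lit 6) (nat_lit 41) (nat_lit 1) (nat_lit 49) (nat_lit 19) (nat_lit 43)) (PT.nd (nat_lit 54990) (PT.lf (nat_lit 3360) (nat_lit 6) (nat_lit 40) (nat_lit 1) (nat_lit 50) (nat_lit 19) (nat_lit 42)) (PT.lf (nat_lit 3864) (nat_lit 6) (nat_lit 46) (nat_lit 3) (nat_lit 42) (nat_lit 20) (nat_lit 49)))) (PT.nd (nat_lit 188) (PT.nd (nat_lit 94) (PT.lf (nat_lit 3948) (nat_lit 6) (nat_lit 47) (nat_lit 3) (nat_lit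 43) (nat_lit 20) (nat_lit 48)) (PT.lf (nat_lit 4032) (nat_lit 6) (nat_lit 48) (nat_lit 3) (nat_lit 44) (nat_lit 20) (nat_lit 47))) (PT.nd (nat_lit 94) (PT.lf (nat_lit 4116) (nat_lit 6) (nat_lit 49) (nat_lit 3) (nat_lit 45) (nat_lit 20) (nat_lit 46)) (PT.lf (nat_lit 4116) (nat_lit 6) (nat_lit 49) (nat_lit 1) (nat_lit 46) (nat_lit 20) (nat_lit 45))))))) (PT.nd (nat_lit 110920) (PT.nd (nat_lit 55460) (PT.nd (nat_lit 55178) (PT.nd (nat_lit 94) (PT.lf (nat_lit 4032) (nat_lit 6) (nat_lit 48) (nat_lit 1) (nat_lit 47) (nat_lit 20) (nat_lit 44)) (PT.nd (nat_lit 94) (PT.lf (nat_lit 3948) (nat_lit 6) (nat_lit 47) (nat_lit 1) (nat_lit 48) (nat_lit 20) (nat_lit 43)) (PT.lf (nat_lit 3864) (nat_lit 6) (nat_lit 46) (nat_lit 1) (nat_lit 49) (nat_lit 20) (nat_lit 42)))) (PT.nd (nat_lit 94) (PT.lf (nat_lit 4200) (nat_lit 6) (nat_lit 50) (nat_lit 3) (nat_lit 41) (nat_lit 21) (nat_lit 49)) (PT.nd (nat_lit 94)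 (PT.lf (nat_lit 4284) (nat_lit 6) (nat_lit 51) (nat_lit 3) (nat_lit 42) (nat_lit 21) (nat_lit 48)) (PT.lf (nat_lit 4368) (nat_lit 6) (nat_lit 52) (nat_lit 3) (nat_lit 43) (nat_lit 21) (nat_lit 47))))) (PT.nd (nat_lit 282) (PT.nd (nat_lit 94) (PT.lf (nat_lit 4452) (nat_lit 6) (nat_lit 53) (nat_lit 3) (nat_lit 44) (nat_lit 21) (nat_lit 46)) (PT.nd (nat_lit 94) (PT.lf (nat_lit 4536) (nat_lit 3) (nat_lit 54) (nat_lit 1) (nat_lit 45) (nat_lit 21) (nat_lit 45)) (PT.lf (nat_lit 4452) (nat_lit 6) (nat_lit 53) (nat_lit 1) (nat_lit 46) (nat_lit 21) (nat_lit 44)))) (PT.nd (nat_lit 188) (PT.nd (nat_lit 94) (PT.lf (nat_lit 4368) (nat_lit 6) (nat_lit 52) (nat_lit 1) (nat_lit 47) (nat_lit 21) (nat_lit 43)) (PT.lf (nat_lit 4284) (nat_lit 6) (nat_lit 51) (nat_lit 1) (nat_lit 48) (nat_lit 21) (nat_lit 42))) (PT.nd (nat_lit 54896) (PT.lf (nat_lit 4200) (nat_lit 6) (nat_lit 50) (nat_lit 1) (nat_lit 49) (nat_lit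 21) (nat_lit 41)) (PT.lf (nat_lit 4620) (nat_lit 6) (nat_lit 55) (nat_lit 3) (nat_lit 40) (nat_lit 22) (nat_lit 49)))))) (PT.nd (nat_lit 564) (PT.nd (nat_lit 282) (PT.nd (nat_lit 94) (PT.lf (nat_lit 4704) (nat_lit 6) (nat_lit 56) (nat_lit 3) (nat_lit 41) (nat_lit 22) (nat_lit 48)) (PT.nd (nat_lit 94) (PT.lf (nat_lit 4788) (nat_lit 6) (nat_lit 57) (nat_lit 3) (nat_lit 42) (nat_lit 22) (nat_lit 47)) (PT.lf (nat_lit 4872) (nat_lit 6) (nat_lit 58) (nat_lit 3) (nat_lit 43) (nat_lit 22) (nat_lit 46)))) (PT.nd (nat_lit 94) (PT.lf (nat_lit 4956) (nat_lit 6) (nat_lit 59) (nat_lit 3) (nat_lit 44) (nat_lit 22) (nat_lit 45)) (PT.nd (nat_lit 94) (PT.lf (nat_lit 4956) (nat_lit 6) (nat_lit 59) (nat_lit 1) (nat_lit 45) (nat_lit 22) (nat_lit 44)) (PT.lf (nat_lit 4872) (nat_lit 6) (nat_lit 58) (nat_lit 1) (nat_lit 46) (nat_lit 22) (nat_lit 43))))) (PT.nd (nat_lit 54990) (PT.nd (nat_lit 94) (PT.lf (nat_lit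 4788) (nat_lit 6) (nat_lit 57) (nat_lit 1) (nat_lit 47) (nat_lit 22) (nat_lit 42)) (PT.nd (nat_lit 94) (PT.lf (nat_lit 4704) (nat_lit 6) (nat_lit 56) (nat_lit 1) (nat_lit 48) (nat_lit 22) (nat_lit 41)) (PT.lf (nat_lit 4620) (nat_lit 6) (nat_lit 55) (nat_lit 1) (nat_lit 49) (nat_lit 22) (nat_lit 40)))) (PT.nd (nat_lit 188) (PT.nd (nat_lit 94) (PT.lf (nat_lit 5040) (nat_lit 6) (nat_lit 60) (nat_lit 3) (nat_lit 39) (nat_lit 23) (nat_lit 49)) (PT.lf (nat_lit 5124) (nat_lit 6) (nat_lit 61) (nat_lit 3) (nat_lit 40) (nat_lit 23) (nat_lit 48))) (PT.nd (nat_lit 94) (PT.lf (nat_lit 5208) (nat_lit 6) (nat_lit 62) (nat_lit 3) (nat_lit 41) (nat_lit 23) (nat_lit 47)) (PT.lf (nat_lit 5292) (nat_lit 6) (nat_lit 63) (nat_lit 3) (nat_lit 42) (nat_lit 23) (nat_lit 46))))))))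
noncomputable def pc2 : PT := (PT.nd (nat_lit 111484) (PT.nd (nat_lit 55742) (PT.nd (nat_lit 564) (PT.nd (nat_lit 282) (PT.nd (nat_lit 94) (PT.lf (nat_lit 5376) (nat_lit 6) (nat_lit 64) (nat_lit 3) (nat_lit 43) (nat_lit 23) (nat_lit 45)) (PT.nd (nat_lit 94) (PT.lf (nat_lit 5460) (nat_lit 3) (nat_lit 65) (nat_lit 1) (nat_lit 44) (nat_lit 23) (nat_lit 44)) (PT.lf (nat_lit 5376) (nat_lit 6) (nat_lit 64) (nat_lit 1) (nat_lit 45) (nat_lit 23) (nat_lit 43)))) (PT.nd (nat_lit 94) (PT.lf (nat_lit 5292) (nat_lit 6) (nat_lit 63) (nat_lit 1) (nat_lit 46) (nat_lit 23) (nat_lit 42)) (PT.nd (nat_lit 94) (PT.lf (nat_lit 5208) (nat_lit 6) (nat_lit 62) (nat_lit 1) (nat_lit 47) (nat_lit 23) (nat_lit 41)) (PT.lf (nat_lit 5124) (nat_lit 6) (nat_lit 61) (nat_lit 1) (nat_lit 48) (nat_lit 23) (nat_lit 40))))) (PT.nd (nat_lit 54896) (PT.nd (nat_lit 54708) (PT.lf (nat_lit 5040) (nat_lit 6) (nat_lit 60) (nat_lit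 1) (nat_lit 49) (nat_lit 23) (nat_lit 39)) (PT.nd (nat_lit 94) (PT.lf (nat_lit 5544) (nat_lit 6) (nat_lit 66) (nat_lit 3) (nat_lit 38) (nat_lit 24) (nat_lit 49)) (PT.lf (nat_lit 5628) (nat_lit 6) (nat_lit 67) (nat_lit 3) (nat_lit 39) (nat_lit 24) (nat_lit 48)))) (PT.nd (nat_lit 94) (PT.lf (nat_lit 5712) (nat_lit 6) (nat_lit 68) (nat_lit 3) (nat_lit 40) (nat_lit 24) (nat_lit 47)) (PT.nd (nat_lit 94) (PT.lf (nat_lit 5796) (nat_lit 6) (nat_lit 69) (nat_lit 3) (nat_lit 41) (nat_lit 24) (nat_lit 46)) (PT.lf (nat_lit 5880) (nat_lit 6) (nat_lit 70) (nat_lit 3) (nat_lit 42) (nat_lit 24) (nat_lit 45)))))) (PT.nd (nat_lit 564) (PT.nd (nat_lit 282) (PT.nd (nat_lit 94) (PT.lf (nat_lit 5964) (nat_lit 6) (nat_lit 71) (nat_lit 3) (nat_lit 43) (nat_lit 24) (nat_lit 44)) (PT.nd (nat_lit 94) (PT.lf (nat_lit 5964) (nat_lit 6) (nat_lit 71) (nat_lit 1) (nat_lit 44) (nat_lit 24) (nat_lit 43)) (PT.lf (nat_lit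 5880) (nat_lit 6) (nat_lit 70) (nat_lit 1) (nat_lit 45) (nat_lit 24) (nat_lit 42)))) (PT.nd (nat_lit 94) (PT.lf (nat_lit 5796) (nat_lit 6) (nat_lit 69) (nat_lit 1) (nat_lit 46) (nat_lit 24) (nat_lit 41)) (PT.nd (nat_lit 94) (PT.lf (nat_lit 5712) (nat_lit 6) (nat_lit 68) (nat_lit 1) (nat_lit 47) (nat_lit 24) (nat_lit 40)) (PT.lf (nat_lit 5628) (nat_lit 6) (nat_lit 67) (nat_lit 1) (nat_lit 48) (nat_lit 24) (nat_lit 39))))) (PT.nd (nat_lit 54802) (PT.nd (nat_lit 54614) (PT.lf (nat_lit 5544) (nat_lit 6) (nat_lit 66) (nat_lit 1) (nat_lit 49) (nat_lit 24) (nat_lit 38)) (PT.nd (nat_lit 94) (PT.lf (nat_lit 6216) (nat_lit 6) (nat_lit 74) (nat_lit 3) (nat_lit 37) (nat_lit 25) (nat_lit 49)) (PT.lf (nat_lit 6300) (nat_lit 6) (nat_lit 75) (nat_lit 3) (nat_lit 38) (nat_lit 25) (nat_lit 48)))) (PT.nd (nat_lit 188) (PT.nd (nat_lit 94) (PT.lf (nat_lit 6384) (nat_lit 6) (nat_lit 76) (nat_lit 3) (nat_lit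 39) (nat_lit 25) (nat_lit 47)) (PT.lf (nat_lit 6468) (nat_lit 6) (nat_lit 77) (nat_lit 3) (nat_lit 40) (nat_lit 25) (nat_lit 46))) (PT.nd (nat_lit 94) (PT.lf (nat_lit 6552) (nat_lit 6) (nat_lit 78) (nat_lit 3) (nat_lit 41) (nat_lit 25) (nat_lit 45)) (PT.lf (nat_lit 6636) (nat_lit 6) (nat_lit 79) (nat_lit 3) (nat_lit 42) (nat_lit 25) (nat_lit 44))))))) (PT.nd (nat_lit 55554) (PT.nd (nat_lit 564) (PT.nd (nat_lit 282) (PT.nd (nat_lit 94) (PT.lf (nat_lit 6720) (nat_lit 3) (nat_lit 80) (nat_lit 1) (nat_lit 43) (nat_lit 25) (nat_lit 43)) (PT.nd (nat_lit 94) (PT.lf (nat_lit 6636) (nat_lit 6) (nat_lit 79) (nat_lit 1) (nat_lit 44) (nat_lit 25) (nat_lit 42)) (PT.lf (nat_lit 6552) (nat_lit 6) (nat_lit 78) (nat_lit 1) (nat_lit 45) (nat_lit 25) (nat_lit 41)))) (PT.nd (nat_lit 94) (PT.lf (nat_lit 6468) (nat_lit 6) (nat_lit 77) (nat_lit 1) (nat_lit 46) (nat_lit 25) (nat_lit 40)) (PT.nd (nat_lit 94) (PT.lf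 (nat_lit 6384) (nat_lit 6) (nat_lit 76) (nat_lit 1) (nat_lit 47) (nat_lit 25) (nat_lit 39)) (PT.lf (nat_lit 6300) (nat_lit 6) (nat_lit 75) (nat_lit 1) (nat_lit 48) (nat_lit 25) (nat_lit 38))))) (PT.nd (nat_lit 54708) (PT.nd (nat_lit 54520) (PT.lf (nat_lit 6216) (nat_lit 6) (nat_lit 74) (nat_lit 1) (nat_lit 49) (nat_lit 25) (nat_lit 37)) (PT.nd (nat_lit 94) (PT.lf (nat_lit 6132) (nat_lit 6) (nat_lit 73) (nat_lit 3) (nat_lit 36) (nat_lit 26) (nat_lit 49)) (PT.lf (nat_lit 7224) (nat_lit 6) (nat_lit 86) (nat_lit 3) (nat_lit 37) (nat_lit 26) (nat_lit 48)))) (PT.nd (nat_lit 94) (PT.lf (nat_lit 7308) (nat_lit 6) (nat_lit 87) (nat_lit 3) (nat_lit 38) (nat_lit 26) (nat_lit 47)) (PT.nd (nat_lit 94) (PT.lf (nat_lit 7392) (nat_lit 6) (nat_lit 88) (nat_lit 3) (nat_lit 39) (nat_lit 26) (nat_lit 46)) (PT.lf (nat_lit 7476) (nat_lit 6) (nat_lit 89) (nat_lit 3) (nat_lit 40) (nat_lit 26) (nat_lit 45))))))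 (PT.nd (nat_lit 564) (PT.nd (nat_lit 282) (PT.nd (nat_lit 94) (PT.lf (nat_lit 7560) (nat_lit 6) (nat_lit 90) (nat_lit 3) (nat_lit 41) (nat_lit 26) (nat_lit 44)) (PT.nd (nat_lit 94) (PT.lf (nat_lit 7644) (nat_lit 6) (nat_lit 91) (nat_lit 3) (nat_lit 42) (nat_lit 26) (nat_lit 43)) (PT.lf (nat_lit 7644) (nat_lit 6) (nat_lit 91) (nat_lit 1) (nat_lit 43) (nat_lit 26) (nat_lit 42)))) (PT.nd (nat_lit 94) (PT.lf (nat_lit 7560) (nat_lit 6) (nat_lit 90) (nat_lit 1) (nat_lit 44) (nat_lit 26) (nat_lit 41)) (PT.nd (nat_lit 94) (PT.lf (nat_lit 7476) (nat_lit 6) (nat_lit 89) (nat_lit 1) (nat_lit 45) (nat_lit 26) (nat_lit 40)) (PT.lf (nat_lit 7392) (nat_lit 6) (nat_lit 88) (nat_lit 1) (nat_lit 46) (nat_lit 26) (nat_lit 39))))) (PT.nd (nat_lit 54614) (PT.nd (nat_lit 94) (PT.lf (nat_lit 7308) (nat_lit 6) (nat_lit 87) (nat_lit 1) (nat_lit 47) (nat_lit 26) (nat_lit 38)) (PT.nd (nat_lit 94) (PT.lf (nat_lit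 7224) (nat_lit 6) (nat_lit 86) (nat_lit 1) (nat_lit 48) (nat_lit 26) (nat_lit 37)) (PT.lf (nat_lit 6132) (nat_lit 6) (nat_lit 73) (nat_lit 1) (nat_lit 49) (nat_lit 26) (nat_lit 36)))) (PT.nd (nat_lit 188) (PT.nd (nat_lit 94) (PT.lf (nat_lit 6048) (nat_lit 6) (nat_lit 72) (nat_lit 3) (nat_lit 35) (nat_lit 27) (nat_lit 49)) (PT.lf (nat_lit 7140) (nat_lit 6) (nat_lit 85) (nat_lit 3) (nat_lit 36) (nat_lit 27) (nat_lit 48))) (PT.nd (nat_lit 94) (PT.lf (nat_lit 8148) (nat_lit 6) (nat_lit 97) (nat_lit 3) (nat_lit 37) (nat_lit 27) (nat_lit 47)) (PT.lf (nat_lit 8232) (nat_lit 6) (nat_lit 98) (nat_lit 3) (nat_lit 38) (nat_lit 27) (nat_lit 46))))))))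
noncomputable def pc3 : PT := (PT.nd (nat_lit 111014) (PT.nd (nat_lit 55460) (PT.nd (nat_lit 564) (PT.nd (nat_lit 282) (PT.nd (nat_lit 94) (PT.lf (nat_lit 8316) (nat_lit 6) (nat_lit 99) (nat_lit 3) (nat_lit 39) (nat_lit 27) (nat_lit 45)) (PT.nd (nat_lit 94) (PT.lf (nat_lit 8400) (nat_lit 6) (nat_lit 100) (nat_lit 3) (nat_lit 40) (nat_lit 27) (nat_lit 44)) (PT.lf (nat_lit 8484) (nat_lit 6) (nat_lit 101) (nat_lit 3) (nat_lit 41) (nat_lit 27) (nat_lit 43)))) (PT.nd (nat_lit 94) (PT.lf (nat_lit 8568) (nat_lit 3) (nat_lit 102) (nat_lit 1) (nat_lit 42) (nat_lit 27) (nat_lit 42)) (PT.nd (nat_lit 94) (PT.lf (nat_lit 8484) (nat_lit 6) (nat_lit 101) (nat_lit 1) (nat_lit 43) (nat_lit 27) (nat_lit 41)) (PT.lf (nat_lit 8400) (nat_lit 6) (nat_lit 100) (nat_lit 1) (nat_lit 44) (nat_lit 27) (nat_lit 40))))) (PT.nd (nat_lit 282) (PT.nd (nat_lit 94) (PT.lf (nat_lit 8316) (nat_lit 6) (nat_lit 99) (nat_lit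 1) (nat_lit 45) (nat_lit 27) (nat_lit 39)) (PT.nd (nat_lit 94) (PT.lf (nat_lit 8232) (nat_lit 6) (nat_lit 98) (nat_lit 1) (nat_lit 46) (nat_lit 27) (nat_lit 38)) (PT.lf (nat_lit 8148) (nat_lit 6) (nat_lit 97) (nat_lit 1) (nat_lit 47) (nat_lit 27) (nat_lit 37)))) (PT.nd (nat_lit 94) (PT.lf (nat_lit 7140) (nat_lit 6) (nat_lit 85) (nat_lit 1) (nat_lit 48) (nat_lit 27) (nat_lit 36)) (PT.nd (nat_lit 54426) (PT.lf (nat_lit 6048) (nat_lit 6) (nat_lit 72) (nat_lit 1) (nat_lit 49) (nat_lit 27) (nat_lit 35)) (PT.lf (nat_lit 7056) (nat_lit 6) (nat_lit 84) (nat_lit 3) (nat_lit 35) (nat_lit 28) (nat_lit 48)))))) (PT.nd (nat_lit 564) (PT.nd (nat_lit 282) (PT.nd (nat_lit 94) (PT.lf (nat_lit 8064) (nat_lit 6) (nat_lit 96) (nat_lit 3) (nat_lit 36) (nat_lit 28) (nat_lit 47)) (PT.nd (nat_lit 94) (PT.lf (nat_lit 8988) (nat_lit 6) (nat_lit 107) (nat_lit 3) (nat_lit 37) (nat_lit 28) (nat_lit 46)) (PT.lf (nat_lit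 9072) (nat_lit 6) (nat_lit 108) (nat_lit 3) (nat_lit 38) (nat_lit 28) (nat_lit 45)))) (PT.nd (nat_lit 94) (PT.lf (nat_lit 9156) (nat_lit 6) (nat_lit 109) (nat_lit 3) (nat_lit 39) (nat_lit 28) (nat_lit 44)) (PT.nd (nat_lit 94) (PT.lf (nat_lit 9240) (nat_lit 6) (nat_lit 110) (nat_lit 3) (nat_lit 40) (nat_lit 28) (nat_lit 43)) (PT.lf (nat_lit 9324) (nat_lit 6) (nat_lit 111) (nat_lit 3) (nat_lit 41) (nat_lit 28) (nat_lit 42))))) (PT.nd (nat_lit 282) (PT.nd (nat_lit 94) (PT.lf (nat_lit 9324) (nat_lit 6) (nat_lit 111) (nat_lit 1) (nat_lit 42) (nat_lit 28) (nat_lit 41)) (PT.nd (nat_lit 94) (PT.lf (nat_lit 9240) (nat_lit 6) (nat_lit 110) (nat_lit 1) (nat_lit 43) (nat_lit 28) (nat_lit 40)) (PT.lf (nat_lit 9156) (nat_lit 6) (nat_lit 109) (nat_lit 1) (nat_lit 44) (nat_lit 28) (nat_lit 39)))) (PT.nd (nat_lit 188) (PT.nd (nat_lit 94) (PT.lf (nat_lit 9072) (nat_lit 6) (nat_lit 108) (nat_lit 1) (nat_lit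 45) (nat_lit 28) (nat_lit 38)) (PT.lf (nat_lit 8988) (nat_lit 6) (nat_lit 107) (nat_lit 1) (nat_lit 46) (nat_lit 28) (nat_lit 37))) (PT.nd (nat_lit 94) (PT.lf (nat_lit 8064) (nat_lit 6) (nat_lit 96) (nat_lit 1) (nat_lit 47) (nat_lit 28) (nat_lit 36)) (PT.lf (nat_lit 7056) (nat_lit 6) (nat_lit 84) (nat_lit 1) (nat_lit 48) (nat_lit 28) (nat_lit 35))))))) (PT.nd (nat_lit 1222) (PT.nd (nat_lit 564) (PT.nd (nat_lit 282) (PT.nd (nat_lit 94) (PT.lf (nat_lit 6972) (nat_lit 6) (nat_lit 83) (nat_lit 3) (nat_lit 34) (nat_lit 29) (nat_lit 48)) (PT.nd (nat_lit 94) (PT.lf (nat_lit 7980) (nat_lit 6) (nat_lit 95) (nat_lit 3) (nat_lit 35) (nat_lit 29) (nat_lit 47)) (PT.lf (nat_lit 8904) (nat_lit 6) (nat_lit 106) (nat_lit 3) (nat_lit 36) (nat_lit 29) (nat_lit 46)))) (PT.nd (nat_lit 94) (PT.lf (nat_lit 9744) (nat_lit 6) (nat_lit 116) (nat_lit 3) (nat_lit 37) (nat_lit 29) (nat_lit 45)) (PT.nd (nat_lit 94)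 (PT.lf (nat_lit 9828) (nat_lit 6) (nat_lit 117) (nat_lit 3) (nat_lit 38) (nat_lit 29) (nat_lit 44)) (PT.lf (nat_lit 9912) (nat_lit 6) (nat_lit 118) (nat_lit 3) (nat_lit 39) (nat_lit 29) (nat_lit 43))))) (PT.nd (nat_lit 282) (PT.nd (nat_lit 94) (PT.lf (nat_lit 9996) (nat_lit 6) (nat_lit 119) (nat_lit 3) (nat_lit 40) (nat_lit 29) (nat_lit 42)) (PT.nd (nat_lit 94) (PT.lf (nat_lit 10080) (nat_lit 3) (nat_lit 120) (nat_lit 1) (nat_lit 41) (nat_lit 29) (nat_lit 41)) (PT.lf (nat_lit 9996) (nat_lit 6) (nat_lit 119) (nat_lit 1) (nat_lit 42) (nat_lit 29) (nat_lit 40)))) (PT.nd (nat_lit 188) (PT.nd (nat_lit 94) (PT.lf (nat_lit 9912) (nat_lit 6) (nat_lit 118) (nat_lit 1) (nat_lit 43) (nat_lit 29) (nat_lit 39)) (PT.lf (nat_lit 9828) (nat_lit 6) (nat_lit 117) (nat_lit 1) (nat_lit 44) (nat_lit 29) (nat_lit 38))) (PT.nd (nat_lit 94) (PT.lf (nat_lit 9744) (nat_lit 6) (nat_lit 116) (nat_lit 1) (nat_lit 45)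 (nat_lit 29) (nat_lit 37)) (PT.lf (nat_lit 8904) (nat_lit 6) (nat_lit 106) (nat_lit 1) (nat_lit 46) (nat_lit 29) (nat_lit 36)))))) (PT.nd (nat_lit 54802) (PT.nd (nat_lit 54520) (PT.nd (nat_lit 94) (PT.lf (nat_lit 7980) (nat_lit 6) (nat_lit 95) (nat_lit 1) (nat_lit 47) (nat_lit 29) (nat_lit 35)) (PT.nd (nat_lit 54332) (PT.lf (nat_lit 6972) (nat_lit 6) (nat_lit 83) (nat_lit 1) (nat_lit 48) (nat_lit 29) (nat_lit 34)) (PT.lf (nat_lit 6888) (nat_lit 6) (nat_lit 82) (nat_lit 3) (nat_lit 33) (nat_lit 30) (nat_lit 48)))) (PT.nd (nat_lit 94) (PT.lf (nat_lit 7896) (nat_lit 6) (nat_lit 94) (nat_lit 3) (nat_lit 34) (nat_lit 30) (nat_lit 47)) (PT.nd (nat_lit 94) (PT.lf (nat_lit 8820) (nat_lit 6) (nat_lit 105) (nat_lit 3) (nat_lit 35) (nat_lit 30) (nat_lit 46)) (PT.lf (nat_lit 9660) (nat_lit 6) (nat_lit 115) (nat_lit 3) (nat_lit 36) (nat_lit 30) (nat_lit 45))))) (PT.nd (nat_lit 282) (PT.nd (nat_lit 94)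 (PT.lf (nat_lit 10416) (nat_lit 6) (nat_lit 124) (nat_lit 3) (nat_lit 37) (nat_lit 30) (nat_lit 44)) (PT.nd (nat_lit 94) (PT.lf (nat_lit 10500) (nat_lit 6) (nat_lit 125) (nat_lit 3) (nat_lit 38) (nat_lit 30) (nat_lit 43)) (PT.lf (nat_lit 10584) (nat_lit 6) (nat_lit 126) (nat_lit 3) (nat_lit 39) (nat_lit 30) (nat_lit 42)))) (PT.nd (nat_lit 188) (PT.nd (nat_lit 94) (PT.lf (nat_lit 10668) (nat_lit 6) (nat_lit 127) (nat_lit 3) (nat_lit 40) (nat_lit 30) (nat_lit 41)) (PT.lf (nat_lit 10668) (nat_lit 6) (nat_lit 127) (nat_lit 1) (nat_lit 41) (nat_lit 30) (nat_lit 40))) (PT.nd (nat_lit 94) (PT.lf (nat_lit 10584) (nat_lit 6) (nat_lit 126) (nat_lit 1) (nat_lit 42) (nat_lit 30) (nat_lit 39)) (PT.lf (nat_lit 10500) (nat_lit 6) (nat_lit 125) (nat_lit 1) (nat_lit 43) (nat_lit 30) (nat_lit 38))))))))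
noncomputable def pc4 : PT := (PT.nd (nat_lit 110544) (PT.nd (nat_lit 55272) (PT.nd (nat_lit 54708) (PT.nd (nat_lit 282) (PT.nd (nat_lit 94) (PT.lf (nat_lit 10416) (nat_lit 6) (nat_lit 124) (nat_lit 1) (nat_lit 44) (nat_lit 30) (nat_lit 37)) (PT.nd (nat_lit 94) (PT.lf (nat_lit 9660) (nat_lit 6) (nat_lit 115) (nat_lit 1) (nat_lit 45) (nat_lit 30) (nat_lit 36)) (PT.lf (nat_lit 8820) (nat_lit 6) (nat_lit 105) (nat_lit 1) (nat_lit 46) (nat_lit 30) (nat_lit 35)))) (PT.nd (nat_lit 94) (PT.lf (nat_lit 7896) (nat_lit 6) (nat_lit 94) (nat_lit 1) (nat_lit 47) (nat_lit 30) (nat_lit 34)) (PT.nd (nat_lit 54238) (PT.lf (nat_lit 6888) (nat_lit 6) (nat_lit 82) (nat_lit 1) (nat_lit 48) (nat_lit 30) (nat_lit 33)) (PT.lf (nat_lit 6804) (nat_lit 6) (nat_lit 81) (nat_lit 3) (nat_lit 32) (nat_lit 31) (nat_lit 48))))) (PT.nd (nat_lit 282) (PT.nd (nat_lit 94) (PT.lf (nat_lit 7812) (nat_lit 6) (nat_lit 93) (nat_lit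 3) (nat_lit 33) (nat_lit 31) (nat_lit 47)) (PT.nd (nat_lit 94) (PT.lf (nat_lit 8736) (nat_lit 6) (nat_lit 104) (nat_lit 3) (nat_lit 34) (nat_lit 31) (nat_lit 46)) (PT.lf (nat_lit 9576) (nat_lit 6) (nat_lit 114) (nat_lit 3) (nat_lit 35) (nat_lit 31) (nat_lit 45)))) (PT.nd (nat_lit 94) (PT.lf (nat_lit 10332) (nat_lit 6) (nat_lit 123) (nat_lit 3) (nat_lit 36) (nat_lit 31) (nat_lit 44)) (PT.nd (nat_lit 94) (PT.lf (nat_lit 11004) (nat_lit 6) (nat_lit 131) (nat_lit 3) (nat_lit 37) (nat_lit 31) (nat_lit 43)) (PT.lf (nat_lit 11088) (nat_lit 6) (nat_lit 132) (nat_lit 3) (nat_lit 38) (nat_lit 31) (nat_lit 42)))))) (PT.nd (nat_lit 564) (PT.nd (nat_lit 282) (PT.nd (nat_lit 94) (PT.lf (nat_lit 11172) (nat_lit 6) (nat_lit 133) (nat_lit 3) (nat_lit 39) (nat_lit 31) (nat_lit 41)) (PT.nd (nat_lit 94) (PT.lf (nat_lit 11256) (nat_lit 3) (nat_lit 134) (nat_lit 1) (nat_lit 40) (nat_lit 31) (nat_lit 40)) (PT.lf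 (nat_lit 11172) (nat_lit 6) (nat_lit 133) (nat_lit 1) (nat_lit 41) (nat_lit 31) (nat_lit 39)))) (PT.nd (nat_lit 94) (PT.lf (nat_lit 11088) (nat_lit 6) (nat_lit 132) (nat_lit 1) (nat_lit 42) (nat_lit 31) (nat_lit 38)) (PT.nd (nat_lit 94) (PT.lf (nat_lit 11004) (nat_lit 6) (nat_lit 131) (nat_lit 1) (nat_lit 43) (nat_lit 31) (nat_lit 37)) (PT.lf (nat_lit 10332) (nat_lit 6) (nat_lit 123) (nat_lit 1) (nat_lit 44) (nat_lit 31) (nat_lit 36))))) (PT.nd (nat_lit 282) (PT.nd (nat_lit 94) (PT.lf (nat_lit 9576) (nat_lit 6) (nat_lit 114) (nat_lit 1) (nat_lit 45) (nat_lit 31) (nat_lit 35)) (PT.nd (nat_lit 94) (PT.lf (nat_lit 8736) (nat_lit 6) (nat_lit 104) (nat_lit 1) (nat_lit 46) (nat_lit 31) (nat_lit 34)) (PT.lf (nat_lit 7812) (nat_lit 6) (nat_lit 93) (nat_lit 1) (nat_lit 47) (nat_lit 31) (nat_lit 33)))) (PT.nd (nat_lit 54238) (PT.nd (nat_lit 54144) (PT.lf (nat_lit 6804) (nat_lit 6) (nat_lit 81) (nat_lit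 1) (nat_lit 48) (nat_lit 31) (nat_lit 32)) (PT.lf (nat_lit 6804) (nat_lit 6) (nat_lit 81) (nat_lit 5) (nat_lit 31) (nat_lit 32) (nat_lit 48))) (PT.nd (nat_lit 94) (PT.lf (nat_lit 7728) (nat_lit 3) (nat_lit 92) (nat_lit 3) (nat_lit 32) (nat_lit 32) (nat_lit 47)) (PT.lf (nat_lit 8652) (nat_lit 6) (nat_lit 103) (nat_lit 3) (nat_lit 33) (nat_lit 32) (nat_lit 46))))))) (PT.nd (nat_lit 1128) (PT.nd (nat_lit 564) (PT.nd (nat_lit 282) (PT.nd (nat_lit 94) (PT.lf (nat_lit 9492) (nat_lit 6) (nat_lit 113) (nat_lit 3) (nat_lit 34) (nat_lit 32) (nat_lit 45)) (PT.nd (nat_lit 94) (PT.lf (nat_lit 10248) (nat_lit 6) (nat_lit 122) (nat_lit 3) (nat_lit 35) (nat_lit 32) (nat_lit 44)) (PT.lf (nat_lit 10920) (nat_lit 6) (nat_lit 130) (nat_lit 3) (nat_lit 36) (nat_lit 32) (nat_lit 43)))) (PT.nd (nat_lit 94) (PT.lf (nat_lit 11508) (nat_lit 6) (nat_lit 137) (nat_lit 3) (nat_lit 37) (nat_lit 32) (nat_lit 42)) (PT.nd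 (nat_lit 94) (PT.lf (nat_lit 11592) (nat_lit 6) (nat_lit 138) (nat_lit 3) (nat_lit 38) (nat_lit 32) (nat_lit 41)) (PT.lf (nat_lit 11676) (nat_lit 6) (nat_lit 139) (nat_lit 3) (nat_lit 39) (nat_lit 32) (nat_lit 40))))) (PT.nd (nat_lit 282) (PT.nd (nat_lit 94) (PT.lf (nat_lit 11676) (nat_lit 6) (nat_lit 139) (nat_lit 1) (nat_lit 40) (nat_lit 32) (nat_lit 39)) (PT.nd (nat_lit 94) (PT.lf (nat_lit 11592) (nat_lit 6) (nat_lit 138) (nat_lit 1) (nat_lit 41) (nat_lit 32) (nat_lit 38)) (PT.lf (nat_lit 11508) (nat_lit 6) (nat_lit 137) (nat_lit 1) (nat_lit 42) (nat_lit 32) (nat_lit 37)))) (PT.nd (nat_lit 94) (PT.lf (nat_lit 10920) (nat_lit 6) (nat_lit 130) (nat_lit 1) (nat_lit 43) (nat_lit 32) (nat_lit 36)) (PT.nd (nat_lit 94) (PT.lf (nat_lit 10248) (nat_lit 6) (nat_lit 122) (nat_lit 1) (nat_lit 44) (nat_lit 32) (nat_lit 35)) (PT.lf (nat_lit 9492) (nat_lit 6) (nat_lit 113) (nat_lit 1) (nat_lit 45)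 (nat_lit 32) (nat_lit 34)))))) (PT.nd (nat_lit 54520) (PT.nd (nat_lit 54238) (PT.nd (nat_lit 94) (PT.lf (nat_lit 8652) (nat_lit 6) (nat_lit 103) (nat_lit 1) (nat_lit 46) (nat_lit 32) (nat_lit 33)) (PT.nd (nat_lit 94) (PT.lf (nat_lit 7728) (nat_lit 3) (nat_lit 92) (nat_lit 0) (nat_lit 47) (nat_lit 32) (nat_lit 32)) (PT.lf (nat_lit 6804) (nat_lit 6) (nat_lit 81) (nat_lit 0) (nat_lit 48) (nat_lit 32) (nat_lit 31)))) (PT.nd (nat_lit 94) (PT.lf (nat_lit 6888) (nat_lit 6) (nat_lit 82) (nat_lit 5) (nat_lit 30) (nat_lit 33) (nat_lit 48)) (PT.nd (nat_lit 94) (PT.lf (nat_lit 7812) (nat_lit 6) (nat_lit 93) (nat_lit 5) (nat_lit 31) (nat_lit 33) (nat_lit 47)) (PT.lf (nat_lit 8652) (nat_lit 6) (nat_lit 103) (nat_lit 5) (nat_lit 32) (nat_lit 33) (nat_lit 46))))) (PT.nd (nat_lit 282) (PT.nd (nat_lit 94) (PT.lf (nat_lit 9408) (nat_lit 3) (nat_lit 112) (nat_lit 3) (nat_lit 33) (nat_lit 33) (nat_lit 45))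 (PT.nd (nat_lit 94) (PT.lf (nat_lit 10164) (nat_lit 6) (nat_lit 121) (nat_lit 3) (nat_lit 34) (nat_lit 33) (nat_lit 44)) (PT.lf (nat_lit 10836) (nat_lit 6) (nat_lit 129) (nat_lit 3) (nat_lit 35) (nat_lit 33) (nat_lit 43)))) (PT.nd (nat_lit 188) (PT.nd (nat_lit 94) (PT.lf (nat_lit 11424) (nat_lit 6) (nat_lit 136) (nat_lit 3) (nat_lit 36) (nat_lit 33) (nat_lit 42)) (PT.lf (nat_lit 11928) (nat_lit 6) (nat_lit 142) (nat_lit 3) (nat_lit 37) (nat_lit 33) (nat_lit 41))) (PT.nd (nat_lit 94) (PT.lf (nat_lit 12012) (nat_lit 6) (nat_lit 143) (nat_lit 3) (nat_lit 38) (nat_lit 33) (nat_lit 40)) (PT.lf (nat_lit 12096) (nat_lit 3) (nat_lit 144) (nat_lit 1) (nat_lit 39) (nat_lit 33) (nat_lit 39))))))))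
noncomputable def pc5 : PT := (PT.nd (nat_lit 56212) (PT.nd (nat_lit 54990) (PT.nd (nat_lit 564) (PT.nd (nat_lit 282) (PT.nd (nat_lit 94) (PT.lf (nat_lit 12012) (nat_lit 6) (nat_lit 143) (nat_lit 1) (nat_lit 40) (nat_lit 33) (nat_lit 38)) (PT.nd (nat_lit 94) (PT.lf (nat_lit 11928) (nat_lit 6) (nat_lit 142) (nat_lit 1) (nat_lit 41) (nat_lit 33) (nat_lit 37)) (PT.lf (nat_lit 11424) (nat_lit 6) (nat_lit 136) (nat_lit 1) (nat_lit 42) (nat_lit 33) (nat_lit 36)))) (PT.nd (nat_lit 94) (PT.lf (nat_lit 10836) (nat_lit 6) (nat_lit 129) (nat_lit 1) (nat_lit 43) (nat_lit 33) (nat_lit 35)) (PT.nd (nat_lit 94) (PT.lf (nat_lit 10164) (nat_lit 6) (nat_lit 121) (nat_lit 1) (nat_lit 44) (nat_lit 33) (nat_lit 34)) (PT.lf (nat_lit 9408) (nat_lit 3) (nat_lit 112) (nat_lit 0) (nat_lit 45) (nat_lit 33) (nat_lit 33))))) (PT.nd (nat_lit 54144) (PT.nd (nat_lit 94) (PT.lf (nat_lit 8652) (nat_lit 6) (nat_lit 103)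 (nat_lit 0) (nat_lit 46) (nat_lit 33) (nat_lit 32)) (PT.nd (nat_lit 94) (PT.lf (nat_lit 7812) (nat_lit 6) (nat_lit 93) (nat_lit 0) (nat_lit 47) (nat_lit 33) (nat_lit 31)) (PT.lf (nat_lit 6888) (nat_lit 6) (nat_lit 82) (nat_lit 0) (nat_lit 48) (nat_lit 33) (nat_lit 30)))) (PT.nd (nat_lit 94) (PT.lf (nat_lit 6972) (nat_lit 6) (nat_lit 83) (nat_lit 5) (nat_lit 29) (nat_lit 34) (nat_lit 48)) (PT.nd (nat_lit 94) (PT.lf (nat_lit 7896) (nat_lit 6) (nat_lit 94) (nat_lit 5) (nat_lit 30) (nat_lit 34) (nat_lit 47)) (PT.lf (nat_lit 8736) (nat_lit 6) (nat_lit 104) (nat_lit 5) (nat_lit 31) (nat_lit 34) (nat_lit 46)))))) (PT.nd (nat_lit 564) (PT.nd (nat_lit 282) (PT.nd (nat_lit 94) (PT.lf (nat_lit 9492) (nat_lit 6) (nat_lit 113) (nat_lit 5) (nat_lit 32) (nat_lit 34) (nat_lit 45)) (PT.nd (nat_lit 94) (PT.lf (nat_lit 10164) (nat_lit 6) (nat_lit 121) (nat_lit 5) (nat_lit 33) (nat_lit 34) (nat_lit 44)) (PT.lf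 (nat_lit 10752) (nat_lit 3) (nat_lit 128) (nat_lit 3) (nat_lit 34) (nat_lit 34) (nat_lit 43)))) (PT.nd (nat_lit 94) (PT.lf (nat_lit 11340) (nat_lit 6) (nat_lit 135) (nat_lit 3) (nat_lit 35) (nat_lit 34) (nat_lit 42)) (PT.nd (nat_lit 94) (PT.lf (nat_lit 11844) (nat_lit 6) (nat_lit 141) (nat_lit 3) (nat_lit 36) (nat_lit 34) (nat_lit 41)) (PT.lf (nat_lit 12264) (nat_lit 6) (nat_lit 146) (nat_lit 3) (nat_lit 37) (nat_lit 34) (nat_lit 40))))) (PT.nd (nat_lit 282) (PT.nd (nat_lit 94) (PT.lf (nat_lit 12348) (nat_lit 6) (nat_lit 147) (nat_lit 3) (nat_lit 38) (nat_lit 34) (nat_lit 39)) (PT.nd (nat_lit 94) (PT.lf (nat_lit 12348) (nat_lit 6) (nat_lit 147) (nat_lit 1) (nat_lit 39) (nat_lit 34) (nat_lit 38)) (PT.lf (nat_lit 12264) (nat_lit 6) (nat_lit 146) (nat_lit 1) (nat_lit 40) (nat_lit 34) (nat_lit 37)))) (PT.nd (nat_lit 188) (PT.nd (nat_lit 94) (PT.lf (nat_lit 11844) (nat_lit 6) (nat_lit 141) (nat_lit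 1) (nat_lit 41) (nat_lit 34) (nat_lit 36)) (PT.lf (nat_lit 11340) (nat_lit 6) (nat_lit 135) (nat_lit 1) (nat_lit 42) (nat_lit 34) (nat_lit 35))) (PT.nd (nat_lit 94) (PT.lf (nat_lit 10752) (nat_lit 3) (nat_lit 128) (nat_lit 0) (nat_lit 43) (nat_lit 34) (nat_lit 34)) (PT.lf (nat_lit 10164) (nat_lit 6) (nat_lit 121) (nat_lit 0) (nat_lit 44) (nat_lit 34) (nat_lit 33))))))) (PT.nd (nat_lit 54896) (PT.nd (nat_lit 54238) (PT.nd (nat_lit 282) (PT.nd (nat_lit 94) (PT.lf (nat_lit 9492) (nat_lit 6) (nat_lit 113) (nat_lit 0) (nat_lit 45) (nat_lit 34) (nat_lit 32)) (PT.nd (nat_lit 94) (PT.lf (nat_lit 8736) (nat_lit 6) (nat_lit 104) (nat_lit 0) (nat_lit 46) (nat_lit 34) (nat_lit 31)) (PT.lf (nat_lit 7896) (nat_lit 6) (nat_lit 94) (nat_lit 0) (nat_lit 47) (nat_lit 34) (nat_lit 30)))) (PT.nd (nat_lit 53768) (PT.lf (nat_lit 6972) (nat_lit 6) (nat_lit 83) (nat_lit 0) (nat_lit 48) (nat_lit 34) (nat_lit 29))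 (PT.nd (nat_lit 94) (PT.lf (nat_lit 6048) (nat_lit 6) (nat_lit 72) (nat_lit 5) (nat_lit 27) (nat_lit 35) (nat_lit 49)) (PT.lf (nat_lit 7056) (nat_lit 6) (nat_lit 84) (nat_lit 5) (nat_lit 28) (nat_lit 35) (nat_lit 48))))) (PT.nd (nat_lit 282) (PT.nd (nat_lit 94) (PT.lf (nat_lit 7980) (nat_lit 6) (nat_lit 95) (nat_lit 5) (nat_lit 29) (nat_lit 35) (nat_lit 47)) (PT.nd (nat_lit 94) (PT.lf (nat_lit 8820) (nat_lit 6) (nat_lit 105) (nat_lit 5) (nat_lit 30) (nat_lit 35) (nat_lit 46)) (PT.lf (nat_lit 9576) (nat_lit 6) (nat_lit 114) (nat_lit 5) (nat_lit 31) (nat_lit 35) (nat_lit 45)))) (PT.nd (nat_lit 188) (PT.nd (nat_lit 94) (PT.lf (nat_lit 10248) (nat_lit 6) (nat_lit 122) (nat_lit 5) (nat_lit 32) (nat_lit 35) (nat_lit 44)) (PT.lf (nat_lit 10836) (nat_lit 6) (nat_lit 129) (nat_lit 5) (nat_lit 33) (nat_lit 35) (nat_lit 43))) (PT.nd (nat_lit 94) (PT.lf (nat_lit 11340) (nat_lit 6) (nat_lit 135) (nat_lit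 5) (nat_lit 34) (nat_lit 35) (nat_lit 42)) (PT.lf (nat_lit 11760) (nat_lit 3) (nat_lit 140) (nat_lit 3) (nat_lit 35) (nat_lit 35) (nat_lit 41)))))) (PT.nd (nat_lit 564) (PT.nd (nat_lit 282) (PT.nd (nat_lit 94) (PT.lf (nat_lit 12180) (nat_lit 6) (nat_lit 145) (nat_lit 3) (nat_lit 36) (nat_lit 35) (nat_lit 40)) (PT.nd (nat_lit 94) (PT.lf (nat_lit 12516) (nat_lit 6) (nat_lit 149) (nat_lit 3) (nat_lit 37) (nat_lit 35) (nat_lit 39)) (PT.lf (nat_lit 12600) (nat_lit 3) (nat_lit 150) (nat_lit 1) (nat_lit 38) (nat_lit 35) (nat_lit 38)))) (PT.nd (nat_lit 94) (PT.lf (nat_lit 12516) (nat_lit 6) (nat_lit 149) (nat_lit 1) (nat_lit 39) (nat_lit 35) (nat_lit 37)) (PT.nd (nat_lit 94) (PT.lf (nat_lit 12180) (nat_lit 6) (nat_lit 145) (nat_lit 1) (nat_lit 40) (nat_lit 35) (nat_lit 36)) (PT.lf (nat_lit 11760) (nat_lit 3) (nat_lit 140) (nat_lit 0) (nat_lit 41) (nat_lit 35) (nat_lit 35))))) (PT.nd (nat_lit 282)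 (PT.nd (nat_lit 94) (PT.lf (nat_lit 11340) (nat_lit 6) (nat_lit 135) (nat_lit 0) (nat_lit 42) (nat_lit 35) (nat_lit 34)) (PT.nd (nat_lit 94) (PT.lf (nat_lit 10836) (nat_lit 6) (nat_lit 129) (nat_lit 0) (nat_lit 43) (nat_lit 35) (nat_lit 33)) (PT.lf (nat_lit 10248) (nat_lit 6) (nat_lit 122) (nat_lit 0) (nat_lit 44) (nat_lit 35) (nat_lit 32)))) (PT.nd (nat_lit 188) (PT.nd (nat_lit 94) (PT.lf (nat_lit 9576) (nat_lit 6) (nat_lit 114) (nat_lit 0) (nat_lit 45) (nat_lit 35) (nat_lit 31)) (PT.lf (nat_lit 8820) (nat_lit 6) (nat_lit 105) (nat_lit 0) (nat_lit 46) (nat_lit 35) (nat_lit 30))) (PT.nd (nat_lit 94) (PT.lf (nat_lit 7980) (nat_lit 6) (nat_lit 95) (nat_lit 0) (nat_lit 47) (nat_lit 35) (nat_lit 29)) (PT.lf (nat_lit 7056) (nat_lit 6) (nat_lit 84) (nat_lit 0) (nat_lit 48) (nat_lit 35) (nat_lit 28))))))))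
noncomputable def pc6 : PT := (PT.nd (nat_lit 109228) (PT.nd (nat_lit 54614) (PT.nd (nat_lit 54050) (PT.nd (nat_lit 53768) (PT.nd (nat_lit 53580) (PT.lf (nat_lit 6048) (nat_lit 6) (nat_lit 72) (nat_lit 0) (nat_lit 49) (nat_lit 35) (nat_lit 27)) (PT.nd (nat_lit 94) (PT.lf (nat_lit 6132) (nat_lit 6) (nat_lit 73) (nat_lit 5) (nat_lit 26) (nat_lit 36) (nat_lit 49)) (PT.lf (nat_lit 7140) (nat_lit 6) (nat_lit 85) (nat_lit 5) (nat_lit 27) (nat_lit 36) (nat_lit 48)))) (PT.nd (nat_lit 94) (PT.lf (nat_lit 8064) (nat_lit 6) (nat_lit 96) (nat_lit 5) (nat_lit 28) (nat_lit 36) (nat_lit 47)) (PT.nd (nat_lit 94) (PT.lf (nat_lit 8904) (nat_lit 6) (nat_lit 106) (nat_lit 5) (nat_lit 29) (nat_lit 36) (nat_lit 46)) (PT.lf (nat_lit 9660) (nat_lit 6) (nat_lit 115) (nat_lit 5) (nat_lit 30) (nat_lit 36) (nat_lit 45))))) (PT.nd (nat_lit 282) (PT.nd (nat_lit 94) (PT.lf (nat_lit 10332) (nat_lit 6) (nat_lit 123) (nat_lit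 5) (nat_lit 31) (nat_lit 36) (nat_lit 44)) (PT.nd (nat_lit 94) (PT.lf (nat_lit 10920) (nat_lit 6) (nat_lit 130) (nat_lit 5) (nat_lit 32) (nat_lit 36) (nat_lit 43)) (PT.lf (nat_lit 11424) (nat_lit 6) (nat_lit 136) (nat_lit 5) (nat_lit 33) (nat_lit 36) (nat_lit 42)))) (PT.nd (nat_lit 94) (PT.lf (nat_lit 11844) (nat_lit 6) (nat_lit 141) (nat_lit 5) (nat_lit 34) (nat_lit 36) (nat_lit 41)) (PT.nd (nat_lit 94) (PT.lf (nat_lit 12180) (nat_lit 6) (nat_lit 145) (nat_lit 5) (nat_lit 35) (nat_lit 36) (nat_lit 40)) (PT.lf (nat_lit 12432) (nat_lit 3) (nat_lit 148) (nat_lit 3) (nat_lit 36) (nat_lit 36) (nat_lit 39)))))) (PT.nd (nat_lit 564) (PT.nd (nat_lit 282) (PT.nd (nat_lit 94) (PT.lf (nat_lit 12684) (nat_lit 6) (nat_lit 151) (nat_lit 3) (nat_lit 37) (nat_lit 36) (nat_lit 38)) (PT.nd (nat_lit 94) (PT.lf (nat_lit 12684) (nat_lit 6) (nat_lit 151) (nat_lit 1) (nat_lit 38) (nat_lit 36) (nat_lit 37)) (PT.lf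 (nat_lit 12432) (nat_lit 3) (nat_lit 148) (nat_lit 0) (nat_lit 39) (nat_lit 36) (nat_lit 36)))) (PT.nd (nat_lit 94) (PT.lf (nat_lit 12180) (nat_lit 6) (nat_lit 145) (nat_lit 0) (nat_lit 40) (nat_lit 36) (nat_lit 35)) (PT.nd (nat_lit 94) (PT.lf (nat_lit 11844) (nat_lit 6) (nat_lit 141) (nat_lit 0) (nat_lit 41) (nat_lit 36) (nat_lit 34)) (PT.lf (nat_lit 11424) (nat_lit 6) (nat_lit 136) (nat_lit 0) (nat_lit 42) (nat_lit 36) (nat_lit 33))))) (PT.nd (nat_lit 282) (PT.nd (nat_lit 94) (PT.lf (nat_lit 10920) (nat_lit 6) (nat_lit 130) (nat_lit 0) (nat_lit 43) (nat_lit 36) (nat_lit 32)) (PT.nd (nat_lit 94) (PT.lf (nat_lit 10332) (nat_lit 6) (nat_lit 123) (nat_lit 0) (nat_lit 44) (nat_lit 36) (nat_lit 31)) (PT.lf (nat_lit 9660) (nat_lit 6) (nat_lit 115) (nat_lit 0) (nat_lit 45) (nat_lit 36) (nat_lit 30)))) (PT.nd (nat_lit 188) (PT.nd (nat_lit 94) (PT.lf (nat_lit 8904) (nat_lit 6) (nat_lit 106) (nat_lit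 0) (nat_lit 46) (nat_lit 36) (nat_lit 29)) (PT.lf (nat_lit 8064) (nat_lit 6) (nat_lit 96) (nat_lit 0) (nat_lit 47) (nat_lit 36) (nat_lit 28))) (PT.nd (nat_lit 94) (PT.lf (nat_lit 7140) (nat_lit 6) (nat_lit 85) (nat_lit 0) (nat_lit 48) (nat_lit 36) (nat_lit 27)) (PT.lf (nat_lit 6132) (nat_lit 6) (nat_lit 73) (nat_lit 0) (nat_lit 49) (nat_lit 36) (nat_lit 26))))))) (PT.nd (nat_lit 1128) (PT.nd (nat_lit 564) (PT.nd (nat_lit 282) (PT.nd (nat_lit 94) (PT.lf (nat_lit 6216) (nat_lit 6) (nat_lit 74) (nat_lit 5) (nat_lit 25) (nat_lit 37) (nat_lit 49)) (PT.nd (nat_lit 94) (PT.lf (nat_lit 7224) (nat_lit 6) (nat_lit 86) (nat_lit 5) (nat_lit 26) (nat_lit 37) (nat_lit 48)) (PT.lf (nat_lit 8148) (nat_lit 6) (nat_lit 97) (nat_lit 5) (nat_lit 27) (nat_lit 37) (nat_lit 47)))) (PT.nd (nat_lit 94) (PT.lf (nat_lit 8988) (nat_lit 6) (nat_lit 107) (nat_lit 5) (nat_lit 28) (nat_lit 37) (nat_lit 46)) (PT.nd (nat_lit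 94) (PT.lf (nat_lit 9744) (nat_lit 6) (nat_lit 116) (nat_lit 5) (nat_lit 29) (nat_lit 37) (nat_lit 45)) (PT.lf (nat_lit 10416) (nat_lit 6) (nat_lit 124) (nat_lit 5) (nat_lit 30) (nat_lit 37) (nat_lit 44))))) (PT.nd (nat_lit 282) (PT.nd (nat_lit 94) (PT.lf (nat_lit 11004) (nat_lit 6) (nat_lit 131) (nat_lit 5) (nat_lit 31) (nat_lit 37) (nat_lit 43)) (PT.nd (nat_lit 94) (PT.lf (nat_lit 11508) (nat_lit 6) (nat_lit 137) (nat_lit 5) (nat_lit 32) (nat_lit 37) (nat_lit 42)) (PT.lf (nat_lit 11928) (nat_lit 6) (nat_lit 142) (nat_lit 5) (nat_lit 33) (nat_lit 37) (nat_lit 41)))) (PT.nd (nat_lit 94) (PT.lf (nat_lit 12264) (nat_lit 6) (nat_lit 146) (nat_lit 5) (nat_lit 34) (nat_lit 37) (nat_lit 40)) (PT.nd (nat_lit 94) (PT.lf (nat_lit 12516) (nat_lit 6) (nat_lit 149) (nat_lit 5) (nat_lit 35) (nat_lit 37) (nat_lit 39)) (PT.lf (nat_lit 12684) (nat_lit 6) (nat_lit 151) (nat_lit 5) (nat_lit 36) (nat_lit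 37) (nat_lit 38)))))) (PT.nd (nat_lit 564) (PT.nd (nat_lit 282) (PT.nd (nat_lit 94) (PT.lf (nat_lit 12768) (nat_lit 1) (nat_lit 152) (nat_lit 0) (nat_lit 37) (nat_lit 37) (nat_lit 37)) (PT.nd (nat_lit 94) (PT.lf (nat_lit 12684) (nat_lit 6) (nat_lit 151) (nat_lit 0) (nat_lit 38) (nat_lit 37) (nat_lit 36)) (PT.lf (nat_lit 12516) (nat_lit 6) (nat_lit 149) (nat_lit 0) (nat_lit 39) (nat_lit 37) (nat_lit 35)))) (PT.nd (nat_lit 94) (PT.lf (nat_lit 12264) (nat_lit 6) (nat_lit 146) (nat_lit 0) (nat_lit 40) (nat_lit 37) (nat_lit 34)) (PT.nd (nat_lit 94) (PT.lf (nat_lit 11928) (nat_lit 6) (nat_lit 142) (nat_lit 0) (nat_lit 41) (nat_lit 37) (nat_lit 33)) (PT.lf (nat_lit 11508) (nat_lit 6) (nat_lit 137) (nat_lit 0) (nat_lit 42) (nat_lit 37) (nat_lit 32))))) (PT.nd (nat_lit 282) (PT.nd (nat_lit 94) (PT.lf (nat_lit 11004) (nat_lit 6) (nat_lit 131) (nat_lit 0) (nat_lit 43) (nat_lit 37) (nat_lit 31)) (PT.nd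 (nat_lit 94) (PT.lf (nat_lit 10416) (nat_lit 6) (nat_lit 124) (nat_lit 0) (nat_lit 44) (nat_lit 37) (nat_lit 30)) (PT.lf (nat_lit 9744) (nat_lit 6) (nat_lit 116) (nat_lit 0) (nat_lit 45) (nat_lit 37) (nat_lit 29)))) (PT.nd (nat_lit 188) (PT.nd (nat_lit 94) (PT.lf (nat_lit 8988) (nat_lit 6) (nat_lit 107) (nat_lit 0) (nat_lit 46) (nat_lit 37) (nat_lit 28)) (PT.lf (nat_lit 8148) (nat_lit 6) (nat_lit 97) (nat_lit 0) (nat_lit 47) (nat_lit 37) (nat_lit 27))) (PT.nd (nat_lit 94) (PT.lf (nat_lit 7224) (nat_lit 6) (nat_lit 86) (nat_lit 0) (nat_lit 48) (nat_lit 37) (nat_lit 26)) (PT.lf (nat_lit 6216) (nat_lit 6) (nat_lit 74) (nat_lit 0) (nat_lit 49) (nat_lit 37) (nat_lit 25))))))))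
noncomputable def pc7 : PT := (PT.nd (nat_lit 2350) (PT.nd (nat_lit 1128) (PT.nd (nat_lit 564) (PT.nd (nat_lit 282) (PT.nd (nat_lit 94) (PT.lf (nat_lit 5544) (nat_lit 6) (nat_lit 66) (nat_lit 5) (nat_lit 24) (nat_lit 38) (nat_lit 49)) (PT.nd (nat_lit 94) (PT.lf (nat_lit 6300) (nat_lit 6) (nat_lit 75) (nat_lit 5) (nat_lit 25) (nat_lit 38) (nat_lit 48)) (PT.lf (nat_lit 7308) (nat_lit 6) (nat_lit 87) (nat_lit 5) (nat_lit 26) (nat_lit 38) (nat_lit 47)))) (PT.nd (nat_lit 94) (PT.lf (nat_lit 8232) (nat_lit 6) (nat_lit 98) (nat_lit 5) (nat_lit 27) (nat_lit 38) (nat_lit 46)) (PT.nd (nat_lit 94) (PT.lf (nat_lit 9072) (nat_lit 6) (nat_lit 108) (nat_lit 5) (nat_lit 28) (nat_lit 38) (nat_lit 45)) (PT.lf (nat_lit 9828) (nat_lit 6) (nat_lit 117) (nat_lit 5) (nat_lit 29) (nat_lit 38) (nat_lit 44))))) (PT.nd (nat_lit 282) (PT.nd (nat_lit 94) (PT.lf (nat_lit 10500) (nat_lit 6) (nat_lit 125) (nat_lit 5)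 (nat_lit 30) (nat_lit 38) (nat_lit 43)) (PT.nd (nat_lit 94) (PT.lf (nat_lit 11088) (nat_lit 6) (nat_lit 132) (nat_lit 5) (nat_lit 31) (nat_lit 38) (nat_lit 42)) (PT.lf (nat_lit 11592) (nat_lit 6) (nat_lit 138) (nat_lit 5) (nat_lit 32) (nat_lit 38) (nat_lit 41)))) (PT.nd (nat_lit 94) (PT.lf (nat_lit 12012) (nat_lit 6) (nat_lit 143) (nat_lit 5) (nat_lit 33) (nat_lit 38) (nat_lit 40)) (PT.nd (nat_lit 94) (PT.lf (nat_lit 12348) (nat_lit 6) (nat_lit 147) (nat_lit 5) (nat_lit 34) (nat_lit 38) (nat_lit 39)) (PT.lf (nat_lit 12600) (nat_lit 3) (nat_lit 150) (nat_lit 4) (nat_lit 35) (nat_lit 38) (nat_lit 38)))))) (PT.nd (nat_lit 564) (PT.nd (nat_lit 282) (PT.nd (nat_lit 94) (PT.lf (nat_lit 12684) (nat_lit 6) (nat_lit 151) (nat_lit 4) (nat_lit 36) (nat_lit 38) (nat_lit 37)) (PT.nd (nat_lit 94) (PT.lf (nat_lit 12684) (nat_lit 6) (nat_lit 151) (nat_lit 2) (nat_lit 37) (nat_lit 38) (nat_lit 36)) (PT.lf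 (nat_lit 12600) (nat_lit 3) (nat_lit 150) (nat_lit 0) (nat_lit 38) (nat_lit 38) (nat_lit 35)))) (PT.nd (nat_lit 94) (PT.lf (nat_lit 12348) (nat_lit 6) (nat_lit 147) (nat_lit 0) (nat_lit 39) (nat_lit 38) (nat_lit 34)) (PT.nd (nat_lit 94) (PT.lf (nat_lit 12012) (nat_lit 6) (nat_lit 143) (nat_lit 0) (nat_lit 40) (nat_lit 38) (nat_lit 33)) (PT.lf (nat_lit 11592) (nat_lit 6) (nat_lit 138) (nat_lit 0) (nat_lit 41) (nat_lit 38) (nat_lit 32))))) (PT.nd (nat_lit 282) (PT.nd (nat_lit 94) (PT.lf (nat_lit 11088) (nat_lit 6) (nat_lit 132) (nat_lit 0) (nat_lit 42) (nat_lit 38) (nat_lit 31)) (PT.nd (nat_lit 94) (PT.lf (nat_lit 10500) (nat_lit 6) (nat_lit 125) (nat_lit 0) (nat_lit 43) (nat_lit 38) (nat_lit 30)) (PT.lf (nat_lit 9828) (nat_lit 6) (nat_lit 117) (nat_lit 0) (nat_lit 44) (nat_lit 38) (nat_lit 29)))) (PT.nd (nat_lit 188) (PT.nd (nat_lit 94) (PT.lf (nat_lit 9072) (nat_lit 6) (nat_lit 108) (nat_lit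 0) (nat_lit 45) (nat_lit 38) (nat_lit 28)) (PT.lf (nat_lit 8232) (nat_lit 6) (nat_lit 98) (nat_lit 0) (nat_lit 46) (nat_lit 38) (nat_lit 27))) (PT.nd (nat_lit 94) (PT.lf (nat_lit 7308) (nat_lit 6) (nat_lit 87) (nat_lit 0) (nat_lit 47) (nat_lit 38) (nat_lit 26)) (PT.lf (nat_lit 6300) (nat_lit 6) (nat_lit 75) (nat_lit 0) (nat_lit 48) (nat_lit 38) (nat_lit 25))))))) (PT.nd (nat_lit 54426) (PT.nd (nat_lit 53768) (PT.nd (nat_lit 53486) (PT.nd (nat_lit 53298) (PT.lf (nat_lit 5544) (nat_lit 6) (nat_lit 66) (nat_lit 0) (nat_lit 49) (nat_lit 38) (nat_lit 24)) (PT.nd (nat_lit 94) (PT.lf (nat_lit 5040) (nat_lit 6) (nat_lit 60) (nat_lit 5) (nat_lit 23) (nat_lit 39) (nat_lit 49)) (PT.lf (nat_lit 5628) (nat_lit 6) (nat_lit 67) (nat_lit 5) (nat_lit 24) (nat_lit 39) (nat_lit 48)))) (PT.nd (nat_lit 94) (PT.lf (nat_lit 6384) (nat_lit 6) (nat_lit 76) (nat_lit 5) (nat_lit 25) (nat_lit 39) (nat_lit 47)) (PT.nd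 (nat_lit 94) (PT.lf (nat_lit 7392) (nat_lit 6) (nat_lit 88) (nat_lit 5) (nat_lit 26) (nat_lit 39) (nat_lit 46)) (PT.lf (nat_lit 8316) (nat_lit 6) (nat_lit 99) (nat_lit 5) (nat_lit 27) (nat_lit 39) (nat_lit 45))))) (PT.nd (nat_lit 282) (PT.nd (nat_lit 94) (PT.lf (nat_lit 9156) (nat_lit 6) (nat_lit 109) (nat_lit 5) (nat_lit 28) (nat_lit 39) (nat_lit 44)) (PT.nd (nat_lit 94) (PT.lf (nat_lit 9912) (nat_lit 6) (nat_lit 118) (nat_lit 5) (nat_lit 29) (nat_lit 39) (nat_lit 43)) (PT.lf (nat_lit 10584) (nat_lit 6) (nat_lit 126) (nat_lit 5) (nat_lit 30) (nat_lit 39) (nat_lit 42)))) (PT.nd (nat_lit 188) (PT.nd (nat_lit 94) (PT.lf (nat_lit 11172) (nat_lit 6) (nat_lit 133) (nat_lit 5) (nat_lit 31) (nat_lit 39) (nat_lit 41)) (PT.lf (nat_lit 11676) (nat_lit 6) (nat_lit 139) (nat_lit 5) (nat_lit 32) (nat_lit 39) (nat_lit 40))) (PT.nd (nat_lit 94) (PT.lf (nat_lit 12096) (nat_lit 3) (nat_lit 144) (nat_lit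 4) (nat_lit 33) (nat_lit 39) (nat_lit 39)) (PT.lf (nat_lit 12348) (nat_lit 6) (nat_lit 147) (nat_lit 4) (nat_lit 34) (nat_lit 39) (nat_lit 38)))))) (PT.nd (nat_lit 564) (PT.nd (nat_lit 282) (PT.nd (nat_lit 94) (PT.lf (nat_lit 12516) (nat_lit 6) (nat_lit 149) (nat_lit 4) (nat_lit 35) (nat_lit 39) (nat_lit 37)) (PT.nd (nat_lit 94) (PT.lf (nat_lit 12432) (nat_lit 3) (nat_lit 148) (nat_lit 2) (nat_lit 36) (nat_lit 39) (nat_lit 36)) (PT.lf (nat_lit 12516) (nat_lit 6) (nat_lit 149) (nat_lit 2) (nat_lit 37) (nat_lit 39) (nat_lit 35)))) (PT.nd (nat_lit 94) (PT.lf (nat_lit 12348) (nat_lit 6) (nat_lit 147) (nat_lit 2) (nat_lit 38) (nat_lit 39) (nat_lit 34)) (PT.nd (nat_lit 94) (PT.lf (nat_lit 12096) (nat_lit 3) (nat_lit 144) (nat_lit 0) (nat_lit 39) (nat_lit 39) (nat_lit 33)) (PT.lf (nat_lit 11676) (nat_lit 6) (nat_lit 139) (nat_lit 0) (nat_lit 40) (nat_lit 39) (nat_lit 32))))) (PT.nd (nat_lit 282)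 (PT.nd (nat_lit 94) (PT.lf (nat_lit 11172) (nat_lit 6) (nat_lit 133) (nat_lit 0) (nat_lit 41) (nat_lit 39) (nat_lit 31)) (PT.nd (nat_lit 94) (PT.lf (nat_lit 10584) (nat_lit 6) (nat_lit 126) (nat_lit 0) (nat_lit 42) (nat_lit 39) (nat_lit 30)) (PT.lf (nat_lit 9912) (nat_lit 6) (nat_lit 118) (nat_lit 0) (nat_lit 43) (nat_lit 39) (nat_lit 29)))) (PT.nd (nat_lit 188) (PT.nd (nat_lit 94) (PT.lf (nat_lit 9156) (nat_lit 6) (nat_lit 109) (nat_lit 0) (nat_lit 44) (nat_lit 39) (nat_lit 28)) (PT.lf (nat_lit 8316) (nat_lit 6) (nat_lit 99) (nat_lit 0) (nat_lit 45) (nat_lit 39) (nat_lit 27))) (PT.nd (nat_lit 94) (PT.lf (nat_lit 7392) (nat_lit 6) (nat_lit 88) (nat_lit 0) (nat_lit 46) (nat_lit 39) (nat_lit 26)) (PT.lf (nat_lit 6384) (nat_lit 6) (nat_lit 76) (nat_lit 0) (nat_lit 47) (nat_lit 39) (nat_lit 25))))))))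
noncomputable def pc8 : PT := (PT.nd (nat_lit 55460) (PT.nd (nat_lit 54238) (PT.nd (nat_lit 53674) (PT.nd (nat_lit 53392) (PT.nd (nat_lit 94) (PT.lf (nat_lit 5628) (nat_lit 6) (nat_lit 67) (nat_lit 0) (nat_lit 48) (nat_lit 39) (nat_lit 24)) (PT.nd (nat_lit 53204) (PT.lf (nat_lit 5040) (nat_lit 6) (nat_lit 60) (nat_lit 0) (nat_lit 49) (nat_lit 39) (nat_lit 23)) (PT.lf (nat_lit 4620) (nat_lit 6) (nat_lit 55) (nat_lit 5) (nat_lit 22) (nat_lit 40) (nat_lit 49)))) (PT.nd (nat_lit 94) (PT.lf (nat_lit 5124) (nat_lit 6) (nat_lit 61) (nat_lit 5) (nat_lit 23) (nat_lit 40) (nat_lit 48)) (PT.nd (nat_lit 94) (PT.lf (nat_lit 5712) (nat_lit 6) (nat_lit 68) (nat_lit 5) (nat_lit 24) (nat_lit 40) (nat_lit 47)) (PT.lf (nat_lit 6468) (nat_lit 6) (nat_lit 77) (nat_lit 5) (nat_lit 25) (nat_lit 40) (nat_lit 46))))) (PT.nd (nat_lit 282) (PT.nd (nat_lit 94) (PT.lf (nat_lit 7476) (nat_lit 6) (nat_lit 89) (nat_lit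 5) (nat_lit 26) (nat_lit 40) (nat_lit 45)) (PT.nd (nat_lit 94) (PT.lf (nat_lit 8400) (nat_lit 6) (nat_lit 100) (nat_lit 5) (nat_lit 27) (nat_lit 40) (nat_lit 44)) (PT.lf (nat_lit 9240) (nat_lit 6) (nat_lit 110) (nat_lit 5) (nat_lit 28) (nat_lit 40) (nat_lit 43)))) (PT.nd (nat_lit 94) (PT.lf (nat_lit 9996) (nat_lit 6) (nat_lit 119) (nat_lit 5) (nat_lit 29) (nat_lit 40) (nat_lit 42)) (PT.nd (nat_lit 94) (PT.lf (nat_lit 10668) (nat_lit 6) (nat_lit 127) (nat_lit 5) (nat_lit 30) (nat_lit 40) (nat_lit 41)) (PT.lf (nat_lit 11256) (nat_lit 3) (nat_lit 134) (nat_lit 4) (nat_lit 31) (nat_lit 40) (nat_lit 40)))))) (PT.nd (nat_lit 564) (PT.nd (nat_lit 282) (PT.nd (nat_lit 94) (PT.lf (nat_lit 11676) (nat_lit 6) (nat_lit 139) (nat_lit 4) (nat_lit 32) (nat_lit 40) (nat_lit 39)) (PT.nd (nat_lit 94) (PT.lf (nat_lit 12012) (nat_lit 6) (nat_lit 143) (nat_lit 4) (nat_lit 33) (nat_lit 40) (nat_lit 38)) (PT.lf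 (nat_lit 12264) (nat_lit 6) (nat_lit 146) (nat_lit 4) (nat_lit 34) (nat_lit 40) (nat_lit 37)))) (PT.nd (nat_lit 94) (PT.lf (nat_lit 12180) (nat_lit 6) (nat_lit 145) (nat_lit 4) (nat_lit 35) (nat_lit 40) (nat_lit 36)) (PT.nd (nat_lit 94) (PT.lf (nat_lit 12180) (nat_lit 6) (nat_lit 145) (nat_lit 2) (nat_lit 36) (nat_lit 40) (nat_lit 35)) (PT.lf (nat_lit 12264) (nat_lit 6) (nat_lit 146) (nat_lit 2) (nat_lit 37) (nat_lit 40) (nat_lit 34))))) (PT.nd (nat_lit 282) (PT.nd (nat_lit 94) (PT.lf (nat_lit 12012) (nat_lit 6) (nat_lit 143) (nat_lit 2) (nat_lit 38) (nat_lit 40) (nat_lit 33)) (PT.nd (nat_lit 94) (PT.lf (nat_lit 11676) (nat_lit 6) (nat_lit 139) (nat_lit 2) (nat_lit 39) (nat_lit 40) (nat_lit 32)) (PT.lf (nat_lit 11256) (nat_lit 3) (nat_lit 134) (nat_lit 0) (nat_lit 40) (nat_lit 40) (nat_lit 31)))) (PT.nd (nat_lit 188) (PT.nd (nat_lit 94) (PT.lf (nat_lit 10668) (nat_lit 6) (nat_lit 127) (nat_lit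 0) (nat_lit 41) (nat_lit 40) (nat_lit 30)) (PT.lf (nat_lit 9996) (nat_lit 6) (nat_lit 119) (nat_lit 0) (nat_lit 42) (nat_lit 40) (nat_lit 29))) (PT.nd (nat_lit 94) (PT.lf (nat_lit 9240) (nat_lit 6) (nat_lit 110) (nat_lit 0) (nat_lit 43) (nat_lit 40) (nat_lit 28)) (PT.lf (nat_lit 8400) (nat_lit 6) (nat_lit 100) (nat_lit 0) (nat_lit 44) (nat_lit 40) (nat_lit 27))))))) (PT.nd (nat_lit 54144) (PT.nd (nat_lit 53580) (PT.nd (nat_lit 282) (PT.nd (nat_lit 94) (PT.lf (nat_lit 7476) (nat_lit 6) (nat_lit 89) (nat_lit 0) (nat_lit 45) (nat_lit 40) (nat_lit 26)) (PT.nd (nat_lit 94) (PT.lf (nat_lit 6468) (nat_lit 6) (nat_lit 77) (nat_lit 0) (nat_lit 46) (nat_lit 40) (nat_lit 25)) (PT.lf (nat_lit 5712) (nat_lit 6) (nat_lit 68) (nat_lit 0) (nat_lit 47) (nat_lit 40) (nat_lit 24)))) (PT.nd (nat_lit 94) (PT.lf (nat_lit 5124) (nat_lit 6) (nat_lit 61) (nat_lit 0) (nat_lit 48) (nat_lit 40) (nat_lit 23)) (PT.nd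 (nat_lit 53110) (PT.lf (nat_lit 4620) (nat_lit 6) (nat_lit 55) (nat_lit 0) (nat_lit 49) (nat_lit 40) (nat_lit 22)) (PT.lf (nat_lit 4200) (nat_lit 6) (nat_lit 50) (nat_lit 5) (nat_lit 21) (nat_lit 41) (nat_lit 49))))) (PT.nd (nat_lit 282) (PT.nd (nat_lit 94) (PT.lf (nat_lit 4704) (nat_lit 6) (nat_lit 56) (nat_lit 5) (nat_lit 22) (nat_lit 41) (nat_lit 48)) (PT.nd (nat_lit 94) (PT.lf (nat_lit 5208) (nat_lit 6) (nat_lit 62) (nat_lit 5) (nat_lit 23) (nat_lit 41) (nat_lit 47)) (PT.lf (nat_lit 5796) (nat_lit 6) (nat_lit 69) (nat_lit 5) (nat_lit 24) (nat_lit 41) (nat_lit 46)))) (PT.nd (nat_lit 94) (PT.lf (nat_lit 6552) (nat_lit 6) (nat_lit 78) (nat_lit 5) (nat_lit 25) (nat_lit 41) (nat_lit 45)) (PT.nd (nat_lit 94) (PT.lf (nat_lit 7560) (nat_lit 6) (nat_lit 90) (nat_lit 5) (nat_lit 26) (nat_lit 41) (nat_lit 44)) (PT.lf (nat_lit 8484) (nat_lit 6) (nat_lit 101) (nat_lit 5) (nat_lit 27) (nat_lit 41)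 (nat_lit 43)))))) (PT.nd (nat_lit 564) (PT.nd (nat_lit 282) (PT.nd (nat_lit 94) (PT.lf (nat_lit 9324) (nat_lit 6) (nat_lit 111) (nat_lit 5) (nat_lit 28) (nat_lit 41) (nat_lit 42)) (PT.nd (nat_lit 94) (PT.lf (nat_lit 10080) (nat_lit 3) (nat_lit 120) (nat_lit 4) (nat_lit 29) (nat_lit 41) (nat_lit 41)) (PT.lf (nat_lit 10668) (nat_lit 6) (nat_lit 127) (nat_lit 4) (nat_lit 30) (nat_lit 41) (nat_lit 40)))) (PT.nd (nat_lit 94) (PT.lf (nat_lit 11172) (nat_lit 6) (nat_lit 133) (nat_lit 4) (nat_lit 31) (nat_lit 41) (nat_lit 39)) (PT.nd (nat_lit 94) (PT.lf (nat_lit 11592) (nat_lit 6) (nat_lit 138) (nat_lit 4) (nat_lit 32) (nat_lit 41) (nat_lit 38)) (PT.lf (nat_lit 11928) (nat_lit 6) (nat_lit 142) (nat_lit 4) (nat_lit 33) (nat_lit 41) (nat_lit 37))))) (PT.nd (nat_lit 282) (PT.nd (nat_lit 94) (PT.lf (nat_lit 11844) (nat_lit 6) (nat_lit 141) (nat_lit 4) (nat_lit 34) (nat_lit 41) (nat_lit 36)) (PT.nd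 (nat_lit 94) (PT.lf (nat_lit 11760) (nat_lit 3) (nat_lit 140) (nat_lit 2) (nat_lit 35) (nat_lit 41) (nat_lit 35)) (PT.lf (nat_lit 11844) (nat_lit 6) (nat_lit 141) (nat_lit 2) (nat_lit 36) (nat_lit 41) (nat_lit 34)))) (PT.nd (nat_lit 188) (PT.nd (nat_lit 94) (PT.lf (nat_lit 11928) (nat_lit 6) (nat_lit 142) (nat_lit 2) (nat_lit 37) (nat_lit 41) (nat_lit 33)) (PT.lf (nat_lit 11592) (nat_lit 6) (nat_lit 138) (nat_lit 2) (nat_lit 38) (nat_lit 41) (nat_lit 32))) (PT.nd (nat_lit 94) (PT.lf (nat_lit 11172) (nat_lit 6) (nat_lit 133) (nat_lit 2) (nat_lit 39) (nat_lit 41) (nat_lit 31)) (PT.lf (nat_lit 10668) (nat_lit 6) (nat_lit 127) (nat_lit 2) (nat_lit 40) (nat_lit 41) (nat_lit 30))))))))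
noncomputable def pc9 : PT := (PT.nd (nat_lit 55178) (PT.nd (nat_lit 53956) (PT.nd (nat_lit 564) (PT.nd (nat_lit 282) (PT.nd (nat_lit 94) (PT.lf (nat_lit 10080) (nat_lit 3) (nat_lit 120) (nat_lit 0) (nat_lit 41) (nat_lit 41) (nat_lit 29)) (PT.nd (nat_lit 94) (PT.lf (nat_lit 9324) (nat_lit 6) (nat_lit 111) (nat_lit 0) (nat_lit 42) (nat_lit 41) (nat_lit 28)) (PT.lf (nat_lit 8484) (nat_lit 6) (nat_lit 101) (nat_lit 0) (nat_lit 43) (nat_lit 41) (nat_lit 27)))) (PT.nd (nat_lit 94) (PT.lf (nat_lit 7560) (nat_lit 6) (nat_lit 90) (nat_lit 0) (nat_lit 44) (nat_lit 41) (nat_lit 26)) (PT.nd (nat_lit 94) (PT.lf (nat_lit 6552) (nat_lit 6) (nat_lit 78) (nat_lit 0) (nat_lit 45) (nat_lit 41) (nat_lit 25)) (PT.lf (nat_lit 5796) (nat_lit 6) (nat_lit 69) (nat_lit 0) (nat_lit 46) (nat_lit 41) (nat_lit 24))))) (PT.nd (nat_lit 53110) (PT.nd (nat_lit 94) (PT.lf (nat_lit 5208) (nat_lit 6) (nat_lit 62) (nat_lit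 0) (nat_lit 47) (nat_lit 41) (nat_lit 23)) (PT.nd (nat_lit 94) (PT.lf (nat_lit 4704) (nat_lit 6) (nat_lit 56) (nat_lit 0) (nat_lit 48) (nat_lit 41) (nat_lit 22)) (PT.lf (nat_lit 4200) (nat_lit 6) (nat_lit 50) (nat_lit 0) (nat_lit 49) (nat_lit 41) (nat_lit 21)))) (PT.nd (nat_lit 94) (PT.lf (nat_lit 3360) (nat_lit 6) (nat_lit 40) (nat_lit 5) (nat_lit 19) (nat_lit 42) (nat_lit 50)) (PT.nd (nat_lit 94) (PT.lf (nat_lit 3864) (nat_lit 6) (nat_lit 46) (nat_lit 5) (nat_lit 20) (nat_lit 42) (nat_lit 49)) (PT.lf (nat_lit 4284) (nat_lit 6) (nat_lit 51) (nat_lit 5) (nat_lit 21) (nat_lit 42) (nat_lit 48)))))) (PT.nd (nat_lit 564) (PT.nd (nat_lit 282) (PT.nd (nat_lit 94) (PT.lf (nat_lit 4788) (nat_lit 6) (nat_lit 57) (nat_lit 5) (nat_lit 22) (nat_lit 42) (nat_lit 47)) (PT.nd (nat_lit 94) (PT.lf (nat_lit 5292) (nat_lit 6) (nat_lit 63) (nat_lit 5) (nat_lit 23) (nat_lit 42) (nat_lit 46)) (PT.lf (nat_lit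 5880) (nat_lit 6) (nat_lit 70) (nat_lit 5) (nat_lit 24) (nat_lit 42) (nat_lit 45)))) (PT.nd (nat_lit 94) (PT.lf (nat_lit 6636) (nat_lit 6) (nat_lit 79) (nat_lit 5) (nat_lit 25) (nat_lit 42) (nat_lit 44)) (PT.nd (nat_lit 94) (PT.lf (nat_lit 7644) (nat_lit 6) (nat_lit 91) (nat_lit 5) (nat_lit 26) (nat_lit 42) (nat_lit 43)) (PT.lf (nat_lit 8568) (nat_lit 3) (nat_lit 102) (nat_lit 4) (nat_lit 27) (nat_lit 42) (nat_lit 42))))) (PT.nd (nat_lit 282) (PT.nd (nat_lit 94) (PT.lf (nat_lit 9324) (nat_lit 6) (nat_lit 111) (nat_lit 4) (nat_lit 28) (nat_lit 42) (nat_lit 41)) (PT.nd (nat_lit 94) (PT.lf (nat_lit 9996) (nat_lit 6) (nat_lit 119) (nat_lit 4) (nat_lit 29) (nat_lit 42) (nat_lit 40)) (PT.lf (nat_lit 10584) (nat_lit 6) (nat_lit 126) (nat_lit 4) (nat_lit 30) (nat_lit 42) (nat_lit 39)))) (PT.nd (nat_lit 188) (PT.nd (nat_lit 94) (PT.lf (nat_lit 11088) (nat_lit 6) (nat_lit 132) (nat_lit 4) (nat_lit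 31) (nat_lit 42) (nat_lit 38)) (PT.lf (nat_lit 11508) (nat_lit 6) (nat_lit 137) (nat_lit 4) (nat_lit 32) (nat_lit 42) (nat_lit 37))) (PT.nd (nat_lit 94) (PT.lf (nat_lit 11424) (nat_lit 6) (nat_lit 136) (nat_lit 4) (nat_lit 33) (nat_lit 42) (nat_lit 36)) (PT.lf (nat_lit 11340) (nat_lit 6) (nat_lit 135) (nat_lit 4) (nat_lit 34) (nat_lit 42) (nat_lit 35))))))) (PT.nd (nat_lit 1222) (PT.nd (nat_lit 564) (PT.nd (nat_lit 282) (PT.nd (nat_lit 94) (PT.lf (nat_lit 11340) (nat_lit 6) (nat_lit 135) (nat_lit 2) (nat_lit 35) (nat_lit 42) (nat_lit 34)) (PT.nd (nat_lit 94) (PT.lf (nat_lit 11424) (nat_lit 6) (nat_lit 136) (nat_lit 2) (nat_lit 36) (nat_lit 42) (nat_lit 33)) (PT.lf (nat_lit 11508) (nat_lit 6) (nat_lit 137) (nat_lit 2) (nat_lit 37) (nat_lit 42) (nat_lit 32)))) (PT.nd (nat_lit 94) (PT.lf (nat_lit 11088) (nat_lit 6) (nat_lit 132) (nat_lit 2) (nat_lit 38) (nat_lit 42) (nat_lit 31)) (PT.nd (nat_lit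 94) (PT.lf (nat_lit 10584) (nat_lit 6) (nat_lit 126) (nat_lit 2) (nat_lit 39) (nat_lit 42) (nat_lit 30)) (PT.lf (nat_lit 9996) (nat_lit 6) (nat_lit 119) (nat_lit 2) (nat_lit 40) (nat_lit 42) (nat_lit 29))))) (PT.nd (nat_lit 282) (PT.nd (nat_lit 94) (PT.lf (nat_lit 9324) (nat_lit 6) (nat_lit 111) (nat_lit 2) (nat_lit 41) (nat_lit 42) (nat_lit 28)) (PT.nd (nat_lit 94) (PT.lf (nat_lit 8568) (nat_lit 3) (nat_lit 102) (nat_lit 0) (nat_lit 42) (nat_lit 42) (nat_lit 27)) (PT.lf (nat_lit 7644) (nat_lit 6) (nat_lit 91) (nat_lit 0) (nat_lit 43) (nat_lit 42) (nat_lit 26)))) (PT.nd (nat_lit 188) (PT.nd (nat_lit 94) (PT.lf (nat_lit 6636) (nat_lit 6) (nat_lit 79) (nat_lit 0) (nat_lit 44) (nat_lit 42) (nat_lit 25)) (PT.lf (nat_lit 5880) (nat_lit 6) (nat_lit 70) (nat_lit 0) (nat_lit 45) (nat_lit 42) (nat_lit 24))) (PT.nd (nat_lit 94) (PT.lf (nat_lit 5292) (nat_lit 6) (nat_lit 63) (nat_lit 0) (nat_lit 46)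 (nat_lit 42) (nat_lit 23)) (PT.lf (nat_lit 4788) (nat_lit 6) (nat_lit 57) (nat_lit 0) (nat_lit 47) (nat_lit 42) (nat_lit 22)))))) (PT.nd (nat_lit 53204) (PT.nd (nat_lit 52922) (PT.nd (nat_lit 94) (PT.lf (nat_lit 4284) (nat_lit 6) (nat_lit 51) (nat_lit 0) (nat_lit 48) (nat_lit 42) (nat_lit 21)) (PT.nd (nat_lit 94) (PT.lf (nat_lit 3864) (nat_lit 6) (nat_lit 46) (nat_lit 0) (nat_lit 49) (nat_lit 42) (nat_lit 20)) (PT.lf (nat_lit 3360) (nat_lit 6) (nat_lit 40) (nat_lit 0) (nat_lit 50) (nat_lit 42) (nat_lit 19)))) (PT.nd (nat_lit 94) (PT.lf (nat_lit 3024) (nat_lit 6) (nat_lit 36) (nat_lit 5) (nat_lit 18) (nat_lit 43) (nat_lit 50)) (PT.nd (nat_lit 94) (PT.lf (nat_lit 3444) (nat_lit 6) (nat_lit 41) (nat_lit 5) (nat_lit 19) (nat_lit 43) (nat_lit 49)) (PT.lf (nat_lit 3948) (nat_lit 6) (nat_lit 47) (nat_lit 5) (nat_lit 20) (nat_lit 43) (nat_lit 48))))) (PT.nd (nat_lit 282) (PT.nd (nat_lit 94) (PT.lf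 (nat_lit 4368) (nat_lit 6) (nat_lit 52) (nat_lit 5) (nat_lit 21) (nat_lit 43) (nat_lit 47)) (PT.nd (nat_lit 94) (PT.lf (nat_lit 4872) (nat_lit 6) (nat_lit 58) (nat_lit 5) (nat_lit 22) (nat_lit 43) (nat_lit 46)) (PT.lf (nat_lit 5376) (nat_lit 6) (nat_lit 64) (nat_lit 5) (nat_lit 23) (nat_lit 43) (nat_lit 45)))) (PT.nd (nat_lit 188) (PT.nd (nat_lit 94) (PT.lf (nat_lit 5964) (nat_lit 6) (nat_lit 71) (nat_lit 5) (nat_lit 24) (nat_lit 43) (nat_lit 44)) (PT.lf (nat_lit 6720) (nat_lit 3) (nat_lit 80) (nat_lit 4) (nat_lit 25) (nat_lit 43) (nat_lit 43))) (PT.nd (nat_lit 94) (PT.lf (nat_lit 7644) (nat_lit 6) (nat_lit 91) (nat_lit 4) (nat_lit 26) (nat_lit 43) (nat_lit 42)) (PT.lf (nat_lit 8484) (nat_lit 6) (nat_lit 101) (nat_lit 4) (nat_lit 27) (nat_lit 43) (nat_lit 41))))))))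
noncomputable def pc10 : PT := (PT.nd (nat_lit 54896) (PT.nd (nat_lit 1128) (PT.nd (nat_lit 564) (PT.nd (nat_lit 282) (PT.nd (nat_lit 94) (PT.lf (nat_lit 9240) (nat_lit 6) (nat_lit 110) (nat_lit 4) (nat_lit 28) (nat_lit 43) (nat_lit 40)) (PT.nd (nat_lit 94) (PT.lf (nat_lit 9912) (nat_lit 6) (nat_lit 118) (nat_lit 4) (nat_lit 29) (nat_lit 43) (nat_lit 39)) (PT.lf (nat_lit 10500) (nat_lit 6) (nat_lit 125) (nat_lit 4) (nat_lit 30) (nat_lit 43) (nat_lit 38)))) (PT.nd (nat_lit 94) (PT.lf (nat_lit 11004) (nat_lit 6) (nat_lit 131) (nat_lit 4) (nat_lit 31) (nat_lit 43) (nat_lit 37)) (PT.nd (nat_lit 94) (PT.lf (nat_lit 10920) (nat_lit 6) (nat_lit 130) (nat_lit 4) (nat_lit 32) (nat_lit 43) (nat_lit 36)) (PT.lf (nat_lit 10836) (nat_lit 6) (nat_lit 129) (nat_lit 4) (nat_lit 33) (nat_lit 43) (nat_lit 35))))) (PT.nd (nat_lit 282) (PT.nd (nat_lit 94) (PT.lf (nat_lit 10752) (nat_lit 3) (nat_lit 128) (nat_lit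 2) (nat_lit 34) (nat_lit 43) (nat_lit 34)) (PT.nd (nat_lit 94) (PT.lf (nat_lit 10836) (nat_lit 6) (nat_lit 129) (nat_lit 2) (nat_lit 35) (nat_lit 43) (nat_lit 33)) (PT.lf (nat_lit 10920) (nat_lit 6) (nat_lit 130) (nat_lit 2) (nat_lit 36) (nat_lit 43) (nat_lit 32)))) (PT.nd (nat_lit 94) (PT.lf (nat_lit 11004) (nat_lit 6) (nat_lit 131) (nat_lit 2) (nat_lit 37) (nat_lit 43) (nat_lit 31)) (PT.nd (nat_lit 94) (PT.lf (nat_lit 10500) (nat_lit 6) (nat_lit 125) (nat_lit 2) (nat_lit 38) (nat_lit 43) (nat_lit 30)) (PT.lf (nat_lit 9912) (nat_lit 6) (nat_lit 118) (nat_lit 2) (nat_lit 39) (nat_lit 43) (nat_lit 29)))))) (PT.nd (nat_lit 564) (PT.nd (nat_lit 282) (PT.nd (nat_lit 94) (PT.lf (nat_lit 9240) (nat_lit 6) (nat_lit 110) (nat_lit 2) (nat_lit 40) (nat_lit 43) (nat_lit 28)) (PT.nd (nat_lit 94) (PT.lf (nat_lit 8484) (nat_lit 6) (nat_lit 101) (nat_lit 2) (nat_lit 41) (nat_lit 43) (nat_lit 27)) (PT.lf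 (nat_lit 7644) (nat_lit 6) (nat_lit 91) (nat_lit 2) (nat_lit 42) (nat_lit 43) (nat_lit 26)))) (PT.nd (nat_lit 94) (PT.lf (nat_lit 6720) (nat_lit 3) (nat_lit 80) (nat_lit 0) (nat_lit 43) (nat_lit 43) (nat_lit 25)) (PT.nd (nat_lit 94) (PT.lf (nat_lit 5964) (nat_lit 6) (nat_lit 71) (nat_lit 0) (nat_lit 44) (nat_lit 43) (nat_lit 24)) (PT.lf (nat_lit 5376) (nat_lit 6) (nat_lit 64) (nat_lit 0) (nat_lit 45) (nat_lit 43) (nat_lit 23))))) (PT.nd (nat_lit 282) (PT.nd (nat_lit 94) (PT.lf (nat_lit 4872) (nat_lit 6) (nat_lit 58) (nat_lit 0) (nat_lit 46) (nat_lit 43) (nat_lit 22)) (PT.nd (nat_lit 94) (PT.lf (nat_lit 4368) (nat_lit 6) (nat_lit 52) (nat_lit 0) (nat_lit 47) (nat_lit 43) (nat_lit 21)) (PT.lf (nat_lit 3948) (nat_lit 6) (nat_lit 47) (nat_lit 0) (nat_lit 48) (nat_lit 43) (nat_lit 20)))) (PT.nd (nat_lit 52734) (PT.nd (nat_lit 94) (PT.lf (nat_lit 3444) (nat_lit 6) (nat_lit 41) (nat_lit 0) (nat_lit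 49) (nat_lit 43) (nat_lit 19)) (PT.lf (nat_lit 3024) (nat_lit 6) (nat_lit 36) (nat_lit 0) (nat_lit 50) (nat_lit 43) (nat_lit 18))) (PT.nd (nat_lit 94) (PT.lf (nat_lit 2688) (nat_lit 6) (nat_lit 32) (nat_lit 5) (nat_lit 17) (nat_lit 44) (nat_lit 50)) (PT.lf (nat_lit 3108) (nat_lit 6) (nat_lit 37) (nat_lit 5) (nat_lit 18) (nat_lit 44) (nat_lit 49))))))) (PT.nd (nat_lit 1128) (PT.nd (nat_lit 564) (PT.nd (nat_lit 282) (PT.nd (nat_lit 94) (PT.lf (nat_lit 3528) (nat_lit 6) (nat_lit 42) (nat_lit 5) (nat_lit 19) (nat_lit 44) (nat_lit 48)) (PT.nd (nat_lit 94) (PT.lf (nat_lit 4032) (nat_lit 6) (nat_lit 48) (nat_lit 5) (nat_lit 20) (nat_lit 44) (nat_lit 47)) (PT.lf (nat_lit 4452) (nat_lit 6) (nat_lit 53) (nat_lit 5) (nat_lit 21) (nat_lit 44) (nat_lit 46)))) (PT.nd (nat_lit 94) (PT.lf (nat_lit 4956) (nat_lit 6) (nat_lit 59) (nat_lit 5) (nat_lit 22) (nat_lit 44) (nat_lit 45)) (PT.nd (nat_lit 94) (PT.lf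 (nat_lit 5460) (nat_lit 3) (nat_lit 65) (nat_lit 4) (nat_lit 23) (nat_lit 44) (nat_lit 44)) (PT.lf (nat_lit 5964) (nat_lit 6) (nat_lit 71) (nat_lit 4) (nat_lit 24) (nat_lit 44) (nat_lit 43))))) (PT.nd (nat_lit 282) (PT.nd (nat_lit 94) (PT.lf (nat_lit 6636) (nat_lit 6) (nat_lit 79) (nat_lit 4) (nat_lit 25) (nat_lit 44) (nat_lit 42)) (PT.nd (nat_lit 94) (PT.lf (nat_lit 7560) (nat_lit 6) (nat_lit 90) (nat_lit 4) (nat_lit 26) (nat_lit 44) (nat_lit 41)) (PT.lf (nat_lit 8400) (nat_lit 6) (nat_lit 100) (nat_lit 4) (nat_lit 27) (nat_lit 44) (nat_lit 40)))) (PT.nd (nat_lit 94) (PT.lf (nat_lit 9156) (nat_lit 6) (nat_lit 109) (nat_lit 4) (nat_lit 28) (nat_lit 44) (nat_lit 39)) (PT.nd (nat_lit 94) (PT.lf (nat_lit 9828) (nat_lit 6) (nat_lit 117) (nat_lit 4) (nat_lit 29) (nat_lit 44) (nat_lit 38)) (PT.lf (nat_lit 10416) (nat_lit 6) (nat_lit 124) (nat_lit 4) (nat_lit 30) (nat_lit 44) (nat_lit 37))))))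 (PT.nd (nat_lit 564) (PT.nd (nat_lit 282) (PT.nd (nat_lit 94) (PT.lf (nat_lit 10332) (nat_lit 6) (nat_lit 123) (nat_lit 4) (nat_lit 31) (nat_lit 44) (nat_lit 36)) (PT.nd (nat_lit 94) (PT.lf (nat_lit 10248) (nat_lit 6) (nat_lit 122) (nat_lit 4) (nat_lit 32) (nat_lit 44) (nat_lit 35)) (PT.lf (nat_lit 10164) (nat_lit 6) (nat_lit 121) (nat_lit 4) (nat_lit 33) (nat_lit 44) (nat_lit 34)))) (PT.nd (nat_lit 94) (PT.lf (nat_lit 10164) (nat_lit 6) (nat_lit 121) (nat_lit 2) (nat_lit 34) (nat_lit 44) (nat_lit 33)) (PT.nd (nat_lit 94) (PT.lf (nat_lit 10248) (nat_lit 6) (nat_lit 122) (nat_lit 2) (nat_lit 35) (nat_lit 44) (nat_lit 32)) (PT.lf (nat_lit 10332) (nat_lit 6) (nat_lit 123) (nat_lit 2) (nat_lit 36) (nat_lit 44) (nat_lit 31))))) (PT.nd (nat_lit 282) (PT.nd (nat_lit 94) (PT.lf (nat_lit 10416) (nat_lit 6) (nat_lit 124) (nat_lit 2) (nat_lit 37) (nat_lit 44) (nat_lit 30)) (PT.nd (nat_lit 94) (PT.lf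 (nat_lit 9828) (nat_lit 6) (nat_lit 117) (nat_lit 2) (nat_lit 38) (nat_lit 44) (nat_lit 29)) (PT.lf (nat_lit 9156) (nat_lit 6) (nat_lit 109) (nat_lit 2) (nat_lit 39) (nat_lit 44) (nat_lit 28)))) (PT.nd (nat_lit 188) (PT.nd (nat_lit 94) (PT.lf (nat_lit 8400) (nat_lit 6) (nat_lit 100) (nat_lit 2) (nat_lit 40) (nat_lit 44) (nat_lit 27)) (PT.lf (nat_lit 7560) (nat_lit 6) (nat_lit 90) (nat_lit 2) (nat_lit 41) (nat_lit 44) (nat_lit 26))) (PT.nd (nat_lit 94) (PT.lf (nat_lit 6636) (nat_lit 6) (nat_lit 79) (nat_lit 2) (nat_lit 42) (nat_lit 44) (nat_lit 25)) (PT.lf (nat_lit 5964) (nat_lit 6) (nat_lit 71) (nat_lit 2) (nat_lit 43) (nat_lit 44) (nat_lit 24))))))))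
noncomputable def pc11 : PT := (PT.nd (nat_lit 54708) (PT.nd (nat_lit 53486) (PT.nd (nat_lit 564) (PT.nd (nat_lit 282) (PT.nd (nat_lit 94) (PT.lf (nat_lit 5460) (nat_lit 3) (nat_lit 65) (nat_lit 0) (nat_lit 44) (nat_lit 44) (nat_lit 23)) (PT.nd (nat_lit 94) (PT.lf (nat_lit 4956) (nat_lit 6) (nat_lit 59) (nat_lit 0) (nat_lit 45) (nat_lit 44) (nat_lit 22)) (PT.lf (nat_lit 4452) (nat_lit 6) (nat_lit 53) (nat_lit 0) (nat_lit 46) (nat_lit 44) (nat_lit 21)))) (PT.nd (nat_lit 94) (PT.lf (nat_lit 4032) (nat_lit 6) (nat_lit 48) (nat_lit 0) (nat_lit 47) (nat_lit 44) (nat_lit 20)) (PT.nd (nat_lit 94) (PT.lf (nat_lit 3528) (nat_lit 6) (nat_lit 42) (nat_lit 0) (nat_lit 48) (nat_lit 44) (nat_lit 19)) (PT.lf (nat_lit 3108) (nat_lit 6) (nat_lit 37) (nat_lit 0) (nat_lit 49) (nat_lit 44) (nat_lit 18))))) (PT.nd (nat_lit 52640) (PT.nd (nat_lit 52452) (PT.lf (nat_lit 2688) (nat_lit 6) (nat_lit 32) (nat_lit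 0) (nat_lit 50) (nat_lit 44) (nat_lit 17)) (PT.nd (nat_lit 94) (PT.lf (nat_lit 2100) (nat_lit 6) (nat_lit 25) (nat_lit 5) (nat_lit 15) (nat_lit 45) (nat_lit 51)) (PT.lf (nat_lit 2436) (nat_lit 6) (nat_lit 29) (nat_lit 5) (nat_lit 16) (nat_lit 45) (nat_lit 50)))) (PT.nd (nat_lit 94) (PT.lf (nat_lit 2772) (nat_lit 6) (nat_lit 33) (nat_lit 5) (nat_lit 17) (nat_lit 45) (nat_lit 49)) (PT.nd (nat_lit 94) (PT.lf (nat_lit 3192) (nat_lit 6) (nat_lit 38) (nat_lit 5) (nat_lit 18) (nat_lit 45) (nat_lit 48)) (PT.lf (nat_lit 3612) (nat_lit 6) (nat_lit 43) (nat_lit 5) (nat_lit 19) (nat_lit 45) (nat_lit 47)))))) (PT.nd (nat_lit 564) (PT.nd (nat_lit 282) (PT.nd (nat_lit 94) (PT.lf (nat_lit 4116) (nat_lit 6) (nat_lit 49) (nat_lit 5) (nat_lit 20) (nat_lit 45) (nat_lit 46)) (PT.nd (nat_lit 94) (PT.lf (nat_lit 4536) (nat_lit 3) (nat_lit 54) (nat_lit 4) (nat_lit 21) (nat_lit 45) (nat_lit 45)) (PT.lf (nat_lit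 4956) (nat_lit 6) (nat_lit 59) (nat_lit 4) (nat_lit 22) (nat_lit 45) (nat_lit 44)))) (PT.nd (nat_lit 94) (PT.lf (nat_lit 5376) (nat_lit 6) (nat_lit 64) (nat_lit 4) (nat_lit 23) (nat_lit 45) (nat_lit 43)) (PT.nd (nat_lit 94) (PT.lf (nat_lit 5880) (nat_lit 6) (nat_lit 70) (nat_lit 4) (nat_lit 24) (nat_lit 45) (nat_lit 42)) (PT.lf (nat_lit 6552) (nat_lit 6) (nat_lit 78) (nat_lit 4) (nat_lit 25) (nat_lit 45) (nat_lit 41))))) (PT.nd (nat_lit 282) (PT.nd (nat_lit 94) (PT.lf (nat_lit 7476) (nat_lit 6) (nat_lit 89) (nat_lit 4) (nat_lit 26) (nat_lit 45) (nat_lit 40)) (PT.nd (nat_lit 94) (PT.lf (nat_lit 8316) (nat_lit 6) (nat_lit 99) (nat_lit 4) (nat_lit 27) (nat_lit 45) (nat_lit 39)) (PT.lf (nat_lit 9072) (nat_lit 6) (nat_lit 108) (nat_lit 4) (nat_lit 28) (nat_lit 45) (nat_lit 38)))) (PT.nd (nat_lit 188) (PT.nd (nat_lit 94) (PT.lf (nat_lit 9744) (nat_lit 6) (nat_lit 116) (nat_lit 4) (nat_lit 29)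 (nat_lit 45) (nat_lit 37)) (PT.lf (nat_lit 9660) (nat_lit 6) (nat_lit 115) (nat_lit 4) (nat_lit 30) (nat_lit 45) (nat_lit 36))) (PT.nd (nat_lit 94) (PT.lf (nat_lit 9576) (nat_lit 6) (nat_lit 114) (nat_lit 4) (nat_lit 31) (nat_lit 45) (nat_lit 35)) (PT.lf (nat_lit 9492) (nat_lit 6) (nat_lit 113) (nat_lit 4) (nat_lit 32) (nat_lit 45) (nat_lit 34))))))) (PT.nd (nat_lit 1222) (PT.nd (nat_lit 564) (PT.nd (nat_lit 282) (PT.nd (nat_lit 94) (PT.lf (nat_lit 9408) (nat_lit 3) (nat_lit 112) (nat_lit 2) (nat_lit 33) (nat_lit 45) (nat_lit 33)) (PT.nd (nat_lit 94) (PT.lf (nat_lit 9492) (nat_lit 6) (nat_lit 113) (nat_lit 2) (nat_lit 34) (nat_lit 45) (nat_lit 32)) (PT.lf (nat_lit 9576) (nat_lit 6) (nat_lit 114) (nat_lit 2) (nat_lit 35) (nat_lit 45) (nat_lit 31)))) (PT.nd (nat_lit 94) (PT.lf (nat_lit 9660) (nat_lit 6) (nat_lit 115) (nat_lit 2) (nat_lit 36) (nat_lit 45) (nat_lit 30)) (PT.nd (nat_lit 94)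 (PT.lf (nat_lit 9744) (nat_lit 6) (nat_lit 116) (nat_lit 2) (nat_lit 37) (nat_lit 45) (nat_lit 29)) (PT.lf (nat_lit 9072) (nat_lit 6) (nat_lit 108) (nat_lit 2) (nat_lit 38) (nat_lit 45) (nat_lit 28))))) (PT.nd (nat_lit 282) (PT.nd (nat_lit 94) (PT.lf (nat_lit 8316) (nat_lit 6) (nat_lit 99) (nat_lit 2) (nat_lit 39) (nat_lit 45) (nat_lit 27)) (PT.nd (nat_lit 94) (PT.lf (nat_lit 7476) (nat_lit 6) (nat_lit 89) (nat_lit 2) (nat_lit 40) (nat_lit 45) (nat_lit 26)) (PT.lf (nat_lit 6552) (nat_lit 6) (nat_lit 78) (nat_lit 2) (nat_lit 41) (nat_lit 45) (nat_lit 25)))) (PT.nd (nat_lit 188) (PT.nd (nat_lit 94) (PT.lf (nat_lit 5880) (nat_lit 6) (nat_lit 70) (nat_lit 2) (nat_lit 42) (nat_lit 45) (nat_lit 24)) (PT.lf (nat_lit 5376) (nat_lit 6) (nat_lit 64) (nat_lit 2) (nat_lit 43) (nat_lit 45) (nat_lit 23))) (PT.nd (nat_lit 94) (PT.lf (nat_lit 4956) (nat_lit 6) (nat_lit 59) (nat_lit 2) (nat_lit 44) (nat_lit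 45) (nat_lit 22)) (PT.lf (nat_lit 4536) (nat_lit 3) (nat_lit 54) (nat_lit 0) (nat_lit 45) (nat_lit 45) (nat_lit 21)))))) (PT.nd (nat_lit 52734) (PT.nd (nat_lit 282) (PT.nd (nat_lit 94) (PT.lf (nat_lit 4116) (nat_lit 6) (nat_lit 49) (nat_lit 0) (nat_lit 46) (nat_lit 45) (nat_lit 20)) (PT.nd (nat_lit 94) (PT.lf (nat_lit 3612) (nat_lit 6) (nat_lit 43) (nat_lit 0) (nat_lit 47) (nat_lit 45) (nat_lit 19)) (PT.lf (nat_lit 3192) (nat_lit 6) (nat_lit 38) (nat_lit 0) (nat_lit 48) (nat_lit 45) (nat_lit 18)))) (PT.nd (nat_lit 94) (PT.lf (nat_lit 2772) (nat_lit 6) (nat_lit 33) (nat_lit 0) (nat_lit 49) (nat_lit 45) (nat_lit 17)) (PT.nd (nat_lit 94) (PT.lf (nat_lit 2436) (nat_lit 6) (nat_lit 29) (nat_lit 0) (nat_lit 50) (nat_lit 45) (nat_lit 16)) (PT.lf (nat_lit 2100) (nat_lit 6) (nat_lit 25) (nat_lit 0) (nat_lit 51) (nat_lit 45) (nat_lit 15))))) (PT.nd (nat_lit 282) (PT.nd (nat_lit 94) (PT.lf (nat_lit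 1848) (nat_lit 6) (nat_lit 22) (nat_lit 5) (nat_lit 14) (nat_lit 46) (nat_lit 51)) (PT.nd (nat_lit 94) (PT.lf (nat_lit 2184) (nat_lit 6) (nat_lit 26) (nat_lit 5) (nat_lit 15) (nat_lit 46) (nat_lit 50)) (PT.lf (nat_lit 2520) (nat_lit 6) (nat_lit 30) (nat_lit 5) (nat_lit 16) (nat_lit 46) (nat_lit 49)))) (PT.nd (nat_lit 188) (PT.nd (nat_lit 94) (PT.lf (nat_lit 2856) (nat_lit 6) (nat_lit 34) (nat_lit 5) (nat_lit 17) (nat_lit 46) (nat_lit 48)) (PT.lf (nat_lit 3276) (nat_lit 6) (nat_lit 39) (nat_lit 5) (nat_lit 18) (nat_lit 46) (nat_lit 47))) (PT.nd (nat_lit 94) (PT.lf (nat_lit 3696) (nat_lit 3) (nat_lit 44) (nat_lit 4) (nat_lit 19) (nat_lit 46) (nat_lit 46)) (PT.lf (nat_lit 4116) (nat_lit 6) (nat_lit 49) (nat_lit 4) (nat_lit 20) (nat_lit 46) (nat_lit 45))))))))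
noncomputable def pc12 : PT := (PT.nd (nat_lit 2350) (PT.nd (nat_lit 1128) (PT.nd (nat_lit 564) (PT.nd (nat_lit 282) (PT.nd (nat_lit 94) (PT.lf (nat_lit 4452) (nat_lit 6) (nat_lit 53) (nat_lit 4) (nat_lit 21) (nat_lit 46) (nat_lit 44)) (PT.nd (nat_lit 94) (PT.lf (nat_lit 4872) (nat_lit 6) (nat_lit 58) (nat_lit 4) (nat_lit 22) (nat_lit 46) (nat_lit 43)) (PT.lf (nat_lit 5292) (nat_lit 6) (nat_lit 63) (nat_lit 4) (nat_lit 23) (nat_lit 46) (nat_lit 42)))) (PT.nd (nat_lit 94) (PT.lf (nat_lit 5796) (nat_lit 6) (nat_lit 69) (nat_lit 4) (nat_lit 24) (nat_lit 46) (nat_lit 41)) (PT.nd (nat_lit 94) (PT.lf (nat_lit 6468) (nat_lit 6) (nat_lit 77) (nat_lit 4) (nat_lit 25) (nat_lit 46) (nat_lit 40)) (PT.lf (nat_lit 7392) (nat_lit 6) (nat_lit 88) (nat_lit 4) (nat_lit 26) (nat_lit 46) (nat_lit 39))))) (PT.nd (nat_lit 282) (PT.nd (nat_lit 94) (PT.lf (nat_lit 8232) (nat_lit 6) (nat_lit 98) (nat_lit 4) (nat_lit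 27) (nat_lit 46) (nat_lit 38)) (PT.nd (nat_lit 94) (PT.lf (nat_lit 8988) (nat_lit 6) (nat_lit 107) (nat_lit 4) (nat_lit 28) (nat_lit 46) (nat_lit 37)) (PT.lf (nat_lit 8904) (nat_lit 6) (nat_lit 106) (nat_lit 4) (nat_lit 29) (nat_lit 46) (nat_lit 36)))) (PT.nd (nat_lit 94) (PT.lf (nat_lit 8820) (nat_lit 6) (nat_lit 105) (nat_lit 4) (nat_lit 30) (nat_lit 46) (nat_lit 35)) (PT.nd (nat_lit 94) (PT.lf (nat_lit 8736) (nat_lit 6) (nat_lit 104) (nat_lit 4) (nat_lit 31) (nat_lit 46) (nat_lit 34)) (PT.lf (nat_lit 8652) (nat_lit 6) (nat_lit 103) (nat_lit 4) (nat_lit 32) (nat_lit 46) (nat_lit 33)))))) (PT.nd (nat_lit 564) (PT.nd (nat_lit 282) (PT.nd (nat_lit 94) (PT.lf (nat_lit 8652) (nat_lit 6) (nat_lit 103) (nat_lit 2) (nat_lit 33) (nat_lit 46) (nat_lit 32)) (PT.nd (nat_lit 94) (PT.lf (nat_lit 8736) (nat_lit 6) (nat_lit 104) (nat_lit 2) (nat_lit 34) (nat_lit 46) (nat_lit 31)) (PT.lf (nat_lit 8820)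 (nat_lit 6) (nat_lit 105) (nat_lit 2) (nat_lit 35) (nat_lit 46) (nat_lit 30)))) (PT.nd (nat_lit 94) (PT.lf (nat_lit 8904) (nat_lit 6) (nat_lit 106) (nat_lit 2) (nat_lit 36) (nat_lit 46) (nat_lit 29)) (PT.nd (nat_lit 94) (PT.lf (nat_lit 8988) (nat_lit 6) (nat_lit 107) (nat_lit 2) (nat_lit 37) (nat_lit 46) (nat_lit 28)) (PT.lf (nat_lit 8232) (nat_lit 6) (nat_lit 98) (nat_lit 2) (nat_lit 38) (nat_lit 46) (nat_lit 27))))) (PT.nd (nat_lit 282) (PT.nd (nat_lit 94) (PT.lf (nat_lit 7392) (nat_lit 6) (nat_lit 88) (nat_lit 2) (nat_lit 39) (nat_lit 46) (nat_lit 26)) (PT.nd (nat_lit 94) (PT.lf (nat_lit 6468) (nat_lit 6) (nat_lit 77) (nat_lit 2) (nat_lit 40) (nat_lit 46) (nat_lit 25)) (PT.lf (nat_lit 5796) (nat_lit 6) (nat_lit 69) (nat_lit 2) (nat_lit 41) (nat_lit 46) (nat_lit 24)))) (PT.nd (nat_lit 188) (PT.nd (nat_lit 94) (PT.lf (nat_lit 5292) (nat_lit 6) (nat_lit 63) (nat_lit 2) (nat_lit 42) (nat_lit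 46) (nat_lit 23)) (PT.lf (nat_lit 4872) (nat_lit 6) (nat_lit 58) (nat_lit 2) (nat_lit 43) (nat_lit 46) (nat_lit 22))) (PT.nd (nat_lit 94) (PT.lf (nat_lit 4452) (nat_lit 6) (nat_lit 53) (nat_lit 2) (nat_lit 44) (nat_lit 46) (nat_lit 21)) (PT.lf (nat_lit 4116) (nat_lit 6) (nat_lit 49) (nat_lit 2) (nat_lit 45) (nat_lit 46) (nat_lit 20))))))) (PT.nd (nat_lit 53204) (PT.nd (nat_lit 52640) (PT.nd (nat_lit 282) (PT.nd (nat_lit 94) (PT.lf (nat_lit 3696) (nat_lit 3) (nat_lit 44) (nat_lit 0) (nat_lit 46) (nat_lit 46) (nat_lit 19)) (PT.nd (nat_lit 94) (PT.lf (nat_lit 3276) (nat_lit 6) (nat_lit 39) (nat_lit 0) (nat_lit 47) (nat_lit 46) (nat_lit 18)) (PT.lf (nat_lit 2856) (nat_lit 6) (nat_lit 34) (nat_lit 0) (nat_lit 48) (nat_lit 46) (nat_lit 17)))) (PT.nd (nat_lit 94) (PT.lf (nat_lit 2520) (nat_lit 6) (nat_lit 30) (nat_lit 0) (nat_lit 49) (nat_lit 46) (nat_lit 16)) (PT.nd (nat_lit 94) (PT.lf (nat_lit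 2184) (nat_lit 6) (nat_lit 26) (nat_lit 0) (nat_lit 50) (nat_lit 46) (nat_lit 15)) (PT.lf (nat_lit 1848) (nat_lit 6) (nat_lit 22) (nat_lit 0) (nat_lit 51) (nat_lit 46) (nat_lit 14))))) (PT.nd (nat_lit 282) (PT.nd (nat_lit 94) (PT.lf (nat_lit 1596) (nat_lit 6) (nat_lit 19) (nat_lit 5) (nat_lit 13) (nat_lit 47) (nat_lit 51)) (PT.nd (nat_lit 94) (PT.lf (nat_lit 1932) (nat_lit 6) (nat_lit 23) (nat_lit 5) (nat_lit 14) (nat_lit 47) (nat_lit 50)) (PT.lf (nat_lit 2268) (nat_lit 6) (nat_lit 27) (nat_lit 5) (nat_lit 15) (nat_lit 47) (nat_lit 49)))) (PT.nd (nat_lit 94) (PT.lf (nat_lit 2604) (nat_lit 6) (nat_lit 31) (nat_lit 5) (nat_lit 16) (nat_lit 47) (nat_lit 48)) (PT.nd (nat_lit 94) (PT.lf (nat_lit 2940) (nat_lit 3) (nat_lit 35) (nat_lit 4) (nat_lit 17) (nat_lit 47) (nat_lit 47)) (PT.lf (nat_lit 3276) (nat_lit 6) (nat_lit 39) (nat_lit 4) (nat_lit 18) (nat_lit 47) (nat_lit 46)))))) (PT.nd (nat_lit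 564) (PT.nd (nat_lit 282) (PT.nd (nat_lit 94) (PT.lf (nat_lit 3612) (nat_lit 6) (nat_lit 43) (nat_lit 4) (nat_lit 19) (nat_lit 47) (nat_lit 45)) (PT.nd (nat_lit 94) (PT.lf (nat_lit 4032) (nat_lit 6) (nat_lit 48) (nat_lit 4) (nat_lit 20) (nat_lit 47) (nat_lit 44)) (PT.lf (nat_lit 4368) (nat_lit 6) (nat_lit 52) (nat_lit 4) (nat_lit 21) (nat_lit 47) (nat_lit 43)))) (PT.nd (nat_lit 94) (PT.lf (nat_lit 4788) (nat_lit 6) (nat_lit 57) (nat_lit 4) (nat_lit 22) (nat_lit 47) (nat_lit 42)) (PT.nd (nat_lit 94) (PT.lf (nat_lit 5208) (nat_lit 6) (nat_lit 62) (nat_lit 4) (nat_lit 23) (nat_lit 47) (nat_lit 41)) (PT.lf (nat_lit 5712) (nat_lit 6) (nat_lit 68) (nat_lit 4) (nat_lit 24) (nat_lit 47) (nat_lit 40))))) (PT.nd (nat_lit 282) (PT.nd (nat_lit 94) (PT.lf (nat_lit 6384) (nat_lit 6) (nat_lit 76) (nat_lit 4) (nat_lit 25) (nat_lit 47) (nat_lit 39)) (PT.nd (nat_lit 94) (PT.lf (nat_lit 7308) (nat_lit 6)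 (nat_lit 87) (nat_lit 4) (nat_lit 26) (nat_lit 47) (nat_lit 38)) (PT.lf (nat_lit 8148) (nat_lit 6) (nat_lit 97) (nat_lit 4) (nat_lit 27) (nat_lit 47) (nat_lit 37)))) (PT.nd (nat_lit 188) (PT.nd (nat_lit 94) (PT.lf (nat_lit 8064) (nat_lit 6) (nat_lit 96) (nat_lit 4) (nat_lit 28) (nat_lit 47) (nat_lit 36)) (PT.lf (nat_lit 7980) (nat_lit 6) (nat_lit 95) (nat_lit 4) (nat_lit 29) (nat_lit 47) (nat_lit 35))) (PT.nd (nat_lit 94) (PT.lf (nat_lit 7896) (nat_lit 6) (nat_lit 94) (nat_lit 4) (nat_lit 30) (nat_lit 47) (nat_lit 34)) (PT.lf (nat_lit 7812) (nat_lit 6) (nat_lit 93) (nat_lit 4) (nat_lit 31) (nat_lit 47) (nat_lit 33))))))))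
noncomputable def pc13 : PT := (PT.nd (nat_lit 54238) (PT.nd (nat_lit 1128) (PT.nd (nat_lit 564) (PT.nd (nat_lit 282) (PT.nd (nat_lit 94) (PT.lf (nat_lit 7728) (nat_lit 3) (nat_lit 92) (nat_lit 2) (nat_lit 32) (nat_lit 47) (nat_lit 32)) (PT.nd (nat_lit 94) (PT.lf (nat_lit 7812) (nat_lit 6) (nat_lit 93) (nat_lit 2) (nat_lit 33) (nat_lit 47) (nat_lit 31)) (PT.lf (nat_lit 7896) (nat_lit 6) (nat_lit 94) (nat_lit 2) (nat_lit 34) (nat_lit 47) (nat_lit 30)))) (PT.nd (nat_lit 94) (PT.lf (nat_lit 7980) (nat_lit 6) (nat_lit 95) (nat_lit 2) (nat_lit 35) (nat_lit 47) (nat_lit 29)) (PT.nd (nat_lit 94) (PT.lf (nat_lit 8064) (nat_lit 6) (nat_lit 96) (nat_lit 2) (nat_lit 36) (nat_lit 47) (nat_lit 28)) (PT.lf (nat_lit 8148) (nat_lit 6) (nat_lit 97) (nat_lit 2) (nat_lit 37) (nat_lit 47) (nat_lit 27))))) (PT.nd (nat_lit 282) (PT.nd (nat_lit 94) (PT.lf (nat_lit 7308) (nat_lit 6) (nat_lit 87) (nat_lit 2) (nat_lit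 38) (nat_lit 47) (nat_lit 26)) (PT.nd (nat_lit 94) (PT.lf (nat_lit 6384) (nat_lit 6) (nat_lit 76) (nat_lit 2) (nat_lit 39) (nat_lit 47) (nat_lit 25)) (PT.lf (nat_lit 5712) (nat_lit 6) (nat_lit 68) (nat_lit 2) (nat_lit 40) (nat_lit 47) (nat_lit 24)))) (PT.nd (nat_lit 94) (PT.lf (nat_lit 5208) (nat_lit 6) (nat_lit 62) (nat_lit 2) (nat_lit 41) (nat_lit 47) (nat_lit 23)) (PT.nd (nat_lit 94) (PT.lf (nat_lit 4788) (nat_lit 6) (nat_lit 57) (nat_lit 2) (nat_lit 42) (nat_lit 47) (nat_lit 22)) (PT.lf (nat_lit 4368) (nat_lit 6) (nat_lit 52) (nat_lit 2) (nat_lit 43) (nat_lit 47) (nat_lit 21)))))) (PT.nd (nat_lit 564) (PT.nd (nat_lit 282) (PT.nd (nat_lit 94) (PT.lf (nat_lit 4032) (nat_lit 6) (nat_lit 48) (nat_lit 2) (nat_lit 44) (nat_lit 47) (nat_lit 20)) (PT.nd (nat_lit 94) (PT.lf (nat_lit 3612) (nat_lit 6) (nat_lit 43) (nat_lit 2) (nat_lit 45) (nat_lit 47) (nat_lit 19)) (PT.lf (nat_lit 3276) (nat_lit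 6) (nat_lit 39) (nat_lit 2) (nat_lit 46) (nat_lit 47) (nat_lit 18)))) (PT.nd (nat_lit 94) (PT.lf (nat_lit 2940) (nat_lit 3) (nat_lit 35) (nat_lit 0) (nat_lit 47) (nat_lit 47) (nat_lit 17)) (PT.nd (nat_lit 94) (PT.lf (nat_lit 2604) (nat_lit 6) (nat_lit 31) (nat_lit 0) (nat_lit 48) (nat_lit 47) (nat_lit 16)) (PT.lf (nat_lit 2268) (nat_lit 6) (nat_lit 27) (nat_lit 0) (nat_lit 49) (nat_lit 47) (nat_lit 15))))) (PT.nd (nat_lit 52170) (PT.nd (nat_lit 94) (PT.lf (nat_lit 1932) (nat_lit 6) (nat_lit 23) (nat_lit 0) (nat_lit 50) (nat_lit 47) (nat_lit 14)) (PT.nd (nat_lit 51982) (PT.lf (nat_lit 1596) (nat_lit 6) (nat_lit 19) (nat_lit 0) (nat_lit 51) (nat_lit 47) (nat_lit 13)) (PT.lf (nat_lit 1176) (nat_lit 6) (nat_lit 14) (nat_lit 5) (nat_lit 11) (nat_lit 48) (nat_lit 52)))) (PT.nd (nat_lit 188) (PT.nd (nat_lit 94) (PT.lf (nat_lit 1428) (nat_lit 6) (nat_lit 17) (nat_lit 5) (nat_lit 12) (nat_lit 48)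 (nat_lit 51)) (PT.lf (nat_lit 1680) (nat_lit 6) (nat_lit 20) (nat_lit 5) (nat_lit 13) (nat_lit 48) (nat_lit 50))) (PT.nd (nat_lit 94) (PT.lf (nat_lit 2016) (nat_lit 6) (nat_lit 24) (nat_lit 5) (nat_lit 14) (nat_lit 48) (nat_lit 49)) (PT.lf (nat_lit 2352) (nat_lit 3) (nat_lit 28) (nat_lit 4) (nat_lit 15) (nat_lit 48) (nat_lit 48))))))) (PT.nd (nat_lit 1222) (PT.nd (nat_lit 564) (PT.nd (nat_lit 282) (PT.nd (nat_lit 94) (PT.lf (nat_lit 2604) (nat_lit 6) (nat_lit 31) (nat_lit 4) (nat_lit 16) (nat_lit 48) (nat_lit 47)) (PT.nd (nat_lit 94) (PT.lf (nat_lit 2856) (nat_lit 6) (nat_lit 34) (nat_lit 4) (nat_lit 17) (nat_lit 48) (nat_lit 46)) (PT.lf (nat_lit 3192) (nat_lit 6) (nat_lit 38) (nat_lit 4) (nat_lit 18) (nat_lit 48) (nat_lit 45)))) (PT.nd (nat_lit 94) (PT.lf (nat_lit 3528) (nat_lit 6) (nat_lit 42) (nat_lit 4) (nat_lit 19) (nat_lit 48) (nat_lit 44)) (PT.nd (nat_lit 94) (PT.lf (nat_lit 3948)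 (nat_lit 6) (nat_lit 47) (nat_lit 4) (nat_lit 20) (nat_lit 48) (nat_lit 43)) (PT.lf (nat_lit 4284) (nat_lit 6) (nat_lit 51) (nat_lit 4) (nat_lit 21) (nat_lit 48) (nat_lit 42))))) (PT.nd (nat_lit 282) (PT.nd (nat_lit 94) (PT.lf (nat_lit 4704) (nat_lit 6) (nat_lit 56) (nat_lit 4) (nat_lit 22) (nat_lit 48) (nat_lit 41)) (PT.nd (nat_lit 94) (PT.lf (nat_lit 5124) (nat_lit 6) (nat_lit 61) (nat_lit 4) (nat_lit 23) (nat_lit 48) (nat_lit 40)) (PT.lf (nat_lit 5628) (nat_lit 6) (nat_lit 67) (nat_lit 4) (nat_lit 24) (nat_lit 48) (nat_lit 39)))) (PT.nd (nat_lit 188) (PT.nd (nat_lit 94) (PT.lf (nat_lit 6300) (nat_lit 6) (nat_lit 75) (nat_lit 4) (nat_lit 25) (nat_lit 48) (nat_lit 38)) (PT.lf (nat_lit 7224) (nat_lit 6) (nat_lit 86) (nat_lit 4) (nat_lit 26) (nat_lit 48) (nat_lit 37))) (PT.nd (nat_lit 94) (PT.lf (nat_lit 7140) (nat_lit 6) (nat_lit 85) (nat_lit 4) (nat_lit 27) (nat_lit 48) (nat_lit 36)) (PT.lf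 (nat_lit 7056) (nat_lit 6) (nat_lit 84) (nat_lit 4) (nat_lit 28) (nat_lit 48) (nat_lit 35)))))) (PT.nd (nat_lit 564) (PT.nd (nat_lit 282) (PT.nd (nat_lit 94) (PT.lf (nat_lit 6972) (nat_lit 6) (nat_lit 83) (nat_lit 4) (nat_lit 29) (nat_lit 48) (nat_lit 34)) (PT.nd (nat_lit 94) (PT.lf (nat_lit 6888) (nat_lit 6) (nat_lit 82) (nat_lit 4) (nat_lit 30) (nat_lit 48) (nat_lit 33)) (PT.lf (nat_lit 6804) (nat_lit 6) (nat_lit 81) (nat_lit 4) (nat_lit 31) (nat_lit 48) (nat_lit 32)))) (PT.nd (nat_lit 94) (PT.lf (nat_lit 6804) (nat_lit 6) (nat_lit 81) (nat_lit 2) (nat_lit 32) (nat_lit 48) (nat_lit 31)) (PT.nd (nat_lit 94) (PT.lf (nat_lit 6888) (nat_lit 6) (nat_lit 82) (nat_lit 2) (nat_lit 33) (nat_lit 48) (nat_lit 30)) (PT.lf (nat_lit 6972) (nat_lit 6) (nat_lit 83) (nat_lit 2) (nat_lit 34) (nat_lit 48) (nat_lit 29))))) (PT.nd (nat_lit 282) (PT.nd (nat_lit 94) (PT.lf (nat_lit 7056) (nat_lit 6) (nat_lit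 84) (nat_lit 2) (nat_lit 35) (nat_lit 48) (nat_lit 28)) (PT.nd (nat_lit 94) (PT.lf (nat_lit 7140) (nat_lit 6) (nat_lit 85) (nat_lit 2) (nat_lit 36) (nat_lit 48) (nat_lit 27)) (PT.lf (nat_lit 7224) (nat_lit 6) (nat_lit 86) (nat_lit 2) (nat_lit 37) (nat_lit 48) (nat_lit 26)))) (PT.nd (nat_lit 188) (PT.nd (nat_lit 94) (PT.lf (nat_lit 6300) (nat_lit 6) (nat_lit 75) (nat_lit 2) (nat_lit 38) (nat_lit 48) (nat_lit 25)) (PT.lf (nat_lit 5628) (nat_lit 6) (nat_lit 67) (nat_lit 2) (nat_lit 39) (nat_lit 48) (nat_lit 24))) (PT.nd (nat_lit 94) (PT.lf (nat_lit 5124) (nat_lit 6) (nat_lit 61) (nat_lit 2) (nat_lit 40) (nat_lit 48) (nat_lit 23)) (PT.lf (nat_lit 4704) (nat_lit 6) (nat_lit 56) (nat_lit 2) (nat_lit 41) (nat_lit 48) (nat_lit 22))))))))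
noncomputable def pc14 : PT := (PT.nd (nat_lit 54050) (PT.nd (nat_lit 52828) (PT.nd (nat_lit 564) (PT.nd (nat_lit 282) (PT.nd (nat_lit 94) (PT.lf (nat_lit 4284) (nat_lit 6) (nat_lit 51) (nat_lit 2) (nat_lit 42) (nat_lit 48) (nat_lit 21)) (PT.nd (nat_lit 94) (PT.lf (nat_lit 3948) (nat_lit 6) (nat_lit 47) (nat_lit 2) (nat_lit 43) (nat_lit 48) (nat_lit 20)) (PT.lf (nat_lit 3528) (nat_lit 6) (nat_lit 42) (nat_lit 2) (nat_lit 44) (nat_lit 48) (nat_lit 19)))) (PT.nd (nat_lit 94) (PT.lf (nat_lit 3192) (nat_lit 6) (nat_lit 38) (nat_lit 2) (nat_lit 45) (nat_lit 48) (nat_lit 18)) (PT.nd (nat_lit 94) (PT.lf (nat_lit 2856) (nat_lit 6) (nat_lit 34) (nat_lit 2) (nat_lit 46) (nat_lit 48) (nat_lit 17)) (PT.lf (nat_lit 2604) (nat_lit 6) (nat_lit 31) (nat_lit 2) (nat_lit 47) (nat_lit 48) (nat_lit 16))))) (PT.nd (nat_lit 282) (PT.nd (nat_lit 94) (PT.lf (nat_lit 2352) (nat_lit 3) (nat_lit 28) (nat_lit 0) (nat_lit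 48) (nat_lit 48) (nat_lit 15)) (PT.nd (nat_lit 94) (PT.lf (nat_lit 2016) (nat_lit 6) (nat_lit 24) (nat_lit 0) (nat_lit 49) (nat_lit 48) (nat_lit 14)) (PT.lf (nat_lit 1680) (nat_lit 6) (nat_lit 20) (nat_lit 0) (nat_lit 50) (nat_lit 48) (nat_lit 13)))) (PT.nd (nat_lit 94) (PT.lf (nat_lit 1428) (nat_lit 6) (nat_lit 17) (nat_lit 0) (nat_lit 51) (nat_lit 48) (nat_lit 12)) (PT.nd (nat_lit 51794) (PT.lf (nat_lit 1176) (nat_lit 6) (nat_lit 14) (nat_lit 0) (nat_lit 52) (nat_lit 48) (nat_lit 11)) (PT.lf (nat_lit 1008) (nat_lit 6) (nat_lit 12) (nat_lit 5) (nat_lit 10) (nat_lit 49) (nat_lit 52)))))) (PT.nd (nat_lit 564) (PT.nd (nat_lit 282) (PT.nd (nat_lit 94) (PT.lf (nat_lit 1260) (nat_lit 6) (nat_lit 15) (nat_lit 5) (nat_lit 11) (nat_lit 49) (nat_lit 51)) (PT.nd (nat_lit 94) (PT.lf (nat_lit 1512) (nat_lit 6) (nat_lit 18) (nat_lit 5) (nat_lit 12) (nat_lit 49) (nat_lit 50)) (PT.lf (nat_lit 1764) (nat_lit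 3) (nat_lit 21) (nat_lit 4) (nat_lit 13) (nat_lit 49) (nat_lit 49)))) (PT.nd (nat_lit 94) (PT.lf (nat_lit 2016) (nat_lit 6) (nat_lit 24) (nat_lit 4) (nat_lit 14) (nat_lit 49) (nat_lit 48)) (PT.nd (nat_lit 94) (PT.lf (nat_lit 2268) (nat_lit 6) (nat_lit 27) (nat_lit 4) (nat_lit 15) (nat_lit 49) (nat_lit 47)) (PT.lf (nat_lit 2520) (nat_lit 6) (nat_lit 30) (nat_lit 4) (nat_lit 16) (nat_lit 49) (nat_lit 46))))) (PT.nd (nat_lit 282) (PT.nd (nat_lit 94) (PT.lf (nat_lit 2772) (nat_lit 6) (nat_lit 33) (nat_lit 4) (nat_lit 17) (nat_lit 49) (nat_lit 45)) (PT.nd (nat_lit 94) (PT.lf (nat_lit 3108) (nat_lit 6) (nat_lit 37) (nat_lit 4) (nat_lit 18) (nat_lit 49) (nat_lit 44)) (PT.lf (nat_lit 3444) (nat_lit 6) (nat_lit 41) (nat_lit 4) (nat_lit 19) (nat_lit 49) (nat_lit 43)))) (PT.nd (nat_lit 188) (PT.nd (nat_lit 94) (PT.lf (nat_lit 3864) (nat_lit 6) (nat_lit 46) (nat_lit 4) (nat_lit 20) (nat_lit 49) (nat_lit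 42)) (PT.lf (nat_lit 4200) (nat_lit 6) (nat_lit 50) (nat_lit 4) (nat_lit 21) (nat_lit 49) (nat_lit 41))) (PT.nd (nat_lit 94) (PT.lf (nat_lit 4620) (nat_lit 6) (nat_lit 55) (nat_lit 4) (nat_lit 22) (nat_lit 49) (nat_lit 40)) (PT.lf (nat_lit 5040) (nat_lit 6) (nat_lit 60) (nat_lit 4) (nat_lit 23) (nat_lit 49) (nat_lit 39))))))) (PT.nd (nat_lit 1786) (PT.nd (nat_lit 1222) (PT.nd (nat_lit 282) (PT.nd (nat_lit 94) (PT.lf (nat_lit 5544) (nat_lit 6) (nat_lit 66) (nat_lit 4) (nat_lit 24) (nat_lit 49) (nat_lit 38)) (PT.nd (nat_lit 94) (PT.lf (nat_lit 6216) (nat_lit 6) (nat_lit 74) (nat_lit 4) (nat_lit 25) (nat_lit 49) (nat_lit 37)) (PT.lf (nat_lit 6132) (nat_lit 6) (nat_lit 73) (nat_lit 4) (nat_lit 26) (nat_lit 49) (nat_lit 36)))) (PT.nd (nat_lit 752) (PT.lf (nat_lit 6048) (nat_lit 6) (nat_lit 72) (nat_lit 4) (nat_lit 27) (nat_lit 49) (nat_lit 35)) (PT.nd (nat_lit 94) (PT.lf (nat_lit 6048) (nat_lit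 6) (nat_lit 72) (nat_lit 2) (nat_lit 35) (nat_lit 49) (nat_lit 27)) (PT.lf (nat_lit 6132) (nat_lit 6) (nat_lit 73) (nat_lit 2) (nat_lit 36) (nat_lit 49) (nat_lit 26))))) (PT.nd (nat_lit 282) (PT.nd (nat_lit 94) (PT.lf (nat_lit 6216) (nat_lit 6) (nat_lit 74) (nat_lit 2) (nat_lit 37) (nat_lit 49) (nat_lit 25)) (PT.nd (nat_lit 94) (PT.lf (nat_lit 5544) (nat_lit 6) (nat_lit 66) (nat_lit 2) (nat_lit 38) (nat_lit 49) (nat_lit 24)) (PT.lf (nat_lit 5040) (nat_lit 6) (nat_lit 60) (nat_lit 2) (nat_lit 39) (nat_lit 49) (nat_lit 23)))) (PT.nd (nat_lit 94) (PT.lf (nat_lit 4620) (nat_lit 6) (nat_lit 55) (nat_lit 2) (nat_lit 40) (nat_lit 49) (nat_lit 22)) (PT.nd (nat_lit 94) (PT.lf (nat_lit 4200) (nat_lit 6) (nat_lit 50) (nat_lit 2) (nat_lit 41) (nat_lit 49) (nat_lit 21)) (PT.lf (nat_lit 3864) (nat_lit 6) (nat_lit 46) (nat_lit 2) (nat_lit 42) (nat_lit 49) (nat_lit 20)))))) (PT.nd (nat_lit 564) (PT.nd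 (nat_lit 282) (PT.nd (nat_lit 94) (PT.lf (nat_lit 3444) (nat_lit 6) (nat_lit 41) (nat_lit 2) (nat_lit 43) (nat_lit 49) (nat_lit 19)) (PT.nd (nat_lit 94) (PT.lf (nat_lit 3108) (nat_lit 6) (nat_lit 37) (nat_lit 2) (nat_lit 44) (nat_lit 49) (nat_lit 18)) (PT.lf (nat_lit 2772) (nat_lit 6) (nat_lit 33) (nat_lit 2) (nat_lit 45) (nat_lit 49) (nat_lit 17)))) (PT.nd (nat_lit 94) (PT.lf (nat_lit 2520) (nat_lit 6) (nat_lit 30) (nat_lit 2) (nat_lit 46) (nat_lit 49) (nat_lit 16)) (PT.nd (nat_lit 94) (PT.lf (nat_lit 2268) (nat_lit 6) (nat_lit 27) (nat_lit 2) (nat_lit 47) (nat_lit 49) (nat_lit 15)) (PT.lf (nat_lit 2016) (nat_lit 6) (nat_lit 24) (nat_lit 2) (nat_lit 48) (nat_lit 49) (nat_lit 14))))) (PT.nd (nat_lit 282) (PT.nd (nat_lit 94) (PT.lf (nat_lit 1764) (nat_lit 3) (nat_lit 21) (nat_lit 0) (nat_lit 49) (nat_lit 49) (nat_lit 13)) (PT.nd (nat_lit 94) (PT.lf (nat_lit 1512) (nat_lit 6) (nat_lit 18)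 (nat_lit 0) (nat_lit 50) (nat_lit 49) (nat_lit 12)) (PT.lf (nat_lit 1260) (nat_lit 6) (nat_lit 15) (nat_lit 0) (nat_lit 51) (nat_lit 49) (nat_lit 11)))) (PT.nd (nat_lit 51794) (PT.nd (nat_lit 51700) (PT.lf (nat_lit 1008) (nat_lit 6) (nat_lit 12) (nat_lit 0) (nat_lit 52) (nat_lit 49) (nat_lit 10)) (PT.lf (nat_lit 840) (nat_lit 6) (nat_lit 10) (nat_lit 5) (nat_lit 9) (nat_lit 50) (nat_lit 52))) (PT.nd (nat_lit 94) (PT.lf (nat_lit 1092) (nat_lit 6) (nat_lit 13) (nat_lit 5) (nat_lit 10) (nat_lit 50) (nat_lit 51)) (PT.lf (nat_lit 1344) (nat_lit 3) (nat_lit 16) (nat_lit 4) (nat_lit 11) (nat_lit 50) (nat_lit 50))))))))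
noncomputable def pc15 : PT := (PT.nd (nat_lit 55930) (PT.nd (nat_lit 3196) (PT.nd (nat_lit 564) (PT.nd (nat_lit 282) (PT.nd (nat_lit 94) (PT.lf (nat_lit 1512) (nat_lit 6) (nat_lit 18) (nat_lit 4) (nat_lit 12) (nat_lit 50) (nat_lit 49)) (PT.nd (nat_lit 94) (PT.lf (nat_lit 1680) (nat_lit 6) (nat_lit 20) (nat_lit 4) (nat_lit 13) (nat_lit 50) (nat_lit 48)) (PT.lf (nat_lit 1932) (nat_lit 6) (nat_lit 23) (nat_lit 4) (nat_lit 14) (nat_lit 50) (nat_lit 47)))) (PT.nd (nat_lit 94) (PT.lf (nat_lit 2184) (nat_lit 6) (nat_lit 26) (nat_lit 4) (nat_lit 15) (nat_lit 50) (nat_lit 46)) (PT.nd (nat_lit 94) (PT.lf (nat_lit 2436) (nat_lit 6) (nat_lit 29) (nat_lit 4) (nat_lit 16) (nat_lit 50) (nat_lit 45)) (PT.lf (nat_lit 2688) (nat_lit 6) (nat_lit 32) (nat_lit 4) (nat_lit 17) (nat_lit 50) (nat_lit 44))))) (PT.nd (nat_lit 2350) (PT.nd (nat_lit 94) (PT.lf (nat_lit 3024) (nat_lit 6) (nat_lit 36) (nat_lit 4) (nat_lit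 18) (nat_lit 50) (nat_lit 43)) (PT.nd (nat_lit 2162) (PT.lf (nat_lit 3360) (nat_lit 6) (nat_lit 40) (nat_lit 4) (nat_lit 19) (nat_lit 50) (nat_lit 42)) (PT.lf (nat_lit 3360) (nat_lit 6) (nat_lit 40) (nat_lit 2) (nat_lit 42) (nat_lit 50) (nat_lit 19)))) (PT.nd (nat_lit 94) (PT.lf (nat_lit 3024) (nat_lit 6) (nat_lit 36) (nat_lit 2) (nat_lit 43) (nat_lit 50) (nat_lit 18)) (PT.nd (nat_lit 94) (PT.lf (nat_lit 2688) (nat_lit 6) (nat_lit 32) (nat_lit 2) (nat_lit 44) (nat_lit 50) (nat_lit 17)) (PT.lf (nat_lit 2436) (nat_lit 6) (nat_lit 29) (nat_lit 2) (nat_lit 45) (nat_lit 50) (nat_lit 16)))))) (PT.nd (nat_lit 564) (PT.nd (nat_lit 282) (PT.nd (nat_lit 94) (PT.lf (nat_lit 2184) (nat_lit 6) (nat_lit 26) (nat_lit 2) (nat_lit 46) (nat_lit 50) (nat_lit 15)) (PT.nd (nat_lit 94) (PT.lf (nat_lit 1932) (nat_lit 6) (nat_lit 23) (nat_lit 2) (nat_lit 47) (nat_lit 50) (nat_lit 14)) (PT.lf (nat_lit 1680) (nat_lit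 6) (nat_lit 20) (nat_lit 2) (nat_lit 48) (nat_lit 50) (nat_lit 13)))) (PT.nd (nat_lit 94) (PT.lf (nat_lit 1512) (nat_lit 6) (nat_lit 18) (nat_lit 2) (nat_lit 49) (nat_lit 50) (nat_lit 12)) (PT.nd (nat_lit 94) (PT.lf (nat_lit 1344) (nat_lit 3) (nat_lit 16) (nat_lit 0) (nat_lit 50) (nat_lit 50) (nat_lit 11)) (PT.lf (nat_lit 1092) (nat_lit 6) (nat_lit 13) (nat_lit 0) (nat_lit 51) (nat_lit 50) (nat_lit 10))))) (PT.nd (nat_lit 51794) (PT.nd (nat_lit 51606) (PT.lf (nat_lit 840) (nat_lit 6) (nat_lit 10) (nat_lit 0) (nat_lit 52) (nat_lit 50) (nat_lit 9)) (PT.nd (nat_lit 94) (PT.lf (nat_lit 756) (nat_lit 6) (nat_lit 9) (nat_lit 5) (nat_lit 8) (nat_lit 51) (nat_lit 52)) (PT.lf (nat_lit 924) (nat_lit 3) (nat_lit 11) (nat_lit 4) (nat_lit 9) (nat_lit 51) (nat_lit 51)))) (PT.nd (nat_lit 188) (PT.nd (nat_lit 94) (PT.lf (nat_lit 1092) (nat_lit 6) (nat_lit 13) (nat_lit 4) (nat_lit 10) (nat_lit 51) (nat_lit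 50)) (PT.lf (nat_lit 1260) (nat_lit 6) (nat_lit 15) (nat_lit 4) (nat_lit 11) (nat_lit 51) (nat_lit 49))) (PT.nd (nat_lit 94) (PT.lf (nat_lit 1428) (nat_lit 6) (nat_lit 17) (nat_lit 4) (nat_lit 12) (nat_lit 51) (nat_lit 48)) (PT.lf (nat_lit 1596) (nat_lit 6) (nat_lit 19) (nat_lit 4) (nat_lit 13) (nat_lit 51) (nat_lit 47))))))) (PT.nd (nat_lit 55366) (PT.nd (nat_lit 3290) (PT.nd (nat_lit 3008) (PT.nd (nat_lit 94) (PT.lf (nat_lit 1848) (nat_lit 6) (nat_lit 22) (nat_lit 4) (nat_lit 14) (nat_lit 51) (nat_lit 46)) (PT.nd (nat_lit 2820) (PT.lf (nat_lit 2100) (nat_lit 6) (nat_lit 25) (nat_lit 4) (nat_lit 15) (nat_lit 51) (nat_lit 45)) (PT.lf (nat_lit 2100) (nat_lit 6) (nat_lit 25) (nat_lit 2) (nat_lit 45) (nat_lit 51) (nat_lit 15)))) (PT.nd (nat_lit 94) (PT.lf (nat_lit 1848) (nat_lit 6) (nat_lit 22) (nat_lit 2) (nat_lit 46) (nat_lit 51) (nat_lit 14)) (PT.nd (nat_lit 94) (PT.lf (nat_lit 1596) (nat_lit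 6) (nat_lit 19) (nat_lit 2) (nat_lit 47) (nat_lit 51) (nat_lit 13)) (PT.lf (nat_lit 1428) (nat_lit 6) (nat_lit 17) (nat_lit 2) (nat_lit 48) (nat_lit 51) (nat_lit 12))))) (PT.nd (nat_lit 282) (PT.nd (nat_lit 94) (PT.lf (nat_lit 1260) (nat_lit 6) (nat_lit 15) (nat_lit 2) (nat_lit 49) (nat_lit 51) (nat_lit 11)) (PT.nd (nat_lit 94) (PT.lf (nat_lit 1092) (nat_lit 6) (nat_lit 13) (nat_lit 2) (nat_lit 50) (nat_lit 51) (nat_lit 10)) (PT.lf (nat_lit 924) (nat_lit 3) (nat_lit 11) (nat_lit 0) (nat_lit 51) (nat_lit 51) (nat_lit 9)))) (PT.nd (nat_lit 51606) (PT.nd (nat_lit 51512) (PT.lf (nat_lit 756) (nat_lit 6) (nat_lit 9) (nat_lit 0) (nat_lit 52) (nat_lit 51) (nat_lit 8)) (PT.lf (nat_lit 588) (nat_lit 3) (nat_lit 7) (nat_lit 4) (nat_lit 7) (nat_lit 52) (nat_lit 52))) (PT.nd (nat_lit 94) (PT.lf (nat_lit 756) (nat_lit 6) (nat_lit 9) (nat_lit 4) (nat_lit 8) (nat_lit 52) (nat_lit 51)) (PT.lf (nat_lit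 840) (nat_lit 6) (nat_lit 10) (nat_lit 4) (nat_lit 9) (nat_lit 52) (nat_lit 50)))))) (PT.nd (nat_lit 3948) (PT.nd (nat_lit 3666) (PT.nd (nat_lit 94) (PT.lf (nat_lit 1008) (nat_lit 6) (nat_lit 12) (nat_lit 4) (nat_lit 10) (nat_lit 52) (nat_lit 49)) (PT.nd (nat_lit 3478) (PT.lf (nat_lit 1176) (nat_lit 6) (nat_lit 14) (nat_lit 4) (nat_lit 11) (nat_lit 52) (nat_lit 48)) (PT.lf (nat_lit 1176) (nat_lit 6) (nat_lit 14) (nat_lit 2) (nat_lit 48) (nat_lit 52) (nat_lit 11)))) (PT.nd (nat_lit 94) (PT.lf (nat_lit 1008) (nat_lit 6) (nat_lit 12) (nat_lit 2) (nat_lit 49) (nat_lit 52) (nat_lit 10)) (PT.nd (nat_lit 94) (PT.lf (nat_lit 840) (nat_lit 6) (nat_lit 10) (nat_lit 2) (nat_lit 50) (nat_lit 52) (nat_lit 9)) (PT.lf (nat_lit 756) (nat_lit 6) (nat_lit 9) (nat_lit 2) (nat_lit 51) (nat_lit 52) (nat_lit 8))))) (PT.nd (nat_lit 106878) (PT.nd (nat_lit 51230) (PT.lf (nat_lit 588) (nat_lit 3) (nat_lit 7) (nat_lit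 0) (nat_lit 52) (nat_lit 52) (nat_lit 7)) (PT.nd (nat_lit 4700) (PT.lf (nat_lit 168) (nat_lit 6) (nat_lit 2) (nat_lit 5) (nat_lit 4) (nat_lit 53) (nat_lit 54)) (PT.lf (nat_lit 168) (nat_lit 6) (nat_lit 2) (nat_lit 0) (nat_lit 54) (nat_lit 53) (nat_lit 4)))) (PT.nd (nat_lit 4700) (PT.nd (nat_lit 94) (PT.lf (nat_lit 84) (nat_lit 3) (nat_lit 1) (nat_lit 4) (nat_lit 3) (nat_lit 54) (nat_lit 54)) (PT.lf (nat_lit 168) (nat_lit 6) (nat_lit 2) (nat_lit 4) (nat_lit 4) (nat_lit 54) (nat_lit 53))) (PT.nd (nat_lit 94) (PT.lf (nat_lit 168) (nat_lit 6) (nat_lit 2) (nat_lit 2) (nat_lit 53) (nat_lit 54) (nat_lit 4)) (PT.lf (nat_lit 84) (nat_lit 3) (nat_lit 1) (nat_lit 0) (nat_lit 54) (nat_lit 54) (nat_lit 3))))))))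
noncomputable def xc0 : XT := (XT.nd (nat_lit 167132) (nat_lit 0) (nat_lit 0) (XT.nd (nat_lit 111296) (nat_lit 0) (nat_lit 0) (XT.nd (nat_lit 55742) (nat_lit 0) (nat_lit 0) (XT.nd (nat_lit 55554) (nat_lit 0) (nat_lit 168) (XT.nd (nat_lit 94) (nat_lit 0) (nat_lit 0) (XT.lf (nat_lit 0) (nat_lit 1270737295) (nat_lit 168) (nat_lit 4576866587) (nat_lit 168) (nat_lit 4576866587) (nat_lit 7) (nat_lit 4) (nat_lit 9) (nat_lit 5) (nat_lit 9) (nat_lit 4) (nat_lit 374) (nat_lit 257) (nat_lit 257)) (XT.lf (nat_lit 0) (nat_lit 6269742216) (nat_lit 168) (nat_lit 7788077348) (nat_lit 168) (nat_lit 7349954955) (nat_lit 7) (nat_lit 4) (nat_lit 9) (nat_lit 5) (nat_lit 9) (nat_lit 4) (nat_lit 375) (nat_lit 257) (nat_lit 256))) (XT.nd (nat_lit 94) (nat_lit 0) (nat_lit 0) (XT.lf (nat_lit 0) (nat_lit 3779383088) (nat_lit 168) (nat_lit 2333251612) (nat_lit 0) (nat_lit 3779383088) (nat_lit 9) (nat_lit 5) (nat_lit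 11) (nat_lit 4) (nat_lit 9) (nat_lit 4) (nat_lit 372) (nat_lit 258) (nat_lit 258)) (XT.lf (nat_lit 0) (nat_lit 9817824542) (nat_lit 168) (nat_lit 1124357295) (nat_lit 0) (nat_lit 9366120354) (nat_lit 9) (nat_lit 5) (nat_lit 11) (nat_lit 4) (nat_lit 9) (nat_lit 4) (nat_lit 373) (nat_lit 258) (nat_lit 257)))) (XT.nd (nat_lit 55366) (nat_lit 0) (nat_lit 168) (XT.nd (nat_lit 94) (nat_lit 0) (nat_lit 0) (XT.lf (nat_lit 0) (nat_lit 2504526864) (nat_lit 168) (nat_lit 9617563175) (nat_lit 168) (nat_lit 8727736595) (nat_lit 7) (nat_lit 4) (nat_lit 9) (nat_lit 5) (nat_lit 9) (nat_lit 4) (nat_lit 374) (nat_lit 258) (nat_lit 256)) (XT.lf (nat_lit 0) (nat_lit 6196957703) (nat_lit 168) (nat_lit 8263668563) (nat_lit 168) (nat_lit 6948893008) (nat_lit 7) (nat_lit 4) (nat_lit 9) (nat_lit 5) (nat_lit 9) (nat_lit 4) (nat_lit 375) (nat_lit 258) (nat_lit 255))) (XT.nd (nat_lit 94) (nat_lit 0) (nat_lit 0) (XT.lf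 (nat_lit 0) (nat_lit 1792515817) (nat_lit 168) (nat_lit 5808327725) (nat_lit 0) (nat_lit 1792515817) (nat_lit 9) (nat_lit 5) (nat_lit 11) (nat_lit 4) (nat_lit 9) (nat_lit 4) (nat_lit 370) (nat_lit 259) (nat_lit 259)) (XT.lf (nat_lit 0) (nat_lit 5783671065) (nat_lit 168) (nat_lit 8175673207) (nat_lit 0) (nat_lit 5317964048) (nat_lit 9) (nat_lit 5) (nat_lit 11) (nat_lit 4) (nat_lit 9) (nat_lit 4) (nat_lit 371) (nat_lit 259) (nat_lit 258))))) (XT.nd (nat_lit 55366) (nat_lit 0) (nat_lit 168) (XT.nd (nat_lit 188) (nat_lit 168) (nat_lit 0) (XT.nd (nat_lit 94) (nat_lit 0) (nat_lit 0) (XT.lf (nat_lit 0) (nat_lit 7999259688) (nat_lit 168) (nat_lit 4703828839) (nat_lit 0) (nat_lit 7081848484) (nat_lit 9) (nat_lit 5) (nat_lit 11) (nat_lit 4) (nat_lit 9) (nat_lit 4) (nat_lit 372) (nat_lit 259) (nat_lit 257)) (XT.lf (nat_lit 0) (nat_lit 10233862666) (nat_lit 168) (nat_lit 1197886222) (nat_lit 0) (nat_lit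 8878329068) (nat_lit 9) (nat_lit 5) (nat_lit 11) (nat_lit 4) (nat_lit 9) (nat_lit 4) (nat_lit 373) (nat_lit 259) (nat_lit 256))) (XT.nd (nat_lit 94) (nat_lit 0) (nat_lit 0) (XT.lf (nat_lit 0) (nat_lit 2393649244) (nat_lit 168) (nat_lit 10119658933) (nat_lit 168) (nat_lit 8339176360) (nat_lit 7) (nat_lit 4) (nat_lit 9) (nat_lit 5) (nat_lit 9) (nat_lit 4) (nat_lit 374) (nat_lit 259) (nat_lit 255)) (XT.lf (nat_lit 0) (nat_lit 6051320834) (nat_lit 168) (nat_lit 8777171901) (nat_lit 168) (nat_lit 6584517674) (nat_lit 7) (nat_lit 4) (nat_lit 9) (nat_lit 5) (nat_lit 9) (nat_lit 4) (nat_lit 375) (nat_lit 259) (nat_lit 254)))) (XT.nd (nat_lit 188) (nat_lit 0) (nat_lit 0) (XT.nd (nat_lit 94) (nat_lit 168) (nat_lit 0) (XT.lf (nat_lit 0) (nat_lit 8666800772) (nat_lit 168) (nat_lit 129989659) (nat_lit 168) (nat_lit 129989659) (nat_lit 11) (nat_lit 4) (nat_lit 13) (nat_lit 5) (nat_lit 13) (nat_lit 4)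 (nat_lit 368) (nat_lit 260) (nat_lit 260)) (XT.lf (nat_lit 0) (nat_lit 1881435972) (nat_lit 168) (nat_lit 15029982924) (nat_lit 0) (nat_lit 1401292037) (nat_lit 9) (nat_lit 5) (nat_lit 11) (nat_lit 4) (nat_lit 9) (nat_lit 4) (nat_lit 369) (nat_lit 260) (nat_lit 259))) (XT.nd (nat_lit 94) (nat_lit 0) (nat_lit 0) (XT.lf (nat_lit 0) (nat_lit 4039180446) (nat_lit 168) (nat_lit 11655138159) (nat_lit 0) (nat_lit 3093329494) (nat_lit 9) (nat_lit 5) (nat_lit 11) (nat_lit 4) (nat_lit 9) (nat_lit 4) (nat_lit 370) (nat_lit 260) (nat_lit 258)) (XT.nd (nat_lit 94) (nat_lit 0) (nat_lit 0) (XT.lf (nat_lit 0) (nat_lit 6212606371) (nat_lit 168) (nat_lit 8251481531) (nat_lit 0) (nat_lit 4815051232) (nat_lit 9) (nat_lit 5) (nat_lit 11) (nat_lit 4) (nat_lit 9) (nat_lit 4) (nat_lit 371) (nat_lit 260) (nat_lit 257)) (XT.lf (nat_lit 0) (nat_lit 8403739606) (nat_lit 168) (nat_lit 4815840475) (nat_lit 0) (nat_lit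 6568062073) (nat_lit 9) (nat_lit 5) (nat_lit 11) (nat_lit 4) (nat_lit 9) (nat_lit 4) (nat_lit 372) (nat_lit 260) (nat_lit 256))))))) (XT.nd (nat_lit 55554) (nat_lit 0) (nat_lit 0) (XT.nd (nat_lit 55178) (nat_lit 0) (nat_lit 168) (XT.nd (nat_lit 188) (nat_lit 0) (nat_lit 0) (XT.nd (nat_lit 94) (nat_lit 168) (nat_lit 0) (XT.lf (nat_lit 0) (nat_lit 10614622518) (nat_lit 168) (nat_lit 1345012614) (nat_lit 0) (nat_lit 8353996010) (nat_lit 9) (nat_lit 5) (nat_lit 11) (nat_lit 4) (nat_lit 9) (nat_lit 4) (nat_lit 373) (nat_lit 260) (nat_lit 255)) (XT.lf (nat_lit 0) (nat_lit 2208738383) (nat_lit 168) (nat_lit 10660488455) (nat_lit 168) (nat_lit 7987690293) (nat_lit 7) (nat_lit 4) (nat_lit 9) (nat_lit 5) (nat_lit 9) (nat_lit 4) (nat_lit 374) (nat_lit 260) (nat_lit 254))) (XT.nd (nat_lit 54896) (nat_lit 0) (nat_lit 336) (XT.lf (nat_lit 0) (nat_lit 5832695860) (nat_lit 168) (nat_lit 9329066001) (nat_lit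 168) (nat_lit 6256489319) (nat_lit 7) (nat_lit 4) (nat_lit 9) (nat_lit 5) (nat_lit 9) (nat_lit 4) (nat_lit 375) (nat_lit 260) (nat_lit 253)) (XT.lf (nat_lit 0) (nat_lit 4533818900) (nat_lit 168) (nat_lit 1977326176) (nat_lit 168) (nat_lit 1977326176) (nat_lit 11) (nat_lit 4) (nat_lit 13) (nat_lit 5) (nat_lit 13) (nat_lit 4) (nat_lit 366) (nat_lit 261) (nat_lit 261)))) (XT.nd (nat_lit 188) (nat_lit 84) (nat_lit 0) (XT.nd (nat_lit 94) (nat_lit 84) (nat_lit 0) (XT.lf (nat_lit 0) (nat_lit 13156517231) (nat_lit 168) (nat_lit 2380972022) (nat_lit 168) (nat_lit 1870597745) (nat_lit 11) (nat_lit 4) (nat_lit 13) (nat_lit 5) (nat_lit 13) (nat_lit 4) (nat_lit 367) (nat_lit 261) (nat_lit 260)) (XT.lf (nat_lit 0) (nat_lit 219055044) (nat_lit 252) (nat_lit 560501878) (nat_lit 84) (nat_lit 17074868764) (nat_lit 10) (nat_lit 5) (nat_lit 13) (nat_lit 5) (nat_lit 11) (nat_lit 4) (nat_lit 368) (nat_lit 261)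 (nat_lit 259))) (XT.nd (nat_lit 94) (nat_lit 0) (nat_lit 0) (XT.lf (nat_lit 0) (nat_lit 2323668272) (nat_lit 168) (nat_lit 15108141306) (nat_lit 0) (nat_lit 882788923) (nat_lit 9) (nat_lit 5) (nat_lit 11) (nat_lit 4) (nat_lit 9) (nat_lit 4) (nat_lit 369) (nat_lit 261) (nat_lit 258)) (XT.lf (nat_lit 0) (nat_lit 4456199242) (nat_lit 168) (nat_lit 11770622157) (nat_lit 0) (nat_lit 2563615706) (nat_lit 9) (nat_lit 5) (nat_lit 11) (nat_lit 4) (nat_lit 9) (nat_lit 4) (nat_lit 370) (nat_lit 261) (nat_lit 257))))) (XT.nd (nat_lit 376) (nat_lit 0) (nat_lit 0) (XT.nd (nat_lit 188) (nat_lit 168) (nat_lit 0) (XT.nd (nat_lit 94) (nat_lit 0) (nat_lit 0) (XT.lf (nat_lit 0) (nat_lit 6605169778) (nat_lit 168) (nat_lit 8403168841) (nat_lit 0) (nat_lit 4274463849) (nat_lit 9) (nat_lit 5) (nat_lit 11) (nat_lit 4) (nat_lit 9) (nat_lit 4) (nat_lit 371) (nat_lit 261) (nat_lit 256)) (XT.lf (nat_lit 0) (nat_lit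 8772582947) (nat_lit 168) (nat_lit 5002642540) (nat_lit 0) (nat_lit 6016928043) (nat_lit 9) (nat_lit 5) (nat_lit 11) (nat_lit 4) (nat_lit 9) (nat_lit 4) (nat_lit 372) (nat_lit 261) (nat_lit 255))) (XT.nd (nat_lit 94) (nat_lit 168) (nat_lit 0) (XT.lf (nat_lit 0) (nat_lit 10960459005) (nat_lit 168) (nat_lit 1565873607) (nat_lit 0) (nat_lit 7792632447) (nat_lit 9) (nat_lit 5) (nat_lit 11) (nat_lit 4) (nat_lit 9) (nat_lit 4) (nat_lit 373) (nat_lit 261) (nat_lit 254)) (XT.lf (nat_lit 0) (nat_lit 1949621923) (nat_lit 168) (nat_lit 11240555849) (nat_lit 168) (nat_lit 7672950771) (nat_lit 7) (nat_lit 4) (nat_lit 9) (nat_lit 5) (nat_lit 9) (nat_lit 4) (nat_lit 374) (nat_lit 261) (nat_lit 253)))) (XT.nd (nat_lit 54802) (nat_lit 0) (nat_lit 336) (XT.nd (nat_lit 54708) (nat_lit 0) (nat_lit 336) (XT.lf (nat_lit 0) (nat_lit 5540879001) (nat_lit 168) (nat_lit 9919865285) (nat_lit 168) (nat_lit 5964502186)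 (nat_lit 7) (nat_lit 4) (nat_lit 9) (nat_lit 5) (nat_lit 9) (nat_lit 4) (nat_lit 375) (nat_lit 261) (nat_lit 252)) (XT.lf (nat_lit 0) (nat_lit 533432016) (nat_lit 168) (nat_lit 3772747905) (nat_lit 168) (nat_lit 3772747905) (nat_lit 11) (nat_lit 4) (nat_lit 13) (nat_lit 5) (nat_lit 13) (nat_lit 4) (nat_lit 364) (nat_lit 262) (nat_lit 262))) (XT.nd (nat_lit 94) (nat_lit 0) (nat_lit 0) (XT.lf (nat_lit 0) (nat_lit 5025760738) (nat_lit 168) (nat_lit 6030547116) (nat_lit 168) (nat_lit 5504351236) (nat_lit 11) (nat_lit 4) (nat_lit 13) (nat_lit 5) (nat_lit 13) (nat_lit 4) (nat_lit 365) (nat_lit 262) (nat_lit 261)) (XT.nd (nat_lit 94) (nat_lit 0) (nat_lit 0) (XT.lf (nat_lit 0) (nat_lit 9029087421) (nat_lit 168) (nat_lit 4492694229) (nat_lit 168) (nat_lit 3456124072) (nat_lit 11) (nat_lit 4) (nat_lit 13) (nat_lit 5) (nat_lit 13) (nat_lit 4) (nat_lit 366) (nat_lit 262) (nat_lit 260)) (XT.lf (nat_lit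 0) (nat_lit 13080575601) (nat_lit 168) (nat_lit 2930503709) (nat_lit 168) (nat_lit 1398905155) (nat_lit 11) (nat_lit 4) (nat_lit 13) (nat_lit 5) (nat_lit 13) (nat_lit 4) (nat_lit 367) (nat_lit 262) (nat_lit 259))))))))
noncomputable def xc1 : XT := (XT.nd (nat_lit 56024) (nat_lit 0) (nat_lit 0) (XT.nd (nat_lit 55178) (nat_lit 0) (nat_lit 168) (XT.nd (nat_lit 376) (nat_lit 168) (nat_lit 0) (XT.nd (nat_lit 188) (nat_lit 0) (nat_lit 0) (XT.nd (nat_lit 94) (nat_lit 84) (nat_lit 0) (XT.lf (nat_lit 0) (nat_lit 655739702) (nat_lit 252) (nat_lit 679935152) (nat_lit 84) (nat_lit 16521417409) (nat_lit 10) (nat_lit 5) (nat_lit 13) (nat_lit 5) (nat_lit 11) (nat_lit 4) (nat_lit 368) (nat_lit 262) (nat_lit 258)) (XT.lf (nat_lit 0) (nat_lit 2728401145) (nat_lit 168) (nat_lit 15264530922) (nat_lit 0) (nat_lit 325443332) (nat_lit 9) (nat_lit 5) (nat_lit 11) (nat_lit 4) (nat_lit 9) (nat_lit 4) (nat_lit 369)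 (nat_lit 262) (nat_lit 257))) (XT.nd (nat_lit 94) (nat_lit 0) (nat_lit 0) (XT.lf (nat_lit 0) (nat_lit 4836476727) (nat_lit 168) (nat_lit 11963215085) (nat_lit 0) (nat_lit 1995396520) (nat_lit 9) (nat_lit 5) (nat_lit 11) (nat_lit 4) (nat_lit 9) (nat_lit 4) (nat_lit 370) (nat_lit 262) (nat_lit 256)) (XT.lf (nat_lit 0) (nat_lit 6961727197) (nat_lit 168) (nat_lit 8630876525) (nat_lit 0) (nat_lit 3695698016) (nat_lit 9) (nat_lit 5) (nat_lit 11) (nat_lit 4) (nat_lit 9) (nat_lit 4) (nat_lit 371) (nat_lit 262) (nat_lit 255)))) (XT.nd (nat_lit 188) (nat_lit 168) (nat_lit 0) (XT.nd (nat_lit 94) (nat_lit 0) (nat_lit 0) (XT.lf (nat_lit 0) (nat_lit 9106133513) (nat_lit 168) (nat_lit 5264409152) (nat_lit 0) (nat_lit 5427932678) (nat_lit 9) (nat_lit 5) (nat_lit 11) (nat_lit 4) (nat_lit 9) (nat_lit 4) (nat_lit 372) (nat_lit 262) (nat_lit 254)) (XT.lf (nat_lit 0) (nat_lit 11271694485) (nat_lit 168) (nat_lit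 1860675067) (nat_lit 0) (nat_lit 7193715130) (nat_lit 9) (nat_lit 5) (nat_lit 11) (nat_lit 4) (nat_lit 9) (nat_lit 4) (nat_lit 373) (nat_lit 262) (nat_lit 253))) (XT.nd (nat_lit 94) (nat_lit 0) (nat_lit 0) (XT.lf (nat_lit 0) (nat_lit 1616058340) (nat_lit 168) (nat_lit 11860401801) (nat_lit 168) (nat_lit 7394664425) (nat_lit 7) (nat_lit 4) (nat_lit 9) (nat_lit 5) (nat_lit 9) (nat_lit 4) (nat_lit 374) (nat_lit 262) (nat_lit 252)) (XT.lf (nat_lit 0) (nat_lit 5175598251) (nat_lit 168) (nat_lit 10550120440) (nat_lit 168) (nat_lit 5708284111) (nat_lit 7) (nat_lit 4) (nat_lit 9) (nat_lit 5) (nat_lit 9) (nat_lit 4) (nat_lit 375) (nat_lit 262) (nat_lit 251))))) (XT.nd (nat_lit 376) (nat_lit 168) (nat_lit 0) (XT.nd (nat_lit 188) (nat_lit 168) (nat_lit 0) (XT.nd (nat_lit 94) (nat_lit 0) (nat_lit 0) (XT.lf (nat_lit 0) (nat_lit 2208610043) (nat_lit 252) (nat_lit 3278283934) (nat_lit 0) (nat_lit 2208610043)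 (nat_lit 13) (nat_lit 5) (nat_lit 16) (nat_lit 4) (nat_lit 13) (nat_lit 4) (nat_lit 362) (nat_lit 263) (nat_lit 263)) (XT.lf (nat_lit 0) (nat_lit 6758452731) (nat_lit 252) (nat_lit 2793845607) (nat_lit 0) (nat_lit 6215944779) (nat_lit 13) (nat_lit 5) (nat_lit 16) (nat_lit 4) (nat_lit 13) (nat_lit 4) (nat_lit 363) (nat_lit 263) (nat_lit 262))) (XT.nd (nat_lit 94) (nat_lit 0) (nat_lit 0) (XT.lf (nat_lit 0) (nat_lit 1027118590) (nat_lit 168) (nat_lit 8100216985) (nat_lit 168) (nat_lit 7031513153) (nat_lit 11) (nat_lit 4) (nat_lit 13) (nat_lit 5) (nat_lit 13) (nat_lit 4) (nat_lit 364) (nat_lit 263) (nat_lit 261)) (XT.lf (nat_lit 0) (nat_lit 4947464917) (nat_lit 168) (nat_lit 6597114285) (nat_lit 168) (nat_lit 5018036177) (nat_lit 11) (nat_lit 4) (nat_lit 13) (nat_lit 5) (nat_lit 13) (nat_lit 4) (nat_lit 365) (nat_lit 263) (nat_lit 260)))) (XT.nd (nat_lit 188) (nat_lit 168) (nat_lit 0) (XT.nd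 (nat_lit 94) (nat_lit 0) (nat_lit 0) (XT.lf (nat_lit 0) (nat_lit 8913400349) (nat_lit 168) (nat_lit 5070751209) (nat_lit 168) (nat_lit 2996644704) (nat_lit 11) (nat_lit 4) (nat_lit 13) (nat_lit 5) (nat_lit 13) (nat_lit 4) (nat_lit 366) (nat_lit 263) (nat_lit 259)) (XT.lf (nat_lit 0) (nat_lit 12928621554) (nat_lit 168) (nat_lit 3519705027) (nat_lit 168) (nat_lit 965454587) (nat_lit 11) (nat_lit 4) (nat_lit 13) (nat_lit 5) (nat_lit 13) (nat_lit 4) (nat_lit 367) (nat_lit 263) (nat_lit 258))) (XT.nd (nat_lit 94) (nat_lit 84) (nat_lit 0) (XT.lf (nat_lit 0) (nat_lit 1055719694) (nat_lit 252) (nat_lit 875790757) (nat_lit 84) (nat_lit 15930131896) (nat_lit 10) (nat_lit 5) (nat_lit 13) (nat_lit 5) (nat_lit 11) (nat_lit 4) (nat_lit 368) (nat_lit 263) (nat_lit 257)) (XT.nd (nat_lit 94) (nat_lit 0) (nat_lit 0) (XT.lf (nat_lit 0) (nat_lit 2821916160) (nat_lit 84) (nat_lit 276841990) (nat_lit 168) (nat_lit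 15225201860) (nat_lit 9) (nat_lit 5) (nat_lit 10) (nat_lit 5) (nat_lit 11) (nat_lit 4) (nat_lit 369) (nat_lit 263) (nat_lit 256)) (XT.lf (nat_lit 0) (nat_lit 5180367359) (nat_lit 168) (nat_lit 12233096462) (nat_lit 0) (nat_lit 1388142298) (nat_lit 9) (nat_lit 5) (nat_lit 11) (nat_lit 4) (nat_lit 9) (nat_lit 4) (nat_lit 370) (nat_lit 263) (nat_lit 255))))))) (XT.nd (nat_lit 54990) (nat_lit 0) (nat_lit 168) (XT.nd (nat_lit 376) (nat_lit 0) (nat_lit 0) (XT.nd (nat_lit 188) (nat_lit 168) (nat_lit 0) (XT.nd (nat_lit 94) (nat_lit 0) (nat_lit 0) (XT.lf (nat_lit 0) (nat_lit 7282610976) (nat_lit 168) (nat_lit 8934816830) (nat_lit 0) (nat_lit 3078214262) (nat_lit 9) (nat_lit 5) (nat_lit 11) (nat_lit 4) (nat_lit 9) (nat_lit 4) (nat_lit 371) (nat_lit 263) (nat_lit 254)) (XT.lf (nat_lit 0) (nat_lit 9404702206) (nat_lit 168) (nat_lit 5601384305) (nat_lit 0) (nat_lit 4800526972) (nat_lit 9) (nat_lit 5)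 (nat_lit 11) (nat_lit 4) (nat_lit 9) (nat_lit 4) (nat_lit 372) (nat_lit 263) (nat_lit 253))) (XT.nd (nat_lit 94) (nat_lit 168) (nat_lit 0) (XT.lf (nat_lit 0) (nat_lit 11548619060) (nat_lit 168) (nat_lit 2229691780) (nat_lit 0) (nat_lit 6556685804) (nat_lit 9) (nat_lit 5) (nat_lit 11) (nat_lit 4) (nat_lit 9) (nat_lit 4) (nat_lit 373) (nat_lit 263) (nat_lit 252)) (XT.lf (nat_lit 0) (nat_lit 1207736720) (nat_lit 168) (nat_lit 12520604070) (nat_lit 168) (nat_lit 7152571861) (nat_lit 7) (nat_lit 4) (nat_lit 9) (nat_lit 5) (nat_lit 9) (nat_lit 4) (nat_lit 374) (nat_lit 263) (nat_lit 251)))) (XT.nd (nat_lit 54426) (nat_lit 0) (nat_lit 504) (XT.nd (nat_lit 54332) (nat_lit 0) (nat_lit 504) (XT.lf (nat_lit 0) (nat_lit 4736513131) (nat_lit 168) (nat_lit 11220418931) (nat_lit 168) (nat_lit 5487596273) (nat_lit 7) (nat_lit 4) (nat_lit 9) (nat_lit 5) (nat_lit 9) (nat_lit 4) (nat_lit 375) (nat_lit 263)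 (nat_lit 250)) (XT.lf (nat_lit 0) (nat_lit 183297688) (nat_lit 252) (nat_lit 6970984825) (nat_lit 0) (nat_lit 183297688) (nat_lit 13) (nat_lit 5) (nat_lit 16) (nat_lit 4) (nat_lit 13) (nat_lit 4) (nat_lit 360) (nat_lit 264) (nat_lit 264))) (XT.nd (nat_lit 94) (nat_lit 0) (nat_lit 0) (XT.lf (nat_lit 0) (nat_lit 2650591920) (nat_lit 252) (nat_lit 10285249594) (nat_lit 0) (nat_lit 2091266222) (nat_lit 13) (nat_lit 5) (nat_lit 16) (nat_lit 4) (nat_lit 13) (nat_lit 4) (nat_lit 361) (nat_lit 264) (nat_lit 263)) (XT.lf (nat_lit 0) (nat_lit 4948566568) (nat_lit 252) (nat_lit 6596719812) (nat_lit 0) (nat_lit 3846732918) (nat_lit 13) (nat_lit 5) (nat_lit 16) (nat_lit 4) (nat_lit 13) (nat_lit 4) (nat_lit 362) (nat_lit 264) (nat_lit 262))))) (XT.nd (nat_lit 376) (nat_lit 168) (nat_lit 0) (XT.nd (nat_lit 188) (nat_lit 0) (nat_lit 0) (XT.nd (nat_lit 94) (nat_lit 168) (nat_lit 0) (XT.lf (nat_lit 0) (nat_lit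 7262661273) (nat_lit 252) (nat_lit 2872942210) (nat_lit 0) (nat_lit 5634631743) (nat_lit 13) (nat_lit 5) (nat_lit 16) (nat_lit 4) (nat_lit 13) (nat_lit 4) (nat_lit 363) (nat_lit 264) (nat_lit 261)) (XT.lf (nat_lit 0) (nat_lit 907845219) (nat_lit 168) (nat_lit 8696193732) (nat_lit 168) (nat_lit 6557789925) (nat_lit 11) (nat_lit 4) (nat_lit 13) (nat_lit 5) (nat_lit 13) (nat_lit 4) (nat_lit 364) (nat_lit 264) (nat_lit 260))) (XT.nd (nat_lit 94) (nat_lit 0) (nat_lit 0) (XT.lf (nat_lit 0) (nat_lit 4790800295) (nat_lit 168) (nat_lit 7204580844) (nat_lit 168) (nat_lit 4571148640) (nat_lit 11) (nat_lit 4) (nat_lit 13) (nat_lit 5) (nat_lit 13) (nat_lit 4) (nat_lit 365) (nat_lit 264) (nat_lit 259)) (XT.lf (nat_lit 0) (nat_lit 8720468753) (nat_lit 168) (nat_lit 5689362105) (nat_lit 168) (nat_lit 2575785967) (nat_lit 11) (nat_lit 4) (nat_lit 13) (nat_lit 5) (nat_lit 13) (nat_lit 4) (nat_lit 366) (nat_lit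 264) (nat_lit 258)))) (XT.nd (nat_lit 188) (nat_lit 84) (nat_lit 0) (XT.nd (nat_lit 94) (nat_lit 84) (nat_lit 0) (XT.lf (nat_lit 0) (nat_lit 12700513455) (nat_lit 168) (nat_lit 4149125173) (nat_lit 168) (nat_lit 569842017) (nat_lit 11) (nat_lit 4) (nat_lit 13) (nat_lit 5) (nat_lit 13) (nat_lit 4) (nat_lit 367) (nat_lit 264) (nat_lit 257)) (XT.lf (nat_lit 0) (nat_lit 1419367843) (nat_lit 252) (nat_lit 1148251253) (nat_lit 84) (nat_lit 15300461087) (nat_lit 10) (nat_lit 5) (nat_lit 13) (nat_lit 5) (nat_lit 11) (nat_lit 4) (nat_lit 368) (nat_lit 264) (nat_lit 256))) (XT.nd (nat_lit 94) (nat_lit 0) (nat_lit 0) (XT.lf (nat_lit 0) (nat_lit 2509476519) (nat_lit 84) (nat_lit 926558072) (nat_lit 168) (nat_lit 14895293497) (nat_lit 9) (nat_lit 5) (nat_lit 10) (nat_lit 5) (nat_lit 11) (nat_lit 4) (nat_lit 369) (nat_lit 264) (nat_lit 255)) (XT.nd (nat_lit 94) (nat_lit 0) (nat_lit 0) (XT.lf (nat_lit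 0) (nat_lit 5488191682) (nat_lit 168) (nat_lit 12580517845) (nat_lit 0) (nat_lit 741287016) (nat_lit 9) (nat_lit 5) (nat_lit 11) (nat_lit 4) (nat_lit 9) (nat_lit 4) (nat_lit 370) (nat_lit 264) (nat_lit 254)) (XT.lf (nat_lit 0) (nat_lit 7568120213) (nat_lit 168) (nat_lit 9315273061) (nat_lit 0) (nat_lit 2421437027) (nat_lit 9) (nat_lit 5) (nat_lit 11) (nat_lit 4) (nat_lit 9) (nat_lit 4) (nat_lit 371) (nat_lit 264) (nat_lit 253))))))))
noncomputable def xc2 : XT := (XT.nd (nat_lit 55648) (nat_lit 0) (nat_lit 0) (XT.nd (nat_lit 54802) (nat_lit 0) (nat_lit 168) (XT.nd (nat_lit 54426) (nat_lit 0) (nat_lit 504) (XT.nd (nat_lit 188) (nat_lit 168) (nat_lit 0) (XT.nd (nat_lit 94) (nat_lit 0) (nat_lit 0) (XT.lf (nat_lit 0) (nat_lit 9668567325) (nat_lit 168) (nat_lit 6013882096) (nat_lit 0) (nat_lit 4134126118) (nat_lit 9) (nat_lit 5) (nat_lit 11) (nat_lit 4) (nat_lit 9) (nat_lit 4) (nat_lit 372)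 (nat_lit 264) (nat_lit 252)) (XT.lf (nat_lit 0) (nat_lit 11791490853) (nat_lit 168) (nat_lit 2673267707) (nat_lit 0) (nat_lit 5880950693) (nat_lit 9) (nat_lit 5) (nat_lit 11) (nat_lit 4) (nat_lit 9) (nat_lit 4) (nat_lit 373) (nat_lit 264) (nat_lit 251))) (XT.nd (nat_lit 94) (nat_lit 0) (nat_lit 0) (XT.lf (nat_lit 0) (nat_lit 724276462) (nat_lit 168) (nat_lit 13221778036) (nat_lit 168) (nat_lit 6946447426) (nat_lit 7) (nat_lit 4) (nat_lit 9) (nat_lit 5) (nat_lit 9) (nat_lit 4) (nat_lit 374) (nat_lit 264) (nat_lit 250)) (XT.lf (nat_lit 0) (nat_lit 4223214368) (nat_lit 168) (nat_lit 11931385546) (nat_lit 168) (nat_lit 5302232968) (nat_lit 7) (nat_lit 4) (nat_lit 9) (nat_lit 5) (nat_lit 9) (nat_lit 4) (nat_lit 375) (nat_lit 264) (nat_lit 249)))) (XT.nd (nat_lit 188) (nat_lit 252) (nat_lit 0) (XT.nd (nat_lit 94) (nat_lit 0) (nat_lit 0) (XT.lf (nat_lit 0) (nat_lit 3476184766) (nat_lit 168) (nat_lit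 1762752406) (nat_lit 168) (nat_lit 1762752406) (nat_lit 16) (nat_lit 4) (nat_lit 18) (nat_lit 5) (nat_lit 18) (nat_lit 4) (nat_lit 358) (nat_lit 265) (nat_lit 265)) (XT.lf (nat_lit 0) (nat_lit 11132156159) (nat_lit 168) (nat_lit 1898117392) (nat_lit 168) (nat_lit 1303575989) (nat_lit 16) (nat_lit 4) (nat_lit 18) (nat_lit 5) (nat_lit 18) (nat_lit 4) (nat_lit 359) (nat_lit 265) (nat_lit 264))) (XT.nd (nat_lit 94) (nat_lit 0) (nat_lit 0) (XT.lf (nat_lit 0) (nat_lit 690523900) (nat_lit 168) (nat_lit 226132967) (nat_lit 252) (nat_lit 13759476605) (nat_lit 13) (nat_lit 5) (nat_lit 15) (nat_lit 5) (nat_lit 16) (nat_lit 4) (nat_lit 360) (nat_lit 265) (nat_lit 263)) (XT.lf (nat_lit 0) (nat_lit 3170430927) (nat_lit 252) (nat_lit 10366798191) (nat_lit 0) (nat_lit 1491932482) (nat_lit 13) (nat_lit 5) (nat_lit 16) (nat_lit 4) (nat_lit 13) (nat_lit 4) (nat_lit 361) (nat_lit 265) (nat_lit 262))))) (XT.nd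 (nat_lit 376) (nat_lit 168) (nat_lit 0) (XT.nd (nat_lit 188) (nat_lit 168) (nat_lit 0) (XT.nd (nat_lit 94) (nat_lit 0) (nat_lit 0) (XT.lf (nat_lit 0) (nat_lit 5441267635) (nat_lit 252) (nat_lit 6717213069) (nat_lit 0) (nat_lit 3236573310) (nat_lit 13) (nat_lit 5) (nat_lit 16) (nat_lit 4) (nat_lit 13) (nat_lit 4) (nat_lit 362) (nat_lit 265) (nat_lit 261)) (XT.lf (nat_lit 0) (nat_lit 7729040380) (nat_lit 252) (nat_lit 3031209143) (nat_lit 0) (nat_lit 5013971778) (nat_lit 13) (nat_lit 5) (nat_lit 16) (nat_lit 4) (nat_lit 13) (nat_lit 4) (nat_lit 363) (nat_lit 265) (nat_lit 260))) (XT.nd (nat_lit 94) (nat_lit 0) (nat_lit 0) (XT.lf (nat_lit 0) (nat_lit 708932743) (nat_lit 168) (nat_lit 9333981565) (nat_lit 168) (nat_lit 6123884567) (nat_lit 11) (nat_lit 4) (nat_lit 13) (nat_lit 5) (nat_lit 13) (nat_lit 4) (nat_lit 364) (nat_lit 265) (nat_lit 259)) (XT.lf (nat_lit 0) (nat_lit 4555620844) (nat_lit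 168) (nat_lit 7853513015) (nat_lit 168) (nat_lit 4163272081) (nat_lit 11) (nat_lit 4) (nat_lit 13) (nat_lit 5) (nat_lit 13) (nat_lit 4) (nat_lit 365) (nat_lit 265) (nat_lit 258)))) (XT.nd (nat_lit 188) (nat_lit 168) (nat_lit 0) (XT.nd (nat_lit 94) (nat_lit 0) (nat_lit 0) (XT.lf (nat_lit 0) (nat_lit 8450112799) (nat_lit 168) (nat_lit 6349103526) (nat_lit 168) (nat_lit 2193155575) (nat_lit 11) (nat_lit 4) (nat_lit 13) (nat_lit 5) (nat_lit 13) (nat_lit 4) (nat_lit 366) (nat_lit 265) (nat_lit 257)) (XT.lf (nat_lit 0) (nat_lit 12396038681) (nat_lit 168) (nat_lit 4819350833) (nat_lit 168) (nat_lit 211698695) (nat_lit 11) (nat_lit 4) (nat_lit 13) (nat_lit 5) (nat_lit 13) (nat_lit 4) (nat_lit 367) (nat_lit 265) (nat_lit 256))) (XT.nd (nat_lit 94) (nat_lit 84) (nat_lit 0) (XT.lf (nat_lit 0) (nat_lit 1747023107) (nat_lit 252) (nat_lit 1497570600) (nat_lit 84) (nat_lit 14631818062) (nat_lit 10) (nat_lit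 5) (nat_lit 13) (nat_lit 5) (nat_lit 11) (nat_lit 4) (nat_lit 368) (nat_lit 265) (nat_lit 255)) (XT.nd (nat_lit 94) (nat_lit 0) (nat_lit 0) (XT.lf (nat_lit 0) (nat_lit 2119631288) (nat_lit 84) (nat_lit 1617618733) (nat_lit 168) (nat_lit 14603338617) (nat_lit 9) (nat_lit 5) (nat_lit 10) (nat_lit 5) (nat_lit 11) (nat_lit 4) (nat_lit 369) (nat_lit 265) (nat_lit 254)) (XT.lf (nat_lit 0) (nat_lit 5760236620) (nat_lit 168) (nat_lit 13005803067) (nat_lit 0) (nat_lit 54227735) (nat_lit 9) (nat_lit 5) (nat_lit 11) (nat_lit 4) (nat_lit 9) (nat_lit 4) (nat_lit 370) (nat_lit 265) (nat_lit 253))))))) (XT.nd (nat_lit 54614) (nat_lit 0) (nat_lit 252) (XT.nd (nat_lit 376) (nat_lit 0) (nat_lit 0) (XT.nd (nat_lit 188) (nat_lit 168) (nat_lit 0) (XT.nd (nat_lit 94) (nat_lit 0) (nat_lit 0) (XT.lf (nat_lit 0) (nat_lit 7818521033) (nat_lit 168) (nat_lit 9772599842) (nat_lit 0) (nat_lit 1724754127) (nat_lit 9)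 (nat_lit 5) (nat_lit 11) (nat_lit 4) (nat_lit 9) (nat_lit 4) (nat_lit 371) (nat_lit 265) (nat_lit 252)) (XT.lf (nat_lit 0) (nat_lit 9897974819) (nat_lit 168) (nat_lit 6502287014) (nat_lit 0) (nat_lit 3428108960) (nat_lit 9) (nat_lit 5) (nat_lit 11) (nat_lit 4) (nat_lit 9) (nat_lit 4) (nat_lit 372) (nat_lit 265) (nat_lit 251))) (XT.nd (nat_lit 94) (nat_lit 168) (nat_lit 0) (XT.lf (nat_lit 0) (nat_lit 12000536248) (nat_lit 168) (nat_lit 3191816309) (nat_lit 0) (nat_lit 5165879939) (nat_lit 9) (nat_lit 5) (nat_lit 11) (nat_lit 4) (nat_lit 9) (nat_lit 4) (nat_lit 373) (nat_lit 265) (nat_lit 250)) (XT.lf (nat_lit 0) (nat_lit 165226932) (nat_lit 168) (nat_lit 13964577265) (nat_lit 168) (nat_lit 6776098988) (nat_lit 7) (nat_lit 4) (nat_lit 9) (nat_lit 5) (nat_lit 9) (nat_lit 4) (nat_lit 374) (nat_lit 265) (nat_lit 249)))) (XT.nd (nat_lit 54050) (nat_lit 0) (nat_lit 756) (XT.nd (nat_lit 53956)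 (nat_lit 0) (nat_lit 924) (XT.lf (nat_lit 0) (nat_lit 3635223513) (nat_lit 168) (nat_lit 12683682980) (nat_lit 168) (nat_lit 5152021417) (nat_lit 7) (nat_lit 4) (nat_lit 9) (nat_lit 5) (nat_lit 9) (nat_lit 4) (nat_lit 375) (nat_lit 265) (nat_lit 248)) (XT.lf (nat_lit 0) (nat_lit 3042909394) (nat_lit 252) (nat_lit 602527139) (nat_lit 0) (nat_lit 3042909394) (nat_lit 18) (nat_lit 5) (nat_lit 21) (nat_lit 4) (nat_lit 18) (nat_lit 4) (nat_lit 356) (nat_lit 266) (nat_lit 266))) (XT.nd (nat_lit 94) (nat_lit 0) (nat_lit 0) (XT.lf (nat_lit 0) (nat_lit 2819197849) (nat_lit 168) (nat_lit 5739343265) (nat_lit 168) (nat_lit 5126371077) (nat_lit 16) (nat_lit 4) (nat_lit 18) (nat_lit 5) (nat_lit 18) (nat_lit 4) (nat_lit 357) (nat_lit 266) (nat_lit 265)) (XT.lf (nat_lit 0) (nat_lit 6912234929) (nat_lit 168) (nat_lit 4149853513) (nat_lit 168) (nat_lit 2942339922) (nat_lit 16) (nat_lit 4) (nat_lit 18) (nat_lit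 5) (nat_lit 18) (nat_lit 4) (nat_lit 358) (nat_lit 266) (nat_lit 264))))) (XT.nd (nat_lit 376) (nat_lit 252) (nat_lit 0) (XT.nd (nat_lit 188) (nat_lit 0) (nat_lit 0) (XT.nd (nat_lit 94) (nat_lit 252) (nat_lit 0) (XT.lf (nat_lit 0) (nat_lit 11053093714) (nat_lit 168) (nat_lit 2533500537) (nat_lit 168) (nat_lit 749322151) (nat_lit 16) (nat_lit 4) (nat_lit 18) (nat_lit 5) (nat_lit 18) (nat_lit 4) (nat_lit 359) (nat_lit 266) (nat_lit 263)) (XT.lf (nat_lit 0) (nat_lit 562857896) (nat_lit 168) (nat_lit 868142586) (nat_lit 252) (nat_lit 13248064349) (nat_lit 13) (nat_lit 5) (nat_lit 15) (nat_lit 5) (nat_lit 16) (nat_lit 4) (nat_lit 360) (nat_lit 266) (nat_lit 262))) (XT.nd (nat_lit 94) (nat_lit 0) (nat_lit 0) (XT.lf (nat_lit 0) (nat_lit 3651267787) (nat_lit 252) (nat_lit 10529971399) (nat_lit 0) (nat_lit 852032058) (nat_lit 13) (nat_lit 5) (nat_lit 16) (nat_lit 4) (nat_lit 13) (nat_lit 4) (nat_lit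 361) (nat_lit 266) (nat_lit 261)) (XT.lf (nat_lit 0) (nat_lit 5895782535) (nat_lit 252) (nat_lit 6918159952) (nat_lit 0) (nat_lit 2586172529) (nat_lit 13) (nat_lit 5) (nat_lit 16) (nat_lit 4) (nat_lit 13) (nat_lit 4) (nat_lit 362) (nat_lit 266) (nat_lit 260)))) (XT.nd (nat_lit 188) (nat_lit 84) (nat_lit 0) (XT.nd (nat_lit 94) (nat_lit 168) (nat_lit 0) (XT.lf (nat_lit 0) (nat_lit 8158024767) (nat_lit 252) (nat_lit 3268793926) (nat_lit 0) (nat_lit 4353386365) (nat_lit 13) (nat_lit 5) (nat_lit 16) (nat_lit 4) (nat_lit 13) (nat_lit 4) (nat_lit 363) (nat_lit 266) (nat_lit 259)) (XT.lf (nat_lit 0) (nat_lit 430195755) (nat_lit 168) (nat_lit 10014174971) (nat_lit 168) (nat_lit 5729392633) (nat_lit 11) (nat_lit 4) (nat_lit 13) (nat_lit 5) (nat_lit 13) (nat_lit 4) (nat_lit 364) (nat_lit 266) (nat_lit 258))) (XT.nd (nat_lit 94) (nat_lit 84) (nat_lit 0) (XT.lf (nat_lit 0) (nat_lit 4241707353) (nat_lit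 168) (nat_lit 8544515670) (nat_lit 168) (nat_lit 3794026316) (nat_lit 11) (nat_lit 4) (nat_lit 13) (nat_lit 5) (nat_lit 13) (nat_lit 4) (nat_lit 365) (nat_lit 266) (nat_lit 257)) (XT.nd (nat_lit 94) (nat_lit 84) (nat_lit 0) (XT.lf (nat_lit 0) (nat_lit 8102080488) (nat_lit 168) (nat_lit 7050590421) (nat_lit 168) (nat_lit 1848396879) (nat_lit 11) (nat_lit 4) (nat_lit 13) (nat_lit 5) (nat_lit 13) (nat_lit 4) (nat_lit 366) (nat_lit 266) (nat_lit 256)) (XT.lf (nat_lit 0) (nat_lit 107106870) (nat_lit 252) (nat_lit 5422781881) (nat_lit 84) (nat_lit 11906688586) (nat_lit 10) (nat_lit 5) (nat_lit 13) (nat_lit 5) (nat_lit 11) (nat_lit 4) (nat_lit 367) (nat_lit 266) (nat_lit 255))))))))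
noncomputable def xc3 : XT := (XT.nd (nat_lit 55272) (nat_lit 0) (nat_lit 0) (XT.nd (nat_lit 54426) (nat_lit 0) (nat_lit 504) (XT.nd (nat_lit 376) (nat_lit 168) (nat_lit 0) (XT.nd (nat_lit 188) (nat_lit 0) (nat_lit 0) (XT.nd (nat_lit 94) (nat_lit 84) (nat_lit 0) (XT.lf (nat_lit 0) (nat_lit 2038990895) (nat_lit 252) (nat_lit 1924074400) (nat_lit 84) (nat_lit 13923579576) (nat_lit 10) (nat_lit 5) (nat_lit 13) (nat_lit 5) (nat_lit 11) (nat_lit 4) (nat_lit 368) (nat_lit 266) (nat_lit 254)) (XT.lf (nat_lit 0) (nat_lit 1652017092) (nat_lit 84) (nat_lit 2350668115) (nat_lit 168) (nat_lit 14349065088) (nat_lit 9) (nat_lit 5) (nat_lit 10) (nat_lit 5) (nat_lit 11) (nat_lit 4) (nat_lit 369) (nat_lit 266) (nat_lit 253))) (XT.nd (nat_lit 94) (nat_lit 0) (nat_lit 0) (XT.lf (nat_lit 0) (nat_lit 5316047997) (nat_lit 84) (nat_lit 687528113) (nat_lit 168) (nat_lit 12828640789) (nat_lit 9) (nat_lit 5) (nat_lit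 10) (nat_lit 5) (nat_lit 11) (nat_lit 4) (nat_lit 370) (nat_lit 266) (nat_lit 252)) (XT.lf (nat_lit 0) (nat_lit 8034046834) (nat_lit 168) (nat_lit 10307223451) (nat_lit 0) (nat_lit 987516180) (nat_lit 9) (nat_lit 5) (nat_lit 11) (nat_lit 4) (nat_lit 9) (nat_lit 4) (nat_lit 371) (nat_lit 266) (nat_lit 251)))) (XT.nd (nat_lit 188) (nat_lit 168) (nat_lit 0) (XT.nd (nat_lit 94) (nat_lit 0) (nat_lit 0) (XT.lf (nat_lit 0) (nat_lit 10093138520) (nat_lit 168) (nat_lit 7067054306) (nat_lit 0) (nat_lit 2681817416) (nat_lit 9) (nat_lit 5) (nat_lit 11) (nat_lit 4) (nat_lit 9) (nat_lit 4) (nat_lit 372) (nat_lit 266) (nat_lit 250)) (XT.lf (nat_lit 0) (nat_lit 12175950094) (nat_lit 168) (nat_lit 3785820927) (nat_lit 0) (nat_lit 4410807022) (nat_lit 9) (nat_lit 5) (nat_lit 11) (nat_lit 4) (nat_lit 9) (nat_lit 4) (nat_lit 373) (nat_lit 266) (nat_lit 249))) (XT.nd (nat_lit 94) (nat_lit 168) (nat_lit 0) (XT.lf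 (nat_lit 0) (nat_lit 14284422954) (nat_lit 168) (nat_lit 460464861) (nat_lit 0) (nat_lit 6176096596) (nat_lit 9) (nat_lit 5) (nat_lit 11) (nat_lit 4) (nat_lit 9) (nat_lit 4) (nat_lit 374) (nat_lit 266) (nat_lit 248)) (XT.lf (nat_lit 0) (nat_lit 2971992498) (nat_lit 168) (nat_lit 13478012453) (nat_lit 168) (nat_lit 5036821607) (nat_lit 7) (nat_lit 4) (nat_lit 9) (nat_lit 5) (nat_lit 9) (nat_lit 4) (nat_lit 375) (nat_lit 266) (nat_lit 247))))) (XT.nd (nat_lit 376) (nat_lit 252) (nat_lit 0) (XT.nd (nat_lit 188) (nat_lit 168) (nat_lit 0) (XT.nd (nat_lit 94) (nat_lit 0) (nat_lit 0) (XT.lf (nat_lit 0) (nat_lit 951946203) (nat_lit 252) (nat_lit 4491775614) (nat_lit 0) (nat_lit 951946203) (nat_lit 18) (nat_lit 5) (nat_lit 21) (nat_lit 4) (nat_lit 18) (nat_lit 4) (nat_lit 354) (nat_lit 267) (nat_lit 267)) (XT.lf (nat_lit 0) (nat_lit 4288947172) (nat_lit 252) (nat_lit 5133084003) (nat_lit 0) (nat_lit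 3656972847) (nat_lit 18) (nat_lit 5) (nat_lit 21) (nat_lit 4) (nat_lit 18) (nat_lit 4) (nat_lit 355) (nat_lit 267) (nat_lit 266))) (XT.nd (nat_lit 94) (nat_lit 168) (nat_lit 0) (XT.lf (nat_lit 0) (nat_lit 6688554004) (nat_lit 252) (nat_lit 1245599366) (nat_lit 0) (nat_lit 5443607491) (nat_lit 18) (nat_lit 5) (nat_lit 21) (nat_lit 4) (nat_lit 18) (nat_lit 4) (nat_lit 356) (nat_lit 267) (nat_lit 265)) (XT.lf (nat_lit 0) (nat_lit 2737684467) (nat_lit 168) (nat_lit 6394423287) (nat_lit 168) (nat_lit 4554935371) (nat_lit 16) (nat_lit 4) (nat_lit 18) (nat_lit 5) (nat_lit 18) (nat_lit 4) (nat_lit 357) (nat_lit 267) (nat_lit 264)))) (XT.nd (nat_lit 188) (nat_lit 252) (nat_lit 0) (XT.nd (nat_lit 94) (nat_lit 0) (nat_lit 0) (XT.lf (nat_lit 0) (nat_lit 6791793707) (nat_lit 168) (nat_lit 4815967981) (nat_lit 168) (nat_lit 2399815270) (nat_lit 16) (nat_lit 4) (nat_lit 18) (nat_lit 5) (nat_lit 18) (nat_lit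 4) (nat_lit 358) (nat_lit 267) (nat_lit 263)) (XT.lf (nat_lit 0) (nat_lit 10894895128) (nat_lit 168) (nat_lit 3210317668) (nat_lit 168) (nat_lit 234839258) (nat_lit 16) (nat_lit 4) (nat_lit 18) (nat_lit 5) (nat_lit 18) (nat_lit 4) (nat_lit 359) (nat_lit 267) (nat_lit 262))) (XT.nd (nat_lit 94) (nat_lit 0) (nat_lit 0) (XT.lf (nat_lit 0) (nat_lit 353900249) (nat_lit 168) (nat_lit 1552493945) (nat_lit 252) (nat_lit 12777678076) (nat_lit 13) (nat_lit 5) (nat_lit 15) (nat_lit 5) (nat_lit 16) (nat_lit 4) (nat_lit 360) (nat_lit 267) (nat_lit 261)) (XT.nd (nat_lit 94) (nat_lit 0) (nat_lit 0) (XT.lf (nat_lit 0) (nat_lit 4093550690) (nat_lit 252) (nat_lit 10774921310) (nat_lit 0) (nat_lit 170968497) (nat_lit 13) (nat_lit 5) (nat_lit 16) (nat_lit 4) (nat_lit 13) (nat_lit 4) (nat_lit 361) (nat_lit 267) (nat_lit 260)) (XT.lf (nat_lit 0) (nat_lit 6312534924) (nat_lit 252) (nat_lit 7199747764) (nat_lit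 0) (nat_lit 1894924335) (nat_lit 13) (nat_lit 5) (nat_lit 16) (nat_lit 4) (nat_lit 13) (nat_lit 4) (nat_lit 362) (nat_lit 267) (nat_lit 259))))))) (XT.nd (nat_lit 846) (nat_lit 168) (nat_lit 0) (XT.nd (nat_lit 376) (nat_lit 168) (nat_lit 0) (XT.nd (nat_lit 188) (nat_lit 0) (nat_lit 0) (XT.nd (nat_lit 94) (nat_lit 168) (nat_lit 0) (XT.lf (nat_lit 0) (nat_lit 8550014292) (nat_lit 252) (nat_lit 3585918014) (nat_lit 0) (nat_lit 3652259768) (nat_lit 13) (nat_lit 5) (nat_lit 16) (nat_lit 4) (nat_lit 13) (nat_lit 4) (nat_lit 363) (nat_lit 267) (nat_lit 258)) (XT.lf (nat_lit 0) (nat_lit 71374442) (nat_lit 168) (nat_lit 10737407959) (nat_lit 168) (nat_lit 5373946417) (nat_lit 11) (nat_lit 4) (nat_lit 13) (nat_lit 5) (nat_lit 13) (nat_lit 4) (nat_lit 364) (nat_lit 267) (nat_lit 257))) (XT.nd (nat_lit 94) (nat_lit 0) (nat_lit 0) (XT.lf (nat_lit 0) (nat_lit 3848767221) (nat_lit 168) (nat_lit 9278232897)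 (nat_lit 168) (nat_lit 3463067168) (nat_lit 11) (nat_lit 4) (nat_lit 13) (nat_lit 5) (nat_lit 13) (nat_lit 4) (nat_lit 365) (nat_lit 267) (nat_lit 256)) (XT.lf (nat_lit 0) (nat_lit 7676047417) (nat_lit 168) (nat_lit 7794476648) (nat_lit 168) (nat_lit 1541188525) (nat_lit 11) (nat_lit 4) (nat_lit 13) (nat_lit 5) (nat_lit 13) (nat_lit 4) (nat_lit 366) (nat_lit 267) (nat_lit 255)))) (XT.nd (nat_lit 188) (nat_lit 84) (nat_lit 0) (XT.nd (nat_lit 94) (nat_lit 0) (nat_lit 0) (XT.lf (nat_lit 0) (nat_lit 385553139) (nat_lit 252) (nat_lit 5895178671) (nat_lit 84) (nat_lit 11167204934) (nat_lit 10) (nat_lit 5) (nat_lit 13) (nat_lit 5) (nat_lit 11) (nat_lit 4) (nat_lit 367) (nat_lit 267) (nat_lit 254)) (XT.lf (nat_lit 0) (nat_lit 2295543352) (nat_lit 252) (nat_lit 2428160201) (nat_lit 84) (nat_lit 13175085476) (nat_lit 10) (nat_lit 5) (nat_lit 13) (nat_lit 5) (nat_lit 11) (nat_lit 4) (nat_lit 368)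 (nat_lit 267) (nat_lit 253))) (XT.nd (nat_lit 94) (nat_lit 0) (nat_lit 0) (XT.lf (nat_lit 0) (nat_lit 1106198065) (nat_lit 84) (nat_lit 3126389495) (nat_lit 168) (nat_lit 14132235900) (nat_lit 9) (nat_lit 5) (nat_lit 10) (nat_lit 5) (nat_lit 11) (nat_lit 4) (nat_lit 369) (nat_lit 267) (nat_lit 252)) (XT.nd (nat_lit 94) (nat_lit 0) (nat_lit 0) (XT.lf (nat_lit 0) (nat_lit 4739803956) (nat_lit 84) (nat_lit 1472775683) (nat_lit 168) (nat_lit 12633458050) (nat_lit 9) (nat_lit 5) (nat_lit 10) (nat_lit 5) (nat_lit 11) (nat_lit 4) (nat_lit 370) (nat_lit 267) (nat_lit 251)) (XT.lf (nat_lit 0) (nat_lit 8214898510) (nat_lit 168) (nat_lit 10919642212) (nat_lit 0) (nat_lit 209036002) (nat_lit 9) (nat_lit 5) (nat_lit 11) (nat_lit 4) (nat_lit 9) (nat_lit 4) (nat_lit 371) (nat_lit 267) (nat_lit 250)))))) (XT.nd (nat_lit 53862) (nat_lit 0) (nat_lit 924) (XT.nd (nat_lit 188) (nat_lit 168) (nat_lit 0) (XT.nd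 (nat_lit 94) (nat_lit 0) (nat_lit 0) (XT.lf (nat_lit 0) (nat_lit 10254240342) (nat_lit 168) (nat_lit 7708710393) (nat_lit 0) (nat_lit 1894555866) (nat_lit 9) (nat_lit 5) (nat_lit 11) (nat_lit 4) (nat_lit 9) (nat_lit 4) (nat_lit 372) (nat_lit 267) (nat_lit 249)) (XT.lf (nat_lit 0) (nat_lit 12317895898) (nat_lit 168) (nat_lit 4455835235) (nat_lit 0) (nat_lit 3615028135) (nat_lit 9) (nat_lit 5) (nat_lit 11) (nat_lit 4) (nat_lit 9) (nat_lit 4) (nat_lit 373) (nat_lit 267) (nat_lit 248))) (XT.nd (nat_lit 94) (nat_lit 168) (nat_lit 0) (XT.lf (nat_lit 0) (nat_lit 14407788721) (nat_lit 168) (nat_lit 1157984718) (nat_lit 0) (nat_lit 5372056471) (nat_lit 9) (nat_lit 5) (nat_lit 11) (nat_lit 4) (nat_lit 9) (nat_lit 4) (nat_lit 374) (nat_lit 267) (nat_lit 247)) (XT.lf (nat_lit 0) (nat_lit 2232903122) (nat_lit 168) (nat_lit 14315114364) (nat_lit 168) (nat_lit 4956526161) (nat_lit 7) (nat_lit 4) (nat_lit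 9) (nat_lit 5) (nat_lit 9) (nat_lit 4) (nat_lit 375) (nat_lit 267) (nat_lit 246)))) (XT.nd (nat_lit 188) (nat_lit 168) (nat_lit 0) (XT.nd (nat_lit 94) (nat_lit 84) (nat_lit 0) (XT.lf (nat_lit 0) (nat_lit 3995163707) (nat_lit 252) (nat_lit 1063520861) (nat_lit 252) (nat_lit 1063520861) (nat_lit 21) (nat_lit 4) (nat_lit 24) (nat_lit 5) (nat_lit 24) (nat_lit 4) (nat_lit 352) (nat_lit 268) (nat_lit 268)) (XT.lf (nat_lit 0) (nat_lit 190365338) (nat_lit 336) (nat_lit 285132057) (nat_lit 84) (nat_lit 12038754754) (nat_lit 20) (nat_lit 5) (nat_lit 24) (nat_lit 5) (nat_lit 21) (nat_lit 4) (nat_lit 353) (nat_lit 268) (nat_lit 267))) (XT.nd (nat_lit 94) (nat_lit 0) (nat_lit 0) (XT.lf (nat_lit 0) (nat_lit 2525312413) (nat_lit 252) (nat_lit 9025353213) (nat_lit 0) (nat_lit 1241772559) (nat_lit 18) (nat_lit 5) (nat_lit 21) (nat_lit 4) (nat_lit 18) (nat_lit 4) (nat_lit 354) (nat_lit 268) (nat_lit 266))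 (XT.nd (nat_lit 94) (nat_lit 0) (nat_lit 0) (XT.lf (nat_lit 0) (nat_lit 4881128069) (nat_lit 252) (nat_lit 5215431074) (nat_lit 0) (nat_lit 2984616028) (nat_lit 18) (nat_lit 5) (nat_lit 21) (nat_lit 4) (nat_lit 18) (nat_lit 4) (nat_lit 355) (nat_lit 268) (nat_lit 265)) (XT.lf (nat_lit 0) (nat_lit 7252374950) (nat_lit 252) (nat_lit 1367272418) (nat_lit 0) (nat_lit 4761321505) (nat_lit 18) (nat_lit 5) (nat_lit 21) (nat_lit 4) (nat_lit 18) (nat_lit 4) (nat_lit 356) (nat_lit 268) (nat_lit 264))))))))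
noncomputable def xc4 : XT := (XT.nd (nat_lit 1598) (nat_lit 168) (nat_lit 0) (XT.nd (nat_lit 752) (nat_lit 336) (nat_lit 0) (XT.nd (nat_lit 376) (nat_lit 0) (nat_lit 0) (XT.nd (nat_lit 188) (nat_lit 252) (nat_lit 0) (XT.nd (nat_lit 94) (nat_lit 0) (nat_lit 0) (XT.lf (nat_lit 0) (nat_lit 2574581726) (nat_lit 168) (nat_lit 7092221748) (nat_lit 168) (nat_lit 4024503508) (nat_lit 16) (nat_lit 4) (nat_lit 18) (nat_lit 5) (nat_lit 18) (nat_lit 4) (nat_lit 357) (nat_lit 268) (nat_lit 263)) (XT.lf (nat_lit 0) (nat_lit 6590933602) (nat_lit 168) (nat_lit 5524469105) (nat_lit 168) (nat_lit 1897425166) (nat_lit 16) (nat_lit 4) (nat_lit 18) (nat_lit 5) (nat_lit 18) (nat_lit 4) (nat_lit 358) (nat_lit 268) (nat_lit 262))) (XT.nd (nat_lit 94) (nat_lit 168) (nat_lit 0) (XT.lf (nat_lit 0) (nat_lit 235509680) (nat_lit 252) (nat_lit 3691231729) (nat_lit 84) (nat_lit 10419445027) (nat_lit 15) (nat_lit 5) (nat_lit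 18) (nat_lit 5) (nat_lit 16) (nat_lit 4) (nat_lit 359) (nat_lit 268) (nat_lit 261)) (XT.lf (nat_lit 0) (nat_lit 63456189) (nat_lit 168) (nat_lit 2279824932) (nat_lit 252) (nat_lit 12347879336) (nat_lit 13) (nat_lit 5) (nat_lit 15) (nat_lit 5) (nat_lit 16) (nat_lit 4) (nat_lit 360) (nat_lit 268) (nat_lit 260)))) (XT.nd (nat_lit 188) (nat_lit 0) (nat_lit 0) (XT.nd (nat_lit 94) (nat_lit 0) (nat_lit 0) (XT.lf (nat_lit 0) (nat_lit 3940038234) (nat_lit 168) (nat_lit 563241076) (nat_lit 252) (nat_lit 10544222590) (nat_lit 13) (nat_lit 5) (nat_lit 15) (nat_lit 5) (nat_lit 16) (nat_lit 4) (nat_lit 361) (nat_lit 268) (nat_lit 259)) (XT.lf (nat_lit 0) (nat_lit 6691913260) (nat_lit 252) (nat_lit 7562238975) (nat_lit 0) (nat_lit 1162184410) (nat_lit 13) (nat_lit 5) (nat_lit 16) (nat_lit 4) (nat_lit 13) (nat_lit 4) (nat_lit 362) (nat_lit 268) (nat_lit 258))) (XT.nd (nat_lit 94) (nat_lit 0) (nat_lit 0)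 (XT.lf (nat_lit 0) (nat_lit 8905374330) (nat_lit 252) (nat_lit 3982877000) (nat_lit 0) (nat_lit 2909938463) (nat_lit 13) (nat_lit 5) (nat_lit 16) (nat_lit 4) (nat_lit 13) (nat_lit 4) (nat_lit 363) (nat_lit 268) (nat_lit 257)) (XT.lf (nat_lit 0) (nat_lit 11140138279) (nat_lit 252) (nat_lit 360453980) (nat_lit 0) (nat_lit 4692998224) (nat_lit 13) (nat_lit 5) (nat_lit 16) (nat_lit 4) (nat_lit 13) (nat_lit 4) (nat_lit 364) (nat_lit 268) (nat_lit 256))))) (XT.nd (nat_lit 376) (nat_lit 84) (nat_lit 0) (XT.nd (nat_lit 188) (nat_lit 84) (nat_lit 0) (XT.nd (nat_lit 94) (nat_lit 0) (nat_lit 0) (XT.lf (nat_lit 0) (nat_lit 3376434186) (nat_lit 168) (nat_lit 10055348597) (nat_lit 168) (nat_lit 3170086150) (nat_lit 11) (nat_lit 4) (nat_lit 13) (nat_lit 5) (nat_lit 13) (nat_lit 4) (nat_lit 365) (nat_lit 268) (nat_lit 255)) (XT.lf (nat_lit 0) (nat_lit 7171616479) (nat_lit 168) (nat_lit 8581455588) (nat_lit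 168) (nat_lit 1271244165) (nat_lit 11) (nat_lit 4) (nat_lit 13) (nat_lit 5) (nat_lit 13) (nat_lit 4) (nat_lit 366) (nat_lit 268) (nat_lit 254))) (XT.nd (nat_lit 94) (nat_lit 0) (nat_lit 0) (XT.lf (nat_lit 0) (nat_lit 628164910) (nat_lit 252) (nat_lit 6446580143) (nat_lit 84) (nat_lit 10386497069) (nat_lit 10) (nat_lit 5) (nat_lit 13) (nat_lit 5) (nat_lit 11) (nat_lit 4) (nat_lit 367) (nat_lit 268) (nat_lit 253)) (XT.lf (nat_lit 0) (nat_lit 2516919612) (nat_lit 252) (nat_lit 3010297863) (nat_lit 84) (nat_lit 12385638088) (nat_lit 10) (nat_lit 5) (nat_lit 13) (nat_lit 5) (nat_lit 11) (nat_lit 4) (nat_lit 368) (nat_lit 268) (nat_lit 252)))) (XT.nd (nat_lit 188) (nat_lit 0) (nat_lit 0) (XT.nd (nat_lit 94) (nat_lit 0) (nat_lit 0) (XT.lf (nat_lit 0) (nat_lit 481665445) (nat_lit 84) (nat_lit 3945505929) (nat_lit 168) (nat_lit 13952648946) (nat_lit 9) (nat_lit 5) (nat_lit 10) (nat_lit 5) (nat_lit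 11) (nat_lit 4) (nat_lit 369) (nat_lit 268) (nat_lit 251)) (XT.lf (nat_lit 0) (nat_lit 4085761140) (nat_lit 84) (nat_lit 2301131873) (nat_lit 168) (nat_lit 12474866682) (nat_lit 9) (nat_lit 5) (nat_lit 10) (nat_lit 5) (nat_lit 11) (nat_lit 4) (nat_lit 370) (nat_lit 268) (nat_lit 250))) (XT.nd (nat_lit 94) (nat_lit 0) (nat_lit 0) (XT.lf (nat_lit 0) (nat_lit 7743450716) (nat_lit 84) (nat_lit 623983914) (nat_lit 168) (nat_lit 10992633046) (nat_lit 9) (nat_lit 5) (nat_lit 10) (nat_lit 5) (nat_lit 11) (nat_lit 4) (nat_lit 371) (nat_lit 268) (nat_lit 249)) (XT.nd (nat_lit 94) (nat_lit 0) (nat_lit 0) (XT.lf (nat_lit 0) (nat_lit 10381430447) (nat_lit 168) (nat_lit 8427853366) (nat_lit 0) (nat_lit 1065590497) (nat_lit 9) (nat_lit 5) (nat_lit 11) (nat_lit 4) (nat_lit 9) (nat_lit 4) (nat_lit 372) (nat_lit 268) (nat_lit 248)) (XT.lf (nat_lit 0) (nat_lit 12426505966) (nat_lit 168) (nat_lit 5202483757)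 (nat_lit 0) (nat_lit 2777801529) (nat_lit 9) (nat_lit 5) (nat_lit 11) (nat_lit 4) (nat_lit 9) (nat_lit 4) (nat_lit 373) (nat_lit 268) (nat_lit 247))))))) (XT.nd (nat_lit 54050) (nat_lit 0) (nat_lit 504) (XT.nd (nat_lit 53674) (nat_lit 0) (nat_lit 924) (XT.nd (nat_lit 53486) (nat_lit 0) (nat_lit 1176) (XT.nd (nat_lit 94) (nat_lit 168) (nat_lit 0) (XT.lf (nat_lit 0) (nat_lit 14498377415) (nat_lit 168) (nat_lit 1931311755) (nat_lit 0) (nat_lit 4526817025) (nat_lit 9) (nat_lit 5) (nat_lit 11) (nat_lit 4) (nat_lit 9) (nat_lit 4) (nat_lit 374) (nat_lit 268) (nat_lit 246)) (XT.lf (nat_lit 0) (nat_lit 1417266475) (nat_lit 168) (nat_lit 15195768979) (nat_lit 168) (nat_lit 4911060234) (nat_lit 7) (nat_lit 4) (nat_lit 9) (nat_lit 5) (nat_lit 9) (nat_lit 4) (nat_lit 375) (nat_lit 268) (nat_lit 245))) (XT.nd (nat_lit 94) (nat_lit 252) (nat_lit 0) (XT.lf (nat_lit 0) (nat_lit 2857609812) (nat_lit 336)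 (nat_lit 151797804) (nat_lit 0) (nat_lit 2857609812) (nat_lit 24) (nat_lit 5) (nat_lit 28) (nat_lit 4) (nat_lit 24) (nat_lit 4) (nat_lit 350) (nat_lit 269) (nat_lit 269)) (XT.lf (nat_lit 0) (nat_lit 3797421879) (nat_lit 252) (nat_lit 4439989698) (nat_lit 252) (nat_lit 3747400951) (nat_lit 21) (nat_lit 4) (nat_lit 24) (nat_lit 5) (nat_lit 24) (nat_lit 4) (nat_lit 351) (nat_lit 269) (nat_lit 268)))) (XT.nd (nat_lit 188) (nat_lit 168) (nat_lit 0) (XT.nd (nat_lit 94) (nat_lit 84) (nat_lit 0) (XT.lf (nat_lit 0) (nat_lit 7949901070) (nat_lit 252) (nat_lit 2829986482) (nat_lit 252) (nat_lit 1465633675) (nat_lit 21) (nat_lit 4) (nat_lit 24) (nat_lit 5) (nat_lit 24) (nat_lit 4) (nat_lit 352) (nat_lit 269) (nat_lit 267)) (XT.lf (nat_lit 0) (nat_lit 808813659) (nat_lit 336) (nat_lit 373217794) (nat_lit 84) (nat_lit 11334213949) (nat_lit 20) (nat_lit 5) (nat_lit 24) (nat_lit 5) (nat_lit 21) (nat_lit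 4) (nat_lit 353) (nat_lit 269) (nat_lit 266))) (XT.nd (nat_lit 94) (nat_lit 0) (nat_lit 0) (XT.lf (nat_lit 0) (nat_lit 3106611809) (nat_lit 252) (nat_lit 9150798130) (nat_lit 0) (nat_lit 538335707) (nat_lit 18) (nat_lit 5) (nat_lit 21) (nat_lit 4) (nat_lit 18) (nat_lit 4) (nat_lit 354) (nat_lit 269) (nat_lit 265)) (XT.lf (nat_lit 0) (nat_lit 5434067514) (nat_lit 252) (nat_lit 5380201973) (nat_lit 0) (nat_lit 2271250008) (nat_lit 18) (nat_lit 5) (nat_lit 21) (nat_lit 4) (nat_lit 18) (nat_lit 4) (nat_lit 355) (nat_lit 269) (nat_lit 264))))) (XT.nd (nat_lit 376) (nat_lit 168) (nat_lit 0) (XT.nd (nat_lit 188) (nat_lit 84) (nat_lit 0) (XT.nd (nat_lit 94) (nat_lit 168) (nat_lit 0) (XT.lf (nat_lit 0) (nat_lit 7777807167) (nat_lit 252) (nat_lit 1570186849) (nat_lit 0) (nat_lit 4038324866) (nat_lit 18) (nat_lit 5) (nat_lit 21) (nat_lit 4) (nat_lit 18) (nat_lit 4) (nat_lit 356) (nat_lit 269) (nat_lit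 263)) (XT.lf (nat_lit 0) (nat_lit 2329737595) (nat_lit 168) (nat_lit 7833389070) (nat_lit 168) (nat_lit 3534581071) (nat_lit 16) (nat_lit 4) (nat_lit 18) (nat_lit 5) (nat_lit 18) (nat_lit 4) (nat_lit 357) (nat_lit 269) (nat_lit 262))) (XT.nd (nat_lit 94) (nat_lit 84) (nat_lit 0) (XT.lf (nat_lit 0) (nat_lit 6309467393) (nat_lit 168) (nat_lit 6276017282) (nat_lit 168) (nat_lit 1434701331) (nat_lit 16) (nat_lit 4) (nat_lit 18) (nat_lit 5) (nat_lit 18) (nat_lit 4) (nat_lit 358) (nat_lit 269) (nat_lit 261)) (XT.lf (nat_lit 0) (nat_lit 663061378) (nat_lit 252) (nat_lit 4020834171) (nat_lit 84) (nat_lit 9670443427) (nat_lit 15) (nat_lit 5) (nat_lit 18) (nat_lit 5) (nat_lit 16) (nat_lit 4) (nat_lit 359) (nat_lit 269) (nat_lit 260)))) (XT.nd (nat_lit 188) (nat_lit 0) (nat_lit 0) (XT.nd (nat_lit 94) (nat_lit 168) (nat_lit 0) (XT.lf (nat_lit 0) (nat_lit 2745131276) (nat_lit 252) (nat_lit 302524484)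 (nat_lit 84) (nat_lit 11652585294) (nat_lit 15) (nat_lit 5) (nat_lit 18) (nat_lit 5) (nat_lit 16) (nat_lit 4) (nat_lit 360) (nat_lit 269) (nat_lit 259)) (XT.lf (nat_lit 0) (nat_lit 3533092659) (nat_lit 168) (nat_lit 1344311163) (nat_lit 252) (nat_lit 10180165529) (nat_lit 13) (nat_lit 5) (nat_lit 15) (nat_lit 5) (nat_lit 16) (nat_lit 4) (nat_lit 361) (nat_lit 269) (nat_lit 258))) (XT.nd (nat_lit 94) (nat_lit 0) (nat_lit 0) (XT.lf (nat_lit 0) (nat_lit 7034271162) (nat_lit 252) (nat_lit 8005971464) (nat_lit 0) (nat_lit 387269766) (nat_lit 13) (nat_lit 5) (nat_lit 16) (nat_lit 4) (nat_lit 13) (nat_lit 4) (nat_lit 362) (nat_lit 269) (nat_lit 257)) (XT.nd (nat_lit 94) (nat_lit 0) (nat_lit 0) (XT.lf (nat_lit 0) (nat_lit 9224436114) (nat_lit 252) (nat_lit 4460040890) (nat_lit 0) (nat_lit 2125730531) (nat_lit 13) (nat_lit 5) (nat_lit 16) (nat_lit 4) (nat_lit 13) (nat_lit 4) (nat_lit 363) (nat_lit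 269) (nat_lit 256)) (XT.lf (nat_lit 0) (nat_lit 11436604410) (nat_lit 252) (nat_lit 870044060) (nat_lit 0) (nat_lit 3899776433) (nat_lit 13) (nat_lit 5) (nat_lit 16) (nat_lit 4) (nat_lit 13) (nat_lit 4) (nat_lit 364) (nat_lit 269) (nat_lit 255))))))))
noncomputable def xc5 : XT := (XT.nd (nat_lit 54708) (nat_lit 0) (nat_lit 168) (XT.nd (nat_lit 752) (nat_lit 168) (nat_lit 0) (XT.nd (nat_lit 376) (nat_lit 84) (nat_lit 0) (XT.nd (nat_lit 188) (nat_lit 84) (nat_lit 0) (XT.nd (nat_lit 94) (nat_lit 0) (nat_lit 0) (XT.lf (nat_lit 0) (nat_lit 2824267985) (nat_lit 168) (nat_lit 10876587124) (nat_lit 168) (nat_lit 2914810172) (nat_lit 11) (nat_lit 4) (nat_lit 13) (nat_lit 5) (nat_lit 13) (nat_lit 4) (nat_lit 365) (nat_lit 269) (nat_lit 254)) (XT.lf (nat_lit 0) (nat_lit 6588317491) (nat_lit 168) (nat_lit 9412260786) (nat_lit 168) (nat_lit 1038312181) (nat_lit 11) (nat_lit 4) (nat_lit 13) (nat_lit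 5) (nat_lit 13) (nat_lit 4) (nat_lit 366) (nat_lit 269) (nat_lit 253))) (XT.nd (nat_lit 94) (nat_lit 0) (nat_lit 0) (XT.lf (nat_lit 0) (nat_lit 835168322) (nat_lit 252) (nat_lit 7077500261) (nat_lit 84) (nat_lit 9563837288) (nat_lit 10) (nat_lit 5) (nat_lit 13) (nat_lit 5) (nat_lit 11) (nat_lit 4) (nat_lit 367) (nat_lit 269) (nat_lit 252)) (XT.lf (nat_lit 0) (nat_lit 2703326020) (nat_lit 252) (nat_lit 3671029999) (nat_lit 84) (nat_lit 11554501563) (nat_lit 10) (nat_lit 5) (nat_lit 13) (nat_lit 5) (nat_lit 11) (nat_lit 4) (nat_lit 368) (nat_lit 269) (nat_lit 251)))) (XT.nd (nat_lit 188) (nat_lit 0) (nat_lit 0) (XT.nd (nat_lit 94) (nat_lit 84) (nat_lit 0) (XT.lf (nat_lit 0) (nat_lit 4588821906) (nat_lit 252) (nat_lit 217686807) (nat_lit 84) (nat_lit 13590177820) (nat_lit 10) (nat_lit 5) (nat_lit 13) (nat_lit 5) (nat_lit 11) (nat_lit 4) (nat_lit 369) (nat_lit 269) (nat_lit 250)) (XT.lf (nat_lit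 0) (nat_lit 3353309912) (nat_lit 84) (nat_lit 3173368798) (nat_lit 168) (nat_lit 12352718860) (nat_lit 9) (nat_lit 5) (nat_lit 10) (nat_lit 5) (nat_lit 11) (nat_lit 4) (nat_lit 370) (nat_lit 269) (nat_lit 249))) (XT.nd (nat_lit 94) (nat_lit 0) (nat_lit 0) (XT.lf (nat_lit 0) (nat_lit 6983237230) (nat_lit 84) (nat_lit 1504913309) (nat_lit 168) (nat_lit 10890237206) (nat_lit 9) (nat_lit 5) (nat_lit 10) (nat_lit 5) (nat_lit 11) (nat_lit 4) (nat_lit 371) (nat_lit 269) (nat_lit 248)) (XT.lf (nat_lit 0) (nat_lit 10474827391) (nat_lit 168) (nat_lit 9225153542) (nat_lit 0) (nat_lit 194148628) (nat_lit 9) (nat_lit 5) (nat_lit 11) (nat_lit 4) (nat_lit 9) (nat_lit 4) (nat_lit 372) (nat_lit 269) (nat_lit 247))))) (XT.nd (nat_lit 53486) (nat_lit 0) (nat_lit 1092) (XT.nd (nat_lit 188) (nat_lit 168) (nat_lit 0) (XT.nd (nat_lit 94) (nat_lit 0) (nat_lit 0) (XT.lf (nat_lit 0) (nat_lit 12501881536) (nat_lit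 168) (nat_lit 6026462448) (nat_lit 0) (nat_lit 1898346820) (nat_lit 9) (nat_lit 5) (nat_lit 11) (nat_lit 4) (nat_lit 9) (nat_lit 4) (nat_lit 373) (nat_lit 269) (nat_lit 246)) (XT.lf (nat_lit 0) (nat_lit 14556273475) (nat_lit 168) (nat_lit 2781166794) (nat_lit 0) (nat_lit 3639590406) (nat_lit 9) (nat_lit 5) (nat_lit 11) (nat_lit 4) (nat_lit 9) (nat_lit 4) (nat_lit 374) (nat_lit 269) (nat_lit 245))) (XT.nd (nat_lit 53204) (nat_lit 0) (nat_lit 1428) (XT.lf (nat_lit 0) (nat_lit 524322300) (nat_lit 168) (nat_lit 16120797160) (nat_lit 168) (nat_lit 4900381449) (nat_lit 7) (nat_lit 4) (nat_lit 9) (nat_lit 5) (nat_lit 9) (nat_lit 4) (nat_lit 375) (nat_lit 269) (nat_lit 244)) (XT.lf (nat_lit 0) (nat_lit 766404688) (nat_lit 336) (nat_lit 4096274268) (nat_lit 0) (nat_lit 766404688) (nat_lit 24) (nat_lit 5) (nat_lit 28) (nat_lit 4) (nat_lit 24) (nat_lit 4) (nat_lit 348) (nat_lit 270) (nat_lit 270))))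 (XT.nd (nat_lit 188) (nat_lit 336) (nat_lit 0) (XT.nd (nat_lit 94) (nat_lit 0) (nat_lit 0) (XT.lf (nat_lit 0) (nat_lit 3959203543) (nat_lit 336) (nat_lit 4287546679) (nat_lit 0) (nat_lit 3245144545) (nat_lit 24) (nat_lit 5) (nat_lit 28) (nat_lit 4) (nat_lit 24) (nat_lit 4) (nat_lit 349) (nat_lit 270) (nat_lit 269)) (XT.lf (nat_lit 0) (nat_lit 6398689577) (nat_lit 336) (nat_lit 344435418) (nat_lit 0) (nat_lit 4992041833) (nat_lit 24) (nat_lit 5) (nat_lit 28) (nat_lit 4) (nat_lit 24) (nat_lit 4) (nat_lit 350) (nat_lit 270) (nat_lit 268))) (XT.nd (nat_lit 94) (nat_lit 84) (nat_lit 0) (XT.lf (nat_lit 0) (nat_lit 3715315974) (nat_lit 252) (nat_lit 5175081758) (nat_lit 252) (nat_lit 3096669953) (nat_lit 21) (nat_lit 4) (nat_lit 24) (nat_lit 5) (nat_lit 24) (nat_lit 4) (nat_lit 351) (nat_lit 270) (nat_lit 267)) (XT.nd (nat_lit 94) (nat_lit 84) (nat_lit 0) (XT.lf (nat_lit 0) (nat_lit 7828584356)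 (nat_lit 252) (nat_lit 3575123172) (nat_lit 252) (nat_lit 845145838) (nat_lit 21) (nat_lit 4) (nat_lit 24) (nat_lit 5) (nat_lit 24) (nat_lit 4) (nat_lit 352) (nat_lit 270) (nat_lit 266)) (XT.lf (nat_lit 0) (nat_lit 1388057246) (nat_lit 336) (nat_lit 542807390) (nat_lit 84) (nat_lit 10589575709) (nat_lit 20) (nat_lit 5) (nat_lit 24) (nat_lit 5) (nat_lit 21) (nat_lit 4) (nat_lit 353) (nat_lit 270) (nat_lit 265))))))) (XT.nd (nat_lit 752) (nat_lit 336) (nat_lit 0) (XT.nd (nat_lit 376) (nat_lit 252) (nat_lit 0) (XT.nd (nat_lit 188) (nat_lit 168) (nat_lit 0) (XT.nd (nat_lit 94) (nat_lit 0) (nat_lit 0) (XT.lf (nat_lit 0) (nat_lit 3439097172) (nat_lit 168) (nat_lit 211331689) (nat_lit 252) (nat_lit 9150767656) (nat_lit 18) (nat_lit 5) (nat_lit 20) (nat_lit 5) (nat_lit 21) (nat_lit 4) (nat_lit 354) (nat_lit 270) (nat_lit 264)) (XT.lf (nat_lit 0) (nat_lit 5948280903) (nat_lit 252) (nat_lit 5627550284)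 (nat_lit 0) (nat_lit 1516209856) (nat_lit 18) (nat_lit 5) (nat_lit 21) (nat_lit 4) (nat_lit 18) (nat_lit 4) (nat_lit 355) (nat_lit 270) (nat_lit 263))) (XT.nd (nat_lit 94) (nat_lit 168) (nat_lit 0) (XT.lf (nat_lit 0) (nat_lit 8265340413) (nat_lit 252) (nat_lit 1854531796) (nat_lit 0) (nat_lit 3273943668) (nat_lit 18) (nat_lit 5) (nat_lit 21) (nat_lit 4) (nat_lit 18) (nat_lit 4) (nat_lit 356) (nat_lit 270) (nat_lit 262)) (XT.lf (nat_lit 0) (nat_lit 2002923855) (nat_lit 168) (nat_lit 8618616096) (nat_lit 168) (nat_lit 3084711399) (nat_lit 16) (nat_lit 4) (nat_lit 18) (nat_lit 5) (nat_lit 18) (nat_lit 4) (nat_lit 357) (nat_lit 270) (nat_lit 261)))) (XT.nd (nat_lit 188) (nat_lit 168) (nat_lit 0) (XT.nd (nat_lit 94) (nat_lit 84) (nat_lit 0) (XT.lf (nat_lit 0) (nat_lit 5947132723) (nat_lit 168) (nat_lit 7071313034) (nat_lit 168) (nat_lit 1011212457) (nat_lit 16) (nat_lit 4) (nat_lit 18) (nat_lit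 5) (nat_lit 18) (nat_lit 4) (nat_lit 358) (nat_lit 270) (nat_lit 260)) (XT.lf (nat_lit 0) (nat_lit 1052945845) (nat_lit 252) (nat_lit 4431941842) (nat_lit 84) (nat_lit 8879701806) (nat_lit 15) (nat_lit 5) (nat_lit 18) (nat_lit 5) (nat_lit 16) (nat_lit 4) (nat_lit 359) (nat_lit 270) (nat_lit 259))) (XT.nd (nat_lit 94) (nat_lit 168) (nat_lit 0) (XT.lf (nat_lit 0) (nat_lit 3110697557) (nat_lit 252) (nat_lit 747676511) (nat_lit 84) (nat_lit 10852998726) (nat_lit 15) (nat_lit 5) (nat_lit 18) (nat_lit 5) (nat_lit 16) (nat_lit 4) (nat_lit 360) (nat_lit 270) (nat_lit 258)) (XT.lf (nat_lit 0) (nat_lit 3045087706) (nat_lit 168) (nat_lit 2169454337) (nat_lit 252) (nat_lit 9855163848) (nat_lit 13) (nat_lit 5) (nat_lit 15) (nat_lit 5) (nat_lit 16) (nat_lit 4) (nat_lit 361) (nat_lit 270) (nat_lit 257))))) (XT.nd (nat_lit 376) (nat_lit 168) (nat_lit 0) (XT.nd (nat_lit 188) (nat_lit 168) (nat_lit 0) (XT.nd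 (nat_lit 94) (nat_lit 0) (nat_lit 0) (XT.lf (nat_lit 0) (nat_lit 6904891869) (nat_lit 168) (nat_lit 439394724) (nat_lit 252) (nat_lit 8096322961) (nat_lit 13) (nat_lit 5) (nat_lit 15) (nat_lit 5) (nat_lit 16) (nat_lit 4) (nat_lit 362) (nat_lit 270) (nat_lit 256)) (XT.lf (nat_lit 0) (nat_lit 9507497043) (nat_lit 252) (nat_lit 5017854452) (nat_lit 0) (nat_lit 1298905006) (nat_lit 13) (nat_lit 5) (nat_lit 16) (nat_lit 4) (nat_lit 13) (nat_lit 4) (nat_lit 363) (nat_lit 270) (nat_lit 255))) (XT.nd (nat_lit 94) (nat_lit 168) (nat_lit 0) (XT.lf (nat_lit 0) (nat_lit 11697749090) (nat_lit 252) (nat_lit 1459308824) (nat_lit 0) (nat_lit 3064208078) (nat_lit 13) (nat_lit 5) (nat_lit 16) (nat_lit 4) (nat_lit 13) (nat_lit 4) (nat_lit 364) (nat_lit 270) (nat_lit 254)) (XT.lf (nat_lit 0) (nat_lit 2191753942) (nat_lit 168) (nat_lit 11742713957) (nat_lit 168) (nat_lit 2697001291) (nat_lit 11) (nat_lit 4)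 (nat_lit 13) (nat_lit 5) (nat_lit 13) (nat_lit 4) (nat_lit 365) (nat_lit 270) (nat_lit 253)))) (XT.nd (nat_lit 188) (nat_lit 84) (nat_lit 0) (XT.nd (nat_lit 94) (nat_lit 84) (nat_lit 0) (XT.lf (nat_lit 0) (nat_lit 5925606758) (nat_lit 168) (nat_lit 10287666642) (nat_lit 168) (nat_lit 842175457) (nat_lit 11) (nat_lit 4) (nat_lit 13) (nat_lit 5) (nat_lit 13) (nat_lit 4) (nat_lit 366) (nat_lit 270) (nat_lit 252)) (XT.lf (nat_lit 0) (nat_lit 1006756324) (nat_lit 252) (nat_lit 7788527110) (nat_lit 84) (nat_lit 8698458786) (nat_lit 10) (nat_lit 5) (nat_lit 13) (nat_lit 5) (nat_lit 11) (nat_lit 4) (nat_lit 367) (nat_lit 270) (nat_lit 251))) (XT.nd (nat_lit 94) (nat_lit 84) (nat_lit 0) (XT.lf (nat_lit 0) (nat_lit 2854936326) (nat_lit 252) (nat_lit 4410972480) (nat_lit 84) (nat_lit 10680901195) (nat_lit 10) (nat_lit 5) (nat_lit 13) (nat_lit 5) (nat_lit 11) (nat_lit 4) (nat_lit 368) (nat_lit 270)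 (nat_lit 250)) (XT.nd (nat_lit 94) (nat_lit 84) (nat_lit 0) (XT.lf (nat_lit 0) (nat_lit 4721055204) (nat_lit 252) (nat_lit 985675489) (nat_lit 84) (nat_lit 12708602800) (nat_lit 10) (nat_lit 5) (nat_lit 13) (nat_lit 5) (nat_lit 11) (nat_lit 4) (nat_lit 369) (nat_lit 270) (nat_lit 249)) (XT.lf (nat_lit 0) (nat_lit 2541767550) (nat_lit 84) (nat_lit 4090299474) (nat_lit 168) (nat_lit 12266900730) (nat_lit 9) (nat_lit 5) (nat_lit 10) (nat_lit 5) (nat_lit 11) (nat_lit 4) (nat_lit 370) (nat_lit 270) (nat_lit 248))))))))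
noncomputable def xc6 : XT := (XT.nd (nat_lit 54520) (nat_lit 0) (nat_lit 0) (XT.nd (nat_lit 53674) (nat_lit 0) (nat_lit 588) (XT.nd (nat_lit 376) (nat_lit 0) (nat_lit 0) (XT.nd (nat_lit 188) (nat_lit 0) (nat_lit 0) (XT.nd (nat_lit 94) (nat_lit 0) (nat_lit 0) (XT.lf (nat_lit 0) (nat_lit 6144767364) (nat_lit 84) (nat_lit 2430275092) (nat_lit 168) (nat_lit 10823577158) (nat_lit 9) (nat_lit 5) (nat_lit 10) (nat_lit 5) (nat_lit 11) (nat_lit 4) (nat_lit 371) (nat_lit 270) (nat_lit 247)) (XT.lf (nat_lit 0) (nat_lit 9806414815) (nat_lit 84) (nat_lit 735398659) (nat_lit 168) (nat_lit 9373250673) (nat_lit 9) (nat_lit 5) (nat_lit 10) (nat_lit 5) (nat_lit 11) (nat_lit 4) (nat_lit 372) (nat_lit 270) (nat_lit 246))) (XT.nd (nat_lit 94) (nat_lit 0) (nat_lit 0) (XT.lf (nat_lit 0) (nat_lit 12544092864) (nat_lit 168) (nat_lit 6928539342) (nat_lit 0) (nat_lit 975844266) (nat_lit 9) (nat_lit 5) (nat_lit 11)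 (nat_lit 4) (nat_lit 9) (nat_lit 4) (nat_lit 373) (nat_lit 270) (nat_lit 245)) (XT.lf (nat_lit 0) (nat_lit 14581530866) (nat_lit 168) (nat_lit 3708341989) (nat_lit 0) (nat_lit 2709549626) (nat_lit 9) (nat_lit 5) (nat_lit 11) (nat_lit 4) (nat_lit 9) (nat_lit 4) (nat_lit 374) (nat_lit 270) (nat_lit 244)))) (XT.nd (nat_lit 53110) (nat_lit 0) (nat_lit 1260) (XT.nd (nat_lit 53016) (nat_lit 0) (nat_lit 1596) (XT.lf (nat_lit 0) (nat_lit 16648731341) (nat_lit 168) (nat_lit 437760467) (nat_lit 0) (nat_lit 4482150060) (nat_lit 9) (nat_lit 5) (nat_lit 11) (nat_lit 4) (nat_lit 9) (nat_lit 4) (nat_lit 375) (nat_lit 270) (nat_lit 243)) (XT.lf (nat_lit 0) (nat_lit 2911574499) (nat_lit 252) (nat_lit 1247753456) (nat_lit 252) (nat_lit 1247753456) (nat_lit 28) (nat_lit 4) (nat_lit 31) (nat_lit 5) (nat_lit 31) (nat_lit 4) (nat_lit 346) (nat_lit 271) (nat_lit 271))) (XT.nd (nat_lit 94) (nat_lit 336) (nat_lit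 0) (XT.lf (nat_lit 0) (nat_lit 10014236726) (nat_lit 252) (nat_lit 888955151) (nat_lit 252) (nat_lit 129938285) (nat_lit 28) (nat_lit 4) (nat_lit 31) (nat_lit 5) (nat_lit 31) (nat_lit 4) (nat_lit 347) (nat_lit 271) (nat_lit 270)) (XT.lf (nat_lit 0) (nat_lit 2237466898) (nat_lit 336) (nat_lit 8234654382) (nat_lit 0) (nat_lit 787213074) (nat_lit 24) (nat_lit 5) (nat_lit 28) (nat_lit 4) (nat_lit 24) (nat_lit 4) (nat_lit 348) (nat_lit 271) (nat_lit 269))))) (XT.nd (nat_lit 376) (nat_lit 420) (nat_lit 0) (XT.nd (nat_lit 188) (nat_lit 252) (nat_lit 0) (XT.nd (nat_lit 94) (nat_lit 0) (nat_lit 0) (XT.lf (nat_lit 0) (nat_lit 4633272019) (nat_lit 336) (nat_lit 4370492334) (nat_lit 0) (nat_lit 2490429448) (nat_lit 24) (nat_lit 5) (nat_lit 28) (nat_lit 4) (nat_lit 24) (nat_lit 4) (nat_lit 349) (nat_lit 271) (nat_lit 268)) (XT.lf (nat_lit 0) (nat_lit 7043088757) (nat_lit 336) (nat_lit 466992917) (nat_lit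 0) (nat_lit 4228482126) (nat_lit 24) (nat_lit 5) (nat_lit 28) (nat_lit 4) (nat_lit 24) (nat_lit 4) (nat_lit 350) (nat_lit 271) (nat_lit 267))) (XT.nd (nat_lit 94) (nat_lit 0) (nat_lit 0) (XT.lf (nat_lit 0) (nat_lit 3551027632) (nat_lit 252) (nat_lit 5953362315) (nat_lit 252) (nat_lit 2487190155) (nat_lit 21) (nat_lit 4) (nat_lit 24) (nat_lit 5) (nat_lit 24) (nat_lit 4) (nat_lit 351) (nat_lit 271) (nat_lit 266)) (XT.lf (nat_lit 0) (nat_lit 7626264192) (nat_lit 252) (nat_lit 4363146337) (nat_lit 252) (nat_lit 264999852) (nat_lit 21) (nat_lit 4) (nat_lit 24) (nat_lit 5) (nat_lit 24) (nat_lit 4) (nat_lit 352) (nat_lit 271) (nat_lit 265)))) (XT.nd (nat_lit 188) (nat_lit 168) (nat_lit 0) (XT.nd (nat_lit 94) (nat_lit 168) (nat_lit 0) (XT.lf (nat_lit 0) (nat_lit 1928636017) (nat_lit 336) (nat_lit 794058920) (nat_lit 84) (nat_lit 9804145954) (nat_lit 20) (nat_lit 5) (nat_lit 24) (nat_lit 5) (nat_lit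 21) (nat_lit 4) (nat_lit 353) (nat_lit 271) (nat_lit 264)) (XT.lf (nat_lit 0) (nat_lit 3145441025) (nat_lit 168) (nat_lit 1015613184) (nat_lit 252) (nat_lit 8647624372) (nat_lit 18) (nat_lit 5) (nat_lit 20) (nat_lit 5) (nat_lit 21) (nat_lit 4) (nat_lit 354) (nat_lit 271) (nat_lit 263))) (XT.nd (nat_lit 94) (nat_lit 168) (nat_lit 0) (XT.lf (nat_lit 0) (nat_lit 6424247537) (nat_lit 252) (nat_lit 5957706560) (nat_lit 0) (nat_lit 718791794) (nat_lit 18) (nat_lit 5) (nat_lit 21) (nat_lit 4) (nat_lit 18) (nat_lit 4) (nat_lit 355) (nat_lit 271) (nat_lit 262)) (XT.nd (nat_lit 94) (nat_lit 168) (nat_lit 0) (XT.lf (nat_lit 0) (nat_lit 8715429120) (nat_lit 252) (nat_lit 2220572297) (nat_lit 0) (nat_lit 2467465425) (nat_lit 18) (nat_lit 5) (nat_lit 21) (nat_lit 4) (nat_lit 18) (nat_lit 4) (nat_lit 356) (nat_lit 271) (nat_lit 261)) (XT.lf (nat_lit 0) (nat_lit 1593835881) (nat_lit 168) (nat_lit 9448634742)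 (nat_lit 168) (nat_lit 2674475168) (nat_lit 16) (nat_lit 4) (nat_lit 18) (nat_lit 5) (nat_lit 18) (nat_lit 4) (nat_lit 357) (nat_lit 271) (nat_lit 260))))))) (XT.nd (nat_lit 752) (nat_lit 168) (nat_lit 0) (XT.nd (nat_lit 376) (nat_lit 168) (nat_lit 0) (XT.nd (nat_lit 188) (nat_lit 168) (nat_lit 0) (XT.nd (nat_lit 94) (nat_lit 84) (nat_lit 0) (XT.lf (nat_lit 0) (nat_lit 5503591859) (nat_lit 168) (nat_lit 7911097660) (nat_lit 168) (nat_lit 626563808) (nat_lit 16) (nat_lit 4) (nat_lit 18) (nat_lit 5) (nat_lit 18) (nat_lit 4) (nat_lit 358) (nat_lit 271) (nat_lit 259)) (XT.lf (nat_lit 0) (nat_lit 1405526494) (nat_lit 252) (nat_lit 4924937937) (nat_lit 84) (nat_lit 8046483109) (nat_lit 15) (nat_lit 5) (nat_lit 18) (nat_lit 5) (nat_lit 16) (nat_lit 4) (nat_lit 359) (nat_lit 271) (nat_lit 258))) (XT.nd (nat_lit 94) (nat_lit 168) (nat_lit 0) (XT.lf (nat_lit 0) (nat_lit 3439691217) (nat_lit 252)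 (nat_lit 1273693320) (nat_lit 84) (nat_lit 10011201033) (nat_lit 15) (nat_lit 5) (nat_lit 18) (nat_lit 5) (nat_lit 16) (nat_lit 4) (nat_lit 360) (nat_lit 271) (nat_lit 257)) (XT.lf (nat_lit 0) (nat_lit 2475568504) (nat_lit 168) (nat_lit 3039439720) (nat_lit 252) (nat_lit 9568914611) (nat_lit 13) (nat_lit 5) (nat_lit 15) (nat_lit 5) (nat_lit 16) (nat_lit 4) (nat_lit 361) (nat_lit 271) (nat_lit 256)))) (XT.nd (nat_lit 188) (nat_lit 168) (nat_lit 0) (XT.nd (nat_lit 94) (nat_lit 0) (nat_lit 0) (XT.lf (nat_lit 0) (nat_lit 6303669069) (nat_lit 168) (nat_lit 1318579309) (nat_lit 252) (nat_lit 7833391969) (nat_lit 13) (nat_lit 5) (nat_lit 15) (nat_lit 5) (nat_lit 16) (nat_lit 4) (nat_lit 362) (nat_lit 271) (nat_lit 255)) (XT.lf (nat_lit 0) (nat_lit 9754820960) (nat_lit 252) (nat_lit 5656837626) (nat_lit 0) (nat_lit 428691201) (nat_lit 13) (nat_lit 5) (nat_lit 16) (nat_lit 4) (nat_lit 13) (nat_lit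 4) (nat_lit 363) (nat_lit 271) (nat_lit 254))) (XT.nd (nat_lit 94) (nat_lit 168) (nat_lit 0) (XT.lf (nat_lit 0) (nat_lit 11923815733) (nat_lit 252) (nat_lit 2128797529) (nat_lit 0) (nat_lit 2185514321) (nat_lit 13) (nat_lit 5) (nat_lit 16) (nat_lit 4) (nat_lit 13) (nat_lit 4) (nat_lit 364) (nat_lit 271) (nat_lit 253)) (XT.lf (nat_lit 0) (nat_lit 1478302486) (nat_lit 168) (nat_lit 12654536417) (nat_lit 168) (nat_lit 2516456485) (nat_lit 11) (nat_lit 4) (nat_lit 13) (nat_lit 5) (nat_lit 13) (nat_lit 4) (nat_lit 365) (nat_lit 271) (nat_lit 252))))) (XT.nd (nat_lit 376) (nat_lit 84) (nat_lit 0) (XT.nd (nat_lit 188) (nat_lit 0) (nat_lit 0) (XT.nd (nat_lit 94) (nat_lit 84) (nat_lit 0) (XT.lf (nat_lit 0) (nat_lit 5182866563) (nat_lit 168) (nat_lit 11208489125) (nat_lit 168) (nat_lit 682651172) (nat_lit 11) (nat_lit 4) (nat_lit 13) (nat_lit 5) (nat_lit 13) (nat_lit 4) (nat_lit 366) (nat_lit 271)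 (nat_lit 251)) (XT.lf (nat_lit 0) (nat_lit 1143088855) (nat_lit 252) (nat_lit 8580323441) (nat_lit 84) (nat_lit 7789554941) (nat_lit 10) (nat_lit 5) (nat_lit 13) (nat_lit 5) (nat_lit 11) (nat_lit 4) (nat_lit 367) (nat_lit 271) (nat_lit 250))) (XT.nd (nat_lit 94) (nat_lit 0) (nat_lit 0) (XT.lf (nat_lit 0) (nat_lit 2971891848) (nat_lit 252) (nat_lit 5230815011) (nat_lit 84) (nat_lit 9764022698) (nat_lit 10) (nat_lit 5) (nat_lit 13) (nat_lit 5) (nat_lit 11) (nat_lit 4) (nat_lit 368) (nat_lit 271) (nat_lit 249)) (XT.lf (nat_lit 0) (nat_lit 4819216343) (nat_lit 252) (nat_lit 1832720929) (nat_lit 84) (nat_lit 11783989432) (nat_lit 10) (nat_lit 5) (nat_lit 13) (nat_lit 5) (nat_lit 11) (nat_lit 4) (nat_lit 369) (nat_lit 271) (nat_lit 248)))) (XT.nd (nat_lit 188) (nat_lit 0) (nat_lit 0) (XT.nd (nat_lit 94) (nat_lit 0) (nat_lit 0) (XT.lf (nat_lit 0) (nat_lit 1650377613) (nat_lit 84) (nat_lit 5052778577)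 (nat_lit 168) (nat_lit 12217332301) (nat_lit 9) (nat_lit 5) (nat_lit 10) (nat_lit 5) (nat_lit 11) (nat_lit 4) (nat_lit 370) (nat_lit 271) (nat_lit 247)) (XT.lf (nat_lit 0) (nat_lit 5227259575) (nat_lit 84) (nat_lit 3400931795) (nat_lit 168) (nat_lit 10792590766) (nat_lit 9) (nat_lit 5) (nat_lit 10) (nat_lit 5) (nat_lit 11) (nat_lit 4) (nat_lit 371) (nat_lit 271) (nat_lit 246))) (XT.nd (nat_lit 94) (nat_lit 0) (nat_lit 0) (XT.lf (nat_lit 0) (nat_lit 8863574483) (nat_lit 84) (nat_lit 1713987079) (nat_lit 168) (nat_lit 9360287597) (nat_lit 9) (nat_lit 5) (nat_lit 10) (nat_lit 5) (nat_lit 11) (nat_lit 4) (nat_lit 372) (nat_lit 271) (nat_lit 245)) (XT.nd (nat_lit 94) (nat_lit 0) (nat_lit 0) (XT.lf (nat_lit 0) (nat_lit 12553179297) (nat_lit 168) (nat_lit 7909555269) (nat_lit 0) (nat_lit 9433996) (nat_lit 9) (nat_lit 5) (nat_lit 11) (nat_lit 4) (nat_lit 9) (nat_lit 4) (nat_lit 373) (nat_lit 271)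 (nat_lit 244)) (XT.lf (nat_lit 0) (nat_lit 14574173131) (nat_lit 168) (nat_lit 4713701564) (nat_lit 0) (nat_lit 1735827789) (nat_lit 9) (nat_lit 5) (nat_lit 11) (nat_lit 4) (nat_lit 9) (nat_lit 4) (nat_lit 374) (nat_lit 271) (nat_lit 243))))))))
noncomputable def xc7 : XT := (XT.nd (nat_lit 54332) (nat_lit 0) (nat_lit 0) (XT.nd (nat_lit 53486) (nat_lit 0) (nat_lit 504) (XT.nd (nat_lit 53110) (nat_lit 0) (nat_lit 1260) (XT.nd (nat_lit 52922) (nat_lit 0) (nat_lit 1596) (XT.nd (nat_lit 52828) (nat_lit 0) (nat_lit 1848) (XT.lf (nat_lit 0) (nat_lit 16625423879) (nat_lit 168) (nat_lit 1466731728) (nat_lit 0) (nat_lit 3501336500) (nat_lit 9) (nat_lit 5) (nat_lit 11) (nat_lit 4) (nat_lit 9) (nat_lit 4) (nat_lit 375) (nat_lit 271) (nat_lit 242)) (XT.lf (nat_lit 0) (nat_lit 2016467684) (nat_lit 336) (nat_lit 1167461761) (nat_lit 0) (nat_lit 2016467684) (nat_lit 31) (nat_lit 5) (nat_lit 35) (nat_lit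 4) (nat_lit 31) (nat_lit 4) (nat_lit 344) (nat_lit 272) (nat_lit 272))) (XT.nd (nat_lit 94) (nat_lit 0) (nat_lit 0) (XT.lf (nat_lit 0) (nat_lit 1678092477) (nat_lit 252) (nat_lit 4854276093) (nat_lit 252) (nat_lit 4071729704) (nat_lit 28) (nat_lit 4) (nat_lit 31) (nat_lit 5) (nat_lit 31) (nat_lit 4) (nat_lit 345) (nat_lit 272) (nat_lit 271)) (XT.lf (nat_lit 0) (nat_lit 5782545578) (nat_lit 252) (nat_lit 3287178824) (nat_lit 252) (nat_lit 1745615569) (nat_lit 28) (nat_lit 4) (nat_lit 31) (nat_lit 5) (nat_lit 31) (nat_lit 4) (nat_lit 346) (nat_lit 272) (nat_lit 270)))) (XT.nd (nat_lit 188) (nat_lit 0) (nat_lit 0) (XT.nd (nat_lit 94) (nat_lit 252) (nat_lit 0) (XT.lf (nat_lit 0) (nat_lit 576427353) (nat_lit 336) (nat_lit 1107034126) (nat_lit 84) (nat_lit 9351806672) (nat_lit 27) (nat_lit 5) (nat_lit 31) (nat_lit 5) (nat_lit 28) (nat_lit 4) (nat_lit 347) (nat_lit 272) (nat_lit 269)) (XT.lf (nat_lit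 0) (nat_lit 2901825290) (nat_lit 252) (nat_lit 17333) (nat_lit 336) (nat_lit 8360994002) (nat_lit 24) (nat_lit 5) (nat_lit 27) (nat_lit 5) (nat_lit 28) (nat_lit 4) (nat_lit 348) (nat_lit 272) (nat_lit 268))) (XT.nd (nat_lit 94) (nat_lit 0) (nat_lit 0) (XT.lf (nat_lit 0) (nat_lit 5267978276) (nat_lit 336) (nat_lit 4536460959) (nat_lit 0) (nat_lit 1694354779) (nat_lit 24) (nat_lit 5) (nat_lit 28) (nat_lit 4) (nat_lit 24) (nat_lit 4) (nat_lit 349) (nat_lit 272) (nat_lit 267)) (XT.lf (nat_lit 0) (nat_lit 7649017811) (nat_lit 336) (nat_lit 671382341) (nat_lit 0) (nat_lit 3423828784) (nat_lit 24) (nat_lit 5) (nat_lit 28) (nat_lit 4) (nat_lit 24) (nat_lit 4) (nat_lit 350) (nat_lit 272) (nat_lit 266))))) (XT.nd (nat_lit 376) (nat_lit 252) (nat_lit 0) (XT.nd (nat_lit 188) (nat_lit 168) (nat_lit 0) (XT.nd (nat_lit 94) (nat_lit 84) (nat_lit 0) (XT.lf (nat_lit 0) (nat_lit 3304403720) (nat_lit 252)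 (nat_lit 6775556807) (nat_lit 252) (nat_lit 1918393456) (nat_lit 21) (nat_lit 4) (nat_lit 24) (nat_lit 5) (nat_lit 24) (nat_lit 4) (nat_lit 351) (nat_lit 272) (nat_lit 265)) (XT.lf (nat_lit 0) (nat_lit 269797449) (nat_lit 336) (nat_lit 4922176917) (nat_lit 84) (nat_lit 7070138412) (nat_lit 20) (nat_lit 5) (nat_lit 24) (nat_lit 5) (nat_lit 21) (nat_lit 4) (nat_lit 352) (nat_lit 272) (nat_lit 264))) (XT.nd (nat_lit 94) (nat_lit 168) (nat_lit 0) (XT.lf (nat_lit 0) (nat_lit 2431053847) (nat_lit 336) (nat_lit 1127206578) (nat_lit 84) (nat_lit 8977192582) (nat_lit 20) (nat_lit 5) (nat_lit 24) (nat_lit 5) (nat_lit 21) (nat_lit 4) (nat_lit 353) (nat_lit 272) (nat_lit 263)) (XT.lf (nat_lit 0) (nat_lit 2769324479) (nat_lit 168) (nat_lit 1864189167) (nat_lit 252) (nat_lit 8184854125) (nat_lit 18) (nat_lit 5) (nat_lit 20) (nat_lit 5) (nat_lit 21) (nat_lit 4) (nat_lit 354) (nat_lit 272) (nat_lit 262))))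 (XT.nd (nat_lit 188) (nat_lit 252) (nat_lit 0) (XT.nd (nat_lit 94) (nat_lit 0) (nat_lit 0) (XT.lf (nat_lit 0) (nat_lit 6739392819) (nat_lit 168) (nat_lit 124250831) (nat_lit 252) (nat_lit 6247960294) (nat_lit 18) (nat_lit 5) (nat_lit 20) (nat_lit 5) (nat_lit 21) (nat_lit 4) (nat_lit 355) (nat_lit 272) (nat_lit 261)) (XT.lf (nat_lit 0) (nat_lit 9128492818) (nat_lit 252) (nat_lit 2668649541) (nat_lit 0) (nat_lit 1618138417) (nat_lit 18) (nat_lit 5) (nat_lit 21) (nat_lit 4) (nat_lit 18) (nat_lit 4) (nat_lit 356) (nat_lit 272) (nat_lit 260))) (XT.nd (nat_lit 94) (nat_lit 84) (nat_lit 0) (XT.lf (nat_lit 0) (nat_lit 1102092359) (nat_lit 168) (nat_lit 10324218672) (nat_lit 168) (nat_lit 2303489994) (nat_lit 16) (nat_lit 4) (nat_lit 18) (nat_lit 5) (nat_lit 18) (nat_lit 4) (nat_lit 357) (nat_lit 272) (nat_lit 259)) (XT.nd (nat_lit 94) (nat_lit 84) (nat_lit 0) (XT.lf (nat_lit 0) (nat_lit 4978431373)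 (nat_lit 168) (nat_lit 8796153927) (nat_lit 168) (nat_lit 280396852) (nat_lit 16) (nat_lit 4) (nat_lit 18) (nat_lit 5) (nat_lit 18) (nat_lit 4) (nat_lit 358) (nat_lit 272) (nat_lit 258)) (XT.lf (nat_lit 0) (nat_lit 1721131968) (nat_lit 252) (nat_lit 5500281981) (nat_lit 84) (nat_lit 7170010690) (nat_lit 15) (nat_lit 5) (nat_lit 18) (nat_lit 5) (nat_lit 16) (nat_lit 4) (nat_lit 359) (nat_lit 272) (nat_lit 257))))))) (XT.nd (nat_lit 846) (nat_lit 84) (nat_lit 0) (XT.nd (nat_lit 376) (nat_lit 252) (nat_lit 0) (XT.nd (nat_lit 188) (nat_lit 0) (nat_lit 0) (XT.nd (nat_lit 94) (nat_lit 168) (nat_lit 0) (XT.lf (nat_lit 0) (nat_lit 3732418912) (nat_lit 252) (nat_lit 1881065214) (nat_lit 84) (nat_lit 9126407568) (nat_lit 15) (nat_lit 5) (nat_lit 18) (nat_lit 5) (nat_lit 16) (nat_lit 4) (nat_lit 360) (nat_lit 272) (nat_lit 256)) (XT.lf (nat_lit 0) (nat_lit 1824004201) (nat_lit 168) (nat_lit 3955078228)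 (nat_lit 252) (nat_lit 9321151002) (nat_lit 13) (nat_lit 5) (nat_lit 15) (nat_lit 5) (nat_lit 16) (nat_lit 4) (nat_lit 361) (nat_lit 272) (nat_lit 255))) (XT.nd (nat_lit 94) (nat_lit 0) (nat_lit 0) (XT.lf (nat_lit 0) (nat_lit 5621354429) (nat_lit 168) (nat_lit 2243140418) (nat_lit 252) (nat_lit 7608245475) (nat_lit 13) (nat_lit 5) (nat_lit 15) (nat_lit 5) (nat_lit 16) (nat_lit 4) (nat_lit 362) (nat_lit 272) (nat_lit 254)) (XT.lf (nat_lit 0) (nat_lit 9475846440) (nat_lit 168) (nat_lit 495709454) (nat_lit 252) (nat_lit 5886794057) (nat_lit 13) (nat_lit 5) (nat_lit 15) (nat_lit 5) (nat_lit 16) (nat_lit 4) (nat_lit 363) (nat_lit 272) (nat_lit 253)))) (XT.nd (nat_lit 188) (nat_lit 84) (nat_lit 0) (XT.nd (nat_lit 94) (nat_lit 168) (nat_lit 0) (XT.lf (nat_lit 0) (nat_lit 12115015057) (nat_lit 252) (nat_lit 2879134209) (nat_lit 0) (nat_lit 1262876128) (nat_lit 13) (nat_lit 5) (nat_lit 16) (nat_lit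 4) (nat_lit 13) (nat_lit 4) (nat_lit 364) (nat_lit 272) (nat_lit 252)) (XT.lf (nat_lit 0) (nat_lit 683248606) (nat_lit 168) (nat_lit 13612904418) (nat_lit 168) (nat_lit 2373007468) (nat_lit 11) (nat_lit 4) (nat_lit 13) (nat_lit 5) (nat_lit 13) (nat_lit 4) (nat_lit 365) (nat_lit 272) (nat_lit 251))) (XT.nd (nat_lit 94) (nat_lit 84) (nat_lit 0) (XT.lf (nat_lit 0) (nat_lit 4359404595) (nat_lit 168) (nat_lit 12175586537) (nat_lit 168) (nat_lit 559590633) (nat_lit 11) (nat_lit 4) (nat_lit 13) (nat_lit 5) (nat_lit 13) (nat_lit 4) (nat_lit 366) (nat_lit 272) (nat_lit 250)) (XT.nd (nat_lit 94) (nat_lit 0) (nat_lit 0) (XT.lf (nat_lit 0) (nat_lit 1244292989) (nat_lit 252) (nat_lit 9453627291) (nat_lit 84) (nat_lit 6836278559) (nat_lit 10) (nat_lit 5) (nat_lit 13) (nat_lit 5) (nat_lit 11) (nat_lit 4) (nat_lit 367) (nat_lit 272) (nat_lit 249)) (XT.lf (nat_lit 0) (nat_lit 3054301600) (nat_lit 252) (nat_lit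 6131321770) (nat_lit 84) (nat_lit 8803011444) (nat_lit 10) (nat_lit 5) (nat_lit 13) (nat_lit 5) (nat_lit 11) (nat_lit 4) (nat_lit 368) (nat_lit 272) (nat_lit 248)))))) (XT.nd (nat_lit 376) (nat_lit 0) (nat_lit 0) (XT.nd (nat_lit 188) (nat_lit 0) (nat_lit 0) (XT.nd (nat_lit 94) (nat_lit 84) (nat_lit 0) (XT.lf (nat_lit 0) (nat_lit 4883396820) (nat_lit 252) (nat_lit 2759612665) (nat_lit 84) (nat_lit 10815475879) (nat_lit 10) (nat_lit 5) (nat_lit 13) (nat_lit 5) (nat_lit 11) (nat_lit 4) (nat_lit 369) (nat_lit 272) (nat_lit 247)) (XT.lf (nat_lit 0) (nat_lit 678309231) (nat_lit 84) (nat_lit 6061703239) (nat_lit 168) (nat_lit 12203967370) (nat_lit 9) (nat_lit 5) (nat_lit 10) (nat_lit 5) (nat_lit 11) (nat_lit 4) (nat_lit 370) (nat_lit 272) (nat_lit 246))) (XT.nd (nat_lit 94) (nat_lit 0) (nat_lit 0) (XT.lf (nat_lit 0) (nat_lit 4229858650) (nat_lit 84) (nat_lit 4417788173) (nat_lit 168) (nat_lit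 10797249150) (nat_lit 9) (nat_lit 5) (nat_lit 10) (nat_lit 5) (nat_lit 11) (nat_lit 4) (nat_lit 371) (nat_lit 272) (nat_lit 245)) (XT.lf (nat_lit 0) (nat_lit 7841602712) (nat_lit 84) (nat_lit 2738536684) (nat_lit 168) (nat_lit 9382427373) (nat_lit 9) (nat_lit 5) (nat_lit 10) (nat_lit 5) (nat_lit 11) (nat_lit 4) (nat_lit 372) (nat_lit 272) (nat_lit 244)))) (XT.nd (nat_lit 188) (nat_lit 0) (nat_lit 0) (XT.nd (nat_lit 94) (nat_lit 0) (nat_lit 0) (XT.lf (nat_lit 0) (nat_lit 11516907941) (nat_lit 84) (nat_lit 1022383533) (nat_lit 168) (nat_lit 7958183275) (nat_lit 9) (nat_lit 5) (nat_lit 10) (nat_lit 5) (nat_lit 11) (nat_lit 4) (nat_lit 373) (nat_lit 272) (nat_lit 243)) (XT.lf (nat_lit 0) (nat_lit 14534193411) (nat_lit 168) (nat_lit 5798182619) (nat_lit 0) (nat_lit 717517285) (nat_lit 9) (nat_lit 5) (nat_lit 11) (nat_lit 4) (nat_lit 9) (nat_lit 4) (nat_lit 374) (nat_lit 272) (nat_lit 242)))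 (XT.nd (nat_lit 52640) (nat_lit 0) (nat_lit 1848) (XT.lf (nat_lit 0) (nat_lit 16569974007) (nat_lit 168) (nat_lit 2574114515) (nat_lit 0) (nat_lit 2476147505) (nat_lit 9) (nat_lit 5) (nat_lit 11) (nat_lit 4) (nat_lit 9) (nat_lit 4) (nat_lit 375) (nat_lit 272) (nat_lit 241)) (XT.nd (nat_lit 94) (nat_lit 336) (nat_lit 0) (XT.lf (nat_lit 0) (nat_lit 4948694898) (nat_lit 336) (nat_lit 29937769) (nat_lit 336) (nat_lit 29937769) (nat_lit 35) (nat_lit 4) (nat_lit 39) (nat_lit 5) (nat_lit 39) (nat_lit 4) (nat_lit 342) (nat_lit 273) (nat_lit 273)) (XT.lf (nat_lit 0) (nat_lit 2368492995) (nat_lit 336) (nat_lit 6275287394) (nat_lit 0) (nat_lit 1561687668) (nat_lit 31) (nat_lit 5) (nat_lit 35) (nat_lit 4) (nat_lit 31) (nat_lit 4) (nat_lit 343) (nat_lit 273) (nat_lit 272))))))))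
noncomputable def xc8 : XT := (XT.nd (nat_lit 1598) (nat_lit 504) (nat_lit 0) (XT.nd (nat_lit 752) (nat_lit 504) (nat_lit 0) (XT.nd (nat_lit 376) (nat_lit 504) (nat_lit 0) (XT.nd (nat_lit 188) (nat_lit 84) (nat_lit 0) (XT.nd (nat_lit 94) (nat_lit 252) (nat_lit 0) (XT.lf (nat_lit 0) (nat_lit 4807702260) (nat_lit 336) (nat_lit 2375942220) (nat_lit 0) (nat_lit 3218350544) (nat_lit 31) (nat_lit 5) (nat_lit 35) (nat_lit 4) (nat_lit 31) (nat_lit 4) (nat_lit 344) (nat_lit 273) (nat_lit 271)) (XT.lf (nat_lit 0) (nat_lit 1595626930) (nat_lit 252) (nat_lit 5679615355) (nat_lit 252) (nat_lit 3331246773) (nat_lit 28) (nat_lit 4) (nat_lit 31) (nat_lit 5) (nat_lit 31) (nat_lit 4) (nat_lit 345) (nat_lit 273) (nat_lit 270))) (XT.nd (nat_lit 94) (nat_lit 84) (nat_lit 0) (XT.lf (nat_lit 0) (nat_lit 5660697471) (nat_lit 252) (nat_lit 4121369223) (nat_lit 252) (nat_lit 1036805815) (nat_lit 28) (nat_lit 4)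 (nat_lit 31) (nat_lit 5) (nat_lit 31) (nat_lit 4) (nat_lit 346) (nat_lit 273) (nat_lit 269)) (XT.lf (nat_lit 0) (nat_lit 1240854296) (nat_lit 336) (nat_lit 1278447330) (nat_lit 84) (nat_lit 8520397956) (nat_lit 27) (nat_lit 5) (nat_lit 31) (nat_lit 5) (nat_lit 28) (nat_lit 4) (nat_lit 347) (nat_lit 273) (nat_lit 268)))) (XT.nd (nat_lit 188) (nat_lit 252) (nat_lit 0) (XT.nd (nat_lit 94) (nat_lit 0) (nat_lit 0) (XT.lf (nat_lit 0) (nat_lit 2688281252) (nat_lit 252) (nat_lit 846673156) (nat_lit 336) (nat_lit 7733462606) (nat_lit 24) (nat_lit 5) (nat_lit 27) (nat_lit 5) (nat_lit 28) (nat_lit 4) (nat_lit 348) (nat_lit 273) (nat_lit 267)) (XT.lf (nat_lit 0) (nat_lit 5863913927) (nat_lit 336) (nat_lit 4785607254) (nat_lit 0) (nat_lit 856178512) (nat_lit 24) (nat_lit 5) (nat_lit 28) (nat_lit 4) (nat_lit 24) (nat_lit 4) (nat_lit 349) (nat_lit 273) (nat_lit 266))) (XT.nd (nat_lit 94) (nat_lit 252)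 (nat_lit 0) (XT.lf (nat_lit 0) (nat_lit 8217041528) (nat_lit 336) (nat_lit 957794202) (nat_lit 0) (nat_lit 2577331788) (nat_lit 24) (nat_lit 5) (nat_lit 28) (nat_lit 4) (nat_lit 24) (nat_lit 4) (nat_lit 350) (nat_lit 273) (nat_lit 265)) (XT.lf (nat_lit 0) (nat_lit 2975214358) (nat_lit 252) (nat_lit 7642431607) (nat_lit 252) (nat_lit 1389749680) (nat_lit 21) (nat_lit 4) (nat_lit 24) (nat_lit 5) (nat_lit 24) (nat_lit 4) (nat_lit 351) (nat_lit 273) (nat_lit 264))))) (XT.nd (nat_lit 376) (nat_lit 252) (nat_lit 0) (XT.nd (nat_lit 188) (nat_lit 168) (nat_lit 0) (XT.nd (nat_lit 94) (nat_lit 0) (nat_lit 0) (XT.lf (nat_lit 0) (nat_lit 760749915) (nat_lit 336) (nat_lit 5302140252) (nat_lit 84) (nat_lit 6209092914) (nat_lit 20) (nat_lit 5) (nat_lit 24) (nat_lit 5) (nat_lit 21) (nat_lit 4) (nat_lit 352) (nat_lit 273) (nat_lit 263)) (XT.lf (nat_lit 0) (nat_lit 2895779041) (nat_lit 336) (nat_lit 1542560892)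 (nat_lit 84) (nat_lit 8107944786) (nat_lit 20) (nat_lit 5) (nat_lit 24) (nat_lit 5) (nat_lit 21) (nat_lit 4) (nat_lit 353) (nat_lit 273) (nat_lit 262))) (XT.nd (nat_lit 94) (nat_lit 0) (nat_lit 0) (XT.lf (nat_lit 0) (nat_lit 2310396951) (nat_lit 168) (nat_lit 2757850599) (nat_lit 252) (nat_lit 7762025564) (nat_lit 18) (nat_lit 5) (nat_lit 20) (nat_lit 5) (nat_lit 21) (nat_lit 4) (nat_lit 354) (nat_lit 273) (nat_lit 261)) (XT.lf (nat_lit 0) (nat_lit 6246485973) (nat_lit 168) (nat_lit 1026880717) (nat_lit 252) (nat_lit 5851057509) (nat_lit 18) (nat_lit 5) (nat_lit 20) (nat_lit 5) (nat_lit 21) (nat_lit 4) (nat_lit 355) (nat_lit 273) (nat_lit 260)))) (XT.nd (nat_lit 188) (nat_lit 84) (nat_lit 0) (XT.nd (nat_lit 94) (nat_lit 168) (nat_lit 0) (XT.lf (nat_lit 0) (nat_lit 9504916526) (nat_lit 252) (nat_lit 3199181183) (nat_lit 0) (nat_lit 725170981) (nat_lit 18) (nat_lit 5) (nat_lit 21) (nat_lit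 4) (nat_lit 18) (nat_lit 4) (nat_lit 356) (nat_lit 273) (nat_lit 259)) (XT.lf (nat_lit 0) (nat_lit 527234935) (nat_lit 168) (nat_lit 11246184021) (nat_lit 168) (nat_lit 1971410080) (nat_lit 16) (nat_lit 4) (nat_lit 18) (nat_lit 5) (nat_lit 18) (nat_lit 4) (nat_lit 357) (nat_lit 273) (nat_lit 258))) (XT.nd (nat_lit 94) (nat_lit 0) (nat_lit 0) (XT.lf (nat_lit 0) (nat_lit 27054772) (nat_lit 252) (nat_lit 9699969631) (nat_lit 84) (nat_lit 4343824593) (nat_lit 15) (nat_lit 5) (nat_lit 18) (nat_lit 5) (nat_lit 16) (nat_lit 4) (nat_lit 358) (nat_lit 273) (nat_lit 257)) (XT.nd (nat_lit 94) (nat_lit 0) (nat_lit 0) (XT.lf (nat_lit 0) (nat_lit 2000056443) (nat_lit 252) (nat_lit 6158510255) (nat_lit 84) (nat_lit 6249467583) (nat_lit 15) (nat_lit 5) (nat_lit 18) (nat_lit 5) (nat_lit 16) (nat_lit 4) (nat_lit 359) (nat_lit 273) (nat_lit 256)) (XT.lf (nat_lit 0) (nat_lit 3989153496) (nat_lit 252) (nat_lit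 2570358328) (nat_lit 84) (nat_lit 8197793613) (nat_lit 15) (nat_lit 5) (nat_lit 18) (nat_lit 5) (nat_lit 16) (nat_lit 4) (nat_lit 360) (nat_lit 273) (nat_lit 255))))))) (XT.nd (nat_lit 752) (nat_lit 84) (nat_lit 0) (XT.nd (nat_lit 376) (nat_lit 252) (nat_lit 0) (XT.nd (nat_lit 188) (nat_lit 0) (nat_lit 0) (XT.nd (nat_lit 94) (nat_lit 0) (nat_lit 0) (XT.lf (nat_lit 0) (nat_lit 1089787471) (nat_lit 168) (nat_lit 4917223333) (nat_lit 252) (nat_lit 9111642082) (nat_lit 13) (nat_lit 5) (nat_lit 15) (nat_lit 5) (nat_lit 16) (nat_lit 4) (nat_lit 361) (nat_lit 273) (nat_lit 254)) (XT.lf (nat_lit 0) (nat_lit 4857311960) (nat_lit 168) (nat_lit 3213939840) (nat_lit 252) (nat_lit 7420673620) (nat_lit 13) (nat_lit 5) (nat_lit 15) (nat_lit 5) (nat_lit 16) (nat_lit 4) (nat_lit 362) (nat_lit 273) (nat_lit 253))) (XT.nd (nat_lit 94) (nat_lit 0) (nat_lit 0) (XT.lf (nat_lit 0) (nat_lit 8682875029) (nat_lit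 168) (nat_lit 1474902977) (nat_lit 252) (nat_lit 5720499666) (nat_lit 13) (nat_lit 5) (nat_lit 15) (nat_lit 5) (nat_lit 16) (nat_lit 4) (nat_lit 363) (nat_lit 273) (nat_lit 252)) (XT.lf (nat_lit 0) (nat_lit 12271525279) (nat_lit 252) (nat_lit 3711018255) (nat_lit 0) (nat_lit 295433502) (nat_lit 13) (nat_lit 5) (nat_lit 16) (nat_lit 4) (nat_lit 13) (nat_lit 4) (nat_lit 364) (nat_lit 273) (nat_lit 251)))) (XT.nd (nat_lit 188) (nat_lit 84) (nat_lit 0) (XT.nd (nat_lit 94) (nat_lit 168) (nat_lit 0) (XT.lf (nat_lit 0) (nat_lit 14426488471) (nat_lit 252) (nat_lit 190237104) (nat_lit 0) (nat_lit 2074297741) (nat_lit 13) (nat_lit 5) (nat_lit 16) (nat_lit 4) (nat_lit 13) (nat_lit 4) (nat_lit 365) (nat_lit 273) (nat_lit 250)) (XT.lf (nat_lit 0) (nat_lit 3454453302) (nat_lit 168) (nat_lit 13189860315) (nat_lit 168) (nat_lit 472879135) (nat_lit 11) (nat_lit 4) (nat_lit 13) (nat_lit 5) (nat_lit 13) (nat_lit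 4) (nat_lit 366) (nat_lit 273) (nat_lit 249))) (XT.nd (nat_lit 94) (nat_lit 0) (nat_lit 0) (XT.lf (nat_lit 0) (nat_lit 1310463061) (nat_lit 252) (nat_lit 10409252670) (nat_lit 84) (nat_lit 5837741085) (nat_lit 10) (nat_lit 5) (nat_lit 13) (nat_lit 5) (nat_lit 11) (nat_lit 4) (nat_lit 367) (nat_lit 273) (nat_lit 248)) (XT.lf (nat_lit 0) (nat_lit 3102242397) (nat_lit 252) (nat_lit 7113332125) (nat_lit 84) (nat_lit 7796971671) (nat_lit 10) (nat_lit 5) (nat_lit 13) (nat_lit 5) (nat_lit 11) (nat_lit 4) (nat_lit 368) (nat_lit 273) (nat_lit 247))))) (XT.nd (nat_lit 376) (nat_lit 0) (nat_lit 0) (XT.nd (nat_lit 188) (nat_lit 84) (nat_lit 0) (XT.nd (nat_lit 94) (nat_lit 0) (nat_lit 0) (XT.lf (nat_lit 0) (nat_lit 4913656458) (nat_lit 252) (nat_lit 3767214655) (nat_lit 84) (nat_lit 9802159384) (nat_lit 10) (nat_lit 5) (nat_lit 13) (nat_lit 5) (nat_lit 11) (nat_lit 4) (nat_lit 369) (nat_lit 273) (nat_lit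 246)) (XT.lf (nat_lit 0) (nat_lit 6746393672) (nat_lit 252) (nat_lit 367781326) (nat_lit 84) (nat_lit 11855173269) (nat_lit 10) (nat_lit 5) (nat_lit 13) (nat_lit 5) (nat_lit 11) (nat_lit 4) (nat_lit 370) (nat_lit 273) (nat_lit 245))) (XT.nd (nat_lit 94) (nat_lit 0) (nat_lit 0) (XT.lf (nat_lit 0) (nat_lit 3151634907) (nat_lit 84) (nat_lit 5481792042) (nat_lit 168) (nat_lit 10837556651) (nat_lit 9) (nat_lit 5) (nat_lit 10) (nat_lit 5) (nat_lit 11) (nat_lit 4) (nat_lit 371) (nat_lit 273) (nat_lit 244)) (XT.lf (nat_lit 0) (nat_lit 6739546917) (nat_lit 84) (nat_lit 3810002461) (nat_lit 168) (nat_lit 9439690637) (nat_lit 9) (nat_lit 5) (nat_lit 10) (nat_lit 5) (nat_lit 11) (nat_lit 4) (nat_lit 372) (nat_lit 273) (nat_lit 243)))) (XT.nd (nat_lit 188) (nat_lit 0) (nat_lit 0) (XT.nd (nat_lit 94) (nat_lit 0) (nat_lit 0) (XT.lf (nat_lit 0) (nat_lit 10391736672) (nat_lit 84) (nat_lit 2101086854) (nat_lit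 168) (nat_lit 8031892478) (nat_lit 9) (nat_lit 5) (nat_lit 10) (nat_lit 5) (nat_lit 11) (nat_lit 4) (nat_lit 373) (nat_lit 273) (nat_lit 242)) (XT.lf (nat_lit 0) (nat_lit 14111608397) (nat_lit 84) (nat_lit 353452334) (nat_lit 168) (nat_lit 6612849961) (nat_lit 9) (nat_lit 5) (nat_lit 10) (nat_lit 5) (nat_lit 11) (nat_lit 4) (nat_lit 374) (nat_lit 273) (nat_lit 241))) (XT.nd (nat_lit 52452) (nat_lit 0) (nat_lit 2184) (XT.lf (nat_lit 0) (nat_lit 16482330040) (nat_lit 168) (nat_lit 3760941026) (nat_lit 0) (nat_lit 1405627493) (nat_lit 9) (nat_lit 5) (nat_lit 11) (nat_lit 4) (nat_lit 9) (nat_lit 4) (nat_lit 375) (nat_lit 273) (nat_lit 240)) (XT.nd (nat_lit 94) (nat_lit 0) (nat_lit 0) (XT.lf (nat_lit 0) (nat_lit 839157801) (nat_lit 336) (nat_lit 1995065998) (nat_lit 336) (nat_lit 1995065998) (nat_lit 35) (nat_lit 4) (nat_lit 39) (nat_lit 5) (nat_lit 39) (nat_lit 4) (nat_lit 340) (nat_lit 274)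 (nat_lit 274)) (XT.lf (nat_lit 0) (nat_lit 5745140026) (nat_lit 336) (nat_lit 2473485406) (nat_lit 336) (nat_lit 1615882809) (nat_lit 35) (nat_lit 4) (nat_lit 39) (nat_lit 5) (nat_lit 39) (nat_lit 4) (nat_lit 341) (nat_lit 274) (nat_lit 273))))))))
noncomputable def xc9 : XT := (XT.nd (nat_lit 1598) (nat_lit 504) (nat_lit 0) (XT.nd (nat_lit 752) (nat_lit 756) (nat_lit 0) (XT.nd (nat_lit 376) (nat_lit 336) (nat_lit 0) (XT.nd (nat_lit 188) (nat_lit 252) (nat_lit 0) (XT.nd (nat_lit 94) (nat_lit 252) (nat_lit 0) (XT.lf (nat_lit 0) (nat_lit 749112285) (nat_lit 420) (nat_lit 167971837) (nat_lit 84) (nat_lit 9101034251) (nat_lit 34) (nat_lit 5) (nat_lit 39) (nat_lit 5) (nat_lit 35) (nat_lit 4) (nat_lit 342) (nat_lit 274) (nat_lit 272)) (XT.lf (nat_lit 0) (nat_lit 3135239224) (nat_lit 336) (nat_lit 6358596369) (nat_lit 0) (nat_lit 714071216) (nat_lit 31) (nat_lit 5) (nat_lit 35) (nat_lit 4) (nat_lit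 31) (nat_lit 4) (nat_lit 343) (nat_lit 274) (nat_lit 271))) (XT.nd (nat_lit 94) (nat_lit 252) (nat_lit 0) (XT.lf (nat_lit 0) (nat_lit 5543373382) (nat_lit 336) (nat_lit 2499036547) (nat_lit 0) (nat_lit 2363188508) (nat_lit 31) (nat_lit 5) (nat_lit 35) (nat_lit 4) (nat_lit 31) (nat_lit 4) (nat_lit 344) (nat_lit 274) (nat_lit 270)) (XT.lf (nat_lit 0) (nat_lit 1430618970) (nat_lit 252) (nat_lit 6548516794) (nat_lit 252) (nat_lit 2632137093) (nat_lit 28) (nat_lit 4) (nat_lit 31) (nat_lit 5) (nat_lit 31) (nat_lit 4) (nat_lit 345) (nat_lit 274) (nat_lit 269)))) (XT.nd (nat_lit 188) (nat_lit 252) (nat_lit 0) (XT.nd (nat_lit 94) (nat_lit 84) (nat_lit 0) (XT.lf (nat_lit 0) (nat_lit 5457491100) (nat_lit 252) (nat_lit 4998855664) (nat_lit 252) (nat_lit 368416966) (nat_lit 28) (nat_lit 4) (nat_lit 31) (nat_lit 5) (nat_lit 31) (nat_lit 4) (nat_lit 346) (nat_lit 274) (nat_lit 268)) (XT.lf (nat_lit 0)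 (nat_lit 1866579825) (nat_lit 336) (nat_lit 1532003819) (nat_lit 84) (nat_lit 7647884901) (nat_lit 27) (nat_lit 5) (nat_lit 31) (nat_lit 5) (nat_lit 28) (nat_lit 4) (nat_lit 347) (nat_lit 274) (nat_lit 267))) (XT.nd (nat_lit 94) (nat_lit 0) (nat_lit 0) (XT.lf (nat_lit 0) (nat_lit 2392065703) (nat_lit 252) (nat_lit 1737356851) (nat_lit 336) (nat_lit 7146905232) (nat_lit 24) (nat_lit 5) (nat_lit 27) (nat_lit 5) (nat_lit 28) (nat_lit 4) (nat_lit 348) (nat_lit 274) (nat_lit 266)) (XT.lf (nat_lit 0) (nat_lit 6396494123) (nat_lit 252) (nat_lit 25392216) (nat_lit 336) (nat_lit 5093023126) (nat_lit 24) (nat_lit 5) (nat_lit 27) (nat_lit 5) (nat_lit 28) (nat_lit 4) (nat_lit 349) (nat_lit 274) (nat_lit 265))))) (XT.nd (nat_lit 376) (nat_lit 420) (nat_lit 0) (XT.nd (nat_lit 188) (nat_lit 84) (nat_lit 0) (XT.nd (nat_lit 94) (nat_lit 252) (nat_lit 0) (XT.lf (nat_lit 0) (nat_lit 8747689367) (nat_lit 336)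 (nat_lit 1326495465) (nat_lit 0) (nat_lit 1688202113) (nat_lit 24) (nat_lit 5) (nat_lit 28) (nat_lit 4) (nat_lit 24) (nat_lit 4) (nat_lit 350) (nat_lit 274) (nat_lit 264)) (XT.lf (nat_lit 0) (nat_lit 2563152707) (nat_lit 252) (nat_lit 8554794732) (nat_lit 252) (nat_lit 900766074) (nat_lit 21) (nat_lit 4) (nat_lit 24) (nat_lit 5) (nat_lit 24) (nat_lit 4) (nat_lit 351) (nat_lit 274) (nat_lit 263))) (XT.nd (nat_lit 94) (nat_lit 0) (nat_lit 0) (XT.lf (nat_lit 0) (nat_lit 1213654320) (nat_lit 336) (nat_lit 5765761528) (nat_lit 84) (nat_lit 5304696137) (nat_lit 20) (nat_lit 5) (nat_lit 24) (nat_lit 5) (nat_lit 21) (nat_lit 4) (nat_lit 352) (nat_lit 274) (nat_lit 262)) (XT.lf (nat_lit 0) (nat_lit 3323244774) (nat_lit 336) (nat_lit 2040509015) (nat_lit 84) (nat_lit 7195592334) (nat_lit 20) (nat_lit 5) (nat_lit 24) (nat_lit 5) (nat_lit 21) (nat_lit 4) (nat_lit 353) (nat_lit 274) (nat_lit 261))))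 (XT.nd (nat_lit 188) (nat_lit 252) (nat_lit 0) (XT.nd (nat_lit 94) (nat_lit 0) (nat_lit 0) (XT.lf (nat_lit 0) (nat_lit 1768230675) (nat_lit 168) (nat_lit 3697430465) (nat_lit 252) (nat_lit 7378744568) (nat_lit 18) (nat_lit 5) (nat_lit 20) (nat_lit 5) (nat_lit 21) (nat_lit 4) (nat_lit 354) (nat_lit 274) (nat_lit 260)) (XT.lf (nat_lit 0) (nat_lit 5671362066) (nat_lit 168) (nat_lit 1975159375) (nat_lit 252) (nat_lit 5492922756) (nat_lit 18) (nat_lit 5) (nat_lit 20) (nat_lit 5) (nat_lit 21) (nat_lit 4) (nat_lit 355) (nat_lit 274) (nat_lit 259))) (XT.nd (nat_lit 94) (nat_lit 252) (nat_lit 0) (XT.lf (nat_lit 0) (nat_lit 9630566233) (nat_lit 168) (nat_lit 216633911) (nat_lit 252) (nat_lit 3598176858) (nat_lit 18) (nat_lit 5) (nat_lit 20) (nat_lit 5) (nat_lit 21) (nat_lit 4) (nat_lit 356) (nat_lit 274) (nat_lit 258)) (XT.nd (nat_lit 94) (nat_lit 252) (nat_lit 0) (XT.lf (nat_lit 0) (nat_lit 12085420174)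 (nat_lit 252) (nat_lit 128627377) (nat_lit 0) (nat_lit 1547955909) (nat_lit 18) (nat_lit 5) (nat_lit 21) (nat_lit 4) (nat_lit 18) (nat_lit 4) (nat_lit 357) (nat_lit 274) (nat_lit 257)) (XT.lf (nat_lit 0) (nat_lit 291748128) (nat_lit 252) (nat_lit 10410630831) (nat_lit 84) (nat_lit 3386423605) (nat_lit 15) (nat_lit 5) (nat_lit 18) (nat_lit 5) (nat_lit 16) (nat_lit 4) (nat_lit 358) (nat_lit 274) (nat_lit 256))))))) (XT.nd (nat_lit 752) (nat_lit 168) (nat_lit 0) (XT.nd (nat_lit 376) (nat_lit 168) (nat_lit 0) (XT.nd (nat_lit 188) (nat_lit 168) (nat_lit 0) (XT.nd (nat_lit 94) (nat_lit 0) (nat_lit 0) (XT.lf (nat_lit 0) (nat_lit 2242559908) (nat_lit 252) (nat_lit 6900236295) (nat_lit 84) (nat_lit 5283995747) (nat_lit 15) (nat_lit 5) (nat_lit 18) (nat_lit 5) (nat_lit 16) (nat_lit 4) (nat_lit 359) (nat_lit 274) (nat_lit 255)) (XT.lf (nat_lit 0) (nat_lit 4210134272) (nat_lit 252) (nat_lit 3342215154)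 (nat_lit 84) (nat_lit 7224493602) (nat_lit 15) (nat_lit 5) (nat_lit 18) (nat_lit 5) (nat_lit 16) (nat_lit 4) (nat_lit 360) (nat_lit 274) (nat_lit 254))) (XT.nd (nat_lit 94) (nat_lit 0) (nat_lit 0) (XT.lf (nat_lit 0) (nat_lit 272233946) (nat_lit 168) (nat_lit 5926771855) (nat_lit 252) (nat_lit 8940192565) (nat_lit 13) (nat_lit 5) (nat_lit 15) (nat_lit 5) (nat_lit 16) (nat_lit 4) (nat_lit 361) (nat_lit 274) (nat_lit 253)) (XT.lf (nat_lit 0) (nat_lit 4010829495) (nat_lit 168) (nat_lit 4231882462) (nat_lit 252) (nat_lit 7270501567) (nat_lit 13) (nat_lit 5) (nat_lit 15) (nat_lit 5) (nat_lit 16) (nat_lit 4) (nat_lit 362) (nat_lit 274) (nat_lit 252)))) (XT.nd (nat_lit 188) (nat_lit 168) (nat_lit 0) (XT.nd (nat_lit 94) (nat_lit 0) (nat_lit 0) (XT.lf (nat_lit 0) (nat_lit 7808333454) (nat_lit 168) (nat_lit 2500987306) (nat_lit 252) (nat_lit 5590965308) (nat_lit 13) (nat_lit 5) (nat_lit 15) (nat_lit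 5) (nat_lit 16) (nat_lit 4) (nat_lit 363) (nat_lit 274) (nat_lit 251)) (XT.lf (nat_lit 0) (nat_lit 11668285496) (nat_lit 168) (nat_lit 732473010) (nat_lit 252) (nat_lit 3900018284) (nat_lit 13) (nat_lit 5) (nat_lit 15) (nat_lit 5) (nat_lit 16) (nat_lit 4) (nat_lit 364) (nat_lit 274) (nat_lit 250))) (XT.nd (nat_lit 94) (nat_lit 168) (nat_lit 0) (XT.lf (nat_lit 0) (nat_lit 14529641833) (nat_lit 252) (nat_lit 1131442687) (nat_lit 0) (nat_lit 1053643787) (nat_lit 13) (nat_lit 5) (nat_lit 16) (nat_lit 4) (nat_lit 13) (nat_lit 4) (nat_lit 365) (nat_lit 274) (nat_lit 249)) (XT.lf (nat_lit 0) (nat_lit 2467169173) (nat_lit 168) (nat_lit 14252255868) (nat_lit 168) (nat_lit 422435854) (nat_lit 11) (nat_lit 4) (nat_lit 13) (nat_lit 5) (nat_lit 13) (nat_lit 4) (nat_lit 366) (nat_lit 274) (nat_lit 248))))) (XT.nd (nat_lit 376) (nat_lit 84) (nat_lit 0) (XT.nd (nat_lit 188) (nat_lit 0) (nat_lit 0) (XT.nd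 (nat_lit 94) (nat_lit 0) (nat_lit 0) (XT.lf (nat_lit 0) (nat_lit 1341660747) (nat_lit 252) (nat_lit 11448090321) (nat_lit 84) (nat_lit 4793011779) (nat_lit 10) (nat_lit 5) (nat_lit 13) (nat_lit 5) (nat_lit 11) (nat_lit 4) (nat_lit 367) (nat_lit 274) (nat_lit 247)) (XT.lf (nat_lit 0) (nat_lit 3115758924) (nat_lit 252) (nat_lit 8177761412) (nat_lit 84) (nat_lit 6744965644) (nat_lit 10) (nat_lit 5) (nat_lit 13) (nat_lit 5) (nat_lit 11) (nat_lit 4) (nat_lit 368) (nat_lit 274) (nat_lit 246))) (XT.nd (nat_lit 94) (nat_lit 0) (nat_lit 0) (XT.lf (nat_lit 0) (nat_lit 4910023461) (nat_lit 252) (nat_lit 4856466090) (nat_lit 84) (nat_lit 8743095431) (nat_lit 10) (nat_lit 5) (nat_lit 13) (nat_lit 5) (nat_lit 11) (nat_lit 4) (nat_lit 369) (nat_lit 274) (nat_lit 245)) (XT.lf (nat_lit 0) (nat_lit 6726126802) (nat_lit 252) (nat_lit 1481108560) (nat_lit 84) (nat_lit 10789263607) (nat_lit 10) (nat_lit 5)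 (nat_lit 13) (nat_lit 5) (nat_lit 11) (nat_lit 4) (nat_lit 370) (nat_lit 274) (nat_lit 244)))) (XT.nd (nat_lit 188) (nat_lit 0) (nat_lit 0) (XT.nd (nat_lit 94) (nat_lit 0) (nat_lit 0) (XT.lf (nat_lit 0) (nat_lit 1991583329) (nat_lit 84) (nat_lit 6593935166) (nat_lit 168) (nat_lit 10913550839) (nat_lit 9) (nat_lit 5) (nat_lit 10) (nat_lit 5) (nat_lit 11) (nat_lit 4) (nat_lit 371) (nat_lit 274) (nat_lit 243)) (XT.lf (nat_lit 0) (nat_lit 5556379866) (nat_lit 84) (nat_lit 4929383129) (nat_lit 168) (nat_lit 9532130764) (nat_lit 9) (nat_lit 5) (nat_lit 10) (nat_lit 5) (nat_lit 11) (nat_lit 4) (nat_lit 372) (nat_lit 274) (nat_lit 242))) (XT.nd (nat_lit 94) (nat_lit 0) (nat_lit 0) (XT.lf (nat_lit 0) (nat_lit 9186149181) (nat_lit 84) (nat_lit 3227487449) (nat_lit 168) (nat_lit 8140284050) (nat_lit 9) (nat_lit 5) (nat_lit 10) (nat_lit 5) (nat_lit 11) (nat_lit 4) (nat_lit 373) (nat_lit 274) (nat_lit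 241)) (XT.nd (nat_lit 94) (nat_lit 0) (nat_lit 0) (XT.lf (nat_lit 0) (nat_lit 12884274602) (nat_lit 84) (nat_lit 1486661780) (nat_lit 168) (nat_lit 6736713351) (nat_lit 9) (nat_lit 5) (nat_lit 10) (nat_lit 5) (nat_lit 11) (nat_lit 4) (nat_lit 374) (nat_lit 274) (nat_lit 240)) (XT.lf (nat_lit 0) (nat_lit 16362410285) (nat_lit 168) (nat_lit 5028317507) (nat_lit 0) (nat_lit 288778627) (nat_lit 9) (nat_lit 5) (nat_lit 11) (nat_lit 4) (nat_lit 9) (nat_lit 4) (nat_lit 375) (nat_lit 274) (nat_lit 239))))))))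
noncomputable def xc10 : XT := (XT.nd (nat_lit 1598) (nat_lit 756) (nat_lit 0) (XT.nd (nat_lit 752) (nat_lit 840) (nat_lit 0) (XT.nd (nat_lit 376) (nat_lit 588) (nat_lit 0) (XT.nd (nat_lit 188) (nat_lit 336) (nat_lit 0) (XT.nd (nat_lit 94) (nat_lit 0) (nat_lit 0) (XT.lf (nat_lit 0) (nat_lit 790698447) (nat_lit 420) (nat_lit 3081903070) (nat_lit 0) (nat_lit 790698447) (nat_lit 39) (nat_lit 5) (nat_lit 44) (nat_lit 4) (nat_lit 39) (nat_lit 4) (nat_lit 338) (nat_lit 275) (nat_lit 275)) (XT.lf (nat_lit 0) (nat_lit 4037422365) (nat_lit 420) (nat_lit 2299025564) (nat_lit 0) (nat_lit 3153234088) (nat_lit 39) (nat_lit 5) (nat_lit 44) (nat_lit 4) (nat_lit 39) (nat_lit 4) (nat_lit 339) (nat_lit 275) (nat_lit 274))) (XT.nd (nat_lit 94) (nat_lit 0) (nat_lit 0) (XT.lf (nat_lit 0) (nat_lit 1637669392) (nat_lit 336) (nat_lit 4881975639) (nat_lit 336) (nat_lit 3140184764) (nat_lit 35) (nat_lit 4) (nat_lit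 39) (nat_lit 5) (nat_lit 39) (nat_lit 4) (nat_lit 340) (nat_lit 275) (nat_lit 273)) (XT.lf (nat_lit 0) (nat_lit 5665069751) (nat_lit 336) (nat_lit 3372754231) (nat_lit 336) (nat_lit 799147064) (nat_lit 35) (nat_lit 4) (nat_lit 39) (nat_lit 5) (nat_lit 39) (nat_lit 4) (nat_lit 341) (nat_lit 275) (nat_lit 272)))) (XT.nd (nat_lit 188) (nat_lit 252) (nat_lit 0) (XT.nd (nat_lit 94) (nat_lit 252) (nat_lit 0) (XT.lf (nat_lit 0) (nat_lit 1517828754) (nat_lit 420) (nat_lit 297702293) (nat_lit 84) (nat_lit 8205985019) (nat_lit 34) (nat_lit 5) (nat_lit 39) (nat_lit 5) (nat_lit 35) (nat_lit 4) (nat_lit 342) (nat_lit 275) (nat_lit 271)) (XT.lf (nat_lit 0) (nat_lit 3685666447) (nat_lit 252) (nat_lit 178747796) (nat_lit 336) (nat_lit 6348317376) (nat_lit 31) (nat_lit 5) (nat_lit 34) (nat_lit 5) (nat_lit 35) (nat_lit 4) (nat_lit 343) (nat_lit 275) (nat_lit 270))) (XT.nd (nat_lit 94) (nat_lit 252) (nat_lit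 0) (XT.lf (nat_lit 0) (nat_lit 6240634457) (nat_lit 336) (nat_lit 2704321241) (nat_lit 0) (nat_lit 1466652159) (nat_lit 31) (nat_lit 5) (nat_lit 35) (nat_lit 4) (nat_lit 31) (nat_lit 4) (nat_lit 344) (nat_lit 275) (nat_lit 269)) (XT.lf (nat_lit 0) (nat_lit 1182914792) (nat_lit 252) (nat_lit 7461790316) (nat_lit 252) (nat_lit 1973749020) (nat_lit 28) (nat_lit 4) (nat_lit 31) (nat_lit 5) (nat_lit 31) (nat_lit 4) (nat_lit 345) (nat_lit 275) (nat_lit 268))))) (XT.nd (nat_lit 376) (nat_lit 504) (nat_lit 0) (XT.nd (nat_lit 188) (nat_lit 252) (nat_lit 0) (XT.nd (nat_lit 94) (nat_lit 0) (nat_lit 0) (XT.lf (nat_lit 0) (nat_lit 254932060) (nat_lit 336) (nat_lit 5662863026) (nat_lit 84) (nat_lit 4915144028) (nat_lit 27) (nat_lit 5) (nat_lit 31) (nat_lit 5) (nat_lit 28) (nat_lit 4) (nat_lit 346) (nat_lit 275) (nat_lit 267)) (XT.lf (nat_lit 0) (nat_lit 2454187182) (nat_lit 336) (nat_lit 1867939934)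 (nat_lit 84) (nat_lit 6733454232) (nat_lit 27) (nat_lit 5) (nat_lit 31) (nat_lit 5) (nat_lit 28) (nat_lit 4) (nat_lit 347) (nat_lit 275) (nat_lit 266))) (XT.nd (nat_lit 94) (nat_lit 0) (nat_lit 0) (XT.lf (nat_lit 0) (nat_lit 2012902538) (nat_lit 252) (nat_lit 2672898628) (nat_lit 336) (nat_lit 6600775148) (nat_lit 24) (nat_lit 5) (nat_lit 27) (nat_lit 5) (nat_lit 28) (nat_lit 4) (nat_lit 348) (nat_lit 275) (nat_lit 265)) (XT.lf (nat_lit 0) (nat_lit 5982103495) (nat_lit 252) (nat_lit 969170483) (nat_lit 336) (nat_lit 4574883328) (nat_lit 24) (nat_lit 5) (nat_lit 27) (nat_lit 5) (nat_lit 28) (nat_lit 4) (nat_lit 349) (nat_lit 275) (nat_lit 264)))) (XT.nd (nat_lit 188) (nat_lit 252) (nat_lit 0) (XT.nd (nat_lit 94) (nat_lit 252) (nat_lit 0) (XT.lf (nat_lit 0) (nat_lit 9241455946) (nat_lit 336) (nat_lit 1777829800) (nat_lit 0) (nat_lit 755610996) (nat_lit 24) (nat_lit 5) (nat_lit 28) (nat_lit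 4) (nat_lit 24) (nat_lit 4) (nat_lit 350) (nat_lit 275) (nat_lit 263)) (XT.lf (nat_lit 0) (nat_lit 2067834683) (nat_lit 252) (nat_lit 9513496600) (nat_lit 252) (nat_lit 450986855) (nat_lit 21) (nat_lit 4) (nat_lit 24) (nat_lit 5) (nat_lit 24) (nat_lit 4) (nat_lit 351) (nat_lit 275) (nat_lit 262))) (XT.nd (nat_lit 94) (nat_lit 168) (nat_lit 0) (XT.lf (nat_lit 0) (nat_lit 1628932818) (nat_lit 336) (nat_lit 6313472889) (nat_lit 84) (nat_lit 4356105086) (nat_lit 20) (nat_lit 5) (nat_lit 24) (nat_lit 5) (nat_lit 21) (nat_lit 4) (nat_lit 352) (nat_lit 275) (nat_lit 261)) (XT.nd (nat_lit 94) (nat_lit 168) (nat_lit 0) (XT.lf (nat_lit 0) (nat_lit 3713849486) (nat_lit 336) (nat_lit 2621515087) (nat_lit 84) (nat_lit 6239284820) (nat_lit 20) (nat_lit 5) (nat_lit 24) (nat_lit 5) (nat_lit 21) (nat_lit 4) (nat_lit 353) (nat_lit 275) (nat_lit 260)) (XT.lf (nat_lit 0) (nat_lit 1142320295) (nat_lit 168)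 (nat_lit 4683804554) (nat_lit 252) (nat_lit 7034653881) (nat_lit 18) (nat_lit 5) (nat_lit 20) (nat_lit 5) (nat_lit 21) (nat_lit 4) (nat_lit 354) (nat_lit 275) (nat_lit 259))))))) (XT.nd (nat_lit 752) (nat_lit 336) (nat_lit 0) (XT.nd (nat_lit 376) (nat_lit 168) (nat_lit 0) (XT.nd (nat_lit 188) (nat_lit 252) (nat_lit 0) (XT.nd (nat_lit 94) (nat_lit 0) (nat_lit 0) (XT.lf (nat_lit 0) (nat_lit 5013485020) (nat_lit 168) (nat_lit 2969970701) (nat_lit 252) (nat_lit 5173222216) (nat_lit 18) (nat_lit 5) (nat_lit 20) (nat_lit 5) (nat_lit 21) (nat_lit 4) (nat_lit 355) (nat_lit 275) (nat_lit 258)) (XT.lf (nat_lit 0) (nat_lit 8941683693) (nat_lit 168) (nat_lit 1219628784) (nat_lit 252) (nat_lit 3302133106) (nat_lit 18) (nat_lit 5) (nat_lit 20) (nat_lit 5) (nat_lit 21) (nat_lit 4) (nat_lit 356) (nat_lit 275) (nat_lit 257))) (XT.nd (nat_lit 94) (nat_lit 252) (nat_lit 0) (XT.lf (nat_lit 0) (nat_lit 12367368194)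 (nat_lit 252) (nat_lit 856432887) (nat_lit 0) (nat_lit 557391585) (nat_lit 18) (nat_lit 5) (nat_lit 21) (nat_lit 4) (nat_lit 18) (nat_lit 4) (nat_lit 357) (nat_lit 275) (nat_lit 256)) (XT.lf (nat_lit 0) (nat_lit 519579308) (nat_lit 252) (nat_lit 11206415219) (nat_lit 84) (nat_lit 2382951294) (nat_lit 15) (nat_lit 5) (nat_lit 18) (nat_lit 5) (nat_lit 16) (nat_lit 4) (nat_lit 358) (nat_lit 275) (nat_lit 255)))) (XT.nd (nat_lit 188) (nat_lit 168) (nat_lit 0) (XT.nd (nat_lit 94) (nat_lit 0) (nat_lit 0) (XT.lf (nat_lit 0) (nat_lit 2448868399) (nat_lit 252) (nat_lit 7726151469) (nat_lit 84) (nat_lit 4272695261) (nat_lit 15) (nat_lit 5) (nat_lit 18) (nat_lit 5) (nat_lit 16) (nat_lit 4) (nat_lit 359) (nat_lit 275) (nat_lit 254)) (XT.lf (nat_lit 0) (nat_lit 4395567217) (nat_lit 252) (nat_lit 4197355144) (nat_lit 84) (nat_lit 6205600317) (nat_lit 15) (nat_lit 5) (nat_lit 18) (nat_lit 5) (nat_lit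 16) (nat_lit 4) (nat_lit 360) (nat_lit 275) (nat_lit 253))) (XT.nd (nat_lit 94) (nat_lit 168) (nat_lit 0) (XT.lf (nat_lit 0) (nat_lit 6361490290) (nat_lit 252) (nat_lit 616737038) (nat_lit 84) (nat_lit 8183468134) (nat_lit 15) (nat_lit 5) (nat_lit 18) (nat_lit 5) (nat_lit 16) (nat_lit 4) (nat_lit 361) (nat_lit 275) (nat_lit 252)) (XT.lf (nat_lit 0) (nat_lit 3081118021) (nat_lit 168) (nat_lit 5297917113) (nat_lit 252) (nat_lit 7157589340) (nat_lit 13) (nat_lit 5) (nat_lit 15) (nat_lit 5) (nat_lit 16) (nat_lit 4) (nat_lit 362) (nat_lit 275) (nat_lit 251))))) (XT.nd (nat_lit 376) (nat_lit 168) (nat_lit 0) (XT.nd (nat_lit 188) (nat_lit 168) (nat_lit 0) (XT.nd (nat_lit 94) (nat_lit 0) (nat_lit 0) (XT.lf (nat_lit 0) (nat_lit 6851406550) (nat_lit 168) (nat_lit 3574918860) (nat_lit 252) (nat_lit 5498070244) (nat_lit 13) (nat_lit 5) (nat_lit 15) (nat_lit 5) (nat_lit 16) (nat_lit 4) (nat_lit 363)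 (nat_lit 275) (nat_lit 250)) (XT.lf (nat_lit 0) (nat_lit 10684961472) (nat_lit 168) (nat_lit 1814064024) (nat_lit 252) (nat_lit 3826538510) (nat_lit 13) (nat_lit 5) (nat_lit 15) (nat_lit 5) (nat_lit 16) (nat_lit 4) (nat_lit 364) (nat_lit 275) (nat_lit 249))) (XT.nd (nat_lit 94) (nat_lit 168) (nat_lit 0) (XT.lf (nat_lit 0) (nat_lit 14585356062) (nat_lit 168) (nat_lit 13711305) (nat_lit 252) (nat_lit 2141436093) (nat_lit 13) (nat_lit 5) (nat_lit 15) (nat_lit 5) (nat_lit 16) (nat_lit 4) (nat_lit 365) (nat_lit 275) (nat_lit 248)) (XT.lf (nat_lit 0) (nat_lit 1396631957) (nat_lit 168) (nat_lit 15363763461) (nat_lit 168) (nat_lit 408213771) (nat_lit 11) (nat_lit 4) (nat_lit 13) (nat_lit 5) (nat_lit 13) (nat_lit 4) (nat_lit 366) (nat_lit 275) (nat_lit 247)))) (XT.nd (nat_lit 188) (nat_lit 84) (nat_lit 0) (XT.nd (nat_lit 94) (nat_lit 0) (nat_lit 0) (XT.lf (nat_lit 0) (nat_lit 1337915128) (nat_lit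 252) (nat_lit 12571108551) (nat_lit 84) (nat_lit 3701116844) (nat_lit 10) (nat_lit 5) (nat_lit 13) (nat_lit 5) (nat_lit 11) (nat_lit 4) (nat_lit 367) (nat_lit 275) (nat_lit 246)) (XT.lf (nat_lit 0) (nat_lit 3094863781) (nat_lit 252) (nat_lit 9325601790) (nat_lit 84) (nat_lit 5646012783) (nat_lit 10) (nat_lit 5) (nat_lit 13) (nat_lit 5) (nat_lit 11) (nat_lit 4) (nat_lit 368) (nat_lit 275) (nat_lit 245))) (XT.nd (nat_lit 94) (nat_lit 84) (nat_lit 0) (XT.lf (nat_lit 0) (nat_lit 4872494444) (nat_lit 252) (nat_lit 6028382267) (nat_lit 84) (nat_lit 7637296861) (nat_lit 10) (nat_lit 5) (nat_lit 13) (nat_lit 5) (nat_lit 11) (nat_lit 4) (nat_lit 369) (nat_lit 275) (nat_lit 244)) (XT.nd (nat_lit 94) (nat_lit 84) (nat_lit 0) (XT.lf (nat_lit 0) (nat_lit 6672464056) (nat_lit 252) (nat_lit 2676376627) (nat_lit 84) (nat_lit 9676825165) (nat_lit 10) (nat_lit 5) (nat_lit 13) (nat_lit 5) (nat_lit 11) (nat_lit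 4) (nat_lit 370) (nat_lit 275) (nat_lit 243)) (XT.lf (nat_lit 0) (nat_lit 748622627) (nat_lit 84) (nat_lit 7755254179) (nat_lit 168) (nat_lit 11025302550) (nat_lit 9) (nat_lit 5) (nat_lit 10) (nat_lit 5) (nat_lit 11) (nat_lit 4) (nat_lit 371) (nat_lit 275) (nat_lit 242))))))))
noncomputable def xc11 : XT := (XT.nd (nat_lit 53580) (nat_lit 0) (nat_lit 168) (XT.nd (nat_lit 52734) (nat_lit 0) (nat_lit 1260) (XT.nd (nat_lit 52358) (nat_lit 0) (nat_lit 2520) (XT.nd (nat_lit 188) (nat_lit 0) (nat_lit 0) (XT.nd (nat_lit 94) (nat_lit 0) (nat_lit 0) (XT.lf (nat_lit 0) (nat_lit 4290998723) (nat_lit 84) (nat_lit 6097722068) (nat_lit 168) (nat_lit 9659833919) (nat_lit 9) (nat_lit 5) (nat_lit 10) (nat_lit 5) (nat_lit 11) (nat_lit 4) (nat_lit 372) (nat_lit 275) (nat_lit 241)) (XT.lf (nat_lit 0) (nat_lit 7899021735) (nat_lit 84) (nat_lit 4402635239) (nat_lit 168) (nat_lit 8283459023) (nat_lit 9) (nat_lit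 5) (nat_lit 10) (nat_lit 5) (nat_lit 11) (nat_lit 4) (nat_lit 373) (nat_lit 275) (nat_lit 240))) (XT.nd (nat_lit 94) (nat_lit 0) (nat_lit 0) (XT.lf (nat_lit 0) (nat_lit 11576054717) (nat_lit 84) (nat_lit 2668413694) (nat_lit 168) (nat_lit 6894894937) (nat_lit 9) (nat_lit 5) (nat_lit 10) (nat_lit 5) (nat_lit 11) (nat_lit 4) (nat_lit 374) (nat_lit 275) (nat_lit 239)) (XT.lf (nat_lit 0) (nat_lit 15325525050) (nat_lit 84) (nat_lit 893440957) (nat_lit 168) (nat_lit 5492847373) (nat_lit 9) (nat_lit 5) (nat_lit 10) (nat_lit 5) (nat_lit 11) (nat_lit 4) (nat_lit 375) (nat_lit 275) (nat_lit 238)))) (XT.nd (nat_lit 188) (nat_lit 336) (nat_lit 0) (XT.nd (nat_lit 94) (nat_lit 84) (nat_lit 0) (XT.lf (nat_lit 0) (nat_lit 2169369984) (nat_lit 420) (nat_lit 1169891050) (nat_lit 420) (nat_lit 1169891050) (nat_lit 44) (nat_lit 4) (nat_lit 49) (nat_lit 5) (nat_lit 49) (nat_lit 4) (nat_lit 336) (nat_lit 276)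 (nat_lit 276)) (XT.lf (nat_lit 0) (nat_lit 61656270) (nat_lit 504) (nat_lit 814633771) (nat_lit 84) (nat_lit 8294117336) (nat_lit 43) (nat_lit 5) (nat_lit 49) (nat_lit 5) (nat_lit 44) (nat_lit 4) (nat_lit 337) (nat_lit 276) (nat_lit 275))) (XT.nd (nat_lit 94) (nat_lit 0) (nat_lit 0) (XT.lf (nat_lit 0) (nat_lit 2459397162) (nat_lit 420) (nat_lit 6204868065) (nat_lit 0) (nat_lit 663610770) (nat_lit 39) (nat_lit 5) (nat_lit 44) (nat_lit 4) (nat_lit 39) (nat_lit 4) (nat_lit 338) (nat_lit 276) (nat_lit 274)) (XT.lf (nat_lit 0) (nat_lit 4882835002) (nat_lit 420) (nat_lit 2379914769) (nat_lit 0) (nat_lit 2229446012) (nat_lit 39) (nat_lit 5) (nat_lit 44) (nat_lit 4) (nat_lit 39) (nat_lit 4) (nat_lit 339) (nat_lit 276) (nat_lit 273))))) (XT.nd (nat_lit 376) (nat_lit 588) (nat_lit 0) (XT.nd (nat_lit 188) (nat_lit 336) (nat_lit 0) (XT.nd (nat_lit 94) (nat_lit 0) (nat_lit 0) (XT.lf (nat_lit 0) (nat_lit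 1515692874) (nat_lit 336) (nat_lit 5816546980) (nat_lit 336) (nat_lit 2331341699) (nat_lit 35) (nat_lit 4) (nat_lit 39) (nat_lit 5) (nat_lit 39) (nat_lit 4) (nat_lit 340) (nat_lit 276) (nat_lit 272)) (XT.lf (nat_lit 0) (nat_lit 5504854569) (nat_lit 336) (nat_lit 4314527497) (nat_lit 336) (nat_lit 22516888) (nat_lit 35) (nat_lit 4) (nat_lit 39) (nat_lit 5) (nat_lit 39) (nat_lit 4) (nat_lit 341) (nat_lit 276) (nat_lit 271))) (XT.nd (nat_lit 94) (nat_lit 252) (nat_lit 0) (XT.lf (nat_lit 0) (nat_lit 2248196751) (nat_lit 420) (nat_lit 508469395) (nat_lit 84) (nat_lit 7270689386) (nat_lit 34) (nat_lit 5) (nat_lit 39) (nat_lit 5) (nat_lit 35) (nat_lit 4) (nat_lit 342) (nat_lit 276) (nat_lit 270)) (XT.lf (nat_lit 0) (nat_lit 3433029700) (nat_lit 252) (nat_lit 1129552064) (nat_lit 336) (nat_lit 5657182815) (nat_lit 31) (nat_lit 5) (nat_lit 34) (nat_lit 5) (nat_lit 35) (nat_lit 4) (nat_lit 343) (nat_lit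 276) (nat_lit 269)))) (XT.nd (nat_lit 188) (nat_lit 336) (nat_lit 0) (XT.nd (nat_lit 94) (nat_lit 252) (nat_lit 0) (XT.lf (nat_lit 0) (nat_lit 6900135406) (nat_lit 336) (nat_lit 2991987648) (nat_lit 0) (nat_lit 527905833) (nat_lit 31) (nat_lit 5) (nat_lit 35) (nat_lit 4) (nat_lit 31) (nat_lit 4) (nat_lit 344) (nat_lit 276) (nat_lit 268)) (XT.lf (nat_lit 0) (nat_lit 852283509) (nat_lit 252) (nat_lit 8420287187) (nat_lit 252) (nat_lit 1355468868) (nat_lit 28) (nat_lit 4) (nat_lit 31) (nat_lit 5) (nat_lit 31) (nat_lit 4) (nat_lit 345) (nat_lit 276) (nat_lit 267))) (XT.nd (nat_lit 94) (nat_lit 252) (nat_lit 0) (XT.lf (nat_lit 0) (nat_lit 832436357) (nat_lit 336) (nat_lit 6045904138) (nat_lit 84) (nat_lit 3965044636) (nat_lit 27) (nat_lit 5) (nat_lit 31) (nat_lit 5) (nat_lit 28) (nat_lit 4) (nat_lit 346) (nat_lit 276) (nat_lit 266)) (XT.nd (nat_lit 94) (nat_lit 252) (nat_lit 0) (XT.lf (nat_lit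 0) (nat_lit 3004224079) (nat_lit 336) (nat_lit 2286568804) (nat_lit 84) (nat_lit 5776253604) (nat_lit 27) (nat_lit 5) (nat_lit 31) (nat_lit 5) (nat_lit 28) (nat_lit 4) (nat_lit 347) (nat_lit 276) (nat_lit 265)) (XT.lf (nat_lit 0) (nat_lit 1550438337) (nat_lit 252) (nat_lit 3654170510) (nat_lit 336) (nat_lit 6094563303) (nat_lit 24) (nat_lit 5) (nat_lit 27) (nat_lit 5) (nat_lit 28) (nat_lit 4) (nat_lit 348) (nat_lit 276) (nat_lit 264))))))) (XT.nd (nat_lit 846) (nat_lit 588) (nat_lit 0) (XT.nd (nat_lit 376) (nat_lit 168) (nat_lit 0) (XT.nd (nat_lit 188) (nat_lit 336) (nat_lit 0) (XT.nd (nat_lit 94) (nat_lit 0) (nat_lit 0) (XT.lf (nat_lit 0) (nat_lit 5485471048) (nat_lit 252) (nat_lit 1958431201) (nat_lit 336) (nat_lit 4095820161) (nat_lit 24) (nat_lit 5) (nat_lit 27) (nat_lit 5) (nat_lit 28) (nat_lit 4) (nat_lit 349) (nat_lit 276) (nat_lit 263)) (XT.lf (nat_lit 0) (nat_lit 9475180645) (nat_lit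 252) (nat_lit 225861437) (nat_lit 336) (nat_lit 2088597033) (nat_lit 24) (nat_lit 5) (nat_lit 27) (nat_lit 5) (nat_lit 28) (nat_lit 4) (nat_lit 350) (nat_lit 276) (nat_lit 262))) (XT.nd (nat_lit 94) (nat_lit 84) (nat_lit 0) (XT.lf (nat_lit 0) (nat_lit 1488798598) (nat_lit 252) (nat_lit 10519430822) (nat_lit 252) (nat_lit 39992782) (nat_lit 21) (nat_lit 4) (nat_lit 24) (nat_lit 5) (nat_lit 24) (nat_lit 4) (nat_lit 351) (nat_lit 276) (nat_lit 261)) (XT.lf (nat_lit 0) (nat_lit 2006972492) (nat_lit 336) (nat_lit 6945784860) (nat_lit 84) (nat_lit 3362435575) (nat_lit 20) (nat_lit 5) (nat_lit 24) (nat_lit 5) (nat_lit 21) (nat_lit 4) (nat_lit 352) (nat_lit 276) (nat_lit 260)))) (XT.nd (nat_lit 188) (nat_lit 0) (nat_lit 0) (XT.nd (nat_lit 94) (nat_lit 168) (nat_lit 0) (XT.lf (nat_lit 0) (nat_lit 4067957264) (nat_lit 336) (nat_lit 3286120667) (nat_lit 84) (nat_lit 5238130864) (nat_lit 20) (nat_lit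 5) (nat_lit 24) (nat_lit 5) (nat_lit 21) (nat_lit 4) (nat_lit 353) (nat_lit 276) (nat_lit 259)) (XT.lf (nat_lit 0) (nat_lit 432082396) (nat_lit 168) (nat_lit 5717892268) (nat_lit 252) (nat_lit 6729432772) (nat_lit 18) (nat_lit 5) (nat_lit 20) (nat_lit 5) (nat_lit 21) (nat_lit 4) (nat_lit 354) (nat_lit 276) (nat_lit 258))) (XT.nd (nat_lit 94) (nat_lit 0) (nat_lit 0) (XT.lf (nat_lit 0) (nat_lit 4272241627) (nat_lit 168) (nat_lit 4012241963) (nat_lit 252) (nat_lit 4891657895) (nat_lit 18) (nat_lit 5) (nat_lit 20) (nat_lit 5) (nat_lit 21) (nat_lit 4) (nat_lit 355) (nat_lit 276) (nat_lit 257)) (XT.nd (nat_lit 94) (nat_lit 0) (nat_lit 0) (XT.lf (nat_lit 0) (nat_lit 8170367074) (nat_lit 168) (nat_lit 2269837531) (nat_lit 252) (nat_lit 3043514262) (nat_lit 18) (nat_lit 5) (nat_lit 20) (nat_lit 5) (nat_lit 21) (nat_lit 4) (nat_lit 356) (nat_lit 276) (nat_lit 256)) (XT.lf (nat_lit 0) (nat_lit 12130092199)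 (nat_lit 168) (nat_lit 489054869) (nat_lit 252) (nat_lit 1183279210) (nat_lit 18) (nat_lit 5) (nat_lit 20) (nat_lit 5) (nat_lit 21) (nat_lit 4) (nat_lit 357) (nat_lit 276) (nat_lit 255)))))) (XT.nd (nat_lit 376) (nat_lit 336) (nat_lit 0) (XT.nd (nat_lit 188) (nat_lit 0) (nat_lit 0) (XT.nd (nat_lit 94) (nat_lit 0) (nat_lit 0) (XT.lf (nat_lit 0) (nat_lit 710760675) (nat_lit 252) (nat_lit 12088064549) (nat_lit 84) (nat_lit 1332472317) (nat_lit 15) (nat_lit 5) (nat_lit 18) (nat_lit 5) (nat_lit 16) (nat_lit 4) (nat_lit 358) (nat_lit 276) (nat_lit 254)) (XT.lf (nat_lit 0) (nat_lit 2619174219) (nat_lit 252) (nat_lit 8637025615) (nat_lit 84) (nat_lit 3214623486) (nat_lit 15) (nat_lit 5) (nat_lit 18) (nat_lit 5) (nat_lit 16) (nat_lit 4) (nat_lit 359) (nat_lit 276) (nat_lit 253))) (XT.nd (nat_lit 94) (nat_lit 0) (nat_lit 0) (XT.lf (nat_lit 0) (nat_lit 4545625175) (nat_lit 252) (nat_lit 5136575379)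 (nat_lit 84) (nat_lit 5140164044) (nat_lit 15) (nat_lit 5) (nat_lit 18) (nat_lit 5) (nat_lit 16) (nat_lit 4) (nat_lit 360) (nat_lit 276) (nat_lit 252)) (XT.lf (nat_lit 0) (nat_lit 6491909195) (nat_lit 252) (nat_lit 1583451053) (nat_lit 84) (nat_lit 7110888796) (nat_lit 15) (nat_lit 5) (nat_lit 18) (nat_lit 5) (nat_lit 16) (nat_lit 4) (nat_lit 361) (nat_lit 276) (nat_lit 251)))) (XT.nd (nat_lit 188) (nat_lit 168) (nat_lit 0) (XT.nd (nat_lit 94) (nat_lit 0) (nat_lit 0) (XT.lf (nat_lit 0) (nat_lit 2067310953) (nat_lit 168) (nat_lit 6413037448) (nat_lit 252) (nat_lit 7081831693) (nat_lit 13) (nat_lit 5) (nat_lit 15) (nat_lit 5) (nat_lit 16) (nat_lit 4) (nat_lit 362) (nat_lit 276) (nat_lit 250)) (XT.lf (nat_lit 0) (nat_lit 5811202361) (nat_lit 168) (nat_lit 4697698655) (nat_lit 252) (nat_lit 5441727887) (nat_lit 13) (nat_lit 5) (nat_lit 15) (nat_lit 5) (nat_lit 16) (nat_lit 4) (nat_lit 363)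 (nat_lit 276) (nat_lit 249))) (XT.nd (nat_lit 94) (nat_lit 168) (nat_lit 0) (XT.lf (nat_lit 0) (nat_lit 9619153869) (nat_lit 168) (nat_lit 2944272976) (nat_lit 252) (nat_lit 3789027665) (nat_lit 13) (nat_lit 5) (nat_lit 15) (nat_lit 5) (nat_lit 16) (nat_lit 4) (nat_lit 364) (nat_lit 276) (nat_lit 248)) (XT.nd (nat_lit 94) (nat_lit 168) (nat_lit 0) (XT.lf (nat_lit 0) (nat_lit 13494714885) (nat_lit 168) (nat_lit 1151126033) (nat_lit 252) (nat_lit 2122190537) (nat_lit 13) (nat_lit 5) (nat_lit 15) (nat_lit 5) (nat_lit 16) (nat_lit 4) (nat_lit 365) (nat_lit 276) (nat_lit 247)) (XT.lf (nat_lit 0) (nat_lit 241843801) (nat_lit 168) (nat_lit 16525419134) (nat_lit 168) (nat_lit 430199630) (nat_lit 11) (nat_lit 4) (nat_lit 13) (nat_lit 5) (nat_lit 13) (nat_lit 4) (nat_lit 366) (nat_lit 276) (nat_lit 246))))))))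
noncomputable def xc12 : XT := (XT.nd (nat_lit 53392) (nat_lit 0) (nat_lit 504) (XT.nd (nat_lit 752) (nat_lit 0) (nat_lit 0) (XT.nd (nat_lit 376) (nat_lit 84) (nat_lit 0) (XT.nd (nat_lit 188) (nat_lit 0) (nat_lit 0) (XT.nd (nat_lit 94) (nat_lit 0) (nat_lit 0) (XT.lf (nat_lit 0) (nat_lit 1299222711) (nat_lit 252) (nat_lit 13779354129) (nat_lit 84) (nat_lit 2561038518) (nat_lit 10) (nat_lit 5) (nat_lit 13) (nat_lit 5) (nat_lit 11) (nat_lit 4) (nat_lit 367) (nat_lit 276) (nat_lit 245)) (XT.lf (nat_lit 0) (nat_lit 3039537490) (nat_lit 252) (nat_lit 10557923167) (nat_lit 84) (nat_lit 4499088748) (nat_lit 10) (nat_lit 5) (nat_lit 13) (nat_lit 5) (nat_lit 11) (nat_lit 4) (nat_lit 368) (nat_lit 276) (nat_lit 244))) (XT.nd (nat_lit 94) (nat_lit 0) (nat_lit 0) (XT.lf (nat_lit 0) (nat_lit 4801034425) (nat_lit 252) (nat_lit 7284055534) (nat_lit 84) (nat_lit 6483732954) (nat_lit 10) (nat_lit 5) (nat_lit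 13) (nat_lit 5) (nat_lit 11) (nat_lit 4) (nat_lit 369) (nat_lit 276) (nat_lit 243)) (XT.lf (nat_lit 0) (nat_lit 6585355416) (nat_lit 252) (nat_lit 3954699642) (nat_lit 84) (nat_lit 8516821032) (nat_lit 10) (nat_lit 5) (nat_lit 13) (nat_lit 5) (nat_lit 11) (nat_lit 4) (nat_lit 370) (nat_lit 276) (nat_lit 242)))) (XT.nd (nat_lit 188) (nat_lit 0) (nat_lit 0) (XT.nd (nat_lit 94) (nat_lit 84) (nat_lit 0) (XT.lf (nat_lit 0) (nat_lit 8394163637) (nat_lit 252) (nat_lit 566752183) (nat_lit 84) (nat_lit 10600248033) (nat_lit 10) (nat_lit 5) (nat_lit 13) (nat_lit 5) (nat_lit 11) (nat_lit 4) (nat_lit 371) (nat_lit 276) (nat_lit 241)) (XT.lf (nat_lit 0) (nat_lit 2942224021) (nat_lit 84) (nat_lit 7316108291) (nat_lit 168) (nat_lit 9822919134) (nat_lit 9) (nat_lit 5) (nat_lit 10) (nat_lit 5) (nat_lit 11) (nat_lit 4) (nat_lit 372) (nat_lit 276) (nat_lit 240))) (XT.nd (nat_lit 94) (nat_lit 0) (nat_lit 0)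 (XT.lf (nat_lit 0) (nat_lit 6529154595) (nat_lit 84) (nat_lit 5627625587) (nat_lit 168) (nat_lit 8461550852) (nat_lit 9) (nat_lit 5) (nat_lit 10) (nat_lit 5) (nat_lit 11) (nat_lit 4) (nat_lit 373) (nat_lit 276) (nat_lit 239)) (XT.lf (nat_lit 0) (nat_lit 10185729344) (nat_lit 84) (nat_lit 3899809594) (nat_lit 168) (nat_lit 7087542161) (nat_lit 9) (nat_lit 5) (nat_lit 10) (nat_lit 5) (nat_lit 11) (nat_lit 4) (nat_lit 374) (nat_lit 276) (nat_lit 238))))) (XT.nd (nat_lit 52170) (nat_lit 0) (nat_lit 2100) (XT.nd (nat_lit 51982) (nat_lit 0) (nat_lit 2940) (XT.nd (nat_lit 51888) (nat_lit 0) (nat_lit 3360) (XT.lf (nat_lit 0) (nat_lit 13915356579) (nat_lit 84) (nat_lit 2131049807) (nat_lit 168) (nat_lit 5699612343) (nat_lit 9) (nat_lit 5) (nat_lit 10) (nat_lit 5) (nat_lit 11) (nat_lit 4) (nat_lit 375) (nat_lit 276) (nat_lit 237)) (XT.lf (nat_lit 0) (nat_lit 1318564549) (nat_lit 420) (nat_lit 1729298587)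 (nat_lit 0) (nat_lit 1318564549) (nat_lit 49) (nat_lit 5) (nat_lit 54) (nat_lit 4) (nat_lit 49) (nat_lit 4) (nat_lit 334) (nat_lit 277) (nat_lit 277))) (XT.nd (nat_lit 94) (nat_lit 0) (nat_lit 0) (XT.lf (nat_lit 0) (nat_lit 364420597) (nat_lit 420) (nat_lit 4738934997) (nat_lit 420) (nat_lit 3769941754) (nat_lit 44) (nat_lit 4) (nat_lit 49) (nat_lit 5) (nat_lit 49) (nat_lit 4) (nat_lit 335) (nat_lit 277) (nat_lit 276)) (XT.lf (nat_lit 0) (nat_lit 4299426296) (nat_lit 420) (nat_lit 3314509518) (nat_lit 420) (nat_lit 1405658619) (nat_lit 44) (nat_lit 4) (nat_lit 49) (nat_lit 5) (nat_lit 49) (nat_lit 4) (nat_lit 336) (nat_lit 277) (nat_lit 275)))) (XT.nd (nat_lit 188) (nat_lit 420) (nat_lit 0) (XT.nd (nat_lit 94) (nat_lit 336) (nat_lit 0) (XT.lf (nat_lit 0) (nat_lit 943819366) (nat_lit 504) (nat_lit 903551879) (nat_lit 84) (nat_lit 7325301001) (nat_lit 43) (nat_lit 5) (nat_lit 49) (nat_lit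 5) (nat_lit 44) (nat_lit 4) (nat_lit 337) (nat_lit 277) (nat_lit 274)) (XT.lf (nat_lit 0) (nat_lit 3000535991) (nat_lit 336) (nat_lit 300878721) (nat_lit 420) (nat_lit 6030198148) (nat_lit 39) (nat_lit 5) (nat_lit 43) (nat_lit 5) (nat_lit 44) (nat_lit 4) (nat_lit 338) (nat_lit 277) (nat_lit 273))) (XT.nd (nat_lit 94) (nat_lit 420) (nat_lit 0) (XT.lf (nat_lit 0) (nat_lit 5690260009) (nat_lit 420) (nat_lit 2541768577) (nat_lit 0) (nat_lit 1265197072) (nat_lit 39) (nat_lit 5) (nat_lit 44) (nat_lit 4) (nat_lit 39) (nat_lit 4) (nat_lit 339) (nat_lit 277) (nat_lit 272)) (XT.nd (nat_lit 94) (nat_lit 84) (nat_lit 0) (XT.lf (nat_lit 0) (nat_lit 1312272355) (nat_lit 336) (nat_lit 6794717141) (nat_lit 336) (nat_lit 1562848877) (nat_lit 35) (nat_lit 4) (nat_lit 39) (nat_lit 5) (nat_lit 39) (nat_lit 4) (nat_lit 340) (nat_lit 277) (nat_lit 271)) (XT.lf (nat_lit 0) (nat_lit 700331369) (nat_lit 420) (nat_lit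 4592041642) (nat_lit 84) (nat_lit 4556703747) (nat_lit 34) (nat_lit 5) (nat_lit 39) (nat_lit 5) (nat_lit 35) (nat_lit 4) (nat_lit 341) (nat_lit 277) (nat_lit 270))))))) (XT.nd (nat_lit 752) (nat_lit 756) (nat_lit 0) (XT.nd (nat_lit 376) (nat_lit 336) (nat_lit 0) (XT.nd (nat_lit 188) (nat_lit 252) (nat_lit 0) (XT.nd (nat_lit 94) (nat_lit 252) (nat_lit 0) (XT.lf (nat_lit 0) (nat_lit 2940897055) (nat_lit 420) (nat_lit 800469599) (nat_lit 84) (nat_lit 6294275559) (nat_lit 34) (nat_lit 5) (nat_lit 39) (nat_lit 5) (nat_lit 35) (nat_lit 4) (nat_lit 342) (nat_lit 277) (nat_lit 269)) (XT.lf (nat_lit 0) (nat_lit 3098618155) (nat_lit 252) (nat_lit 2124545065) (nat_lit 336) (nat_lit 5006073130) (nat_lit 31) (nat_lit 5) (nat_lit 34) (nat_lit 5) (nat_lit 35) (nat_lit 4) (nat_lit 343) (nat_lit 277) (nat_lit 268))) (XT.nd (nat_lit 94) (nat_lit 252) (nat_lit 0) (XT.lf (nat_lit 0) (nat_lit 7063827419) (nat_lit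 252) (nat_lit 463259120) (nat_lit 336) (nat_lit 2903640371) (nat_lit 31) (nat_lit 5) (nat_lit 34) (nat_lit 5) (nat_lit 35) (nat_lit 4) (nat_lit 344) (nat_lit 277) (nat_lit 267)) (XT.lf (nat_lit 0) (nat_lit 438416939) (nat_lit 252) (nat_lit 9424900828) (nat_lit 252) (nat_lit 776720334) (nat_lit 28) (nat_lit 4) (nat_lit 31) (nat_lit 5) (nat_lit 31) (nat_lit 4) (nat_lit 345) (nat_lit 277) (nat_lit 266)))) (XT.nd (nat_lit 188) (nat_lit 252) (nat_lit 0) (XT.nd (nat_lit 94) (nat_lit 0) (nat_lit 0) (XT.lf (nat_lit 0) (nat_lit 1372056998) (nat_lit 336) (nat_lit 6513098259) (nat_lit 84) (nat_lit 2971069554) (nat_lit 27) (nat_lit 5) (nat_lit 31) (nat_lit 5) (nat_lit 28) (nat_lit 4) (nat_lit 346) (nat_lit 277) (nat_lit 265)) (XT.lf (nat_lit 0) (nat_lit 3517203207) (nat_lit 336) (nat_lit 2788280633) (nat_lit 84) (nat_lit 4775390807) (nat_lit 27) (nat_lit 5) (nat_lit 31) (nat_lit 5) (nat_lit 28) (nat_lit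 4) (nat_lit 347) (nat_lit 277) (nat_lit 264))) (XT.nd (nat_lit 94) (nat_lit 0) (nat_lit 0) (XT.lf (nat_lit 0) (nat_lit 1004242036) (nat_lit 252) (nat_lit 4682087146) (nat_lit 336) (nat_lit 5627797855) (nat_lit 24) (nat_lit 5) (nat_lit 27) (nat_lit 5) (nat_lit 28) (nat_lit 4) (nat_lit 348) (nat_lit 277) (nat_lit 263)) (XT.lf (nat_lit 0) (nat_lit 4906133867) (nat_lit 252) (nat_lit 2994096465) (nat_lit 336) (nat_lit 3655387087) (nat_lit 24) (nat_lit 5) (nat_lit 27) (nat_lit 5) (nat_lit 28) (nat_lit 4) (nat_lit 349) (nat_lit 277) (nat_lit 262))))) (XT.nd (nat_lit 376) (nat_lit 420) (nat_lit 0) (XT.nd (nat_lit 188) (nat_lit 0) (nat_lit 0) (XT.nd (nat_lit 94) (nat_lit 336) (nat_lit 0) (XT.lf (nat_lit 0) (nat_lit 8863699060) (nat_lit 252) (nat_lit 1269042344) (nat_lit 336) (nat_lit 1673704574) (nat_lit 24) (nat_lit 5) (nat_lit 27) (nat_lit 5) (nat_lit 28) (nat_lit 4) (nat_lit 350) (nat_lit 277)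 (nat_lit 261)) (XT.lf (nat_lit 0) (nat_lit 325898102) (nat_lit 336) (nat_lit 11244235224) (nat_lit 84) (nat_lit 496204918) (nat_lit 20) (nat_lit 5) (nat_lit 24) (nat_lit 5) (nat_lit 21) (nat_lit 4) (nat_lit 351) (nat_lit 277) (nat_lit 260))) (XT.nd (nat_lit 94) (nat_lit 0) (nat_lit 0) (XT.lf (nat_lit 0) (nat_lit 2348125714) (nat_lit 336) (nat_lit 7663286822) (nat_lit 84) (nat_lit 2322761402) (nat_lit 20) (nat_lit 5) (nat_lit 24) (nat_lit 5) (nat_lit 21) (nat_lit 4) (nat_lit 352) (nat_lit 277) (nat_lit 259)) (XT.lf (nat_lit 0) (nat_lit 4385898173) (nat_lit 336) (nat_lit 4034945237) (nat_lit 84) (nat_lit 4191197287) (nat_lit 20) (nat_lit 5) (nat_lit 24) (nat_lit 5) (nat_lit 21) (nat_lit 4) (nat_lit 353) (nat_lit 277) (nat_lit 258)))) (XT.nd (nat_lit 188) (nat_lit 252) (nat_lit 0) (XT.nd (nat_lit 94) (nat_lit 168) (nat_lit 0) (XT.lf (nat_lit 0) (nat_lit 6441114894) (nat_lit 336) (nat_lit 355828473)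 (nat_lit 84) (nat_lit 6103254151) (nat_lit 20) (nat_lit 5) (nat_lit 24) (nat_lit 5) (nat_lit 21) (nat_lit 4) (nat_lit 354) (nat_lit 277) (nat_lit 257)) (XT.lf (nat_lit 0) (nat_lit 3446940968) (nat_lit 168) (nat_lit 5102944667) (nat_lit 252) (nat_lit 4647967345) (nat_lit 18) (nat_lit 5) (nat_lit 20) (nat_lit 5) (nat_lit 21) (nat_lit 4) (nat_lit 355) (nat_lit 277) (nat_lit 256))) (XT.nd (nat_lit 94) (nat_lit 252) (nat_lit 0) (XT.lf (nat_lit 0) (nat_lit 7315897430) (nat_lit 168) (nat_lit 3368239057) (nat_lit 252) (nat_lit 2822079268) (nat_lit 18) (nat_lit 5) (nat_lit 20) (nat_lit 5) (nat_lit 21) (nat_lit 4) (nat_lit 356) (nat_lit 277) (nat_lit 255)) (XT.nd (nat_lit 94) (nat_lit 252) (nat_lit 0) (XT.lf (nat_lit 0) (nat_lit 11247330619) (nat_lit 168) (nat_lit 1594923729) (nat_lit 252) (nat_lit 983430593) (nat_lit 18) (nat_lit 5) (nat_lit 20) (nat_lit 5) (nat_lit 21) (nat_lit 4) (nat_lit 357)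 (nat_lit 277) (nat_lit 254)) (XT.lf (nat_lit 0) (nat_lit 865470429) (nat_lit 252) (nat_lit 13056400611) (nat_lit 84) (nat_lit 234007519) (nat_lit 15) (nat_lit 5) (nat_lit 18) (nat_lit 5) (nat_lit 16) (nat_lit 4) (nat_lit 358) (nat_lit 277) (nat_lit 253))))))))
noncomputable def xc13 : XT := (XT.nd (nat_lit 53204) (nat_lit 0) (nat_lit 1260) (XT.nd (nat_lit 752) (nat_lit 336) (nat_lit 0) (XT.nd (nat_lit 376) (nat_lit 0) (nat_lit 0) (XT.nd (nat_lit 188) (nat_lit 168) (nat_lit 0) (XT.nd (nat_lit 94) (nat_lit 0) (nat_lit 0) (XT.lf (nat_lit 0) (nat_lit 2753636111) (nat_lit 252) (nat_lit 9633707765) (nat_lit 84) (nat_lit 2108794189) (nat_lit 15) (nat_lit 5) (nat_lit 18) (nat_lit 5) (nat_lit 16) (nat_lit 4) (nat_lit 359) (nat_lit 277) (nat_lit 252)) (XT.lf (nat_lit 0) (nat_lit 4660448014) (nat_lit 252) (nat_lit 6160751309) (nat_lit 84) (nat_lit 4027191683) (nat_lit 15) (nat_lit 5) (nat_lit 18)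 (nat_lit 5) (nat_lit 16) (nat_lit 4) (nat_lit 360) (nat_lit 277) (nat_lit 251))) (XT.nd (nat_lit 94) (nat_lit 168) (nat_lit 0) (XT.lf (nat_lit 0) (nat_lit 6587683487) (nat_lit 252) (nat_lit 2634294084) (nat_lit 84) (nat_lit 5990988149) (nat_lit 15) (nat_lit 5) (nat_lit 18) (nat_lit 5) (nat_lit 16) (nat_lit 4) (nat_lit 361) (nat_lit 277) (nat_lit 250)) (XT.lf (nat_lit 0) (nat_lit 968463314) (nat_lit 168) (nat_lit 7578282877) (nat_lit 252) (nat_lit 7043158011) (nat_lit 13) (nat_lit 5) (nat_lit 15) (nat_lit 5) (nat_lit 16) (nat_lit 4) (nat_lit 362) (nat_lit 277) (nat_lit 249)))) (XT.nd (nat_lit 188) (nat_lit 0) (nat_lit 0) (XT.nd (nat_lit 94) (nat_lit 0) (nat_lit 0) (XT.lf (nat_lit 0) (nat_lit 4686751308) (nat_lit 168) (nat_lit 5870373240) (nat_lit 252) (nat_lit 5421885718) (nat_lit 13) (nat_lit 5) (nat_lit 15) (nat_lit 5) (nat_lit 16) (nat_lit 4) (nat_lit 363) (nat_lit 277) (nat_lit 248))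 (XT.lf (nat_lit 0) (nat_lit 8469869242) (nat_lit 168) (nat_lit 4124153338) (nat_lit 252) (nat_lit 3787450784) (nat_lit 13) (nat_lit 5) (nat_lit 15) (nat_lit 5) (nat_lit 16) (nat_lit 4) (nat_lit 364) (nat_lit 277) (nat_lit 247))) (XT.nd (nat_lit 94) (nat_lit 0) (nat_lit 0) (XT.lf (nat_lit 0) (nat_lit 12321343379) (nat_lit 168) (nat_lit 2337995510) (nat_lit 252) (nat_lit 2138329746) (nat_lit 13) (nat_lit 5) (nat_lit 15) (nat_lit 5) (nat_lit 16) (nat_lit 4) (nat_lit 365) (nat_lit 277) (nat_lit 246)) (XT.lf (nat_lit 0) (nat_lit 16244763695) (nat_lit 168) (nat_lit 510234871) (nat_lit 252) (nat_lit 472985451) (nat_lit 13) (nat_lit 5) (nat_lit 15) (nat_lit 5) (nat_lit 16) (nat_lit 4) (nat_lit 366) (nat_lit 277) (nat_lit 245))))) (XT.nd (nat_lit 376) (nat_lit 84) (nat_lit 0) (XT.nd (nat_lit 188) (nat_lit 0) (nat_lit 0) (XT.nd (nat_lit 94) (nat_lit 0) (nat_lit 0) (XT.lf (nat_lit 0) (nat_lit 1225547432)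 (nat_lit 252) (nat_lit 15073953267) (nat_lit 84) (nat_lit 1371714130) (nat_lit 10) (nat_lit 5) (nat_lit 13) (nat_lit 5) (nat_lit 11) (nat_lit 4) (nat_lit 367) (nat_lit 277) (nat_lit 244)) (XT.lf (nat_lit 0) (nat_lit 2949728483) (nat_lit 252) (nat_lit 11875874195) (nat_lit 84) (nat_lit 3303124488) (nat_lit 10) (nat_lit 5) (nat_lit 13) (nat_lit 5) (nat_lit 11) (nat_lit 4) (nat_lit 368) (nat_lit 277) (nat_lit 243))) (XT.nd (nat_lit 94) (nat_lit 0) (nat_lit 0) (XT.lf (nat_lit 0) (nat_lit 4695576797) (nat_lit 252) (nat_lit 8624656310) (nat_lit 84) (nat_lit 5281328468) (nat_lit 10) (nat_lit 5) (nat_lit 13) (nat_lit 5) (nat_lit 11) (nat_lit 4) (nat_lit 369) (nat_lit 277) (nat_lit 242)) (XT.lf (nat_lit 0) (nat_lit 6464719688) (nat_lit 252) (nat_lit 5317269136) (nat_lit 84) (nat_lit 7308169964) (nat_lit 10) (nat_lit 5) (nat_lit 13) (nat_lit 5) (nat_lit 11) (nat_lit 4) (nat_lit 370) (nat_lit 277)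 (nat_lit 241)))) (XT.nd (nat_lit 188) (nat_lit 0) (nat_lit 0) (XT.nd (nat_lit 94) (nat_lit 84) (nat_lit 0) (XT.lf (nat_lit 0) (nat_lit 8258806183) (nat_lit 252) (nat_lit 1950629841) (nat_lit 84) (nat_lit 9385538205) (nat_lit 10) (nat_lit 5) (nat_lit 13) (nat_lit 5) (nat_lit 11) (nat_lit 4) (nat_lit 371) (nat_lit 277) (nat_lit 240)) (XT.lf (nat_lit 0) (nat_lit 1508798561) (nat_lit 84) (nat_lit 8585677464) (nat_lit 168) (nat_lit 10021538422) (nat_lit 9) (nat_lit 5) (nat_lit 10) (nat_lit 5) (nat_lit 11) (nat_lit 4) (nat_lit 372) (nat_lit 277) (nat_lit 239))) (XT.nd (nat_lit 94) (nat_lit 0) (nat_lit 0) (XT.lf (nat_lit 0) (nat_lit 5075270901) (nat_lit 84) (nat_lit 6903600311) (nat_lit 168) (nat_lit 8674725536) (nat_lit 9) (nat_lit 5) (nat_lit 10) (nat_lit 5) (nat_lit 11) (nat_lit 4) (nat_lit 373) (nat_lit 277) (nat_lit 238)) (XT.nd (nat_lit 94) (nat_lit 0) (nat_lit 0) (XT.lf (nat_lit 0) (nat_lit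 8712002553) (nat_lit 84) (nat_lit 5181997268) (nat_lit 168) (nat_lit 7314834591) (nat_lit 9) (nat_lit 5) (nat_lit 10) (nat_lit 5) (nat_lit 11) (nat_lit 4) (nat_lit 374) (nat_lit 277) (nat_lit 237)) (XT.lf (nat_lit 0) (nat_lit 12422383332) (nat_lit 84) (nat_lit 3419263622) (nat_lit 168) (nat_lit 5940598027) (nat_lit 9) (nat_lit 5) (nat_lit 10) (nat_lit 5) (nat_lit 11) (nat_lit 4) (nat_lit 375) (nat_lit 277) (nat_lit 236))))))) (XT.nd (nat_lit 846) (nat_lit 924) (nat_lit 0) (XT.nd (nat_lit 376) (nat_lit 756) (nat_lit 0) (XT.nd (nat_lit 188) (nat_lit 420) (nat_lit 0) (XT.nd (nat_lit 94) (nat_lit 420) (nat_lit 0) (XT.lf (nat_lit 0) (nat_lit 3010957181) (nat_lit 420) (nat_lit 611821875) (nat_lit 420) (nat_lit 611821875) (nat_lit 54) (nat_lit 4) (nat_lit 59) (nat_lit 5) (nat_lit 59) (nat_lit 4) (nat_lit 332) (nat_lit 278) (nat_lit 278)) (XT.lf (nat_lit 0) (nat_lit 1180187399) (nat_lit 420) (nat_lit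 7237780702) (nat_lit 0) (nat_lit 181155365) (nat_lit 49) (nat_lit 5) (nat_lit 54) (nat_lit 4) (nat_lit 49) (nat_lit 4) (nat_lit 333) (nat_lit 278) (nat_lit 277))) (XT.nd (nat_lit 94) (nat_lit 420) (nat_lit 0) (XT.lf (nat_lit 0) (nat_lit 3601942757) (nat_lit 420) (nat_lit 3498312934) (nat_lit 0) (nat_lit 1633917480) (nat_lit 49) (nat_lit 5) (nat_lit 54) (nat_lit 4) (nat_lit 49) (nat_lit 4) (nat_lit 334) (nat_lit 278) (nat_lit 276)) (XT.lf (nat_lit 0) (nat_lit 284574529) (nat_lit 420) (nat_lit 5749613140) (nat_lit 420) (nat_lit 2841730207) (nat_lit 44) (nat_lit 4) (nat_lit 49) (nat_lit 5) (nat_lit 49) (nat_lit 4) (nat_lit 335) (nat_lit 278) (nat_lit 275)))) (XT.nd (nat_lit 188) (nat_lit 672) (nat_lit 0) (XT.nd (nat_lit 94) (nat_lit 84) (nat_lit 0) (XT.lf (nat_lit 0) (nat_lit 4181448635) (nat_lit 420) (nat_lit 4330749421) (nat_lit 420) (nat_lit 511268374) (nat_lit 44) (nat_lit 4) (nat_lit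 49) (nat_lit 5) (nat_lit 49) (nat_lit 4) (nat_lit 336) (nat_lit 278) (nat_lit 274)) (XT.lf (nat_lit 0) (nat_lit 1788046209) (nat_lit 504) (nat_lit 1072147472) (nat_lit 84) (nat_lit 6317299444) (nat_lit 43) (nat_lit 5) (nat_lit 49) (nat_lit 5) (nat_lit 44) (nat_lit 4) (nat_lit 337) (nat_lit 278) (nat_lit 273))) (XT.nd (nat_lit 94) (nat_lit 336) (nat_lit 0) (XT.lf (nat_lit 0) (nat_lit 2790983689) (nat_lit 336) (nat_lit 1321402135) (nat_lit 420) (nat_lit 5225299485) (nat_lit 39) (nat_lit 5) (nat_lit 43) (nat_lit 5) (nat_lit 44) (nat_lit 4) (nat_lit 338) (nat_lit 278) (nat_lit 272)) (XT.nd (nat_lit 94) (nat_lit 336) (nat_lit 0) (XT.lf (nat_lit 0) (nat_lit 6460449993) (nat_lit 420) (nat_lit 2784737851) (nat_lit 0) (nat_lit 259588486) (nat_lit 39) (nat_lit 5) (nat_lit 44) (nat_lit 4) (nat_lit 39) (nat_lit 4) (nat_lit 339) (nat_lit 278) (nat_lit 271)) (XT.lf (nat_lit 0) (nat_lit 1027218224) (nat_lit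 336) (nat_lit 7817397877) (nat_lit 336) (nat_lit 833989981) (nat_lit 35) (nat_lit 4) (nat_lit 39) (nat_lit 5) (nat_lit 39) (nat_lit 4) (nat_lit 340) (nat_lit 278) (nat_lit 270)))))) (XT.nd (nat_lit 376) (nat_lit 588) (nat_lit 0) (XT.nd (nat_lit 188) (nat_lit 252) (nat_lit 0) (XT.nd (nat_lit 94) (nat_lit 0) (nat_lit 0) (XT.lf (nat_lit 0) (nat_lit 1384811093) (nat_lit 420) (nat_lit 4929873430) (nat_lit 84) (nat_lit 3544051604) (nat_lit 34) (nat_lit 5) (nat_lit 39) (nat_lit 5) (nat_lit 35) (nat_lit 4) (nat_lit 341) (nat_lit 278) (nat_lit 269)) (XT.lf (nat_lit 0) (nat_lit 3596575335) (nat_lit 420) (nat_lit 1173975081) (nat_lit 84) (nat_lit 5275833417) (nat_lit 34) (nat_lit 5) (nat_lit 39) (nat_lit 5) (nat_lit 35) (nat_lit 4) (nat_lit 342) (nat_lit 278) (nat_lit 268))) (XT.nd (nat_lit 94) (nat_lit 0) (nat_lit 0) (XT.lf (nat_lit 0) (nat_lit 2682120106) (nat_lit 252) (nat_lit 3164654237) (nat_lit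 336) (nat_lit 4394381421) (nat_lit 31) (nat_lit 5) (nat_lit 34) (nat_lit 5) (nat_lit 35) (nat_lit 4) (nat_lit 343) (nat_lit 278) (nat_lit 267)) (XT.lf (nat_lit 0) (nat_lit 6613078614) (nat_lit 252) (nat_lit 1510183791) (nat_lit 336) (nat_lit 2320412599) (nat_lit 31) (nat_lit 5) (nat_lit 34) (nat_lit 5) (nat_lit 35) (nat_lit 4) (nat_lit 344) (nat_lit 278) (nat_lit 266)))) (XT.nd (nat_lit 188) (nat_lit 252) (nat_lit 0) (XT.nd (nat_lit 94) (nat_lit 336) (nat_lit 0) (XT.lf (nat_lit 0) (nat_lit 10418082947) (nat_lit 336) (nat_lit 57880542) (nat_lit 0) (nat_lit 178479268) (nat_lit 31) (nat_lit 5) (nat_lit 35) (nat_lit 4) (nat_lit 31) (nat_lit 4) (nat_lit 345) (nat_lit 278) (nat_lit 265)) (XT.lf (nat_lit 0) (nat_lit 1874296966) (nat_lit 336) (nat_lit 7064880864) (nat_lit 84) (nat_lit 1932292295) (nat_lit 27) (nat_lit 5) (nat_lit 31) (nat_lit 5) (nat_lit 28) (nat_lit 4) (nat_lit 346) (nat_lit 278)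 (nat_lit 264))) (XT.nd (nat_lit 94) (nat_lit 252) (nat_lit 0) (XT.lf (nat_lit 0) (nat_lit 3993602718) (nat_lit 336) (nat_lit 3373543070) (nat_lit 84) (nat_lit 3729932931) (nat_lit 27) (nat_lit 5) (nat_lit 31) (nat_lit 5) (nat_lit 28) (nat_lit 4) (nat_lit 347) (nat_lit 278) (nat_lit 263)) (XT.nd (nat_lit 94) (nat_lit 0) (nat_lit 0) (XT.lf (nat_lit 0) (nat_lit 373804523) (nat_lit 252) (nat_lit 5757606662) (nat_lit 336) (nat_lit 5200043730) (nat_lit 24) (nat_lit 5) (nat_lit 27) (nat_lit 5) (nat_lit 28) (nat_lit 4) (nat_lit 348) (nat_lit 278) (nat_lit 262)) (XT.lf (nat_lit 0) (nat_lit 4243551950) (nat_lit 252) (nat_lit 4077131624) (nat_lit 336) (nat_lit 3253173577) (nat_lit 24) (nat_lit 5) (nat_lit 27) (nat_lit 5) (nat_lit 28) (nat_lit 4) (nat_lit 349) (nat_lit 278) (nat_lit 261))))))))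
noncomputable def xc14 : XT := (XT.nd (nat_lit 1598) (nat_lit 336) (nat_lit 0) (XT.nd (nat_lit 752) (nat_lit 420) (nat_lit 0) (XT.nd (nat_lit 376) (nat_lit 168) (nat_lit 0) (XT.nd (nat_lit 188) (nat_lit 0) (nat_lit 0) (XT.nd (nat_lit 94) (nat_lit 336) (nat_lit 0) (XT.lf (nat_lit 0) (nat_lit 8169939255) (nat_lit 252) (nat_lit 2359367167) (nat_lit 336) (nat_lit 1296263726) (nat_lit 24) (nat_lit 5) (nat_lit 27) (nat_lit 5) (nat_lit 28) (nat_lit 4) (nat_lit 350) (nat_lit 278) (nat_lit 260)) (XT.lf (nat_lit 0) (nat_lit 64424338) (nat_lit 252) (nat_lit 595175050) (nat_lit 336) (nat_lit 11427002515) (nat_lit 20) (nat_lit 5) (nat_lit 23) (nat_lit 5) (nat_lit 24) (nat_lit 5) (nat_lit 351) (nat_lit 278) (nat_lit 259))) (XT.nd (nat_lit 94) (nat_lit 0) (nat_lit 0) (XT.lf (nat_lit 0) (nat_lit 2652710476) (nat_lit 336) (nat_lit 8466647562) (nat_lit 84) (nat_lit 1236113479) (nat_lit 20) (nat_lit 5) (nat_lit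 24) (nat_lit 5) (nat_lit 21) (nat_lit 4) (nat_lit 352) (nat_lit 278) (nat_lit 258)) (XT.lf (nat_lit 0) (nat_lit 4667968566) (nat_lit 336) (nat_lit 4868686779) (nat_lit 84) (nat_lit 3097508235) (nat_lit 20) (nat_lit 5) (nat_lit 24) (nat_lit 5) (nat_lit 21) (nat_lit 4) (nat_lit 353) (nat_lit 278) (nat_lit 257)))) (XT.nd (nat_lit 188) (nat_lit 0) (nat_lit 0) (XT.nd (nat_lit 94) (nat_lit 168) (nat_lit 0) (XT.lf (nat_lit 0) (nat_lit 6701347877) (nat_lit 336) (nat_lit 1219037332) (nat_lit 84) (nat_lit 5002735683) (nat_lit 20) (nat_lit 5) (nat_lit 24) (nat_lit 5) (nat_lit 21) (nat_lit 4) (nat_lit 354) (nat_lit 278) (nat_lit 256)) (XT.lf (nat_lit 0) (nat_lit 2536813779) (nat_lit 168) (nat_lit 6243095462) (nat_lit 252) (nat_lit 4441923422) (nat_lit 18) (nat_lit 5) (nat_lit 20) (nat_lit 5) (nat_lit 21) (nat_lit 4) (nat_lit 355) (nat_lit 278) (nat_lit 255))) (XT.nd (nat_lit 94) (nat_lit 0) (nat_lit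 0) (XT.lf (nat_lit 0) (nat_lit 6377478304) (nat_lit 168) (nat_lit 4515857186) (nat_lit 252) (nat_lit 2637621722) (nat_lit 18) (nat_lit 5) (nat_lit 20) (nat_lit 5) (nat_lit 21) (nat_lit 4) (nat_lit 356) (nat_lit 278) (nat_lit 254)) (XT.lf (nat_lit 0) (nat_lit 10281470236) (nat_lit 168) (nat_lit 2749784666) (nat_lit 252) (nat_lit 819910368) (nat_lit 18) (nat_lit 5) (nat_lit 20) (nat_lit 5) (nat_lit 21) (nat_lit 4) (nat_lit 357) (nat_lit 278) (nat_lit 253))))) (XT.nd (nat_lit 376) (nat_lit 168) (nat_lit 0) (XT.nd (nat_lit 188) (nat_lit 0) (nat_lit 0) (XT.nd (nat_lit 94) (nat_lit 0) (nat_lit 0) (XT.lf (nat_lit 0) (nat_lit 60851070) (nat_lit 168) (nat_lit 932249738) (nat_lit 252) (nat_lit 13189324289) (nat_lit 15) (nat_lit 5) (nat_lit 17) (nat_lit 5) (nat_lit 18) (nat_lit 5) (nat_lit 358) (nat_lit 278) (nat_lit 252)) (XT.lf (nat_lit 0) (nat_lit 2852379406) (nat_lit 252) (nat_lit 10717126930)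 (nat_lit 84) (nat_lit 954176621) (nat_lit 15) (nat_lit 5) (nat_lit 18) (nat_lit 5) (nat_lit 16) (nat_lit 4) (nat_lit 359) (nat_lit 278) (nat_lit 251))) (XT.nd (nat_lit 94) (nat_lit 0) (nat_lit 0) (XT.lf (nat_lit 0) (nat_lit 4740142762) (nat_lit 252) (nat_lit 7270837574) (nat_lit 84) (nat_lit 2865645828) (nat_lit 15) (nat_lit 5) (nat_lit 18) (nat_lit 5) (nat_lit 16) (nat_lit 4) (nat_lit 360) (nat_lit 278) (nat_lit 250)) (XT.lf (nat_lit 0) (nat_lit 6648902438) (nat_lit 252) (nat_lit 3770245626) (nat_lit 84) (nat_lit 4822722326) (nat_lit 15) (nat_lit 5) (nat_lit 18) (nat_lit 5) (nat_lit 16) (nat_lit 4) (nat_lit 361) (nat_lit 278) (nat_lit 249)))) (XT.nd (nat_lit 188) (nat_lit 0) (nat_lit 0) (XT.nd (nat_lit 94) (nat_lit 168) (nat_lit 0) (XT.lf (nat_lit 0) (nat_lit 8580437597) (nat_lit 252) (nat_lit 212088168) (nat_lit 84) (nat_lit 6827230314) (nat_lit 15) (nat_lit 5) (nat_lit 18) (nat_lit 5)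 (nat_lit 16) (nat_lit 4) (nat_lit 362) (nat_lit 278) (nat_lit 248)) (XT.lf (nat_lit 0) (nat_lit 3477005284) (nat_lit 168) (nat_lit 7094035671) (nat_lit 252) (nat_lit 5438525243) (nat_lit 13) (nat_lit 5) (nat_lit 15) (nat_lit 5) (nat_lit 16) (nat_lit 4) (nat_lit 363) (nat_lit 278) (nat_lit 247))) (XT.nd (nat_lit 94) (nat_lit 0) (nat_lit 0) (XT.lf (nat_lit 0) (nat_lit 7236036338) (nat_lit 168) (nat_lit 5354804883) (nat_lit 252) (nat_lit 3821806399) (nat_lit 13) (nat_lit 5) (nat_lit 15) (nat_lit 5) (nat_lit 16) (nat_lit 4) (nat_lit 364) (nat_lit 278) (nat_lit 246)) (XT.nd (nat_lit 94) (nat_lit 0) (nat_lit 0) (XT.lf (nat_lit 0) (nat_lit 11064147837) (nat_lit 168) (nat_lit 3575426022) (nat_lit 252) (nat_lit 2189868766) (nat_lit 13) (nat_lit 5) (nat_lit 15) (nat_lit 5) (nat_lit 16) (nat_lit 4) (nat_lit 365) (nat_lit 278) (nat_lit 245)) (XT.lf (nat_lit 0) (nat_lit 14964907980) (nat_lit 168) (nat_lit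 1754240520) (nat_lit 252) (nat_lit 541191205) (nat_lit 13) (nat_lit 5) (nat_lit 15) (nat_lit 5) (nat_lit 16) (nat_lit 4) (nat_lit 366) (nat_lit 278) (nat_lit 244))))))) (XT.nd (nat_lit 752) (nat_lit 0) (nat_lit 0) (XT.nd (nat_lit 376) (nat_lit 84) (nat_lit 0) (XT.nd (nat_lit 188) (nat_lit 0) (nat_lit 0) (XT.nd (nat_lit 94) (nat_lit 0) (nat_lit 0) (XT.lf (nat_lit 0) (nat_lit 1116820617) (nat_lit 252) (nat_lit 16456112668) (nat_lit 84) (nat_lit 132035105) (nat_lit 10) (nat_lit 5) (nat_lit 13) (nat_lit 5) (nat_lit 11) (nat_lit 4) (nat_lit 367) (nat_lit 278) (nat_lit 243)) (XT.lf (nat_lit 0) (nat_lit 2825353047) (nat_lit 252) (nat_lit 13280683344) (nat_lit 84) (nat_lit 2057005236) (nat_lit 10) (nat_lit 5) (nat_lit 13) (nat_lit 5) (nat_lit 11) (nat_lit 4) (nat_lit 368) (nat_lit 278) (nat_lit 242))) (XT.nd (nat_lit 94) (nat_lit 0) (nat_lit 0) (XT.lf (nat_lit 0) (nat_lit 4556023261) (nat_lit 252)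 (nat_lit 10051434176) (nat_lit 84) (nat_lit 4028962635) (nat_lit 10) (nat_lit 5) (nat_lit 13) (nat_lit 5) (nat_lit 11) (nat_lit 4) (nat_lit 369) (nat_lit 278) (nat_lit 241)) (XT.lf (nat_lit 0) (nat_lit 6310444426) (nat_lit 252) (nat_lit 6765355166) (nat_lit 84) (nat_lit 6049745371) (nat_lit 10) (nat_lit 5) (nat_lit 13) (nat_lit 5) (nat_lit 11) (nat_lit 4) (nat_lit 370) (nat_lit 278) (nat_lit 240)))) (XT.nd (nat_lit 188) (nat_lit 84) (nat_lit 0) (XT.nd (nat_lit 94) (nat_lit 0) (nat_lit 0) (XT.lf (nat_lit 0) (nat_lit 8090251845) (nat_lit 252) (nat_lit 3419383345) (nat_lit 84) (nat_lit 8121237026) (nat_lit 10) (nat_lit 5) (nat_lit 13) (nat_lit 5) (nat_lit 11) (nat_lit 4) (nat_lit 371) (nat_lit 278) (nat_lit 239)) (XT.lf (nat_lit 0) (nat_lit 9897104487) (nat_lit 252) (nat_lit 10399915) (nat_lit 84) (nat_lit 10245368448) (nat_lit 10) (nat_lit 5) (nat_lit 13) (nat_lit 5) (nat_lit 11) (nat_lit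 4) (nat_lit 372) (nat_lit 278) (nat_lit 238))) (XT.nd (nat_lit 94) (nat_lit 0) (nat_lit 0) (XT.lf (nat_lit 0) (nat_lit 3536015483) (nat_lit 84) (nat_lit 8231748753) (nat_lit 168) (nat_lit 8923181776) (nat_lit 9) (nat_lit 5) (nat_lit 10) (nat_lit 5) (nat_lit 11) (nat_lit 4) (nat_lit 373) (nat_lit 278) (nat_lit 237)) (XT.lf (nat_lit 0) (nat_lit 7153500677) (nat_lit 84) (nat_lit 6516171851) (nat_lit 168) (nat_lit 7576984086) (nat_lit 9) (nat_lit 5) (nat_lit 10) (nat_lit 5) (nat_lit 11) (nat_lit 4) (nat_lit 374) (nat_lit 278) (nat_lit 236))))) (XT.nd (nat_lit 51794) (nat_lit 0) (nat_lit 2856) (XT.nd (nat_lit 51606) (nat_lit 0) (nat_lit 3780) (XT.nd (nat_lit 51512) (nat_lit 0) (nat_lit 4200) (XT.lf (nat_lit 0) (nat_lit 10845213699) (nat_lit 84) (nat_lit 4759283151) (nat_lit 168) (nat_lit 6216029050) (nat_lit 9) (nat_lit 5) (nat_lit 10) (nat_lit 5) (nat_lit 11) (nat_lit 4) (nat_lit 375) (nat_lit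 278) (nat_lit 235)) (XT.lf (nat_lit 0) (nat_lit 1648841935) (nat_lit 504) (nat_lit 814992379) (nat_lit 0) (nat_lit 1648841935) (nat_lit 59) (nat_lit 5) (nat_lit 65) (nat_lit 4) (nat_lit 59) (nat_lit 4) (nat_lit 330) (nat_lit 279) (nat_lit 279))) (XT.nd (nat_lit 94) (nat_lit 0) (nat_lit 0) (XT.lf (nat_lit 0) (nat_lit 2139769589) (nat_lit 420) (nat_lit 3633580557) (nat_lit 420) (nat_lit 2571648467) (nat_lit 54) (nat_lit 4) (nat_lit 59) (nat_lit 5) (nat_lit 59) (nat_lit 4) (nat_lit 331) (nat_lit 279) (nat_lit 278)) (XT.lf (nat_lit 0) (nat_lit 5984061037) (nat_lit 420) (nat_lit 2289204560) (nat_lit 420) (nat_lit 197270443) (nat_lit 54) (nat_lit 4) (nat_lit 59) (nat_lit 5) (nat_lit 59) (nat_lit 4) (nat_lit 332) (nat_lit 279) (nat_lit 277)))) (XT.nd (nat_lit 188) (nat_lit 504) (nat_lit 0) (XT.nd (nat_lit 94) (nat_lit 0) (nat_lit 0) (XT.lf (nat_lit 0) (nat_lit 1274407684) (nat_lit 336) (nat_lit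 874963972) (nat_lit 420) (nat_lit 6452159186) (nat_lit 49) (nat_lit 5) (nat_lit 53) (nat_lit 5) (nat_lit 54) (nat_lit 4) (nat_lit 333) (nat_lit 279) (nat_lit 276)) (XT.lf (nat_lit 0) (nat_lit 4529257762) (nat_lit 420) (nat_lit 3617497229) (nat_lit 0) (nat_lit 591372803) (nat_lit 49) (nat_lit 5) (nat_lit 54) (nat_lit 4) (nat_lit 49) (nat_lit 4) (nat_lit 334) (nat_lit 279) (nat_lit 275))) (XT.nd (nat_lit 94) (nat_lit 84) (nat_lit 0) (XT.lf (nat_lit 0) (nat_lit 124807968) (nat_lit 420) (nat_lit 6802918240) (nat_lit 420) (nat_lit 1953435167) (nat_lit 44) (nat_lit 4) (nat_lit 49) (nat_lit 5) (nat_lit 49) (nat_lit 4) (nat_lit 335) (nat_lit 279) (nat_lit 274)) (XT.nd (nat_lit 94) (nat_lit 0) (nat_lit 0) (XT.lf (nat_lit 0) (nat_lit 337286987) (nat_lit 504) (nat_lit 5048641480) (nat_lit 84) (nat_lit 3643889446) (nat_lit 43) (nat_lit 5) (nat_lit 49) (nat_lit 5) (nat_lit 44) (nat_lit 4) (nat_lit 336)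 (nat_lit 279) (nat_lit 273)) (XT.lf (nat_lit 0) (nat_lit 2595123707) (nat_lit 504) (nat_lit 1320577699) (nat_lit 84) (nat_lit 5269173102) (nat_lit 43) (nat_lit 5) (nat_lit 49) (nat_lit 5) (nat_lit 44) (nat_lit 4) (nat_lit 337) (nat_lit 279) (nat_lit 272))))))))
noncomputable def xc15 : XT := (XT.nd (nat_lit 1598) (nat_lit 840) (nat_lit 0) (XT.nd (nat_lit 752) (nat_lit 840) (nat_lit 0) (XT.nd (nat_lit 376) (nat_lit 336) (nat_lit 0) (XT.nd (nat_lit 188) (nat_lit 420) (nat_lit 0) (XT.nd (nat_lit 94) (nat_lit 0) (nat_lit 0) (XT.lf (nat_lit 0) (nat_lit 2501082436) (nat_lit 336) (nat_lit 2385265509) (nat_lit 420) (nat_lit 4459959332) (nat_lit 39) (nat_lit 5) (nat_lit 43) (nat_lit 5) (nat_lit 44) (nat_lit 4) (nat_lit 338) (nat_lit 279) (nat_lit 271)) (XT.lf (nat_lit 0) (nat_lit 6397577358) (nat_lit 336) (nat_lit 804526494) (nat_lit 420) (nat_lit 2312503573) (nat_lit 39) (nat_lit 5) (nat_lit 43)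 (nat_lit 5) (nat_lit 44) (nat_lit 4) (nat_lit 339) (nat_lit 279) (nat_lit 270))) (XT.nd (nat_lit 94) (nat_lit 84) (nat_lit 0) (XT.lf (nat_lit 0) (nat_lit 660264782) (nat_lit 336) (nat_lit 8885542434) (nat_lit 336) (nat_lit 144085639) (nat_lit 35) (nat_lit 4) (nat_lit 39) (nat_lit 5) (nat_lit 39) (nat_lit 4) (nat_lit 340) (nat_lit 279) (nat_lit 269)) (XT.lf (nat_lit 0) (nat_lit 2032013957) (nat_lit 420) (nat_lit 5350631275) (nat_lit 84) (nat_lit 2488247758) (nat_lit 34) (nat_lit 5) (nat_lit 39) (nat_lit 5) (nat_lit 35) (nat_lit 4) (nat_lit 341) (nat_lit 279) (nat_lit 268)))) (XT.nd (nat_lit 188) (nat_lit 84) (nat_lit 0) (XT.nd (nat_lit 94) (nat_lit 252) (nat_lit 0) (XT.lf (nat_lit 0) (nat_lit 4215842754) (nat_lit 420) (nat_lit 1629333986) (nat_lit 84) (nat_lit 4214413666) (nat_lit 34) (nat_lit 5) (nat_lit 39) (nat_lit 5) (nat_lit 35) (nat_lit 4) (nat_lit 342) (nat_lit 279) (nat_lit 267))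 (XT.lf (nat_lit 0) (nat_lit 2183147332) (nat_lit 252) (nat_lit 4250849072) (nat_lit 336) (nat_lit 3821537526) (nat_lit 31) (nat_lit 5) (nat_lit 34) (nat_lit 5) (nat_lit 35) (nat_lit 4) (nat_lit 343) (nat_lit 279) (nat_lit 266))) (XT.nd (nat_lit 94) (nat_lit 84) (nat_lit 0) (XT.lf (nat_lit 0) (nat_lit 6080884933) (nat_lit 252) (nat_lit 2602989197) (nat_lit 336) (nat_lit 1775176791) (nat_lit 31) (nat_lit 5) (nat_lit 34) (nat_lit 5) (nat_lit 35) (nat_lit 4) (nat_lit 344) (nat_lit 279) (nat_lit 265)) (XT.lf (nat_lit 0) (nat_lit 274588957) (nat_lit 336) (nat_lit 639612939) (nat_lit 84) (nat_lit 9756554364) (nat_lit 30) (nat_lit 5) (nat_lit 34) (nat_lit 5) (nat_lit 31) (nat_lit 5) (nat_lit 345) (nat_lit 279) (nat_lit 264))))) (XT.nd (nat_lit 376) (nat_lit 336) (nat_lit 0) (XT.nd (nat_lit 188) (nat_lit 252) (nat_lit 0) (XT.nd (nat_lit 94) (nat_lit 0) (nat_lit 0) (XT.lf (nat_lit 0) (nat_lit 2339624403)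 (nat_lit 336) (nat_lit 7701766270) (nat_lit 84) (nat_lit 847744608) (nat_lit 27) (nat_lit 5) (nat_lit 31) (nat_lit 5) (nat_lit 28) (nat_lit 4) (nat_lit 346) (nat_lit 279) (nat_lit 263)) (XT.lf (nat_lit 0) (nat_lit 4433866664) (nat_lit 336) (nat_lit 4042901642) (nat_lit 84) (nat_lit 2638905500) (nat_lit 27) (nat_lit 5) (nat_lit 31) (nat_lit 5) (nat_lit 28) (nat_lit 4) (nat_lit 347) (nat_lit 279) (nat_lit 262))) (XT.nd (nat_lit 94) (nat_lit 252) (nat_lit 0) (XT.lf (nat_lit 0) (nat_lit 6543657061) (nat_lit 336) (nat_lit 334582141) (nat_lit 84) (nat_lit 4472827724) (nat_lit 27) (nat_lit 5) (nat_lit 31) (nat_lit 5) (nat_lit 28) (nat_lit 4) (nat_lit 348) (nat_lit 279) (nat_lit 261)) (XT.lf (nat_lit 0) (nat_lit 3497107701) (nat_lit 252) (nat_lit 5208546179) (nat_lit 336) (nat_lit 2888804725) (nat_lit 24) (nat_lit 5) (nat_lit 27) (nat_lit 5) (nat_lit 28) (nat_lit 4) (nat_lit 349) (nat_lit 279)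 (nat_lit 260)))) (XT.nd (nat_lit 188) (nat_lit 252) (nat_lit 0) (XT.nd (nat_lit 94) (nat_lit 84) (nat_lit 0) (XT.lf (nat_lit 0) (nat_lit 7393254571) (nat_lit 252) (nat_lit 3497852201) (nat_lit 336) (nat_lit 955922675) (nat_lit 24) (nat_lit 5) (nat_lit 27) (nat_lit 5) (nat_lit 28) (nat_lit 4) (nat_lit 350) (nat_lit 279) (nat_lit 259)) (XT.lf (nat_lit 0) (nat_lit 969608444) (nat_lit 336) (nat_lit 768325904) (nat_lit 84) (nat_lit 10370881220) (nat_lit 23) (nat_lit 5) (nat_lit 27) (nat_lit 5) (nat_lit 24) (nat_lit 5) (nat_lit 351) (nat_lit 279) (nat_lit 258))) (XT.nd (nat_lit 94) (nat_lit 0) (nat_lit 0) (XT.lf (nat_lit 0) (nat_lit 2921010683) (nat_lit 336) (nat_lit 9356615896) (nat_lit 84) (nat_lit 101478939) (nat_lit 20) (nat_lit 5) (nat_lit 24) (nat_lit 5) (nat_lit 21) (nat_lit 4) (nat_lit 352) (nat_lit 279) (nat_lit 257)) (XT.nd (nat_lit 94) (nat_lit 0) (nat_lit 0) (XT.lf (nat_lit 0) (nat_lit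 4914431363) (nat_lit 336) (nat_lit 5788122429) (nat_lit 84) (nat_lit 1956044278) (nat_lit 20) (nat_lit 5) (nat_lit 24) (nat_lit 5) (nat_lit 21) (nat_lit 4) (nat_lit 353) (nat_lit 279) (nat_lit 256)) (XT.lf (nat_lit 0) (nat_lit 6926629870) (nat_lit 336) (nat_lit 2167054278) (nat_lit 84) (nat_lit 3854647655) (nat_lit 20) (nat_lit 5) (nat_lit 24) (nat_lit 5) (nat_lit 21) (nat_lit 4) (nat_lit 354) (nat_lit 279) (nat_lit 255))))))) (XT.nd (nat_lit 846) (nat_lit 252) (nat_lit 0) (XT.nd (nat_lit 376) (nat_lit 336) (nat_lit 0) (XT.nd (nat_lit 188) (nat_lit 84) (nat_lit 0) (XT.nd (nat_lit 94) (nat_lit 0) (nat_lit 0) (XT.lf (nat_lit 0) (nat_lit 1541011724) (nat_lit 168) (nat_lit 7433757087) (nat_lit 252) (nat_lit 4273334070) (nat_lit 18) (nat_lit 5) (nat_lit 20) (nat_lit 5) (nat_lit 21) (nat_lit 4) (nat_lit 355) (nat_lit 279) (nat_lit 254)) (XT.lf (nat_lit 0) (nat_lit 5354234992) (nat_lit 168) (nat_lit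 5713761619) (nat_lit 252) (nat_lit 2489969691) (nat_lit 18) (nat_lit 5) (nat_lit 20) (nat_lit 5) (nat_lit 21) (nat_lit 4) (nat_lit 356) (nat_lit 279) (nat_lit 253))) (XT.nd (nat_lit 94) (nat_lit 84) (nat_lit 0) (XT.lf (nat_lit 0) (nat_lit 9231610767) (nat_lit 168) (nat_lit 3954714131) (nat_lit 252) (nat_lit 692566117) (nat_lit 18) (nat_lit 5) (nat_lit 20) (nat_lit 5) (nat_lit 21) (nat_lit 4) (nat_lit 357) (nat_lit 279) (nat_lit 252)) (XT.lf (nat_lit 0) (nat_lit 1097975394) (nat_lit 252) (nat_lit 1045538999) (nat_lit 84) (nat_lit 12067317165) (nat_lit 17) (nat_lit 5) (nat_lit 20) (nat_lit 5) (nat_lit 18) (nat_lit 5) (nat_lit 358) (nat_lit 279) (nat_lit 251)))) (XT.nd (nat_lit 188) (nat_lit 168) (nat_lit 0) (XT.nd (nat_lit 94) (nat_lit 0) (nat_lit 0) (XT.lf (nat_lit 0) (nat_lit 2662578027) (nat_lit 168) (nat_lit 255452234) (nat_lit 252) (nat_lit 11635374853) (nat_lit 15) (nat_lit 5) (nat_lit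 17) (nat_lit 5) (nat_lit 18) (nat_lit 5) (nat_lit 359) (nat_lit 279) (nat_lit 250)) (XT.lf (nat_lit 0) (nat_lit 4784783703) (nat_lit 252) (nat_lit 8467868891) (nat_lit 84) (nat_lit 1654443797) (nat_lit 15) (nat_lit 5) (nat_lit 18) (nat_lit 5) (nat_lit 16) (nat_lit 4) (nat_lit 360) (nat_lit 279) (nat_lit 249))) (XT.nd (nat_lit 94) (nat_lit 168) (nat_lit 0) (XT.lf (nat_lit 0) (nat_lit 6675623110) (nat_lit 252) (nat_lit 4992364506) (nat_lit 84) (nat_lit 3605002382) (nat_lit 15) (nat_lit 5) (nat_lit 18) (nat_lit 5) (nat_lit 16) (nat_lit 4) (nat_lit 361) (nat_lit 279) (nat_lit 248)) (XT.nd (nat_lit 94) (nat_lit 168) (nat_lit 0) (XT.lf (nat_lit 0) (nat_lit 8589776824) (nat_lit 252) (nat_lit 1458540279) (nat_lit 84) (nat_lit 5603188438) (nat_lit 15) (nat_lit 5) (nat_lit 18) (nat_lit 5) (nat_lit 16) (nat_lit 4) (nat_lit 362) (nat_lit 279) (nat_lit 247)) (XT.lf (nat_lit 0) (nat_lit 2180836681) (nat_lit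 168) (nat_lit 8369826528) (nat_lit 252) (nat_lit 5491661972) (nat_lit 13) (nat_lit 5) (nat_lit 15) (nat_lit 5) (nat_lit 16) (nat_lit 4) (nat_lit 363) (nat_lit 279) (nat_lit 246)))))) (XT.nd (nat_lit 376) (nat_lit 168) (nat_lit 0) (XT.nd (nat_lit 188) (nat_lit 84) (nat_lit 0) (XT.nd (nat_lit 94) (nat_lit 0) (nat_lit 0) (XT.lf (nat_lit 0) (nat_lit 5916505096) (nat_lit 168) (nat_lit 6637374707) (nat_lit 252) (nat_lit 3892126533) (nat_lit 13) (nat_lit 5) (nat_lit 15) (nat_lit 5) (nat_lit 16) (nat_lit 4) (nat_lit 364) (nat_lit 279) (nat_lit 245)) (XT.lf (nat_lit 0) (nat_lit 9721956421) (nat_lit 168) (nat_lit 4864570983) (nat_lit 252) (nat_lit 2276855634) (nat_lit 13) (nat_lit 5) (nat_lit 15) (nat_lit 5) (nat_lit 16) (nat_lit 4) (nat_lit 365) (nat_lit 279) (nat_lit 244))) (XT.nd (nat_lit 94) (nat_lit 84) (nat_lit 0) (XT.lf (nat_lit 0) (nat_lit 13600737735) (nat_lit 168) (nat_lit 3049762918) (nat_lit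 252) (nat_lit 644343676) (nat_lit 13) (nat_lit 5) (nat_lit 15) (nat_lit 5) (nat_lit 16) (nat_lit 4) (nat_lit 366) (nat_lit 279) (nat_lit 243)) (XT.lf (nat_lit 0) (nat_lit 986643598) (nat_lit 252) (nat_lit 194316785) (nat_lit 84) (nat_lit 16559522334) (nat_lit 12) (nat_lit 5) (nat_lit 15) (nat_lit 5) (nat_lit 13) (nat_lit 5) (nat_lit 367) (nat_lit 279) (nat_lit 242)))) (XT.nd (nat_lit 188) (nat_lit 0) (nat_lit 0) (XT.nd (nat_lit 94) (nat_lit 0) (nat_lit 0) (XT.lf (nat_lit 0) (nat_lit 2666295252) (nat_lit 252) (nat_lit 14773660041) (nat_lit 84) (nat_lit 759569481) (nat_lit 10) (nat_lit 5) (nat_lit 13) (nat_lit 5) (nat_lit 11) (nat_lit 4) (nat_lit 368) (nat_lit 279) (nat_lit 241)) (XT.lf (nat_lit 0) (nat_lit 4382243739) (nat_lit 252) (nat_lit 11565719038) (nat_lit 84) (nat_lit 2725468120) (nat_lit 10) (nat_lit 5) (nat_lit 13) (nat_lit 5) (nat_lit 11) (nat_lit 4) (nat_lit 369) (nat_lit 279)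 (nat_lit 240))) (XT.nd (nat_lit 94) (nat_lit 0) (nat_lit 0) (XT.lf (nat_lit 0) (nat_lit 6122385829) (nat_lit 252) (nat_lit 8300307501) (nat_lit 84) (nat_lit 4740374270) (nat_lit 10) (nat_lit 5) (nat_lit 13) (nat_lit 5) (nat_lit 11) (nat_lit 4) (nat_lit 370) (nat_lit 279) (nat_lit 239)) (XT.nd (nat_lit 94) (nat_lit 0) (nat_lit 0) (XT.lf (nat_lit 0) (nat_lit 7888343515) (nat_lit 252) (nat_lit 4974381725) (nat_lit 84) (nat_lit 6806166036) (nat_lit 10) (nat_lit 5) (nat_lit 13) (nat_lit 5) (nat_lit 11) (nat_lit 4) (nat_lit 371) (nat_lit 279) (nat_lit 238)) (XT.lf (nat_lit 0) (nat_lit 9681762856) (nat_lit 252) (nat_lit 1584841599) (nat_lit 84) (nat_lit 8924768952) (nat_lit 10) (nat_lit 5) (nat_lit 13) (nat_lit 5) (nat_lit 11) (nat_lit 4) (nat_lit 372) (nat_lit 279) (nat_lit 237))))))))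
noncomputable def xc16 : XT := (XT.nd (nat_lit 52828) (nat_lit 0) (nat_lit 672) (XT.nd (nat_lit 51982) (nat_lit 0) (nat_lit 2100) (XT.nd (nat_lit 51606) (nat_lit 0) (nat_lit 3696) (XT.nd (nat_lit 188) (nat_lit 0) (nat_lit 0) (XT.nd (nat_lit 94) (nat_lit 0) (nat_lit 0) (XT.lf (nat_lit 0) (nat_lit 1909953592) (nat_lit 84) (nat_lit 9613308888) (nat_lit 168) (nat_lit 9207151160) (nat_lit 9) (nat_lit 5) (nat_lit 10) (nat_lit 5) (nat_lit 11) (nat_lit 4) (nat_lit 373) (nat_lit 279) (nat_lit 236)) (XT.lf (nat_lit 0) (nat_lit 5508771030) (nat_lit 84) (nat_lit 7903576932) (nat_lit 168) (nat_lit 7874234998) (nat_lit 9) (nat_lit 5) (nat_lit 10) (nat_lit 5) (nat_lit 11) (nat_lit 4) (nat_lit 374) (nat_lit 279) (nat_lit 235))) (XT.nd (nat_lit 51324) (nat_lit 0) (nat_lit 4704) (XT.lf (nat_lit 0) (nat_lit 9182377595) (nat_lit 84) (nat_lit 6152357434) (nat_lit 168) (nat_lit 6526162141) (nat_lit 9) (nat_lit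 5) (nat_lit 10) (nat_lit 5) (nat_lit 11) (nat_lit 4) (nat_lit 375) (nat_lit 279) (nat_lit 234)) (XT.lf (nat_lit 0) (nat_lit 3538025975) (nat_lit 504) (nat_lit 231378054) (nat_lit 504) (nat_lit 231378054) (nat_lit 65) (nat_lit 4) (nat_lit 71) (nat_lit 5) (nat_lit 71) (nat_lit 4) (nat_lit 328) (nat_lit 280) (nat_lit 280)))) (XT.nd (nat_lit 188) (nat_lit 504) (nat_lit 0) (XT.nd (nat_lit 94) (nat_lit 0) (nat_lit 0) (XT.lf (nat_lit 0) (nat_lit 1943148671) (nat_lit 504) (nat_lit 5319906357) (nat_lit 0) (nat_lit 848296687) (nat_lit 59) (nat_lit 5) (nat_lit 65) (nat_lit 4) (nat_lit 59) (nat_lit 4) (nat_lit 329) (nat_lit 280) (nat_lit 279)) (XT.lf (nat_lit 0) (nat_lit 4357637436) (nat_lit 504) (nat_lit 1668225235) (nat_lit 0) (nat_lit 2200853362) (nat_lit 59) (nat_lit 5) (nat_lit 65) (nat_lit 4) (nat_lit 59) (nat_lit 4) (nat_lit 330) (nat_lit 280) (nat_lit 278))) (XT.nd (nat_lit 94) (nat_lit 84)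 (nat_lit 0) (XT.lf (nat_lit 0) (nat_lit 2062889483) (nat_lit 420) (nat_lit 4735802470) (nat_lit 420) (nat_lit 1549016369) (nat_lit 54) (nat_lit 4) (nat_lit 59) (nat_lit 5) (nat_lit 59) (nat_lit 4) (nat_lit 331) (nat_lit 280) (nat_lit 277)) (XT.lf (nat_lit 0) (nat_lit 774937740) (nat_lit 504) (nat_lit 2611919582) (nat_lit 84) (nat_lit 5087439272) (nat_lit 53) (nat_lit 5) (nat_lit 59) (nat_lit 5) (nat_lit 54) (nat_lit 4) (nat_lit 332) (nat_lit 280) (nat_lit 276))))) (XT.nd (nat_lit 376) (nat_lit 756) (nat_lit 0) (XT.nd (nat_lit 188) (nat_lit 504) (nat_lit 0) (XT.nd (nat_lit 94) (nat_lit 0) (nat_lit 0) (XT.lf (nat_lit 0) (nat_lit 1107100793) (nat_lit 336) (nat_lit 1976066203) (nat_lit 420) (nat_lit 5523380622) (nat_lit 49) (nat_lit 5) (nat_lit 53) (nat_lit 5) (nat_lit 54) (nat_lit 4) (nat_lit 333) (nat_lit 280) (nat_lit 275)) (XT.lf (nat_lit 0) (nat_lit 4923331768) (nat_lit 336) (nat_lit 501582461)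 (nat_lit 420) (nat_lit 3319654451) (nat_lit 49) (nat_lit 5) (nat_lit 53) (nat_lit 5) (nat_lit 54) (nat_lit 4) (nat_lit 334) (nat_lit 280) (nat_lit 274))) (XT.nd (nat_lit 94) (nat_lit 504) (nat_lit 0) (XT.lf (nat_lit 0) (nat_lit 7785945176) (nat_lit 420) (nat_lit 112710447) (nat_lit 0) (nat_lit 990341735) (nat_lit 49) (nat_lit 5) (nat_lit 54) (nat_lit 4) (nat_lit 49) (nat_lit 4) (nat_lit 335) (nat_lit 280) (nat_lit 273)) (XT.lf (nat_lit 0) (nat_lit 1138206940) (nat_lit 504) (nat_lit 5341507741) (nat_lit 84) (nat_lit 2558900564) (nat_lit 43) (nat_lit 5) (nat_lit 49) (nat_lit 5) (nat_lit 44) (nat_lit 4) (nat_lit 336) (nat_lit 280) (nat_lit 272)))) (XT.nd (nat_lit 188) (nat_lit 420) (nat_lit 0) (XT.nd (nat_lit 94) (nat_lit 336) (nat_lit 0) (XT.lf (nat_lit 0) (nat_lit 3365804139) (nat_lit 504) (nat_lit 1649074122) (nat_lit 84) (nat_lit 4179945012) (nat_lit 43) (nat_lit 5) (nat_lit 49) (nat_lit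 5) (nat_lit 44) (nat_lit 4) (nat_lit 337) (nat_lit 280) (nat_lit 271)) (XT.lf (nat_lit 0) (nat_lit 2130562013) (nat_lit 336) (nat_lit 3493460473) (nat_lit 420) (nat_lit 3733464312) (nat_lit 39) (nat_lit 5) (nat_lit 43) (nat_lit 5) (nat_lit 44) (nat_lit 4) (nat_lit 338) (nat_lit 280) (nat_lit 270))) (XT.nd (nat_lit 94) (nat_lit 420) (nat_lit 0) (XT.lf (nat_lit 0) (nat_lit 5992847975) (nat_lit 336) (nat_lit 1918142680) (nat_lit 420) (nat_lit 1615890044) (nat_lit 39) (nat_lit 5) (nat_lit 43) (nat_lit 5) (nat_lit 44) (nat_lit 4) (nat_lit 339) (nat_lit 280) (nat_lit 269)) (XT.nd (nat_lit 94) (nat_lit 0) (nat_lit 0) (XT.lf (nat_lit 0) (nat_lit 202837739) (nat_lit 336) (nat_lit 297394525) (nat_lit 420) (nat_lit 9203229422) (nat_lit 34) (nat_lit 5) (nat_lit 38) (nat_lit 5) (nat_lit 39) (nat_lit 5) (nat_lit 340) (nat_lit 280) (nat_lit 268)) (XT.lf (nat_lit 0) (nat_lit 2642543220) (nat_lit 420) (nat_lit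 5854707366) (nat_lit 84) (nat_lit 1388308090) (nat_lit 34) (nat_lit 5) (nat_lit 39) (nat_lit 5) (nat_lit 35) (nat_lit 4) (nat_lit 341) (nat_lit 280) (nat_lit 267))))))) (XT.nd (nat_lit 752) (nat_lit 588) (nat_lit 0) (XT.nd (nat_lit 376) (nat_lit 504) (nat_lit 0) (XT.nd (nat_lit 188) (nat_lit 84) (nat_lit 0) (XT.nd (nat_lit 94) (nat_lit 252) (nat_lit 0) (XT.lf (nat_lit 0) (nat_lit 4799276531) (nat_lit 420) (nat_lit 2166970756) (nat_lit 84) (nat_lit 3109026953) (nat_lit 34) (nat_lit 5) (nat_lit 39) (nat_lit 5) (nat_lit 35) (nat_lit 4) (nat_lit 342) (nat_lit 280) (nat_lit 266)) (XT.lf (nat_lit 0) (nat_lit 1601234739) (nat_lit 252) (nat_lit 5384142017) (nat_lit 336) (nat_lit 3287007495) (nat_lit 31) (nat_lit 5) (nat_lit 34) (nat_lit 5) (nat_lit 35) (nat_lit 4) (nat_lit 343) (nat_lit 280) (nat_lit 265))) (XT.nd (nat_lit 94) (nat_lit 84) (nat_lit 0) (XT.lf (nat_lit 0) (nat_lit 5466750316) (nat_lit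 252) (nat_lit 3742693947) (nat_lit 336) (nat_lit 1267424729) (nat_lit 31) (nat_lit 5) (nat_lit 34) (nat_lit 5) (nat_lit 35) (nat_lit 4) (nat_lit 344) (nat_lit 280) (nat_lit 264)) (XT.lf (nat_lit 0) (nat_lit 746661428) (nat_lit 336) (nat_lit 1308536765) (nat_lit 84) (nat_lit 8634166631) (nat_lit 30) (nat_lit 5) (nat_lit 34) (nat_lit 5) (nat_lit 31) (nat_lit 5) (nat_lit 345) (nat_lit 280) (nat_lit 263)))) (XT.nd (nat_lit 188) (nat_lit 252) (nat_lit 0) (XT.nd (nat_lit 94) (nat_lit 0) (nat_lit 0) (XT.lf (nat_lit 0) (nat_lit 2481928585) (nat_lit 252) (nat_lit 289415494) (nat_lit 336) (nat_lit 8137803665) (nat_lit 27) (nat_lit 5) (nat_lit 30) (nat_lit 5) (nat_lit 31) (nat_lit 5) (nat_lit 346) (nat_lit 280) (nat_lit 262)) (XT.lf (nat_lit 0) (nat_lit 4838405419) (nat_lit 336) (nat_lit 4796980259) (nat_lit 84) (nat_lit 1501291562) (nat_lit 27) (nat_lit 5) (nat_lit 31) (nat_lit 5) (nat_lit 28) (nat_lit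 4) (nat_lit 347) (nat_lit 280) (nat_lit 261))) (XT.nd (nat_lit 94) (nat_lit 252) (nat_lit 0) (XT.lf (nat_lit 0) (nat_lit 6924616879) (nat_lit 336) (nat_lit 1119210482) (nat_lit 84) (nat_lit 3329117848) (nat_lit 27) (nat_lit 5) (nat_lit 31) (nat_lit 5) (nat_lit 28) (nat_lit 4) (nat_lit 348) (nat_lit 280) (nat_lit 260)) (XT.lf (nat_lit 0) (nat_lit 2666105357) (nat_lit 252) (nat_lit 6389394728) (nat_lit 336) (nat_lit 2561940902) (nat_lit 24) (nat_lit 5) (nat_lit 27) (nat_lit 5) (nat_lit 28) (nat_lit 4) (nat_lit 349) (nat_lit 280) (nat_lit 259))))) (XT.nd (nat_lit 376) (nat_lit 252) (nat_lit 0) (XT.nd (nat_lit 188) (nat_lit 252) (nat_lit 0) (XT.nd (nat_lit 94) (nat_lit 84) (nat_lit 0) (XT.lf (nat_lit 0) (nat_lit 6532921057) (nat_lit 252) (nat_lit 4685558634) (nat_lit 336) (nat_lit 652364187) (nat_lit 24) (nat_lit 5) (nat_lit 27) (nat_lit 5) (nat_lit 28) (nat_lit 4) (nat_lit 350) (nat_lit 280)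 (nat_lit 258)) (XT.lf (nat_lit 0) (nat_lit 1244901745) (nat_lit 336) (nat_lit 1684517222) (nat_lit 84) (nat_lit 9203931666) (nat_lit 23) (nat_lit 5) (nat_lit 27) (nat_lit 5) (nat_lit 24) (nat_lit 5) (nat_lit 351) (nat_lit 280) (nat_lit 257))) (XT.nd (nat_lit 94) (nat_lit 0) (nat_lit 0) (XT.lf (nat_lit 0) (nat_lit 2059780652) (nat_lit 252) (nat_lit 1104452066) (nat_lit 336) (nat_lit 9240525602) (nat_lit 20) (nat_lit 5) (nat_lit 23) (nat_lit 5) (nat_lit 24) (nat_lit 5) (nat_lit 352) (nat_lit 280) (nat_lit 256)) (XT.lf (nat_lit 0) (nat_lit 5125516293) (nat_lit 336) (nat_lit 6794109197) (nat_lit 84) (nat_lit 765741450) (nat_lit 20) (nat_lit 5) (nat_lit 24) (nat_lit 5) (nat_lit 21) (nat_lit 4) (nat_lit 353) (nat_lit 280) (nat_lit 255)))) (XT.nd (nat_lit 188) (nat_lit 84) (nat_lit 0) (XT.nd (nat_lit 94) (nat_lit 168) (nat_lit 0) (XT.lf (nat_lit 0) (nat_lit 7117170858) (nat_lit 336) (nat_lit 3200762962)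 (nat_lit 84) (nat_lit 2657919928) (nat_lit 20) (nat_lit 5) (nat_lit 24) (nat_lit 5) (nat_lit 21) (nat_lit 4) (nat_lit 354) (nat_lit 280) (nat_lit 254)) (XT.lf (nat_lit 0) (nat_lit 458606612) (nat_lit 168) (nat_lit 8676039365) (nat_lit 252) (nat_lit 4142042146) (nat_lit 18) (nat_lit 5) (nat_lit 20) (nat_lit 5) (nat_lit 21) (nat_lit 4) (nat_lit 355) (nat_lit 280) (nat_lit 253))) (XT.nd (nat_lit 94) (nat_lit 84) (nat_lit 0) (XT.lf (nat_lit 0) (nat_lit 4245213723) (nat_lit 168) (nat_lit 6963068929) (nat_lit 252) (nat_lit 2378985547) (nat_lit 18) (nat_lit 5) (nat_lit 20) (nat_lit 5) (nat_lit 21) (nat_lit 4) (nat_lit 356) (nat_lit 280) (nat_lit 252)) (XT.nd (nat_lit 94) (nat_lit 84) (nat_lit 0) (XT.lf (nat_lit 0) (nat_lit 8096773634) (nat_lit 168) (nat_lit 5210835244) (nat_lit 252) (nat_lit 601279141) (nat_lit 18) (nat_lit 5) (nat_lit 20) (nat_lit 5) (nat_lit 21) (nat_lit 4) (nat_lit 357) (nat_lit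 280) (nat_lit 251)) (XT.lf (nat_lit 0) (nat_lit 1168703148) (nat_lit 252) (nat_lit 2236803033) (nat_lit 84) (nat_lit 10835974390) (nat_lit 17) (nat_lit 5) (nat_lit 20) (nat_lit 5) (nat_lit 18) (nat_lit 5) (nat_lit 358) (nat_lit 280) (nat_lit 250))))))))
noncomputable def xc17 : XT := (XT.nd (nat_lit 52640) (nat_lit 0) (nat_lit 2100) (XT.nd (nat_lit 752) (nat_lit 336) (nat_lit 0) (XT.nd (nat_lit 376) (nat_lit 168) (nat_lit 0) (XT.nd (nat_lit 188) (nat_lit 0) (nat_lit 0) (XT.nd (nat_lit 94) (nat_lit 0) (nat_lit 0) (XT.lf (nat_lit 0) (nat_lit 1421553254) (nat_lit 168) (nat_lit 1536736519) (nat_lit 252) (nat_lit 11626805632) (nat_lit 15) (nat_lit 5) (nat_lit 17) (nat_lit 5) (nat_lit 18) (nat_lit 5) (nat_lit 359) (nat_lit 280) (nat_lit 249)) (XT.lf (nat_lit 0) (nat_lit 4794412446) (nat_lit 252) (nat_lit 9752961019) (nat_lit 84) (nat_lit 392456623) (nat_lit 15) (nat_lit 5) (nat_lit 18) (nat_lit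 5) (nat_lit 16) (nat_lit 4) (nat_lit 360) (nat_lit 280) (nat_lit 248))) (XT.nd (nat_lit 94) (nat_lit 0) (nat_lit 0) (XT.lf (nat_lit 0) (nat_lit 6667870409) (nat_lit 252) (nat_lit 6301789866) (nat_lit 84) (nat_lit 2336693275) (nat_lit 15) (nat_lit 5) (nat_lit 18) (nat_lit 5) (nat_lit 16) (nat_lit 4) (nat_lit 361) (nat_lit 280) (nat_lit 247)) (XT.lf (nat_lit 0) (nat_lit 8565165303) (nat_lit 252) (nat_lit 2791567222) (nat_lit 84) (nat_lit 4328747485) (nat_lit 15) (nat_lit 5) (nat_lit 18) (nat_lit 5) (nat_lit 16) (nat_lit 4) (nat_lit 362) (nat_lit 280) (nat_lit 246)))) (XT.nd (nat_lit 188) (nat_lit 0) (nat_lit 0) (XT.nd (nat_lit 94) (nat_lit 0) (nat_lit 0) (XT.lf (nat_lit 0) (nat_lit 797037331) (nat_lit 168) (nat_lit 9698934983) (nat_lit 252) (nat_lit 5581345433) (nat_lit 13) (nat_lit 5) (nat_lit 15) (nat_lit 5) (nat_lit 16) (nat_lit 4) (nat_lit 363) (nat_lit 280) (nat_lit 245)) (XT.lf (nat_lit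 0) (nat_lit 4510045574) (nat_lit 168) (nat_lit 7973058299) (nat_lit 252) (nat_lit 3998476730) (nat_lit 13) (nat_lit 5) (nat_lit 15) (nat_lit 5) (nat_lit 16) (nat_lit 4) (nat_lit 364) (nat_lit 280) (nat_lit 244))) (XT.nd (nat_lit 94) (nat_lit 0) (nat_lit 0) (XT.lf (nat_lit 0) (nat_lit 8293518070) (nat_lit 168) (nat_lit 6206632012) (nat_lit 252) (nat_lit 2399371433) (nat_lit 13) (nat_lit 5) (nat_lit 15) (nat_lit 5) (nat_lit 16) (nat_lit 4) (nat_lit 365) (nat_lit 280) (nat_lit 243)) (XT.lf (nat_lit 0) (nat_lit 12150981411) (nat_lit 168) (nat_lit 4398009628) (nat_lit 252) (nat_lit 782539011) (nat_lit 13) (nat_lit 5) (nat_lit 15) (nat_lit 5) (nat_lit 16) (nat_lit 4) (nat_lit 366) (nat_lit 280) (nat_lit 242))))) (XT.nd (nat_lit 376) (nat_lit 84) (nat_lit 0) (XT.nd (nat_lit 188) (nat_lit 0) (nat_lit 0) (XT.nd (nat_lit 94) (nat_lit 168) (nat_lit 0) (XT.lf (nat_lit 0) (nat_lit 836330915) (nat_lit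 252) (nat_lit 1700444825) (nat_lit 84) (nat_lit 15240970664) (nat_lit 12) (nat_lit 5) (nat_lit 15) (nat_lit 5) (nat_lit 13) (nat_lit 5) (nat_lit 367) (nat_lit 280) (nat_lit 241)) (XT.lf (nat_lit 0) (nat_lit 1875852232) (nat_lit 168) (nat_lit 602531796) (nat_lit 252) (nat_lit 15759641292) (nat_lit 10) (nat_lit 5) (nat_lit 12) (nat_lit 5) (nat_lit 13) (nat_lit 5) (nat_lit 368) (nat_lit 280) (nat_lit 240))) (XT.nd (nat_lit 94) (nat_lit 0) (nat_lit 0) (XT.lf (nat_lit 0) (nat_lit 4174076251) (nat_lit 252) (nat_lit 13168922368) (nat_lit 84) (nat_lit 1369629929) (nat_lit 10) (nat_lit 5) (nat_lit 13) (nat_lit 5) (nat_lit 11) (nat_lit 4) (nat_lit 369) (nat_lit 280) (nat_lit 239)) (XT.lf (nat_lit 0) (nat_lit 5900368608) (nat_lit 252) (nat_lit 9923556877) (nat_lit 84) (nat_lit 3378836190) (nat_lit 10) (nat_lit 5) (nat_lit 13) (nat_lit 5) (nat_lit 11) (nat_lit 4) (nat_lit 370) (nat_lit 280) (nat_lit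 238)))) (XT.nd (nat_lit 188) (nat_lit 84) (nat_lit 0) (XT.nd (nat_lit 94) (nat_lit 0) (nat_lit 0) (XT.lf (nat_lit 0) (nat_lit 7652892993) (nat_lit 252) (nat_lit 6617074404) (nat_lit 84) (nat_lit 5439099450) (nat_lit 10) (nat_lit 5) (nat_lit 13) (nat_lit 5) (nat_lit 11) (nat_lit 4) (nat_lit 371) (nat_lit 280) (nat_lit 237)) (XT.lf (nat_lit 0) (nat_lit 9433282943) (nat_lit 252) (nat_lit 3246392962) (nat_lit 84) (nat_lit 7552340090) (nat_lit 10) (nat_lit 5) (nat_lit 13) (nat_lit 5) (nat_lit 11) (nat_lit 4) (nat_lit 372) (nat_lit 280) (nat_lit 236))) (XT.nd (nat_lit 94) (nat_lit 0) (nat_lit 0) (XT.lf (nat_lit 0) (nat_lit 195569569) (nat_lit 84) (nat_lit 11049568474) (nat_lit 168) (nat_lit 9526898378) (nat_lit 9) (nat_lit 5) (nat_lit 10) (nat_lit 5) (nat_lit 11) (nat_lit 4) (nat_lit 373) (nat_lit 280) (nat_lit 235)) (XT.nd (nat_lit 94) (nat_lit 0) (nat_lit 0) (XT.lf (nat_lit 0) (nat_lit 3776280550)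 (nat_lit 84) (nat_lit 9345505719) (nat_lit 168) (nat_lit 8206864395) (nat_lit 9) (nat_lit 5) (nat_lit 10) (nat_lit 5) (nat_lit 11) (nat_lit 4) (nat_lit 374) (nat_lit 280) (nat_lit 234)) (XT.lf (nat_lit 0) (nat_lit 7432325082) (nat_lit 84) (nat_lit 7599784961) (nat_lit 168) (nat_lit 6871286378) (nat_lit 9) (nat_lit 5) (nat_lit 10) (nat_lit 5) (nat_lit 11) (nat_lit 4) (nat_lit 375) (nat_lit 280) (nat_lit 233))))))) (XT.nd (nat_lit 752) (nat_lit 1260) (nat_lit 0) (XT.nd (nat_lit 376) (nat_lit 840) (nat_lit 0) (XT.nd (nat_lit 188) (nat_lit 504) (nat_lit 0) (XT.nd (nat_lit 94) (nat_lit 504) (nat_lit 0) (XT.lf (nat_lit 0) (nat_lit 1860118758) (nat_lit 756) (nat_lit 177327823) (nat_lit 0) (nat_lit 1860118758) (nat_lit 71) (nat_lit 5) (nat_lit 80) (nat_lit 4) (nat_lit 71) (nat_lit 4) (nat_lit 326) (nat_lit 281) (nat_lit 281)) (XT.lf (nat_lit 0) (nat_lit 3318690409) (nat_lit 504) (nat_lit 2870610670)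 (nat_lit 504) (nat_lit 1706825710) (nat_lit 65) (nat_lit 4) (nat_lit 71) (nat_lit 5) (nat_lit 71) (nat_lit 4) (nat_lit 327) (nat_lit 281) (nat_lit 280))) (XT.nd (nat_lit 94) (nat_lit 420) (nat_lit 0) (XT.lf (nat_lit 0) (nat_lit 651322438) (nat_lit 588) (nat_lit 969741483) (nat_lit 84) (nat_lit 6381678127) (nat_lit 64) (nat_lit 5) (nat_lit 71) (nat_lit 5) (nat_lit 65) (nat_lit 4) (nat_lit 328) (nat_lit 281) (nat_lit 279)) (XT.lf (nat_lit 0) (nat_lit 2713578539) (nat_lit 420) (nat_lit 290364286) (nat_lit 504) (nat_lit 5110088930) (nat_lit 59) (nat_lit 5) (nat_lit 64) (nat_lit 5) (nat_lit 65) (nat_lit 4) (nat_lit 329) (nat_lit 281) (nat_lit 278)))) (XT.nd (nat_lit 188) (nat_lit 420) (nat_lit 0) (XT.nd (nat_lit 94) (nat_lit 420) (nat_lit 0) (XT.lf (nat_lit 0) (nat_lit 5381702043) (nat_lit 504) (nat_lit 1782982311) (nat_lit 0) (nat_lit 1066123546) (nat_lit 59) (nat_lit 5) (nat_lit 65) (nat_lit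 4) (nat_lit 59) (nat_lit 4) (nat_lit 330) (nat_lit 281) (nat_lit 277)) (XT.lf (nat_lit 0) (nat_lit 1909057610) (nat_lit 420) (nat_lit 5879341592) (nat_lit 420) (nat_lit 564731062) (nat_lit 54) (nat_lit 4) (nat_lit 59) (nat_lit 5) (nat_lit 59) (nat_lit 4) (nat_lit 331) (nat_lit 281) (nat_lit 276))) (XT.nd (nat_lit 94) (nat_lit 336) (nat_lit 0) (XT.lf (nat_lit 0) (nat_lit 1706613313) (nat_lit 504) (nat_lit 2817472134) (nat_lit 84) (nat_lit 3956595835) (nat_lit 53) (nat_lit 5) (nat_lit 59) (nat_lit 5) (nat_lit 54) (nat_lit 4) (nat_lit 332) (nat_lit 281) (nat_lit 275)) (XT.lf (nat_lit 0) (nat_lit 861157033) (nat_lit 336) (nat_lit 3119452746) (nat_lit 420) (nat_lit 4633625548) (nat_lit 49) (nat_lit 5) (nat_lit 53) (nat_lit 5) (nat_lit 54) (nat_lit 4) (nat_lit 333) (nat_lit 281) (nat_lit 274))))) (XT.nd (nat_lit 376) (nat_lit 756) (nat_lit 0) (XT.nd (nat_lit 188) (nat_lit 504) (nat_lit 0) (XT.nd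 (nat_lit 94) (nat_lit 0) (nat_lit 0) (XT.lf (nat_lit 0) (nat_lit 4642310778) (nat_lit 336) (nat_lit 1648861216) (nat_lit 420) (nat_lit 2462285664) (nat_lit 49) (nat_lit 5) (nat_lit 53) (nat_lit 5) (nat_lit 54) (nat_lit 4) (nat_lit 334) (nat_lit 281) (nat_lit 273)) (XT.lf (nat_lit 0) (nat_lit 8471580524) (nat_lit 336) (nat_lit 140348744) (nat_lit 420) (nat_lit 287433032) (nat_lit 49) (nat_lit 5) (nat_lit 53) (nat_lit 5) (nat_lit 54) (nat_lit 4) (nat_lit 335) (nat_lit 281) (nat_lit 272))) (XT.nd (nat_lit 94) (nat_lit 0) (nat_lit 0) (XT.lf (nat_lit 0) (nat_lit 1902538945) (nat_lit 504) (nat_lit 5715817715) (nat_lit 84) (nat_lit 1431667195) (nat_lit 43) (nat_lit 5) (nat_lit 49) (nat_lit 5) (nat_lit 44) (nat_lit 4) (nat_lit 336) (nat_lit 281) (nat_lit 271)) (XT.lf (nat_lit 0) (nat_lit 4100805862) (nat_lit 504) (nat_lit 2057942935) (nat_lit 84) (nat_lit 3048599899) (nat_lit 43) (nat_lit 5) (nat_lit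 49) (nat_lit 5) (nat_lit 44) (nat_lit 4) (nat_lit 337) (nat_lit 281) (nat_lit 270)))) (XT.nd (nat_lit 188) (nat_lit 420) (nat_lit 0) (XT.nd (nat_lit 94) (nat_lit 0) (nat_lit 0) (XT.lf (nat_lit 0) (nat_lit 1679077058) (nat_lit 336) (nat_lit 4647019981) (nat_lit 420) (nat_lit 3045137255) (nat_lit 39) (nat_lit 5) (nat_lit 43) (nat_lit 5) (nat_lit 44) (nat_lit 4) (nat_lit 338) (nat_lit 281) (nat_lit 269)) (XT.lf (nat_lit 0) (nat_lit 5508182650) (nat_lit 336) (nat_lit 3076960405) (nat_lit 420) (nat_lit 956546005) (nat_lit 39) (nat_lit 5) (nat_lit 43) (nat_lit 5) (nat_lit 44) (nat_lit 4) (nat_lit 339) (nat_lit 281) (nat_lit 268))) (XT.nd (nat_lit 94) (nat_lit 336) (nat_lit 0) (XT.lf (nat_lit 0) (nat_lit 1116734640) (nat_lit 420) (nat_lit 340196252) (nat_lit 84) (nat_lit 8262236380) (nat_lit 38) (nat_lit 5) (nat_lit 43) (nat_lit 5) (nat_lit 39) (nat_lit 5) (nat_lit 340) (nat_lit 281) (nat_lit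 267)) (XT.nd (nat_lit 94) (nat_lit 0) (nat_lit 0) (XT.lf (nat_lit 0) (nat_lit 3216967959) (nat_lit 420) (nat_lit 6442571556) (nat_lit 84) (nat_lit 243207342) (nat_lit 34) (nat_lit 5) (nat_lit 39) (nat_lit 5) (nat_lit 35) (nat_lit 4) (nat_lit 341) (nat_lit 281) (nat_lit 266)) (XT.lf (nat_lit 0) (nat_lit 5347420490) (nat_lit 420) (nat_lit 2787386526) (nat_lit 84) (nat_lit 1958642939) (nat_lit 34) (nat_lit 5) (nat_lit 39) (nat_lit 5) (nat_lit 35) (nat_lit 4) (nat_lit 342) (nat_lit 281) (nat_lit 265))))))))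
noncomputable def xc18 : XT := (XT.nd (nat_lit 1598) (nat_lit 504) (nat_lit 0) (XT.nd (nat_lit 752) (nat_lit 756) (nat_lit 0) (XT.nd (nat_lit 376) (nat_lit 252) (nat_lit 0) (XT.nd (nat_lit 188) (nat_lit 336) (nat_lit 0) (XT.nd (nat_lit 94) (nat_lit 0) (nat_lit 0) (XT.lf (nat_lit 0) (nat_lit 935839924) (nat_lit 252) (nat_lit 6565589418) (nat_lit 336) (nat_lit 2790293089) (nat_lit 31) (nat_lit 5) (nat_lit 34) (nat_lit 5) (nat_lit 35) (nat_lit 4) (nat_lit 343) (nat_lit 281) (nat_lit 264)) (XT.lf (nat_lit 0) (nat_lit 4770102324) (nat_lit 252) (nat_lit 4930360364) (nat_lit 336) (nat_lit 796683137) (nat_lit 31) (nat_lit 5) (nat_lit 34) (nat_lit 5) (nat_lit 35) (nat_lit 4) (nat_lit 344) (nat_lit 281) (nat_lit 263))) (XT.nd (nat_lit 94) (nat_lit 252) (nat_lit 0) (XT.lf (nat_lit 0) (nat_lit 1183234322) (nat_lit 336) (nat_lit 2061105386) (nat_lit 84) (nat_lit 7466075361) (nat_lit 30) (nat_lit 5)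 (nat_lit 34) (nat_lit 5) (nat_lit 31) (nat_lit 5) (nat_lit 345) (nat_lit 281) (nat_lit 262)) (XT.lf (nat_lit 0) (nat_lit 1683225213) (nat_lit 252) (nat_lit 1492826424) (nat_lit 336) (nat_lit 7755282540) (nat_lit 27) (nat_lit 5) (nat_lit 30) (nat_lit 5) (nat_lit 31) (nat_lit 5) (nat_lit 346) (nat_lit 281) (nat_lit 261)))) (XT.nd (nat_lit 188) (nat_lit 252) (nat_lit 0) (XT.nd (nat_lit 94) (nat_lit 0) (nat_lit 0) (XT.lf (nat_lit 0) (nat_lit 5207596055) (nat_lit 336) (nat_lit 5636481803) (nat_lit 84) (nat_lit 316030742) (nat_lit 27) (nat_lit 5) (nat_lit 31) (nat_lit 5) (nat_lit 28) (nat_lit 4) (nat_lit 347) (nat_lit 281) (nat_lit 260)) (XT.lf (nat_lit 0) (nat_lit 7270937547) (nat_lit 336) (nat_lit 1988343184) (nat_lit 84) (nat_lit 2137944381) (nat_lit 27) (nat_lit 5) (nat_lit 31) (nat_lit 5) (nat_lit 28) (nat_lit 4) (nat_lit 348) (nat_lit 281) (nat_lit 259))) (XT.nd (nat_lit 94) (nat_lit 0)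 (nat_lit 0) (XT.lf (nat_lit 0) (nat_lit 1749770334) (nat_lit 252) (nat_lit 7620777945) (nat_lit 336) (nat_lit 2272277436) (nat_lit 24) (nat_lit 5) (nat_lit 27) (nat_lit 5) (nat_lit 28) (nat_lit 4) (nat_lit 349) (nat_lit 281) (nat_lit 258)) (XT.lf (nat_lit 0) (nat_lit 5588136792) (nat_lit 252) (nat_lit 5923593534) (nat_lit 336) (nat_lit 385305313) (nat_lit 24) (nat_lit 5) (nat_lit 27) (nat_lit 5) (nat_lit 28) (nat_lit 4) (nat_lit 350) (nat_lit 281) (nat_lit 257))))) (XT.nd (nat_lit 376) (nat_lit 420) (nat_lit 0) (XT.nd (nat_lit 188) (nat_lit 0) (nat_lit 0) (XT.nd (nat_lit 94) (nat_lit 252) (nat_lit 0) (XT.lf (nat_lit 0) (nat_lit 1485096795) (nat_lit 336) (nat_lit 2686301607) (nat_lit 84) (nat_lit 7988851373) (nat_lit 23) (nat_lit 5) (nat_lit 27) (nat_lit 5) (nat_lit 24) (nat_lit 5) (nat_lit 351) (nat_lit 281) (nat_lit 256)) (XT.lf (nat_lit 0) (nat_lit 1009523508) (nat_lit 252) (nat_lit 2363648351)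 (nat_lit 336) (nat_lit 9059574353) (nat_lit 20) (nat_lit 5) (nat_lit 23) (nat_lit 5) (nat_lit 24) (nat_lit 5) (nat_lit 352) (nat_lit 281) (nat_lit 255))) (XT.nd (nat_lit 94) (nat_lit 0) (nat_lit 0) (XT.lf (nat_lit 0) (nat_lit 4821957465) (nat_lit 252) (nat_lit 484266628) (nat_lit 336) (nat_lit 7408122123) (nat_lit 20) (nat_lit 5) (nat_lit 23) (nat_lit 5) (nat_lit 24) (nat_lit 5) (nat_lit 353) (nat_lit 281) (nat_lit 254)) (XT.lf (nat_lit 0) (nat_lit 7273148445) (nat_lit 336) (nat_lit 4321126910) (nat_lit 84) (nat_lit 1411437027) (nat_lit 20) (nat_lit 5) (nat_lit 24) (nat_lit 5) (nat_lit 21) (nat_lit 4) (nat_lit 354) (nat_lit 281) (nat_lit 253)))) (XT.nd (nat_lit 188) (nat_lit 252) (nat_lit 0) (XT.nd (nat_lit 94) (nat_lit 168) (nat_lit 0) (XT.lf (nat_lit 0) (nat_lit 9266747041) (nat_lit 336) (nat_lit 697077136) (nat_lit 84) (nat_lit 3343572082) (nat_lit 20) (nat_lit 5) (nat_lit 24) (nat_lit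 5) (nat_lit 21) (nat_lit 4) (nat_lit 355) (nat_lit 281) (nat_lit 252)) (XT.lf (nat_lit 0) (nat_lit 3049380775) (nat_lit 168) (nat_lit 8264943600) (nat_lit 252) (nat_lit 2304565842) (nat_lit 18) (nat_lit 5) (nat_lit 20) (nat_lit 5) (nat_lit 21) (nat_lit 4) (nat_lit 356) (nat_lit 281) (nat_lit 251))) (XT.nd (nat_lit 94) (nat_lit 252) (nat_lit 0) (XT.lf (nat_lit 0) (nat_lit 6875901050) (nat_lit 168) (nat_lit 6519318842) (nat_lit 252) (nat_lit 545964351) (nat_lit 18) (nat_lit 5) (nat_lit 20) (nat_lit 5) (nat_lit 21) (nat_lit 4) (nat_lit 357) (nat_lit 281) (nat_lit 250)) (XT.nd (nat_lit 94) (nat_lit 168) (nat_lit 0) (XT.lf (nat_lit 0) (nat_lit 1204746345) (nat_lit 252) (nat_lit 3515277427) (nat_lit 84) (nat_lit 9554395644) (nat_lit 17) (nat_lit 5) (nat_lit 20) (nat_lit 5) (nat_lit 18) (nat_lit 5) (nat_lit 358) (nat_lit 281) (nat_lit 249)) (XT.lf (nat_lit 0) (nat_lit 92284589) (nat_lit 168) (nat_lit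 2871250695) (nat_lit 252) (nat_lit 11655547547) (nat_lit 15) (nat_lit 5) (nat_lit 17) (nat_lit 5) (nat_lit 18) (nat_lit 5) (nat_lit 359) (nat_lit 281) (nat_lit 248))))))) (XT.nd (nat_lit 752) (nat_lit 252) (nat_lit 0) (XT.nd (nat_lit 376) (nat_lit 252) (nat_lit 0) (XT.nd (nat_lit 188) (nat_lit 0) (nat_lit 0) (XT.nd (nat_lit 94) (nat_lit 0) (nat_lit 0) (XT.lf (nat_lit 0) (nat_lit 3837927482) (nat_lit 168) (nat_lit 940439764) (nat_lit 252) (nat_lit 10196201311) (nat_lit 15) (nat_lit 5) (nat_lit 17) (nat_lit 5) (nat_lit 18) (nat_lit 5) (nat_lit 360) (nat_lit 281) (nat_lit 247)) (XT.lf (nat_lit 0) (nat_lit 6625637109) (nat_lit 252) (nat_lit 7699742227) (nat_lit 84) (nat_lit 1016612807) (nat_lit 15) (nat_lit 5) (nat_lit 18) (nat_lit 5) (nat_lit 16) (nat_lit 4) (nat_lit 361) (nat_lit 281) (nat_lit 246))) (XT.nd (nat_lit 94) (nat_lit 0) (nat_lit 0) (XT.lf (nat_lit 0) (nat_lit 8506580092) (nat_lit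 252) (nat_lit 4212411517) (nat_lit 84) (nat_lit 3002719543) (nat_lit 15) (nat_lit 5) (nat_lit 18) (nat_lit 5) (nat_lit 16) (nat_lit 4) (nat_lit 362) (nat_lit 281) (nat_lit 245)) (XT.lf (nat_lit 0) (nat_lit 10413620151) (nat_lit 252) (nat_lit 662069109) (nat_lit 84) (nat_lit 5038679469) (nat_lit 15) (nat_lit 5) (nat_lit 18) (nat_lit 5) (nat_lit 16) (nat_lit 4) (nat_lit 363) (nat_lit 281) (nat_lit 244)))) (XT.nd (nat_lit 188) (nat_lit 84) (nat_lit 0) (XT.nd (nat_lit 94) (nat_lit 0) (nat_lit 0) (XT.lf (nat_lit 0) (nat_lit 3015346804) (nat_lit 168) (nat_lit 9363100657) (nat_lit 252) (nat_lit 4140956120) (nat_lit 13) (nat_lit 5) (nat_lit 15) (nat_lit 5) (nat_lit 16) (nat_lit 4) (nat_lit 364) (nat_lit 281) (nat_lit 243)) (XT.lf (nat_lit 0) (nat_lit 6777501328) (nat_lit 168) (nat_lit 7602860051) (nat_lit 252) (nat_lit 2557530360) (nat_lit 13) (nat_lit 5) (nat_lit 15) (nat_lit 5) (nat_lit 16) (nat_lit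 4) (nat_lit 365) (nat_lit 281) (nat_lit 242))) (XT.nd (nat_lit 94) (nat_lit 84) (nat_lit 0) (XT.lf (nat_lit 0) (nat_lit 10614287684) (nat_lit 168) (nat_lit 5800237356) (nat_lit 252) (nat_lit 955906024) (nat_lit 13) (nat_lit 5) (nat_lit 15) (nat_lit 5) (nat_lit 16) (nat_lit 4) (nat_lit 366) (nat_lit 281) (nat_lit 241)) (XT.lf (nat_lit 0) (nat_lit 652003247) (nat_lit 252) (nat_lit 3294743517) (nat_lit 84) (nat_lit 13870473335) (nat_lit 12) (nat_lit 5) (nat_lit 15) (nat_lit 5) (nat_lit 13) (nat_lit 5) (nat_lit 367) (nat_lit 281) (nat_lit 240))))) (XT.nd (nat_lit 376) (nat_lit 84) (nat_lit 0) (XT.nd (nat_lit 188) (nat_lit 0) (nat_lit 0) (XT.nd (nat_lit 94) (nat_lit 0) (nat_lit 0) (XT.lf (nat_lit 0) (nat_lit 228554489) (nat_lit 168) (nat_lit 2035141449) (nat_lit 252) (nat_lit 16014813411) (nat_lit 10) (nat_lit 5) (nat_lit 12) (nat_lit 5) (nat_lit 13) (nat_lit 5) (nat_lit 368) (nat_lit 281) (nat_lit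 239)) (XT.lf (nat_lit 0) (nat_lit 3891095447) (nat_lit 168) (nat_lit 40634414) (nat_lit 252) (nat_lit 14822307205) (nat_lit 10) (nat_lit 5) (nat_lit 12) (nat_lit 5) (nat_lit 13) (nat_lit 5) (nat_lit 369) (nat_lit 281) (nat_lit 238))) (XT.nd (nat_lit 94) (nat_lit 0) (nat_lit 0) (XT.lf (nat_lit 0) (nat_lit 5644185818) (nat_lit 252) (nat_lit 11636616332) (nat_lit 84) (nat_lit 1963862034) (nat_lit 10) (nat_lit 5) (nat_lit 13) (nat_lit 5) (nat_lit 11) (nat_lit 4) (nat_lit 370) (nat_lit 281) (nat_lit 237)) (XT.lf (nat_lit 0) (nat_lit 7383680813) (nat_lit 252) (nat_lit 8348992543) (nat_lit 84) (nat_lit 4018763019) (nat_lit 10) (nat_lit 5) (nat_lit 13) (nat_lit 5) (nat_lit 11) (nat_lit 4) (nat_lit 371) (nat_lit 281) (nat_lit 236)))) (XT.nd (nat_lit 188) (nat_lit 84) (nat_lit 0) (XT.nd (nat_lit 94) (nat_lit 0) (nat_lit 0) (XT.lf (nat_lit 0) (nat_lit 9151433140) (nat_lit 252) (nat_lit 4996602744)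 (nat_lit 84) (nat_lit 6126802616) (nat_lit 10) (nat_lit 5) (nat_lit 13) (nat_lit 5) (nat_lit 11) (nat_lit 4) (nat_lit 372) (nat_lit 281) (nat_lit 235)) (XT.lf (nat_lit 0) (nat_lit 10949090529) (nat_lit 252) (nat_lit 1576322155) (nat_lit 84) (nat_lit 8289945740) (nat_lit 10) (nat_lit 5) (nat_lit 13) (nat_lit 5) (nat_lit 11) (nat_lit 4) (nat_lit 373) (nat_lit 281) (nat_lit 234))) (XT.nd (nat_lit 94) (nat_lit 0) (nat_lit 0) (XT.lf (nat_lit 0) (nat_lit 1954414375) (nat_lit 84) (nat_lit 10843302241) (nat_lit 168) (nat_lit 8575182323) (nat_lit 9) (nat_lit 5) (nat_lit 10) (nat_lit 5) (nat_lit 11) (nat_lit 4) (nat_lit 374) (nat_lit 281) (nat_lit 233)) (XT.nd (nat_lit 50948) (nat_lit 0) (nat_lit 5208) (XT.lf (nat_lit 0) (nat_lit 5593424927) (nat_lit 84) (nat_lit 9102914888) (nat_lit 168) (nat_lit 7251723453) (nat_lit 9) (nat_lit 5) (nat_lit 10) (nat_lit 5) (nat_lit 11) (nat_lit 4) (nat_lit 375)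 (nat_lit 281) (nat_lit 232)) (XT.lf (nat_lit 0) (nat_lit 45699537) (nat_lit 756) (nat_lit 3712154361) (nat_lit 0) (nat_lit 45699537) (nat_lit 71) (nat_lit 5) (nat_lit 80) (nat_lit 4) (nat_lit 71) (nat_lit 4) (nat_lit 324) (nat_lit 282) (nat_lit 282))))))))
noncomputable def xc19 : XT := (XT.nd (nat_lit 1598) (nat_lit 1428) (nat_lit 0) (XT.nd (nat_lit 752) (nat_lit 1596) (nat_lit 0) (XT.nd (nat_lit 376) (nat_lit 924) (nat_lit 0) (XT.nd (nat_lit 188) (nat_lit 588) (nat_lit 0) (XT.nd (nat_lit 94) (nat_lit 0) (nat_lit 0) (XT.lf (nat_lit 0) (nat_lit 2486992073) (nat_lit 756) (nat_lit 3924844365) (nat_lit 0) (nat_lit 1287129780) (nat_lit 71) (nat_lit 5) (nat_lit 80) (nat_lit 4) (nat_lit 71) (nat_lit 4) (nat_lit 325) (nat_lit 282) (nat_lit 281)) (XT.lf (nat_lit 0) (nat_lit 4884456121) (nat_lit 756) (nat_lit 391279343) (nat_lit 0) (nat_lit 2520808867) (nat_lit 71) (nat_lit 5) (nat_lit 80) (nat_lit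 4) (nat_lit 71) (nat_lit 4) (nat_lit 326) (nat_lit 282) (nat_lit 280))) (XT.nd (nat_lit 94) (nat_lit 84) (nat_lit 0) (XT.lf (nat_lit 0) (nat_lit 3245060738) (nat_lit 504) (nat_lit 4073156572) (nat_lit 504) (nat_lit 580716922) (nat_lit 65) (nat_lit 4) (nat_lit 71) (nat_lit 5) (nat_lit 71) (nat_lit 4) (nat_lit 327) (nat_lit 282) (nat_lit 279)) (XT.lf (nat_lit 0) (nat_lit 1720230283) (nat_lit 588) (nat_lit 1093503927) (nat_lit 84) (nat_lit 5192820538) (nat_lit 64) (nat_lit 5) (nat_lit 71) (nat_lit 5) (nat_lit 65) (nat_lit 4) (nat_lit 328) (nat_lit 282) (nat_lit 278)))) (XT.nd (nat_lit 188) (nat_lit 504) (nat_lit 0) (XT.nd (nat_lit 94) (nat_lit 0) (nat_lit 0) (XT.lf (nat_lit 0) (nat_lit 2551483122) (nat_lit 420) (nat_lit 1486284896) (nat_lit 504) (nat_lit 4081437212) (nat_lit 59) (nat_lit 5) (nat_lit 64) (nat_lit 5) (nat_lit 65) (nat_lit 4) (nat_lit 329) (nat_lit 282) (nat_lit 277)) (XT.lf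 (nat_lit 0) (nat_lit 6262146227) (nat_lit 420) (nat_lit 109774982) (nat_lit 504) (nat_lit 1865676949) (nat_lit 59) (nat_lit 5) (nat_lit 64) (nat_lit 5) (nat_lit 65) (nat_lit 4) (nat_lit 330) (nat_lit 282) (nat_lit 276))) (XT.nd (nat_lit 94) (nat_lit 0) (nat_lit 0) (XT.lf (nat_lit 0) (nat_lit 374425945) (nat_lit 504) (nat_lit 6686929638) (nat_lit 84) (nat_lit 1299796398) (nat_lit 53) (nat_lit 5) (nat_lit 59) (nat_lit 5) (nat_lit 54) (nat_lit 4) (nat_lit 331) (nat_lit 282) (nat_lit 275)) (XT.lf (nat_lit 0) (nat_lit 2602599252) (nat_lit 504) (nat_lit 3101367308) (nat_lit 84) (nat_lit 2785790158) (nat_lit 53) (nat_lit 5) (nat_lit 59) (nat_lit 5) (nat_lit 54) (nat_lit 4) (nat_lit 332) (nat_lit 282) (nat_lit 274))))) (XT.nd (nat_lit 376) (nat_lit 756) (nat_lit 0) (XT.nd (nat_lit 188) (nat_lit 504) (nat_lit 0) (XT.nd (nat_lit 94) (nat_lit 0) (nat_lit 0) (XT.lf (nat_lit 0) (nat_lit 536347161) (nat_lit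 336) (nat_lit 4306189355) (nat_lit 420) (nat_lit 3782064617) (nat_lit 49) (nat_lit 5) (nat_lit 53) (nat_lit 5) (nat_lit 54) (nat_lit 4) (nat_lit 333) (nat_lit 282) (nat_lit 273)) (XT.lf (nat_lit 0) (nat_lit 4283478372) (nat_lit 336) (nat_lit 2839373007) (nat_lit 420) (nat_lit 1642137233) (nat_lit 49) (nat_lit 5) (nat_lit 53) (nat_lit 5) (nat_lit 54) (nat_lit 4) (nat_lit 334) (nat_lit 282) (nat_lit 272))) (XT.nd (nat_lit 94) (nat_lit 420) (nat_lit 0) (XT.lf (nat_lit 0) (nat_lit 492128238) (nat_lit 420) (nat_lit 837257157) (nat_lit 84) (nat_lit 7582483523) (nat_lit 48) (nat_lit 5) (nat_lit 53) (nat_lit 5) (nat_lit 49) (nat_lit 5) (nat_lit 335) (nat_lit 282) (nat_lit 271)) (XT.lf (nat_lit 0) (nat_lit 2630995439) (nat_lit 504) (nat_lit 6171920300) (nat_lit 84) (nat_lit 261138639) (nat_lit 43) (nat_lit 5) (nat_lit 49) (nat_lit 5) (nat_lit 44) (nat_lit 4) (nat_lit 336) (nat_lit 282) (nat_lit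 270)))) (XT.nd (nat_lit 188) (nat_lit 420) (nat_lit 0) (XT.nd (nat_lit 94) (nat_lit 336) (nat_lit 0) (XT.lf (nat_lit 0) (nat_lit 4800813973) (nat_lit 504) (nat_lit 2547565247) (nat_lit 84) (nat_lit 1874083230) (nat_lit 43) (nat_lit 5) (nat_lit 49) (nat_lit 5) (nat_lit 44) (nat_lit 4) (nat_lit 337) (nat_lit 282) (nat_lit 269)) (XT.lf (nat_lit 0) (nat_lit 1146206738) (nat_lit 336) (nat_lit 5847019273) (nat_lit 420) (nat_lit 2394336568) (nat_lit 39) (nat_lit 5) (nat_lit 43) (nat_lit 5) (nat_lit 44) (nat_lit 4) (nat_lit 338) (nat_lit 282) (nat_lit 268))) (XT.nd (nat_lit 94) (nat_lit 420) (nat_lit 0) (XT.lf (nat_lit 0) (nat_lit 4943129624) (nat_lit 336) (nat_lit 4282059810) (nat_lit 420) (nat_lit 333856878) (nat_lit 39) (nat_lit 5) (nat_lit 43) (nat_lit 5) (nat_lit 44) (nat_lit 4) (nat_lit 339) (nat_lit 282) (nat_lit 267)) (XT.nd (nat_lit 94) (nat_lit 336) (nat_lit 0) (XT.lf (nat_lit 0) (nat_lit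 1700161020) (nat_lit 420) (nat_lit 960726266) (nat_lit 84) (nat_lit 7076452159) (nat_lit 38) (nat_lit 5) (nat_lit 43) (nat_lit 5) (nat_lit 39) (nat_lit 5) (nat_lit 340) (nat_lit 282) (nat_lit 266)) (XT.lf (nat_lit 0) (nat_lit 2797805312) (nat_lit 336) (nat_lit 967617170) (nat_lit 420) (nat_lit 6156753507) (nat_lit 34) (nat_lit 5) (nat_lit 38) (nat_lit 5) (nat_lit 39) (nat_lit 5) (nat_lit 341) (nat_lit 282) (nat_lit 265))))))) (XT.nd (nat_lit 846) (nat_lit 588) (nat_lit 0) (XT.nd (nat_lit 376) (nat_lit 504) (nat_lit 0) (XT.nd (nat_lit 188) (nat_lit 84) (nat_lit 0) (XT.nd (nat_lit 94) (nat_lit 252) (nat_lit 0) (XT.lf (nat_lit 0) (nat_lit 5860785557) (nat_lit 420) (nat_lit 3491159588) (nat_lit 84) (nat_lit 762189348) (nat_lit 34) (nat_lit 5) (nat_lit 39) (nat_lit 5) (nat_lit 35) (nat_lit 4) (nat_lit 342) (nat_lit 282) (nat_lit 264)) (XT.lf (nat_lit 0) (nat_lit 186342669) (nat_lit 252) (nat_lit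 7796292510) (nat_lit 336) (nat_lit 2330931319) (nat_lit 31) (nat_lit 5) (nat_lit 34) (nat_lit 5) (nat_lit 35) (nat_lit 4) (nat_lit 343) (nat_lit 282) (nat_lit 263))) (XT.nd (nat_lit 94) (nat_lit 84) (nat_lit 0) (XT.lf (nat_lit 0) (nat_lit 3990291609) (nat_lit 252) (nat_lit 6167095479) (nat_lit 336) (nat_lit 362513232) (nat_lit 31) (nat_lit 5) (nat_lit 34) (nat_lit 5) (nat_lit 35) (nat_lit 4) (nat_lit 344) (nat_lit 282) (nat_lit 262)) (XT.lf (nat_lit 0) (nat_lit 1584714571) (nat_lit 336) (nat_lit 2898020274) (nat_lit 84) (nat_lit 6251191770) (nat_lit 30) (nat_lit 5) (nat_lit 34) (nat_lit 5) (nat_lit 31) (nat_lit 5) (nat_lit 345) (nat_lit 282) (nat_lit 261)))) (XT.nd (nat_lit 188) (nat_lit 252) (nat_lit 0) (XT.nd (nat_lit 94) (nat_lit 0) (nat_lit 0) (XT.lf (nat_lit 0) (nat_lit 799363134) (nat_lit 252) (nat_lit 2746178519) (nat_lit 336) (nat_lit 7410439668) (nat_lit 27) (nat_lit 5) (nat_lit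 30) (nat_lit 5) (nat_lit 31) (nat_lit 5) (nat_lit 346) (nat_lit 282) (nat_lit 260)) (XT.lf (nat_lit 0) (nat_lit 4614219102) (nat_lit 252) (nat_lit 936857334) (nat_lit 336) (nat_lit 5634625183) (nat_lit 27) (nat_lit 5) (nat_lit 30) (nat_lit 5) (nat_lit 31) (nat_lit 5) (nat_lit 347) (nat_lit 282) (nat_lit 259))) (XT.nd (nat_lit 94) (nat_lit 252) (nat_lit 0) (XT.lf (nat_lit 0) (nat_lit 7582941872) (nat_lit 336) (nat_lit 2942790369) (nat_lit 84) (nat_lit 898197027) (nat_lit 27) (nat_lit 5) (nat_lit 31) (nat_lit 5) (nat_lit 28) (nat_lit 4) (nat_lit 348) (nat_lit 282) (nat_lit 258)) (XT.nd (nat_lit 94) (nat_lit 0) (nat_lit 0) (XT.lf (nat_lit 0) (nat_lit 747248515) (nat_lit 252) (nat_lit 8903843609) (nat_lit 336) (nat_lit 2019544330) (nat_lit 24) (nat_lit 5) (nat_lit 27) (nat_lit 5) (nat_lit 28) (nat_lit 4) (nat_lit 349) (nat_lit 282) (nat_lit 257)) (XT.lf (nat_lit 0) (nat_lit 4558021139) (nat_lit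 252) (nat_lit 7213110877) (nat_lit 336) (nat_lit 154497128) (nat_lit 24) (nat_lit 5) (nat_lit 27) (nat_lit 5) (nat_lit 28) (nat_lit 4) (nat_lit 350) (nat_lit 282) (nat_lit 256)))))) (XT.nd (nat_lit 376) (nat_lit 252) (nat_lit 0) (XT.nd (nat_lit 188) (nat_lit 252) (nat_lit 0) (XT.nd (nat_lit 94) (nat_lit 0) (nat_lit 0) (XT.lf (nat_lit 0) (nat_lit 1690417482) (nat_lit 336) (nat_lit 3774612829) (nat_lit 84) (nat_lit 6724507761) (nat_lit 23) (nat_lit 5) (nat_lit 27) (nat_lit 5) (nat_lit 24) (nat_lit 5) (nat_lit 351) (nat_lit 282) (nat_lit 255)) (XT.lf (nat_lit 0) (nat_lit 3548267252) (nat_lit 336) (nat_lit 125618552) (nat_lit 84) (nat_lit 8789201902) (nat_lit 23) (nat_lit 5) (nat_lit 27) (nat_lit 5) (nat_lit 24) (nat_lit 5) (nat_lit 352) (nat_lit 282) (nat_lit 254))) (XT.nd (nat_lit 94) (nat_lit 0) (nat_lit 0) (XT.lf (nat_lit 0) (nat_lit 3658009438) (nat_lit 252) (nat_lit 1802175134) (nat_lit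 336) (nat_lit 7285271039) (nat_lit 20) (nat_lit 5) (nat_lit 23) (nat_lit 5) (nat_lit 24) (nat_lit 5) (nat_lit 353) (nat_lit 282) (nat_lit 253)) (XT.lf (nat_lit 0) (nat_lit 7394708019) (nat_lit 336) (nat_lit 5529190416) (nat_lit 84) (nat_lit 114037099) (nat_lit 20) (nat_lit 5) (nat_lit 24) (nat_lit 5) (nat_lit 21) (nat_lit 4) (nat_lit 354) (nat_lit 282) (nat_lit 252)))) (XT.nd (nat_lit 188) (nat_lit 84) (nat_lit 0) (XT.nd (nat_lit 94) (nat_lit 168) (nat_lit 0) (XT.lf (nat_lit 0) (nat_lit 9369560651) (nat_lit 336) (nat_lit 1930436375) (nat_lit 84) (nat_lit 2040309554) (nat_lit 20) (nat_lit 5) (nat_lit 24) (nat_lit 5) (nat_lit 21) (nat_lit 4) (nat_lit 355) (nat_lit 282) (nat_lit 251)) (XT.lf (nat_lit 0) (nat_lit 1765621504) (nat_lit 168) (nat_lit 9620599117) (nat_lit 252) (nat_lit 2266641209) (nat_lit 18) (nat_lit 5) (nat_lit 20) (nat_lit 5) (nat_lit 21) (nat_lit 4) (nat_lit 356) (nat_lit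 282) (nat_lit 250))) (XT.nd (nat_lit 94) (nat_lit 84) (nat_lit 0) (XT.lf (nat_lit 0) (nat_lit 5567855033) (nat_lit 168) (nat_lit 7881384569) (nat_lit 252) (nat_lit 526570188) (nat_lit 18) (nat_lit 5) (nat_lit 20) (nat_lit 5) (nat_lit 21) (nat_lit 4) (nat_lit 357) (nat_lit 282) (nat_lit 249)) (XT.nd (nat_lit 94) (nat_lit 0) (nat_lit 0) (XT.lf (nat_lit 0) (nat_lit 1206138582) (nat_lit 252) (nat_lit 4882153853) (nat_lit 84) (nat_lit 8221386363) (nat_lit 17) (nat_lit 5) (nat_lit 20) (nat_lit 5) (nat_lit 18) (nat_lit 5) (nat_lit 358) (nat_lit 282) (nat_lit 248)) (XT.lf (nat_lit 0) (nat_lit 2946930402) (nat_lit 252) (nat_lit 1299741631) (nat_lit 84) (nat_lit 10408319121) (nat_lit 17) (nat_lit 5) (nat_lit 20) (nat_lit 5) (nat_lit 18) (nat_lit 5) (nat_lit 359) (nat_lit 282) (nat_lit 247))))))))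
noncomputable def xc20 : XT := (XT.nd (nat_lit 52264) (nat_lit 0) (nat_lit 2436) (XT.nd (nat_lit 752) (nat_lit 252) (nat_lit 0) (XT.nd (nat_lit 376) (nat_lit 252) (nat_lit 0) (XT.nd (nat_lit 188) (nat_lit 0) (nat_lit 0) (XT.nd (nat_lit 94) (nat_lit 0) (nat_lit 0) (XT.lf (nat_lit 0) (nat_lit 2396121237) (nat_lit 168) (nat_lit 2335685668) (nat_lit 252) (nat_lit 10279686887) (nat_lit 15) (nat_lit 5) (nat_lit 17) (nat_lit 5) (nat_lit 18) (nat_lit 5) (nat_lit 360) (nat_lit 282) (nat_lit 246)) (XT.lf (nat_lit 0) (nat_lit 6188693560) (nat_lit 168) (nat_lit 363799218) (nat_lit 252) (nat_lit 8827334343) (nat_lit 15) (nat_lit 5) (nat_lit 17) (nat_lit 5) (nat_lit 18) (nat_lit 5) (nat_lit 361) (nat_lit 282) (nat_lit 245))) (XT.nd (nat_lit 94) (nat_lit 0) (nat_lit 0) (XT.lf (nat_lit 0) (nat_lit 8413966583) (nat_lit 252) (nat_lit 5722397539) (nat_lit 84) (nat_lit 1623868615) (nat_lit 15) (nat_lit 5)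 (nat_lit 18) (nat_lit 5) (nat_lit 16) (nat_lit 4) (nat_lit 362) (nat_lit 282) (nat_lit 244)) (XT.lf (nat_lit 0) (nat_lit 10305623283) (nat_lit 252) (nat_lit 2193591137) (nat_lit 84) (nat_lit 3654233346) (nat_lit 15) (nat_lit 5) (nat_lit 18) (nat_lit 5) (nat_lit 16) (nat_lit 4) (nat_lit 363) (nat_lit 282) (nat_lit 243)))) (XT.nd (nat_lit 188) (nat_lit 84) (nat_lit 0) (XT.nd (nat_lit 94) (nat_lit 0) (nat_lit 0) (XT.lf (nat_lit 0) (nat_lit 1431015571) (nat_lit 168) (nat_lit 10808797446) (nat_lit 252) (nat_lit 4319697510) (nat_lit 13) (nat_lit 5) (nat_lit 15) (nat_lit 5) (nat_lit 16) (nat_lit 4) (nat_lit 364) (nat_lit 282) (nat_lit 242)) (XT.lf (nat_lit 0) (nat_lit 5172493109) (nat_lit 168) (nat_lit 9054556529) (nat_lit 252) (nat_lit 2751479836) (nat_lit 13) (nat_lit 5) (nat_lit 15) (nat_lit 5) (nat_lit 16) (nat_lit 4) (nat_lit 365) (nat_lit 282) (nat_lit 241))) (XT.nd (nat_lit 94) (nat_lit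 84) (nat_lit 0) (XT.lf (nat_lit 0) (nat_lit 8989224192) (nat_lit 168) (nat_lit 7257753127) (nat_lit 252) (nat_lit 1164606309) (nat_lit 13) (nat_lit 5) (nat_lit 15) (nat_lit 5) (nat_lit 16) (nat_lit 4) (nat_lit 366) (nat_lit 282) (nat_lit 240)) (XT.lf (nat_lit 0) (nat_lit 433488782) (nat_lit 252) (nat_lit 4978698914) (nat_lit 84) (nat_lit 12446752899) (nat_lit 12) (nat_lit 5) (nat_lit 15) (nat_lit 5) (nat_lit 13) (nat_lit 5) (nat_lit 367) (nat_lit 282) (nat_lit 239))))) (XT.nd (nat_lit 376) (nat_lit 84) (nat_lit 0) (XT.nd (nat_lit 188) (nat_lit 0) (nat_lit 0) (XT.nd (nat_lit 94) (nat_lit 168) (nat_lit 0) (XT.lf (nat_lit 0) (nat_lit 2029316682) (nat_lit 252) (nat_lit 1479219809) (nat_lit 84) (nat_lit 14812252244) (nat_lit 12) (nat_lit 5) (nat_lit 15) (nat_lit 5) (nat_lit 13) (nat_lit 5) (nat_lit 368) (nat_lit 282) (nat_lit 238)) (XT.lf (nat_lit 0) (nat_lit 2133885843) (nat_lit 168) (nat_lit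 1535111660) (nat_lit 252) (nat_lit 15128262959) (nat_lit 10) (nat_lit 5) (nat_lit 12) (nat_lit 5) (nat_lit 13) (nat_lit 5) (nat_lit 369) (nat_lit 282) (nat_lit 237))) (XT.nd (nat_lit 94) (nat_lit 0) (nat_lit 0) (XT.lf (nat_lit 0) (nat_lit 5353598671) (nat_lit 252) (nat_lit 13441082617) (nat_lit 84) (nat_lit 494132898) (nat_lit 10) (nat_lit 5) (nat_lit 13) (nat_lit 5) (nat_lit 11) (nat_lit 4) (nat_lit 370) (nat_lit 282) (nat_lit 236)) (XT.lf (nat_lit 0) (nat_lit 7080456043) (nat_lit 252) (nat_lit 10171750471) (nat_lit 84) (nat_lit 2543832840) (nat_lit 10) (nat_lit 5) (nat_lit 13) (nat_lit 5) (nat_lit 11) (nat_lit 4) (nat_lit 371) (nat_lit 282) (nat_lit 235)))) (XT.nd (nat_lit 188) (nat_lit 84) (nat_lit 0) (XT.nd (nat_lit 94) (nat_lit 0) (nat_lit 0) (XT.lf (nat_lit 0) (nat_lit 8835950733) (nat_lit 252) (nat_lit 6837102324) (nat_lit 84) (nat_lit 4646827779) (nat_lit 10) (nat_lit 5) (nat_lit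 13) (nat_lit 5) (nat_lit 11) (nat_lit 4) (nat_lit 372) (nat_lit 282) (nat_lit 234)) (XT.lf (nat_lit 0) (nat_lit 10621719046) (nat_lit 252) (nat_lit 3434029933) (nat_lit 84) (nat_lit 6805077927) (nat_lit 10) (nat_lit 5) (nat_lit 13) (nat_lit 5) (nat_lit 11) (nat_lit 4) (nat_lit 373) (nat_lit 282) (nat_lit 233))) (XT.nd (nat_lit 94) (nat_lit 0) (nat_lit 0) (XT.lf (nat_lit 0) (nat_lit 41474336) (nat_lit 84) (nat_lit 12398362599) (nat_lit 168) (nat_lit 8979532093) (nat_lit 9) (nat_lit 5) (nat_lit 10) (nat_lit 5) (nat_lit 11) (nat_lit 4) (nat_lit 374) (nat_lit 282) (nat_lit 232)) (XT.nd (nat_lit 50760) (nat_lit 0) (nat_lit 5964) (XT.lf (nat_lit 0) (nat_lit 3663963084) (nat_lit 84) (nat_lit 10663148287) (nat_lit 168) (nat_lit 7667827972) (nat_lit 9) (nat_lit 5) (nat_lit 10) (nat_lit 5) (nat_lit 11) (nat_lit 4) (nat_lit 375) (nat_lit 282) (nat_lit 231)) (XT.lf (nat_lit 0) (nat_lit 323779843) (nat_lit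 924) (nat_lit 1696726482) (nat_lit 924) (nat_lit 1696726482) (nat_lit 80) (nat_lit 4) (nat_lit 91) (nat_lit 5) (nat_lit 91) (nat_lit 4) (nat_lit 322) (nat_lit 283) (nat_lit 283))))))) (XT.nd (nat_lit 752) (nat_lit 1764) (nat_lit 0) (XT.nd (nat_lit 376) (nat_lit 1008) (nat_lit 0) (XT.nd (nat_lit 188) (nat_lit 0) (nat_lit 0) (XT.nd (nat_lit 94) (nat_lit 756) (nat_lit 0) (XT.lf (nat_lit 0) (nat_lit 4180881283) (nat_lit 924) (nat_lit 2306660708) (nat_lit 924) (nat_lit 1031253884) (nat_lit 80) (nat_lit 4) (nat_lit 91) (nat_lit 5) (nat_lit 91) (nat_lit 4) (nat_lit 323) (nat_lit 283) (nat_lit 282)) (XT.lf (nat_lit 0) (nat_lit 134542932) (nat_lit 672) (nat_lit 1168759766) (nat_lit 756) (nat_lit 6304902229) (nat_lit 71) (nat_lit 5) (nat_lit 79) (nat_lit 5) (nat_lit 80) (nat_lit 4) (nat_lit 324) (nat_lit 283) (nat_lit 281))) (XT.nd (nat_lit 94) (nat_lit 0) (nat_lit 0) (XT.lf (nat_lit 0) (nat_lit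 3651657765) (nat_lit 756) (nat_lit 3999227095) (nat_lit 0) (nat_lit 50952486) (nat_lit 71) (nat_lit 5) (nat_lit 80) (nat_lit 4) (nat_lit 71) (nat_lit 4) (nat_lit 325) (nat_lit 283) (nat_lit 280)) (XT.lf (nat_lit 0) (nat_lit 6014549854) (nat_lit 756) (nat_lit 501184572) (nat_lit 0) (nat_lit 1285052179) (nat_lit 71) (nat_lit 5) (nat_lit 80) (nat_lit 4) (nat_lit 71) (nat_lit 4) (nat_lit 326) (nat_lit 283) (nat_lit 279)))) (XT.nd (nat_lit 188) (nat_lit 420) (nat_lit 0) (XT.nd (nat_lit 94) (nat_lit 0) (nat_lit 0) (XT.lf (nat_lit 0) (nat_lit 498514858) (nat_lit 588) (nat_lit 4811865982) (nat_lit 84) (nat_lit 2594014435) (nat_lit 64) (nat_lit 5) (nat_lit 71) (nat_lit 5) (nat_lit 65) (nat_lit 4) (nat_lit 327) (nat_lit 283) (nat_lit 278)) (XT.lf (nat_lit 0) (nat_lit 2754287266) (nat_lit 588) (nat_lit 1292324311) (nat_lit 84) (nat_lit 3966536557) (nat_lit 64) (nat_lit 5) (nat_lit 71) (nat_lit 5)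 (nat_lit 65) (nat_lit 4) (nat_lit 328) (nat_lit 283) (nat_lit 277))) (XT.nd (nat_lit 94) (nat_lit 0) (nat_lit 0) (XT.lf (nat_lit 0) (nat_lit 2313862494) (nat_lit 420) (nat_lit 2723137145) (nat_lit 504) (nat_lit 3090143557) (nat_lit 59) (nat_lit 5) (nat_lit 64) (nat_lit 5) (nat_lit 65) (nat_lit 4) (nat_lit 329) (nat_lit 283) (nat_lit 276)) (XT.lf (nat_lit 0) (nat_lit 5990857230) (nat_lit 420) (nat_lit 1348469721) (nat_lit 504) (nat_lit 907452805) (nat_lit 59) (nat_lit 5) (nat_lit 64) (nat_lit 5) (nat_lit 65) (nat_lit 4) (nat_lit 330) (nat_lit 283) (nat_lit 275))))) (XT.nd (nat_lit 376) (nat_lit 924) (nat_lit 0) (XT.nd (nat_lit 188) (nat_lit 336) (nat_lit 0) (XT.nd (nat_lit 94) (nat_lit 0) (nat_lit 0) (XT.lf (nat_lit 0) (nat_lit 1266394451) (nat_lit 504) (nat_lit 7015061551) (nat_lit 84) (nat_lit 90280141) (nat_lit 53) (nat_lit 5) (nat_lit 59) (nat_lit 5) (nat_lit 54) (nat_lit 4) (nat_lit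 331) (nat_lit 283) (nat_lit 274)) (XT.lf (nat_lit 0) (nat_lit 3463730710) (nat_lit 504) (nat_lit 3463869725) (nat_lit 84) (nat_lit 1573930928) (nat_lit 53) (nat_lit 5) (nat_lit 59) (nat_lit 5) (nat_lit 54) (nat_lit 4) (nat_lit 332) (nat_lit 283) (nat_lit 273))) (XT.nd (nat_lit 94) (nat_lit 0) (nat_lit 0) (XT.lf (nat_lit 0) (nat_lit 132368418) (nat_lit 336) (nat_lit 5537382193) (nat_lit 420) (nat_lit 2967904085) (nat_lit 49) (nat_lit 5) (nat_lit 53) (nat_lit 5) (nat_lit 54) (nat_lit 4) (nat_lit 333) (nat_lit 283) (nat_lit 272)) (XT.lf (nat_lit 0) (nat_lit 3846500083) (nat_lit 336) (nat_lit 4074227516) (nat_lit 420) (nat_lit 858444695) (nat_lit 49) (nat_lit 5) (nat_lit 53) (nat_lit 5) (nat_lit 54) (nat_lit 4) (nat_lit 334) (nat_lit 283) (nat_lit 271)))) (XT.nd (nat_lit 188) (nat_lit 420) (nat_lit 0) (XT.nd (nat_lit 94) (nat_lit 420) (nat_lit 0) (XT.lf (nat_lit 0) (nat_lit 1231074638) (nat_lit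 420) (nat_lit 1329003753) (nat_lit 84) (nat_lit 6366838429) (nat_lit 48) (nat_lit 5) (nat_lit 53) (nat_lit 5) (nat_lit 49) (nat_lit 5) (nat_lit 335) (nat_lit 283) (nat_lit 270)) (XT.lf (nat_lit 0) (nat_lit 2360523793) (nat_lit 420) (nat_lit 973387752) (nat_lit 504) (nat_lit 5746509004) (nat_lit 43) (nat_lit 5) (nat_lit 48) (nat_lit 5) (nat_lit 49) (nat_lit 5) (nat_lit 336) (nat_lit 283) (nat_lit 269))) (XT.nd (nat_lit 94) (nat_lit 420) (nat_lit 0) (XT.lf (nat_lit 0) (nat_lit 5466480953) (nat_lit 504) (nat_lit 3118397436) (nat_lit 84) (nat_lit 655300234) (nat_lit 43) (nat_lit 5) (nat_lit 49) (nat_lit 5) (nat_lit 44) (nat_lit 4) (nat_lit 337) (nat_lit 283) (nat_lit 268)) (XT.nd (nat_lit 94) (nat_lit 84) (nat_lit 0) (XT.lf (nat_lit 0) (nat_lit 531454363) (nat_lit 336) (nat_lit 7094576873) (nat_lit 420) (nat_lit 1780455637) (nat_lit 39) (nat_lit 5) (nat_lit 43) (nat_lit 5) (nat_lit 44) (nat_lit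 4) (nat_lit 338) (nat_lit 283) (nat_lit 267)) (XT.lf (nat_lit 0) (nat_lit 247665242) (nat_lit 420) (nat_lit 5284313814) (nat_lit 84) (nat_lit 4046911849) (nat_lit 38) (nat_lit 5) (nat_lit 43) (nat_lit 5) (nat_lit 39) (nat_lit 5) (nat_lit 339) (nat_lit 283) (nat_lit 266))))))))
noncomputable def xc21 : XT := (XT.nd (nat_lit 1598) (nat_lit 672) (nat_lit 0) (XT.nd (nat_lit 752) (nat_lit 756) (nat_lit 0) (XT.nd (nat_lit 376) (nat_lit 588) (nat_lit 0) (XT.nd (nat_lit 188) (nat_lit 0) (nat_lit 0) (XT.nd (nat_lit 94) (nat_lit 336) (nat_lit 0) (XT.lf (nat_lit 0) (nat_lit 2249043043) (nat_lit 420) (nat_lit 1663417429) (nat_lit 84) (nat_lit 5845597050) (nat_lit 38) (nat_lit 5) (nat_lit 43) (nat_lit 5) (nat_lit 39) (nat_lit 5) (nat_lit 340) (nat_lit 283) (nat_lit 265)) (XT.lf (nat_lit 0) (nat_lit 2049996908) (nat_lit 336) (nat_lit 2231754787) (nat_lit 420) (nat_lit 5662319141) (nat_lit 34) (nat_lit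 5) (nat_lit 38) (nat_lit 5) (nat_lit 39) (nat_lit 5) (nat_lit 341) (nat_lit 283) (nat_lit 264))) (XT.nd (nat_lit 94) (nat_lit 0) (nat_lit 0) (XT.lf (nat_lit 0) (nat_lit 5853375861) (nat_lit 336) (nat_lit 491348621) (nat_lit 420) (nat_lit 3792471550) (nat_lit 34) (nat_lit 5) (nat_lit 38) (nat_lit 5) (nat_lit 39) (nat_lit 5) (nat_lit 342) (nat_lit 283) (nat_lit 263)) (XT.lf (nat_lit 0) (nat_lit 8435870600) (nat_lit 420) (nat_lit 634900774) (nat_lit 84) (nat_lit 1266966176) (nat_lit 34) (nat_lit 5) (nat_lit 39) (nat_lit 5) (nat_lit 35) (nat_lit 4) (nat_lit 343) (nat_lit 283) (nat_lit 262)))) (XT.nd (nat_lit 188) (nat_lit 252) (nat_lit 0) (XT.nd (nat_lit 94) (nat_lit 0) (nat_lit 0) (XT.lf (nat_lit 0) (nat_lit 34774638) (nat_lit 336) (nat_lit 7418914443) (nat_lit 84) (nat_lit 3091453692) (nat_lit 30) (nat_lit 5) (nat_lit 34) (nat_lit 5) (nat_lit 31) (nat_lit 5) (nat_lit 344) (nat_lit 283) (nat_lit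 261)) (XT.lf (nat_lit 0) (nat_lit 1951476397) (nat_lit 336) (nat_lit 3820061521) (nat_lit 84) (nat_lit 4988383459) (nat_lit 30) (nat_lit 5) (nat_lit 34) (nat_lit 5) (nat_lit 31) (nat_lit 5) (nat_lit 345) (nat_lit 283) (nat_lit 260))) (XT.nd (nat_lit 94) (nat_lit 252) (nat_lit 0) (XT.lf (nat_lit 0) (nat_lit 3881849731) (nat_lit 336) (nat_lit 167046679) (nat_lit 84) (nat_lit 6934163317) (nat_lit 30) (nat_lit 5) (nat_lit 34) (nat_lit 5) (nat_lit 31) (nat_lit 5) (nat_lit 346) (nat_lit 283) (nat_lit 259)) (XT.lf (nat_lit 0) (nat_lit 3616397424) (nat_lit 252) (nat_lit 2247171635) (nat_lit 336) (nat_lit 5350084622) (nat_lit 27) (nat_lit 5) (nat_lit 30) (nat_lit 5) (nat_lit 31) (nat_lit 5) (nat_lit 347) (nat_lit 283) (nat_lit 258))))) (XT.nd (nat_lit 376) (nat_lit 420) (nat_lit 0) (XT.nd (nat_lit 188) (nat_lit 336) (nat_lit 0) (XT.nd (nat_lit 94) (nat_lit 0) (nat_lit 0) (XT.lf (nat_lit 0) (nat_lit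 7465556725) (nat_lit 252) (nat_lit 399325305) (nat_lit 336) (nat_lit 3588077733) (nat_lit 27) (nat_lit 5) (nat_lit 30) (nat_lit 5) (nat_lit 31) (nat_lit 5) (nat_lit 348) (nat_lit 283) (nat_lit 257)) (XT.lf (nat_lit 0) (nat_lit 9900789710) (nat_lit 336) (nat_lit 335496069) (nat_lit 84) (nat_lit 1464508050) (nat_lit 27) (nat_lit 5) (nat_lit 31) (nat_lit 5) (nat_lit 28) (nat_lit 4) (nat_lit 349) (nat_lit 283) (nat_lit 256))) (XT.nd (nat_lit 94) (nat_lit 0) (nat_lit 0) (XT.lf (nat_lit 0) (nat_lit 39464044) (nat_lit 336) (nat_lit 8515436662) (nat_lit 84) (nat_lit 3401737952) (nat_lit 23) (nat_lit 5) (nat_lit 27) (nat_lit 5) (nat_lit 24) (nat_lit 5) (nat_lit 350) (nat_lit 283) (nat_lit 255)) (XT.lf (nat_lit 0) (nat_lit 1861055186) (nat_lit 336) (nat_lit 4950465306) (nat_lit 84) (nat_lit 5409722327) (nat_lit 23) (nat_lit 5) (nat_lit 27) (nat_lit 5) (nat_lit 24) (nat_lit 5) (nat_lit 351) (nat_lit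 283) (nat_lit 254)))) (XT.nd (nat_lit 188) (nat_lit 168) (nat_lit 0) (XT.nd (nat_lit 94) (nat_lit 252) (nat_lit 0) (XT.lf (nat_lit 0) (nat_lit 3699301953) (nat_lit 336) (nat_lit 1327165685) (nat_lit 84) (nat_lit 7469045228) (nat_lit 23) (nat_lit 5) (nat_lit 27) (nat_lit 5) (nat_lit 24) (nat_lit 5) (nat_lit 352) (nat_lit 283) (nat_lit 253)) (XT.lf (nat_lit 0) (nat_lit 2406321510) (nat_lit 252) (nat_lit 3173467282) (nat_lit 336) (nat_lit 7199175655) (nat_lit 20) (nat_lit 5) (nat_lit 23) (nat_lit 5) (nat_lit 24) (nat_lit 5) (nat_lit 353) (nat_lit 283) (nat_lit 252))) (XT.nd (nat_lit 94) (nat_lit 168) (nat_lit 0) (XT.lf (nat_lit 0) (nat_lit 6233577746) (nat_lit 252) (nat_lit 1260893359) (nat_lit 336) (nat_lit 5577694383) (nat_lit 20) (nat_lit 5) (nat_lit 23) (nat_lit 5) (nat_lit 24) (nat_lit 5) (nat_lit 354) (nat_lit 283) (nat_lit 251)) (XT.nd (nat_lit 94) (nat_lit 168) (nat_lit 0) (XT.lf (nat_lit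 0) (nat_lit 9438633206) (nat_lit 336) (nat_lit 3251860626) (nat_lit 84) (nat_lit 685096962) (nat_lit 20) (nat_lit 5) (nat_lit 24) (nat_lit 5) (nat_lit 21) (nat_lit 4) (nat_lit 355) (nat_lit 283) (nat_lit 250)) (XT.lf (nat_lit 0) (nat_lit 392739314) (nat_lit 168) (nat_lit 11031299091) (nat_lit 252) (nat_lit 2265176297) (nat_lit 18) (nat_lit 5) (nat_lit 20) (nat_lit 5) (nat_lit 21) (nat_lit 4) (nat_lit 356) (nat_lit 283) (nat_lit 249))))))) (XT.nd (nat_lit 752) (nat_lit 420) (nat_lit 0) (XT.nd (nat_lit 376) (nat_lit 0) (nat_lit 0) (XT.nd (nat_lit 188) (nat_lit 168) (nat_lit 0) (XT.nd (nat_lit 94) (nat_lit 84) (nat_lit 0) (XT.lf (nat_lit 0) (nat_lit 4171416347) (nat_lit 168) (nat_lit 9298302012) (nat_lit 252) (nat_lit 543078575) (nat_lit 18) (nat_lit 5) (nat_lit 20) (nat_lit 5) (nat_lit 21) (nat_lit 4) (nat_lit 357) (nat_lit 283) (nat_lit 248)) (XT.lf (nat_lit 0) (nat_lit 1172881157) (nat_lit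 252) (nat_lit 6338706384) (nat_lit 84) (nat_lit 6835704040) (nat_lit 17) (nat_lit 5) (nat_lit 20) (nat_lit 5) (nat_lit 18) (nat_lit 5) (nat_lit 358) (nat_lit 283) (nat_lit 247))) (XT.nd (nat_lit 94) (nat_lit 168) (nat_lit 0) (XT.lf (nat_lit 0) (nat_lit 2897104941) (nat_lit 252) (nat_lit 2778884331) (nat_lit 84) (nat_lit 9017216568) (nat_lit 17) (nat_lit 5) (nat_lit 20) (nat_lit 5) (nat_lit 18) (nat_lit 5) (nat_lit 359) (nat_lit 283) (nat_lit 246)) (XT.lf (nat_lit 0) (nat_lit 864202864) (nat_lit 168) (nat_lit 3786511889) (nat_lit 252) (nat_lit 10400048630) (nat_lit 15) (nat_lit 5) (nat_lit 17) (nat_lit 5) (nat_lit 18) (nat_lit 5) (nat_lit 360) (nat_lit 283) (nat_lit 245)))) (XT.nd (nat_lit 188) (nat_lit 0) (nat_lit 0) (XT.nd (nat_lit 94) (nat_lit 0) (nat_lit 0) (XT.lf (nat_lit 0) (nat_lit 4635086084) (nat_lit 168) (nat_lit 1820512700) (nat_lit 252) (nat_lit 8964070849) (nat_lit 15) (nat_lit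 5) (nat_lit 17) (nat_lit 5) (nat_lit 18) (nat_lit 5) (nat_lit 361) (nat_lit 283) (nat_lit 244)) (XT.lf (nat_lit 0) (nat_lit 8287238452) (nat_lit 252) (nat_lit 7322932754) (nat_lit 84) (nat_lit 190909468) (nat_lit 15) (nat_lit 5) (nat_lit 18) (nat_lit 5) (nat_lit 16) (nat_lit 4) (nat_lit 362) (nat_lit 283) (nat_lit 243))) (XT.nd (nat_lit 94) (nat_lit 0) (nat_lit 0) (XT.lf (nat_lit 0) (nat_lit 10163974337) (nat_lit 252) (nat_lit 3815014814) (nat_lit 84) (nat_lit 2215847240) (nat_lit 15) (nat_lit 5) (nat_lit 18) (nat_lit 5) (nat_lit 16) (nat_lit 4) (nat_lit 363) (nat_lit 283) (nat_lit 242)) (XT.lf (nat_lit 0) (nat_lit 12069496043) (nat_lit 252) (nat_lit 239500271) (nat_lit 84) (nat_lit 4292867342) (nat_lit 15) (nat_lit 5) (nat_lit 18) (nat_lit 5) (nat_lit 16) (nat_lit 4) (nat_lit 364) (nat_lit 283) (nat_lit 241))))) (XT.nd (nat_lit 376) (nat_lit 168) (nat_lit 0) (XT.nd (nat_lit 188) (nat_lit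 84) (nat_lit 0) (XT.nd (nat_lit 94) (nat_lit 0) (nat_lit 0) (XT.lf (nat_lit 0) (nat_lit 3476997377) (nat_lit 168) (nat_lit 10563074581) (nat_lit 252) (nat_lit 2981400641) (nat_lit 13) (nat_lit 5) (nat_lit 15) (nat_lit 5) (nat_lit 16) (nat_lit 4) (nat_lit 365) (nat_lit 283) (nat_lit 240)) (XT.lf (nat_lit 0) (nat_lit 7274276209) (nat_lit 168) (nat_lit 8771915498) (nat_lit 252) (nat_lit 1408834399) (nat_lit 13) (nat_lit 5) (nat_lit 15) (nat_lit 5) (nat_lit 16) (nat_lit 4) (nat_lit 366) (nat_lit 283) (nat_lit 239))) (XT.nd (nat_lit 94) (nat_lit 0) (nat_lit 0) (XT.lf (nat_lit 0) (nat_lit 180583842) (nat_lit 252) (nat_lit 6753880639) (nat_lit 84) (nat_lit 10968482300) (nat_lit 12) (nat_lit 5) (nat_lit 15) (nat_lit 5) (nat_lit 13) (nat_lit 5) (nat_lit 367) (nat_lit 283) (nat_lit 238)) (XT.lf (nat_lit 0) (nat_lit 1763223088) (nat_lit 252) (nat_lit 3273037846) (nat_lit 84) (nat_lit 13329007899)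 (nat_lit 12) (nat_lit 5) (nat_lit 15) (nat_lit 5) (nat_lit 13) (nat_lit 5) (nat_lit 368) (nat_lit 283) (nat_lit 237)))) (XT.nd (nat_lit 188) (nat_lit 0) (nat_lit 0) (XT.nd (nat_lit 94) (nat_lit 0) (nat_lit 0) (XT.lf (nat_lit 0) (nat_lit 284735591) (nat_lit 168) (nat_lit 3087032419) (nat_lit 252) (nat_lit 15471000870) (nat_lit 10) (nat_lit 5) (nat_lit 12) (nat_lit 5) (nat_lit 13) (nat_lit 5) (nat_lit 369) (nat_lit 283) (nat_lit 236)) (XT.lf (nat_lit 0) (nat_lit 3985846098) (nat_lit 168) (nat_lit 1052935461) (nat_lit 252) (nat_lit 14296147473) (nat_lit 10) (nat_lit 5) (nat_lit 12) (nat_lit 5) (nat_lit 13) (nat_lit 5) (nat_lit 370) (nat_lit 283) (nat_lit 235))) (XT.nd (nat_lit 94) (nat_lit 0) (nat_lit 0) (XT.lf (nat_lit 0) (nat_lit 6742936044) (nat_lit 252) (nat_lit 12087047190) (nat_lit 84) (nat_lit 1012934125) (nat_lit 10) (nat_lit 5) (nat_lit 13) (nat_lit 5) (nat_lit 11) (nat_lit 4) (nat_lit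 371) (nat_lit 283) (nat_lit 234)) (XT.nd (nat_lit 94) (nat_lit 0) (nat_lit 0) (XT.lf (nat_lit 0) (nat_lit 8486541659) (nat_lit 252) (nat_lit 8769607240) (nat_lit 84) (nat_lit 3111036088) (nat_lit 10) (nat_lit 5) (nat_lit 13) (nat_lit 5) (nat_lit 11) (nat_lit 4) (nat_lit 372) (nat_lit 283) (nat_lit 233)) (XT.lf (nat_lit 0) (nat_lit 10260778376) (nat_lit 252) (nat_lit 5383225632) (nat_lit 84) (nat_lit 5264540381) (nat_lit 10) (nat_lit 5) (nat_lit 13) (nat_lit 5) (nat_lit 11) (nat_lit 4) (nat_lit 373) (nat_lit 283) (nat_lit 232))))))))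
noncomputable def xc22 : XT := (XT.nd (nat_lit 52076) (nat_lit 0) (nat_lit 1176) (XT.nd (nat_lit 51230) (nat_lit 0) (nat_lit 3360) (XT.nd (nat_lit 50854) (nat_lit 0) (nat_lit 5208) (XT.nd (nat_lit 50666) (nat_lit 0) (nat_lit 6888) (XT.nd (nat_lit 94) (nat_lit 84) (nat_lit 0) (XT.lf (nat_lit 0) (nat_lit 12067299970) (nat_lit 252) (nat_lit 1924745905) (nat_lit 84) (nat_lit 7475454296) (nat_lit 10) (nat_lit 5) (nat_lit 13) (nat_lit 5) (nat_lit 11) (nat_lit 4) (nat_lit 374) (nat_lit 283) (nat_lit 231)) (XT.lf (nat_lit 0) (nat_lit 1642141090) (nat_lit 84) (nat_lit 12281939461) (nat_lit 168) (nat_lit 8119987788) (nat_lit 9) (nat_lit 5) (nat_lit 10) (nat_lit 5) (nat_lit 11) (nat_lit 4) (nat_lit 375) (nat_lit 283) (nat_lit 230))) (XT.nd (nat_lit 94) (nat_lit 0) (nat_lit 0) (XT.lf (nat_lit 0) (nat_lit 281985287) (nat_lit 924) (nat_lit 3075342607) (nat_lit 0) (nat_lit 281985287) (nat_lit 91) (nat_lit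 5) (nat_lit 102) (nat_lit 4) (nat_lit 91) (nat_lit 4) (nat_lit 320) (nat_lit 284) (nat_lit 284)) (XT.lf (nat_lit 0) (nat_lit 2938738351) (nat_lit 924) (nat_lit 2792176956) (nat_lit 0) (nat_lit 1623793915) (nat_lit 91) (nat_lit 5) (nat_lit 102) (nat_lit 4) (nat_lit 91) (nat_lit 4) (nat_lit 321) (nat_lit 284) (nat_lit 283)))) (XT.nd (nat_lit 188) (nat_lit 672) (nat_lit 0) (XT.nd (nat_lit 94) (nat_lit 84) (nat_lit 0) (XT.lf (nat_lit 0) (nat_lit 611991214) (nat_lit 924) (nat_lit 4707152589) (nat_lit 924) (nat_lit 2116801330) (nat_lit 80) (nat_lit 4) (nat_lit 91) (nat_lit 5) (nat_lit 91) (nat_lit 4) (nat_lit 322) (nat_lit 284) (nat_lit 282)) (XT.lf (nat_lit 0) (nat_lit 204060431) (nat_lit 1008) (nat_lit 3412962547) (nat_lit 84) (nat_lit 3904623402) (nat_lit 79) (nat_lit 5) (nat_lit 91) (nat_lit 5) (nat_lit 80) (nat_lit 4) (nat_lit 323) (nat_lit 284) (nat_lit 281))) (XT.nd (nat_lit 94) (nat_lit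 0) (nat_lit 0) (XT.lf (nat_lit 0) (nat_lit 12305799) (nat_lit 672) (nat_lit 2469022303) (nat_lit 756) (nat_lit 5130850748) (nat_lit 71) (nat_lit 5) (nat_lit 79) (nat_lit 5) (nat_lit 80) (nat_lit 4) (nat_lit 324) (nat_lit 284) (nat_lit 280)) (XT.lf (nat_lit 0) (nat_lit 3546757995) (nat_lit 672) (nat_lit 1247833108) (nat_lit 756) (nat_lit 2912607436) (nat_lit 71) (nat_lit 5) (nat_lit 79) (nat_lit 5) (nat_lit 80) (nat_lit 4) (nat_lit 325) (nat_lit 284) (nat_lit 279))))) (XT.nd (nat_lit 376) (nat_lit 840) (nat_lit 0) (XT.nd (nat_lit 188) (nat_lit 420) (nat_lit 0) (XT.nd (nat_lit 94) (nat_lit 588) (nat_lit 0) (XT.lf (nat_lit 0) (nat_lit 7111572082) (nat_lit 756) (nat_lit 684473776) (nat_lit 0) (nat_lit 11815599) (nat_lit 71) (nat_lit 5) (nat_lit 80) (nat_lit 4) (nat_lit 71) (nat_lit 4) (nat_lit 326) (nat_lit 284) (nat_lit 278)) (XT.lf (nat_lit 0) (nat_lit 1531152960) (nat_lit 588) (nat_lit 5051916910)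 (nat_lit 84) (nat_lit 1329434110) (nat_lit 64) (nat_lit 5) (nat_lit 71) (nat_lit 5) (nat_lit 65) (nat_lit 4) (nat_lit 327) (nat_lit 284) (nat_lit 277))) (XT.nd (nat_lit 94) (nat_lit 420) (nat_lit 0) (XT.lf (nat_lit 0) (nat_lit 3754457234) (nat_lit 588) (nat_lit 1566387956) (nat_lit 84) (nat_lit 2701683157) (nat_lit 64) (nat_lit 5) (nat_lit 71) (nat_lit 5) (nat_lit 65) (nat_lit 4) (nat_lit 328) (nat_lit 284) (nat_lit 276)) (XT.lf (nat_lit 0) (nat_lit 2000495169) (nat_lit 420) (nat_lit 4002073911) (nat_lit 504) (nat_lit 2135283976) (nat_lit 59) (nat_lit 5) (nat_lit 64) (nat_lit 5) (nat_lit 65) (nat_lit 4) (nat_lit 329) (nat_lit 284) (nat_lit 275)))) (XT.nd (nat_lit 188) (nat_lit 336) (nat_lit 0) (XT.nd (nat_lit 94) (nat_lit 420) (nat_lit 0) (XT.lf (nat_lit 0) (nat_lit 15022697) (nat_lit 504) (nat_lit 2614014073) (nat_lit 84) (nat_lit 5629654368) (nat_lit 58) (nat_lit 5) (nat_lit 64) (nat_lit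 5) (nat_lit 59) (nat_lit 5) (nat_lit 330) (nat_lit 284) (nat_lit 274)) (XT.lf (nat_lit 0) (nat_lit 949770668) (nat_lit 420) (nat_lit 1185372308) (nat_lit 504) (nat_lit 6249558778) (nat_lit 53) (nat_lit 5) (nat_lit 58) (nat_lit 5) (nat_lit 59) (nat_lit 5) (nat_lit 331) (nat_lit 284) (nat_lit 273))) (XT.nd (nat_lit 94) (nat_lit 336) (nat_lit 0) (XT.lf (nat_lit 0) (nat_lit 4290810352) (nat_lit 504) (nat_lit 3905317274) (nat_lit 84) (nat_lit 319888565) (nat_lit 53) (nat_lit 5) (nat_lit 59) (nat_lit 5) (nat_lit 54) (nat_lit 4) (nat_lit 332) (nat_lit 284) (nat_lit 272)) (XT.nd (nat_lit 94) (nat_lit 336) (nat_lit 0) (XT.lf (nat_lit 0) (nat_lit 6466506626) (nat_lit 504) (nat_lit 344080739) (nat_lit 84) (nat_lit 1842712835) (nat_lit 53) (nat_lit 5) (nat_lit 59) (nat_lit 5) (nat_lit 54) (nat_lit 4) (nat_lit 333) (nat_lit 284) (nat_lit 271)) (XT.lf (nat_lit 0) (nat_lit 3330968599) (nat_lit 336) (nat_lit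 5354575757) (nat_lit 420) (nat_lit 110477566) (nat_lit 49) (nat_lit 5) (nat_lit 53) (nat_lit 5) (nat_lit 54) (nat_lit 4) (nat_lit 334) (nat_lit 284) (nat_lit 270))))))) (XT.nd (nat_lit 752) (nat_lit 924) (nat_lit 0) (XT.nd (nat_lit 376) (nat_lit 756) (nat_lit 0) (XT.nd (nat_lit 188) (nat_lit 0) (nat_lit 0) (XT.nd (nat_lit 94) (nat_lit 420) (nat_lit 0) (XT.lf (nat_lit 0) (nat_lit 1935886078) (nat_lit 420) (nat_lit 1900628551) (nat_lit 84) (nat_lit 5108093793) (nat_lit 48) (nat_lit 5) (nat_lit 53) (nat_lit 5) (nat_lit 49) (nat_lit 5) (nat_lit 335) (nat_lit 284) (nat_lit 269)) (XT.lf (nat_lit 0) (nat_lit 1745643642) (nat_lit 420) (nat_lit 2259738317) (nat_lit 504) (nat_lit 5093959042) (nat_lit 43) (nat_lit 5) (nat_lit 48) (nat_lit 5) (nat_lit 49) (nat_lit 5) (nat_lit 336) (nat_lit 284) (nat_lit 268))) (XT.nd (nat_lit 94) (nat_lit 0) (nat_lit 0) (XT.lf (nat_lit 0) (nat_lit 5483186639) (nat_lit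 420) (nat_lit 621405050) (nat_lit 504) (nat_lit 3155730942) (nat_lit 43) (nat_lit 5) (nat_lit 48) (nat_lit 5) (nat_lit 49) (nat_lit 5) (nat_lit 337) (nat_lit 284) (nat_lit 267)) (XT.lf (nat_lit 0) (nat_lit 8226746846) (nat_lit 504) (nat_lit 162413525) (nat_lit 84) (nat_lit 1038813471) (nat_lit 43) (nat_lit 5) (nat_lit 49) (nat_lit 5) (nat_lit 44) (nat_lit 4) (nat_lit 338) (nat_lit 284) (nat_lit 266)))) (XT.nd (nat_lit 188) (nat_lit 336) (nat_lit 0) (XT.nd (nat_lit 94) (nat_lit 0) (nat_lit 0) (XT.lf (nat_lit 0) (nat_lit 787648982) (nat_lit 420) (nat_lit 6039770539) (nat_lit 84) (nat_lit 2773807874) (nat_lit 38) (nat_lit 5) (nat_lit 43) (nat_lit 5) (nat_lit 39) (nat_lit 5) (nat_lit 339) (nat_lit 284) (nat_lit 265)) (XT.lf (nat_lit 0) (nat_lit 2763892325) (nat_lit 420) (nat_lit 2448924722) (nat_lit 84) (nat_lit 4568523766) (nat_lit 38) (nat_lit 5) (nat_lit 43) (nat_lit 5) (nat_lit 39) (nat_lit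 5) (nat_lit 340) (nat_lit 284) (nat_lit 264))) (XT.nd (nat_lit 94) (nat_lit 0) (nat_lit 0) (XT.lf (nat_lit 0) (nat_lit 1218591639) (nat_lit 336) (nat_lit 3545382975) (nat_lit 420) (nat_lit 5204553521) (nat_lit 34) (nat_lit 5) (nat_lit 38) (nat_lit 5) (nat_lit 39) (nat_lit 5) (nat_lit 341) (nat_lit 284) (nat_lit 263)) (XT.lf (nat_lit 0) (nat_lit 4993118669) (nat_lit 336) (nat_lit 1809896817) (nat_lit 420) (nat_lit 3359537440) (nat_lit 34) (nat_lit 5) (nat_lit 38) (nat_lit 5) (nat_lit 39) (nat_lit 5) (nat_lit 342) (nat_lit 284) (nat_lit 262))))) (XT.nd (nat_lit 376) (nat_lit 588) (nat_lit 0) (XT.nd (nat_lit 188) (nat_lit 0) (nat_lit 0) (XT.nd (nat_lit 94) (nat_lit 336) (nat_lit 0) (XT.lf (nat_lit 0) (nat_lit 8827819705) (nat_lit 336) (nat_lit 30302671) (nat_lit 420) (nat_lit 1506242247) (nat_lit 34) (nat_lit 5) (nat_lit 38) (nat_lit 5) (nat_lit 39) (nat_lit 5) (nat_lit 343) (nat_lit 284)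 (nat_lit 261)) (XT.lf (nat_lit 0) (nat_lit 389683869) (nat_lit 336) (nat_lit 8398678309) (nat_lit 84) (nat_lit 1784444986) (nat_lit 30) (nat_lit 5) (nat_lit 34) (nat_lit 5) (nat_lit 31) (nat_lit 5) (nat_lit 344) (nat_lit 284) (nat_lit 260))) (XT.nd (nat_lit 94) (nat_lit 0) (nat_lit 0) (XT.lf (nat_lit 0) (nat_lit 2283861660) (nat_lit 336) (nat_lit 4828088568) (nat_lit 84) (nat_lit 3676473358) (nat_lit 30) (nat_lit 5) (nat_lit 34) (nat_lit 5) (nat_lit 31) (nat_lit 5) (nat_lit 345) (nat_lit 284) (nat_lit 259)) (XT.lf (nat_lit 0) (nat_lit 4192388274) (nat_lit 336) (nat_lit 1202487092) (nat_lit 84) (nat_lit 5617499197) (nat_lit 30) (nat_lit 5) (nat_lit 34) (nat_lit 5) (nat_lit 31) (nat_lit 5) (nat_lit 346) (nat_lit 284) (nat_lit 258)))) (XT.nd (nat_lit 188) (nat_lit 336) (nat_lit 0) (XT.nd (nat_lit 94) (nat_lit 0) (nat_lit 0) (XT.lf (nat_lit 0) (nat_lit 2532530402) (nat_lit 252) (nat_lit 3609635270)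 (nat_lit 336) (nat_lit 5101924352) (nat_lit 27) (nat_lit 5) (nat_lit 30) (nat_lit 5) (nat_lit 31) (nat_lit 5) (nat_lit 347) (nat_lit 284) (nat_lit 257)) (XT.lf (nat_lit 0) (nat_lit 6355369790) (nat_lit 252) (nat_lit 1767295056) (nat_lit 336) (nat_lit 3361503849) (nat_lit 27) (nat_lit 5) (nat_lit 30) (nat_lit 5) (nat_lit 31) (nat_lit 5) (nat_lit 348) (nat_lit 284) (nat_lit 256))) (XT.nd (nat_lit 94) (nat_lit 336) (nat_lit 0) (XT.lf (nat_lit 0) (nat_lit 10124761145) (nat_lit 336) (nat_lit 1489546414) (nat_lit 84) (nat_lit 118866884) (nat_lit 27) (nat_lit 5) (nat_lit 31) (nat_lit 5) (nat_lit 28) (nat_lit 4) (nat_lit 349) (nat_lit 284) (nat_lit 255)) (XT.nd (nat_lit 94) (nat_lit 0) (nat_lit 0) (XT.lf (nat_lit 0) (nat_lit 195180821) (nat_lit 336) (nat_lit 9754231756) (nat_lit 84) (nat_lit 2040656421) (nat_lit 23) (nat_lit 5) (nat_lit 27) (nat_lit 5) (nat_lit 24) (nat_lit 5) (nat_lit 350) (nat_lit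 284) (nat_lit 254)) (XT.lf (nat_lit 0) (nat_lit 1997168959) (nat_lit 336) (nat_lit 6214955057) (nat_lit 84) (nat_lit 4043269556) (nat_lit 23) (nat_lit 5) (nat_lit 27) (nat_lit 5) (nat_lit 24) (nat_lit 5) (nat_lit 351) (nat_lit 284) (nat_lit 253))))))))
noncomputable def xc23 : XT := (XT.nd (nat_lit 1598) (nat_lit 168) (nat_lit 0) (XT.nd (nat_lit 752) (nat_lit 420) (nat_lit 0) (XT.nd (nat_lit 376) (nat_lit 252) (nat_lit 0) (XT.nd (nat_lit 188) (nat_lit 0) (nat_lit 0) (XT.nd (nat_lit 94) (nat_lit 252) (nat_lit 0) (XT.lf (nat_lit 0) (nat_lit 3816402145) (nat_lit 336) (nat_lit 2616577508) (nat_lit 84) (nat_lit 6097382717) (nat_lit 23) (nat_lit 5) (nat_lit 27) (nat_lit 5) (nat_lit 24) (nat_lit 5) (nat_lit 352) (nat_lit 284) (nat_lit 252)) (XT.lf (nat_lit 0) (nat_lit 1065726977) (nat_lit 252) (nat_lit 4599421258) (nat_lit 336) (nat_lit 7149755721) (nat_lit 20) (nat_lit 5) (nat_lit 23) (nat_lit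 5) (nat_lit 24) (nat_lit 5) (nat_lit 353) (nat_lit 284) (nat_lit 251))) (XT.nd (nat_lit 94) (nat_lit 0) (nat_lit 0) (XT.lf (nat_lit 0) (nat_lit 4869055222) (nat_lit 252) (nat_lit 2692650582) (nat_lit 336) (nat_lit 5547063914) (nat_lit 20) (nat_lit 5) (nat_lit 23) (nat_lit 5) (nat_lit 24) (nat_lit 5) (nat_lit 354) (nat_lit 284) (nat_lit 250)) (XT.lf (nat_lit 0) (nat_lit 8743150125) (nat_lit 252) (nat_lit 738202018) (nat_lit 336) (nat_lit 3931702631) (nat_lit 20) (nat_lit 5) (nat_lit 23) (nat_lit 5) (nat_lit 24) (nat_lit 5) (nat_lit 355) (nat_lit 284) (nat_lit 249)))) (XT.nd (nat_lit 188) (nat_lit 84) (nat_lit 0) (XT.nd (nat_lit 94) (nat_lit 168) (nat_lit 0) (XT.lf (nat_lit 0) (nat_lit 11438432922) (nat_lit 336) (nat_lit 1048976360) (nat_lit 84) (nat_lit 1240244220) (nat_lit 20) (nat_lit 5) (nat_lit 24) (nat_lit 5) (nat_lit 21) (nat_lit 4) (nat_lit 356) (nat_lit 284) (nat_lit 248)) (XT.lf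 (nat_lit 0) (nat_lit 2685283366) (nat_lit 168) (nat_lit 10771391888) (nat_lit 252) (nat_lit 595504899) (nat_lit 18) (nat_lit 5) (nat_lit 20) (nat_lit 5) (nat_lit 21) (nat_lit 4) (nat_lit 357) (nat_lit 284) (nat_lit 247))) (XT.nd (nat_lit 94) (nat_lit 0) (nat_lit 0) (XT.lf (nat_lit 0) (nat_lit 1104943070) (nat_lit 252) (nat_lit 7886292678) (nat_lit 84) (nat_lit 5396057076) (nat_lit 17) (nat_lit 5) (nat_lit 20) (nat_lit 5) (nat_lit 18) (nat_lit 5) (nat_lit 358) (nat_lit 284) (nat_lit 246)) (XT.lf (nat_lit 0) (nat_lit 2813096984) (nat_lit 252) (nat_lit 4348381557) (nat_lit 84) (nat_lit 7572312347) (nat_lit 17) (nat_lit 5) (nat_lit 20) (nat_lit 5) (nat_lit 18) (nat_lit 5) (nat_lit 359) (nat_lit 284) (nat_lit 245))))) (XT.nd (nat_lit 376) (nat_lit 252) (nat_lit 0) (XT.nd (nat_lit 188) (nat_lit 0) (nat_lit 0) (XT.nd (nat_lit 94) (nat_lit 168) (nat_lit 0) (XT.lf (nat_lit 0) (nat_lit 4542547115)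 (nat_lit 252) (nat_lit 743958237) (nat_lit 84) (nat_lit 9805675094) (nat_lit 17) (nat_lit 5) (nat_lit 20) (nat_lit 5) (nat_lit 18) (nat_lit 5) (nat_lit 360) (nat_lit 284) (nat_lit 244)) (XT.lf (nat_lit 0) (nat_lit 2990590717) (nat_lit 168) (nat_lit 3333981805) (nat_lit 252) (nat_lit 9137303356) (nat_lit 15) (nat_lit 5) (nat_lit 17) (nat_lit 5) (nat_lit 18) (nat_lit 5) (nat_lit 361) (nat_lit 284) (nat_lit 243))) (XT.nd (nat_lit 94) (nat_lit 0) (nat_lit 0) (XT.lf (nat_lit 0) (nat_lit 6815240837) (nat_lit 168) (nat_lit 1324172694) (nat_lit 252) (nat_lit 7704472291) (nat_lit 15) (nat_lit 5) (nat_lit 17) (nat_lit 5) (nat_lit 18) (nat_lit 5) (nat_lit 362) (nat_lit 284) (nat_lit 242)) (XT.lf (nat_lit 0) (nat_lit 9988541282) (nat_lit 252) (nat_lit 5527851478) (nat_lit 84) (nat_lit 722180424) (nat_lit 15) (nat_lit 5) (nat_lit 18) (nat_lit 5) (nat_lit 16) (nat_lit 4) (nat_lit 363) (nat_lit 284) (nat_lit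 241)))) (XT.nd (nat_lit 188) (nat_lit 84) (nat_lit 0) (XT.nd (nat_lit 94) (nat_lit 168) (nat_lit 0) (XT.lf (nat_lit 0) (nat_lit 11880025959) (nat_lit 252) (nat_lit 1971988138) (nat_lit 84) (nat_lit 2794095015) (nat_lit 15) (nat_lit 5) (nat_lit 18) (nat_lit 5) (nat_lit 16) (nat_lit 4) (nat_lit 364) (nat_lit 284) (nat_lit 240)) (XT.lf (nat_lit 0) (nat_lit 1689433753) (nat_lit 168) (nat_lit 12129820303) (nat_lit 252) (nat_lit 3247507086) (nat_lit 13) (nat_lit 5) (nat_lit 15) (nat_lit 5) (nat_lit 16) (nat_lit 4) (nat_lit 365) (nat_lit 284) (nat_lit 239))) (XT.nd (nat_lit 94) (nat_lit 84) (nat_lit 0) (XT.lf (nat_lit 0) (nat_lit 5467845221) (nat_lit 168) (nat_lit 10344135825) (nat_lit 252) (nat_lit 1688817939) (nat_lit 13) (nat_lit 5) (nat_lit 15) (nat_lit 5) (nat_lit 16) (nat_lit 4) (nat_lit 366) (nat_lit 284) (nat_lit 238)) (XT.nd (nat_lit 94) (nat_lit 84) (nat_lit 0) (XT.lf (nat_lit 0) (nat_lit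 9326220017) (nat_lit 168) (nat_lit 8513879729) (nat_lit 252) (nat_lit 109146363) (nat_lit 13) (nat_lit 5) (nat_lit 15) (nat_lit 5) (nat_lit 16) (nat_lit 4) (nat_lit 367) (nat_lit 284) (nat_lit 237)) (XT.lf (nat_lit 0) (nat_lit 1462899840) (nat_lit 252) (nat_lit 5159176511) (nat_lit 84) (nat_lit 11789985038) (nat_lit 12) (nat_lit 5) (nat_lit 15) (nat_lit 5) (nat_lit 13) (nat_lit 5) (nat_lit 368) (nat_lit 284) (nat_lit 236))))))) (XT.nd (nat_lit 51136) (nat_lit 0) (nat_lit 4536) (XT.nd (nat_lit 376) (nat_lit 0) (nat_lit 0) (XT.nd (nat_lit 188) (nat_lit 0) (nat_lit 0) (XT.nd (nat_lit 94) (nat_lit 168) (nat_lit 0) (XT.lf (nat_lit 0) (nat_lit 3056212683) (nat_lit 252) (nat_lit 1624672312) (nat_lit 84) (nat_lit 14209209847) (nat_lit 12) (nat_lit 5) (nat_lit 15) (nat_lit 5) (nat_lit 13) (nat_lit 5) (nat_lit 369) (nat_lit 284) (nat_lit 235)) (XT.lf (nat_lit 0) (nat_lit 2025676647) (nat_lit 168)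 (nat_lit 2668894671) (nat_lit 252) (nat_lit 14688631347) (nat_lit 10) (nat_lit 5) (nat_lit 12) (nat_lit 5) (nat_lit 13) (nat_lit 5) (nat_lit 370) (nat_lit 284) (nat_lit 234))) (XT.nd (nat_lit 94) (nat_lit 0) (nat_lit 0) (XT.lf (nat_lit 0) (nat_lit 5789440550) (nat_lit 168) (nat_lit 587190667) (nat_lit 252) (nat_lit 13515302293) (nat_lit 10) (nat_lit 5) (nat_lit 12) (nat_lit 5) (nat_lit 13) (nat_lit 5) (nat_lit 371) (nat_lit 284) (nat_lit 233)) (XT.lf (nat_lit 0) (nat_lit 8102880232) (nat_lit 252) (nat_lit 10795918790) (nat_lit 84) (nat_lit 1517996024) (nat_lit 10) (nat_lit 5) (nat_lit 13) (nat_lit 5) (nat_lit 11) (nat_lit 4) (nat_lit 372) (nat_lit 284) (nat_lit 232)))) (XT.nd (nat_lit 188) (nat_lit 0) (nat_lit 0) (XT.nd (nat_lit 94) (nat_lit 0) (nat_lit 0) (XT.lf (nat_lit 0) (nat_lit 9865932084) (nat_lit 252) (nat_lit 7425726109) (nat_lit 84) (nat_lit 3666897160) (nat_lit 10) (nat_lit 5)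 (nat_lit 13) (nat_lit 5) (nat_lit 11) (nat_lit 4) (nat_lit 373) (nat_lit 284) (nat_lit 231)) (XT.lf (nat_lit 0) (nat_lit 11661605118) (nat_lit 252) (nat_lit 3982948541) (nat_lit 84) (nat_lit 5873346325) (nat_lit 10) (nat_lit 5) (nat_lit 13) (nat_lit 5) (nat_lit 11) (nat_lit 4) (nat_lit 374) (nat_lit 284) (nat_lit 230))) (XT.nd (nat_lit 50384) (nat_lit 0) (nat_lit 7728) (XT.lf (nat_lit 0) (nat_lit 13491573090) (nat_lit 252) (nat_lit 464377057) (nat_lit 84) (nat_lit 8139400161) (nat_lit 10) (nat_lit 5) (nat_lit 13) (nat_lit 5) (nat_lit 11) (nat_lit 4) (nat_lit 375) (nat_lit 284) (nat_lit 229)) (XT.nd (nat_lit 94) (nat_lit 0) (nat_lit 0) (XT.lf (nat_lit 0) (nat_lit 795692733) (nat_lit 756) (nat_lit 1386448836) (nat_lit 756) (nat_lit 1386448836) (nat_lit 102) (nat_lit 4) (nat_lit 111) (nat_lit 5) (nat_lit 111) (nat_lit 4) (nat_lit 318) (nat_lit 285) (nat_lit 285)) (XT.lf (nat_lit 0) (nat_lit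 4958222871) (nat_lit 756) (nat_lit 1822960724) (nat_lit 756) (nat_lit 425226072) (nat_lit 102) (nat_lit 4) (nat_lit 111) (nat_lit 5) (nat_lit 111) (nat_lit 4) (nat_lit 319) (nat_lit 285) (nat_lit 284)))))) (XT.nd (nat_lit 376) (nat_lit 1260) (nat_lit 0) (XT.nd (nat_lit 188) (nat_lit 1008) (nat_lit 0) (XT.nd (nat_lit 94) (nat_lit 0) (nat_lit 0) (XT.lf (nat_lit 0) (nat_lit 1085292003) (nat_lit 840) (nat_lit 804779078) (nat_lit 924) (nat_lit 5389821899) (nat_lit 91) (nat_lit 5) (nat_lit 101) (nat_lit 5) (nat_lit 102) (nat_lit 4) (nat_lit 320) (nat_lit 285) (nat_lit 283)) (XT.lf (nat_lit 0) (nat_lit 4220394910) (nat_lit 924) (nat_lit 2862961059) (nat_lit 0) (nat_lit 274335938) (nat_lit 91) (nat_lit 5) (nat_lit 102) (nat_lit 4) (nat_lit 91) (nat_lit 4) (nat_lit 321) (nat_lit 285) (nat_lit 282))) (XT.nd (nat_lit 94) (nat_lit 84) (nat_lit 0) (XT.lf (nat_lit 0) (nat_lit 505252641) (nat_lit 924)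 (nat_lit 6059124710) (nat_lit 924) (nat_lit 876007714) (nat_lit 80) (nat_lit 4) (nat_lit 91) (nat_lit 5) (nat_lit 91) (nat_lit 4) (nat_lit 322) (nat_lit 285) (nat_lit 281)) (XT.lf (nat_lit 0) (nat_lit 1384555985) (nat_lit 1008) (nat_lit 3570946084) (nat_lit 84) (nat_lit 2571605631) (nat_lit 79) (nat_lit 5) (nat_lit 91) (nat_lit 5) (nat_lit 80) (nat_lit 4) (nat_lit 323) (nat_lit 285) (nat_lit 280)))) (XT.nd (nat_lit 188) (nat_lit 588) (nat_lit 0) (XT.nd (nat_lit 94) (nat_lit 672) (nat_lit 0) (XT.lf (nat_lit 0) (nat_lit 3627464106) (nat_lit 1008) (nat_lit 179384650) (nat_lit 84) (nat_lit 3812155977) (nat_lit 79) (nat_lit 5) (nat_lit 91) (nat_lit 5) (nat_lit 80) (nat_lit 4) (nat_lit 324) (nat_lit 285) (nat_lit 279)) (XT.lf (nat_lit 0) (nat_lit 3318258794) (nat_lit 672) (nat_lit 2587115622) (nat_lit 756) (nat_lit 1810036352) (nat_lit 71) (nat_lit 5) (nat_lit 79) (nat_lit 5) (nat_lit 80) (nat_lit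 4) (nat_lit 325) (nat_lit 285) (nat_lit 278))) (XT.nd (nat_lit 94) (nat_lit 504) (nat_lit 0) (XT.lf (nat_lit 0) (nat_lit 364838288) (nat_lit 756) (nat_lit 958173680) (nat_lit 84) (nat_lit 6494240979) (nat_lit 70) (nat_lit 5) (nat_lit 79) (nat_lit 5) (nat_lit 71) (nat_lit 5) (nat_lit 326) (nat_lit 285) (nat_lit 277)) (XT.nd (nat_lit 94) (nat_lit 0) (nat_lit 0) (XT.lf (nat_lit 0) (nat_lit 2529860063) (nat_lit 588) (nat_lit 5368489246) (nat_lit 84) (nat_lit 25097181) (nat_lit 64) (nat_lit 5) (nat_lit 71) (nat_lit 5) (nat_lit 65) (nat_lit 4) (nat_lit 327) (nat_lit 285) (nat_lit 276)) (XT.lf (nat_lit 0) (nat_lit 4721672451) (nat_lit 588) (nat_lit 1915950319) (nat_lit 84) (nat_lit 1397081363) (nat_lit 64) (nat_lit 5) (nat_lit 71) (nat_lit 5) (nat_lit 65) (nat_lit 4) (nat_lit 328) (nat_lit 285) (nat_lit 275))))))))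
noncomputable def xc24 : XT := (XT.nd (nat_lit 1598) (nat_lit 1260) (nat_lit 0) (XT.nd (nat_lit 752) (nat_lit 1092) (nat_lit 0) (XT.nd (nat_lit 376) (nat_lit 840) (nat_lit 0) (XT.nd (nat_lit 188) (nat_lit 420) (nat_lit 0) (XT.nd (nat_lit 94) (nat_lit 84) (nat_lit 0) (XT.lf (nat_lit 0) (nat_lit 1611089054) (nat_lit 420) (nat_lit 5324287294) (nat_lit 504) (nat_lit 1215968440) (nat_lit 59) (nat_lit 5) (nat_lit 64) (nat_lit 5) (nat_lit 65) (nat_lit 4) (nat_lit 329) (nat_lit 285) (nat_lit 274)) (XT.lf (nat_lit 0) (nat_lit 885332138) (nat_lit 504) (nat_lit 3058567125) (nat_lit 84) (nat_lit 4329180432) (nat_lit 58) (nat_lit 5) (nat_lit 64) (nat_lit 5) (nat_lit 59) (nat_lit 5) (nat_lit 330) (nat_lit 285) (nat_lit 273))) (XT.nd (nat_lit 94) (nat_lit 0) (nat_lit 0) (XT.lf (nat_lit 0) (nat_lit 463870606) (nat_lit 420) (nat_lit 2507194276) (nat_lit 504) (nat_lit 5429318926) (nat_lit 53) (nat_lit 5)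 (nat_lit 58) (nat_lit 5) (nat_lit 59) (nat_lit 5) (nat_lit 331) (nat_lit 285) (nat_lit 272)) (XT.lf (nat_lit 0) (nat_lit 4096900116) (nat_lit 420) (nat_lit 997605354) (nat_lit 504) (nat_lit 3438412446) (nat_lit 53) (nat_lit 5) (nat_lit 58) (nat_lit 5) (nat_lit 59) (nat_lit 5) (nat_lit 332) (nat_lit 285) (nat_lit 271)))) (XT.nd (nat_lit 188) (nat_lit 420) (nat_lit 0) (XT.nd (nat_lit 94) (nat_lit 420) (nat_lit 0) (XT.lf (nat_lit 0) (nat_lit 7232167145) (nat_lit 504) (nat_lit 896247340) (nat_lit 84) (nat_lit 543180521) (nat_lit 53) (nat_lit 5) (nat_lit 59) (nat_lit 5) (nat_lit 54) (nat_lit 4) (nat_lit 333) (nat_lit 285) (nat_lit 270)) (XT.lf (nat_lit 0) (nat_lit 590323085) (nat_lit 420) (nat_lit 6085126300) (nat_lit 84) (nat_lit 2139918546) (nat_lit 48) (nat_lit 5) (nat_lit 53) (nat_lit 5) (nat_lit 49) (nat_lit 5) (nat_lit 334) (nat_lit 285) (nat_lit 269))) (XT.nd (nat_lit 94) (nat_lit 420)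 (nat_lit 0) (XT.lf (nat_lit 0) (nat_lit 2607219514) (nat_lit 420) (nat_lit 2552664367) (nat_lit 84) (nat_lit 3805076334) (nat_lit 48) (nat_lit 5) (nat_lit 53) (nat_lit 5) (nat_lit 49) (nat_lit 5) (nat_lit 335) (nat_lit 285) (nat_lit 268)) (XT.lf (nat_lit 0) (nat_lit 1049646245) (nat_lit 420) (nat_lit 3593742523) (nat_lit 504) (nat_lit 4477526559) (nat_lit 43) (nat_lit 5) (nat_lit 48) (nat_lit 5) (nat_lit 49) (nat_lit 5) (nat_lit 336) (nat_lit 285) (nat_lit 267))))) (XT.nd (nat_lit 376) (nat_lit 672) (nat_lit 0) (XT.nd (nat_lit 188) (nat_lit 420) (nat_lit 0) (XT.nd (nat_lit 94) (nat_lit 0) (nat_lit 0) (XT.lf (nat_lit 0) (nat_lit 4757553560) (nat_lit 420) (nat_lit 1959123160) (nat_lit 504) (nat_lit 2566207523) (nat_lit 43) (nat_lit 5) (nat_lit 48) (nat_lit 5) (nat_lit 49) (nat_lit 5) (nat_lit 337) (nat_lit 285) (nat_lit 266)) (XT.lf (nat_lit 0) (nat_lit 8522025721) (nat_lit 420) (nat_lit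 281146739) (nat_lit 504) (nat_lit 648646624) (nat_lit 43) (nat_lit 5) (nat_lit 48) (nat_lit 5) (nat_lit 49) (nat_lit 5) (nat_lit 338) (nat_lit 285) (nat_lit 265))) (XT.nd (nat_lit 94) (nat_lit 0) (nat_lit 0) (XT.lf (nat_lit 0) (nat_lit 1293324133) (nat_lit 420) (nat_lit 6879679127) (nat_lit 84) (nat_lit 1453176009) (nat_lit 38) (nat_lit 5) (nat_lit 43) (nat_lit 5) (nat_lit 39) (nat_lit 5) (nat_lit 339) (nat_lit 285) (nat_lit 264)) (XT.lf (nat_lit 0) (nat_lit 3245188757) (nat_lit 420) (nat_lit 3317980322) (nat_lit 84) (nat_lit 3244041941) (nat_lit 38) (nat_lit 5) (nat_lit 43) (nat_lit 5) (nat_lit 39) (nat_lit 5) (nat_lit 340) (nat_lit 285) (nat_lit 263)))) (XT.nd (nat_lit 188) (nat_lit 336) (nat_lit 0) (XT.nd (nat_lit 94) (nat_lit 0) (nat_lit 0) (XT.lf (nat_lit 0) (nat_lit 302814550) (nat_lit 336) (nat_lit 4909726174) (nat_lit 420) (nat_lit 4783029963) (nat_lit 34) (nat_lit 5) (nat_lit 38)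 (nat_lit 5) (nat_lit 39) (nat_lit 5) (nat_lit 341) (nat_lit 285) (nat_lit 262)) (XT.lf (nat_lit 0) (nat_lit 4049357172) (nat_lit 336) (nat_lit 3179012090) (nat_lit 420) (nat_lit 2962098760) (nat_lit 34) (nat_lit 5) (nat_lit 38) (nat_lit 5) (nat_lit 39) (nat_lit 5) (nat_lit 342) (nat_lit 285) (nat_lit 261))) (XT.nd (nat_lit 94) (nat_lit 336) (nat_lit 0) (XT.lf (nat_lit 0) (nat_lit 7856915233) (nat_lit 336) (nat_lit 1404046531) (nat_lit 420) (nat_lit 1132164264) (nat_lit 34) (nat_lit 5) (nat_lit 38) (nat_lit 5) (nat_lit 39) (nat_lit 5) (nat_lit 343) (nat_lit 285) (nat_lit 260)) (XT.nd (nat_lit 94) (nat_lit 0) (nat_lit 0) (XT.lf (nat_lit 0) (nat_lit 709849107) (nat_lit 336) (nat_lit 9466217375) (nat_lit 84) (nat_lit 426964278) (nat_lit 30) (nat_lit 5) (nat_lit 34) (nat_lit 5) (nat_lit 31) (nat_lit 5) (nat_lit 344) (nat_lit 285) (nat_lit 259)) (XT.lf (nat_lit 0) (nat_lit 2582180178) (nat_lit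 336) (nat_lit 5923041000) (nat_lit 84) (nat_lit 2314238631) (nat_lit 30) (nat_lit 5) (nat_lit 34) (nat_lit 5) (nat_lit 31) (nat_lit 5) (nat_lit 345) (nat_lit 285) (nat_lit 258))))))) (XT.nd (nat_lit 752) (nat_lit 672) (nat_lit 0) (XT.nd (nat_lit 376) (nat_lit 336) (nat_lit 0) (XT.nd (nat_lit 188) (nat_lit 0) (nat_lit 0) (XT.nd (nat_lit 94) (nat_lit 252) (nat_lit 0) (XT.lf (nat_lit 0) (nat_lit 4469516957) (nat_lit 336) (nat_lit 2324028628) (nat_lit 84) (nat_lit 4250653393) (nat_lit 30) (nat_lit 5) (nat_lit 34) (nat_lit 5) (nat_lit 31) (nat_lit 5) (nat_lit 346) (nat_lit 285) (nat_lit 257)) (XT.lf (nat_lit 0) (nat_lit 1361607758) (nat_lit 252) (nat_lit 5025518198) (nat_lit 336) (nat_lit 4889913064) (nat_lit 27) (nat_lit 5) (nat_lit 30) (nat_lit 5) (nat_lit 31) (nat_lit 5) (nat_lit 347) (nat_lit 285) (nat_lit 256))) (XT.nd (nat_lit 94) (nat_lit 0) (nat_lit 0) (XT.lf (nat_lit 0) (nat_lit 5158918617)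 (nat_lit 252) (nat_lit 3188518541) (nat_lit 336) (nat_lit 3170429889) (nat_lit 27) (nat_lit 5) (nat_lit 30) (nat_lit 5) (nat_lit 31) (nat_lit 5) (nat_lit 348) (nat_lit 285) (nat_lit 255)) (XT.lf (nat_lit 0) (nat_lit 9023656644) (nat_lit 252) (nat_lit 1305092432) (nat_lit 336) (nat_lit 1438887852) (nat_lit 27) (nat_lit 5) (nat_lit 30) (nat_lit 5) (nat_lit 31) (nat_lit 5) (nat_lit 349) (nat_lit 285) (nat_lit 254)))) (XT.nd (nat_lit 188) (nat_lit 0) (nat_lit 0) (XT.nd (nat_lit 94) (nat_lit 0) (nat_lit 0) (XT.lf (nat_lit 0) (nat_lit 315911118) (nat_lit 336) (nat_lit 11083615346) (nat_lit 84) (nat_lit 626472373) (nat_lit 23) (nat_lit 5) (nat_lit 27) (nat_lit 5) (nat_lit 24) (nat_lit 5) (nat_lit 350) (nat_lit 285) (nat_lit 253)) (XT.lf (nat_lit 0) (nat_lit 2098885675) (nat_lit 336) (nat_lit 7569260719) (nat_lit 84) (nat_lit 2623875768) (nat_lit 23) (nat_lit 5) (nat_lit 27) (nat_lit 5) (nat_lit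 24) (nat_lit 5) (nat_lit 351) (nat_lit 285) (nat_lit 252))) (XT.nd (nat_lit 94) (nat_lit 0) (nat_lit 0) (XT.lf (nat_lit 0) (nat_lit 3899676976) (nat_lit 336) (nat_lit 3995055888) (nat_lit 84) (nat_lit 4672935837) (nat_lit 23) (nat_lit 5) (nat_lit 27) (nat_lit 5) (nat_lit 24) (nat_lit 5) (nat_lit 352) (nat_lit 285) (nat_lit 251)) (XT.lf (nat_lit 0) (nat_lit 5719963549) (nat_lit 336) (nat_lit 357669320) (nat_lit 84) (nat_lit 6775562518) (nat_lit 23) (nat_lit 5) (nat_lit 27) (nat_lit 5) (nat_lit 24) (nat_lit 5) (nat_lit 353) (nat_lit 285) (nat_lit 250))))) (XT.nd (nat_lit 376) (nat_lit 252) (nat_lit 0) (XT.nd (nat_lit 188) (nat_lit 168) (nat_lit 0) (XT.nd (nat_lit 94) (nat_lit 0) (nat_lit 0) (XT.lf (nat_lit 0) (nat_lit 3415095983) (nat_lit 252) (nat_lit 4180224283) (nat_lit 336) (nat_lit 5552497870) (nat_lit 20) (nat_lit 5) (nat_lit 23) (nat_lit 5) (nat_lit 24) (nat_lit 5) (nat_lit 354) (nat_lit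 285) (nat_lit 249)) (XT.lf (nat_lit 0) (nat_lit 7266680191) (nat_lit 252) (nat_lit 2231235229) (nat_lit 336) (nat_lit 3954813120) (nat_lit 20) (nat_lit 5) (nat_lit 23) (nat_lit 5) (nat_lit 24) (nat_lit 5) (nat_lit 355) (nat_lit 285) (nat_lit 248))) (XT.nd (nat_lit 94) (nat_lit 168) (nat_lit 0) (XT.lf (nat_lit 0) (nat_lit 11193318969) (nat_lit 252) (nat_lit 232582379) (nat_lit 336) (nat_lit 2342421713) (nat_lit 20) (nat_lit 5) (nat_lit 23) (nat_lit 5) (nat_lit 24) (nat_lit 5) (nat_lit 356) (nat_lit 285) (nat_lit 247)) (XT.lf (nat_lit 0) (nat_lit 1108070857) (nat_lit 168) (nat_lit 12302027270) (nat_lit 252) (nat_lit 683898027) (nat_lit 18) (nat_lit 5) (nat_lit 20) (nat_lit 5) (nat_lit 21) (nat_lit 4) (nat_lit 357) (nat_lit 285) (nat_lit 246)))) (XT.nd (nat_lit 188) (nat_lit 168) (nat_lit 0) (XT.nd (nat_lit 94) (nat_lit 0) (nat_lit 0) (XT.lf (nat_lit 0) (nat_lit 1002260996) (nat_lit 252) (nat_lit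 9526355249) (nat_lit 84) (nat_lit 3901103569) (nat_lit 17) (nat_lit 5) (nat_lit 20) (nat_lit 5) (nat_lit 18) (nat_lit 5) (nat_lit 358) (nat_lit 285) (nat_lit 245)) (XT.lf (nat_lit 0) (nat_lit 2694828227) (nat_lit 252) (nat_lit 6009696243) (nat_lit 84) (nat_lit 6072259658) (nat_lit 17) (nat_lit 5) (nat_lit 20) (nat_lit 5) (nat_lit 18) (nat_lit 5) (nat_lit 359) (nat_lit 285) (nat_lit 244))) (XT.nd (nat_lit 94) (nat_lit 168) (nat_lit 0) (XT.lf (nat_lit 0) (nat_lit 4409160333) (nat_lit 252) (nat_lit 2425886033) (nat_lit 84) (nat_lit 8300676545) (nat_lit 17) (nat_lit 5) (nat_lit 20) (nat_lit 5) (nat_lit 18) (nat_lit 5) (nat_lit 360) (nat_lit 285) (nat_lit 243)) (XT.nd (nat_lit 94) (nat_lit 0) (nat_lit 0) (XT.lf (nat_lit 0) (nat_lit 1253674617) (nat_lit 168) (nat_lit 4905617244) (nat_lit 252) (nat_lit 9347193336) (nat_lit 15) (nat_lit 5) (nat_lit 17) (nat_lit 5) (nat_lit 18) (nat_lit 5) (nat_lit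 361) (nat_lit 285) (nat_lit 242)) (XT.lf (nat_lit 0) (nat_lit 5058533835) (nat_lit 168) (nat_lit 2901180149) (nat_lit 252) (nat_lit 7929303937) (nat_lit 15) (nat_lit 5) (nat_lit 17) (nat_lit 5) (nat_lit 18) (nat_lit 5) (nat_lit 362) (nat_lit 285) (nat_lit 241))))))))
noncomputable def xc25 : XT := (XT.nd (nat_lit 51700) (nat_lit 0) (nat_lit 2772) (XT.nd (nat_lit 752) (nat_lit 168) (nat_lit 0) (XT.nd (nat_lit 376) (nat_lit 84) (nat_lit 0) (XT.nd (nat_lit 188) (nat_lit 168) (nat_lit 0) (XT.nd (nat_lit 94) (nat_lit 0) (nat_lit 0) (XT.lf (nat_lit 0) (nat_lit 8942356956) (nat_lit 168) (nat_lit 845188010) (nat_lit 252) (nat_lit 6496894032) (nat_lit 15) (nat_lit 5) (nat_lit 17) (nat_lit 5) (nat_lit 18) (nat_lit 5) (nat_lit 363) (nat_lit 285) (nat_lit 240)) (XT.lf (nat_lit 0) (nat_lit 11657030308) (nat_lit 252) (nat_lit 3796894666) (nat_lit 84) (nat_lit 1238803236) (nat_lit 15) (nat_lit 5) (nat_lit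 18) (nat_lit 5) (nat_lit 16) (nat_lit 4) (nat_lit 364) (nat_lit 285) (nat_lit 239))) (XT.nd (nat_lit 94) (nat_lit 168) (nat_lit 0) (XT.lf (nat_lit 0) (nat_lit 13566293423) (nat_lit 252) (nat_lit 187998327) (nat_lit 84) (nat_lit 3360086566) (nat_lit 15) (nat_lit 5) (nat_lit 18) (nat_lit 5) (nat_lit 16) (nat_lit 4) (nat_lit 365) (nat_lit 285) (nat_lit 238)) (XT.lf (nat_lit 0) (nat_lit 3568247446) (nat_lit 168) (nat_lit 11975879584) (nat_lit 252) (nat_lit 2004817903) (nat_lit 13) (nat_lit 5) (nat_lit 15) (nat_lit 5) (nat_lit 16) (nat_lit 4) (nat_lit 366) (nat_lit 285) (nat_lit 237)))) (XT.nd (nat_lit 188) (nat_lit 0) (nat_lit 0) (XT.nd (nat_lit 94) (nat_lit 84) (nat_lit 0) (XT.lf (nat_lit 0) (nat_lit 7408872425) (nat_lit 168) (nat_lit 10150773824) (nat_lit 252) (nat_lit 438201457) (nat_lit 13) (nat_lit 5) (nat_lit 15) (nat_lit 5) (nat_lit 16) (nat_lit 4) (nat_lit 367) (nat_lit 285) (nat_lit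 236)) (XT.lf (nat_lit 0) (nat_lit 1128067005) (nat_lit 252) (nat_lit 7139393884) (nat_lit 84) (nat_lit 10193749131) (nat_lit 12) (nat_lit 5) (nat_lit 15) (nat_lit 5) (nat_lit 13) (nat_lit 5) (nat_lit 368) (nat_lit 285) (nat_lit 235))) (XT.nd (nat_lit 94) (nat_lit 0) (nat_lit 0) (XT.lf (nat_lit 0) (nat_lit 2709345447) (nat_lit 252) (nat_lit 3621894973) (nat_lit 84) (nat_lit 12608435489) (nat_lit 12) (nat_lit 5) (nat_lit 15) (nat_lit 5) (nat_lit 13) (nat_lit 5) (nat_lit 369) (nat_lit 285) (nat_lit 234)) (XT.lf (nat_lit 0) (nat_lit 4315936568) (nat_lit 252) (nat_lit 28852857) (nat_lit 84) (nat_lit 15089036685) (nat_lit 12) (nat_lit 5) (nat_lit 15) (nat_lit 5) (nat_lit 13) (nat_lit 5) (nat_lit 370) (nat_lit 285) (nat_lit 233))))) (XT.nd (nat_lit 376) (nat_lit 0) (nat_lit 0) (XT.nd (nat_lit 188) (nat_lit 0) (nat_lit 0) (XT.nd (nat_lit 94) (nat_lit 0) (nat_lit 0) (XT.lf (nat_lit 0) (nat_lit 3717990783)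 (nat_lit 168) (nat_lit 2268230025) (nat_lit 252) (nat_lit 13956757045) (nat_lit 10) (nat_lit 5) (nat_lit 12) (nat_lit 5) (nat_lit 13) (nat_lit 5) (nat_lit 371) (nat_lit 285) (nat_lit 232)) (XT.lf (nat_lit 0) (nat_lit 7549435185) (nat_lit 168) (nat_lit 136528029) (nat_lit 252) (nat_lit 12782752053) (nat_lit 10) (nat_lit 5) (nat_lit 12) (nat_lit 5) (nat_lit 13) (nat_lit 5) (nat_lit 372) (nat_lit 285) (nat_lit 231))) (XT.nd (nat_lit 94) (nat_lit 0) (nat_lit 0) (XT.lf (nat_lit 0) (nat_lit 9436812131) (nat_lit 252) (nat_lit 9563435186) (nat_lit 84) (nat_lit 2010659093) (nat_lit 10) (nat_lit 5) (nat_lit 13) (nat_lit 5) (nat_lit 11) (nat_lit 4) (nat_lit 373) (nat_lit 285) (nat_lit 230)) (XT.lf (nat_lit 0) (nat_lit 11221962799) (nat_lit 252) (nat_lit 6135887647) (nat_lit 84) (nat_lit 4212777754) (nat_lit 10) (nat_lit 5) (nat_lit 13) (nat_lit 5) (nat_lit 11) (nat_lit 4) (nat_lit 374) (nat_lit 285)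 (nat_lit 229)))) (XT.nd (nat_lit 50290) (nat_lit 0) (nat_lit 7644) (XT.nd (nat_lit 50196) (nat_lit 0) (nat_lit 8484) (XT.lf (nat_lit 0) (nat_lit 13041724790) (nat_lit 252) (nat_lit 2632088257) (nat_lit 84) (nat_lit 6474631295) (nat_lit 10) (nat_lit 5) (nat_lit 13) (nat_lit 5) (nat_lit 11) (nat_lit 4) (nat_lit 375) (nat_lit 285) (nat_lit 228)) (XT.lf (nat_lit 0) (nat_lit 526542953) (nat_lit 756) (nat_lit 2452352934) (nat_lit 0) (nat_lit 526542953) (nat_lit 111) (nat_lit 5) (nat_lit 120) (nat_lit 4) (nat_lit 111) (nat_lit 4) (nat_lit 316) (nat_lit 286) (nat_lit 286))) (XT.nd (nat_lit 94) (nat_lit 840) (nat_lit 0) (XT.lf (nat_lit 0) (nat_lit 3404138819) (nat_lit 756) (nat_lit 1705317029) (nat_lit 0) (nat_lit 1963074393) (nat_lit 111) (nat_lit 5) (nat_lit 120) (nat_lit 4) (nat_lit 111) (nat_lit 4) (nat_lit 317) (nat_lit 286) (nat_lit 285)) (XT.nd (nat_lit 94) (nat_lit 84) (nat_lit 0) (XT.lf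 (nat_lit 0) (nat_lit 1557798714) (nat_lit 756) (nat_lit 4209860139) (nat_lit 756) (nat_lit 1371061061) (nat_lit 102) (nat_lit 4) (nat_lit 111) (nat_lit 5) (nat_lit 111) (nat_lit 4) (nat_lit 318) (nat_lit 286) (nat_lit 284)) (XT.lf (nat_lit 0) (nat_lit 919652283) (nat_lit 840) (nat_lit 2326693003) (nat_lit 84) (nat_lit 3962807681) (nat_lit 101) (nat_lit 5) (nat_lit 111) (nat_lit 5) (nat_lit 102) (nat_lit 4) (nat_lit 319) (nat_lit 286) (nat_lit 283))))))) (XT.nd (nat_lit 752) (nat_lit 1764) (nat_lit 0) (XT.nd (nat_lit 376) (nat_lit 1260) (nat_lit 0) (XT.nd (nat_lit 188) (nat_lit 1008) (nat_lit 0) (XT.nd (nat_lit 94) (nat_lit 0) (nat_lit 0) (XT.lf (nat_lit 0) (nat_lit 967515366) (nat_lit 840) (nat_lit 2221537608) (nat_lit 924) (nat_lit 4094948047) (nat_lit 91) (nat_lit 5) (nat_lit 101) (nat_lit 5) (nat_lit 102) (nat_lit 4) (nat_lit 320) (nat_lit 286) (nat_lit 282)) (XT.lf (nat_lit 0) (nat_lit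 4347469367) (nat_lit 840) (nat_lit 1133735663) (nat_lit 924) (nat_lit 1882106377) (nat_lit 91) (nat_lit 5) (nat_lit 101) (nat_lit 5) (nat_lit 102) (nat_lit 4) (nat_lit 321) (nat_lit 286) (nat_lit 281))) (XT.nd (nat_lit 94) (nat_lit 0) (nat_lit 0) (XT.lf (nat_lit 0) (nat_lit 323433968) (nat_lit 1008) (nat_lit 7123819552) (nat_lit 84) (nat_lit 434521) (nat_lit 79) (nat_lit 5) (nat_lit 91) (nat_lit 5) (nat_lit 80) (nat_lit 4) (nat_lit 322) (nat_lit 286) (nat_lit 280)) (XT.lf (nat_lit 0) (nat_lit 2532110589) (nat_lit 1008) (nat_lit 3801782295) (nat_lit 84) (nat_lit 1201609177) (nat_lit 79) (nat_lit 5) (nat_lit 91) (nat_lit 5) (nat_lit 80) (nat_lit 4) (nat_lit 323) (nat_lit 286) (nat_lit 279)))) (XT.nd (nat_lit 188) (nat_lit 588) (nat_lit 0) (XT.nd (nat_lit 94) (nat_lit 672) (nat_lit 0) (XT.lf (nat_lit 0) (nat_lit 4741810685) (nat_lit 1008) (nat_lit 442673797) (nat_lit 84) (nat_lit 2444234474)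 (nat_lit 79) (nat_lit 5) (nat_lit 91) (nat_lit 5) (nat_lit 80) (nat_lit 4) (nat_lit 324) (nat_lit 286) (nat_lit 278)) (XT.lf (nat_lit 0) (nat_lit 3017431502) (nat_lit 672) (nat_lit 3967095718) (nat_lit 756) (nat_lit 741970460) (nat_lit 71) (nat_lit 5) (nat_lit 79) (nat_lit 5) (nat_lit 80) (nat_lit 4) (nat_lit 325) (nat_lit 286) (nat_lit 277))) (XT.nd (nat_lit 94) (nat_lit 504) (nat_lit 0) (XT.lf (nat_lit 0) (nat_lit 1379244489) (nat_lit 756) (nat_lit 1312767568) (nat_lit 84) (nat_lit 5137260699) (nat_lit 70) (nat_lit 5) (nat_lit 79) (nat_lit 5) (nat_lit 71) (nat_lit 5) (nat_lit 326) (nat_lit 286) (nat_lit 276)) (XT.lf (nat_lit 0) (nat_lit 2161574627) (nat_lit 504) (nat_lit 1347358401) (nat_lit 588) (nat_lit 4427885630) (nat_lit 64) (nat_lit 5) (nat_lit 70) (nat_lit 5) (nat_lit 71) (nat_lit 5) (nat_lit 327) (nat_lit 286) (nat_lit 275))))) (XT.nd (nat_lit 376) (nat_lit 1260) (nat_lit 0) (XT.nd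 (nat_lit 188) (nat_lit 84) (nat_lit 0) (XT.nd (nat_lit 94) (nat_lit 420) (nat_lit 0) (XT.lf (nat_lit 0) (nat_lit 5656834463) (nat_lit 588) (nat_lit 2341337228) (nat_lit 84) (nat_lit 51515150) (nat_lit 64) (nat_lit 5) (nat_lit 71) (nat_lit 5) (nat_lit 65) (nat_lit 4) (nat_lit 328) (nat_lit 286) (nat_lit 274)) (XT.lf (nat_lit 0) (nat_lit 1145281184) (nat_lit 420) (nat_lit 6691009738) (nat_lit 504) (nat_lit 331340050) (nat_lit 59) (nat_lit 5) (nat_lit 64) (nat_lit 5) (nat_lit 65) (nat_lit 4) (nat_lit 329) (nat_lit 286) (nat_lit 273))) (XT.nd (nat_lit 94) (nat_lit 0) (nat_lit 0) (XT.lf (nat_lit 0) (nat_lit 1722569890) (nat_lit 504) (nat_lit 3580994009) (nat_lit 84) (nat_lit 2986674005) (nat_lit 58) (nat_lit 5) (nat_lit 64) (nat_lit 5) (nat_lit 59) (nat_lit 5) (nat_lit 330) (nat_lit 286) (nat_lit 272)) (XT.lf (nat_lit 0) (nat_lit 3775022661) (nat_lit 504) (nat_lit 98510584) (nat_lit 84) (nat_lit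 4545261092) (nat_lit 58) (nat_lit 5) (nat_lit 64) (nat_lit 5) (nat_lit 59) (nat_lit 5) (nat_lit 331) (nat_lit 286) (nat_lit 271)))) (XT.nd (nat_lit 188) (nat_lit 840) (nat_lit 0) (XT.nd (nat_lit 94) (nat_lit 0) (nat_lit 0) (XT.lf (nat_lit 0) (nat_lit 3502194879) (nat_lit 420) (nat_lit 2367154452) (nat_lit 504) (nat_lit 2683095655) (nat_lit 53) (nat_lit 5) (nat_lit 58) (nat_lit 5) (nat_lit 59) (nat_lit 5) (nat_lit 332) (nat_lit 286) (nat_lit 270)) (XT.lf (nat_lit 0) (nat_lit 7156924665) (nat_lit 420) (nat_lit 817315944) (nat_lit 504) (nat_lit 718104921) (nat_lit 53) (nat_lit 5) (nat_lit 58) (nat_lit 5) (nat_lit 59) (nat_lit 5) (nat_lit 333) (nat_lit 286) (nat_lit 269))) (XT.nd (nat_lit 94) (nat_lit 420) (nat_lit 0) (XT.lf (nat_lit 0) (nat_lit 1255226520) (nat_lit 420) (nat_lit 6788242114) (nat_lit 84) (nat_lit 793921756) (nat_lit 48) (nat_lit 5) (nat_lit 53) (nat_lit 5) (nat_lit 49) (nat_lit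 5) (nat_lit 334) (nat_lit 286) (nat_lit 268)) (XT.nd (nat_lit 94) (nat_lit 420) (nat_lit 0) (XT.lf (nat_lit 0) (nat_lit 3245700701) (nat_lit 420) (nat_lit 3285718966) (nat_lit 84) (nat_lit 2456571504) (nat_lit 48) (nat_lit 5) (nat_lit 53) (nat_lit 5) (nat_lit 49) (nat_lit 5) (nat_lit 335) (nat_lit 286) (nat_lit 267)) (XT.lf (nat_lit 0) (nat_lit 271882858) (nat_lit 420) (nat_lit 4976643800) (nat_lit 504) (nat_lit 3896636977) (nat_lit 43) (nat_lit 5) (nat_lit 48) (nat_lit 5) (nat_lit 49) (nat_lit 5) (nat_lit 336) (nat_lit 286) (nat_lit 266))))))))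
noncomputable def xc26 : XT := (XT.nd (nat_lit 1598) (nat_lit 924) (nat_lit 0) (XT.nd (nat_lit 752) (nat_lit 588) (nat_lit 0) (XT.nd (nat_lit 376) (nat_lit 672) (nat_lit 0) (XT.nd (nat_lit 188) (nat_lit 420) (nat_lit 0) (XT.nd (nat_lit 94) (nat_lit 0) (nat_lit 0) (XT.lf (nat_lit 0) (nat_lit 3951045574) (nat_lit 420) (nat_lit 3345626674) (nat_lit 504) (nat_lit 2011417905) (nat_lit 43) (nat_lit 5) (nat_lit 48) (nat_lit 5) (nat_lit 49) (nat_lit 5) (nat_lit 337) (nat_lit 286) (nat_lit 265)) (XT.lf (nat_lit 0) (nat_lit 7687637425) (nat_lit 420) (nat_lit 1671144177) (nat_lit 504) (nat_lit 119172199) (nat_lit 43) (nat_lit 5) (nat_lit 48) (nat_lit 5) (nat_lit 49) (nat_lit 5) (nat_lit 338) (nat_lit 286) (nat_lit 264))) (XT.nd (nat_lit 94) (nat_lit 0) (nat_lit 0) (XT.lf (nat_lit 0) (nat_lit 1765162037) (nat_lit 420) (nat_lit 7804822462) (nat_lit 84) (nat_lit 83785287) (nat_lit 38) (nat_lit 5) (nat_lit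 43) (nat_lit 5) (nat_lit 39) (nat_lit 5) (nat_lit 339) (nat_lit 286) (nat_lit 263)) (XT.lf (nat_lit 0) (nat_lit 3693380961) (nat_lit 420) (nat_lit 4271394279) (nat_lit 84) (nat_lit 1870917019) (nat_lit 38) (nat_lit 5) (nat_lit 43) (nat_lit 5) (nat_lit 39) (nat_lit 5) (nat_lit 340) (nat_lit 286) (nat_lit 262)))) (XT.nd (nat_lit 188) (nat_lit 336) (nat_lit 0) (XT.nd (nat_lit 94) (nat_lit 336) (nat_lit 0) (XT.lf (nat_lit 0) (nat_lit 5634794245) (nat_lit 420) (nat_lit 684121028) (nat_lit 84) (nat_lit 3706093714) (nat_lit 38) (nat_lit 5) (nat_lit 43) (nat_lit 5) (nat_lit 39) (nat_lit 5) (nat_lit 341) (nat_lit 286) (nat_lit 261)) (XT.lf (nat_lit 0) (nat_lit 3021211687) (nat_lit 336) (nat_lit 4599970598) (nat_lit 420) (nat_lit 2599785056) (nat_lit 34) (nat_lit 5) (nat_lit 38) (nat_lit 5) (nat_lit 39) (nat_lit 5) (nat_lit 342) (nat_lit 286) (nat_lit 260))) (XT.nd (nat_lit 94) (nat_lit 336) (nat_lit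 0) (XT.lf (nat_lit 0) (nat_lit 6802442905) (nat_lit 336) (nat_lit 2829494455) (nat_lit 420) (nat_lit 792508849) (nat_lit 34) (nat_lit 5) (nat_lit 38) (nat_lit 5) (nat_lit 39) (nat_lit 5) (nat_lit 343) (nat_lit 286) (nat_lit 259)) (XT.lf (nat_lit 0) (nat_lit 3062320) (nat_lit 252) (nat_lit 1002450896) (nat_lit 336) (nat_lit 9630020239) (nat_lit 30) (nat_lit 5) (nat_lit 33) (nat_lit 5) (nat_lit 34) (nat_lit 5) (nat_lit 344) (nat_lit 286) (nat_lit 258))))) (XT.nd (nat_lit 376) (nat_lit 336) (nat_lit 0) (XT.nd (nat_lit 188) (nat_lit 252) (nat_lit 0) (XT.nd (nat_lit 94) (nat_lit 0) (nat_lit 0) (XT.lf (nat_lit 0) (nat_lit 2846710015) (nat_lit 336) (nat_lit 7105939428) (nat_lit 84) (nat_lit 900409531) (nat_lit 30) (nat_lit 5) (nat_lit 34) (nat_lit 5) (nat_lit 31) (nat_lit 5) (nat_lit 345) (nat_lit 286) (nat_lit 257)) (XT.lf (nat_lit 0) (nat_lit 4713494093) (nat_lit 336) (nat_lit 3532716682) (nat_lit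 84) (nat_lit 2832351862) (nat_lit 30) (nat_lit 5) (nat_lit 34) (nat_lit 5) (nat_lit 31) (nat_lit 5) (nat_lit 346) (nat_lit 286) (nat_lit 256))) (XT.nd (nat_lit 94) (nat_lit 0) (nat_lit 0) (XT.lf (nat_lit 0) (nat_lit 102538070) (nat_lit 252) (nat_lit 6496140170) (nat_lit 336) (nat_lit 4713853140) (nat_lit 27) (nat_lit 5) (nat_lit 30) (nat_lit 5) (nat_lit 31) (nat_lit 5) (nat_lit 347) (nat_lit 286) (nat_lit 255)) (XT.lf (nat_lit 0) (nat_lit 3875087990) (nat_lit 252) (nat_lit 4664320492) (nat_lit 336) (nat_lit 3014677752) (nat_lit 27) (nat_lit 5) (nat_lit 30) (nat_lit 5) (nat_lit 31) (nat_lit 5) (nat_lit 348) (nat_lit 286) (nat_lit 254)))) (XT.nd (nat_lit 188) (nat_lit 252) (nat_lit 0) (XT.nd (nat_lit 94) (nat_lit 84) (nat_lit 0) (XT.lf (nat_lit 0) (nat_lit 7715809586) (nat_lit 252) (nat_lit 2785918610) (nat_lit 336) (nat_lit 1302832889) (nat_lit 27) (nat_lit 5) (nat_lit 30) (nat_lit 5) (nat_lit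 31) (nat_lit 5) (nat_lit 349) (nat_lit 286) (nat_lit 253)) (XT.lf (nat_lit 0) (nat_lit 414748977) (nat_lit 336) (nat_lit 440105552) (nat_lit 84) (nat_lit 11209204708) (nat_lit 26) (nat_lit 5) (nat_lit 30) (nat_lit 5) (nat_lit 27) (nat_lit 5) (nat_lit 350) (nat_lit 286) (nat_lit 252))) (XT.nd (nat_lit 94) (nat_lit 0) (nat_lit 0) (XT.lf (nat_lit 0) (nat_lit 2166300142) (nat_lit 336) (nat_lit 9014644646) (nat_lit 84) (nat_lit 1150217942) (nat_lit 23) (nat_lit 5) (nat_lit 27) (nat_lit 5) (nat_lit 24) (nat_lit 5) (nat_lit 351) (nat_lit 286) (nat_lit 251)) (XT.nd (nat_lit 94) (nat_lit 0) (nat_lit 0) (XT.lf (nat_lit 0) (nat_lit 3949204068) (nat_lit 336) (nat_lit 5463885710) (nat_lit 84) (nat_lit 3194376853) (nat_lit 23) (nat_lit 5) (nat_lit 27) (nat_lit 5) (nat_lit 24) (nat_lit 5) (nat_lit 352) (nat_lit 286) (nat_lit 250)) (XT.lf (nat_lit 0) (nat_lit 5752141102) (nat_lit 336) (nat_lit 1849240068)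 (nat_lit 84) (nat_lit 5292249744) (nat_lit 23) (nat_lit 5) (nat_lit 27) (nat_lit 5) (nat_lit 24) (nat_lit 5) (nat_lit 353) (nat_lit 286) (nat_lit 249))))))) (XT.nd (nat_lit 752) (nat_lit 420) (nat_lit 0) (XT.nd (nat_lit 376) (nat_lit 252) (nat_lit 0) (XT.nd (nat_lit 188) (nat_lit 0) (nat_lit 0) (XT.nd (nat_lit 94) (nat_lit 0) (nat_lit 0) (XT.lf (nat_lit 0) (nat_lit 1870344786) (nat_lit 252) (nat_lit 5725001034) (nat_lit 336) (nat_lit 5594001317) (nat_lit 20) (nat_lit 5) (nat_lit 23) (nat_lit 5) (nat_lit 24) (nat_lit 5) (nat_lit 354) (nat_lit 286) (nat_lit 248)) (XT.lf (nat_lit 0) (nat_lit 5700095149) (nat_lit 252) (nat_lit 3781307335) (nat_lit 336) (nat_lit 4013461604) (nat_lit 20) (nat_lit 5) (nat_lit 23) (nat_lit 5) (nat_lit 24) (nat_lit 5) (nat_lit 355) (nat_lit 286) (nat_lit 247))) (XT.nd (nat_lit 94) (nat_lit 0) (nat_lit 0) (XT.lf (nat_lit 0) (nat_lit 9605556579) (nat_lit 252) (nat_lit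 1787790620) (nat_lit 336) (nat_lit 2417699718) (nat_lit 20) (nat_lit 5) (nat_lit 23) (nat_lit 5) (nat_lit 24) (nat_lit 5) (nat_lit 356) (nat_lit 286) (nat_lit 246)) (XT.lf (nat_lit 0) (nat_lit 13335515612) (nat_lit 336) (nat_lit 550374477) (nat_lit 84) (nat_lit 252221093) (nat_lit 20) (nat_lit 5) (nat_lit 24) (nat_lit 5) (nat_lit 21) (nat_lit 4) (nat_lit 357) (nat_lit 286) (nat_lit 245)))) (XT.nd (nat_lit 188) (nat_lit 0) (nat_lit 0) (XT.nd (nat_lit 94) (nat_lit 0) (nat_lit 0) (XT.lf (nat_lit 0) (nat_lit 864739225) (nat_lit 252) (nat_lit 11260422806) (nat_lit 84) (nat_lit 2349450065) (nat_lit 17) (nat_lit 5) (nat_lit 20) (nat_lit 5) (nat_lit 18) (nat_lit 5) (nat_lit 358) (nat_lit 286) (nat_lit 244)) (XT.lf (nat_lit 0) (nat_lit 2542188431) (nat_lit 252) (nat_lit 7764376909) (nat_lit 84) (nat_lit 4515660294) (nat_lit 17) (nat_lit 5) (nat_lit 20) (nat_lit 5) (nat_lit 18) (nat_lit 5) (nat_lit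 359) (nat_lit 286) (nat_lit 243))) (XT.nd (nat_lit 94) (nat_lit 0) (nat_lit 0) (XT.lf (nat_lit 0) (nat_lit 4241857080) (nat_lit 252) (nat_lit 4200560015) (nat_lit 84) (nat_lit 6739280032) (nat_lit 17) (nat_lit 5) (nat_lit 20) (nat_lit 5) (nat_lit 18) (nat_lit 5) (nat_lit 360) (nat_lit 286) (nat_lit 242)) (XT.lf (nat_lit 0) (nat_lit 5965329443) (nat_lit 252) (nat_lit 565650274) (nat_lit 84) (nat_lit 9022381926) (nat_lit 17) (nat_lit 5) (nat_lit 20) (nat_lit 5) (nat_lit 18) (nat_lit 5) (nat_lit 361) (nat_lit 286) (nat_lit 241))))) (XT.nd (nat_lit 376) (nat_lit 252) (nat_lit 0) (XT.nd (nat_lit 188) (nat_lit 0) (nat_lit 0) (XT.nd (nat_lit 94) (nat_lit 0) (nat_lit 0) (XT.lf (nat_lit 0) (nat_lit 3208382182) (nat_lit 168) (nat_lit 4537657341) (nat_lit 252) (nat_lit 8190539430) (nat_lit 15) (nat_lit 5) (nat_lit 17) (nat_lit 5) (nat_lit 18) (nat_lit 5) (nat_lit 362) (nat_lit 286) (nat_lit 240))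 (XT.lf (nat_lit 0) (nat_lit 7073586650) (nat_lit 168) (nat_lit 2486719025) (nat_lit 252) (nat_lit 6772186171) (nat_lit 15) (nat_lit 5) (nat_lit 17) (nat_lit 5) (nat_lit 18) (nat_lit 5) (nat_lit 363) (nat_lit 286) (nat_lit 239))) (XT.nd (nat_lit 94) (nat_lit 0) (nat_lit 0) (XT.lf (nat_lit 0) (nat_lit 11021934974) (nat_lit 168) (nat_lit 382157308) (nat_lit 252) (nat_lit 5337554597) (nat_lit 15) (nat_lit 5) (nat_lit 17) (nat_lit 5) (nat_lit 18) (nat_lit 5) (nat_lit 364) (nat_lit 286) (nat_lit 238)) (XT.lf (nat_lit 0) (nat_lit 13296755822) (nat_lit 252) (nat_lit 2124955875) (nat_lit 84) (nat_lit 1742166956) (nat_lit 15) (nat_lit 5) (nat_lit 18) (nat_lit 5) (nat_lit 16) (nat_lit 4) (nat_lit 365) (nat_lit 286) (nat_lit 237)))) (XT.nd (nat_lit 188) (nat_lit 84) (nat_lit 0) (XT.nd (nat_lit 94) (nat_lit 0) (nat_lit 0) (XT.lf (nat_lit 0) (nat_lit 1573712260) (nat_lit 168) (nat_lit 13668667731) (nat_lit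 252) (nat_lit 2357128836) (nat_lit 13) (nat_lit 5) (nat_lit 15) (nat_lit 5) (nat_lit 16) (nat_lit 4) (nat_lit 366) (nat_lit 286) (nat_lit 236)) (XT.lf (nat_lit 0) (nat_lit 5397121121) (nat_lit 168) (nat_lit 11848557446) (nat_lit 252) (nat_lit 803174981) (nat_lit 13) (nat_lit 5) (nat_lit 15) (nat_lit 5) (nat_lit 16) (nat_lit 4) (nat_lit 367) (nat_lit 286) (nat_lit 235))) (XT.nd (nat_lit 94) (nat_lit 0) (nat_lit 0) (XT.lf (nat_lit 0) (nat_lit 758412484) (nat_lit 252) (nat_lit 9215535735) (nat_lit 84) (nat_lit 8538812317) (nat_lit 12) (nat_lit 5) (nat_lit 15) (nat_lit 5) (nat_lit 13) (nat_lit 5) (nat_lit 368) (nat_lit 286) (nat_lit 234)) (XT.nd (nat_lit 94) (nat_lit 0) (nat_lit 0) (XT.lf (nat_lit 0) (nat_lit 2328018374) (nat_lit 252) (nat_lit 5714530798) (nat_lit 84) (nat_lit 10949096687) (nat_lit 12) (nat_lit 5) (nat_lit 15) (nat_lit 5) (nat_lit 13) (nat_lit 5) (nat_lit 369) (nat_lit 286)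 (nat_lit 233)) (XT.lf (nat_lit 0) (nat_lit 3923287913) (nat_lit 252) (nat_lit 2137486717) (nat_lit 84) (nat_lit 13425428253) (nat_lit 12) (nat_lit 5) (nat_lit 15) (nat_lit 5) (nat_lit 13) (nat_lit 5) (nat_lit 370) (nat_lit 286) (nat_lit 232))))))))
noncomputable def xc27 : XT := (XT.nd (nat_lit 51512) (nat_lit 0) (nat_lit 2016) (XT.nd (nat_lit 50666) (nat_lit 0) (nat_lit 5040) (XT.nd (nat_lit 376) (nat_lit 0) (nat_lit 0) (XT.nd (nat_lit 188) (nat_lit 0) (nat_lit 0) (XT.nd (nat_lit 94) (nat_lit 0) (nat_lit 0) (XT.lf (nat_lit 0) (nat_lit 1550163017) (nat_lit 168) (nat_lit 4010922849) (nat_lit 252) (nat_lit 14435330008) (nat_lit 10) (nat_lit 5) (nat_lit 12) (nat_lit 5) (nat_lit 13) (nat_lit 5) (nat_lit 371) (nat_lit 286) (nat_lit 231)) (XT.lf (nat_lit 0) (nat_lit 5366247506) (nat_lit 168) (nat_lit 1883777407) (nat_lit 252) (nat_lit 13272515823) (nat_lit 10) (nat_lit 5) (nat_lit 12) (nat_lit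 5) (nat_lit 13) (nat_lit 5) (nat_lit 372) (nat_lit 286) (nat_lit 230))) (XT.nd (nat_lit 94) (nat_lit 0) (nat_lit 0) (XT.lf (nat_lit 0) (nat_lit 8973018534) (nat_lit 252) (nat_lit 11798345433) (nat_lit 84) (nat_lit 294282392) (nat_lit 10) (nat_lit 5) (nat_lit 13) (nat_lit 5) (nat_lit 11) (nat_lit 4) (nat_lit 373) (nat_lit 286) (nat_lit 229)) (XT.lf (nat_lit 0) (nat_lit 10747963221) (nat_lit 252) (nat_lit 8385569988) (nat_lit 84) (nat_lit 2492200758) (nat_lit 10) (nat_lit 5) (nat_lit 13) (nat_lit 5) (nat_lit 11) (nat_lit 4) (nat_lit 374) (nat_lit 286) (nat_lit 228)))) (XT.nd (nat_lit 50102) (nat_lit 0) (nat_lit 8484) (XT.nd (nat_lit 50008) (nat_lit 0) (nat_lit 9240) (XT.lf (nat_lit 0) (nat_lit 12557826104) (nat_lit 252) (nat_lit 4896098526) (nat_lit 84) (nat_lit 4749980299) (nat_lit 10) (nat_lit 5) (nat_lit 13) (nat_lit 5) (nat_lit 11) (nat_lit 4) (nat_lit 375) (nat_lit 286) (nat_lit 227))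 (XT.lf (nat_lit 0) (nat_lit 1329435441) (nat_lit 588) (nat_lit 1059813040) (nat_lit 588) (nat_lit 1059813040) (nat_lit 120) (nat_lit 4) (nat_lit 127) (nat_lit 5) (nat_lit 127) (nat_lit 4) (nat_lit 314) (nat_lit 287) (nat_lit 287))) (XT.nd (nat_lit 94) (nat_lit 672) (nat_lit 0) (XT.lf (nat_lit 0) (nat_lit 207036678) (nat_lit 672) (nat_lit 1111303789) (nat_lit 84) (nat_lit 5635085588) (nat_lit 119) (nat_lit 5) (nat_lit 127) (nat_lit 5) (nat_lit 120) (nat_lit 4) (nat_lit 315) (nat_lit 287) (nat_lit 286)) (XT.lf (nat_lit 0) (nat_lit 2069366010) (nat_lit 672) (nat_lit 435261619) (nat_lit 756) (nat_lit 4507692364) (nat_lit 111) (nat_lit 5) (nat_lit 119) (nat_lit 5) (nat_lit 120) (nat_lit 4) (nat_lit 316) (nat_lit 287) (nat_lit 285))))) (XT.nd (nat_lit 376) (nat_lit 1764) (nat_lit 0) (XT.nd (nat_lit 188) (nat_lit 924) (nat_lit 0) (XT.nd (nat_lit 94) (nat_lit 756) (nat_lit 0) (XT.lf (nat_lit 0)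 (nat_lit 4814007167) (nat_lit 756) (nat_lit 1772157351) (nat_lit 0) (nat_lit 489470666) (nat_lit 111) (nat_lit 5) (nat_lit 120) (nat_lit 4) (nat_lit 111) (nat_lit 4) (nat_lit 317) (nat_lit 287) (nat_lit 284)) (XT.lf (nat_lit 0) (nat_lit 1457007148) (nat_lit 756) (nat_lit 5683287863) (nat_lit 756) (nat_lit 3043649) (nat_lit 102) (nat_lit 4) (nat_lit 111) (nat_lit 5) (nat_lit 111) (nat_lit 4) (nat_lit 318) (nat_lit 287) (nat_lit 283))) (XT.nd (nat_lit 94) (nat_lit 840) (nat_lit 0) (XT.lf (nat_lit 0) (nat_lit 2223946447) (nat_lit 840) (nat_lit 2478353415) (nat_lit 84) (nat_lit 2512510443) (nat_lit 101) (nat_lit 5) (nat_lit 111) (nat_lit 5) (nat_lit 102) (nat_lit 4) (nat_lit 319) (nat_lit 287) (nat_lit 282)) (XT.lf (nat_lit 0) (nat_lit 780388156) (nat_lit 840) (nat_lit 3676029189) (nat_lit 924) (nat_lit 2834713971) (nat_lit 91) (nat_lit 5) (nat_lit 101) (nat_lit 5) (nat_lit 102) (nat_lit 4)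 (nat_lit 320) (nat_lit 287) (nat_lit 281)))) (XT.nd (nat_lit 188) (nat_lit 756) (nat_lit 0) (XT.nd (nat_lit 94) (nat_lit 1008) (nat_lit 0) (XT.lf (nat_lit 0) (nat_lit 4128966454) (nat_lit 840) (nat_lit 2585272813) (nat_lit 924) (nat_lit 657584937) (nat_lit 91) (nat_lit 5) (nat_lit 101) (nat_lit 5) (nat_lit 102) (nat_lit 4) (nat_lit 321) (nat_lit 287) (nat_lit 280)) (XT.lf (nat_lit 0) (nat_lit 47716357) (nat_lit 924) (nat_lit 1438882829) (nat_lit 1008) (nat_lit 5970661730) (nat_lit 79) (nat_lit 5) (nat_lit 90) (nat_lit 5) (nat_lit 91) (nat_lit 5) (nat_lit 322) (nat_lit 287) (nat_lit 279))) (XT.nd (nat_lit 94) (nat_lit 756) (nat_lit 0) (XT.lf (nat_lit 0) (nat_lit 3438994017) (nat_lit 924) (nat_lit 210891942) (nat_lit 1008) (nat_lit 3896886474) (nat_lit 79) (nat_lit 5) (nat_lit 90) (nat_lit 5) (nat_lit 91) (nat_lit 5) (nat_lit 323) (nat_lit 287) (nat_lit 278)) (XT.nd (nat_lit 94) (nat_lit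 756) (nat_lit 0) (XT.lf (nat_lit 0) (nat_lit 5825284450) (nat_lit 1008) (nat_lit 778054989) (nat_lit 84) (nat_lit 1037994919) (nat_lit 79) (nat_lit 5) (nat_lit 91) (nat_lit 5) (nat_lit 80) (nat_lit 4) (nat_lit 324) (nat_lit 287) (nat_lit 277)) (XT.lf (nat_lit 0) (nat_lit 286690839) (nat_lit 756) (nat_lit 5099376377) (nat_lit 84) (nat_lit 2354312414) (nat_lit 70) (nat_lit 5) (nat_lit 79) (nat_lit 5) (nat_lit 71) (nat_lit 5) (nat_lit 325) (nat_lit 287) (nat_lit 276))))))) (XT.nd (nat_lit 846) (nat_lit 1176) (nat_lit 0) (XT.nd (nat_lit 376) (nat_lit 840) (nat_lit 0) (XT.nd (nat_lit 188) (nat_lit 504) (nat_lit 0) (XT.nd (nat_lit 94) (nat_lit 504) (nat_lit 0) (XT.lf (nat_lit 0) (nat_lit 2361782591) (nat_lit 756) (nat_lit 1741557837) (nat_lit 84) (nat_lit 3740809531) (nat_lit 70) (nat_lit 5) (nat_lit 79) (nat_lit 5) (nat_lit 71) (nat_lit 5) (nat_lit 326) (nat_lit 287) (nat_lit 275)) (XT.lf (nat_lit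 0) (nat_lit 1693162978) (nat_lit 504) (nat_lit 2763424646) (nat_lit 588) (nat_lit 3496438927) (nat_lit 64) (nat_lit 5) (nat_lit 70) (nat_lit 5) (nat_lit 71) (nat_lit 5) (nat_lit 327) (nat_lit 287) (nat_lit 274))) (XT.nd (nat_lit 94) (nat_lit 504) (nat_lit 0) (XT.lf (nat_lit 0) (nat_lit 5210597333) (nat_lit 504) (nat_lit 1363746136) (nat_lit 588) (nat_lit 1492727583) (nat_lit 64) (nat_lit 5) (nat_lit 70) (nat_lit 5) (nat_lit 71) (nat_lit 5) (nat_lit 328) (nat_lit 287) (nat_lit 273)) (XT.lf (nat_lit 0) (nat_lit 508960487) (nat_lit 504) (nat_lit 7589242179) (nat_lit 84) (nat_lit 88364383) (nat_lit 58) (nat_lit 5) (nat_lit 64) (nat_lit 5) (nat_lit 59) (nat_lit 5) (nat_lit 329) (nat_lit 287) (nat_lit 272)))) (XT.nd (nat_lit 188) (nat_lit 840) (nat_lit 0) (XT.nd (nat_lit 94) (nat_lit 0) (nat_lit 0) (XT.lf (nat_lit 0) (nat_lit 2527516346) (nat_lit 504) (nat_lit 4181781682) (nat_lit 84) (nat_lit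 1600883729) (nat_lit 58) (nat_lit 5) (nat_lit 64) (nat_lit 5) (nat_lit 59) (nat_lit 5) (nat_lit 330) (nat_lit 287) (nat_lit 271)) (XT.lf (nat_lit 0) (nat_lit 4552153093) (nat_lit 504) (nat_lit 728986277) (nat_lit 84) (nat_lit 3158675124) (nat_lit 58) (nat_lit 5) (nat_lit 64) (nat_lit 5) (nat_lit 59) (nat_lit 5) (nat_lit 331) (nat_lit 287) (nat_lit 270))) (XT.nd (nat_lit 94) (nat_lit 420) (nat_lit 0) (XT.lf (nat_lit 0) (nat_lit 2829367858) (nat_lit 420) (nat_lit 3783457724) (nat_lit 504) (nat_lit 1961890413) (nat_lit 53) (nat_lit 5) (nat_lit 58) (nat_lit 5) (nat_lit 59) (nat_lit 5) (nat_lit 332) (nat_lit 287) (nat_lit 269)) (XT.nd (nat_lit 94) (nat_lit 420) (nat_lit 0) (XT.lf (nat_lit 0) (nat_lit 6455593808) (nat_lit 420) (nat_lit 2235671860) (nat_lit 504) (nat_lit 24372192) (nat_lit 53) (nat_lit 5) (nat_lit 58) (nat_lit 5) (nat_lit 59) (nat_lit 5) (nat_lit 333) (nat_lit 287) (nat_lit 268))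 (XT.lf (nat_lit 0) (nat_lit 1281932377) (nat_lit 336) (nat_lit 611209269) (nat_lit 420) (nat_lit 6968814192) (nat_lit 48) (nat_lit 5) (nat_lit 52) (nat_lit 5) (nat_lit 53) (nat_lit 5) (nat_lit 334) (nat_lit 287) (nat_lit 267)))))) (XT.nd (nat_lit 376) (nat_lit 672) (nat_lit 0) (XT.nd (nat_lit 188) (nat_lit 504) (nat_lit 0) (XT.nd (nat_lit 94) (nat_lit 0) (nat_lit 0) (XT.lf (nat_lit 0) (nat_lit 3851924770) (nat_lit 420) (nat_lit 4100475631) (nat_lit 84) (nat_lit 1061322354) (nat_lit 48) (nat_lit 5) (nat_lit 53) (nat_lit 5) (nat_lit 49) (nat_lit 5) (nat_lit 335) (nat_lit 287) (nat_lit 266)) (XT.lf (nat_lit 0) (nat_lit 5827196403) (nat_lit 420) (nat_lit 576517100) (nat_lit 84) (nat_lit 2768214089) (nat_lit 48) (nat_lit 5) (nat_lit 53) (nat_lit 5) (nat_lit 49) (nat_lit 5) (nat_lit 336) (nat_lit 287) (nat_lit 265))) (XT.nd (nat_lit 94) (nat_lit 84) (nat_lit 0) (XT.lf (nat_lit 0) (nat_lit 3062910932)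 (nat_lit 420) (nat_lit 4782207957) (nat_lit 504) (nat_lit 1490844966) (nat_lit 43) (nat_lit 5) (nat_lit 48) (nat_lit 5) (nat_lit 49) (nat_lit 5) (nat_lit 337) (nat_lit 287) (nat_lit 264)) (XT.lf (nat_lit 0) (nat_lit 369254099) (nat_lit 504) (nat_lit 2738005975) (nat_lit 84) (nat_lit 6399352421) (nat_lit 42) (nat_lit 5) (nat_lit 48) (nat_lit 5) (nat_lit 43) (nat_lit 5) (nat_lit 338) (nat_lit 287) (nat_lit 263)))) (XT.nd (nat_lit 188) (nat_lit 336) (nat_lit 0) (XT.nd (nat_lit 94) (nat_lit 0) (nat_lit 0) (XT.lf (nat_lit 0) (nat_lit 854020441) (nat_lit 336) (nat_lit 1363104219) (nat_lit 420) (nat_lit 7466480817) (nat_lit 38) (nat_lit 5) (nat_lit 42) (nat_lit 5) (nat_lit 43) (nat_lit 5) (nat_lit 339) (nat_lit 287) (nat_lit 262)) (XT.lf (nat_lit 0) (nat_lit 4108886696) (nat_lit 420) (nat_lit 5310055274) (nat_lit 84) (nat_lit 447869104) (nat_lit 38) (nat_lit 5) (nat_lit 43) (nat_lit 5) (nat_lit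 39) (nat_lit 5) (nat_lit 340) (nat_lit 287) (nat_lit 261))) (XT.nd (nat_lit 94) (nat_lit 336) (nat_lit 0) (XT.lf (nat_lit 0) (nat_lit 6028054855) (nat_lit 420) (nat_lit 1749378128) (nat_lit 84) (nat_lit 2279532782) (nat_lit 38) (nat_lit 5) (nat_lit 43) (nat_lit 5) (nat_lit 39) (nat_lit 5) (nat_lit 341) (nat_lit 287) (nat_lit 260)) (XT.nd (nat_lit 94) (nat_lit 0) (nat_lit 0) (XT.lf (nat_lit 0) (nat_lit 1907723873) (nat_lit 336) (nat_lit 6074096823) (nat_lit 420) (nat_lit 2272258612) (nat_lit 34) (nat_lit 5) (nat_lit 38) (nat_lit 5) (nat_lit 39) (nat_lit 5) (nat_lit 342) (nat_lit 287) (nat_lit 259)) (XT.lf (nat_lit 0) (nat_lit 5663419841) (nat_lit 336) (nat_lit 4307975108) (nat_lit 420) (nat_lit 486959408) (nat_lit 34) (nat_lit 5) (nat_lit 38) (nat_lit 5) (nat_lit 39) (nat_lit 5) (nat_lit 343) (nat_lit 287) (nat_lit 258))))))))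
noncomputable def xc28 : XT := (XT.nd (nat_lit 1598) (nat_lit 588) (nat_lit 0) (XT.nd (nat_lit 752) (nat_lit 504) (nat_lit 0) (XT.nd (nat_lit 376) (nat_lit 588) (nat_lit 0) (XT.nd (nat_lit 188) (nat_lit 0) (nat_lit 0) (XT.nd (nat_lit 94) (nat_lit 252) (nat_lit 0) (XT.lf (nat_lit 0) (nat_lit 1283989412) (nat_lit 420) (nat_lit 1198289920) (nat_lit 84) (nat_lit 8187848046) (nat_lit 33) (nat_lit 5) (nat_lit 38) (nat_lit 5) (nat_lit 34) (nat_lit 5) (nat_lit 344) (nat_lit 287) (nat_lit 257)) (XT.lf (nat_lit 0) (nat_lit 2505454621) (nat_lit 252) (nat_lit 577976720) (nat_lit 336) (nat_lit 7805643317) (nat_lit 30) (nat_lit 5) (nat_lit 33) (nat_lit 5) (nat_lit 34) (nat_lit 5) (nat_lit 345) (nat_lit 287) (nat_lit 256))) (XT.nd (nat_lit 94) (nat_lit 0) (nat_lit 0) (XT.lf (nat_lit 0) (nat_lit 4924547093) (nat_lit 336) (nat_lit 4829677877) (nat_lit 84) (nat_lit 1361272598) (nat_lit 30) (nat_lit 5) (nat_lit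 34) (nat_lit 5) (nat_lit 31) (nat_lit 5) (nat_lit 346) (nat_lit 287) (nat_lit 255)) (XT.lf (nat_lit 0) (nat_lit 6789378722) (nat_lit 336) (nat_lit 1220751099) (nat_lit 84) (nat_lit 3340087235) (nat_lit 30) (nat_lit 5) (nat_lit 34) (nat_lit 5) (nat_lit 31) (nat_lit 5) (nat_lit 347) (nat_lit 287) (nat_lit 254)))) (XT.nd (nat_lit 188) (nat_lit 336) (nat_lit 0) (XT.nd (nat_lit 94) (nat_lit 0) (nat_lit 0) (XT.lf (nat_lit 0) (nat_lit 2502681242) (nat_lit 252) (nat_lit 6196076509) (nat_lit 336) (nat_lit 2894102260) (nat_lit 27) (nat_lit 5) (nat_lit 30) (nat_lit 5) (nat_lit 31) (nat_lit 5) (nat_lit 348) (nat_lit 287) (nat_lit 253)) (XT.lf (nat_lit 0) (nat_lit 6320108531) (nat_lit 252) (nat_lit 4322547787) (nat_lit 336) (nat_lit 1201362320) (nat_lit 27) (nat_lit 5) (nat_lit 30) (nat_lit 5) (nat_lit 31) (nat_lit 5) (nat_lit 349) (nat_lit 287) (nat_lit 252))) (XT.nd (nat_lit 94) (nat_lit 252) (nat_lit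 0) (XT.lf (nat_lit 0) (nat_lit 496018011) (nat_lit 336) (nat_lit 1899344046) (nat_lit 84) (nat_lit 9708792441) (nat_lit 26) (nat_lit 5) (nat_lit 30) (nat_lit 5) (nat_lit 27) (nat_lit 5) (nat_lit 350) (nat_lit 287) (nat_lit 251)) (XT.lf (nat_lit 0) (nat_lit 1816440879) (nat_lit 252) (nat_lit 386872138) (nat_lit 336) (nat_lit 10169419768) (nat_lit 23) (nat_lit 5) (nat_lit 26) (nat_lit 5) (nat_lit 27) (nat_lit 5) (nat_lit 351) (nat_lit 287) (nat_lit 250))))) (XT.nd (nat_lit 376) (nat_lit 252) (nat_lit 0) (XT.nd (nat_lit 188) (nat_lit 252) (nat_lit 0) (XT.nd (nat_lit 94) (nat_lit 0) (nat_lit 0) (XT.lf (nat_lit 0) (nat_lit 3965029586) (nat_lit 336) (nat_lit 7024436077) (nat_lit 84) (nat_lit 1660327594) (nat_lit 23) (nat_lit 5) (nat_lit 27) (nat_lit 5) (nat_lit 24) (nat_lit 5) (nat_lit 352) (nat_lit 287) (nat_lit 249)) (XT.lf (nat_lit 0) (nat_lit 5751138744) (nat_lit 336) (nat_lit 3431847590)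 (nat_lit 84) (nat_lit 3753589632) (nat_lit 23) (nat_lit 5) (nat_lit 27) (nat_lit 5) (nat_lit 24) (nat_lit 5) (nat_lit 353) (nat_lit 287) (nat_lit 248))) (XT.nd (nat_lit 94) (nat_lit 0) (nat_lit 0) (XT.lf (nat_lit 0) (nat_lit 233361762) (nat_lit 252) (nat_lit 7328420730) (nat_lit 336) (nat_lit 5671612941) (nat_lit 20) (nat_lit 5) (nat_lit 23) (nat_lit 5) (nat_lit 24) (nat_lit 5) (nat_lit 354) (nat_lit 287) (nat_lit 247)) (XT.lf (nat_lit 0) (nat_lit 4041934776) (nat_lit 252) (nat_lit 5389863165) (nat_lit 336) (nat_lit 4107702749) (nat_lit 20) (nat_lit 5) (nat_lit 23) (nat_lit 5) (nat_lit 24) (nat_lit 5) (nat_lit 355) (nat_lit 287) (nat_lit 246)))) (XT.nd (nat_lit 188) (nat_lit 252) (nat_lit 0) (XT.nd (nat_lit 94) (nat_lit 0) (nat_lit 0) (XT.lf (nat_lit 0) (nat_lit 7926855617) (nat_lit 252) (nat_lit 3401328152) (nat_lit 336) (nat_lit 2528070369) (nat_lit 20) (nat_lit 5) (nat_lit 23) (nat_lit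 5) (nat_lit 24) (nat_lit 5) (nat_lit 356) (nat_lit 287) (nat_lit 245)) (XT.lf (nat_lit 0) (nat_lit 11891745437) (nat_lit 252) (nat_lit 1360962168) (nat_lit 336) (nat_lit 931243419) (nat_lit 20) (nat_lit 5) (nat_lit 23) (nat_lit 5) (nat_lit 24) (nat_lit 5) (nat_lit 357) (nat_lit 287) (nat_lit 244))) (XT.nd (nat_lit 94) (nat_lit 0) (nat_lit 0) (XT.lf (nat_lit 0) (nat_lit 692249571) (nat_lit 252) (nat_lit 13090111682) (nat_lit 84) (nat_lit 739650260) (nat_lit 17) (nat_lit 5) (nat_lit 20) (nat_lit 5) (nat_lit 18) (nat_lit 5) (nat_lit 358) (nat_lit 287) (nat_lit 243)) (XT.nd (nat_lit 94) (nat_lit 0) (nat_lit 0) (XT.lf (nat_lit 0) (nat_lit 2355035320) (nat_lit 252) (nat_lit 9614059101) (nat_lit 84) (nat_lit 2901063341) (nat_lit 17) (nat_lit 5) (nat_lit 20) (nat_lit 5) (nat_lit 18) (nat_lit 5) (nat_lit 359) (nat_lit 287) (nat_lit 242)) (XT.lf (nat_lit 0) (nat_lit 4040481412) (nat_lit 252) (nat_lit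 6069634367) (nat_lit 84) (nat_lit 5120030171) (nat_lit 17) (nat_lit 5) (nat_lit 20) (nat_lit 5) (nat_lit 18) (nat_lit 5) (nat_lit 360) (nat_lit 287) (nat_lit 241))))))) (XT.nd (nat_lit 752) (nat_lit 168) (nat_lit 0) (XT.nd (nat_lit 376) (nat_lit 252) (nat_lit 0) (XT.nd (nat_lit 188) (nat_lit 0) (nat_lit 0) (XT.nd (nat_lit 94) (nat_lit 168) (nat_lit 0) (XT.lf (nat_lit 0) (nat_lit 5750158859) (nat_lit 252) (nat_lit 2453533703) (nat_lit 84) (nat_lit 7398619060) (nat_lit 17) (nat_lit 5) (nat_lit 20) (nat_lit 5) (nat_lit 18) (nat_lit 5) (nat_lit 361) (nat_lit 287) (nat_lit 240)) (XT.lf (nat_lit 0) (nat_lit 1263061344) (nat_lit 168) (nat_lit 6235129640) (nat_lit 252) (nat_lit 8488422270) (nat_lit 15) (nat_lit 5) (nat_lit 17) (nat_lit 5) (nat_lit 18) (nat_lit 5) (nat_lit 362) (nat_lit 287) (nat_lit 239))) (XT.nd (nat_lit 94) (nat_lit 0) (nat_lit 0) (XT.lf (nat_lit 0) (nat_lit 5110206983) (nat_lit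 168) (nat_lit 4189093188) (nat_lit 252) (nat_lit 7083703002) (nat_lit 15) (nat_lit 5) (nat_lit 17) (nat_lit 5) (nat_lit 18) (nat_lit 5) (nat_lit 363) (nat_lit 287) (nat_lit 238)) (XT.lf (nat_lit 0) (nat_lit 9041039468) (nat_lit 168) (nat_lit 2089285947) (nat_lit 252) (nat_lit 5662295474) (nat_lit 15) (nat_lit 5) (nat_lit 17) (nat_lit 5) (nat_lit 18) (nat_lit 5) (nat_lit 364) (nat_lit 287) (nat_lit 237)))) (XT.nd (nat_lit 188) (nat_lit 252) (nat_lit 0) (XT.nd (nat_lit 94) (nat_lit 0) (nat_lit 0) (XT.lf (nat_lit 0) (nat_lit 12993630625) (nat_lit 252) (nat_lit 4157282662) (nat_lit 84) (nat_lit 64914548) (nat_lit 15) (nat_lit 5) (nat_lit 18) (nat_lit 5) (nat_lit 16) (nat_lit 4) (nat_lit 365) (nat_lit 287) (nat_lit 236)) (XT.lf (nat_lit 0) (nat_lit 14911593519) (nat_lit 252) (nat_lit 507190573) (nat_lit 84) (nat_lit 2233594527) (nat_lit 15) (nat_lit 5) (nat_lit 18) (nat_lit 5) (nat_lit 16) (nat_lit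 4) (nat_lit 366) (nat_lit 287) (nat_lit 235))) (XT.nd (nat_lit 94) (nat_lit 84) (nat_lit 0) (XT.lf (nat_lit 0) (nat_lit 3289090943) (nat_lit 168) (nat_lit 13608813108) (nat_lit 252) (nat_lit 1204407127) (nat_lit 13) (nat_lit 5) (nat_lit 15) (nat_lit 5) (nat_lit 16) (nat_lit 4) (nat_lit 367) (nat_lit 287) (nat_lit 234)) (XT.lf (nat_lit 0) (nat_lit 353591720) (nat_lit 252) (nat_lit 11389537245) (nat_lit 84) (nat_lit 6823632024) (nat_lit 12) (nat_lit 5) (nat_lit 15) (nat_lit 5) (nat_lit 13) (nat_lit 5) (nat_lit 368) (nat_lit 287) (nat_lit 233))))) (XT.nd (nat_lit 376) (nat_lit 0) (nat_lit 0) (XT.nd (nat_lit 188) (nat_lit 168) (nat_lit 0) (XT.nd (nat_lit 94) (nat_lit 0) (nat_lit 0) (XT.lf (nat_lit 0) (nat_lit 1911876027) (nat_lit 252) (nat_lit 7904530343) (nat_lit 84) (nat_lit 9229646763) (nat_lit 12) (nat_lit 5) (nat_lit 15) (nat_lit 5) (nat_lit 13) (nat_lit 5) (nat_lit 369) (nat_lit 287)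 (nat_lit 232)) (XT.lf (nat_lit 0) (nat_lit 3496164399) (nat_lit 252) (nat_lit 4343003270) (nat_lit 84) (nat_lit 11701837078) (nat_lit 12) (nat_lit 5) (nat_lit 15) (nat_lit 5) (nat_lit 13) (nat_lit 5) (nat_lit 370) (nat_lit 287) (nat_lit 231))) (XT.nd (nat_lit 94) (nat_lit 168) (nat_lit 0) (XT.lf (nat_lit 0) (nat_lit 5107933558) (nat_lit 252) (nat_lit 701636310) (nat_lit 84) (nat_lit 14242507308) (nat_lit 12) (nat_lit 5) (nat_lit 15) (nat_lit 5) (nat_lit 13) (nat_lit 5) (nat_lit 371) (nat_lit 287) (nat_lit 230)) (XT.lf (nat_lit 0) (nat_lit 3085123025) (nat_lit 168) (nat_lit 3694167618) (nat_lit 252) (nat_lit 13799507401) (nat_lit 10) (nat_lit 5) (nat_lit 12) (nat_lit 5) (nat_lit 13) (nat_lit 5) (nat_lit 372) (nat_lit 287) (nat_lit 229)))) (XT.nd (nat_lit 188) (nat_lit 0) (nat_lit 0) (XT.nd (nat_lit 94) (nat_lit 0) (nat_lit 0) (XT.lf (nat_lit 0) (nat_lit 6974798032) (nat_lit 168) (nat_lit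 1514343430) (nat_lit 252) (nat_lit 12633219065) (nat_lit 10) (nat_lit 5) (nat_lit 12) (nat_lit 5) (nat_lit 13) (nat_lit 5) (nat_lit 373) (nat_lit 287) (nat_lit 228)) (XT.lf (nat_lit 0) (nat_lit 10239164566) (nat_lit 252) (nat_lit 10734092504) (nat_lit 84) (nat_lit 710011580) (nat_lit 10) (nat_lit 5) (nat_lit 13) (nat_lit 5) (nat_lit 11) (nat_lit 4) (nat_lit 374) (nat_lit 287) (nat_lit 227))) (XT.nd (nat_lit 49820) (nat_lit 0) (nat_lit 9828) (XT.lf (nat_lit 0) (nat_lit 12039425986) (nat_lit 252) (nat_lit 7258518160) (nat_lit 84) (nat_lit 2963839616) (nat_lit 10) (nat_lit 5) (nat_lit 13) (nat_lit 5) (nat_lit 11) (nat_lit 4) (nat_lit 375) (nat_lit 287) (nat_lit 226)) (XT.nd (nat_lit 94) (nat_lit 0) (nat_lit 0) (XT.lf (nat_lit 0) (nat_lit 822595890) (nat_lit 588) (nat_lit 1754338582) (nat_lit 0) (nat_lit 822595890) (nat_lit 127) (nat_lit 5) (nat_lit 134) (nat_lit 4) (nat_lit 127) (nat_lit 4)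 (nat_lit 312) (nat_lit 288) (nat_lit 288)) (XT.lf (nat_lit 0) (nat_lit 3971993694) (nat_lit 588) (nat_lit 482722469) (nat_lit 0) (nat_lit 2392712757) (nat_lit 127) (nat_lit 5) (nat_lit 134) (nat_lit 4) (nat_lit 127) (nat_lit 4) (nat_lit 313) (nat_lit 288) (nat_lit 287))))))))
noncomputable def xc29 : XT := (XT.nd (nat_lit 1598) (nat_lit 2604) (nat_lit 0) (XT.nd (nat_lit 752) (nat_lit 2688) (nat_lit 0) (XT.nd (nat_lit 376) (nat_lit 1764) (nat_lit 0) (XT.nd (nat_lit 188) (nat_lit 672) (nat_lit 0) (XT.nd (nat_lit 94) (nat_lit 84) (nat_lit 0) (XT.lf (nat_lit 0) (nat_lit 2627455921) (nat_lit 588) (nat_lit 3691673874) (nat_lit 588) (nat_lit 580597653) (nat_lit 120) (nat_lit 4) (nat_lit 127) (nat_lit 5) (nat_lit 127) (nat_lit 4) (nat_lit 314) (nat_lit 288) (nat_lit 286)) (XT.lf (nat_lit 0) (nat_lit 1676801524) (nat_lit 672) (nat_lit 1191229748) (nat_lit 84) (nat_lit 4088094072) (nat_lit 119) (nat_lit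 5) (nat_lit 127) (nat_lit 5) (nat_lit 120) (nat_lit 4) (nat_lit 315) (nat_lit 288) (nat_lit 285))) (XT.nd (nat_lit 94) (nat_lit 0) (nat_lit 0) (XT.lf (nat_lit 0) (nat_lit 1956477690) (nat_lit 672) (nat_lit 1979689596) (nat_lit 756) (nat_lit 3080407730) (nat_lit 111) (nat_lit 5) (nat_lit 119) (nat_lit 5) (nat_lit 120) (nat_lit 4) (nat_lit 316) (nat_lit 288) (nat_lit 284)) (XT.lf (nat_lit 0) (nat_lit 5165321356) (nat_lit 672) (nat_lit 1038979026) (nat_lit 756) (nat_lit 877228069) (nat_lit 111) (nat_lit 5) (nat_lit 119) (nat_lit 5) (nat_lit 120) (nat_lit 4) (nat_lit 317) (nat_lit 288) (nat_lit 283)))) (XT.nd (nat_lit 188) (nat_lit 924) (nat_lit 0) (XT.nd (nat_lit 94) (nat_lit 0) (nat_lit 0) (XT.lf (nat_lit 0) (nat_lit 1274972982) (nat_lit 756) (nat_lit 30917937) (nat_lit 840) (nat_lit 5844731173) (nat_lit 101) (nat_lit 5) (nat_lit 110) (nat_lit 5) (nat_lit 111) (nat_lit 5) (nat_lit 318) (nat_lit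 288) (nat_lit 282)) (XT.lf (nat_lit 0) (nat_lit 3497439516) (nat_lit 840) (nat_lit 2699091099) (nat_lit 84) (nat_lit 1026987105) (nat_lit 101) (nat_lit 5) (nat_lit 111) (nat_lit 5) (nat_lit 102) (nat_lit 4) (nat_lit 319) (nat_lit 288) (nat_lit 281))) (XT.nd (nat_lit 94) (nat_lit 84) (nat_lit 0) (XT.lf (nat_lit 0) (nat_lit 523735949) (nat_lit 840) (nat_lit 5169609560) (nat_lit 924) (nat_lit 1607945002) (nat_lit 91) (nat_lit 5) (nat_lit 101) (nat_lit 5) (nat_lit 102) (nat_lit 4) (nat_lit 320) (nat_lit 288) (nat_lit 280)) (XT.lf (nat_lit 0) (nat_lit 523775305) (nat_lit 924) (nat_lit 3546745141) (nat_lit 84) (nat_lit 3312639500) (nat_lit 90) (nat_lit 5) (nat_lit 101) (nat_lit 5) (nat_lit 91) (nat_lit 5) (nat_lit 321) (nat_lit 288) (nat_lit 279))))) (XT.nd (nat_lit 376) (nat_lit 1008) (nat_lit 0) (XT.nd (nat_lit 188) (nat_lit 756) (nat_lit 0) (XT.nd (nat_lit 94) (nat_lit 924) (nat_lit 0) (XT.lf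 (nat_lit 0) (nat_lit 2621316802) (nat_lit 924) (nat_lit 294140326) (nat_lit 84) (nat_lit 4554262926) (nat_lit 90) (nat_lit 5) (nat_lit 101) (nat_lit 5) (nat_lit 91) (nat_lit 5) (nat_lit 322) (nat_lit 288) (nat_lit 278)) (XT.lf (nat_lit 0) (nat_lit 3060913244) (nat_lit 924) (nat_lit 1688482519) (nat_lit 1008) (nat_lit 2811208933) (nat_lit 79) (nat_lit 5) (nat_lit 90) (nat_lit 5) (nat_lit 91) (nat_lit 5) (nat_lit 323) (nat_lit 288) (nat_lit 277))) (XT.nd (nat_lit 94) (nat_lit 756) (nat_lit 0) (XT.lf (nat_lit 0) (nat_lit 6466764500) (nat_lit 924) (nat_lit 416260166) (nat_lit 1008) (nat_lit 773710023) (nat_lit 79) (nat_lit 5) (nat_lit 90) (nat_lit 5) (nat_lit 91) (nat_lit 5) (nat_lit 324) (nat_lit 288) (nat_lit 276)) (XT.lf (nat_lit 0) (nat_lit 1268513477) (nat_lit 756) (nat_lit 5572578776) (nat_lit 84) (nat_lit 915849202) (nat_lit 70) (nat_lit 5) (nat_lit 79) (nat_lit 5) (nat_lit 71) (nat_lit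 5) (nat_lit 325) (nat_lit 288) (nat_lit 275)))) (XT.nd (nat_lit 188) (nat_lit 504) (nat_lit 0) (XT.nd (nat_lit 94) (nat_lit 504) (nat_lit 0) (XT.lf (nat_lit 0) (nat_lit 3313368424) (nat_lit 756) (nat_lit 2244944165) (nat_lit 84) (nat_lit 2303585837) (nat_lit 70) (nat_lit 5) (nat_lit 79) (nat_lit 5) (nat_lit 71) (nat_lit 5) (nat_lit 326) (nat_lit 288) (nat_lit 274)) (XT.lf (nat_lit 0) (nat_lit 1149547651) (nat_lit 504) (nat_lit 4223905426) (nat_lit 588) (nat_lit 2598640075) (nat_lit 64) (nat_lit 5) (nat_lit 70) (nat_lit 5) (nat_lit 71) (nat_lit 5) (nat_lit 327) (nat_lit 288) (nat_lit 273))) (XT.nd (nat_lit 94) (nat_lit 504) (nat_lit 0) (XT.lf (nat_lit 0) (nat_lit 4638002042) (nat_lit 504) (nat_lit 2824473569) (nat_lit 588) (nat_lit 624787310) (nat_lit 64) (nat_lit 5) (nat_lit 70) (nat_lit 5) (nat_lit 71) (nat_lit 5) (nat_lit 328) (nat_lit 288) (nat_lit 272)) (XT.nd (nat_lit 94) (nat_lit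 420) (nat_lit 0) (XT.lf (nat_lit 0) (nat_lit 1324207103) (nat_lit 588) (nat_lit 44116104) (nat_lit 84) (nat_lit 6839480846) (nat_lit 63) (nat_lit 5) (nat_lit 70) (nat_lit 5) (nat_lit 64) (nat_lit 5) (nat_lit 329) (nat_lit 288) (nat_lit 271)) (XT.lf (nat_lit 0) (nat_lit 3300921799) (nat_lit 504) (nat_lit 4861490140) (nat_lit 84) (nat_lit 170517904) (nat_lit 58) (nat_lit 5) (nat_lit 64) (nat_lit 5) (nat_lit 59) (nat_lit 5) (nat_lit 330) (nat_lit 288) (nat_lit 270))))))) (XT.nd (nat_lit 846) (nat_lit 1260) (nat_lit 0) (XT.nd (nat_lit 376) (nat_lit 504) (nat_lit 0) (XT.nd (nat_lit 188) (nat_lit 420) (nat_lit 0) (XT.nd (nat_lit 94) (nat_lit 420) (nat_lit 0) (XT.lf (nat_lit 0) (nat_lit 5298578893) (nat_lit 504) (nat_lit 1437490099) (nat_lit 84) (nat_lit 1727537532) (nat_lit 58) (nat_lit 5) (nat_lit 64) (nat_lit 5) (nat_lit 59) (nat_lit 5) (nat_lit 331) (nat_lit 288) (nat_lit 269)) (XT.lf (nat_lit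 0) (nat_lit 2077791908) (nat_lit 420) (nat_lit 5247835315) (nat_lit 504) (nat_lit 1274124482) (nat_lit 53) (nat_lit 5) (nat_lit 58) (nat_lit 5) (nat_lit 59) (nat_lit 5) (nat_lit 332) (nat_lit 288) (nat_lit 268))) (XT.nd (nat_lit 94) (nat_lit 336) (nat_lit 0) (XT.lf (nat_lit 0) (nat_lit 623918228) (nat_lit 504) (nat_lit 3071609719) (nat_lit 84) (nat_lit 5045940417) (nat_lit 52) (nat_lit 5) (nat_lit 58) (nat_lit 5) (nat_lit 53) (nat_lit 5) (nat_lit 333) (nat_lit 288) (nat_lit 267)) (XT.lf (nat_lit 0) (nat_lit 425346701) (nat_lit 336) (nat_lit 2081772341) (nat_lit 420) (nat_lit 6381891999) (nat_lit 48) (nat_lit 5) (nat_lit 52) (nat_lit 5) (nat_lit 53) (nat_lit 5) (nat_lit 334) (nat_lit 288) (nat_lit 266)))) (XT.nd (nat_lit 188) (nat_lit 504) (nat_lit 0) (XT.nd (nat_lit 94) (nat_lit 0) (nat_lit 0) (XT.lf (nat_lit 0) (nat_lit 4040498150) (nat_lit 336) (nat_lit 389825754) (nat_lit 420) (nat_lit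 4611735167) (nat_lit 48) (nat_lit 5) (nat_lit 52) (nat_lit 5) (nat_lit 53) (nat_lit 5) (nat_lit 335) (nat_lit 288) (nat_lit 265)) (XT.lf (nat_lit 0) (nat_lit 6377618608) (nat_lit 420) (nat_lit 1501053854) (nat_lit 84) (nat_lit 1322631561) (nat_lit 48) (nat_lit 5) (nat_lit 53) (nat_lit 5) (nat_lit 49) (nat_lit 5) (nat_lit 336) (nat_lit 288) (nat_lit 264))) (XT.nd (nat_lit 94) (nat_lit 84) (nat_lit 0) (XT.lf (nat_lit 0) (nat_lit 2092321798) (nat_lit 420) (nat_lit 6270206054) (nat_lit 504) (nat_lit 1004003478) (nat_lit 43) (nat_lit 5) (nat_lit 48) (nat_lit 5) (nat_lit 49) (nat_lit 5) (nat_lit 337) (nat_lit 288) (nat_lit 263)) (XT.nd (nat_lit 94) (nat_lit 0) (nat_lit 0) (XT.lf (nat_lit 0) (nat_lit 822950918) (nat_lit 504) (nat_lit 3770858561) (nat_lit 84) (nat_lit 4944101892) (nat_lit 42) (nat_lit 5) (nat_lit 48) (nat_lit 5) (nat_lit 43) (nat_lit 5) (nat_lit 338) (nat_lit 288) (nat_lit 262))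 (XT.lf (nat_lit 0) (nat_lit 2639715256) (nat_lit 504) (nat_lit 222097384) (nat_lit 84) (nat_lit 6854208968) (nat_lit 42) (nat_lit 5) (nat_lit 48) (nat_lit 5) (nat_lit 43) (nat_lit 5) (nat_lit 339) (nat_lit 288) (nat_lit 261)))))) (XT.nd (nat_lit 376) (nat_lit 588) (nat_lit 0) (XT.nd (nat_lit 188) (nat_lit 336) (nat_lit 0) (XT.nd (nat_lit 94) (nat_lit 0) (nat_lit 0) (XT.lf (nat_lit 0) (nat_lit 3454951220) (nat_lit 336) (nat_lit 1047533703) (nat_lit 420) (nat_lit 5397789410) (nat_lit 38) (nat_lit 5) (nat_lit 42) (nat_lit 5) (nat_lit 43) (nat_lit 5) (nat_lit 340) (nat_lit 288) (nat_lit 260)) (XT.lf (nat_lit 0) (nat_lit 6389685157) (nat_lit 420) (nat_lit 2900050718) (nat_lit 84) (nat_lit 801828056) (nat_lit 38) (nat_lit 5) (nat_lit 43) (nat_lit 5) (nat_lit 39) (nat_lit 5) (nat_lit 341) (nat_lit 288) (nat_lit 259))) (XT.nd (nat_lit 94) (nat_lit 0) (nat_lit 0) (XT.lf (nat_lit 0) (nat_lit 707855844)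 (nat_lit 336) (nat_lit 7602764805) (nat_lit 420) (nat_lit 1979214142) (nat_lit 34) (nat_lit 5) (nat_lit 38) (nat_lit 5) (nat_lit 39) (nat_lit 5) (nat_lit 342) (nat_lit 288) (nat_lit 258)) (XT.lf (nat_lit 0) (nat_lit 4438784353) (nat_lit 336) (nat_lit 5840866590) (nat_lit 420) (nat_lit 215231138) (nat_lit 34) (nat_lit 5) (nat_lit 38) (nat_lit 5) (nat_lit 39) (nat_lit 5) (nat_lit 343) (nat_lit 288) (nat_lit 257)))) (XT.nd (nat_lit 188) (nat_lit 252) (nat_lit 0) (XT.nd (nat_lit 94) (nat_lit 252) (nat_lit 0) (XT.lf (nat_lit 0) (nat_lit 1529984257) (nat_lit 420) (nat_lit 2486715384) (nat_lit 84) (nat_lit 6690627277) (nat_lit 33) (nat_lit 5) (nat_lit 38) (nat_lit 5) (nat_lit 34) (nat_lit 5) (nat_lit 344) (nat_lit 288) (nat_lit 256)) (XT.lf (nat_lit 0) (nat_lit 1166218529) (nat_lit 252) (nat_lit 2130272700) (nat_lit 336) (nat_lit 7630927484) (nat_lit 30) (nat_lit 5) (nat_lit 33) (nat_lit 5) (nat_lit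 34) (nat_lit 5) (nat_lit 345) (nat_lit 288) (nat_lit 255))) (XT.nd (nat_lit 94) (nat_lit 252) (nat_lit 0) (XT.lf (nat_lit 0) (nat_lit 4937205726) (nat_lit 252) (nat_lit 167326860) (nat_lit 336) (nat_lit 6050454160) (nat_lit 30) (nat_lit 5) (nat_lit 33) (nat_lit 5) (nat_lit 34) (nat_lit 5) (nat_lit 346) (nat_lit 288) (nat_lit 254)) (XT.nd (nat_lit 94) (nat_lit 252) (nat_lit 0) (XT.lf (nat_lit 0) (nat_lit 6948950354) (nat_lit 336) (nat_lit 2630726892) (nat_lit 84) (nat_lit 1810778029) (nat_lit 30) (nat_lit 5) (nat_lit 34) (nat_lit 5) (nat_lit 31) (nat_lit 5) (nat_lit 347) (nat_lit 288) (nat_lit 253)) (XT.lf (nat_lit 0) (nat_lit 1040419148) (nat_lit 252) (nat_lit 7785214350) (nat_lit 336) (nat_lit 2808591025) (nat_lit 27) (nat_lit 5) (nat_lit 30) (nat_lit 5) (nat_lit 31) (nat_lit 5) (nat_lit 348) (nat_lit 288) (nat_lit 252))))))))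
noncomputable def xc30 : XT := (XT.nd (nat_lit 1598) (nat_lit 420) (nat_lit 0) (XT.nd (nat_lit 752) (nat_lit 420) (nat_lit 0) (XT.nd (nat_lit 376) (nat_lit 252) (nat_lit 0) (XT.nd (nat_lit 188) (nat_lit 252) (nat_lit 0) (XT.nd (nat_lit 94) (nat_lit 84) (nat_lit 0) (XT.lf (nat_lit 0) (nat_lit 4835252541) (nat_lit 252) (nat_lit 5916412262) (nat_lit 336) (nat_lit 1134381561) (nat_lit 27) (nat_lit 5) (nat_lit 30) (nat_lit 5) (nat_lit 31) (nat_lit 5) (nat_lit 349) (nat_lit 288) (nat_lit 251)) (XT.lf (nat_lit 0) (nat_lit 544038074) (nat_lit 336) (nat_lit 3449271742) (nat_lit 84) (nat_lit 8153500612) (nat_lit 26) (nat_lit 5) (nat_lit 30) (nat_lit 5) (nat_lit 27) (nat_lit 5) (nat_lit 350) (nat_lit 288) (nat_lit 250))) (XT.nd (nat_lit 94) (nat_lit 0) (nat_lit 0) (XT.lf (nat_lit 0) (nat_lit 212490543) (nat_lit 252) (nat_lit 2005849500) (nat_lit 336) (nat_lit 10198171217) (nat_lit 23) (nat_lit 5)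 (nat_lit 26) (nat_lit 5) (nat_lit 27) (nat_lit 5) (nat_lit 351) (nat_lit 288) (nat_lit 249)) (XT.lf (nat_lit 0) (nat_lit 3947168279) (nat_lit 336) (nat_lit 8678161587) (nat_lit 84) (nat_lit 69358165) (nat_lit 23) (nat_lit 5) (nat_lit 27) (nat_lit 5) (nat_lit 24) (nat_lit 5) (nat_lit 352) (nat_lit 288) (nat_lit 248)))) (XT.nd (nat_lit 188) (nat_lit 252) (nat_lit 0) (XT.nd (nat_lit 94) (nat_lit 0) (nat_lit 0) (XT.lf (nat_lit 0) (nat_lit 5716955541) (nat_lit 336) (nat_lit 5106967043) (nat_lit 84) (nat_lit 2158147988) (nat_lit 23) (nat_lit 5) (nat_lit 27) (nat_lit 5) (nat_lit 24) (nat_lit 5) (nat_lit 353) (nat_lit 288) (nat_lit 247)) (XT.lf (nat_lit 0) (nat_lit 7509453180) (nat_lit 336) (nat_lit 1467210081) (nat_lit 84) (nat_lit 4302880337) (nat_lit 23) (nat_lit 5) (nat_lit 27) (nat_lit 5) (nat_lit 24) (nat_lit 5) (nat_lit 354) (nat_lit 288) (nat_lit 246))) (XT.nd (nat_lit 94) (nat_lit 0) (nat_lit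 0) (XT.lf (nat_lit 0) (nat_lit 2290653495) (nat_lit 252) (nat_lit 7058402062) (nat_lit 336) (nat_lit 4237624397) (nat_lit 20) (nat_lit 5) (nat_lit 23) (nat_lit 5) (nat_lit 24) (nat_lit 5) (nat_lit 355) (nat_lit 288) (nat_lit 245)) (XT.lf (nat_lit 0) (nat_lit 6155651359) (nat_lit 252) (nat_lit 5074698962) (nat_lit 336) (nat_lit 2673636544) (nat_lit 20) (nat_lit 5) (nat_lit 23) (nat_lit 5) (nat_lit 24) (nat_lit 5) (nat_lit 356) (nat_lit 288) (nat_lit 244))))) (XT.nd (nat_lit 376) (nat_lit 168) (nat_lit 0) (XT.nd (nat_lit 188) (nat_lit 168) (nat_lit 0) (XT.nd (nat_lit 94) (nat_lit 84) (nat_lit 0) (XT.lf (nat_lit 0) (nat_lit 10101217243) (nat_lit 252) (nat_lit 3039019605) (nat_lit 336) (nat_lit 1091983723) (nat_lit 20) (nat_lit 5) (nat_lit 23) (nat_lit 5) (nat_lit 24) (nat_lit 5) (nat_lit 357) (nat_lit 288) (nat_lit 243)) (XT.lf (nat_lit 0) (nat_lit 498556979) (nat_lit 336) (nat_lit 445705634)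 (nat_lit 84) (nat_lit 13627267939) (nat_lit 19) (nat_lit 5) (nat_lit 23) (nat_lit 5) (nat_lit 20) (nat_lit 5) (nat_lit 358) (nat_lit 288) (nat_lit 242))) (XT.nd (nat_lit 94) (nat_lit 0) (nat_lit 0) (XT.lf (nat_lit 0) (nat_lit 2133194447) (nat_lit 252) (nat_lit 11560466918) (nat_lit 84) (nat_lit 1226963826) (nat_lit 17) (nat_lit 5) (nat_lit 20) (nat_lit 5) (nat_lit 18) (nat_lit 5) (nat_lit 359) (nat_lit 288) (nat_lit 241)) (XT.lf (nat_lit 0) (nat_lit 3804845624) (nat_lit 252) (nat_lit 8034851261) (nat_lit 84) (nat_lit 3441417651) (nat_lit 17) (nat_lit 5) (nat_lit 20) (nat_lit 5) (nat_lit 18) (nat_lit 5) (nat_lit 360) (nat_lit 288) (nat_lit 240)))) (XT.nd (nat_lit 188) (nat_lit 168) (nat_lit 0) (XT.nd (nat_lit 94) (nat_lit 0) (nat_lit 0) (XT.lf (nat_lit 0) (nat_lit 5501142940) (nat_lit 252) (nat_lit 4436994126) (nat_lit 84) (nat_lit 5715629231) (nat_lit 17) (nat_lit 5) (nat_lit 20) (nat_lit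 5) (nat_lit 18) (nat_lit 5) (nat_lit 361) (nat_lit 288) (nat_lit 239)) (XT.lf (nat_lit 0) (nat_lit 7223667522) (nat_lit 252) (nat_lit 763541933) (nat_lit 84) (nat_lit 8051718369) (nat_lit 17) (nat_lit 5) (nat_lit 20) (nat_lit 5) (nat_lit 18) (nat_lit 5) (nat_lit 362) (nat_lit 288) (nat_lit 238))) (XT.nd (nat_lit 94) (nat_lit 0) (nat_lit 0) (XT.lf (nat_lit 0) (nat_lit 3050387878) (nat_lit 168) (nat_lit 5953897291) (nat_lit 252) (nat_lit 7431734892) (nat_lit 15) (nat_lit 5) (nat_lit 17) (nat_lit 5) (nat_lit 18) (nat_lit 5) (nat_lit 363) (nat_lit 288) (nat_lit 237)) (XT.nd (nat_lit 94) (nat_lit 0) (nat_lit 0) (XT.lf (nat_lit 0) (nat_lit 6964231190) (nat_lit 168) (nat_lit 3858701568) (nat_lit 252) (nat_lit 6023153791) (nat_lit 15) (nat_lit 5) (nat_lit 17) (nat_lit 5) (nat_lit 18) (nat_lit 5) (nat_lit 364) (nat_lit 288) (nat_lit 236)) (XT.lf (nat_lit 0) (nat_lit 10965936125) (nat_lit 168) (nat_lit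 1707639156) (nat_lit 252) (nat_lit 4596173866) (nat_lit 15) (nat_lit 5) (nat_lit 17) (nat_lit 5) (nat_lit 18) (nat_lit 5) (nat_lit 365) (nat_lit 288) (nat_lit 235))))))) (XT.nd (nat_lit 752) (nat_lit 0) (nat_lit 0) (XT.nd (nat_lit 376) (nat_lit 168) (nat_lit 0) (XT.nd (nat_lit 188) (nat_lit 84) (nat_lit 0) (XT.nd (nat_lit 94) (nat_lit 168) (nat_lit 0) (XT.lf (nat_lit 0) (nat_lit 14562910640) (nat_lit 252) (nat_lit 2653142970) (nat_lit 84) (nat_lit 491194983) (nat_lit 15) (nat_lit 5) (nat_lit 18) (nat_lit 5) (nat_lit 16) (nat_lit 4) (nat_lit 366) (nat_lit 288) (nat_lit 234)) (XT.lf (nat_lit 0) (nat_lit 1082816985) (nat_lit 168) (nat_lit 15433181553) (nat_lit 252) (nat_lit 1642271885) (nat_lit 13) (nat_lit 5) (nat_lit 15) (nat_lit 5) (nat_lit 16) (nat_lit 4) (nat_lit 367) (nat_lit 288) (nat_lit 233))) (XT.nd (nat_lit 94) (nat_lit 84) (nat_lit 0) (XT.lf (nat_lit 0) (nat_lit 4958931172) (nat_lit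 168) (nat_lit 13575746460) (nat_lit 252) (nat_lit 88556845) (nat_lit 13) (nat_lit 5) (nat_lit 15) (nat_lit 5) (nat_lit 16) (nat_lit 4) (nat_lit 368) (nat_lit 288) (nat_lit 232)) (XT.lf (nat_lit 0) (nat_lit 1460530518) (nat_lit 252) (nat_lit 10193934917) (nat_lit 84) (nat_lit 7448483010) (nat_lit 12) (nat_lit 5) (nat_lit 15) (nat_lit 5) (nat_lit 13) (nat_lit 5) (nat_lit 369) (nat_lit 288) (nat_lit 231)))) (XT.nd (nat_lit 188) (nat_lit 168) (nat_lit 0) (XT.nd (nat_lit 94) (nat_lit 0) (nat_lit 0) (XT.lf (nat_lit 0) (nat_lit 3034167904) (nat_lit 252) (nat_lit 6647458288) (nat_lit 84) (nat_lit 9916656592) (nat_lit 12) (nat_lit 5) (nat_lit 15) (nat_lit 5) (nat_lit 13) (nat_lit 5) (nat_lit 370) (nat_lit 288) (nat_lit 230)) (XT.lf (nat_lit 0) (nat_lit 4635606330) (nat_lit 252) (nat_lit 3020689237) (nat_lit 84) (nat_lit 12453430865) (nat_lit 12) (nat_lit 5) (nat_lit 15) (nat_lit 5) (nat_lit 13)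 (nat_lit 5) (nat_lit 371) (nat_lit 288) (nat_lit 229))) (XT.nd (nat_lit 94) (nat_lit 0) (nat_lit 0) (XT.lf (nat_lit 0) (nat_lit 703935495) (nat_lit 168) (nat_lit 5569386135) (nat_lit 252) (nat_lit 14364217998) (nat_lit 10) (nat_lit 5) (nat_lit 12) (nat_lit 5) (nat_lit 13) (nat_lit 5) (nat_lit 372) (nat_lit 288) (nat_lit 228)) (XT.lf (nat_lit 0) (nat_lit 4579594868) (nat_lit 168) (nat_lit 3393719718) (nat_lit 252) (nat_lit 13208141065) (nat_lit 10) (nat_lit 5) (nat_lit 12) (nat_lit 5) (nat_lit 13) (nat_lit 5) (nat_lit 373) (nat_lit 288) (nat_lit 227))))) (XT.nd (nat_lit 49914) (nat_lit 0) (nat_lit 8484) (XT.nd (nat_lit 49726) (nat_lit 0) (nat_lit 9828) (XT.nd (nat_lit 94) (nat_lit 0) (nat_lit 0) (XT.lf (nat_lit 0) (nat_lit 8547789835) (nat_lit 168) (nat_lit 1158798167) (nat_lit 252) (nat_lit 12036341517) (nat_lit 10) (nat_lit 5) (nat_lit 12) (nat_lit 5) (nat_lit 13) (nat_lit 5) (nat_lit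 374) (nat_lit 288) (nat_lit 226)) (XT.lf (nat_lit 0) (nat_lit 11486041233) (nat_lit 252) (nat_lit 9721549179) (nat_lit 84) (nat_lit 1114544378) (nat_lit 10) (nat_lit 5) (nat_lit 13) (nat_lit 5) (nat_lit 11) (nat_lit 4) (nat_lit 375) (nat_lit 288) (nat_lit 225))) (XT.nd (nat_lit 94) (nat_lit 588) (nat_lit 0) (XT.lf (nat_lit 0) (nat_lit 2005015039) (nat_lit 420) (nat_lit 675737488) (nat_lit 420) (nat_lit 675737488) (nat_lit 134) (nat_lit 4) (nat_lit 139) (nat_lit 5) (nat_lit 139) (nat_lit 4) (nat_lit 310) (nat_lit 289) (nat_lit 289)) (XT.lf (nat_lit 0) (nat_lit 242022671) (nat_lit 504) (nat_lit 703687183) (nat_lit 588) (nat_lit 5809459533) (nat_lit 127) (nat_lit 5) (nat_lit 133) (nat_lit 5) (nat_lit 134) (nat_lit 4) (nat_lit 311) (nat_lit 289) (nat_lit 288)))) (XT.nd (nat_lit 188) (nat_lit 1344) (nat_lit 0) (XT.nd (nat_lit 94) (nat_lit 0) (nat_lit 0) (XT.lf (nat_lit 0) (nat_lit 3233905532)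 (nat_lit 588) (nat_lit 3540413427) (nat_lit 0) (nat_lit 26385949) (nat_lit 127) (nat_lit 5) (nat_lit 134) (nat_lit 4) (nat_lit 127) (nat_lit 4) (nat_lit 312) (nat_lit 289) (nat_lit 287)) (XT.lf (nat_lit 0) (nat_lit 5522370981) (nat_lit 588) (nat_lit 545240750) (nat_lit 0) (nat_lit 783056114) (nat_lit 127) (nat_lit 5) (nat_lit 134) (nat_lit 4) (nat_lit 127) (nat_lit 4) (nat_lit 313) (nat_lit 289) (nat_lit 286))) (XT.nd (nat_lit 94) (nat_lit 672) (nat_lit 0) (XT.lf (nat_lit 0) (nat_lit 908172062) (nat_lit 672) (nat_lit 4380554830) (nat_lit 84) (nat_lit 1615530240) (nat_lit 119) (nat_lit 5) (nat_lit 127) (nat_lit 5) (nat_lit 120) (nat_lit 4) (nat_lit 314) (nat_lit 289) (nat_lit 285)) (XT.nd (nat_lit 94) (nat_lit 672) (nat_lit 0) (XT.lf (nat_lit 0) (nat_lit 3116768168) (nat_lit 672) (nat_lit 1335960565) (nat_lit 84) (nat_lit 2509268765) (nat_lit 119) (nat_lit 5) (nat_lit 127) (nat_lit 5) (nat_lit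 120) (nat_lit 4) (nat_lit 315) (nat_lit 289) (nat_lit 284)) (XT.lf (nat_lit 0) (nat_lit 1778393683) (nat_lit 672) (nat_lit 3559983988) (nat_lit 756) (nat_lit 1685599550) (nat_lit 111) (nat_lit 5) (nat_lit 119) (nat_lit 5) (nat_lit 120) (nat_lit 4) (nat_lit 316) (nat_lit 289) (nat_lit 283))))))))
noncomputable def xc31 : XT := (XT.nd (nat_lit 1598) (nat_lit 2184) (nat_lit 0) (XT.nd (nat_lit 752) (nat_lit 2184) (nat_lit 0) (XT.nd (nat_lit 376) (nat_lit 1092) (nat_lit 0) (XT.nd (nat_lit 188) (nat_lit 840) (nat_lit 0) (XT.nd (nat_lit 94) (nat_lit 756) (nat_lit 0) (XT.lf (nat_lit 0) (nat_lit 471250450) (nat_lit 756) (nat_lit 2137368130) (nat_lit 84) (nat_lit 4481604163) (nat_lit 110) (nat_lit 5) (nat_lit 119) (nat_lit 5) (nat_lit 111) (nat_lit 5) (nat_lit 317) (nat_lit 289) (nat_lit 282)) (XT.lf (nat_lit 0) (nat_lit 1010152108) (nat_lit 756) (nat_lit 1589093996) (nat_lit 840) (nat_lit 4561289569)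 (nat_lit 101) (nat_lit 5) (nat_lit 110) (nat_lit 5) (nat_lit 111) (nat_lit 5) (nat_lit 318) (nat_lit 289) (nat_lit 281))) (XT.nd (nat_lit 94) (nat_lit 840) (nat_lit 0) (XT.lf (nat_lit 0) (nat_lit 4241003204) (nat_lit 756) (nat_lit 505328233) (nat_lit 840) (nat_lit 2488796492) (nat_lit 101) (nat_lit 5) (nat_lit 110) (nat_lit 5) (nat_lit 111) (nat_lit 5) (nat_lit 319) (nat_lit 289) (nat_lit 280)) (XT.lf (nat_lit 0) (nat_lit 197319519) (nat_lit 840) (nat_lit 6703670895) (nat_lit 924) (nat_lit 413497662) (nat_lit 91) (nat_lit 5) (nat_lit 101) (nat_lit 5) (nat_lit 102) (nat_lit 4) (nat_lit 320) (nat_lit 289) (nat_lit 279)))) (XT.nd (nat_lit 188) (nat_lit 1008) (nat_lit 0) (XT.nd (nat_lit 94) (nat_lit 0) (nat_lit 0) (XT.lf (nat_lit 0) (nat_lit 1661236789) (nat_lit 924) (nat_lit 3928692792) (nat_lit 84) (nat_lit 1807371555) (nat_lit 90) (nat_lit 5) (nat_lit 101) (nat_lit 5) (nat_lit 91) (nat_lit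 5) (nat_lit 321) (nat_lit 289) (nat_lit 278)) (XT.lf (nat_lit 0) (nat_lit 3726847729) (nat_lit 924) (nat_lit 705655960) (nat_lit 84) (nat_lit 3052629083) (nat_lit 90) (nat_lit 5) (nat_lit 101) (nat_lit 5) (nat_lit 91) (nat_lit 5) (nat_lit 322) (nat_lit 289) (nat_lit 277))) (XT.nd (nat_lit 94) (nat_lit 84) (nat_lit 0) (XT.lf (nat_lit 0) (nat_lit 2611667371) (nat_lit 924) (nat_lit 3207832272) (nat_lit 1008) (nat_lit 1757889220) (nat_lit 79) (nat_lit 5) (nat_lit 90) (nat_lit 5) (nat_lit 91) (nat_lit 5) (nat_lit 323) (nat_lit 289) (nat_lit 276)) (XT.lf (nat_lit 0) (nat_lit 243085535) (nat_lit 1008) (nat_lit 1688054784) (nat_lit 84) (nat_lit 5743507190) (nat_lit 78) (nat_lit 5) (nat_lit 90) (nat_lit 5) (nat_lit 79) (nat_lit 5) (nat_lit 324) (nat_lit 289) (nat_lit 275))))) (XT.nd (nat_lit 376) (nat_lit 924) (nat_lit 0) (XT.nd (nat_lit 188) (nat_lit 588) (nat_lit 0) (XT.nd (nat_lit 94) (nat_lit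 0) (nat_lit 0) (XT.lf (nat_lit 0) (nat_lit 1648778563) (nat_lit 672) (nat_lit 576300070) (nat_lit 756) (nat_lit 5551170906) (nat_lit 70) (nat_lit 5) (nat_lit 78) (nat_lit 5) (nat_lit 79) (nat_lit 5) (nat_lit 325) (nat_lit 289) (nat_lit 274)) (XT.lf (nat_lit 0) (nat_lit 4234888965) (nat_lit 756) (nat_lit 2823395759) (nat_lit 84) (nat_lit 824249973) (nat_lit 70) (nat_lit 5) (nat_lit 79) (nat_lit 5) (nat_lit 71) (nat_lit 5) (nat_lit 326) (nat_lit 289) (nat_lit 273))) (XT.nd (nat_lit 94) (nat_lit 84) (nat_lit 0) (XT.lf (nat_lit 0) (nat_lit 530221941) (nat_lit 504) (nat_lit 5730162063) (nat_lit 588) (nat_lit 1733652232) (nat_lit 64) (nat_lit 5) (nat_lit 70) (nat_lit 5) (nat_lit 71) (nat_lit 5) (nat_lit 327) (nat_lit 289) (nat_lit 272)) (XT.lf (nat_lit 0) (nat_lit 206983728) (nat_lit 588) (nat_lit 4121825228) (nat_lit 84) (nat_lit 3781423519) (nat_lit 63) (nat_lit 5) (nat_lit 70) (nat_lit 5)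 (nat_lit 64) (nat_lit 5) (nat_lit 328) (nat_lit 289) (nat_lit 271)))) (XT.nd (nat_lit 188) (nat_lit 504) (nat_lit 0) (XT.nd (nat_lit 94) (nat_lit 420) (nat_lit 0) (XT.lf (nat_lit 0) (nat_lit 2115866017) (nat_lit 588) (nat_lit 750921811) (nat_lit 84) (nat_lit 5364860895) (nat_lit 63) (nat_lit 5) (nat_lit 70) (nat_lit 5) (nat_lit 64) (nat_lit 5) (nat_lit 329) (nat_lit 289) (nat_lit 270)) (XT.lf (nat_lit 0) (nat_lit 2724121002) (nat_lit 420) (nat_lit 1332605756) (nat_lit 504) (nat_lit 4301366802) (nat_lit 58) (nat_lit 5) (nat_lit 63) (nat_lit 5) (nat_lit 64) (nat_lit 5) (nat_lit 330) (nat_lit 289) (nat_lit 269))) (XT.nd (nat_lit 94) (nat_lit 504) (nat_lit 0) (XT.lf (nat_lit 0) (nat_lit 6014995807) (nat_lit 504) (nat_lit 2224682450) (nat_lit 84) (nat_lit 250514344) (nat_lit 58) (nat_lit 5) (nat_lit 64) (nat_lit 5) (nat_lit 59) (nat_lit 5) (nat_lit 331) (nat_lit 289) (nat_lit 268)) (XT.nd (nat_lit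 94) (nat_lit 84) (nat_lit 0) (XT.lf (nat_lit 0) (nat_lit 1246766482) (nat_lit 420) (nat_lit 6761652178) (nat_lit 504) (nat_lit 619156791) (nat_lit 53) (nat_lit 5) (nat_lit 58) (nat_lit 5) (nat_lit 59) (nat_lit 5) (nat_lit 332) (nat_lit 289) (nat_lit 267)) (XT.lf (nat_lit 0) (nat_lit 1240365235) (nat_lit 504) (nat_lit 3964476193) (nat_lit 84) (nat_lit 3565218036) (nat_lit 52) (nat_lit 5) (nat_lit 58) (nat_lit 5) (nat_lit 53) (nat_lit 5) (nat_lit 333) (nat_lit 289) (nat_lit 266))))))) (XT.nd (nat_lit 846) (nat_lit 1008) (nat_lit 0) (XT.nd (nat_lit 376) (nat_lit 420) (nat_lit 0) (XT.nd (nat_lit 188) (nat_lit 420) (nat_lit 0) (XT.nd (nat_lit 94) (nat_lit 336) (nat_lit 0) (XT.lf (nat_lit 0) (nat_lit 3094783470) (nat_lit 504) (nat_lit 502782034) (nat_lit 84) (nat_lit 5321107085) (nat_lit 52) (nat_lit 5) (nat_lit 58) (nat_lit 5) (nat_lit 53) (nat_lit 5) (nat_lit 334) (nat_lit 289) (nat_lit 265))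 (XT.lf (nat_lit 0) (nat_lit 3075608947) (nat_lit 336) (nat_lit 1913202528) (nat_lit 420) (nat_lit 4083986457) (nat_lit 48) (nat_lit 5) (nat_lit 52) (nat_lit 5) (nat_lit 53) (nat_lit 5) (nat_lit 335) (nat_lit 289) (nat_lit 264))) (XT.nd (nat_lit 94) (nat_lit 420) (nat_lit 0) (XT.lf (nat_lit 0) (nat_lit 6723538750) (nat_lit 336) (nat_lit 175814566) (nat_lit 420) (nat_lit 2333996538) (nat_lit 48) (nat_lit 5) (nat_lit 52) (nat_lit 5) (nat_lit 53) (nat_lit 5) (nat_lit 336) (nat_lit 289) (nat_lit 263)) (XT.lf (nat_lit 0) (nat_lit 1038373483) (nat_lit 420) (nat_lit 7811007934) (nat_lit 504) (nat_lit 550439654) (nat_lit 43) (nat_lit 5) (nat_lit 48) (nat_lit 5) (nat_lit 49) (nat_lit 5) (nat_lit 337) (nat_lit 289) (nat_lit 262)))) (XT.nd (nat_lit 188) (nat_lit 336) (nat_lit 0) (XT.nd (nat_lit 94) (nat_lit 0) (nat_lit 0) (XT.lf (nat_lit 0) (nat_lit 1244742207) (nat_lit 504) (nat_lit 4888654658) (nat_lit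 84) (nat_lit 3438519389) (nat_lit 42) (nat_lit 5) (nat_lit 48) (nat_lit 5) (nat_lit 43) (nat_lit 5) (nat_lit 338) (nat_lit 289) (nat_lit 261)) (XT.lf (nat_lit 0) (nat_lit 3039552872) (nat_lit 504) (nat_lit 1365168585) (nat_lit 84) (nat_lit 5346133960) (nat_lit 42) (nat_lit 5) (nat_lit 48) (nat_lit 5) (nat_lit 43) (nat_lit 5) (nat_lit 339) (nat_lit 289) (nat_lit 260))) (XT.nd (nat_lit 94) (nat_lit 0) (nat_lit 0) (XT.lf (nat_lit 0) (nat_lit 2263356916) (nat_lit 336) (nat_lit 2605851289) (nat_lit 420) (nat_lit 5067070383) (nat_lit 38) (nat_lit 5) (nat_lit 42) (nat_lit 5) (nat_lit 43) (nat_lit 5) (nat_lit 340) (nat_lit 289) (nat_lit 259)) (XT.nd (nat_lit 94) (nat_lit 0) (nat_lit 0) (XT.lf (nat_lit 0) (nat_lit 5984021409) (nat_lit 336) (nat_lit 743375191) (nat_lit 420) (nat_lit 3401210529) (nat_lit 38) (nat_lit 5) (nat_lit 42) (nat_lit 5) (nat_lit 43) (nat_lit 5) (nat_lit 341) (nat_lit 289)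 (nat_lit 258)) (XT.lf (nat_lit 0) (nat_lit 8613637439) (nat_lit 420) (nat_lit 567834951) (nat_lit 84) (nat_lit 1146616511) (nat_lit 38) (nat_lit 5) (nat_lit 43) (nat_lit 5) (nat_lit 39) (nat_lit 5) (nat_lit 342) (nat_lit 289) (nat_lit 257)))))) (XT.nd (nat_lit 376) (nat_lit 336) (nat_lit 0) (XT.nd (nat_lit 188) (nat_lit 252) (nat_lit 0) (XT.nd (nat_lit 94) (nat_lit 0) (nat_lit 0) (XT.lf (nat_lit 0) (nat_lit 22467268) (nat_lit 420) (nat_lit 7406895936) (nat_lit 84) (nat_lit 3104693171) (nat_lit 33) (nat_lit 5) (nat_lit 38) (nat_lit 5) (nat_lit 34) (nat_lit 5) (nat_lit 343) (nat_lit 289) (nat_lit 256)) (XT.lf (nat_lit 0) (nat_lit 1743696666) (nat_lit 420) (nat_lit 3863476717) (nat_lit 84) (nat_lit 5139994308) (nat_lit 33) (nat_lit 5) (nat_lit 38) (nat_lit 5) (nat_lit 34) (nat_lit 5) (nat_lit 344) (nat_lit 289) (nat_lit 255))) (XT.nd (nat_lit 94) (nat_lit 252) (nat_lit 0) (XT.lf (nat_lit 0)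 (nat_lit 3479575857) (nat_lit 420) (nat_lit 257151055) (nat_lit 84) (nat_lit 7231601849) (nat_lit 33) (nat_lit 5) (nat_lit 38) (nat_lit 5) (nat_lit 34) (nat_lit 5) (nat_lit 345) (nat_lit 289) (nat_lit 254)) (XT.lf (nat_lit 0) (nat_lit 3485671023) (nat_lit 252) (nat_lit 1780630127) (nat_lit 336) (nat_lit 5930372657) (nat_lit 30) (nat_lit 5) (nat_lit 33) (nat_lit 5) (nat_lit 34) (nat_lit 5) (nat_lit 346) (nat_lit 289) (nat_lit 253)))) (XT.nd (nat_lit 188) (nat_lit 336) (nat_lit 0) (XT.nd (nat_lit 94) (nat_lit 0) (nat_lit 0) (XT.lf (nat_lit 0) (nat_lit 7076524686) (nat_lit 336) (nat_lit 4130769467) (nat_lit 84) (nat_lit 226020925) (nat_lit 30) (nat_lit 5) (nat_lit 34) (nat_lit 5) (nat_lit 31) (nat_lit 5) (nat_lit 347) (nat_lit 289) (nat_lit 252)) (XT.lf (nat_lit 0) (nat_lit 8925243615) (nat_lit 336) (nat_lit 502724232) (nat_lit 84) (nat_lit 2250092698) (nat_lit 30) (nat_lit 5) (nat_lit 34)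 (nat_lit 5) (nat_lit 31) (nat_lit 5) (nat_lit 348) (nat_lit 289) (nat_lit 251))) (XT.nd (nat_lit 94) (nat_lit 84) (nat_lit 0) (XT.lf (nat_lit 0) (nat_lit 3259857574) (nat_lit 252) (nat_lit 7568997684) (nat_lit 336) (nat_lit 1101828182) (nat_lit 27) (nat_lit 5) (nat_lit 30) (nat_lit 5) (nat_lit 31) (nat_lit 5) (nat_lit 349) (nat_lit 289) (nat_lit 250)) (XT.nd (nat_lit 94) (nat_lit 0) (nat_lit 0) (XT.lf (nat_lit 0) (nat_lit 558853924) (nat_lit 336) (nat_lit 5091333333) (nat_lit 84) (nat_lit 6541879527) (nat_lit 26) (nat_lit 5) (nat_lit 30) (nat_lit 5) (nat_lit 27) (nat_lit 5) (nat_lit 350) (nat_lit 289) (nat_lit 249)) (XT.lf (nat_lit 0) (nat_lit 2214479918) (nat_lit 336) (nat_lit 1454906203) (nat_lit 84) (nat_lit 8793057212) (nat_lit 26) (nat_lit 5) (nat_lit 30) (nat_lit 5) (nat_lit 27) (nat_lit 5) (nat_lit 351) (nat_lit 289) (nat_lit 248))))))))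
noncomputable def xc32 : XT := (XT.nd (nat_lit 1598) (nat_lit 252) (nat_lit 0) (XT.nd (nat_lit 752) (nat_lit 336) (nat_lit 0) (XT.nd (nat_lit 376) (nat_lit 252) (nat_lit 0) (XT.nd (nat_lit 188) (nat_lit 252) (nat_lit 0) (XT.nd (nat_lit 94) (nat_lit 0) (nat_lit 0) (XT.lf (nat_lit 0) (nat_lit 2299097008) (nat_lit 252) (nat_lit 1612502719) (nat_lit 336) (nat_lit 8830097192) (nat_lit 23) (nat_lit 5) (nat_lit 26) (nat_lit 5) (nat_lit 27) (nat_lit 5) (nat_lit 352) (nat_lit 289) (nat_lit 247)) (XT.lf (nat_lit 0) (nat_lit 5649559631) (nat_lit 336) (nat_lit 6876159812) (nat_lit 84) (nat_lit 504437695) (nat_lit 23) (nat_lit 5) (nat_lit 27) (nat_lit 5) (nat_lit 24) (nat_lit 5) (nat_lit 353) (nat_lit 289) (nat_lit 246))) (XT.nd (nat_lit 94) (nat_lit 252) (nat_lit 0) (XT.lf (nat_lit 0) (nat_lit 7426702147) (nat_lit 336) (nat_lit 3256529592) (nat_lit 84) (nat_lit 2644962726) (nat_lit 23) (nat_lit 5)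 (nat_lit 27) (nat_lit 5) (nat_lit 24) (nat_lit 5) (nat_lit 354) (nat_lit 289) (nat_lit 245)) (XT.lf (nat_lit 0) (nat_lit 444618927) (nat_lit 252) (nat_lit 8788479280) (nat_lit 336) (nat_lit 4403347650) (nat_lit 20) (nat_lit 5) (nat_lit 23) (nat_lit 5) (nat_lit 24) (nat_lit 5) (nat_lit 355) (nat_lit 289) (nat_lit 244)))) (XT.nd (nat_lit 188) (nat_lit 252) (nat_lit 0) (XT.nd (nat_lit 94) (nat_lit 0) (nat_lit 0) (XT.lf (nat_lit 0) (nat_lit 4290292855) (nat_lit 252) (nat_lit 6809462807) (nat_lit 336) (nat_lit 2854533926) (nat_lit 20) (nat_lit 5) (nat_lit 23) (nat_lit 5) (nat_lit 24) (nat_lit 5) (nat_lit 356) (nat_lit 289) (nat_lit 243)) (XT.lf (nat_lit 0) (nat_lit 8217115835) (nat_lit 252) (nat_lit 4778329160) (nat_lit 336) (nat_lit 1287598978) (nat_lit 20) (nat_lit 5) (nat_lit 23) (nat_lit 5) (nat_lit 24) (nat_lit 5) (nat_lit 357) (nat_lit 289) (nat_lit 242))) (XT.nd (nat_lit 94) (nat_lit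 168) (nat_lit 0) (XT.lf (nat_lit 0) (nat_lit 292895212) (nat_lit 336) (nat_lit 2397232672) (nat_lit 84) (nat_lit 11932795639) (nat_lit 19) (nat_lit 5) (nat_lit 23) (nat_lit 5) (nat_lit 20) (nat_lit 5) (nat_lit 358) (nat_lit 289) (nat_lit 241)) (XT.lf (nat_lit 0) (nat_lit 1362955796) (nat_lit 168) (nat_lit 518648293) (nat_lit 252) (nat_lit 13091911375) (nat_lit 17) (nat_lit 5) (nat_lit 19) (nat_lit 5) (nat_lit 20) (nat_lit 5) (nat_lit 359) (nat_lit 289) (nat_lit 240))))) (XT.nd (nat_lit 376) (nat_lit 168) (nat_lit 0) (XT.nd (nat_lit 188) (nat_lit 168) (nat_lit 0) (XT.nd (nat_lit 94) (nat_lit 0) (nat_lit 0) (XT.lf (nat_lit 0) (nat_lit 3534730079) (nat_lit 252) (nat_lit 10098042486) (nat_lit 84) (nat_lit 1701877829) (nat_lit 17) (nat_lit 5) (nat_lit 20) (nat_lit 5) (nat_lit 18) (nat_lit 5) (nat_lit 360) (nat_lit 289) (nat_lit 239)) (XT.lf (nat_lit 0) (nat_lit 5218049576) (nat_lit 252) (nat_lit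 6517880335) (nat_lit 84) (nat_lit 3971843717) (nat_lit 17) (nat_lit 5) (nat_lit 20) (nat_lit 5) (nat_lit 18) (nat_lit 5) (nat_lit 361) (nat_lit 289) (nat_lit 238))) (XT.nd (nat_lit 94) (nat_lit 168) (nat_lit 0) (XT.lf (nat_lit 0) (nat_lit 6927986555) (nat_lit 252) (nat_lit 2861591075) (nat_lit 84) (nat_lit 6303814822) (nat_lit 17) (nat_lit 5) (nat_lit 20) (nat_lit 5) (nat_lit 18) (nat_lit 5) (nat_lit 362) (nat_lit 289) (nat_lit 237)) (XT.lf (nat_lit 0) (nat_lit 892209369) (nat_lit 168) (nat_lit 7782776315) (nat_lit 252) (nat_lit 7816606244) (nat_lit 15) (nat_lit 5) (nat_lit 17) (nat_lit 5) (nat_lit 18) (nat_lit 5) (nat_lit 363) (nat_lit 289) (nat_lit 236)))) (XT.nd (nat_lit 188) (nat_lit 168) (nat_lit 0) (XT.nd (nat_lit 94) (nat_lit 0) (nat_lit 0) (XT.lf (nat_lit 0) (nat_lit 4789574335) (nat_lit 168) (nat_lit 5692053452) (nat_lit 252) (nat_lit 6420465906) (nat_lit 15) (nat_lit 5) (nat_lit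 17) (nat_lit 5) (nat_lit 18) (nat_lit 5) (nat_lit 364) (nat_lit 289) (nat_lit 235)) (XT.lf (nat_lit 0) (nat_lit 8775296394) (nat_lit 168) (nat_lit 3545329410) (nat_lit 252) (nat_lit 5005552676) (nat_lit 15) (nat_lit 5) (nat_lit 17) (nat_lit 5) (nat_lit 18) (nat_lit 5) (nat_lit 365) (nat_lit 289) (nat_lit 234))) (XT.nd (nat_lit 94) (nat_lit 168) (nat_lit 0) (XT.lf (nat_lit 0) (nat_lit 12853090657) (nat_lit 168) (nat_lit 1340603219) (nat_lit 252) (nat_lit 3570547707) (nat_lit 15) (nat_lit 5) (nat_lit 17) (nat_lit 5) (nat_lit 18) (nat_lit 5) (nat_lit 366) (nat_lit 289) (nat_lit 233)) (XT.nd (nat_lit 94) (nat_lit 168) (nat_lit 0) (XT.lf (nat_lit 0) (nat_lit 16111745877) (nat_lit 252) (nat_lit 1199101248) (nat_lit 84) (nat_lit 905559987) (nat_lit 15) (nat_lit 5) (nat_lit 18) (nat_lit 5) (nat_lit 16) (nat_lit 4) (nat_lit 367) (nat_lit 289) (nat_lit 232)) (XT.lf (nat_lit 0) (nat_lit 2637119918)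 (nat_lit 168) (nat_lit 15470349411) (nat_lit 252) (nat_lit 574669314) (nat_lit 13) (nat_lit 5) (nat_lit 15) (nat_lit 5) (nat_lit 16) (nat_lit 4) (nat_lit 368) (nat_lit 289) (nat_lit 231))))))) (XT.nd (nat_lit 50102) (nat_lit 0) (nat_lit 8400) (XT.nd (nat_lit 376) (nat_lit 168) (nat_lit 0) (XT.nd (nat_lit 188) (nat_lit 0) (nat_lit 0) (XT.nd (nat_lit 94) (nat_lit 0) (nat_lit 0) (XT.lf (nat_lit 0) (nat_lit 973561146) (nat_lit 252) (nat_lit 12584878485) (nat_lit 84) (nat_lit 5603945197) (nat_lit 12) (nat_lit 5) (nat_lit 15) (nat_lit 5) (nat_lit 13) (nat_lit 5) (nat_lit 369) (nat_lit 289) (nat_lit 230)) (XT.lf (nat_lit 0) (nat_lit 2536867799) (nat_lit 252) (nat_lit 9052999765) (nat_lit 84) (nat_lit 8068222821) (nat_lit 12) (nat_lit 5) (nat_lit 15) (nat_lit 5) (nat_lit 13) (nat_lit 5) (nat_lit 370) (nat_lit 289) (nat_lit 229))) (XT.nd (nat_lit 94) (nat_lit 0) (nat_lit 0) (XT.lf (nat_lit 0) (nat_lit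 4128286114) (nat_lit 252) (nat_lit 5440389695) (nat_lit 84) (nat_lit 10601218279) (nat_lit 12) (nat_lit 5) (nat_lit 15) (nat_lit 5) (nat_lit 13) (nat_lit 5) (nat_lit 371) (nat_lit 289) (nat_lit 228)) (XT.lf (nat_lit 0) (nat_lit 5749299462) (nat_lit 252) (nat_lit 1743680943) (nat_lit 84) (nat_lit 13205292587) (nat_lit 12) (nat_lit 5) (nat_lit 15) (nat_lit 5) (nat_lit 13) (nat_lit 5) (nat_lit 372) (nat_lit 289) (nat_lit 227)))) (XT.nd (nat_lit 188) (nat_lit 0) (nat_lit 0) (XT.nd (nat_lit 94) (nat_lit 0) (nat_lit 0) (XT.lf (nat_lit 0) (nat_lit 2082530560) (nat_lit 168) (nat_lit 5339547196) (nat_lit 252) (nat_lit 13821001417) (nat_lit 10) (nat_lit 5) (nat_lit 12) (nat_lit 5) (nat_lit 13) (nat_lit 5) (nat_lit 373) (nat_lit 289) (nat_lit 226)) (XT.lf (nat_lit 0) (nat_lit 6037540063) (nat_lit 168) (nat_lit 3108537144) (nat_lit 252) (nat_lit 12658808434) (nat_lit 10) (nat_lit 5) (nat_lit 12) (nat_lit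 5) (nat_lit 13) (nat_lit 5) (nat_lit 374) (nat_lit 289) (nat_lit 225))) (XT.nd (nat_lit 49444) (nat_lit 0) (nat_lit 10836) (XT.lf (nat_lit 0) (nat_lit 10089180392) (nat_lit 168) (nat_lit 816071168) (nat_lit 252) (nat_lit 11479511747) (nat_lit 10) (nat_lit 5) (nat_lit 12) (nat_lit 5) (nat_lit 13) (nat_lit 5) (nat_lit 375) (nat_lit 289) (nat_lit 224)) (XT.lf (nat_lit 0) (nat_lit 1206908688) (nat_lit 420) (nat_lit 905818699) (nat_lit 0) (nat_lit 1206908688) (nat_lit 139) (nat_lit 5) (nat_lit 144) (nat_lit 4) (nat_lit 139) (nat_lit 4) (nat_lit 308) (nat_lit 290) (nat_lit 290))))) (XT.nd (nat_lit 376) (nat_lit 1428) (nat_lit 0) (XT.nd (nat_lit 188) (nat_lit 504) (nat_lit 0) (XT.nd (nat_lit 94) (nat_lit 84) (nat_lit 0) (XT.lf (nat_lit 0) (nat_lit 1050596310) (nat_lit 420) (nat_lit 3677579649) (nat_lit 420) (nat_lit 1946825469) (nat_lit 134) (nat_lit 4) (nat_lit 139) (nat_lit 5) (nat_lit 139)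 (nat_lit 4) (nat_lit 309) (nat_lit 290) (nat_lit 289)) (XT.lf (nat_lit 0) (nat_lit 331095709) (nat_lit 504) (nat_lit 2737012837) (nat_lit 84) (nat_lit 3646443543) (nat_lit 133) (nat_lit 5) (nat_lit 139) (nat_lit 5) (nat_lit 134) (nat_lit 4) (nat_lit 310) (nat_lit 290) (nat_lit 288))) (XT.nd (nat_lit 94) (nat_lit 0) (nat_lit 0) (XT.lf (nat_lit 0) (nat_lit 163583295) (nat_lit 504) (nat_lit 2397367057) (nat_lit 588) (nat_lit 4197037522) (nat_lit 127) (nat_lit 5) (nat_lit 133) (nat_lit 5) (nat_lit 134) (nat_lit 4) (nat_lit 311) (nat_lit 290) (nat_lit 287)) (XT.lf (nat_lit 0) (nat_lit 3153035744) (nat_lit 504) (nat_lit 1657414059) (nat_lit 588) (nat_lit 1994679487) (nat_lit 127) (nat_lit 5) (nat_lit 133) (nat_lit 5) (nat_lit 134) (nat_lit 4) (nat_lit 312) (nat_lit 290) (nat_lit 286)))) (XT.nd (nat_lit 188) (nat_lit 756) (nat_lit 0) (XT.nd (nat_lit 94) (nat_lit 588) (nat_lit 0) (XT.lf (nat_lit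 0) (nat_lit 193130588) (nat_lit 588) (nat_lit 680982165) (nat_lit 84) (nat_lit 5982705919) (nat_lit 126) (nat_lit 5) (nat_lit 133) (nat_lit 5) (nat_lit 127) (nat_lit 5) (nat_lit 313) (nat_lit 290) (nat_lit 285)) (XT.lf (nat_lit 0) (nat_lit 2351327241) (nat_lit 588) (nat_lit 4388644) (nat_lit 672) (nat_lit 4556115108) (nat_lit 119) (nat_lit 5) (nat_lit 126) (nat_lit 5) (nat_lit 127) (nat_lit 5) (nat_lit 314) (nat_lit 290) (nat_lit 284))) (XT.nd (nat_lit 94) (nat_lit 756) (nat_lit 0) (XT.lf (nat_lit 0) (nat_lit 4528278812) (nat_lit 672) (nat_lit 1545631145) (nat_lit 84) (nat_lit 897138037) (nat_lit 119) (nat_lit 5) (nat_lit 127) (nat_lit 5) (nat_lit 120) (nat_lit 4) (nat_lit 315) (nat_lit 290) (nat_lit 283)) (XT.nd (nat_lit 94) (nat_lit 84) (nat_lit 0) (XT.lf (nat_lit 0) (nat_lit 1534947999) (nat_lit 672) (nat_lit 5177617793) (nat_lit 756) (nat_lit 321967717) (nat_lit 111) (nat_lit 5) (nat_lit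 119) (nat_lit 5) (nat_lit 120) (nat_lit 4) (nat_lit 316) (nat_lit 290) (nat_lit 282)) (XT.lf (nat_lit 0) (nat_lit 1772586052) (nat_lit 756) (nat_lit 2434519578) (nat_lit 84) (nat_lit 2894661671) (nat_lit 110) (nat_lit 5) (nat_lit 119) (nat_lit 5) (nat_lit 111) (nat_lit 5) (nat_lit 317) (nat_lit 290) (nat_lit 281))))))))
noncomputable def xc33 : XT := (XT.nd (nat_lit 1598) (nat_lit 2184) (nat_lit 0) (XT.nd (nat_lit 752) (nat_lit 1512) (nat_lit 0) (XT.nd (nat_lit 376) (nat_lit 1680) (nat_lit 0) (XT.nd (nat_lit 188) (nat_lit 924) (nat_lit 0) (XT.nd (nat_lit 94) (nat_lit 0) (nat_lit 0) (XT.lf (nat_lit 0) (nat_lit 677568435) (nat_lit 756) (nat_lit 3185938938) (nat_lit 840) (nat_lit 3310040429) (nat_lit 101) (nat_lit 5) (nat_lit 110) (nat_lit 5) (nat_lit 111) (nat_lit 5) (nat_lit 318) (nat_lit 290) (nat_lit 280)) (XT.lf (nat_lit 0) (nat_lit 3879979005) (nat_lit 756) (nat_lit 2097572050) (nat_lit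 840) (nat_lit 1271921992) (nat_lit 101) (nat_lit 5) (nat_lit 110) (nat_lit 5) (nat_lit 111) (nat_lit 5) (nat_lit 319) (nat_lit 290) (nat_lit 279))) (XT.nd (nat_lit 94) (nat_lit 840) (nat_lit 0) (XT.lf (nat_lit 0) (nat_lit 746316609) (nat_lit 840) (nat_lit 212295260) (nat_lit 84) (nat_lit 6371531773) (nat_lit 100) (nat_lit 5) (nat_lit 110) (nat_lit 5) (nat_lit 101) (nat_lit 5) (nat_lit 320) (nat_lit 290) (nat_lit 278)) (XT.lf (nat_lit 0) (nat_lit 2769108619) (nat_lit 924) (nat_lit 4382533393) (nat_lit 84) (nat_lit 262821164) (nat_lit 90) (nat_lit 5) (nat_lit 101) (nat_lit 5) (nat_lit 91) (nat_lit 5) (nat_lit 321) (nat_lit 290) (nat_lit 277)))) (XT.nd (nat_lit 188) (nat_lit 756) (nat_lit 0) (XT.nd (nat_lit 94) (nat_lit 924) (nat_lit 0) (XT.lf (nat_lit 0) (nat_lit 4803749087) (nat_lit 924) (nat_lit 1188175497) (nat_lit 84) (nat_lit 1511603524) (nat_lit 90) (nat_lit 5) (nat_lit 101) (nat_lit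 5) (nat_lit 91) (nat_lit 5) (nat_lit 322) (nat_lit 290) (nat_lit 276)) (XT.lf (nat_lit 0) (nat_lit 2090837654) (nat_lit 924) (nat_lit 4770357396) (nat_lit 1008) (nat_lit 735945531) (nat_lit 79) (nat_lit 5) (nat_lit 90) (nat_lit 5) (nat_lit 91) (nat_lit 5) (nat_lit 323) (nat_lit 290) (nat_lit 275))) (XT.nd (nat_lit 94) (nat_lit 672) (nat_lit 0) (XT.lf (nat_lit 0) (nat_lit 1214477511) (nat_lit 1008) (nat_lit 2267174406) (nat_lit 84) (nat_lit 4213611155) (nat_lit 78) (nat_lit 5) (nat_lit 90) (nat_lit 5) (nat_lit 79) (nat_lit 5) (nat_lit 324) (nat_lit 290) (nat_lit 274)) (XT.lf (nat_lit 0) (nat_lit 1029638203) (nat_lit 672) (nat_lit 2131629521) (nat_lit 756) (nat_lit 4636930471) (nat_lit 70) (nat_lit 5) (nat_lit 78) (nat_lit 5) (nat_lit 79) (nat_lit 5) (nat_lit 325) (nat_lit 290) (nat_lit 273))))) (XT.nd (nat_lit 376) (nat_lit 924) (nat_lit 0) (XT.nd (nat_lit 188) (nat_lit 588) (nat_lit 0)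 (XT.nd (nat_lit 94) (nat_lit 0) (nat_lit 0) (XT.lf (nat_lit 0) (nat_lit 4421334501) (nat_lit 672) (nat_lit 712941131) (nat_lit 756) (nat_lit 2771583131) (nat_lit 70) (nat_lit 5) (nat_lit 78) (nat_lit 5) (nat_lit 79) (nat_lit 5) (nat_lit 326) (nat_lit 290) (nat_lit 272)) (XT.lf (nat_lit 0) (nat_lit 7119847818) (nat_lit 756) (nat_lit 162059161) (nat_lit 84) (nat_lit 736918413) (nat_lit 70) (nat_lit 5) (nat_lit 79) (nat_lit 5) (nat_lit 71) (nat_lit 5) (nat_lit 327) (nat_lit 290) (nat_lit 271))) (XT.nd (nat_lit 94) (nat_lit 0) (nat_lit 0) (XT.lf (nat_lit 0) (nat_lit 995660015) (nat_lit 588) (nat_lit 4878585303) (nat_lit 84) (nat_lit 2261638266) (nat_lit 63) (nat_lit 5) (nat_lit 70) (nat_lit 5) (nat_lit 64) (nat_lit 5) (nat_lit 328) (nat_lit 290) (nat_lit 270)) (XT.lf (nat_lit 0) (nat_lit 2877845841) (nat_lit 588) (nat_lit 1534882071) (nat_lit 84) (nat_lit 3845607083) (nat_lit 63) (nat_lit 5)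 (nat_lit 70) (nat_lit 5) (nat_lit 64) (nat_lit 5) (nat_lit 329) (nat_lit 290) (nat_lit 269)))) (XT.nd (nat_lit 188) (nat_lit 504) (nat_lit 0) (XT.nd (nat_lit 94) (nat_lit 0) (nat_lit 0) (XT.lf (nat_lit 0) (nat_lit 1897116104) (nat_lit 420) (nat_lit 2887492732) (nat_lit 504) (nat_lit 3601429359) (nat_lit 58) (nat_lit 5) (nat_lit 63) (nat_lit 5) (nat_lit 64) (nat_lit 5) (nat_lit 330) (nat_lit 290) (nat_lit 268)) (XT.lf (nat_lit 0) (nat_lit 5415004874) (nat_lit 420) (nat_lit 1299962525) (nat_lit 504) (nat_lit 1804230340) (nat_lit 58) (nat_lit 5) (nat_lit 63) (nat_lit 5) (nat_lit 64) (nat_lit 5) (nat_lit 331) (nat_lit 290) (nat_lit 267))) (XT.nd (nat_lit 94) (nat_lit 0) (nat_lit 0) (XT.lf (nat_lit 0) (nat_lit 3550158) (nat_lit 504) (nat_lit 8322732133) (nat_lit 84) (nat_lit 331929762) (nat_lit 52) (nat_lit 5) (nat_lit 58) (nat_lit 5) (nat_lit 53) (nat_lit 5) (nat_lit 332) (nat_lit 290) (nat_lit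 266)) (XT.nd (nat_lit 94) (nat_lit 0) (nat_lit 0) (XT.lf (nat_lit 0) (nat_lit 1826034467) (nat_lit 504) (nat_lit 4939233943) (nat_lit 84) (nat_lit 2036176893) (nat_lit 52) (nat_lit 5) (nat_lit 58) (nat_lit 5) (nat_lit 53) (nat_lit 5) (nat_lit 333) (nat_lit 290) (nat_lit 265)) (XT.lf (nat_lit 0) (nat_lit 3656628174) (nat_lit 504) (nat_lit 1503429672) (nat_lit 84) (nat_lit 3790911972) (nat_lit 52) (nat_lit 5) (nat_lit 58) (nat_lit 5) (nat_lit 53) (nat_lit 5) (nat_lit 334) (nat_lit 290) (nat_lit 264))))))) (XT.nd (nat_lit 752) (nat_lit 1008) (nat_lit 0) (XT.nd (nat_lit 376) (nat_lit 336) (nat_lit 0) (XT.nd (nat_lit 188) (nat_lit 504) (nat_lit 0) (XT.nd (nat_lit 94) (nat_lit 0) (nat_lit 0) (XT.lf (nat_lit 0) (nat_lit 2028758165) (nat_lit 336) (nat_lit 3488404951) (nat_lit 420) (nat_lit 3589137964) (nat_lit 48) (nat_lit 5) (nat_lit 52) (nat_lit 5) (nat_lit 53) (nat_lit 5) (nat_lit 335) (nat_lit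 290) (nat_lit 263)) (XT.lf (nat_lit 0) (nat_lit 5651830766) (nat_lit 336) (nat_lit 1753214245) (nat_lit 420) (nat_lit 1862673044) (nat_lit 48) (nat_lit 5) (nat_lit 52) (nat_lit 5) (nat_lit 53) (nat_lit 5) (nat_lit 336) (nat_lit 290) (nat_lit 262))) (XT.nd (nat_lit 94) (nat_lit 504) (nat_lit 0) (XT.lf (nat_lit 0) (nat_lit 9307124566) (nat_lit 420) (nat_lit 97903311) (nat_lit 84) (nat_lit 30805502) (nat_lit 48) (nat_lit 5) (nat_lit 53) (nat_lit 5) (nat_lit 49) (nat_lit 5) (nat_lit 337) (nat_lit 290) (nat_lit 261)) (XT.lf (nat_lit 0) (nat_lit 1635021118) (nat_lit 504) (nat_lit 6092436169) (nat_lit 84) (nat_lit 1881201551) (nat_lit 42) (nat_lit 5) (nat_lit 48) (nat_lit 5) (nat_lit 43) (nat_lit 5) (nat_lit 338) (nat_lit 290) (nat_lit 260)))) (XT.nd (nat_lit 188) (nat_lit 0) (nat_lit 0) (XT.nd (nat_lit 94) (nat_lit 336) (nat_lit 0) (XT.lf (nat_lit 0) (nat_lit 3408538212) (nat_lit 504) (nat_lit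 2593465230) (nat_lit 84) (nat_lit 3786398563) (nat_lit 42) (nat_lit 5) (nat_lit 48) (nat_lit 5) (nat_lit 43) (nat_lit 5) (nat_lit 339) (nat_lit 290) (nat_lit 259)) (XT.lf (nat_lit 0) (nat_lit 985537032) (nat_lit 336) (nat_lit 4219327063) (nat_lit 420) (nat_lit 4770133868) (nat_lit 38) (nat_lit 5) (nat_lit 42) (nat_lit 5) (nat_lit 43) (nat_lit 5) (nat_lit 340) (nat_lit 290) (nat_lit 258))) (XT.nd (nat_lit 94) (nat_lit 0) (nat_lit 0) (XT.lf (nat_lit 0) (nat_lit 4682664240) (nat_lit 336) (nat_lit 2360122440) (nat_lit 420) (nat_lit 3125303442) (nat_lit 38) (nat_lit 5) (nat_lit 42) (nat_lit 5) (nat_lit 43) (nat_lit 5) (nat_lit 341) (nat_lit 290) (nat_lit 257)) (XT.lf (nat_lit 0) (nat_lit 8448035539) (nat_lit 336) (nat_lit 449727059) (nat_lit 420) (nat_lit 1470909818) (nat_lit 38) (nat_lit 5) (nat_lit 42) (nat_lit 5) (nat_lit 43) (nat_lit 5) (nat_lit 342) (nat_lit 290) (nat_lit 256))))) (XT.nd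 (nat_lit 376) (nat_lit 336) (nat_lit 0) (XT.nd (nat_lit 188) (nat_lit 252) (nat_lit 0) (XT.nd (nat_lit 94) (nat_lit 0) (nat_lit 0) (XT.lf (nat_lit 0) (nat_lit 223155192) (nat_lit 420) (nat_lit 8850164876) (nat_lit 84) (nat_lit 1502544811) (nat_lit 33) (nat_lit 5) (nat_lit 38) (nat_lit 5) (nat_lit 34) (nat_lit 5) (nat_lit 343) (nat_lit 290) (nat_lit 255)) (XT.lf (nat_lit 0) (nat_lit 1925325842) (nat_lit 420) (nat_lit 5329857204) (nat_lit 84) (nat_lit 3534503786) (nat_lit 33) (nat_lit 5) (nat_lit 38) (nat_lit 5) (nat_lit 34) (nat_lit 5) (nat_lit 344) (nat_lit 290) (nat_lit 254))) (XT.nd (nat_lit 94) (nat_lit 252) (nat_lit 0) (XT.lf (nat_lit 0) (nat_lit 3642719341) (nat_lit 420) (nat_lit 1745948175) (nat_lit 84) (nat_lit 5622869657) (nat_lit 33) (nat_lit 5) (nat_lit 38) (nat_lit 5) (nat_lit 34) (nat_lit 5) (nat_lit 345) (nat_lit 290) (nat_lit 253)) (XT.lf (nat_lit 0) (nat_lit 1944071497) (nat_lit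 252) (nat_lit 3452150412) (nat_lit 336) (nat_lit 5844802932) (nat_lit 30) (nat_lit 5) (nat_lit 33) (nat_lit 5) (nat_lit 34) (nat_lit 5) (nat_lit 346) (nat_lit 290) (nat_lit 252)))) (XT.nd (nat_lit 188) (nat_lit 336) (nat_lit 0) (XT.nd (nat_lit 94) (nat_lit 0) (nat_lit 0) (XT.lf (nat_lit 0) (nat_lit 5741782794) (nat_lit 252) (nat_lit 1444770133) (nat_lit 336) (nat_lit 4291839184) (nat_lit 30) (nat_lit 5) (nat_lit 33) (nat_lit 5) (nat_lit 34) (nat_lit 5) (nat_lit 347) (nat_lit 290) (nat_lit 251)) (XT.lf (nat_lit 0) (nat_lit 9003826922) (nat_lit 336) (nat_lit 2115704800) (nat_lit 84) (nat_lit 604686691) (nat_lit 30) (nat_lit 5) (nat_lit 34) (nat_lit 5) (nat_lit 31) (nat_lit 5) (nat_lit 348) (nat_lit 290) (nat_lit 250))) (XT.nd (nat_lit 94) (nat_lit 84) (nat_lit 0) (XT.lf (nat_lit 0) (nat_lit 1592455196) (nat_lit 252) (nat_lit 9281844435) (nat_lit 336) (nat_lit 1103671838) (nat_lit 27) (nat_lit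 5) (nat_lit 30) (nat_lit 5) (nat_lit 31) (nat_lit 5) (nat_lit 349) (nat_lit 290) (nat_lit 249)) (XT.nd (nat_lit 94) (nat_lit 0) (nat_lit 0) (XT.lf (nat_lit 0) (nat_lit 540479371) (nat_lit 336) (nat_lit 6827059395) (nat_lit 84) (nat_lit 4872426985) (nat_lit 26) (nat_lit 5) (nat_lit 30) (nat_lit 5) (nat_lit 27) (nat_lit 5) (nat_lit 350) (nat_lit 290) (nat_lit 248)) (XT.lf (nat_lit 0) (nat_lit 2180035490) (nat_lit 336) (nat_lit 3211053161) (nat_lit 84) (nat_lit 7119845668) (nat_lit 26) (nat_lit 5) (nat_lit 30) (nat_lit 5) (nat_lit 27) (nat_lit 5) (nat_lit 351) (nat_lit 290) (nat_lit 247))))))))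
noncomputable def xc34 : XT := (XT.nd (nat_lit 1598) (nat_lit 252) (nat_lit 0) (XT.nd (nat_lit 752) (nat_lit 504) (nat_lit 0) (XT.nd (nat_lit 376) (nat_lit 336) (nat_lit 0) (XT.nd (nat_lit 188) (nat_lit 0) (nat_lit 0) (XT.nd (nat_lit 94) (nat_lit 0) (nat_lit 0) (XT.lf (nat_lit 0) (nat_lit 486625914) (nat_lit 252) (nat_lit 3356962758) (nat_lit 336) (nat_lit 8947730829) (nat_lit 23) (nat_lit 5) (nat_lit 26) (nat_lit 5) (nat_lit 27) (nat_lit 5) (nat_lit 352) (nat_lit 290) (nat_lit 246)) (XT.lf (nat_lit 0) (nat_lit 4327185171) (nat_lit 252) (nat_lit 1233943898) (nat_lit 336) (nat_lit 7519371948) (nat_lit 23) (nat_lit 5) (nat_lit 26) (nat_lit 5) (nat_lit 27) (nat_lit 5) (nat_lit 353) (nat_lit 290) (nat_lit 245))) (XT.nd (nat_lit 94) (nat_lit 0) (nat_lit 0) (XT.lf (nat_lit 0) (nat_lit 7311137284) (nat_lit 336) (nat_lit 5140966325) (nat_lit 84) (nat_lit 927361539) (nat_lit 23) (nat_lit 5) (nat_lit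 27) (nat_lit 5) (nat_lit 24) (nat_lit 5) (nat_lit 354) (nat_lit 290) (nat_lit 244)) (XT.lf (nat_lit 0) (nat_lit 9098677057) (nat_lit 336) (nat_lit 1467710486) (nat_lit 84) (nat_lit 3121996605) (nat_lit 23) (nat_lit 5) (nat_lit 27) (nat_lit 5) (nat_lit 24) (nat_lit 5) (nat_lit 355) (nat_lit 290) (nat_lit 243)))) (XT.nd (nat_lit 188) (nat_lit 84) (nat_lit 0) (XT.nd (nat_lit 94) (nat_lit 0) (nat_lit 0) (XT.lf (nat_lit 0) (nat_lit 2329041398) (nat_lit 252) (nat_lit 8607236667) (nat_lit 336) (nat_lit 3070931129) (nat_lit 20) (nat_lit 5) (nat_lit 23) (nat_lit 5) (nat_lit 24) (nat_lit 5) (nat_lit 356) (nat_lit 290) (nat_lit 242)) (XT.lf (nat_lit 0) (nat_lit 6237685032) (nat_lit 252) (nat_lit 6580512051) (nat_lit 336) (nat_lit 1518271520) (nat_lit 20) (nat_lit 5) (nat_lit 23) (nat_lit 5) (nat_lit 24) (nat_lit 5) (nat_lit 357) (nat_lit 290) (nat_lit 241))) (XT.nd (nat_lit 94) (nat_lit 0) (nat_lit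 0) (XT.lf (nat_lit 0) (nat_lit 53303066) (nat_lit 336) (nat_lit 4445785019) (nat_lit 84) (nat_lit 10177825101) (nat_lit 19) (nat_lit 5) (nat_lit 23) (nat_lit 5) (nat_lit 20) (nat_lit 5) (nat_lit 358) (nat_lit 290) (nat_lit 240)) (XT.lf (nat_lit 0) (nat_lit 1615332048) (nat_lit 336) (nat_lit 730501508) (nat_lit 84) (nat_lit 12682569953) (nat_lit 19) (nat_lit 5) (nat_lit 23) (nat_lit 5) (nat_lit 20) (nat_lit 5) (nat_lit 359) (nat_lit 290) (nat_lit 239))))) (XT.nd (nat_lit 376) (nat_lit 336) (nat_lit 0) (XT.nd (nat_lit 188) (nat_lit 0) (nat_lit 0) (XT.nd (nat_lit 94) (nat_lit 0) (nat_lit 0) (XT.lf (nat_lit 0) (nat_lit 3128626281) (nat_lit 168) (nat_lit 102271265) (nat_lit 252) (nat_lit 12159874430) (nat_lit 17) (nat_lit 5) (nat_lit 19) (nat_lit 5) (nat_lit 20) (nat_lit 5) (nat_lit 360) (nat_lit 290) (nat_lit 238)) (XT.lf (nat_lit 0) (nat_lit 4900614896) (nat_lit 252) (nat_lit 8698131933) (nat_lit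 84) (nat_lit 2165637127) (nat_lit 17) (nat_lit 5) (nat_lit 20) (nat_lit 5) (nat_lit 18) (nat_lit 5) (nat_lit 361) (nat_lit 290) (nat_lit 237))) (XT.nd (nat_lit 94) (nat_lit 0) (nat_lit 0) (XT.lf (nat_lit 0) (nat_lit 6598342755) (nat_lit 252) (nat_lit 5058489553) (nat_lit 84) (nat_lit 4493614020) (nat_lit 17) (nat_lit 5) (nat_lit 20) (nat_lit 5) (nat_lit 18) (nat_lit 5) (nat_lit 362) (nat_lit 290) (nat_lit 236)) (XT.lf (nat_lit 0) (nat_lit 8324649038) (nat_lit 252) (nat_lit 1338811482) (nat_lit 84) (nat_lit 6885889869) (nat_lit 17) (nat_lit 5) (nat_lit 20) (nat_lit 5) (nat_lit 18) (nat_lit 5) (nat_lit 363) (nat_lit 290) (nat_lit 235)))) (XT.nd (nat_lit 188) (nat_lit 168) (nat_lit 0) (XT.nd (nat_lit 94) (nat_lit 0) (nat_lit 0) (XT.lf (nat_lit 0) (nat_lit 2515041897) (nat_lit 168) (nat_lit 7591050475) (nat_lit 252) (nat_lit 6854602155) (nat_lit 15) (nat_lit 5) (nat_lit 17) (nat_lit 5) (nat_lit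 18) (nat_lit 5) (nat_lit 364) (nat_lit 290) (nat_lit 234)) (XT.lf (nat_lit 0) (nat_lit 6485261652) (nat_lit 168) (nat_lit 5448534358) (nat_lit 252) (nat_lit 5451392801) (nat_lit 15) (nat_lit 5) (nat_lit 17) (nat_lit 5) (nat_lit 18) (nat_lit 5) (nat_lit 365) (nat_lit 290) (nat_lit 233))) (XT.nd (nat_lit 94) (nat_lit 168) (nat_lit 0) (XT.lf (nat_lit 0) (nat_lit 10548019731) (nat_lit 168) (nat_lit 3247889568) (nat_lit 252) (nat_lit 4027739796) (nat_lit 15) (nat_lit 5) (nat_lit 17) (nat_lit 5) (nat_lit 18) (nat_lit 5) (nat_lit 366) (nat_lit 290) (nat_lit 232)) (XT.nd (nat_lit 94) (nat_lit 168) (nat_lit 0) (XT.lf (nat_lit 0) (nat_lit 14707103051) (nat_lit 168) (nat_lit 987064873) (nat_lit 252) (nat_lit 2582316148) (nat_lit 15) (nat_lit 5) (nat_lit 17) (nat_lit 5) (nat_lit 18) (nat_lit 5) (nat_lit 367) (nat_lit 290) (nat_lit 231)) (XT.lf (nat_lit 0) (nat_lit 213316583) (nat_lit 168) (nat_lit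 17432394557) (nat_lit 252) (nat_lit 1097928224) (nat_lit 13) (nat_lit 5) (nat_lit 15) (nat_lit 5) (nat_lit 16) (nat_lit 4) (nat_lit 368) (nat_lit 290) (nat_lit 230))))))) (XT.nd (nat_lit 49914) (nat_lit 0) (nat_lit 9156) (XT.nd (nat_lit 376) (nat_lit 168) (nat_lit 0) (XT.nd (nat_lit 188) (nat_lit 0) (nat_lit 0) (XT.nd (nat_lit 94) (nat_lit 0) (nat_lit 0) (XT.lf (nat_lit 0) (nat_lit 450514004) (nat_lit 252) (nat_lit 15079589657) (nat_lit 84) (nat_lit 3694314021) (nat_lit 12) (nat_lit 5) (nat_lit 15) (nat_lit 5) (nat_lit 13) (nat_lit 5) (nat_lit 369) (nat_lit 290) (nat_lit 229)) (XT.lf (nat_lit 0) (nat_lit 2003800547) (nat_lit 252) (nat_lit 11561869917) (nat_lit 84) (nat_lit 6154812830) (nat_lit 12) (nat_lit 5) (nat_lit 15) (nat_lit 5) (nat_lit 13) (nat_lit 5) (nat_lit 370) (nat_lit 290) (nat_lit 228))) (XT.nd (nat_lit 94) (nat_lit 0) (nat_lit 0) (XT.lf (nat_lit 0) (nat_lit 3585500036) (nat_lit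 252) (nat_lit 7962993097) (nat_lit 84) (nat_lit 8684143094) (nat_lit 12) (nat_lit 5) (nat_lit 15) (nat_lit 5) (nat_lit 13) (nat_lit 5) (nat_lit 371) (nat_lit 290) (nat_lit 227)) (XT.lf (nat_lit 0) (nat_lit 5197086782) (nat_lit 252) (nat_lit 4279604665) (nat_lit 84) (nat_lit 11284662414) (nat_lit 12) (nat_lit 5) (nat_lit 15) (nat_lit 5) (nat_lit 13) (nat_lit 5) (nat_lit 372) (nat_lit 290) (nat_lit 226)))) (XT.nd (nat_lit 188) (nat_lit 0) (nat_lit 0) (XT.nd (nat_lit 94) (nat_lit 168) (nat_lit 0) (XT.lf (nat_lit 0) (nat_lit 6840062952) (nat_lit 252) (nat_lit 508271317) (nat_lit 84) (nat_lit 13958794745) (nat_lit 12) (nat_lit 5) (nat_lit 15) (nat_lit 5) (nat_lit 13) (nat_lit 5) (nat_lit 373) (nat_lit 290) (nat_lit 225)) (XT.lf (nat_lit 0) (nat_lit 3423498080) (nat_lit 168) (nat_lit 5126423416) (nat_lit 252) (nat_lit 13319496105) (nat_lit 10) (nat_lit 5) (nat_lit 12) (nat_lit 5) (nat_lit 13)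 (nat_lit 5) (nat_lit 374) (nat_lit 290) (nat_lit 224))) (XT.nd (nat_lit 49256) (nat_lit 0) (nat_lit 11256) (XT.lf (nat_lit 0) (nat_lit 7462733943) (nat_lit 168) (nat_lit 2837637254) (nat_lit 252) (nat_lit 12149236969) (nat_lit 10) (nat_lit 5) (nat_lit 12) (nat_lit 5) (nat_lit 13) (nat_lit 5) (nat_lit 375) (nat_lit 290) (nat_lit 223)) (XT.lf (nat_lit 0) (nat_lit 2890987705) (nat_lit 252) (nat_lit 199075641) (nat_lit 252) (nat_lit 199075641) (nat_lit 144) (nat_lit 4) (nat_lit 147) (nat_lit 5) (nat_lit 147) (nat_lit 4) (nat_lit 306) (nat_lit 291) (nat_lit 291))))) (XT.nd (nat_lit 376) (nat_lit 1176) (nat_lit 0) (XT.nd (nat_lit 188) (nat_lit 504) (nat_lit 0) (XT.nd (nat_lit 94) (nat_lit 0) (nat_lit 0) (XT.lf (nat_lit 0) (nat_lit 1883518192) (nat_lit 420) (nat_lit 4625060745) (nat_lit 0) (nat_lit 99110633) (nat_lit 139) (nat_lit 5) (nat_lit 144) (nat_lit 4) (nat_lit 139) (nat_lit 4) (nat_lit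 307) (nat_lit 291) (nat_lit 290)) (XT.lf (nat_lit 0) (nat_lit 4157591694) (nat_lit 420) (nat_lit 1840969222) (nat_lit 0) (nat_lit 642429955) (nat_lit 139) (nat_lit 5) (nat_lit 144) (nat_lit 4) (nat_lit 139) (nat_lit 4) (nat_lit 308) (nat_lit 291) (nat_lit 289))) (XT.nd (nat_lit 94) (nat_lit 84) (nat_lit 0) (XT.lf (nat_lit 0) (nat_lit 991626498) (nat_lit 420) (nat_lit 5440327304) (nat_lit 420) (nat_lit 246451521) (nat_lit 134) (nat_lit 4) (nat_lit 139) (nat_lit 5) (nat_lit 139) (nat_lit 4) (nat_lit 309) (nat_lit 291) (nat_lit 288)) (XT.lf (nat_lit 0) (nat_lit 1957888058) (nat_lit 504) (nat_lit 2845643781) (nat_lit 84) (nat_lit 1915539157) (nat_lit 133) (nat_lit 5) (nat_lit 139) (nat_lit 5) (nat_lit 134) (nat_lit 4) (nat_lit 310) (nat_lit 291) (nat_lit 287)))) (XT.nd (nat_lit 188) (nat_lit 672) (nat_lit 0) (XT.nd (nat_lit 94) (nat_lit 0) (nat_lit 0) (XT.lf (nat_lit 0) (nat_lit 23626899) (nat_lit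 504) (nat_lit 4124586919) (nat_lit 588) (nat_lit 2615924671) (nat_lit 127) (nat_lit 5) (nat_lit 133) (nat_lit 5) (nat_lit 134) (nat_lit 4) (nat_lit 311) (nat_lit 291) (nat_lit 286)) (XT.lf (nat_lit 0) (nat_lit 2984862301) (nat_lit 504) (nat_lit 3375577359) (nat_lit 588) (nat_lit 452389825) (nat_lit 127) (nat_lit 5) (nat_lit 133) (nat_lit 5) (nat_lit 134) (nat_lit 4) (nat_lit 312) (nat_lit 291) (nat_lit 285))) (XT.nd (nat_lit 94) (nat_lit 588) (nat_lit 0) (XT.lf (nat_lit 0) (nat_lit 1667449375) (nat_lit 588) (nat_lit 900653564) (nat_lit 84) (nat_lit 4297456204) (nat_lit 126) (nat_lit 5) (nat_lit 133) (nat_lit 5) (nat_lit 127) (nat_lit 5) (nat_lit 313) (nat_lit 291) (nat_lit 284)) (XT.nd (nat_lit 94) (nat_lit 0) (nat_lit 0) (XT.lf (nat_lit 0) (nat_lit 2098929409) (nat_lit 588) (nat_lit 1692813690) (nat_lit 672) (nat_lit 3130375009) (nat_lit 119) (nat_lit 5) (nat_lit 126) (nat_lit 5) (nat_lit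 127) (nat_lit 5) (nat_lit 314) (nat_lit 291) (nat_lit 283)) (XT.lf (nat_lit 0) (nat_lit 5155021961) (nat_lit 588) (nat_lit 765218226) (nat_lit 672) (nat_lit 1062809756) (nat_lit 119) (nat_lit 5) (nat_lit 126) (nat_lit 5) (nat_lit 127) (nat_lit 5) (nat_lit 315) (nat_lit 291) (nat_lit 282))))))))
noncomputable def xc35 : XT := (XT.nd (nat_lit 1598) (nat_lit 2604) (nat_lit 0) (XT.nd (nat_lit 752) (nat_lit 1764) (nat_lit 0) (XT.nd (nat_lit 376) (nat_lit 1932) (nat_lit 0) (XT.nd (nat_lit 188) (nat_lit 756) (nat_lit 0) (XT.nd (nat_lit 94) (nat_lit 0) (nat_lit 0) (XT.lf (nat_lit 0) (nat_lit 991374130) (nat_lit 756) (nat_lit 5832376772) (nat_lit 84) (nat_lit 224191675) (nat_lit 110) (nat_lit 5) (nat_lit 119) (nat_lit 5) (nat_lit 111) (nat_lit 5) (nat_lit 316) (nat_lit 291) (nat_lit 281)) (XT.lf (nat_lit 0) (nat_lit 3045665906) (nat_lit 756) (nat_lit 2799236205) (nat_lit 84) (nat_lit 1271540540)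 (nat_lit 110) (nat_lit 5) (nat_lit 119) (nat_lit 5) (nat_lit 111) (nat_lit 5) (nat_lit 317) (nat_lit 291) (nat_lit 280))) (XT.nd (nat_lit 94) (nat_lit 0) (nat_lit 0) (XT.lf (nat_lit 0) (nat_lit 276911960) (nat_lit 756) (nat_lit 4822941188) (nat_lit 840) (nat_lit 2089817458) (nat_lit 101) (nat_lit 5) (nat_lit 110) (nat_lit 5) (nat_lit 111) (nat_lit 5) (nat_lit 318) (nat_lit 291) (nat_lit 279)) (XT.lf (nat_lit 0) (nat_lit 3451737151) (nat_lit 756) (nat_lit 3730111521) (nat_lit 840) (nat_lit 85040088) (nat_lit 101) (nat_lit 5) (nat_lit 110) (nat_lit 5) (nat_lit 111) (nat_lit 5) (nat_lit 319) (nat_lit 291) (nat_lit 278)))) (XT.nd (nat_lit 188) (nat_lit 1008) (nat_lit 0) (XT.nd (nat_lit 94) (nat_lit 840) (nat_lit 0) (XT.lf (nat_lit 0) (nat_lit 1877598467) (nat_lit 840) (nat_lit 697416019) (nat_lit 84) (nat_lit 4773443854) (nat_lit 100) (nat_lit 5) (nat_lit 110) (nat_lit 5) (nat_lit 101) (nat_lit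 5) (nat_lit 320) (nat_lit 291) (nat_lit 277)) (XT.lf (nat_lit 0) (nat_lit 2512168412) (nat_lit 840) (nat_lit 1349643666) (nat_lit 924) (nat_lit 3572434938) (nat_lit 90) (nat_lit 5) (nat_lit 100) (nat_lit 5) (nat_lit 101) (nat_lit 5) (nat_lit 321) (nat_lit 291) (nat_lit 276))) (XT.nd (nat_lit 94) (nat_lit 1008) (nat_lit 0) (XT.lf (nat_lit 0) (nat_lit 5782041245) (nat_lit 840) (nat_lit 71694633) (nat_lit 924) (nat_lit 1671165284) (nat_lit 90) (nat_lit 5) (nat_lit 100) (nat_lit 5) (nat_lit 101) (nat_lit 5) (nat_lit 322) (nat_lit 291) (nat_lit 275)) (XT.lf (nat_lit 0) (nat_lit 250425432) (nat_lit 1008) (nat_lit 6124474966) (nat_lit 84) (nat_lit 1244899265) (nat_lit 78) (nat_lit 5) (nat_lit 90) (nat_lit 5) (nat_lit 79) (nat_lit 5) (nat_lit 323) (nat_lit 291) (nat_lit 274))))) (XT.nd (nat_lit 376) (nat_lit 1092) (nat_lit 0) (XT.nd (nat_lit 188) (nat_lit 0) (nat_lit 0) (XT.nd (nat_lit 94) (nat_lit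 672) (nat_lit 0) (XT.lf (nat_lit 0) (nat_lit 2156959876) (nat_lit 1008) (nat_lit 2920193555) (nat_lit 84) (nat_lit 2641685096) (nat_lit 78) (nat_lit 5) (nat_lit 90) (nat_lit 5) (nat_lit 79) (nat_lit 5) (nat_lit 324) (nat_lit 291) (nat_lit 273)) (XT.lf (nat_lit 0) (nat_lit 335924083) (nat_lit 672) (nat_lit 3732757140) (nat_lit 756) (nat_lit 3754414096) (nat_lit 70) (nat_lit 5) (nat_lit 78) (nat_lit 5) (nat_lit 79) (nat_lit 5) (nat_lit 325) (nat_lit 291) (nat_lit 272))) (XT.nd (nat_lit 94) (nat_lit 0) (nat_lit 0) (XT.lf (nat_lit 0) (nat_lit 3701172703) (nat_lit 672) (nat_lit 2312914457) (nat_lit 756) (nat_lit 1917751870) (nat_lit 70) (nat_lit 5) (nat_lit 78) (nat_lit 5) (nat_lit 79) (nat_lit 5) (nat_lit 326) (nat_lit 291) (nat_lit 271)) (XT.lf (nat_lit 0) (nat_lit 7118643897) (nat_lit 672) (nat_lit 846782773) (nat_lit 756) (nat_lit 80660844) (nat_lit 70) (nat_lit 5) (nat_lit 78) (nat_lit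 5) (nat_lit 79) (nat_lit 5) (nat_lit 327) (nat_lit 291) (nat_lit 270)))) (XT.nd (nat_lit 188) (nat_lit 504) (nat_lit 0) (XT.nd (nat_lit 94) (nat_lit 0) (nat_lit 0) (XT.lf (nat_lit 0) (nat_lit 1754564751) (nat_lit 588) (nat_lit 5714048516) (nat_lit 84) (nat_lit 695819027) (nat_lit 63) (nat_lit 5) (nat_lit 70) (nat_lit 5) (nat_lit 64) (nat_lit 5) (nat_lit 328) (nat_lit 291) (nat_lit 269)) (XT.lf (nat_lit 0) (nat_lit 3610856822) (nat_lit 588) (nat_lit 2396727617) (nat_lit 84) (nat_lit 2280303306) (nat_lit 63) (nat_lit 5) (nat_lit 70) (nat_lit 5) (nat_lit 64) (nat_lit 5) (nat_lit 329) (nat_lit 291) (nat_lit 268))) (XT.nd (nat_lit 94) (nat_lit 84) (nat_lit 0) (XT.lf (nat_lit 0) (nat_lit 991434011) (nat_lit 420) (nat_lit 4492086142) (nat_lit 504) (nat_lit 2933323159) (nat_lit 58) (nat_lit 5) (nat_lit 63) (nat_lit 5) (nat_lit 64) (nat_lit 5) (nat_lit 330) (nat_lit 291) (nat_lit 267)) (XT.nd (nat_lit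 94) (nat_lit 84) (nat_lit 0) (XT.lf (nat_lit 0) (nat_lit 4483992775) (nat_lit 420) (nat_lit 2905274639) (nat_lit 504) (nat_lit 1161687798) (nat_lit 58) (nat_lit 5) (nat_lit 63) (nat_lit 5) (nat_lit 64) (nat_lit 5) (nat_lit 331) (nat_lit 291) (nat_lit 266)) (XT.lf (nat_lit 0) (nat_lit 602128588) (nat_lit 504) (nat_lit 662274201) (nat_lit 84) (nat_lit 7426508895) (nat_lit 57) (nat_lit 5) (nat_lit 63) (nat_lit 5) (nat_lit 58) (nat_lit 5) (nat_lit 332) (nat_lit 291) (nat_lit 265))))))) (XT.nd (nat_lit 846) (nat_lit 1008) (nat_lit 0) (XT.nd (nat_lit 376) (nat_lit 840) (nat_lit 0) (XT.nd (nat_lit 188) (nat_lit 336) (nat_lit 0) (XT.nd (nat_lit 94) (nat_lit 0) (nat_lit 0) (XT.lf (nat_lit 0) (nat_lit 2381471830) (nat_lit 504) (nat_lit 5996791546) (nat_lit 84) (nat_lit 457391762) (nat_lit 52) (nat_lit 5) (nat_lit 58) (nat_lit 5) (nat_lit 53) (nat_lit 5) (nat_lit 333) (nat_lit 291) (nat_lit 264))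 (XT.lf (nat_lit 0) (nat_lit 4188957362) (nat_lit 504) (nat_lit 2586098709) (nat_lit 84) (nat_lit 2211007569) (nat_lit 52) (nat_lit 5) (nat_lit 58) (nat_lit 5) (nat_lit 53) (nat_lit 5) (nat_lit 334) (nat_lit 291) (nat_lit 263))) (XT.nd (nat_lit 94) (nat_lit 0) (nat_lit 0) (XT.lf (nat_lit 0) (nat_lit 898970029) (nat_lit 336) (nat_lit 5116901275) (nat_lit 420) (nat_lit 3126728440) (nat_lit 48) (nat_lit 5) (nat_lit 52) (nat_lit 5) (nat_lit 53) (nat_lit 5) (nat_lit 335) (nat_lit 291) (nat_lit 262)) (XT.lf (nat_lit 0) (nat_lit 4497932831) (nat_lit 336) (nat_lit 3383841759) (nat_lit 420) (nat_lit 1423081171) (nat_lit 48) (nat_lit 5) (nat_lit 52) (nat_lit 5) (nat_lit 53) (nat_lit 5) (nat_lit 336) (nat_lit 291) (nat_lit 261)))) (XT.nd (nat_lit 188) (nat_lit 336) (nat_lit 0) (XT.nd (nat_lit 94) (nat_lit 420) (nat_lit 0) (XT.lf (nat_lit 0) (nat_lit 282618720) (nat_lit 420) (nat_lit 1315687015) (nat_lit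 84) (nat_lit 7875400133) (nat_lit 47) (nat_lit 5) (nat_lit 52) (nat_lit 5) (nat_lit 48) (nat_lit 5) (nat_lit 337) (nat_lit 291) (nat_lit 260)) (XT.lf (nat_lit 0) (nat_lit 1994151432) (nat_lit 504) (nat_lit 7383325144) (nat_lit 84) (nat_lit 270696796) (nat_lit 42) (nat_lit 5) (nat_lit 48) (nat_lit 5) (nat_lit 43) (nat_lit 5) (nat_lit 338) (nat_lit 291) (nat_lit 259))) (XT.nd (nat_lit 94) (nat_lit 336) (nat_lit 0) (XT.lf (nat_lit 0) (nat_lit 3747015208) (nat_lit 504) (nat_lit 3908132221) (nat_lit 84) (nat_lit 2173548938) (nat_lit 42) (nat_lit 5) (nat_lit 48) (nat_lit 5) (nat_lit 43) (nat_lit 5) (nat_lit 339) (nat_lit 291) (nat_lit 258)) (XT.nd (nat_lit 94) (nat_lit 336) (nat_lit 0) (XT.lf (nat_lit 0) (nat_lit 5513532125) (nat_lit 504) (nat_lit 372049394) (nat_lit 84) (nat_lit 4130770263) (nat_lit 42) (nat_lit 5) (nat_lit 48) (nat_lit 5) (nat_lit 43) (nat_lit 5) (nat_lit 340) (nat_lit 291)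 (nat_lit 257)) (XT.lf (nat_lit 0) (nat_lit 3294598146) (nat_lit 336) (nat_lit 4033433439) (nat_lit 420) (nat_lit 2882269781) (nat_lit 38) (nat_lit 5) (nat_lit 42) (nat_lit 5) (nat_lit 43) (nat_lit 5) (nat_lit 341) (nat_lit 291) (nat_lit 256)))))) (XT.nd (nat_lit 376) (nat_lit 588) (nat_lit 0) (XT.nd (nat_lit 188) (nat_lit 0) (nat_lit 0) (XT.nd (nat_lit 94) (nat_lit 420) (nat_lit 0) (XT.lf (nat_lit 0) (nat_lit 7037826314) (nat_lit 336) (nat_lit 2126115758) (nat_lit 420) (nat_lit 1247659975) (nat_lit 38) (nat_lit 5) (nat_lit 42) (nat_lit 5) (nat_lit 43) (nat_lit 5) (nat_lit 342) (nat_lit 291) (nat_lit 255)) (XT.lf (nat_lit 0) (nat_lit 233669118) (nat_lit 336) (nat_lit 159266953) (nat_lit 420) (nat_lit 10227427701) (nat_lit 33) (nat_lit 5) (nat_lit 37) (nat_lit 5) (nat_lit 38) (nat_lit 5) (nat_lit 343) (nat_lit 291) (nat_lit 254))) (XT.nd (nat_lit 94) (nat_lit 0) (nat_lit 0) (XT.lf (nat_lit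 0) (nat_lit 2075041081) (nat_lit 420) (nat_lit 6887223667) (nat_lit 84) (nat_lit 1872659225) (nat_lit 33) (nat_lit 5) (nat_lit 38) (nat_lit 5) (nat_lit 34) (nat_lit 5) (nat_lit 344) (nat_lit 291) (nat_lit 253)) (XT.lf (nat_lit 0) (nat_lit 3774504714) (nat_lit 420) (nat_lit 3325057250) (nat_lit 84) (nat_lit 3957880896) (nat_lit 33) (nat_lit 5) (nat_lit 38) (nat_lit 5) (nat_lit 34) (nat_lit 5) (nat_lit 345) (nat_lit 291) (nat_lit 252)))) (XT.nd (nat_lit 188) (nat_lit 336) (nat_lit 0) (XT.nd (nat_lit 94) (nat_lit 0) (nat_lit 0) (XT.lf (nat_lit 0) (nat_lit 310970215) (nat_lit 252) (nat_lit 5183445748) (nat_lit 336) (nat_lit 5793665226) (nat_lit 30) (nat_lit 5) (nat_lit 33) (nat_lit 5) (nat_lit 34) (nat_lit 5) (nat_lit 346) (nat_lit 291) (nat_lit 251)) (XT.lf (nat_lit 0) (nat_lit 4087806160) (nat_lit 252) (nat_lit 3179865884) (nat_lit 336) (nat_lit 4258411779) (nat_lit 30) (nat_lit 5) (nat_lit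 33) (nat_lit 5) (nat_lit 34) (nat_lit 5) (nat_lit 347) (nat_lit 291) (nat_lit 250))) (XT.nd (nat_lit 94) (nat_lit 336) (nat_lit 0) (XT.lf (nat_lit 0) (nat_lit 7940600996) (nat_lit 252) (nat_lit 1121661605) (nat_lit 336) (nat_lit 2710453566) (nat_lit 30) (nat_lit 5) (nat_lit 33) (nat_lit 5) (nat_lit 34) (nat_lit 5) (nat_lit 348) (nat_lit 291) (nat_lit 249)) (XT.nd (nat_lit 94) (nat_lit 336) (nat_lit 0) (XT.lf (nat_lit 0) (nat_lit 10889711911) (nat_lit 336) (nat_lit 165113708) (nat_lit 84) (nat_lit 973077090) (nat_lit 30) (nat_lit 5) (nat_lit 34) (nat_lit 5) (nat_lit 31) (nat_lit 5) (nat_lit 349) (nat_lit 291) (nat_lit 248)) (XT.lf (nat_lit 0) (nat_lit 488897289) (nat_lit 336) (nat_lit 8658067805) (nat_lit 84) (nat_lit 3143586882) (nat_lit 26) (nat_lit 5) (nat_lit 30) (nat_lit 5) (nat_lit 27) (nat_lit 5) (nat_lit 350) (nat_lit 291) (nat_lit 247))))))))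
noncomputable def xc36 : XT := (XT.nd (nat_lit 1598) (nat_lit 420) (nat_lit 0) (XT.nd (nat_lit 752) (nat_lit 420) (nat_lit 0) (XT.nd (nat_lit 376) (nat_lit 252) (nat_lit 0) (XT.nd (nat_lit 188) (nat_lit 252) (nat_lit 0) (XT.nd (nat_lit 94) (nat_lit 0) (nat_lit 0) (XT.lf (nat_lit 0) (nat_lit 2112866719) (nat_lit 336) (nat_lit 5061868454) (nat_lit 84) (nat_lit 5387359589) (nat_lit 26) (nat_lit 5) (nat_lit 30) (nat_lit 5) (nat_lit 27) (nat_lit 5) (nat_lit 351) (nat_lit 291) (nat_lit 246)) (XT.lf (nat_lit 0) (nat_lit 3756474483) (nat_lit 336) (nat_lit 1393205137) (nat_lit 84) (nat_lit 7693506925) (nat_lit 26) (nat_lit 5) (nat_lit 30) (nat_lit 5) (nat_lit 27) (nat_lit 5) (nat_lit 352) (nat_lit 291) (nat_lit 245))) (XT.nd (nat_lit 94) (nat_lit 0) (nat_lit 0) (XT.lf (nat_lit 0) (nat_lit 2399690130) (nat_lit 252) (nat_lit 3045367687) (nat_lit 336) (nat_lit 7688293553) (nat_lit 23) (nat_lit 5) (nat_lit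 26) (nat_lit 5) (nat_lit 27) (nat_lit 5) (nat_lit 353) (nat_lit 291) (nat_lit 244)) (XT.lf (nat_lit 0) (nat_lit 6302238497) (nat_lit 252) (nat_lit 869033291) (nat_lit 336) (nat_lit 6261864397) (nat_lit 23) (nat_lit 5) (nat_lit 26) (nat_lit 5) (nat_lit 27) (nat_lit 5) (nat_lit 354) (nat_lit 291) (nat_lit 243)))) (XT.nd (nat_lit 188) (nat_lit 0) (nat_lit 0) (XT.nd (nat_lit 94) (nat_lit 252) (nat_lit 0) (XT.lf (nat_lit 0) (nat_lit 8936179380) (nat_lit 336) (nat_lit 3467386210) (nat_lit 84) (nat_lit 1339271759) (nat_lit 23) (nat_lit 5) (nat_lit 27) (nat_lit 5) (nat_lit 24) (nat_lit 5) (nat_lit 355) (nat_lit 291) (nat_lit 242)) (XT.lf (nat_lit 0) (nat_lit 270068895) (nat_lit 252) (nat_lit 10469696258) (nat_lit 336) (nat_lit 3323029858) (nat_lit 20) (nat_lit 5) (nat_lit 23) (nat_lit 5) (nat_lit 24) (nat_lit 5) (nat_lit 356) (nat_lit 291) (nat_lit 241))) (XT.nd (nat_lit 94) (nat_lit 0) (nat_lit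 0) (XT.lf (nat_lit 0) (nat_lit 4161079798) (nat_lit 252) (nat_lit 8447248101) (nat_lit 336) (nat_lit 1784216359) (nat_lit 20) (nat_lit 5) (nat_lit 23) (nat_lit 5) (nat_lit 24) (nat_lit 5) (nat_lit 357) (nat_lit 291) (nat_lit 240)) (XT.lf (nat_lit 0) (nat_lit 8137976757) (nat_lit 252) (nat_lit 6370528387) (nat_lit 336) (nat_lit 224975537) (nat_lit 20) (nat_lit 5) (nat_lit 23) (nat_lit 5) (nat_lit 24) (nat_lit 5) (nat_lit 358) (nat_lit 291) (nat_lit 239))))) (XT.nd (nat_lit 376) (nat_lit 168) (nat_lit 0) (XT.nd (nat_lit 188) (nat_lit 0) (nat_lit 0) (XT.nd (nat_lit 94) (nat_lit 168) (nat_lit 0) (XT.lf (nat_lit 0) (nat_lit 1328822663) (nat_lit 336) (nat_lit 2894908548) (nat_lit 84) (nat_lit 10861773808) (nat_lit 19) (nat_lit 5) (nat_lit 23) (nat_lit 5) (nat_lit 20) (nat_lit 5) (nat_lit 359) (nat_lit 291) (nat_lit 238)) (XT.lf (nat_lit 0) (nat_lit 902965974) (nat_lit 168) (nat_lit 2006963598)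 (nat_lit 252) (nat_lit 12539079212) (nat_lit 17) (nat_lit 5) (nat_lit 19) (nat_lit 5) (nat_lit 20) (nat_lit 5) (nat_lit 360) (nat_lit 291) (nat_lit 237))) (XT.nd (nat_lit 94) (nat_lit 0) (nat_lit 0) (XT.lf (nat_lit 0) (nat_lit 4548543018) (nat_lit 252) (nat_lit 10979781145) (nat_lit 84) (nat_lit 295325887) (nat_lit 17) (nat_lit 5) (nat_lit 20) (nat_lit 5) (nat_lit 18) (nat_lit 5) (nat_lit 361) (nat_lit 291) (nat_lit 236)) (XT.lf (nat_lit 0) (nat_lit 6234428858) (nat_lit 252) (nat_lit 7356285108) (nat_lit 84) (nat_lit 2619428665) (nat_lit 17) (nat_lit 5) (nat_lit 20) (nat_lit 5) (nat_lit 18) (nat_lit 5) (nat_lit 362) (nat_lit 291) (nat_lit 235)))) (XT.nd (nat_lit 188) (nat_lit 0) (nat_lit 0) (XT.nd (nat_lit 94) (nat_lit 168) (nat_lit 0) (XT.lf (nat_lit 0) (nat_lit 7949249188) (nat_lit 252) (nat_lit 3652267893) (nat_lit 84) (nat_lit 5007946886) (nat_lit 17) (nat_lit 5) (nat_lit 20) (nat_lit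 5) (nat_lit 18) (nat_lit 5) (nat_lit 363) (nat_lit 291) (nat_lit 234)) (XT.lf (nat_lit 0) (nat_lit 138513773) (nat_lit 168) (nat_lit 9557462700) (nat_lit 252) (nat_lit 7325967199) (nat_lit 15) (nat_lit 5) (nat_lit 17) (nat_lit 5) (nat_lit 18) (nat_lit 5) (nat_lit 364) (nat_lit 291) (nat_lit 233))) (XT.nd (nat_lit 94) (nat_lit 0) (nat_lit 0) (XT.lf (nat_lit 0) (nat_lit 4093697344) (nat_lit 168) (nat_lit 7419027985) (nat_lit 252) (nat_lit 5934109809) (nat_lit 15) (nat_lit 5) (nat_lit 17) (nat_lit 5) (nat_lit 18) (nat_lit 5) (nat_lit 365) (nat_lit 291) (nat_lit 232)) (XT.nd (nat_lit 94) (nat_lit 0) (nat_lit 0) (XT.lf (nat_lit 0) (nat_lit 8141871347) (nat_lit 168) (nat_lit 5222341877) (nat_lit 252) (nat_lit 4521467439) (nat_lit 15) (nat_lit 5) (nat_lit 17) (nat_lit 5) (nat_lit 18) (nat_lit 5) (nat_lit 366) (nat_lit 291) (nat_lit 231)) (XT.lf (nat_lit 0) (nat_lit 12286809103) (nat_lit 168) (nat_lit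 2965356835) (nat_lit 252) (nat_lit 3086723359) (nat_lit 15) (nat_lit 5) (nat_lit 17) (nat_lit 5) (nat_lit 18) (nat_lit 5) (nat_lit 367) (nat_lit 291) (nat_lit 230))))))) (XT.nd (nat_lit 49726) (nat_lit 0) (nat_lit 9744) (XT.nd (nat_lit 376) (nat_lit 168) (nat_lit 0) (XT.nd (nat_lit 188) (nat_lit 84) (nat_lit 0) (XT.nd (nat_lit 94) (nat_lit 168) (nat_lit 0) (XT.lf (nat_lit 0) (nat_lit 16532374129) (nat_lit 168) (nat_lit 645969113) (nat_lit 252) (nat_lit 1628540236) (nat_lit 15) (nat_lit 5) (nat_lit 17) (nat_lit 5) (nat_lit 18) (nat_lit 5) (nat_lit 368) (nat_lit 291) (nat_lit 229)) (XT.lf (nat_lit 0) (nat_lit 1607572300) (nat_lit 168) (nat_lit 17570156558) (nat_lit 252) (nat_lit 111341729) (nat_lit 13) (nat_lit 5) (nat_lit 15) (nat_lit 5) (nat_lit 16) (nat_lit 4) (nat_lit 369) (nat_lit 291) (nat_lit 228))) (XT.nd (nat_lit 94) (nat_lit 0) (nat_lit 0) (XT.lf (nat_lit 0) (nat_lit 1434469274)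 (nat_lit 252) (nat_lit 14176407275) (nat_lit 84) (nat_lit 4174643122) (nat_lit 12) (nat_lit 5) (nat_lit 15) (nat_lit 5) (nat_lit 13) (nat_lit 5) (nat_lit 370) (nat_lit 291) (nat_lit 227)) (XT.lf (nat_lit 0) (nat_lit 3006742162) (nat_lit 252) (nat_lit 10590850774) (nat_lit 84) (nat_lit 6700418397) (nat_lit 12) (nat_lit 5) (nat_lit 15) (nat_lit 5) (nat_lit 13) (nat_lit 5) (nat_lit 371) (nat_lit 291) (nat_lit 226)))) (XT.nd (nat_lit 188) (nat_lit 168) (nat_lit 0) (XT.nd (nat_lit 94) (nat_lit 0) (nat_lit 0) (XT.lf (nat_lit 0) (nat_lit 4609185744) (nat_lit 252) (nat_lit 6920382148) (nat_lit 84) (nat_lit 9297489618) (nat_lit 12) (nat_lit 5) (nat_lit 15) (nat_lit 5) (nat_lit 13) (nat_lit 5) (nat_lit 372) (nat_lit 291) (nat_lit 225)) (XT.lf (nat_lit 0) (nat_lit 6243293666) (nat_lit 252) (nat_lit 3161580135) (nat_lit 84) (nat_lit 11968277528) (nat_lit 12) (nat_lit 5) (nat_lit 15) (nat_lit 5) (nat_lit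 13) (nat_lit 5) (nat_lit 373) (nat_lit 291) (nat_lit 224))) (XT.nd (nat_lit 94) (nat_lit 0) (nat_lit 0) (XT.lf (nat_lit 0) (nat_lit 703227324) (nat_lit 168) (nat_lit 7214337864) (nat_lit 252) (nat_lit 14019020359) (nat_lit 10) (nat_lit 5) (nat_lit 12) (nat_lit 5) (nat_lit 13) (nat_lit 5) (nat_lit 374) (nat_lit 291) (nat_lit 223)) (XT.lf (nat_lit 0) (nat_lit 4730431698) (nat_lit 168) (nat_lit 4929120872) (nat_lit 252) (nat_lit 12857527034) (nat_lit 10) (nat_lit 5) (nat_lit 12) (nat_lit 5) (nat_lit 13) (nat_lit 5) (nat_lit 375) (nat_lit 291) (nat_lit 222))))) (XT.nd (nat_lit 376) (nat_lit 1092) (nat_lit 0) (XT.nd (nat_lit 188) (nat_lit 420) (nat_lit 0) (XT.nd (nat_lit 94) (nat_lit 0) (nat_lit 0) (XT.lf (nat_lit 0) (nat_lit 161552754) (nat_lit 252) (nat_lit 1551299049) (nat_lit 252) (nat_lit 1551299049) (nat_lit 144) (nat_lit 4) (nat_lit 147) (nat_lit 5) (nat_lit 147) (nat_lit 4) (nat_lit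 304) (nat_lit 292) (nat_lit 292)) (XT.lf (nat_lit 0) (nat_lit 3024294879) (nat_lit 252) (nat_lit 2712239306) (nat_lit 252) (nat_lit 815483663) (nat_lit 144) (nat_lit 4) (nat_lit 147) (nat_lit 5) (nat_lit 147) (nat_lit 4) (nat_lit 305) (nat_lit 292) (nat_lit 291))) (XT.nd (nat_lit 94) (nat_lit 336) (nat_lit 0) (XT.lf (nat_lit 0) (nat_lit 1426663073) (nat_lit 336) (nat_lit 838927134) (nat_lit 84) (nat_lit 4313994410) (nat_lit 143) (nat_lit 5) (nat_lit 147) (nat_lit 5) (nat_lit 144) (nat_lit 4) (nat_lit 306) (nat_lit 292) (nat_lit 290)) (XT.lf (nat_lit 0) (nat_lit 1908654193) (nat_lit 336) (nat_lit 1749416505) (nat_lit 420) (nat_lit 2952571603) (nat_lit 139) (nat_lit 5) (nat_lit 143) (nat_lit 5) (nat_lit 144) (nat_lit 4) (nat_lit 307) (nat_lit 292) (nat_lit 289)))) (XT.nd (nat_lit 188) (nat_lit 588) (nat_lit 0) (XT.nd (nat_lit 94) (nat_lit 504) (nat_lit 0) (XT.lf (nat_lit 0) (nat_lit 4705067135)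 (nat_lit 336) (nat_lit 1182037104) (nat_lit 420) (nat_lit 758680886) (nat_lit 139) (nat_lit 5) (nat_lit 143) (nat_lit 5) (nat_lit 144) (nat_lit 4) (nat_lit 308) (nat_lit 292) (nat_lit 288)) (XT.lf (nat_lit 0) (nat_lit 853447295) (nat_lit 420) (nat_lit 548406956) (nat_lit 504) (nat_lit 5282755124) (nat_lit 133) (nat_lit 5) (nat_lit 138) (nat_lit 5) (nat_lit 139) (nat_lit 5) (nat_lit 309) (nat_lit 292) (nat_lit 287))) (XT.nd (nat_lit 94) (nat_lit 588) (nat_lit 0) (XT.lf (nat_lit 0) (nat_lit 3557647620) (nat_lit 504) (nat_lit 3015537243) (nat_lit 84) (nat_lit 153771714) (nat_lit 133) (nat_lit 5) (nat_lit 139) (nat_lit 5) (nat_lit 134) (nat_lit 4) (nat_lit 310) (nat_lit 292) (nat_lit 286)) (XT.nd (nat_lit 94) (nat_lit 588) (nat_lit 0) (XT.lf (nat_lit 0) (nat_lit 5710745305) (nat_lit 504) (nat_lit 174391128) (nat_lit 84) (nat_lit 888435804) (nat_lit 133) (nat_lit 5) (nat_lit 139) (nat_lit 5)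 (nat_lit 134) (nat_lit 4) (nat_lit 311) (nat_lit 292) (nat_lit 285)) (XT.lf (nat_lit 0) (nat_lit 1039850315) (nat_lit 588) (nat_lit 4078458690) (nat_lit 84) (nat_lit 1705185593) (nat_lit 126) (nat_lit 5) (nat_lit 133) (nat_lit 5) (nat_lit 127) (nat_lit 5) (nat_lit 312) (nat_lit 292) (nat_lit 284))))))))
noncomputable def xc37 : XT := (XT.nd (nat_lit 1598) (nat_lit 2520) (nat_lit 0) (XT.nd (nat_lit 752) (nat_lit 3108) (nat_lit 0) (XT.nd (nat_lit 376) (nat_lit 840) (nat_lit 0) (XT.nd (nat_lit 188) (nat_lit 756) (nat_lit 0) (XT.nd (nat_lit 94) (nat_lit 588) (nat_lit 0) (XT.lf (nat_lit 0) (nat_lit 3114787114) (nat_lit 588) (nat_lit 1183274011) (nat_lit 84) (nat_lit 2579493035) (nat_lit 126) (nat_lit 5) (nat_lit 133) (nat_lit 5) (nat_lit 127) (nat_lit 5) (nat_lit 313) (nat_lit 292) (nat_lit 283)) (XT.lf (nat_lit 0) (nat_lit 1783136368) (nat_lit 588) (nat_lit 3418100071) (nat_lit 672) (nat_lit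 1734398656) (nat_lit 119) (nat_lit 5) (nat_lit 126) (nat_lit 5) (nat_lit 127) (nat_lit 5) (nat_lit 314) (nat_lit 292) (nat_lit 282))) (XT.nd (nat_lit 94) (nat_lit 672) (nat_lit 0) (XT.lf (nat_lit 0) (nat_lit 291844253) (nat_lit 672) (nat_lit 2188221486) (nat_lit 84) (nat_lit 4517799772) (nat_lit 118) (nat_lit 5) (nat_lit 126) (nat_lit 5) (nat_lit 119) (nat_lit 5) (nat_lit 315) (nat_lit 292) (nat_lit 281)) (XT.lf (nat_lit 0) (nat_lit 812246877) (nat_lit 672) (nat_lit 1472504952) (nat_lit 756) (nat_lit 4779233499) (nat_lit 110) (nat_lit 5) (nat_lit 118) (nat_lit 5) (nat_lit 119) (nat_lit 5) (nat_lit 316) (nat_lit 292) (nat_lit 280)))) (XT.nd (nat_lit 188) (nat_lit 840) (nat_lit 0) (XT.nd (nat_lit 94) (nat_lit 0) (nat_lit 0) (XT.lf (nat_lit 0) (nat_lit 3898341307) (nat_lit 672) (nat_lit 397276380) (nat_lit 756) (nat_lit 2838522616) (nat_lit 110) (nat_lit 5) (nat_lit 118) (nat_lit 5) (nat_lit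 119) (nat_lit 5) (nat_lit 317) (nat_lit 292) (nat_lit 279)) (XT.lf (nat_lit 0) (nat_lit 6311342392) (nat_lit 756) (nat_lit 188318554) (nat_lit 84) (nat_lit 709199069) (nat_lit 110) (nat_lit 5) (nat_lit 119) (nat_lit 5) (nat_lit 111) (nat_lit 5) (nat_lit 318) (nat_lit 292) (nat_lit 278))) (XT.nd (nat_lit 94) (nat_lit 0) (nat_lit 0) (XT.lf (nat_lit 0) (nat_lit 1051337854) (nat_lit 840) (nat_lit 4342156681) (nat_lit 84) (nat_lit 1893566810) (nat_lit 100) (nat_lit 5) (nat_lit 110) (nat_lit 5) (nat_lit 101) (nat_lit 5) (nat_lit 319) (nat_lit 292) (nat_lit 277)) (XT.lf (nat_lit 0) (nat_lit 2981528783) (nat_lit 840) (nat_lit 1252121319) (nat_lit 84) (nat_lit 3136180645) (nat_lit 100) (nat_lit 5) (nat_lit 110) (nat_lit 5) (nat_lit 101) (nat_lit 5) (nat_lit 320) (nat_lit 292) (nat_lit 276))))) (XT.nd (nat_lit 376) (nat_lit 1260) (nat_lit 0) (XT.nd (nat_lit 188) (nat_lit 1008) (nat_lit 0) (XT.nd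 (nat_lit 94) (nat_lit 0) (nat_lit 0) (XT.lf (nat_lit 0) (nat_lit 1919472512) (nat_lit 840) (nat_lit 3010580121) (nat_lit 924) (nat_lit 2526938168) (nat_lit 90) (nat_lit 5) (nat_lit 100) (nat_lit 5) (nat_lit 101) (nat_lit 5) (nat_lit 321) (nat_lit 292) (nat_lit 275)) (XT.lf (nat_lit 0) (nat_lit 5163559970) (nat_lit 840) (nat_lit 1729246853) (nat_lit 924) (nat_lit 655999411) (nat_lit 90) (nat_lit 5) (nat_lit 100) (nat_lit 5) (nat_lit 101) (nat_lit 5) (nat_lit 322) (nat_lit 292) (nat_lit 274))) (XT.nd (nat_lit 94) (nat_lit 0) (nat_lit 0) (XT.lf (nat_lit 0) (nat_lit 816070112) (nat_lit 924) (nat_lit 380770997) (nat_lit 1008) (nat_lit 6448290446) (nat_lit 78) (nat_lit 5) (nat_lit 89) (nat_lit 5) (nat_lit 90) (nat_lit 5) (nat_lit 323) (nat_lit 292) (nat_lit 273)) (XT.lf (nat_lit 0) (nat_lit 3071411122) (nat_lit 1008) (nat_lit 3647720914) (nat_lit 84) (nat_lit 1026263813) (nat_lit 78) (nat_lit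 5) (nat_lit 90) (nat_lit 5) (nat_lit 79) (nat_lit 5) (nat_lit 324) (nat_lit 292) (nat_lit 272)))) (XT.nd (nat_lit 188) (nat_lit 588) (nat_lit 0) (XT.nd (nat_lit 94) (nat_lit 672) (nat_lit 0) (XT.lf (nat_lit 0) (nat_lit 4952460454) (nat_lit 1008) (nat_lit 424286214) (nat_lit 84) (nat_lit 2474084289) (nat_lit 78) (nat_lit 5) (nat_lit 90) (nat_lit 5) (nat_lit 79) (nat_lit 5) (nat_lit 325) (nat_lit 292) (nat_lit 271)) (XT.lf (nat_lit 0) (nat_lit 2906585757) (nat_lit 672) (nat_lit 3960213078) (nat_lit 756) (nat_lit 1093959569) (nat_lit 70) (nat_lit 5) (nat_lit 78) (nat_lit 5) (nat_lit 79) (nat_lit 5) (nat_lit 326) (nat_lit 292) (nat_lit 270))) (XT.nd (nat_lit 94) (nat_lit 504) (nat_lit 0) (XT.lf (nat_lit 0) (nat_lit 701716675) (nat_lit 756) (nat_lit 1783954313) (nat_lit 84) (nat_lit 5590134655) (nat_lit 69) (nat_lit 5) (nat_lit 78) (nat_lit 5) (nat_lit 70) (nat_lit 5) (nat_lit 327) (nat_lit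 292) (nat_lit 269)) (XT.nd (nat_lit 94) (nat_lit 0) (nat_lit 0) (XT.lf (nat_lit 0) (nat_lit 1557334858) (nat_lit 504) (nat_lit 936359257) (nat_lit 588) (nat_lit 5701923149) (nat_lit 63) (nat_lit 5) (nat_lit 69) (nat_lit 5) (nat_lit 70) (nat_lit 5) (nat_lit 328) (nat_lit 292) (nat_lit 268)) (XT.lf (nat_lit 0) (nat_lit 4315582201) (nat_lit 588) (nat_lit 3337261779) (nat_lit 84) (nat_lit 667490536) (nat_lit 63) (nat_lit 5) (nat_lit 70) (nat_lit 5) (nat_lit 64) (nat_lit 5) (nat_lit 329) (nat_lit 292) (nat_lit 267))))))) (XT.nd (nat_lit 752) (nat_lit 1176) (nat_lit 0) (XT.nd (nat_lit 376) (nat_lit 420) (nat_lit 0) (XT.nd (nat_lit 188) (nat_lit 504) (nat_lit 0) (XT.nd (nat_lit 94) (nat_lit 0) (nat_lit 0) (XT.lf (nat_lit 0) (nat_lit 6230532) (nat_lit 420) (nat_lit 6147881634) (nat_lit 504) (nat_lit 2296425457) (nat_lit 58) (nat_lit 5) (nat_lit 63) (nat_lit 5) (nat_lit 64) (nat_lit 5) (nat_lit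 330) (nat_lit 292) (nat_lit 266)) (XT.lf (nat_lit 0) (nat_lit 3474220911) (nat_lit 420) (nat_lit 4561767225) (nat_lit 504) (nat_lit 549585109) (nat_lit 58) (nat_lit 5) (nat_lit 63) (nat_lit 5) (nat_lit 64) (nat_lit 5) (nat_lit 331) (nat_lit 292) (nat_lit 265))) (XT.nd (nat_lit 94) (nat_lit 420) (nat_lit 0) (XT.lf (nat_lit 0) (nat_lit 1178333836) (nat_lit 504) (nat_lit 1737223272) (nat_lit 84) (nat_lit 5810687716) (nat_lit 57) (nat_lit 5) (nat_lit 63) (nat_lit 5) (nat_lit 58) (nat_lit 5) (nat_lit 332) (nat_lit 292) (nat_lit 264)) (XT.lf (nat_lit 0) (nat_lit 1722346466) (nat_lit 420) (nat_lit 1196720194) (nat_lit 504) (nat_lit 5953286175) (nat_lit 52) (nat_lit 5) (nat_lit 57) (nat_lit 5) (nat_lit 58) (nat_lit 5) (nat_lit 333) (nat_lit 292) (nat_lit 263)))) (XT.nd (nat_lit 188) (nat_lit 420) (nat_lit 0) (XT.nd (nat_lit 94) (nat_lit 0) (nat_lit 0) (XT.lf (nat_lit 0) (nat_lit 4692267220) (nat_lit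 504) (nat_lit 3751798304) (nat_lit 84) (nat_lit 579921239) (nat_lit 52) (nat_lit 5) (nat_lit 58) (nat_lit 5) (nat_lit 53) (nat_lit 5) (nat_lit 334) (nat_lit 292) (nat_lit 262)) (XT.lf (nat_lit 0) (nat_lit 6488523832) (nat_lit 504) (nat_lit 308465848) (nat_lit 84) (nat_lit 2384641270) (nat_lit 52) (nat_lit 5) (nat_lit 58) (nat_lit 5) (nat_lit 53) (nat_lit 5) (nat_lit 335) (nat_lit 292) (nat_lit 261))) (XT.nd (nat_lit 94) (nat_lit 84) (nat_lit 0) (XT.lf (nat_lit 0) (nat_lit 3260769394) (nat_lit 336) (nat_lit 5069217023) (nat_lit 420) (nat_lit 1014811172) (nat_lit 48) (nat_lit 5) (nat_lit 52) (nat_lit 5) (nat_lit 53) (nat_lit 5) (nat_lit 336) (nat_lit 292) (nat_lit 260)) (XT.lf (nat_lit 0) (nat_lit 661629359) (nat_lit 420) (nat_lit 2620100501) (nat_lit 84) (nat_lit 6232588227) (nat_lit 47) (nat_lit 5) (nat_lit 52) (nat_lit 5) (nat_lit 48) (nat_lit 5) (nat_lit 337) (nat_lit 292) (nat_lit 259)))))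 (XT.nd (nat_lit 376) (nat_lit 420) (nat_lit 0) (XT.nd (nat_lit 188) (nat_lit 336) (nat_lit 0) (XT.nd (nat_lit 94) (nat_lit 0) (nat_lit 0) (XT.lf (nat_lit 0) (nat_lit 913416181) (nat_lit 420) (nat_lit 1423169734) (nat_lit 504) (nat_lit 7353473113) (nat_lit 42) (nat_lit 5) (nat_lit 47) (nat_lit 5) (nat_lit 48) (nat_lit 5) (nat_lit 338) (nat_lit 292) (nat_lit 258)) (XT.lf (nat_lit 0) (nat_lit 4055299355) (nat_lit 504) (nat_lit 5310394966) (nat_lit 84) (nat_lit 506081741) (nat_lit 42) (nat_lit 5) (nat_lit 48) (nat_lit 5) (nat_lit 43) (nat_lit 5) (nat_lit 339) (nat_lit 292) (nat_lit 257))) (XT.nd (nat_lit 94) (nat_lit 336) (nat_lit 0) (XT.lf (nat_lit 0) (nat_lit 5802386286) (nat_lit 504) (nat_lit 1796681742) (nat_lit 84) (nat_lit 2461097088) (nat_lit 42) (nat_lit 5) (nat_lit 48) (nat_lit 5) (nat_lit 43) (nat_lit 5) (nat_lit 340) (nat_lit 292) (nat_lit 256)) (XT.lf (nat_lit 0) (nat_lit 1818529304)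 (nat_lit 336) (nat_lit 5764867888) (nat_lit 420) (nat_lit 2671883012) (nat_lit 38) (nat_lit 5) (nat_lit 42) (nat_lit 5) (nat_lit 43) (nat_lit 5) (nat_lit 341) (nat_lit 292) (nat_lit 255)))) (XT.nd (nat_lit 188) (nat_lit 336) (nat_lit 0) (XT.nd (nat_lit 94) (nat_lit 84) (nat_lit 0) (XT.lf (nat_lit 0) (nat_lit 5540280138) (nat_lit 336) (nat_lit 3860535367) (nat_lit 420) (nat_lit 1056462168) (nat_lit 38) (nat_lit 5) (nat_lit 42) (nat_lit 5) (nat_lit 43) (nat_lit 5) (nat_lit 342) (nat_lit 292) (nat_lit 254)) (XT.lf (nat_lit 0) (nat_lit 559726643) (nat_lit 420) (nat_lit 1337480060) (nat_lit 84) (nat_lit 8769527316) (nat_lit 37) (nat_lit 5) (nat_lit 42) (nat_lit 5) (nat_lit 38) (nat_lit 5) (nat_lit 343) (nat_lit 292) (nat_lit 253))) (XT.nd (nat_lit 94) (nat_lit 0) (nat_lit 0) (XT.lf (nat_lit 0) (nat_lit 2192981934) (nat_lit 420) (nat_lit 8537027734) (nat_lit 84) (nat_lit 152911613) (nat_lit 33)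 (nat_lit 5) (nat_lit 38) (nat_lit 5) (nat_lit 34) (nat_lit 5) (nat_lit 344) (nat_lit 292) (nat_lit 252)) (XT.nd (nat_lit 94) (nat_lit 0) (nat_lit 0) (XT.lf (nat_lit 0) (nat_lit 3875054814) (nat_lit 420) (nat_lit 4995950173) (nat_lit 84) (nat_lit 2235083623) (nat_lit 33) (nat_lit 5) (nat_lit 38) (nat_lit 5) (nat_lit 34) (nat_lit 5) (nat_lit 345) (nat_lit 292) (nat_lit 251)) (XT.lf (nat_lit 0) (nat_lit 5575013351) (nat_lit 420) (nat_lit 1386642824) (nat_lit 84) (nat_lit 4375795342) (nat_lit 33) (nat_lit 5) (nat_lit 38) (nat_lit 5) (nat_lit 34) (nat_lit 5) (nat_lit 346) (nat_lit 292) (nat_lit 250))))))))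
noncomputable def xc38 : XT := (XT.nd (nat_lit 1598) (nat_lit 588) (nat_lit 0) (XT.nd (nat_lit 752) (nat_lit 504) (nat_lit 0) (XT.nd (nat_lit 376) (nat_lit 252) (nat_lit 0) (XT.nd (nat_lit 188) (nat_lit 336) (nat_lit 0) (XT.nd (nat_lit 94) (nat_lit 0) (nat_lit 0) (XT.lf (nat_lit 0) (nat_lit 2341433227) (nat_lit 252) (nat_lit 4976236164) (nat_lit 336) (nat_lit 4258836216) (nat_lit 30) (nat_lit 5) (nat_lit 33) (nat_lit 5) (nat_lit 34) (nat_lit 5) (nat_lit 347) (nat_lit 292) (nat_lit 249)) (XT.lf (nat_lit 0) (nat_lit 6174589194) (nat_lit 252) (nat_lit 2921607195) (nat_lit 336) (nat_lit 2727539293) (nat_lit 30) (nat_lit 5) (nat_lit 33) (nat_lit 5) (nat_lit 34) (nat_lit 5) (nat_lit 348) (nat_lit 292) (nat_lit 248))) (XT.nd (nat_lit 94) (nat_lit 336) (nat_lit 0) (XT.lf (nat_lit 0) (nat_lit 10087885760) (nat_lit 252) (nat_lit 810327846) (nat_lit 336) (nat_lit 1181593774) (nat_lit 30) (nat_lit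 5) (nat_lit 33) (nat_lit 5) (nat_lit 34) (nat_lit 5) (nat_lit 349) (nat_lit 292) (nat_lit 247)) (XT.lf (nat_lit 0) (nat_lit 404059598) (nat_lit 336) (nat_lit 10586065255) (nat_lit 84) (nat_lit 1353747758) (nat_lit 26) (nat_lit 5) (nat_lit 30) (nat_lit 5) (nat_lit 27) (nat_lit 5) (nat_lit 350) (nat_lit 292) (nat_lit 246)))) (XT.nd (nat_lit 188) (nat_lit 252) (nat_lit 0) (XT.nd (nat_lit 94) (nat_lit 0) (nat_lit 0) (XT.lf (nat_lit 0) (nat_lit 2012910998) (nat_lit 336) (nat_lit 7009077235) (nat_lit 84) (nat_lit 3593984116) (nat_lit 26) (nat_lit 5) (nat_lit 30) (nat_lit 5) (nat_lit 27) (nat_lit 5) (nat_lit 351) (nat_lit 292) (nat_lit 245)) (XT.lf (nat_lit 0) (nat_lit 3641855299) (nat_lit 336) (nat_lit 3359047606) (nat_lit 84) (nat_lit 5896701433) (nat_lit 26) (nat_lit 5) (nat_lit 30) (nat_lit 5) (nat_lit 27) (nat_lit 5) (nat_lit 352) (nat_lit 292) (nat_lit 244))) (XT.nd (nat_lit 94) (nat_lit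 0) (nat_lit 0) (XT.lf (nat_lit 0) (nat_lit 374980870) (nat_lit 252) (nat_lit 4921149834) (nat_lit 336) (nat_lit 7892785068) (nat_lit 23) (nat_lit 5) (nat_lit 26) (nat_lit 5) (nat_lit 27) (nat_lit 5) (nat_lit 353) (nat_lit 292) (nat_lit 243)) (XT.lf (nat_lit 0) (nat_lit 4259638802) (nat_lit 252) (nat_lit 2748733477) (nat_lit 336) (nat_lit 6480842019) (nat_lit 23) (nat_lit 5) (nat_lit 26) (nat_lit 5) (nat_lit 27) (nat_lit 5) (nat_lit 354) (nat_lit 292) (nat_lit 242))))) (XT.nd (nat_lit 376) (nat_lit 252) (nat_lit 0) (XT.nd (nat_lit 188) (nat_lit 252) (nat_lit 0) (XT.nd (nat_lit 94) (nat_lit 0) (nat_lit 0) (XT.lf (nat_lit 0) (nat_lit 8229478189) (nat_lit 252) (nat_lit 516690483) (nat_lit 336) (nat_lit 5053665381) (nat_lit 23) (nat_lit 5) (nat_lit 26) (nat_lit 5) (nat_lit 27) (nat_lit 5) (nat_lit 355) (nat_lit 292) (nat_lit 241)) (XT.lf (nat_lit 0) (nat_lit 10528768343) (nat_lit 336) (nat_lit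 1850493882) (nat_lit 84) (nat_lit 1741255853) (nat_lit 23) (nat_lit 5) (nat_lit 27) (nat_lit 5) (nat_lit 24) (nat_lit 5) (nat_lit 356) (nat_lit 292) (nat_lit 240))) (XT.nd (nat_lit 94) (nat_lit 0) (nat_lit 0) (XT.lf (nat_lit 0) (nat_lit 1985364519) (nat_lit 252) (nat_lit 10380277305) (nat_lit 336) (nat_lit 2085681384) (nat_lit 20) (nat_lit 5) (nat_lit 23) (nat_lit 5) (nat_lit 24) (nat_lit 5) (nat_lit 357) (nat_lit 292) (nat_lit 239)) (XT.lf (nat_lit 0) (nat_lit 5945673164) (nat_lit 252) (nat_lit 8307580748) (nat_lit 336) (nat_lit 539466542) (nat_lit 20) (nat_lit 5) (nat_lit 23) (nat_lit 5) (nat_lit 24) (nat_lit 5) (nat_lit 358) (nat_lit 292) (nat_lit 238)))) (XT.nd (nat_lit 188) (nat_lit 168) (nat_lit 0) (XT.nd (nat_lit 94) (nat_lit 0) (nat_lit 0) (XT.lf (nat_lit 0) (nat_lit 1008288187) (nat_lit 336) (nat_lit 5159743298) (nat_lit 84) (nat_lit 8977260875) (nat_lit 19) (nat_lit 5) (nat_lit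 23) (nat_lit 5) (nat_lit 20) (nat_lit 5) (nat_lit 359) (nat_lit 292) (nat_lit 237)) (XT.lf (nat_lit 0) (nat_lit 2568430032) (nat_lit 336) (nat_lit 1395979250) (nat_lit 84) (nat_lit 11545101823) (nat_lit 19) (nat_lit 5) (nat_lit 23) (nat_lit 5) (nat_lit 20) (nat_lit 5) (nat_lit 360) (nat_lit 292) (nat_lit 236))) (XT.nd (nat_lit 94) (nat_lit 0) (nat_lit 0) (XT.lf (nat_lit 0) (nat_lit 2503545510) (nat_lit 168) (nat_lit 1674572226) (nat_lit 252) (nat_lit 11706994442) (nat_lit 17) (nat_lit 5) (nat_lit 19) (nat_lit 5) (nat_lit 20) (nat_lit 5) (nat_lit 361) (nat_lit 292) (nat_lit 235)) (XT.nd (nat_lit 94) (nat_lit 0) (nat_lit 0) (XT.lf (nat_lit 0) (nat_lit 5835905659) (nat_lit 252) (nat_lit 9757119524) (nat_lit 84) (nat_lit 679511821) (nat_lit 17) (nat_lit 5) (nat_lit 20) (nat_lit 5) (nat_lit 18) (nat_lit 5) (nat_lit 362) (nat_lit 292) (nat_lit 234)) (XT.lf (nat_lit 0) (nat_lit 7539585394) (nat_lit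 252) (nat_lit 6068292278) (nat_lit 84) (nat_lit 3064385397) (nat_lit 17) (nat_lit 5) (nat_lit 20) (nat_lit 5) (nat_lit 18) (nat_lit 5) (nat_lit 363) (nat_lit 292) (nat_lit 233))))))) (XT.nd (nat_lit 752) (nat_lit 168) (nat_lit 0) (XT.nd (nat_lit 376) (nat_lit 252) (nat_lit 0) (XT.nd (nat_lit 188) (nat_lit 0) (nat_lit 0) (XT.nd (nat_lit 94) (nat_lit 168) (nat_lit 0) (XT.lf (nat_lit 0) (nat_lit 9274132985) (nat_lit 252) (nat_lit 2295034592) (nat_lit 84) (nat_lit 5516010352) (nat_lit 17) (nat_lit 5) (nat_lit 20) (nat_lit 5) (nat_lit 18) (nat_lit 5) (nat_lit 364) (nat_lit 292) (nat_lit 232)) (XT.lf (nat_lit 0) (nat_lit 1598374284) (nat_lit 168) (nat_lit 9458646998) (nat_lit 252) (nat_lit 6454153644) (nat_lit 15) (nat_lit 5) (nat_lit 17) (nat_lit 5) (nat_lit 18) (nat_lit 5) (nat_lit 365) (nat_lit 292) (nat_lit 231))) (XT.nd (nat_lit 94) (nat_lit 0) (nat_lit 0) (XT.lf (nat_lit 0) (nat_lit 5632402723)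 (nat_lit 168) (nat_lit 7265800544) (nat_lit 252) (nat_lit 5052190842) (nat_lit 15) (nat_lit 5) (nat_lit 17) (nat_lit 5) (nat_lit 18) (nat_lit 5) (nat_lit 366) (nat_lit 292) (nat_lit 230)) (XT.lf (nat_lit 0) (nat_lit 9763620242) (nat_lit 168) (nat_lit 5012539704) (nat_lit 252) (nat_lit 3627805218) (nat_lit 15) (nat_lit 5) (nat_lit 17) (nat_lit 5) (nat_lit 18) (nat_lit 5) (nat_lit 367) (nat_lit 292) (nat_lit 229)))) (XT.nd (nat_lit 188) (nat_lit 252) (nat_lit 0) (XT.nd (nat_lit 94) (nat_lit 0) (nat_lit 0) (XT.lf (nat_lit 0) (nat_lit 13995877570) (nat_lit 168) (nat_lit 2696764206) (nat_lit 252) (nat_lit 2179669094) (nat_lit 15) (nat_lit 5) (nat_lit 17) (nat_lit 5) (nat_lit 18) (nat_lit 5) (nat_lit 368) (nat_lit 292) (nat_lit 228)) (XT.lf (nat_lit 0) (nat_lit 18333119613) (nat_lit 168) (nat_lit 316315502) (nat_lit 252) (nat_lit 706432657) (nat_lit 15) (nat_lit 5) (nat_lit 17) (nat_lit 5) (nat_lit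 18) (nat_lit 5) (nat_lit 369) (nat_lit 292) (nat_lit 227))) (XT.nd (nat_lit 94) (nat_lit 0) (nat_lit 0) (XT.lf (nat_lit 0) (nat_lit 828343304) (nat_lit 252) (nat_lit 16899048861) (nat_lit 84) (nat_lit 2125867969) (nat_lit 12) (nat_lit 5) (nat_lit 15) (nat_lit 5) (nat_lit 13) (nat_lit 5) (nat_lit 370) (nat_lit 292) (nat_lit 226)) (XT.lf (nat_lit 0) (nat_lit 2391473028) (nat_lit 252) (nat_lit 13326412166) (nat_lit 84) (nat_lit 4648195146) (nat_lit 12) (nat_lit 5) (nat_lit 15) (nat_lit 5) (nat_lit 13) (nat_lit 5) (nat_lit 371) (nat_lit 292) (nat_lit 225))))) (XT.nd (nat_lit 49162) (nat_lit 0) (nat_lit 11172) (XT.nd (nat_lit 188) (nat_lit 168) (nat_lit 0) (XT.nd (nat_lit 94) (nat_lit 0) (nat_lit 0) (XT.lf (nat_lit 0) (nat_lit 3985048362) (nat_lit 252) (nat_lit 9668474874) (nat_lit 84) (nat_lit 7241921947) (nat_lit 12) (nat_lit 5) (nat_lit 15) (nat_lit 5) (nat_lit 13) (nat_lit 5) (nat_lit 372)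 (nat_lit 292) (nat_lit 224)) (XT.lf (nat_lit 0) (nat_lit 5610554686) (nat_lit 252) (nat_lit 5921827405) (nat_lit 84) (nat_lit 9909465996) (nat_lit 12) (nat_lit 5) (nat_lit 15) (nat_lit 5) (nat_lit 13) (nat_lit 5) (nat_lit 373) (nat_lit 292) (nat_lit 223))) (XT.nd (nat_lit 94) (nat_lit 168) (nat_lit 0) (XT.lf (nat_lit 0) (nat_lit 7269507141) (nat_lit 252) (nat_lit 2082977490) (nat_lit 84) (nat_lit 12653313724) (nat_lit 12) (nat_lit 5) (nat_lit 15) (nat_lit 5) (nat_lit 13) (nat_lit 5) (nat_lit 374) (nat_lit 292) (nat_lit 222)) (XT.lf (nat_lit 0) (nat_lit 1889726865) (nat_lit 168) (nat_lit 7092471504) (nat_lit 252) (nat_lit 13605042144) (nat_lit 10) (nat_lit 5) (nat_lit 12) (nat_lit 5) (nat_lit 13) (nat_lit 5) (nat_lit 375) (nat_lit 292) (nat_lit 221)))) (XT.nd (nat_lit 188) (nat_lit 336) (nat_lit 0) (XT.nd (nat_lit 94) (nat_lit 0) (nat_lit 0) (XT.lf (nat_lit 0) (nat_lit 404851862) (nat_lit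 252) (nat_lit 2435439559) (nat_lit 0) (nat_lit 404851862) (nat_lit 147) (nat_lit 5) (nat_lit 150) (nat_lit 4) (nat_lit 147) (nat_lit 4) (nat_lit 302) (nat_lit 293) (nat_lit 293)) (XT.lf (nat_lit 0) (nat_lit 3080257583) (nat_lit 252) (nat_lit 2303178900) (nat_lit 0) (nat_lit 1124702514) (nat_lit 147) (nat_lit 5) (nat_lit 150) (nat_lit 4) (nat_lit 147) (nat_lit 4) (nat_lit 303) (nat_lit 293) (nat_lit 292))) (XT.nd (nat_lit 94) (nat_lit 84) (nat_lit 0) (XT.lf (nat_lit 0) (nat_lit 295859798) (nat_lit 252) (nat_lit 5043280703) (nat_lit 252) (nat_lit 1190969991) (nat_lit 144) (nat_lit 4) (nat_lit 147) (nat_lit 5) (nat_lit 147) (nat_lit 4) (nat_lit 304) (nat_lit 293) (nat_lit 291)) (XT.nd (nat_lit 94) (nat_lit 0) (nat_lit 0) (XT.lf (nat_lit 0) (nat_lit 1032311828) (nat_lit 336) (nat_lit 3595409582) (nat_lit 84) (nat_lit 1927535633) (nat_lit 143) (nat_lit 5) (nat_lit 147) (nat_lit 5) (nat_lit 144)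 (nat_lit 4) (nat_lit 305) (nat_lit 293) (nat_lit 290)) (XT.lf (nat_lit 0) (nat_lit 3217535904) (nat_lit 336) (nat_lit 941627043) (nat_lit 84) (nat_lit 2425124440) (nat_lit 143) (nat_lit 5) (nat_lit 147) (nat_lit 5) (nat_lit 144) (nat_lit 4) (nat_lit 306) (nat_lit 293) (nat_lit 289))))))))
noncomputable def xc39 : XT := (XT.nd (nat_lit 1598) (nat_lit 3360) (nat_lit 0) (XT.nd (nat_lit 752) (nat_lit 3444) (nat_lit 0) (XT.nd (nat_lit 376) (nat_lit 1176) (nat_lit 0) (XT.nd (nat_lit 188) (nat_lit 420) (nat_lit 0) (XT.nd (nat_lit 94) (nat_lit 84) (nat_lit 0) (XT.lf (nat_lit 0) (nat_lit 1777191543) (nat_lit 336) (nat_lit 3631172901) (nat_lit 420) (nat_lit 1208683862) (nat_lit 139) (nat_lit 5) (nat_lit 143) (nat_lit 5) (nat_lit 144) (nat_lit 4) (nat_lit 307) (nat_lit 293) (nat_lit 288)) (XT.lf (nat_lit 0) (nat_lit 926191227) (nat_lit 420) (nat_lit 2115433940) (nat_lit 84) (nat_lit 3611896041) (nat_lit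 138) (nat_lit 5) (nat_lit 143) (nat_lit 5) (nat_lit 139) (nat_lit 5) (nat_lit 308) (nat_lit 293) (nat_lit 287))) (XT.nd (nat_lit 94) (nat_lit 0) (nat_lit 0) (XT.lf (nat_lit 0) (nat_lit 640658042) (nat_lit 420) (nat_lit 2390683429) (nat_lit 504) (nat_lit 3662420062) (nat_lit 133) (nat_lit 5) (nat_lit 138) (nat_lit 5) (nat_lit 139) (nat_lit 5) (nat_lit 309) (nat_lit 293) (nat_lit 286)) (XT.lf (nat_lit 0) (nat_lit 3474241135) (nat_lit 420) (nat_lit 1674233000) (nat_lit 504) (nat_lit 1589227180) (nat_lit 133) (nat_lit 5) (nat_lit 138) (nat_lit 5) (nat_lit 139) (nat_lit 5) (nat_lit 310) (nat_lit 293) (nat_lit 285)))) (XT.nd (nat_lit 188) (nat_lit 588) (nat_lit 0) (XT.nd (nat_lit 94) (nat_lit 504) (nat_lit 0) (XT.lf (nat_lit 0) (nat_lit 462588537) (nat_lit 504) (nat_lit 446269851) (nat_lit 84) (nat_lit 5877041860) (nat_lit 132) (nat_lit 5) (nat_lit 138) (nat_lit 5) (nat_lit 133) (nat_lit 5) (nat_lit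 311) (nat_lit 293) (nat_lit 284)) (XT.lf (nat_lit 0) (nat_lit 2439260040) (nat_lit 504) (nat_lit 57578918) (nat_lit 588) (nat_lit 4340473822) (nat_lit 126) (nat_lit 5) (nat_lit 132) (nat_lit 5) (nat_lit 133) (nat_lit 5) (nat_lit 312) (nat_lit 293) (nat_lit 283))) (XT.nd (nat_lit 94) (nat_lit 588) (nat_lit 0) (XT.lf (nat_lit 0) (nat_lit 4536492875) (nat_lit 588) (nat_lit 1529106939) (nat_lit 84) (nat_lit 827215092) (nat_lit 126) (nat_lit 5) (nat_lit 133) (nat_lit 5) (nat_lit 127) (nat_lit 5) (nat_lit 313) (nat_lit 293) (nat_lit 282)) (XT.lf (nat_lit 0) (nat_lit 1403653766) (nat_lit 588) (nat_lit 5181855935) (nat_lit 672) (nat_lit 366884854) (nat_lit 119) (nat_lit 5) (nat_lit 126) (nat_lit 5) (nat_lit 127) (nat_lit 5) (nat_lit 314) (nat_lit 293) (nat_lit 281))))) (XT.nd (nat_lit 376) (nat_lit 2604) (nat_lit 0) (XT.nd (nat_lit 188) (nat_lit 84) (nat_lit 0) (XT.nd (nat_lit 94) (nat_lit 672)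 (nat_lit 0) (XT.lf (nat_lit 0) (nat_lit 1598236565) (nat_lit 672) (nat_lit 2624778650) (nat_lit 84) (nat_lit 2792548123) (nat_lit 118) (nat_lit 5) (nat_lit 126) (nat_lit 5) (nat_lit 119) (nat_lit 5) (nat_lit 315) (nat_lit 293) (nat_lit 280)) (XT.lf (nat_lit 0) (nat_lit 340234818) (nat_lit 672) (nat_lit 3213667123) (nat_lit 756) (nat_lit 3529244421) (nat_lit 110) (nat_lit 5) (nat_lit 118) (nat_lit 5) (nat_lit 119) (nat_lit 5) (nat_lit 316) (nat_lit 293) (nat_lit 279))) (XT.nd (nat_lit 94) (nat_lit 84) (nat_lit 0) (XT.lf (nat_lit 0) (nat_lit 3400647013) (nat_lit 672) (nat_lit 2132285237) (nat_lit 756) (nat_lit 1621655404) (nat_lit 110) (nat_lit 5) (nat_lit 118) (nat_lit 5) (nat_lit 119) (nat_lit 5) (nat_lit 317) (nat_lit 293) (nat_lit 278)) (XT.lf (nat_lit 0) (nat_lit 274183272) (nat_lit 756) (nat_lit 728213721) (nat_lit 84) (nat_lit 6228294542) (nat_lit 109) (nat_lit 5) (nat_lit 118) (nat_lit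 5) (nat_lit 110) (nat_lit 5) (nat_lit 318) (nat_lit 293) (nat_lit 277)))) (XT.nd (nat_lit 188) (nat_lit 1848) (nat_lit 0) (XT.nd (nat_lit 94) (nat_lit 0) (nat_lit 0) (XT.lf (nat_lit 0) (nat_lit 2158755751) (nat_lit 840) (nat_lit 4940914466) (nat_lit 84) (nat_lit 210652053) (nat_lit 100) (nat_lit 5) (nat_lit 110) (nat_lit 5) (nat_lit 101) (nat_lit 5) (nat_lit 319) (nat_lit 293) (nat_lit 276)) (XT.lf (nat_lit 0) (nat_lit 4059136536) (nat_lit 840) (nat_lit 1876928203) (nat_lit 84) (nat_lit 1458216044) (nat_lit 100) (nat_lit 5) (nat_lit 110) (nat_lit 5) (nat_lit 101) (nat_lit 5) (nat_lit 320) (nat_lit 293) (nat_lit 275))) (XT.nd (nat_lit 94) (nat_lit 1008) (nat_lit 0) (XT.lf (nat_lit 0) (nat_lit 1256032942) (nat_lit 840) (nat_lit 4716132225) (nat_lit 924) (nat_lit 1510633050) (nat_lit 90) (nat_lit 5) (nat_lit 100) (nat_lit 5) (nat_lit 101) (nat_lit 5) (nat_lit 321) (nat_lit 293) (nat_lit 274))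 (XT.nd (nat_lit 94) (nat_lit 924) (nat_lit 0) (XT.lf (nat_lit 0) (nat_lit 324220165) (nat_lit 924) (nat_lit 3103912120) (nat_lit 84) (nat_lit 4147505979) (nat_lit 89) (nat_lit 5) (nat_lit 100) (nat_lit 5) (nat_lit 90) (nat_lit 5) (nat_lit 322) (nat_lit 293) (nat_lit 273)) (XT.lf (nat_lit 0) (nat_lit 50402668) (nat_lit 924) (nat_lit 2077886134) (nat_lit 1008) (nat_lit 5544809786) (nat_lit 78) (nat_lit 5) (nat_lit 89) (nat_lit 5) (nat_lit 90) (nat_lit 5) (nat_lit 323) (nat_lit 293) (nat_lit 272))))))) (XT.nd (nat_lit 846) (nat_lit 1596) (nat_lit 0) (XT.nd (nat_lit 376) (nat_lit 1008) (nat_lit 0) (XT.nd (nat_lit 188) (nat_lit 756) (nat_lit 0) (XT.nd (nat_lit 94) (nat_lit 0) (nat_lit 0) (XT.lf (nat_lit 0) (nat_lit 3317905867) (nat_lit 924) (nat_lit 647198032) (nat_lit 1008) (nat_lit 3809656868) (nat_lit 78) (nat_lit 5) (nat_lit 89) (nat_lit 5) (nat_lit 90) (nat_lit 5) (nat_lit 324) (nat_lit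 293) (nat_lit 271)) (XT.lf (nat_lit 0) (nat_lit 5813215383) (nat_lit 1008) (nat_lit 1252135528) (nat_lit 84) (nat_lit 816086677) (nat_lit 78) (nat_lit 5) (nat_lit 90) (nat_lit 5) (nat_lit 79) (nat_lit 5) (nat_lit 325) (nat_lit 293) (nat_lit 270))) (XT.nd (nat_lit 94) (nat_lit 84) (nat_lit 0) (XT.lf (nat_lit 0) (nat_lit 2036833025) (nat_lit 672) (nat_lit 5656372448) (nat_lit 756) (nat_lit 299438367) (nat_lit 70) (nat_lit 5) (nat_lit 78) (nat_lit 5) (nat_lit 79) (nat_lit 5) (nat_lit 326) (nat_lit 293) (nat_lit 269)) (XT.lf (nat_lit 0) (nat_lit 1454582774) (nat_lit 756) (nat_lit 2718335936) (nat_lit 84) (nat_lit 3935524433) (nat_lit 69) (nat_lit 5) (nat_lit 78) (nat_lit 5) (nat_lit 70) (nat_lit 5) (nat_lit 327) (nat_lit 293) (nat_lit 268)))) (XT.nd (nat_lit 188) (nat_lit 504) (nat_lit 0) (XT.nd (nat_lit 94) (nat_lit 0) (nat_lit 0) (XT.lf (nat_lit 0) (nat_lit 579130427) (nat_lit 504) (nat_lit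 2632849764) (nat_lit 588) (nat_lit 5017541831) (nat_lit 63) (nat_lit 5) (nat_lit 69) (nat_lit 5) (nat_lit 70) (nat_lit 5) (nat_lit 328) (nat_lit 293) (nat_lit 267)) (XT.lf (nat_lit 0) (nat_lit 3987965506) (nat_lit 504) (nat_lit 1014780094) (nat_lit 588) (nat_lit 3352647883) (nat_lit 63) (nat_lit 5) (nat_lit 69) (nat_lit 5) (nat_lit 70) (nat_lit 5) (nat_lit 329) (nat_lit 293) (nat_lit 266))) (XT.nd (nat_lit 94) (nat_lit 504) (nat_lit 0) (XT.lf (nat_lit 0) (nat_lit 6807519445) (nat_lit 588) (nat_lit 1038067840) (nat_lit 84) (nat_lit 641239457) (nat_lit 63) (nat_lit 5) (nat_lit 70) (nat_lit 5) (nat_lit 64) (nat_lit 5) (nat_lit 330) (nat_lit 293) (nat_lit 265)) (XT.nd (nat_lit 94) (nat_lit 0) (nat_lit 0) (XT.lf (nat_lit 0) (nat_lit 31990481) (nat_lit 504) (nat_lit 6238659913) (nat_lit 84) (nat_lit 2352423672) (nat_lit 57) (nat_lit 5) (nat_lit 63) (nat_lit 5) (nat_lit 58) (nat_lit 5) (nat_lit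 331) (nat_lit 293) (nat_lit 264)) (XT.lf (nat_lit 0) (nat_lit 1725980124) (nat_lit 504) (nat_lit 2893733568) (nat_lit 84) (nat_lit 4144739124) (nat_lit 57) (nat_lit 5) (nat_lit 63) (nat_lit 5) (nat_lit 58) (nat_lit 5) (nat_lit 332) (nat_lit 293) (nat_lit 263)))))) (XT.nd (nat_lit 376) (nat_lit 840) (nat_lit 0) (XT.nd (nat_lit 188) (nat_lit 336) (nat_lit 0) (XT.nd (nat_lit 94) (nat_lit 0) (nat_lit 0) (XT.lf (nat_lit 0) (nat_lit 518545636) (nat_lit 420) (nat_lit 2914056314) (nat_lit 504) (nat_lit 5479178910) (nat_lit 52) (nat_lit 5) (nat_lit 57) (nat_lit 5) (nat_lit 58) (nat_lit 5) (nat_lit 333) (nat_lit 293) (nat_lit 262)) (XT.lf (nat_lit 0) (nat_lit 4051637413) (nat_lit 420) (nat_lit 1126565137) (nat_lit 504) (nat_lit 3886225541) (nat_lit 52) (nat_lit 5) (nat_lit 57) (nat_lit 5) (nat_lit 58) (nat_lit 5) (nat_lit 334) (nat_lit 293) (nat_lit 261))) (XT.nd (nat_lit 94) (nat_lit 336) (nat_lit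 0) (XT.lf (nat_lit 0) (nat_lit 6942197719) (nat_lit 504) (nat_lit 1581196273) (nat_lit 84) (nat_lit 699831354) (nat_lit 52) (nat_lit 5) (nat_lit 58) (nat_lit 5) (nat_lit 53) (nat_lit 5) (nat_lit 335) (nat_lit 293) (nat_lit 260)) (XT.lf (nat_lit 0) (nat_lit 1939187287) (nat_lit 336) (nat_lit 6810910985) (nat_lit 420) (nat_lit 637482499) (nat_lit 48) (nat_lit 5) (nat_lit 52) (nat_lit 5) (nat_lit 53) (nat_lit 5) (nat_lit 336) (nat_lit 293) (nat_lit 259)))) (XT.nd (nat_lit 188) (nat_lit 756) (nat_lit 0) (XT.nd (nat_lit 94) (nat_lit 0) (nat_lit 0) (XT.lf (nat_lit 0) (nat_lit 1010954510) (nat_lit 420) (nat_lit 4010767745) (nat_lit 84) (nat_lit 4536034989) (nat_lit 47) (nat_lit 5) (nat_lit 52) (nat_lit 5) (nat_lit 48) (nat_lit 5) (nat_lit 337) (nat_lit 293) (nat_lit 258)) (XT.lf (nat_lit 0) (nat_lit 2657062095) (nat_lit 420) (nat_lit 517534874) (nat_lit 84) (nat_lit 6559930913) (nat_lit 47) (nat_lit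 5) (nat_lit 52) (nat_lit 5) (nat_lit 48) (nat_lit 5) (nat_lit 338) (nat_lit 293) (nat_lit 257))) (XT.nd (nat_lit 94) (nat_lit 336) (nat_lit 0) (XT.lf (nat_lit 0) (nat_lit 3103411926) (nat_lit 420) (nat_lit 1242592755) (nat_lit 504) (nat_lit 5571294438) (nat_lit 42) (nat_lit 5) (nat_lit 47) (nat_lit 5) (nat_lit 48) (nat_lit 5) (nat_lit 339) (nat_lit 293) (nat_lit 256)) (XT.nd (nat_lit 94) (nat_lit 336) (nat_lit 0) (XT.lf (nat_lit 0) (nat_lit 6061919171) (nat_lit 504) (nat_lit 3309544292) (nat_lit 84) (nat_lit 735318416) (nat_lit 42) (nat_lit 5) (nat_lit 48) (nat_lit 5) (nat_lit 43) (nat_lit 5) (nat_lit 340) (nat_lit 293) (nat_lit 255)) (XT.lf (nat_lit 0) (nat_lit 253081864) (nat_lit 336) (nat_lit 7556039665) (nat_lit 420) (nat_lit 2493947034) (nat_lit 38) (nat_lit 5) (nat_lit 42) (nat_lit 5) (nat_lit 43) (nat_lit 5) (nat_lit 341) (nat_lit 293) (nat_lit 254))))))))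
noncomputable def xc40 : XT := (XT.nd (nat_lit 1598) (nat_lit 672) (nat_lit 0) (XT.nd (nat_lit 752) (nat_lit 840) (nat_lit 0) (XT.nd (nat_lit 376) (nat_lit 252) (nat_lit 0) (XT.nd (nat_lit 188) (nat_lit 336) (nat_lit 0) (XT.nd (nat_lit 94) (nat_lit 84) (nat_lit 0) (XT.lf (nat_lit 0) (nat_lit 3954001142) (nat_lit 336) (nat_lit 5654602547) (nat_lit 420) (nat_lit 897138179) (nat_lit 38) (nat_lit 5) (nat_lit 42) (nat_lit 5) (nat_lit 43) (nat_lit 5) (nat_lit 342) (nat_lit 293) (nat_lit 253)) (XT.lf (nat_lit 0) (nat_lit 698151958) (nat_lit 420) (nat_lit 2994485393) (nat_lit 84) (nat_lit 7023172935) (nat_lit 37) (nat_lit 5) (nat_lit 42) (nat_lit 5) (nat_lit 38) (nat_lit 5) (nat_lit 343) (nat_lit 293) (nat_lit 252))) (XT.nd (nat_lit 94) (nat_lit 0) (nat_lit 0) (XT.lf (nat_lit 0) (nat_lit 635940624) (nat_lit 336) (nat_lit 1659782963) (nat_lit 420) (nat_lit 8637489484) (nat_lit 33) (nat_lit 5) (nat_lit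 37) (nat_lit 5) (nat_lit 38) (nat_lit 5) (nat_lit 344) (nat_lit 293) (nat_lit 251)) (XT.lf (nat_lit 0) (nat_lit 3944463365) (nat_lit 420) (nat_lit 6760184394) (nat_lit 84) (nat_lit 452872010) (nat_lit 33) (nat_lit 5) (nat_lit 38) (nat_lit 5) (nat_lit 34) (nat_lit 5) (nat_lit 345) (nat_lit 293) (nat_lit 250)))) (XT.nd (nat_lit 188) (nat_lit 0) (nat_lit 0) (XT.nd (nat_lit 94) (nat_lit 252) (nat_lit 0) (XT.lf (nat_lit 0) (nat_lit 5628061233) (nat_lit 420) (nat_lit 3170716772) (nat_lit 84) (nat_lit 2590714705) (nat_lit 33) (nat_lit 5) (nat_lit 38) (nat_lit 5) (nat_lit 34) (nat_lit 5) (nat_lit 346) (nat_lit 293) (nat_lit 249)) (XT.lf (nat_lit 0) (nat_lit 501036192) (nat_lit 252) (nat_lit 6835555377) (nat_lit 336) (nat_lit 4293112890) (nat_lit 30) (nat_lit 5) (nat_lit 33) (nat_lit 5) (nat_lit 34) (nat_lit 5) (nat_lit 347) (nat_lit 293) (nat_lit 248))) (XT.nd (nat_lit 94) (nat_lit 0) (nat_lit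 0) (XT.lf (nat_lit 0) (nat_lit 4315143790) (nat_lit 252) (nat_lit 4784394216) (nat_lit 336) (nat_lit 2777976286) (nat_lit 30) (nat_lit 5) (nat_lit 33) (nat_lit 5) (nat_lit 34) (nat_lit 5) (nat_lit 348) (nat_lit 293) (nat_lit 247)) (XT.lf (nat_lit 0) (nat_lit 8209964731) (nat_lit 252) (nat_lit 2676478406) (nat_lit 336) (nat_lit 1247705181) (nat_lit 30) (nat_lit 5) (nat_lit 33) (nat_lit 5) (nat_lit 34) (nat_lit 5) (nat_lit 349) (nat_lit 293) (nat_lit 246))))) (XT.nd (nat_lit 376) (nat_lit 504) (nat_lit 0) (XT.nd (nat_lit 188) (nat_lit 0) (nat_lit 0) (XT.nd (nat_lit 94) (nat_lit 252) (nat_lit 0) (XT.lf (nat_lit 0) (nat_lit 293100059) (nat_lit 336) (nat_lit 213683726) (nat_lit 84) (nat_lit 11892969972) (nat_lit 29) (nat_lit 5) (nat_lit 33) (nat_lit 5) (nat_lit 30) (nat_lit 5) (nat_lit 350) (nat_lit 293) (nat_lit 245)) (XT.lf (nat_lit 0) (nat_lit 1880075157) (nat_lit 336) (nat_lit 9054494508)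 (nat_lit 84) (nat_lit 1738047635) (nat_lit 26) (nat_lit 5) (nat_lit 30) (nat_lit 5) (nat_lit 27) (nat_lit 5) (nat_lit 351) (nat_lit 293) (nat_lit 244))) (XT.nd (nat_lit 94) (nat_lit 0) (nat_lit 0) (XT.lf (nat_lit 0) (nat_lit 3494796895) (nat_lit 336) (nat_lit 5422538290) (nat_lit 84) (nat_lit 4037438066) (nat_lit 26) (nat_lit 5) (nat_lit 30) (nat_lit 5) (nat_lit 27) (nat_lit 5) (nat_lit 352) (nat_lit 293) (nat_lit 243)) (XT.lf (nat_lit 0) (nat_lit 5131557524) (nat_lit 336) (nat_lit 1713594824) (nat_lit 84) (nat_lit 6401555863) (nat_lit 26) (nat_lit 5) (nat_lit 30) (nat_lit 5) (nat_lit 27) (nat_lit 5) (nat_lit 353) (nat_lit 293) (nat_lit 242)))) (XT.nd (nat_lit 188) (nat_lit 252) (nat_lit 0) (XT.nd (nat_lit 94) (nat_lit 0) (nat_lit 0) (XT.lf (nat_lit 0) (nat_lit 2118475576) (nat_lit 252) (nat_lit 4694422638) (nat_lit 336) (nat_lit 6735144593) (nat_lit 23) (nat_lit 5) (nat_lit 26) (nat_lit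 5) (nat_lit 27) (nat_lit 5) (nat_lit 354) (nat_lit 293) (nat_lit 241)) (XT.lf (nat_lit 0) (nat_lit 6071484210) (nat_lit 252) (nat_lit 2466065610) (nat_lit 336) (nat_lit 5321596024) (nat_lit 23) (nat_lit 5) (nat_lit 26) (nat_lit 5) (nat_lit 27) (nat_lit 5) (nat_lit 355) (nat_lit 293) (nat_lit 240))) (XT.nd (nat_lit 94) (nat_lit 252) (nat_lit 0) (XT.lf (nat_lit 0) (nat_lit 10113880669) (nat_lit 252) (nat_lit 175890619) (nat_lit 336) (nat_lit 3891073821) (nat_lit 23) (nat_lit 5) (nat_lit 26) (nat_lit 5) (nat_lit 27) (nat_lit 5) (nat_lit 356) (nat_lit 293) (nat_lit 239)) (XT.nd (nat_lit 94) (nat_lit 252) (nat_lit 0) (XT.lf (nat_lit 0) (nat_lit 12092804253) (nat_lit 336) (nat_lit 285615949) (nat_lit 84) (nat_lit 2134350397) (nat_lit 23) (nat_lit 5) (nat_lit 27) (nat_lit 5) (nat_lit 24) (nat_lit 5) (nat_lit 357) (nat_lit 293) (nat_lit 238)) (XT.lf (nat_lit 0) (nat_lit 3652730307) (nat_lit 252)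 (nat_lit 10312607081) (nat_lit 336) (nat_lit 889367066) (nat_lit 20) (nat_lit 5) (nat_lit 23) (nat_lit 5) (nat_lit 24) (nat_lit 5) (nat_lit 358) (nat_lit 293) (nat_lit 237))))))) (XT.nd (nat_lit 752) (nat_lit 252) (nat_lit 0) (XT.nd (nat_lit 376) (nat_lit 168) (nat_lit 0) (XT.nd (nat_lit 188) (nat_lit 168) (nat_lit 0) (XT.nd (nat_lit 94) (nat_lit 0) (nat_lit 0) (XT.lf (nat_lit 0) (nat_lit 653429849) (nat_lit 336) (nat_lit 7527116821) (nat_lit 84) (nat_lit 7027274590) (nat_lit 19) (nat_lit 5) (nat_lit 23) (nat_lit 5) (nat_lit 20) (nat_lit 5) (nat_lit 359) (nat_lit 293) (nat_lit 236)) (XT.lf (nat_lit 0) (nat_lit 2201925205) (nat_lit 336) (nat_lit 3778791885) (nat_lit 84) (nat_lit 9591747065) (nat_lit 19) (nat_lit 5) (nat_lit 23) (nat_lit 5) (nat_lit 20) (nat_lit 5) (nat_lit 360) (nat_lit 293) (nat_lit 235))) (XT.nd (nat_lit 94) (nat_lit 0) (nat_lit 0) (XT.lf (nat_lit 0) (nat_lit 56454557)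 (nat_lit 168) (nat_lit 3719586602) (nat_lit 252) (nat_lit 12173188002) (nat_lit 17) (nat_lit 5) (nat_lit 19) (nat_lit 5) (nat_lit 20) (nat_lit 5) (nat_lit 361) (nat_lit 293) (nat_lit 234)) (XT.lf (nat_lit 0) (nat_lit 4060595956) (nat_lit 168) (nat_lit 1355249984) (nat_lit 252) (nat_lit 10921424896) (nat_lit 17) (nat_lit 5) (nat_lit 19) (nat_lit 5) (nat_lit 20) (nat_lit 5) (nat_lit 362) (nat_lit 293) (nat_lit 233)))) (XT.nd (nat_lit 188) (nat_lit 168) (nat_lit 0) (XT.nd (nat_lit 94) (nat_lit 0) (nat_lit 0) (XT.lf (nat_lit 0) (nat_lit 7095275807) (nat_lit 252) (nat_lit 8589136623) (nat_lit 84) (nat_lit 1053393801) (nat_lit 17) (nat_lit 5) (nat_lit 20) (nat_lit 5) (nat_lit 18) (nat_lit 5) (nat_lit 363) (nat_lit 293) (nat_lit 232)) (XT.lf (nat_lit 0) (nat_lit 8819342679) (nat_lit 252) (nat_lit 4830169177) (nat_lit 84) (nat_lit 3501589990) (nat_lit 17) (nat_lit 5) (nat_lit 20) (nat_lit 5) (nat_lit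 18) (nat_lit 5) (nat_lit 364) (nat_lit 293) (nat_lit 231))) (XT.nd (nat_lit 94) (nat_lit 168) (nat_lit 0) (XT.lf (nat_lit 0) (nat_lit 10576209321) (nat_lit 252) (nat_lit 982824543) (nat_lit 84) (nat_lit 6018925825) (nat_lit 17) (nat_lit 5) (nat_lit 20) (nat_lit 5) (nat_lit 18) (nat_lit 5) (nat_lit 365) (nat_lit 293) (nat_lit 230)) (XT.lf (nat_lit 0) (nat_lit 3017274770) (nat_lit 168) (nat_lit 9380170284) (nat_lit 252) (nat_lit 5620404695) (nat_lit 15) (nat_lit 5) (nat_lit 17) (nat_lit 5) (nat_lit 18) (nat_lit 5) (nat_lit 366) (nat_lit 293) (nat_lit 229))))) (XT.nd (nat_lit 376) (nat_lit 0) (nat_lit 0) (XT.nd (nat_lit 188) (nat_lit 252) (nat_lit 0) (XT.nd (nat_lit 94) (nat_lit 0) (nat_lit 0) (XT.lf (nat_lit 0) (nat_lit 7135184591) (nat_lit 168) (nat_lit 7130521669) (nat_lit 252) (nat_lit 4206066070) (nat_lit 15) (nat_lit 5) (nat_lit 17) (nat_lit 5) (nat_lit 18) (nat_lit 5) (nat_lit 367)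 (nat_lit 293) (nat_lit 228)) (XT.lf (nat_lit 0) (nat_lit 11354534356) (nat_lit 168) (nat_lit 4818249782) (nat_lit 252) (nat_lit 2767674853) (nat_lit 15) (nat_lit 5) (nat_lit 17) (nat_lit 5) (nat_lit 18) (nat_lit 5) (nat_lit 368) (nat_lit 293) (nat_lit 227))) (XT.nd (nat_lit 94) (nat_lit 252) (nat_lit 0) (XT.lf (nat_lit 0) (nat_lit 15679256938) (nat_lit 168) (nat_lit 2441199343) (nat_lit 252) (nat_lit 1303890314) (nat_lit 15) (nat_lit 5) (nat_lit 17) (nat_lit 5) (nat_lit 18) (nat_lit 5) (nat_lit 369) (nat_lit 293) (nat_lit 226)) (XT.lf (nat_lit 0) (nat_lit 184857663) (nat_lit 252) (nat_lit 19732332461) (nat_lit 84) (nat_lit 6577700) (nat_lit 12) (nat_lit 5) (nat_lit 15) (nat_lit 5) (nat_lit 13) (nat_lit 5) (nat_lit 370) (nat_lit 293) (nat_lit 225)))) (XT.nd (nat_lit 188) (nat_lit 0) (nat_lit 0) (XT.nd (nat_lit 94) (nat_lit 0) (nat_lit 0) (XT.lf (nat_lit 0) (nat_lit 1739119140) (nat_lit 252)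 (nat_lit 16172227101) (nat_lit 84) (nat_lit 2525560456) (nat_lit 12) (nat_lit 5) (nat_lit 15) (nat_lit 5) (nat_lit 13) (nat_lit 5) (nat_lit 371) (nat_lit 293) (nat_lit 224)) (XT.lf (nat_lit 0) (nat_lit 3324092876) (nat_lit 252) (nat_lit 12526444353) (nat_lit 84) (nat_lit 5116043395) (nat_lit 12) (nat_lit 5) (nat_lit 15) (nat_lit 5) (nat_lit 13) (nat_lit 5) (nat_lit 372) (nat_lit 293) (nat_lit 223))) (XT.nd (nat_lit 94) (nat_lit 0) (nat_lit 0) (XT.lf (nat_lit 0) (nat_lit 4941256233) (nat_lit 252) (nat_lit 8791585966) (nat_lit 84) (nat_lit 7780441119) (nat_lit 12) (nat_lit 5) (nat_lit 15) (nat_lit 5) (nat_lit 13) (nat_lit 5) (nat_lit 373) (nat_lit 293) (nat_lit 222)) (XT.nd (nat_lit 94) (nat_lit 0) (nat_lit 0) (XT.lf (nat_lit 0) (nat_lit 6592116577) (nat_lit 252) (nat_lit 4964170660) (nat_lit 84) (nat_lit 10521237126) (nat_lit 12) (nat_lit 5) (nat_lit 15) (nat_lit 5) (nat_lit 13) (nat_lit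 5) (nat_lit 374) (nat_lit 293) (nat_lit 221)) (XT.lf (nat_lit 0) (nat_lit 8278212683) (nat_lit 252) (nat_lit 1040630884) (nat_lit 84) (nat_lit 13340986124) (nat_lit 12) (nat_lit 5) (nat_lit 15) (nat_lit 5) (nat_lit 13) (nat_lit 5) (nat_lit 375) (nat_lit 293) (nat_lit 220))))))))
noncomputable def xc41 : XT := (XT.nd (nat_lit 1598) (nat_lit 5124) (nat_lit 0) (XT.nd (nat_lit 752) (nat_lit 1680) (nat_lit 0) (XT.nd (nat_lit 376) (nat_lit 756) (nat_lit 0) (XT.nd (nat_lit 188) (nat_lit 168) (nat_lit 0) (XT.nd (nat_lit 94) (nat_lit 84) (nat_lit 0) (XT.lf (nat_lit 0) (nat_lit 1525953788) (nat_lit 84) (nat_lit 852799324) (nat_lit 84) (nat_lit 852799324) (nat_lit 150) (nat_lit 4) (nat_lit 151) (nat_lit 5) (nat_lit 151) (nat_lit 4) (nat_lit 300) (nat_lit 294) (nat_lit 294)) (XT.lf (nat_lit 0) (nat_lit 563031609) (nat_lit 168) (nat_lit 935161571) (nat_lit 84) (nat_lit 4977677137) (nat_lit 149) (nat_lit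 5) (nat_lit 151) (nat_lit 5) (nat_lit 150) (nat_lit 4) (nat_lit 301) (nat_lit 294) (nat_lit 293))) (XT.nd (nat_lit 94) (nat_lit 0) (nat_lit 0) (XT.lf (nat_lit 0) (nat_lit 1581328614) (nat_lit 168) (nat_lit 1213444729) (nat_lit 252) (nat_lit 3696996280) (nat_lit 147) (nat_lit 5) (nat_lit 149) (nat_lit 5) (nat_lit 150) (nat_lit 4) (nat_lit 302) (nat_lit 294) (nat_lit 292)) (XT.lf (nat_lit 0) (nat_lit 4145449776) (nat_lit 168) (nat_lit 874668830) (nat_lit 252) (nat_lit 1491408033) (nat_lit 147) (nat_lit 5) (nat_lit 149) (nat_lit 5) (nat_lit 150) (nat_lit 4) (nat_lit 303) (nat_lit 294) (nat_lit 291)))) (XT.nd (nat_lit 188) (nat_lit 420) (nat_lit 0) (XT.nd (nat_lit 94) (nat_lit 0) (nat_lit 0) (XT.lf (nat_lit 0) (nat_lit 202074579) (nat_lit 252) (nat_lit 482123432) (nat_lit 336) (nat_lit 5850979022) (nat_lit 143) (nat_lit 5) (nat_lit 146) (nat_lit 5) (nat_lit 147) (nat_lit 5) (nat_lit 304) (nat_lit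 294) (nat_lit 290)) (XT.lf (nat_lit 0) (nat_lit 2833555089) (nat_lit 252) (nat_lit 4700776) (nat_lit 336) (nat_lit 3723562642) (nat_lit 143) (nat_lit 5) (nat_lit 146) (nat_lit 5) (nat_lit 147) (nat_lit 5) (nat_lit 305) (nat_lit 294) (nat_lit 289))) (XT.nd (nat_lit 94) (nat_lit 420) (nat_lit 0) (XT.lf (nat_lit 0) (nat_lit 4984158351) (nat_lit 336) (nat_lit 1100548308) (nat_lit 84) (nat_lit 507806446) (nat_lit 143) (nat_lit 5) (nat_lit 147) (nat_lit 5) (nat_lit 144) (nat_lit 4) (nat_lit 306) (nat_lit 294) (nat_lit 288)) (XT.lf (nat_lit 0) (nat_lit 497846082) (nat_lit 420) (nat_lit 5042832056) (nat_lit 84) (nat_lit 1086110277) (nat_lit 138) (nat_lit 5) (nat_lit 143) (nat_lit 5) (nat_lit 139) (nat_lit 5) (nat_lit 307) (nat_lit 294) (nat_lit 287))))) (XT.nd (nat_lit 376) (nat_lit 1176) (nat_lit 0) (XT.nd (nat_lit 188) (nat_lit 84) (nat_lit 0) (XT.nd (nat_lit 94) (nat_lit 420) (nat_lit 0) (XT.lf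 (nat_lit 0) (nat_lit 2570380617) (nat_lit 420) (nat_lit 2356659392) (nat_lit 84) (nat_lit 1737433559) (nat_lit 138) (nat_lit 5) (nat_lit 143) (nat_lit 5) (nat_lit 139) (nat_lit 5) (nat_lit 308) (nat_lit 294) (nat_lit 286)) (XT.lf (nat_lit 0) (nat_lit 368478492) (nat_lit 420) (nat_lit 4267506273) (nat_lit 504) (nat_lit 2070349154) (nat_lit 133) (nat_lit 5) (nat_lit 138) (nat_lit 5) (nat_lit 139) (nat_lit 5) (nat_lit 309) (nat_lit 294) (nat_lit 285))) (XT.nd (nat_lit 94) (nat_lit 84) (nat_lit 0) (XT.lf (nat_lit 0) (nat_lit 3176849163) (nat_lit 420) (nat_lit 3540279997) (nat_lit 504) (nat_lit 34642423) (nat_lit 133) (nat_lit 5) (nat_lit 138) (nat_lit 5) (nat_lit 139) (nat_lit 5) (nat_lit 310) (nat_lit 294) (nat_lit 284)) (XT.lf (nat_lit 0) (nat_lit 1950225406) (nat_lit 504) (nat_lit 798700262) (nat_lit 84) (nat_lit 4052030803) (nat_lit 132) (nat_lit 5) (nat_lit 138) (nat_lit 5) (nat_lit 133)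 (nat_lit 5) (nat_lit 311) (nat_lit 294) (nat_lit 283)))) (XT.nd (nat_lit 188) (nat_lit 672) (nat_lit 0) (XT.nd (nat_lit 94) (nat_lit 0) (nat_lit 0) (XT.lf (nat_lit 0) (nat_lit 2054295074) (nat_lit 504) (nat_lit 1891806597) (nat_lit 588) (nat_lit 2907805725) (nat_lit 126) (nat_lit 5) (nat_lit 132) (nat_lit 5) (nat_lit 133) (nat_lit 5) (nat_lit 312) (nat_lit 294) (nat_lit 282)) (XT.lf (nat_lit 0) (nat_lit 4962849921) (nat_lit 504) (nat_lit 980771289) (nat_lit 588) (nat_lit 967432784) (nat_lit 126) (nat_lit 5) (nat_lit 132) (nat_lit 5) (nat_lit 133) (nat_lit 5) (nat_lit 313) (nat_lit 294) (nat_lit 281))) (XT.nd (nat_lit 94) (nat_lit 0) (nat_lit 0) (XT.lf (nat_lit 0) (nat_lit 950133707) (nat_lit 588) (nat_lit 3731707) (nat_lit 672) (nat_lit 6018246189) (nat_lit 118) (nat_lit 5) (nat_lit 125) (nat_lit 5) (nat_lit 126) (nat_lit 5) (nat_lit 314) (nat_lit 294) (nat_lit 280)) (XT.nd (nat_lit 94)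 (nat_lit 0) (nat_lit 0) (XT.lf (nat_lit 0) (nat_lit 2878998121) (nat_lit 672) (nat_lit 3127563187) (nat_lit 84) (nat_lit 1029925452) (nat_lit 118) (nat_lit 5) (nat_lit 126) (nat_lit 5) (nat_lit 119) (nat_lit 5) (nat_lit 315) (nat_lit 294) (nat_lit 279)) (XT.lf (nat_lit 0) (nat_lit 4799707548) (nat_lit 672) (nat_lit 194569486) (nat_lit 84) (nat_lit 2111175799) (nat_lit 118) (nat_lit 5) (nat_lit 126) (nat_lit 5) (nat_lit 119) (nat_lit 5) (nat_lit 316) (nat_lit 294) (nat_lit 278))))))) (XT.nd (nat_lit 752) (nat_lit 1764) (nat_lit 0) (XT.nd (nat_lit 376) (nat_lit 1848) (nat_lit 0) (XT.nd (nat_lit 188) (nat_lit 756) (nat_lit 0) (XT.nd (nat_lit 94) (nat_lit 84) (nat_lit 0) (XT.lf (nat_lit 0) (nat_lit 2836931935) (nat_lit 672) (nat_lit 3908957760) (nat_lit 756) (nat_lit 432313137) (nat_lit 110) (nat_lit 5) (nat_lit 118) (nat_lit 5) (nat_lit 119) (nat_lit 5) (nat_lit 317) (nat_lit 294) (nat_lit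 277)) (XT.lf (nat_lit 0) (nat_lit 1409030745) (nat_lit 756) (nat_lit 1352404448) (nat_lit 84) (nat_lit 4493725478) (nat_lit 109) (nat_lit 5) (nat_lit 118) (nat_lit 5) (nat_lit 110) (nat_lit 5) (nat_lit 318) (nat_lit 294) (nat_lit 276))) (XT.nd (nat_lit 94) (nat_lit 0) (nat_lit 0) (XT.lf (nat_lit 0) (nat_lit 1709772893) (nat_lit 756) (nat_lit 1545518037) (nat_lit 840) (nat_lit 4080953154) (nat_lit 100) (nat_lit 5) (nat_lit 109) (nat_lit 5) (nat_lit 110) (nat_lit 5) (nat_lit 319) (nat_lit 294) (nat_lit 275)) (XT.lf (nat_lit 0) (nat_lit 4846677294) (nat_lit 756) (nat_lit 267401531) (nat_lit 840) (nat_lit 2307670180) (nat_lit 100) (nat_lit 5) (nat_lit 109) (nat_lit 5) (nat_lit 110) (nat_lit 5) (nat_lit 320) (nat_lit 294) (nat_lit 274)))) (XT.nd (nat_lit 188) (nat_lit 924) (nat_lit 0) (XT.nd (nat_lit 94) (nat_lit 84) (nat_lit 0) (XT.lf (nat_lit 0) (nat_lit 521231308) (nat_lit 840) (nat_lit 6467889731)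 (nat_lit 924) (nat_lit 522572280) (nat_lit 90) (nat_lit 5) (nat_lit 100) (nat_lit 5) (nat_lit 101) (nat_lit 5) (nat_lit 321) (nat_lit 294) (nat_lit 273)) (XT.lf (nat_lit 0) (nat_lit 1264414270) (nat_lit 924) (nat_lit 3902478042) (nat_lit 84) (nat_lit 2438438479) (nat_lit 89) (nat_lit 5) (nat_lit 100) (nat_lit 5) (nat_lit 90) (nat_lit 5) (nat_lit 322) (nat_lit 294) (nat_lit 272))) (XT.nd (nat_lit 94) (nat_lit 924) (nat_lit 0) (XT.lf (nat_lit 0) (nat_lit 3040864146) (nat_lit 924) (nat_lit 773492528) (nat_lit 84) (nat_lit 3889518104) (nat_lit 89) (nat_lit 5) (nat_lit 100) (nat_lit 5) (nat_lit 90) (nat_lit 5) (nat_lit 323) (nat_lit 294) (nat_lit 271)) (XT.lf (nat_lit 0) (nat_lit 2454038459) (nat_lit 924) (nat_lit 2389267756) (nat_lit 1008) (nat_lit 2963516947) (nat_lit 78) (nat_lit 5) (nat_lit 89) (nat_lit 5) (nat_lit 90) (nat_lit 5) (nat_lit 324) (nat_lit 294) (nat_lit 270))))) (XT.nd (nat_lit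 376) (nat_lit 1008) (nat_lit 0) (XT.nd (nat_lit 188) (nat_lit 0) (nat_lit 0) (XT.nd (nat_lit 94) (nat_lit 756) (nat_lit 0) (XT.lf (nat_lit 0) (nat_lit 5750608969) (nat_lit 924) (nat_lit 906802541) (nat_lit 1008) (nat_lit 1257356675) (nat_lit 78) (nat_lit 5) (nat_lit 89) (nat_lit 5) (nat_lit 90) (nat_lit 5) (nat_lit 325) (nat_lit 294) (nat_lit 269)) (XT.lf (nat_lit 0) (nat_lit 457152323) (nat_lit 756) (nat_lit 6941049511) (nat_lit 84) (nat_lit 629179751) (nat_lit 69) (nat_lit 5) (nat_lit 78) (nat_lit 5) (nat_lit 70) (nat_lit 5) (nat_lit 326) (nat_lit 294) (nat_lit 268))) (XT.nd (nat_lit 94) (nat_lit 0) (nat_lit 0) (XT.lf (nat_lit 0) (nat_lit 2180264336) (nat_lit 756) (nat_lit 3730659264) (nat_lit 84) (nat_lit 2233131640) (nat_lit 69) (nat_lit 5) (nat_lit 78) (nat_lit 5) (nat_lit 70) (nat_lit 5) (nat_lit 327) (nat_lit 294) (nat_lit 267)) (XT.lf (nat_lit 0) (nat_lit 3907788568) (nat_lit 756)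 (nat_lit 468250192) (nat_lit 84) (nat_lit 3890210835) (nat_lit 69) (nat_lit 5) (nat_lit 78) (nat_lit 5) (nat_lit 70) (nat_lit 5) (nat_lit 328) (nat_lit 294) (nat_lit 266)))) (XT.nd (nat_lit 188) (nat_lit 504) (nat_lit 0) (XT.nd (nat_lit 94) (nat_lit 0) (nat_lit 0) (XT.lf (nat_lit 0) (nat_lit 2907804390) (nat_lit 504) (nat_lit 2762376642) (nat_lit 588) (nat_lit 2723003297) (nat_lit 63) (nat_lit 5) (nat_lit 69) (nat_lit 5) (nat_lit 70) (nat_lit 5) (nat_lit 329) (nat_lit 294) (nat_lit 265)) (XT.lf (nat_lit 0) (nat_lit 6352834841) (nat_lit 504) (nat_lit 1092706304) (nat_lit 588) (nat_lit 1080166456) (nat_lit 63) (nat_lit 5) (nat_lit 69) (nat_lit 5) (nat_lit 70) (nat_lit 5) (nat_lit 330) (nat_lit 294) (nat_lit 264))) (XT.nd (nat_lit 94) (nat_lit 0) (nat_lit 0) (XT.lf (nat_lit 0) (nat_lit 573757416) (nat_lit 504) (nat_lit 7454772794) (nat_lit 84) (nat_lit 634812478) (nat_lit 57) (nat_lit 5) (nat_lit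 63) (nat_lit 5) (nat_lit 58) (nat_lit 5) (nat_lit 331) (nat_lit 294) (nat_lit 263)) (XT.nd (nat_lit 94) (nat_lit 0) (nat_lit 0) (XT.lf (nat_lit 0) (nat_lit 2245577914) (nat_lit 504) (nat_lit 4132883079) (nat_lit 84) (nat_lit 2427110280) (nat_lit 57) (nat_lit 5) (nat_lit 63) (nat_lit 5) (nat_lit 58) (nat_lit 5) (nat_lit 332) (nat_lit 294) (nat_lit 262)) (XT.lf (nat_lit 0) (nat_lit 3925553140) (nat_lit 504) (nat_lit 753395379) (nat_lit 84) (nat_lit 4274934547) (nat_lit 57) (nat_lit 5) (nat_lit 63) (nat_lit 5) (nat_lit 58) (nat_lit 5) (nat_lit 333) (nat_lit 294) (nat_lit 261))))))))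
noncomputable def xc42 : XT := (XT.nd (nat_lit 1598) (nat_lit 1176) (nat_lit 0) (XT.nd (nat_lit 752) (nat_lit 1092) (nat_lit 0) (XT.nd (nat_lit 376) (nat_lit 420) (nat_lit 0) (XT.nd (nat_lit 188) (nat_lit 420) (nat_lit 0) (XT.nd (nat_lit 94) (nat_lit 0) (nat_lit 0) (XT.lf (nat_lit 0) (nat_lit 2742087289) (nat_lit 420) (nat_lit 2900363561) (nat_lit 504) (nat_lit 3465122201) (nat_lit 52) (nat_lit 5) (nat_lit 57) (nat_lit 5) (nat_lit 58) (nat_lit 5) (nat_lit 334) (nat_lit 294) (nat_lit 260)) (XT.lf (nat_lit 0) (nat_lit 6318331032) (nat_lit 420) (nat_lit 1060588076) (nat_lit 504) (nat_lit 1888452892) (nat_lit 52) (nat_lit 5) (nat_lit 57) (nat_lit 5) (nat_lit 58) (nat_lit 5) (nat_lit 335) (nat_lit 294) (nat_lit 259))) (XT.nd (nat_lit 94) (nat_lit 84) (nat_lit 0) (XT.lf (nat_lit 0) (nat_lit 531954658) (nat_lit 336) (nat_lit 8610547086) (nat_lit 420) (nat_lit 290743440) (nat_lit 48) (nat_lit 5)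 (nat_lit 52) (nat_lit 5) (nat_lit 53) (nat_lit 5) (nat_lit 336) (nat_lit 294) (nat_lit 258)) (XT.lf (nat_lit 0) (nat_lit 1330919779) (nat_lit 420) (nat_lit 5488984993) (nat_lit 84) (nat_lit 2784159054) (nat_lit 47) (nat_lit 5) (nat_lit 52) (nat_lit 5) (nat_lit 48) (nat_lit 5) (nat_lit 337) (nat_lit 294) (nat_lit 257)))) (XT.nd (nat_lit 188) (nat_lit 0) (nat_lit 0) (XT.nd (nat_lit 94) (nat_lit 420) (nat_lit 0) (XT.lf (nat_lit 0) (nat_lit 2957834571) (nat_lit 420) (nat_lit 2016974733) (nat_lit 84) (nat_lit 4806751444) (nat_lit 47) (nat_lit 5) (nat_lit 52) (nat_lit 5) (nat_lit 48) (nat_lit 5) (nat_lit 338) (nat_lit 294) (nat_lit 256)) (XT.lf (nat_lit 0) (nat_lit 1552132757) (nat_lit 420) (nat_lit 3060639812) (nat_lit 504) (nat_lit 5352740919) (nat_lit 42) (nat_lit 5) (nat_lit 47) (nat_lit 5) (nat_lit 48) (nat_lit 5) (nat_lit 339) (nat_lit 294) (nat_lit 255))) (XT.nd (nat_lit 94) (nat_lit 0)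 (nat_lit 0) (XT.lf (nat_lit 0) (nat_lit 5233257541) (nat_lit 420) (nat_lit 1069726973) (nat_lit 504) (nat_lit 3852932041) (nat_lit 42) (nat_lit 5) (nat_lit 47) (nat_lit 5) (nat_lit 48) (nat_lit 5) (nat_lit 340) (nat_lit 294) (nat_lit 254)) (XT.lf (nat_lit 0) (nat_lit 8019334945) (nat_lit 504) (nat_lit 1374931916) (nat_lit 84) (nat_lit 959012605) (nat_lit 42) (nat_lit 5) (nat_lit 48) (nat_lit 5) (nat_lit 43) (nat_lit 5) (nat_lit 341) (nat_lit 294) (nat_lit 253))))) (XT.nd (nat_lit 376) (nat_lit 336) (nat_lit 0) (XT.nd (nat_lit 188) (nat_lit 336) (nat_lit 0) (XT.nd (nat_lit 94) (nat_lit 84) (nat_lit 0) (XT.lf (nat_lit 0) (nat_lit 2277510747) (nat_lit 336) (nat_lit 7509989557) (nat_lit 420) (nat_lit 769539502) (nat_lit 38) (nat_lit 5) (nat_lit 42) (nat_lit 5) (nat_lit 43) (nat_lit 5) (nat_lit 342) (nat_lit 294) (nat_lit 252)) (XT.lf (nat_lit 0) (nat_lit 806023015) (nat_lit 420) (nat_lit 4743599296)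 (nat_lit 84) (nat_lit 5218087863) (nat_lit 37) (nat_lit 5) (nat_lit 42) (nat_lit 5) (nat_lit 38) (nat_lit 5) (nat_lit 343) (nat_lit 294) (nat_lit 251))) (XT.nd (nat_lit 94) (nat_lit 336) (nat_lit 0) (XT.lf (nat_lit 0) (nat_lit 2380645113) (nat_lit 420) (nat_lit 1145442685) (nat_lit 84) (nat_lit 7459842640) (nat_lit 37) (nat_lit 5) (nat_lit 42) (nat_lit 5) (nat_lit 38) (nat_lit 5) (nat_lit 344) (nat_lit 294) (nat_lit 250)) (XT.lf (nat_lit 0) (nat_lit 2577866831) (nat_lit 336) (nat_lit 1419004936) (nat_lit 420) (nat_lit 7214476130) (nat_lit 33) (nat_lit 5) (nat_lit 37) (nat_lit 5) (nat_lit 38) (nat_lit 5) (nat_lit 345) (nat_lit 294) (nat_lit 249)))) (XT.nd (nat_lit 188) (nat_lit 336) (nat_lit 0) (XT.nd (nat_lit 94) (nat_lit 0) (nat_lit 0) (XT.lf (nat_lit 0) (nat_lit 5650524193) (nat_lit 420) (nat_lit 5049179928) (nat_lit 84) (nat_lit 744644786) (nat_lit 33) (nat_lit 5) (nat_lit 38) (nat_lit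 5) (nat_lit 34) (nat_lit 5) (nat_lit 346) (nat_lit 294) (nat_lit 248)) (XT.lf (nat_lit 0) (nat_lit 7338692589) (nat_lit 420) (nat_lit 1406186313) (nat_lit 84) (nat_lit 2940409735) (nat_lit 33) (nat_lit 5) (nat_lit 38) (nat_lit 5) (nat_lit 34) (nat_lit 5) (nat_lit 347) (nat_lit 294) (nat_lit 247))) (XT.nd (nat_lit 94) (nat_lit 84) (nat_lit 0) (XT.lf (nat_lit 0) (nat_lit 2360531585) (nat_lit 252) (nat_lit 6711758982) (nat_lit 336) (nat_lit 2861811560) (nat_lit 30) (nat_lit 5) (nat_lit 33) (nat_lit 5) (nat_lit 34) (nat_lit 5) (nat_lit 348) (nat_lit 294) (nat_lit 246)) (XT.nd (nat_lit 94) (nat_lit 84) (nat_lit 0) (XT.lf (nat_lit 0) (nat_lit 6237432425) (nat_lit 252) (nat_lit 4607105576) (nat_lit 336) (nat_lit 1346743571) (nat_lit 30) (nat_lit 5) (nat_lit 33) (nat_lit 5) (nat_lit 34) (nat_lit 5) (nat_lit 349) (nat_lit 294) (nat_lit 245)) (XT.lf (nat_lit 0) (nat_lit 181608180) (nat_lit 336) (nat_lit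 2260130831) (nat_lit 84) (nat_lit 10015712010) (nat_lit 29) (nat_lit 5) (nat_lit 33) (nat_lit 5) (nat_lit 30) (nat_lit 5) (nat_lit 350) (nat_lit 294) (nat_lit 244))))))) (XT.nd (nat_lit 752) (nat_lit 420) (nat_lit 0) (XT.nd (nat_lit 376) (nat_lit 504) (nat_lit 0) (XT.nd (nat_lit 188) (nat_lit 0) (nat_lit 0) (XT.nd (nat_lit 94) (nat_lit 0) (nat_lit 0) (XT.lf (nat_lit 0) (nat_lit 1530154015) (nat_lit 252) (nat_lit 185925770) (nat_lit 336) (nat_lit 11015945451) (nat_lit 26) (nat_lit 5) (nat_lit 29) (nat_lit 5) (nat_lit 30) (nat_lit 5) (nat_lit 351) (nat_lit 294) (nat_lit 243)) (XT.lf (nat_lit 0) (nat_lit 3315162197) (nat_lit 336) (nat_lit 7585600579) (nat_lit 84) (nat_lit 2113983797) (nat_lit 26) (nat_lit 5) (nat_lit 30) (nat_lit 5) (nat_lit 27) (nat_lit 5) (nat_lit 352) (nat_lit 294) (nat_lit 242))) (XT.nd (nat_lit 94) (nat_lit 0) (nat_lit 0) (XT.lf (nat_lit 0) (nat_lit 4938542689) (nat_lit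 336) (nat_lit 3893660005) (nat_lit 84) (nat_lit 4474971765) (nat_lit 26) (nat_lit 5) (nat_lit 30) (nat_lit 5) (nat_lit 27) (nat_lit 5) (nat_lit 353) (nat_lit 294) (nat_lit 241)) (XT.lf (nat_lit 0) (nat_lit 6585890017) (nat_lit 336) (nat_lit 120763817) (nat_lit 84) (nat_lit 6902984811) (nat_lit 26) (nat_lit 5) (nat_lit 30) (nat_lit 5) (nat_lit 27) (nat_lit 5) (nat_lit 354) (nat_lit 294) (nat_lit 240)))) (XT.nd (nat_lit 188) (nat_lit 252) (nat_lit 0) (XT.nd (nat_lit 94) (nat_lit 0) (nat_lit 0) (XT.lf (nat_lit 0) (nat_lit 3813436975) (nat_lit 252) (nat_lit 4483132471) (nat_lit 336) (nat_lit 5624678888) (nat_lit 23) (nat_lit 5) (nat_lit 26) (nat_lit 5) (nat_lit 27) (nat_lit 5) (nat_lit 355) (nat_lit 294) (nat_lit 239)) (XT.lf (nat_lit 0) (nat_lit 7839999596) (nat_lit 252) (nat_lit 2196425120) (nat_lit 336) (nat_lit 4206977541) (nat_lit 23) (nat_lit 5) (nat_lit 26) (nat_lit 5) (nat_lit 27) (nat_lit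 5) (nat_lit 356) (nat_lit 294) (nat_lit 238))) (XT.nd (nat_lit 94) (nat_lit 252) (nat_lit 0) (XT.lf (nat_lit 0) (nat_lit 11807385990) (nat_lit 336) (nat_lit 2617775587) (nat_lit 84) (nat_lit 151229552) (nat_lit 23) (nat_lit 5) (nat_lit 27) (nat_lit 5) (nat_lit 24) (nat_lit 5) (nat_lit 357) (nat_lit 294) (nat_lit 237)) (XT.lf (nat_lit 0) (nat_lit 1257010923) (nat_lit 252) (nat_lit 12387476278) (nat_lit 336) (nat_lit 1275003253) (nat_lit 20) (nat_lit 5) (nat_lit 23) (nat_lit 5) (nat_lit 24) (nat_lit 5) (nat_lit 358) (nat_lit 294) (nat_lit 236))))) (XT.nd (nat_lit 376) (nat_lit 168) (nat_lit 0) (XT.nd (nat_lit 188) (nat_lit 168) (nat_lit 0) (XT.nd (nat_lit 94) (nat_lit 0) (nat_lit 0) (XT.lf (nat_lit 0) (nat_lit 263916883) (nat_lit 336) (nat_lit 9999235758) (nat_lit 84) (nat_lit 5009997362) (nat_lit 19) (nat_lit 5) (nat_lit 23) (nat_lit 5) (nat_lit 20) (nat_lit 5) (nat_lit 359) (nat_lit 294)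 (nat_lit 235)) (XT.lf (nat_lit 0) (nat_lit 1801115935) (nat_lit 336) (nat_lit 6265885711) (nat_lit 84) (nat_lit 7571202646) (nat_lit 19) (nat_lit 5) (nat_lit 23) (nat_lit 5) (nat_lit 20) (nat_lit 5) (nat_lit 360) (nat_lit 294) (nat_lit 234))) (XT.nd (nat_lit 94) (nat_lit 168) (nat_lit 0) (XT.lf (nat_lit 0) (nat_lit 3363715207) (nat_lit 336) (nat_lit 2446301328) (nat_lit 84) (nat_lit 10205369152) (nat_lit 19) (nat_lit 5) (nat_lit 23) (nat_lit 5) (nat_lit 20) (nat_lit 5) (nat_lit 361) (nat_lit 294) (nat_lit 233)) (XT.lf (nat_lit 0) (nat_lit 1493161521) (nat_lit 168) (nat_lit 3474822031) (nat_lit 252) (nat_lit 11436603023) (nat_lit 17) (nat_lit 5) (nat_lit 19) (nat_lit 5) (nat_lit 20) (nat_lit 5) (nat_lit 362) (nat_lit 294) (nat_lit 232)))) (XT.nd (nat_lit 188) (nat_lit 168) (nat_lit 0) (XT.nd (nat_lit 94) (nat_lit 0) (nat_lit 0) (XT.lf (nat_lit 0) (nat_lit 5578285170) (nat_lit 168) (nat_lit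 1048017576) (nat_lit 252) (nat_lit 10179529508) (nat_lit 17) (nat_lit 5) (nat_lit 19) (nat_lit 5) (nat_lit 20) (nat_lit 5) (nat_lit 363) (nat_lit 294) (nat_lit 231)) (XT.lf (nat_lit 0) (nat_lit 8329807570) (nat_lit 252) (nat_lit 7472043737) (nat_lit 84) (nat_lit 1417968160) (nat_lit 17) (nat_lit 5) (nat_lit 20) (nat_lit 5) (nat_lit 18) (nat_lit 5) (nat_lit 364) (nat_lit 294) (nat_lit 230))) (XT.nd (nat_lit 94) (nat_lit 168) (nat_lit 0) (XT.lf (nat_lit 0) (nat_lit 10076814284) (nat_lit 252) (nat_lit 3638142907) (nat_lit 84) (nat_lit 3932078321) (nat_lit 17) (nat_lit 5) (nat_lit 20) (nat_lit 5) (nat_lit 18) (nat_lit 5) (nat_lit 365) (nat_lit 294) (nat_lit 229)) (XT.nd (nat_lit 94) (nat_lit 0) (nat_lit 0) (XT.lf (nat_lit 0) (nat_lit 294049916) (nat_lit 168) (nat_lit 11567421913) (nat_lit 252) (nat_lit 6226638632) (nat_lit 15) (nat_lit 5) (nat_lit 17) (nat_lit 5) (nat_lit 18) (nat_lit 5) (nat_lit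 366) (nat_lit 294) (nat_lit 228)) (XT.lf (nat_lit 0) (nat_lit 4399052174) (nat_lit 168) (nat_lit 9321276909) (nat_lit 252) (nat_lit 4822044914) (nat_lit 15) (nat_lit 5) (nat_lit 17) (nat_lit 5) (nat_lit 18) (nat_lit 5) (nat_lit 367) (nat_lit 294) (nat_lit 227))))))))
noncomputable def xc43 : XT := (XT.nd (nat_lit 50008) (nat_lit 0) (nat_lit 5544) (XT.nd (nat_lit 49162) (nat_lit 0) (nat_lit 10920) (XT.nd (nat_lit 376) (nat_lit 0) (nat_lit 0) (XT.nd (nat_lit 188) (nat_lit 252) (nat_lit 0) (XT.nd (nat_lit 94) (nat_lit 0) (nat_lit 0) (XT.lf (nat_lit 0) (nat_lit 8605882478) (nat_lit 168) (nat_lit 7012403288) (nat_lit 252) (nat_lit 3393105595) (nat_lit 15) (nat_lit 5) (nat_lit 17) (nat_lit 5) (nat_lit 18) (nat_lit 5) (nat_lit 368) (nat_lit 294) (nat_lit 226)) (XT.lf (nat_lit 0) (nat_lit 12918462034) (nat_lit 168) (nat_lit 4638648937) (nat_lit 252) (nat_lit 1938488756) (nat_lit 15) (nat_lit 5)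 (nat_lit 17) (nat_lit 5) (nat_lit 18) (nat_lit 5) (nat_lit 369) (nat_lit 294) (nat_lit 225))) (XT.nd (nat_lit 94) (nat_lit 252) (nat_lit 0) (XT.lf (nat_lit 0) (nat_lit 17340810619) (nat_lit 168) (nat_lit 2197801268) (nat_lit 252) (nat_lit 456838540) (nat_lit 15) (nat_lit 5) (nat_lit 17) (nat_lit 5) (nat_lit 18) (nat_lit 5) (nat_lit 370) (nat_lit 294) (nat_lit 224)) (XT.lf (nat_lit 0) (nat_lit 1049072435) (nat_lit 252) (nat_lit 19130948178) (nat_lit 84) (nat_lit 330535808) (nat_lit 12) (nat_lit 5) (nat_lit 15) (nat_lit 5) (nat_lit 13) (nat_lit 5) (nat_lit 371) (nat_lit 294) (nat_lit 223)))) (XT.nd (nat_lit 188) (nat_lit 0) (nat_lit 0) (XT.nd (nat_lit 94) (nat_lit 0) (nat_lit 0) (XT.lf (nat_lit 0) (nat_lit 2625703204) (nat_lit 252) (nat_lit 15496954512) (nat_lit 84) (nat_lit 2917872422) (nat_lit 12) (nat_lit 5) (nat_lit 15) (nat_lit 5) (nat_lit 13) (nat_lit 5) (nat_lit 372) (nat_lit 294)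 (nat_lit 222)) (XT.lf (nat_lit 0) (nat_lit 4234774451) (nat_lit 252) (nat_lit 11773530734) (nat_lit 84) (nat_lit 5579218424) (nat_lit 12) (nat_lit 5) (nat_lit 15) (nat_lit 5) (nat_lit 13) (nat_lit 5) (nat_lit 373) (nat_lit 294) (nat_lit 221))) (XT.nd (nat_lit 94) (nat_lit 0) (nat_lit 0) (XT.lf (nat_lit 0) (nat_lit 5877785997) (nat_lit 252) (nat_lit 7957206223) (nat_lit 84) (nat_lit 8317054468) (nat_lit 12) (nat_lit 5) (nat_lit 15) (nat_lit 5) (nat_lit 13) (nat_lit 5) (nat_lit 374) (nat_lit 294) (nat_lit 220)) (XT.lf (nat_lit 0) (nat_lit 7556269301) (nat_lit 252) (nat_lit 4044423765) (nat_lit 84) (nat_lit 11133932503) (nat_lit 12) (nat_lit 5) (nat_lit 15) (nat_lit 5) (nat_lit 13) (nat_lit 5) (nat_lit 375) (nat_lit 294) (nat_lit 219))))) (XT.nd (nat_lit 376) (nat_lit 588) (nat_lit 0) (XT.nd (nat_lit 188) (nat_lit 84) (nat_lit 0) (XT.nd (nat_lit 94) (nat_lit 84) (nat_lit 0) (XT.lf (nat_lit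 0) (nat_lit 1162685562) (nat_lit 84) (nat_lit 898165396) (nat_lit 0) (nat_lit 1162685562) (nat_lit 151) (nat_lit 5) (nat_lit 152) (nat_lit 0) (nat_lit 151) (nat_lit 4) (nat_lit 298) (nat_lit 295) (nat_lit 295)) (XT.lf (nat_lit 0) (nat_lit 584372751) (nat_lit 84) (nat_lit 4006517339) (nat_lit 84) (nat_lit 1863399526) (nat_lit 150) (nat_lit 4) (nat_lit 151) (nat_lit 5) (nat_lit 151) (nat_lit 4) (nat_lit 299) (nat_lit 295) (nat_lit 294))) (XT.nd (nat_lit 94) (nat_lit 0) (nat_lit 0) (XT.lf (nat_lit 0) (nat_lit 384299682) (nat_lit 168) (nat_lit 3441283929) (nat_lit 84) (nat_lit 2639298051) (nat_lit 149) (nat_lit 5) (nat_lit 151) (nat_lit 5) (nat_lit 150) (nat_lit 4) (nat_lit 300) (nat_lit 295) (nat_lit 293)) (XT.lf (nat_lit 0) (nat_lit 2575496632) (nat_lit 168) (nat_lit 1007140199) (nat_lit 84) (nat_lit 2896339628) (nat_lit 149) (nat_lit 5) (nat_lit 151) (nat_lit 5) (nat_lit 150) (nat_lit 4)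 (nat_lit 301) (nat_lit 295) (nat_lit 292)))) (XT.nd (nat_lit 188) (nat_lit 336) (nat_lit 0) (XT.nd (nat_lit 94) (nat_lit 84) (nat_lit 0) (XT.lf (nat_lit 0) (nat_lit 1483150532) (nat_lit 168) (nat_lit 3281339600) (nat_lit 252) (nat_lit 1732213948) (nat_lit 147) (nat_lit 5) (nat_lit 149) (nat_lit 5) (nat_lit 150) (nat_lit 4) (nat_lit 302) (nat_lit 295) (nat_lit 291)) (XT.lf (nat_lit 0) (nat_lit 422185786) (nat_lit 252) (nat_lit 2499191251) (nat_lit 84) (nat_lit 3596702990) (nat_lit 146) (nat_lit 5) (nat_lit 149) (nat_lit 5) (nat_lit 147) (nat_lit 5) (nat_lit 303) (nat_lit 295) (nat_lit 290))) (XT.nd (nat_lit 94) (nat_lit 84) (nat_lit 0) (XT.lf (nat_lit 0) (nat_lit 26074204) (nat_lit 252) (nat_lit 2499524418) (nat_lit 336) (nat_lit 4017438729) (nat_lit 143) (nat_lit 5) (nat_lit 146) (nat_lit 5) (nat_lit 147) (nat_lit 5) (nat_lit 304) (nat_lit 295) (nat_lit 289)) (XT.nd (nat_lit 94) (nat_lit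 84) (nat_lit 0) (XT.lf (nat_lit 0) (nat_lit 2633258190) (nat_lit 252) (nat_lit 2006973251) (nat_lit 336) (nat_lit 1931114844) (nat_lit 143) (nat_lit 5) (nat_lit 146) (nat_lit 5) (nat_lit 147) (nat_lit 5) (nat_lit 305) (nat_lit 295) (nat_lit 288)) (XT.lf (nat_lit 0) (nat_lit 136136409) (nat_lit 336) (nat_lit 1331793463) (nat_lit 84) (nat_lit 5135844982) (nat_lit 142) (nat_lit 5) (nat_lit 146) (nat_lit 5) (nat_lit 143) (nat_lit 5) (nat_lit 306) (nat_lit 295) (nat_lit 287))))))) (XT.nd (nat_lit 846) (nat_lit 3360) (nat_lit 0) (XT.nd (nat_lit 376) (nat_lit 1176) (nat_lit 0) (XT.nd (nat_lit 188) (nat_lit 504) (nat_lit 0) (XT.nd (nat_lit 94) (nat_lit 0) (nat_lit 0) (XT.lf (nat_lit 0) (nat_lit 1313172527) (nat_lit 336) (nat_lit 850279424) (nat_lit 420) (nat_lit 4475950815) (nat_lit 138) (nat_lit 5) (nat_lit 142) (nat_lit 5) (nat_lit 143) (nat_lit 5) (nat_lit 307) (nat_lit 295) (nat_lit 286)) (XT.lf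 (nat_lit 0) (nat_lit 4020029637) (nat_lit 336) (nat_lit 172386022) (nat_lit 420) (nat_lit 2486417053) (nat_lit 138) (nat_lit 5) (nat_lit 142) (nat_lit 5) (nat_lit 143) (nat_lit 5) (nat_lit 308) (nat_lit 295) (nat_lit 285))) (XT.nd (nat_lit 94) (nat_lit 84) (nat_lit 0) (XT.lf (nat_lit 0) (nat_lit 36654946) (nat_lit 420) (nat_lit 6180624881) (nat_lit 504) (nat_lit 505058422) (nat_lit 133) (nat_lit 5) (nat_lit 138) (nat_lit 5) (nat_lit 139) (nat_lit 5) (nat_lit 309) (nat_lit 295) (nat_lit 284)) (XT.lf (nat_lit 0) (nat_lit 1464182686) (nat_lit 504) (nat_lit 3963481016) (nat_lit 84) (nat_lit 1341105527) (nat_lit 132) (nat_lit 5) (nat_lit 138) (nat_lit 5) (nat_lit 133) (nat_lit 5) (nat_lit 310) (nat_lit 295) (nat_lit 283)))) (XT.nd (nat_lit 188) (nat_lit 672) (nat_lit 0) (XT.nd (nat_lit 94) (nat_lit 504) (nat_lit 0) (XT.lf (nat_lit 0) (nat_lit 3413797293) (nat_lit 504) (nat_lit 1212380883) (nat_lit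 84) (nat_lit 2193185295) (nat_lit 132) (nat_lit 5) (nat_lit 138) (nat_lit 5) (nat_lit 133) (nat_lit 5) (nat_lit 311) (nat_lit 295) (nat_lit 282)) (XT.lf (nat_lit 0) (nat_lit 1607580822) (nat_lit 504) (nat_lit 3764145022) (nat_lit 588) (nat_lit 1502103236) (nat_lit 126) (nat_lit 5) (nat_lit 132) (nat_lit 5) (nat_lit 133) (nat_lit 5) (nat_lit 312) (nat_lit 295) (nat_lit 281))) (XT.nd (nat_lit 94) (nat_lit 588) (nat_lit 0) (XT.lf (nat_lit 0) (nat_lit 396038635) (nat_lit 588) (nat_lit 2443982777) (nat_lit 84) (nat_lit 4092173184) (nat_lit 125) (nat_lit 5) (nat_lit 132) (nat_lit 5) (nat_lit 126) (nat_lit 5) (nat_lit 313) (nat_lit 295) (nat_lit 280)) (XT.nd (nat_lit 94) (nat_lit 0) (nat_lit 0) (XT.lf (nat_lit 0) (nat_lit 409822338) (nat_lit 588) (nat_lit 1850266310) (nat_lit 672) (nat_lit 4734345200) (nat_lit 118) (nat_lit 5) (nat_lit 125) (nat_lit 5) (nat_lit 126) (nat_lit 5) (nat_lit 314) (nat_lit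 295) (nat_lit 279)) (XT.lf (nat_lit 0) (nat_lit 3355556453) (nat_lit 588) (nat_lit 787579155) (nat_lit 672) (nat_lit 2917277471) (nat_lit 118) (nat_lit 5) (nat_lit 125) (nat_lit 5) (nat_lit 126) (nat_lit 5) (nat_lit 315) (nat_lit 295) (nat_lit 278)))))) (XT.nd (nat_lit 376) (nat_lit 1848) (nat_lit 0) (XT.nd (nat_lit 188) (nat_lit 756) (nat_lit 0) (XT.nd (nat_lit 94) (nat_lit 756) (nat_lit 0) (XT.lf (nat_lit 0) (nat_lit 6025400942) (nat_lit 672) (nat_lit 788458187) (nat_lit 84) (nat_lit 317002204) (nat_lit 118) (nat_lit 5) (nat_lit 126) (nat_lit 5) (nat_lit 119) (nat_lit 5) (nat_lit 316) (nat_lit 295) (nat_lit 277)) (XT.lf (nat_lit 0) (nat_lit 715892555) (nat_lit 756) (nat_lit 5005584987) (nat_lit 84) (nat_lit 1483305626) (nat_lit 109) (nat_lit 5) (nat_lit 118) (nat_lit 5) (nat_lit 110) (nat_lit 5) (nat_lit 317) (nat_lit 295) (nat_lit 276))) (XT.nd (nat_lit 94) (nat_lit 756) (nat_lit 0)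 (XT.lf (nat_lit 0) (nat_lit 2518912134) (nat_lit 756) (nat_lit 2045315622) (nat_lit 84) (nat_lit 2718563340) (nat_lit 109) (nat_lit 5) (nat_lit 118) (nat_lit 5) (nat_lit 110) (nat_lit 5) (nat_lit 318) (nat_lit 295) (nat_lit 275)) (XT.lf (nat_lit 0) (nat_lit 978551660) (nat_lit 756) (nat_lit 3350643131) (nat_lit 840) (nat_lit 3036052050) (nat_lit 100) (nat_lit 5) (nat_lit 109) (nat_lit 5) (nat_lit 110) (nat_lit 5) (nat_lit 319) (nat_lit 295) (nat_lit 274)))) (XT.nd (nat_lit 188) (nat_lit 1764) (nat_lit 0) (XT.nd (nat_lit 94) (nat_lit 84) (nat_lit 0) (XT.lf (nat_lit 0) (nat_lit 4092117182) (nat_lit 756) (nat_lit 2067773918) (nat_lit 840) (nat_lit 1291980802) (nat_lit 100) (nat_lit 5) (nat_lit 109) (nat_lit 5) (nat_lit 110) (nat_lit 5) (nat_lit 320) (nat_lit 295) (nat_lit 273)) (XT.lf (nat_lit 0) (nat_lit 439573016) (nat_lit 840) (nat_lit 291611993) (nat_lit 84) (nat_lit 6812065971) (nat_lit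 99) (nat_lit 5) (nat_lit 109) (nat_lit 5) (nat_lit 100) (nat_lit 5) (nat_lit 321) (nat_lit 295) (nat_lit 272))) (XT.nd (nat_lit 94) (nat_lit 924) (nat_lit 0) (XT.lf (nat_lit 0) (nat_lit 2178676189) (nat_lit 924) (nat_lit 4775180781) (nat_lit 84) (nat_lit 684256255) (nat_lit 89) (nat_lit 5) (nat_lit 100) (nat_lit 5) (nat_lit 90) (nat_lit 5) (nat_lit 322) (nat_lit 295) (nat_lit 271)) (XT.nd (nat_lit 94) (nat_lit 924) (nat_lit 0) (XT.lf (nat_lit 0) (nat_lit 3928822709) (nat_lit 924) (nat_lit 1669777976) (nat_lit 84) (nat_lit 2139092573) (nat_lit 89) (nat_lit 5) (nat_lit 100) (nat_lit 5) (nat_lit 90) (nat_lit 5) (nat_lit 323) (nat_lit 295) (nat_lit 270)) (XT.lf (nat_lit 0) (nat_lit 1515979588) (nat_lit 924) (nat_lit 4180467060) (nat_lit 1008) (nat_lit 2145488365) (nat_lit 78) (nat_lit 5) (nat_lit 89) (nat_lit 5) (nat_lit 90) (nat_lit 5) (nat_lit 324) (nat_lit 295) (nat_lit 269))))))))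
noncomputable def xc44 : XT := (XT.nd (nat_lit 1598) (nat_lit 1596) (nat_lit 0) (XT.nd (nat_lit 752) (nat_lit 1260) (nat_lit 0) (XT.nd (nat_lit 376) (nat_lit 1008) (nat_lit 0) (XT.nd (nat_lit 188) (nat_lit 0) (nat_lit 0) (XT.nd (nat_lit 94) (nat_lit 756) (nat_lit 0) (XT.lf (nat_lit 0) (nat_lit 4789908045) (nat_lit 924) (nat_lit 2695673921) (nat_lit 1008) (nat_lit 465279711) (nat_lit 78) (nat_lit 5) (nat_lit 89) (nat_lit 5) (nat_lit 90) (nat_lit 5) (nat_lit 325) (nat_lit 295) (nat_lit 268)) (XT.lf (nat_lit 0) (nat_lit 44460109) (nat_lit 672) (nat_lit 1147375902) (nat_lit 756) (nat_lit 6872875238) (nat_lit 69) (nat_lit 5) (nat_lit 77) (nat_lit 5) (nat_lit 78) (nat_lit 5) (nat_lit 326) (nat_lit 295) (nat_lit 267))) (XT.nd (nat_lit 94) (nat_lit 0) (nat_lit 0) (XT.lf (nat_lit 0) (nat_lit 2879437773) (nat_lit 756) (nat_lit 4821867887) (nat_lit 84) (nat_lit 481369468) (nat_lit 69) (nat_lit 5)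 (nat_lit 78) (nat_lit 5) (nat_lit 70) (nat_lit 5) (nat_lit 327) (nat_lit 295) (nat_lit 266)) (XT.lf (nat_lit 0) (nat_lit 4583559347) (nat_lit 756) (nat_lit 1582144659) (nat_lit 84) (nat_lit 2140074671) (nat_lit 69) (nat_lit 5) (nat_lit 78) (nat_lit 5) (nat_lit 70) (nat_lit 5) (nat_lit 328) (nat_lit 295) (nat_lit 265)))) (XT.nd (nat_lit 188) (nat_lit 504) (nat_lit 0) (XT.nd (nat_lit 94) (nat_lit 0) (nat_lit 0) (XT.lf (nat_lit 0) (nat_lit 1748549798) (nat_lit 504) (nat_lit 4563203075) (nat_lit 588) (nat_lit 2122198894) (nat_lit 63) (nat_lit 5) (nat_lit 69) (nat_lit 5) (nat_lit 70) (nat_lit 5) (nat_lit 329) (nat_lit 295) (nat_lit 264)) (XT.lf (nat_lit 0) (nat_lit 5171799288) (nat_lit 504) (nat_lit 2893081149) (nat_lit 588) (nat_lit 502456640) (nat_lit 63) (nat_lit 5) (nat_lit 69) (nat_lit 5) (nat_lit 70) (nat_lit 5) (nat_lit 330) (nat_lit 295) (nat_lit 263))) (XT.nd (nat_lit 94) (nat_lit 420)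 (nat_lit 0) (XT.lf (nat_lit 0) (nat_lit 1099396997) (nat_lit 588) (nat_lit 59423398) (nat_lit 84) (nat_lit 7547390053) (nat_lit 62) (nat_lit 5) (nat_lit 69) (nat_lit 5) (nat_lit 63) (nat_lit 5) (nat_lit 331) (nat_lit 295) (nat_lit 262)) (XT.lf (nat_lit 0) (nat_lit 2737611528) (nat_lit 504) (nat_lit 5455826821) (nat_lit 84) (nat_lit 656200175) (nat_lit 57) (nat_lit 5) (nat_lit 63) (nat_lit 5) (nat_lit 58) (nat_lit 5) (nat_lit 332) (nat_lit 295) (nat_lit 261))))) (XT.nd (nat_lit 376) (nat_lit 756) (nat_lit 0) (XT.nd (nat_lit 188) (nat_lit 84) (nat_lit 0) (XT.nd (nat_lit 94) (nat_lit 420) (nat_lit 0) (XT.lf (nat_lit 0) (nat_lit 4396730725) (nat_lit 504) (nat_lit 2098011252) (nat_lit 84) (nat_lit 2504007838) (nat_lit 57) (nat_lit 5) (nat_lit 63) (nat_lit 5) (nat_lit 58) (nat_lit 5) (nat_lit 333) (nat_lit 295) (nat_lit 260)) (XT.lf (nat_lit 0) (nat_lit 1348370636) (nat_lit 420) (nat_lit 4731203026)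 (nat_lit 504) (nat_lit 3074070198) (nat_lit 52) (nat_lit 5) (nat_lit 57) (nat_lit 5) (nat_lit 58) (nat_lit 5) (nat_lit 334) (nat_lit 295) (nat_lit 259))) (XT.nd (nat_lit 94) (nat_lit 84) (nat_lit 0) (XT.lf (nat_lit 0) (nat_lit 4903806698) (nat_lit 420) (nat_lit 2892408118) (nat_lit 504) (nat_lit 1517986536) (nat_lit 52) (nat_lit 5) (nat_lit 57) (nat_lit 5) (nat_lit 58) (nat_lit 5) (nat_lit 335) (nat_lit 295) (nat_lit 258)) (XT.lf (nat_lit 0) (nat_lit 44860958) (nat_lit 504) (nat_lit 953213024) (nat_lit 84) (nat_lit 8483142343) (nat_lit 51) (nat_lit 5) (nat_lit 57) (nat_lit 5) (nat_lit 52) (nat_lit 5) (nat_lit 336) (nat_lit 295) (nat_lit 257)))) (XT.nd (nat_lit 188) (nat_lit 420) (nat_lit 0) (XT.nd (nat_lit 94) (nat_lit 0) (nat_lit 0) (XT.lf (nat_lit 0) (nat_lit 1621823408) (nat_lit 420) (nat_lit 7056130099) (nat_lit 84) (nat_lit 975327489) (nat_lit 47) (nat_lit 5) (nat_lit 52) (nat_lit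 5) (nat_lit 48) (nat_lit 5) (nat_lit 337) (nat_lit 295) (nat_lit 256)) (XT.lf (nat_lit 0) (nat_lit 3230122493) (nat_lit 420) (nat_lit 3604704331) (nat_lit 84) (nat_lit 2996655540) (nat_lit 47) (nat_lit 5) (nat_lit 52) (nat_lit 5) (nat_lit 48) (nat_lit 5) (nat_lit 338) (nat_lit 295) (nat_lit 255))) (XT.nd (nat_lit 94) (nat_lit 420) (nat_lit 0) (XT.lf (nat_lit 0) (nat_lit 4851607171) (nat_lit 420) (nat_lit 86834415) (nat_lit 84) (nat_lit 5078154101) (nat_lit 47) (nat_lit 5) (nat_lit 52) (nat_lit 5) (nat_lit 48) (nat_lit 5) (nat_lit 339) (nat_lit 295) (nat_lit 254)) (XT.nd (nat_lit 94) (nat_lit 0) (nat_lit 0) (XT.lf (nat_lit 0) (nat_lit 3572741448) (nat_lit 420) (nat_lit 2950489426) (nat_lit 504) (nat_lit 3684463933) (nat_lit 42) (nat_lit 5) (nat_lit 47) (nat_lit 5) (nat_lit 48) (nat_lit 5) (nat_lit 340) (nat_lit 295) (nat_lit 253)) (XT.lf (nat_lit 0) (nat_lit 7308672400) (nat_lit 420) (nat_lit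 904023116) (nat_lit 504) (nat_lit 2193311874) (nat_lit 42) (nat_lit 5) (nat_lit 47) (nat_lit 5) (nat_lit 48) (nat_lit 5) (nat_lit 341) (nat_lit 295) (nat_lit 252))))))) (XT.nd (nat_lit 752) (nat_lit 588) (nat_lit 0) (XT.nd (nat_lit 376) (nat_lit 252) (nat_lit 0) (XT.nd (nat_lit 188) (nat_lit 336) (nat_lit 0) (XT.nd (nat_lit 94) (nat_lit 84) (nat_lit 0) (XT.lf (nat_lit 0) (nat_lit 509246288) (nat_lit 336) (nat_lit 9428425812) (nat_lit 420) (nat_lit 673547201) (nat_lit 38) (nat_lit 5) (nat_lit 42) (nat_lit 5) (nat_lit 43) (nat_lit 5) (nat_lit 342) (nat_lit 295) (nat_lit 251)) (XT.lf (nat_lit 0) (nat_lit 883440363) (nat_lit 420) (nat_lit 6586452126) (nat_lit 84) (nat_lit 3352589572) (nat_lit 37) (nat_lit 5) (nat_lit 42) (nat_lit 5) (nat_lit 38) (nat_lit 5) (nat_lit 343) (nat_lit 295) (nat_lit 250))) (XT.nd (nat_lit 94) (nat_lit 336) (nat_lit 0) (XT.lf (nat_lit 0) (nat_lit 2441921896) (nat_lit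 420) (nat_lit 3007167115) (nat_lit 84) (nat_lit 5592216524) (nat_lit 37) (nat_lit 5) (nat_lit 42) (nat_lit 5) (nat_lit 38) (nat_lit 5) (nat_lit 344) (nat_lit 295) (nat_lit 249)) (XT.lf (nat_lit 0) (nat_lit 659180985) (nat_lit 336) (nat_lit 3364278712) (nat_lit 420) (nat_lit 7244438414) (nat_lit 33) (nat_lit 5) (nat_lit 37) (nat_lit 5) (nat_lit 38) (nat_lit 5) (nat_lit 345) (nat_lit 295) (nat_lit 248)))) (XT.nd (nat_lit 188) (nat_lit 252) (nat_lit 0) (XT.nd (nat_lit 94) (nat_lit 0) (nat_lit 0) (XT.lf (nat_lit 0) (nat_lit 4466136840) (nat_lit 336) (nat_lit 1188072150) (nat_lit 420) (nat_lit 5847496890) (nat_lit 33) (nat_lit 5) (nat_lit 37) (nat_lit 5) (nat_lit 38) (nat_lit 5) (nat_lit 346) (nat_lit 295) (nat_lit 247)) (XT.lf (nat_lit 0) (nat_lit 7315662759) (nat_lit 420) (nat_lit 3398892985) (nat_lit 84) (nat_lit 1029011873) (nat_lit 33) (nat_lit 5) (nat_lit 38) (nat_lit 5) (nat_lit 34) (nat_lit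 5) (nat_lit 347) (nat_lit 295) (nat_lit 246))) (XT.nd (nat_lit 94) (nat_lit 0) (nat_lit 0) (XT.lf (nat_lit 0) (nat_lit 308930676) (nat_lit 252) (nat_lit 8705497998) (nat_lit 336) (nat_lit 2979123257) (nat_lit 30) (nat_lit 5) (nat_lit 33) (nat_lit 5) (nat_lit 34) (nat_lit 5) (nat_lit 348) (nat_lit 295) (nat_lit 245)) (XT.lf (nat_lit 0) (nat_lit 4168450234) (nat_lit 252) (nat_lit 6604008903) (nat_lit 336) (nat_lit 1478801259) (nat_lit 30) (nat_lit 5) (nat_lit 33) (nat_lit 5) (nat_lit 34) (nat_lit 5) (nat_lit 349) (nat_lit 295) (nat_lit 244))))) (XT.nd (nat_lit 376) (nat_lit 252) (nat_lit 0) (XT.nd (nat_lit 188) (nat_lit 252) (nat_lit 0) (XT.nd (nat_lit 94) (nat_lit 0) (nat_lit 0) (XT.lf (nat_lit 0) (nat_lit 38196717) (nat_lit 336) (nat_lit 4405011709) (nat_lit 84) (nat_lit 8074779542) (nat_lit 29) (nat_lit 5) (nat_lit 33) (nat_lit 5) (nat_lit 30) (nat_lit 5) (nat_lit 350) (nat_lit 295) (nat_lit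 243)) (XT.lf (nat_lit 0) (nat_lit 1543895946) (nat_lit 336) (nat_lit 662267880) (nat_lit 84) (nat_lit 10587370865) (nat_lit 29) (nat_lit 5) (nat_lit 33) (nat_lit 5) (nat_lit 30) (nat_lit 5) (nat_lit 351) (nat_lit 295) (nat_lit 242))) (XT.nd (nat_lit 94) (nat_lit 0) (nat_lit 0) (XT.lf (nat_lit 0) (nat_lit 3102783767) (nat_lit 336) (nat_lit 9850250674) (nat_lit 84) (nat_lit 124545764) (nat_lit 26) (nat_lit 5) (nat_lit 30) (nat_lit 5) (nat_lit 27) (nat_lit 5) (nat_lit 352) (nat_lit 295) (nat_lit 241)) (XT.lf (nat_lit 0) (nat_lit 4713186435) (nat_lit 336) (nat_lit 6174801751) (nat_lit 84) (nat_lit 2482498011) (nat_lit 26) (nat_lit 5) (nat_lit 30) (nat_lit 5) (nat_lit 27) (nat_lit 5) (nat_lit 353) (nat_lit 295) (nat_lit 240)))) (XT.nd (nat_lit 188) (nat_lit 0) (nat_lit 0) (XT.nd (nat_lit 94) (nat_lit 252) (nat_lit 0) (XT.lf (nat_lit 0) (nat_lit 6347946155) (nat_lit 336) (nat_lit 2417901345)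 (nat_lit 84) (nat_lit 4907566614) (nat_lit 26) (nat_lit 5) (nat_lit 30) (nat_lit 5) (nat_lit 27) (nat_lit 5) (nat_lit 354) (nat_lit 295) (nat_lit 239)) (XT.lf (nat_lit 0) (nat_lit 1453231749) (nat_lit 252) (nat_lit 6569771182) (nat_lit 336) (nat_lit 5963196479) (nat_lit 23) (nat_lit 5) (nat_lit 26) (nat_lit 5) (nat_lit 27) (nat_lit 5) (nat_lit 355) (nat_lit 295) (nat_lit 238))) (XT.nd (nat_lit 94) (nat_lit 0) (nat_lit 0) (XT.lf (nat_lit 0) (nat_lit 5464436621) (nat_lit 252) (nat_lit 4286427206) (nat_lit 336) (nat_lit 4557930491) (nat_lit 23) (nat_lit 5) (nat_lit 26) (nat_lit 5) (nat_lit 27) (nat_lit 5) (nat_lit 356) (nat_lit 295) (nat_lit 237)) (XT.nd (nat_lit 94) (nat_lit 0) (nat_lit 0) (XT.lf (nat_lit 0) (nat_lit 9569735121) (nat_lit 252) (nat_lit 1938925190) (nat_lit 336) (nat_lit 3133598070) (nat_lit 23) (nat_lit 5) (nat_lit 26) (nat_lit 5) (nat_lit 27) (nat_lit 5) (nat_lit 357) (nat_lit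 295) (nat_lit 236)) (XT.lf (nat_lit 0) (nat_lit 13302742127) (nat_lit 336) (nat_lit 1218659900) (nat_lit 84) (nat_lit 465354345) (nat_lit 23) (nat_lit 5) (nat_lit 27) (nat_lit 5) (nat_lit 24) (nat_lit 5) (nat_lit 358) (nat_lit 295) (nat_lit 235))))))))
noncomputable def xc45 : XT := (XT.nd (nat_lit 49820) (nat_lit 0) (nat_lit 9492) (XT.nd (nat_lit 752) (nat_lit 420) (nat_lit 0) (XT.nd (nat_lit 376) (nat_lit 168) (nat_lit 0) (XT.nd (nat_lit 188) (nat_lit 0) (nat_lit 0) (XT.nd (nat_lit 94) (nat_lit 84) (nat_lit 0) (XT.lf (nat_lit 0) (nat_lit 2761258621) (nat_lit 252) (nat_lit 12416114127) (nat_lit 336) (nat_lit 163916325) (nat_lit 20) (nat_lit 5) (nat_lit 23) (nat_lit 5) (nat_lit 24) (nat_lit 5) (nat_lit 359) (nat_lit 295) (nat_lit 234)) (XT.lf (nat_lit 0) (nat_lit 1365628628) (nat_lit 336) (nat_lit 8859578961) (nat_lit 84) (nat_lit 5481585208) (nat_lit 19) (nat_lit 5) (nat_lit 23) (nat_lit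 5) (nat_lit 20) (nat_lit 5) (nat_lit 360) (nat_lit 295) (nat_lit 233))) (XT.nd (nat_lit 94) (nat_lit 0) (nat_lit 0) (XT.lf (nat_lit 0) (nat_lit 2917600695) (nat_lit 336) (nat_lit 5054082479) (nat_lit 84) (nat_lit 8112678044) (nat_lit 19) (nat_lit 5) (nat_lit 23) (nat_lit 5) (nat_lit 20) (nat_lit 5) (nat_lit 361) (nat_lit 295) (nat_lit 232)) (XT.lf (nat_lit 0) (nat_lit 4496749026) (nat_lit 336) (nat_lit 1158367814) (nat_lit 84) (nat_lit 10819279840) (nat_lit 19) (nat_lit 5) (nat_lit 23) (nat_lit 5) (nat_lit 20) (nat_lit 5) (nat_lit 362) (nat_lit 295) (nat_lit 231)))) (XT.nd (nat_lit 188) (nat_lit 0) (nat_lit 0) (XT.nd (nat_lit 94) (nat_lit 0) (nat_lit 0) (XT.lf (nat_lit 0) (nat_lit 2889411447) (nat_lit 168) (nat_lit 3243797424) (nat_lit 252) (nat_lit 10743165302) (nat_lit 17) (nat_lit 5) (nat_lit 19) (nat_lit 5) (nat_lit 20) (nat_lit 5) (nat_lit 363) (nat_lit 295) (nat_lit 230)) (XT.lf (nat_lit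 0) (nat_lit 7060583416) (nat_lit 168) (nat_lit 751947353) (nat_lit 252) (nat_lit 9478632832) (nat_lit 17) (nat_lit 5) (nat_lit 19) (nat_lit 5) (nat_lit 20) (nat_lit 5) (nat_lit 364) (nat_lit 295) (nat_lit 229))) (XT.nd (nat_lit 94) (nat_lit 0) (nat_lit 0) (XT.lf (nat_lit 0) (nat_lit 9542514613) (nat_lit 252) (nat_lit 6402259523) (nat_lit 84) (nat_lit 1774184185) (nat_lit 17) (nat_lit 5) (nat_lit 20) (nat_lit 5) (nat_lit 18) (nat_lit 5) (nat_lit 365) (nat_lit 295) (nat_lit 228)) (XT.lf (nat_lit 0) (nat_lit 11314979240) (nat_lit 252) (nat_lit 2488638654) (nat_lit 84) (nat_lit 4356842789) (nat_lit 17) (nat_lit 5) (nat_lit 20) (nat_lit 5) (nat_lit 18) (nat_lit 5) (nat_lit 366) (nat_lit 295) (nat_lit 227))))) (XT.nd (nat_lit 376) (nat_lit 252) (nat_lit 0) (XT.nd (nat_lit 188) (nat_lit 0) (nat_lit 0) (XT.nd (nat_lit 94) (nat_lit 0) (nat_lit 0) (XT.lf (nat_lit 0) (nat_lit 1552672627) (nat_lit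 168) (nat_lit 11586847440) (nat_lit 252) (nat_lit 5476315907) (nat_lit 15) (nat_lit 5) (nat_lit 17) (nat_lit 5) (nat_lit 18) (nat_lit 5) (nat_lit 367) (nat_lit 295) (nat_lit 226)) (XT.lf (nat_lit 0) (nat_lit 5747359905) (nat_lit 168) (nat_lit 9281269906) (nat_lit 252) (nat_lit 4056544288) (nat_lit 15) (nat_lit 5) (nat_lit 17) (nat_lit 5) (nat_lit 18) (nat_lit 5) (nat_lit 368) (nat_lit 295) (nat_lit 225))) (XT.nd (nat_lit 94) (nat_lit 0) (nat_lit 0) (XT.lf (nat_lit 0) (nat_lit 10048161550) (nat_lit 168) (nat_lit 6910712535) (nat_lit 252) (nat_lit 2610819495) (nat_lit 15) (nat_lit 5) (nat_lit 17) (nat_lit 5) (nat_lit 18) (nat_lit 5) (nat_lit 369) (nat_lit 295) (nat_lit 224)) (XT.lf (nat_lit 0) (nat_lit 14459086360) (nat_lit 168) (nat_lit 4472965720) (nat_lit 252) (nat_lit 1137793960) (nat_lit 15) (nat_lit 5) (nat_lit 17) (nat_lit 5) (nat_lit 18) (nat_lit 5) (nat_lit 370) (nat_lit 295) (nat_lit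 223)))) (XT.nd (nat_lit 188) (nat_lit 0) (nat_lit 0) (XT.nd (nat_lit 94) (nat_lit 168) (nat_lit 0) (XT.lf (nat_lit 0) (nat_lit 356573449) (nat_lit 252) (nat_lit 1605461881) (nat_lit 84) (nat_lit 18623950435) (nat_lit 14) (nat_lit 5) (nat_lit 17) (nat_lit 5) (nat_lit 15) (nat_lit 5) (nat_lit 371) (nat_lit 295) (nat_lit 222)) (XT.lf (nat_lit 0) (nat_lit 1889228376) (nat_lit 252) (nat_lit 18582774177) (nat_lit 84) (nat_lit 645360102) (nat_lit 12) (nat_lit 5) (nat_lit 15) (nat_lit 5) (nat_lit 13) (nat_lit 5) (nat_lit 372) (nat_lit 295) (nat_lit 221))) (XT.nd (nat_lit 94) (nat_lit 0) (nat_lit 0) (XT.lf (nat_lit 0) (nat_lit 3490450824) (nat_lit 252) (nat_lit 14870441194) (nat_lit 84) (nat_lit 3303746141) (nat_lit 12) (nat_lit 5) (nat_lit 15) (nat_lit 5) (nat_lit 13) (nat_lit 5) (nat_lit 373) (nat_lit 295) (nat_lit 220)) (XT.nd (nat_lit 94) (nat_lit 0) (nat_lit 0) (XT.lf (nat_lit 0) (nat_lit 5125849569)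 (nat_lit 252) (nat_lit 11064874001) (nat_lit 84) (nat_lit 6038711222) (nat_lit 12) (nat_lit 5) (nat_lit 15) (nat_lit 5) (nat_lit 13) (nat_lit 5) (nat_lit 374) (nat_lit 295) (nat_lit 219)) (XT.lf (nat_lit 0) (nat_lit 6796948972) (nat_lit 252) (nat_lit 7162525410) (nat_lit 84) (nat_lit 8852804618) (nat_lit 12) (nat_lit 5) (nat_lit 15) (nat_lit 5) (nat_lit 13) (nat_lit 5) (nat_lit 375) (nat_lit 295) (nat_lit 218))))))) (XT.nd (nat_lit 846) (nat_lit 1764) (nat_lit 0) (XT.nd (nat_lit 376) (nat_lit 252) (nat_lit 0) (XT.nd (nat_lit 188) (nat_lit 168) (nat_lit 0) (XT.nd (nat_lit 94) (nat_lit 84) (nat_lit 0) (XT.lf (nat_lit 0) (nat_lit 1073741823) (nat_lit 0) (nat_lit 0) (nat_lit 0) (nat_lit 0) (nat_lit 152) (nat_lit 0) (nat_lit 1) (nat_lit 0) (nat_lit 1) (nat_lit 0) (nat_lit 296) (nat_lit 296) (nat_lit 296)) (XT.lf (nat_lit 0) (nat_lit 2255452109) (nat_lit 84) (nat_lit 4142387837) (nat_lit 0) (nat_lit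 45897643) (nat_lit 151) (nat_lit 5) (nat_lit 152) (nat_lit 0) (nat_lit 151) (nat_lit 4) (nat_lit 297) (nat_lit 296) (nat_lit 295))) (XT.nd (nat_lit 94) (nat_lit 168) (nat_lit 0) (XT.lf (nat_lit 0) (nat_lit 4490407991) (nat_lit 84) (nat_lit 1820877852) (nat_lit 0) (nat_lit 137735713) (nat_lit 151) (nat_lit 5) (nat_lit 152) (nat_lit 0) (nat_lit 151) (nat_lit 4) (nat_lit 298) (nat_lit 296) (nat_lit 294)) (XT.lf (nat_lit 0) (nat_lit 248995259) (nat_lit 168) (nat_lit 5925641677) (nat_lit 84) (nat_lit 283428152) (nat_lit 149) (nat_lit 5) (nat_lit 151) (nat_lit 5) (nat_lit 150) (nat_lit 4) (nat_lit 299) (nat_lit 296) (nat_lit 293)))) (XT.nd (nat_lit 188) (nat_lit 252) (nat_lit 0) (XT.nd (nat_lit 94) (nat_lit 0) (nat_lit 0) (XT.lf (nat_lit 0) (nat_lit 2416081823) (nat_lit 168) (nat_lit 3540466142) (nat_lit 84) (nat_lit 513389996) (nat_lit 149) (nat_lit 5) (nat_lit 151) (nat_lit 5) (nat_lit 150)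 (nat_lit 4) (nat_lit 300) (nat_lit 296) (nat_lit 292)) (XT.lf (nat_lit 0) (nat_lit 4565504479) (nat_lit 168) (nat_lit 1130543796) (nat_lit 84) (nat_lit 789782606) (nat_lit 149) (nat_lit 5) (nat_lit 151) (nat_lit 5) (nat_lit 150) (nat_lit 4) (nat_lit 301) (nat_lit 296) (nat_lit 291))) (XT.nd (nat_lit 94) (nat_lit 0) (nat_lit 0) (XT.lf (nat_lit 0) (nat_lit 202970401) (nat_lit 252) (nat_lit 5174170217) (nat_lit 84) (nat_lit 1128144344) (nat_lit 146) (nat_lit 5) (nat_lit 149) (nat_lit 5) (nat_lit 147) (nat_lit 5) (nat_lit 302) (nat_lit 296) (nat_lit 290)) (XT.nd (nat_lit 94) (nat_lit 0) (nat_lit 0) (XT.lf (nat_lit 0) (nat_lit 2282071170) (nat_lit 252) (nat_lit 2701536716) (nat_lit 84) (nat_lit 1544231774) (nat_lit 146) (nat_lit 5) (nat_lit 149) (nat_lit 5) (nat_lit 147) (nat_lit 5) (nat_lit 303) (nat_lit 296) (nat_lit 289)) (XT.lf (nat_lit 0) (nat_lit 4346041336) (nat_lit 252) (nat_lit 200603601)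 (nat_lit 84) (nat_lit 2007820054) (nat_lit 146) (nat_lit 5) (nat_lit 149) (nat_lit 5) (nat_lit 147) (nat_lit 5) (nat_lit 304) (nat_lit 296) (nat_lit 288)))))) (XT.nd (nat_lit 376) (nat_lit 1092) (nat_lit 0) (XT.nd (nat_lit 188) (nat_lit 336) (nat_lit 0) (XT.nd (nat_lit 94) (nat_lit 84) (nat_lit 0) (XT.lf (nat_lit 0) (nat_lit 2378889584) (nat_lit 252) (nat_lit 4041514032) (nat_lit 336) (nat_lit 164050592) (nat_lit 143) (nat_lit 5) (nat_lit 146) (nat_lit 5) (nat_lit 147) (nat_lit 5) (nat_lit 305) (nat_lit 296) (nat_lit 287)) (XT.lf (nat_lit 0) (nat_lit 1829718620) (nat_lit 336) (nat_lit 1640842084) (nat_lit 84) (nat_lit 3147359240) (nat_lit 142) (nat_lit 5) (nat_lit 146) (nat_lit 5) (nat_lit 143) (nat_lit 5) (nat_lit 306) (nat_lit 296) (nat_lit 286))) (XT.nd (nat_lit 94) (nat_lit 0) (nat_lit 0) (XT.lf (nat_lit 0) (nat_lit 973970045) (nat_lit 336) (nat_lit 2842958513) (nat_lit 420) (nat_lit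 2838256670) (nat_lit 138) (nat_lit 5) (nat_lit 142) (nat_lit 5) (nat_lit 143) (nat_lit 5) (nat_lit 307) (nat_lit 296) (nat_lit 285)) (XT.lf (nat_lit 0) (nat_lit 3657743560) (nat_lit 336) (nat_lit 2152283755) (nat_lit 420) (nat_lit 886081919) (nat_lit 138) (nat_lit 5) (nat_lit 142) (nat_lit 5) (nat_lit 143) (nat_lit 5) (nat_lit 308) (nat_lit 296) (nat_lit 284)))) (XT.nd (nat_lit 188) (nat_lit 588) (nat_lit 0) (XT.nd (nat_lit 94) (nat_lit 420) (nat_lit 0) (XT.lf (nat_lit 0) (nat_lit 1031799615) (nat_lit 420) (nat_lit 372450190) (nat_lit 84) (nat_lit 5336671451) (nat_lit 137) (nat_lit 5) (nat_lit 142) (nat_lit 5) (nat_lit 138) (nat_lit 5) (nat_lit 309) (nat_lit 296) (nat_lit 283)) (XT.lf (nat_lit 0) (nat_lit 2368514000) (nat_lit 420) (nat_lit 575767732) (nat_lit 504) (nat_lit 3844708059) (nat_lit 132) (nat_lit 5) (nat_lit 137) (nat_lit 5) (nat_lit 138) (nat_lit 5) (nat_lit 310) (nat_lit 296)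 (nat_lit 282))) (XT.nd (nat_lit 94) (nat_lit 588) (nat_lit 0) (XT.lf (nat_lit 0) (nat_lit 4854668400) (nat_lit 504) (nat_lit 1687697305) (nat_lit 84) (nat_lit 298772699) (nat_lit 132) (nat_lit 5) (nat_lit 138) (nat_lit 5) (nat_lit 133) (nat_lit 5) (nat_lit 311) (nat_lit 296) (nat_lit 281)) (XT.nd (nat_lit 94) (nat_lit 84) (nat_lit 0) (XT.lf (nat_lit 0) (nat_lit 1098700901) (nat_lit 504) (nat_lit 5676339409) (nat_lit 588) (nat_lit 122056093) (nat_lit 126) (nat_lit 5) (nat_lit 132) (nat_lit 5) (nat_lit 133) (nat_lit 5) (nat_lit 312) (nat_lit 296) (nat_lit 280)) (XT.lf (nat_lit 0) (nat_lit 1715884288) (nat_lit 588) (nat_lit 3013869801) (nat_lit 84) (nat_lit 2226596425) (nat_lit 125) (nat_lit 5) (nat_lit 132) (nat_lit 5) (nat_lit 126) (nat_lit 5) (nat_lit 313) (nat_lit 296) (nat_lit 279))))))))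
noncomputable def xc46 : XT := (XT.nd (nat_lit 1598) (nat_lit 2436) (nat_lit 0) (XT.nd (nat_lit 752) (nat_lit 3108) (nat_lit 0) (XT.nd (nat_lit 376) (nat_lit 840) (nat_lit 0) (XT.nd (nat_lit 188) (nat_lit 756) (nat_lit 0) (XT.nd (nat_lit 94) (nat_lit 588) (nat_lit 0) (XT.lf (nat_lit 0) (nat_lit 3544446296) (nat_lit 588) (nat_lit 191648115) (nat_lit 84) (nat_lit 3283894901) (nat_lit 125) (nat_lit 5) (nat_lit 132) (nat_lit 5) (nat_lit 126) (nat_lit 5) (nat_lit 314) (nat_lit 296) (nat_lit 278)) (XT.lf (nat_lit 0) (nat_lit 2727055057) (nat_lit 588) (nat_lit 2667791166) (nat_lit 672) (nat_lit 1692424790) (nat_lit 118) (nat_lit 5) (nat_lit 125) (nat_lit 5) (nat_lit 126) (nat_lit 5) (nat_lit 315) (nat_lit 296) (nat_lit 277))) (XT.nd (nat_lit 94) (nat_lit 672) (nat_lit 0) (XT.lf (nat_lit 0) (nat_lit 83380514) (nat_lit 672) (nat_lit 1465053263) (nat_lit 84) (nat_lit 5610563779) (nat_lit 117) (nat_lit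 5) (nat_lit 125) (nat_lit 5) (nat_lit 118) (nat_lit 5) (nat_lit 316) (nat_lit 296) (nat_lit 276)) (XT.lf (nat_lit 0) (nat_lit 1486615224) (nat_lit 672) (nat_lit 347397107) (nat_lit 756) (nat_lit 5400334009) (nat_lit 109) (nat_lit 5) (nat_lit 117) (nat_lit 5) (nat_lit 118) (nat_lit 5) (nat_lit 317) (nat_lit 296) (nat_lit 275)))) (XT.nd (nat_lit 188) (nat_lit 84) (nat_lit 0) (XT.nd (nat_lit 94) (nat_lit 756) (nat_lit 0) (XT.lf (nat_lit 0) (nat_lit 3604861964) (nat_lit 756) (nat_lit 2807593110) (nat_lit 84) (nat_lit 901153490) (nat_lit 109) (nat_lit 5) (nat_lit 118) (nat_lit 5) (nat_lit 110) (nat_lit 5) (nat_lit 318) (nat_lit 296) (nat_lit 274)) (XT.lf (nat_lit 0) (nat_lit 177261305) (nat_lit 756) (nat_lit 5202074356) (nat_lit 840) (nat_lit 2018088027) (nat_lit 100) (nat_lit 5) (nat_lit 109) (nat_lit 5) (nat_lit 110) (nat_lit 5) (nat_lit 319) (nat_lit 296) (nat_lit 273))) (XT.nd (nat_lit 94)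 (nat_lit 84) (nat_lit 0) (XT.lf (nat_lit 0) (nat_lit 3268189699) (nat_lit 756) (nat_lit 3914595340) (nat_lit 840) (nat_lit 302350168) (nat_lit 100) (nat_lit 5) (nat_lit 109) (nat_lit 5) (nat_lit 110) (nat_lit 5) (nat_lit 320) (nat_lit 296) (nat_lit 272)) (XT.lf (nat_lit 0) (nat_lit 1382337023) (nat_lit 840) (nat_lit 1181357689) (nat_lit 84) (nat_lit 5013577481) (nat_lit 99) (nat_lit 5) (nat_lit 109) (nat_lit 5) (nat_lit 100) (nat_lit 5) (nat_lit 321) (nat_lit 296) (nat_lit 271))))) (XT.nd (nat_lit 376) (nat_lit 1260) (nat_lit 0) (XT.nd (nat_lit 188) (nat_lit 1008) (nat_lit 0) (XT.nd (nat_lit 94) (nat_lit 0) (nat_lit 0) (XT.lf (nat_lit 0) (nat_lit 1939526533) (nat_lit 840) (nat_lit 1139636917) (nat_lit 924) (nat_lit 4594502210) (nat_lit 89) (nat_lit 5) (nat_lit 99) (nat_lit 5) (nat_lit 100) (nat_lit 5) (nat_lit 322) (nat_lit 296) (nat_lit 270)) (XT.lf (nat_lit 0) (nat_lit 4792492160) (nat_lit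 924) (nat_lit 2640304610) (nat_lit 84) (nat_lit 341804282) (nat_lit 89) (nat_lit 5) (nat_lit 100) (nat_lit 5) (nat_lit 90) (nat_lit 5) (nat_lit 323) (nat_lit 296) (nat_lit 269))) (XT.nd (nat_lit 94) (nat_lit 84) (nat_lit 0) (XT.lf (nat_lit 0) (nat_lit 502854884) (nat_lit 924) (nat_lit 6022465530) (nat_lit 1008) (nat_lit 1354808634) (nat_lit 78) (nat_lit 5) (nat_lit 89) (nat_lit 5) (nat_lit 90) (nat_lit 5) (nat_lit 324) (nat_lit 296) (nat_lit 268)) (XT.lf (nat_lit 0) (nat_lit 294179773) (nat_lit 1008) (nat_lit 4238164057) (nat_lit 84) (nat_lit 3457571681) (nat_lit 77) (nat_lit 5) (nat_lit 89) (nat_lit 5) (nat_lit 78) (nat_lit 5) (nat_lit 325) (nat_lit 296) (nat_lit 267)))) (XT.nd (nat_lit 188) (nat_lit 588) (nat_lit 0) (XT.nd (nat_lit 94) (nat_lit 672) (nat_lit 0) (XT.lf (nat_lit 0) (nat_lit 1917557535) (nat_lit 1008) (nat_lit 1060243946) (nat_lit 84) (nat_lit 5126765194) (nat_lit 77) (nat_lit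 5) (nat_lit 89) (nat_lit 5) (nat_lit 78) (nat_lit 5) (nat_lit 326) (nat_lit 296) (nat_lit 266)) (XT.lf (nat_lit 0) (nat_lit 2217567227) (nat_lit 672) (nat_lit 1348565497) (nat_lit 756) (nat_lit 4657791366) (nat_lit 69) (nat_lit 5) (nat_lit 77) (nat_lit 5) (nat_lit 78) (nat_lit 5) (nat_lit 327) (nat_lit 296) (nat_lit 265))) (XT.nd (nat_lit 94) (nat_lit 588) (nat_lit 0) (XT.lf (nat_lit 0) (nat_lit 5234177373) (nat_lit 756) (nat_lit 2775259427) (nat_lit 84) (nat_lit 338887412) (nat_lit 69) (nat_lit 5) (nat_lit 78) (nat_lit 5) (nat_lit 70) (nat_lit 5) (nat_lit 328) (nat_lit 296) (nat_lit 264)) (XT.nd (nat_lit 94) (nat_lit 84) (nat_lit 0) (XT.lf (nat_lit 0) (nat_lit 509121183) (nat_lit 504) (nat_lit 6418937952) (nat_lit 588) (nat_lit 1549674661) (nat_lit 63) (nat_lit 5) (nat_lit 69) (nat_lit 5) (nat_lit 70) (nat_lit 5) (nat_lit 329) (nat_lit 296) (nat_lit 263)) (XT.lf (nat_lit 0) (nat_lit 46707018)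 (nat_lit 588) (nat_lit 4701183471) (nat_lit 84) (nat_lit 3864050076) (nat_lit 62) (nat_lit 5) (nat_lit 69) (nat_lit 5) (nat_lit 63) (nat_lit 5) (nat_lit 330) (nat_lit 296) (nat_lit 262))))))) (XT.nd (nat_lit 752) (nat_lit 1176) (nat_lit 0) (XT.nd (nat_lit 376) (nat_lit 840) (nat_lit 0) (XT.nd (nat_lit 188) (nat_lit 0) (nat_lit 0) (XT.nd (nat_lit 94) (nat_lit 420) (nat_lit 0) (XT.lf (nat_lit 0) (nat_lit 1617148363) (nat_lit 588) (nat_lit 1391139797) (nat_lit 84) (nat_lit 5743188920) (nat_lit 62) (nat_lit 5) (nat_lit 69) (nat_lit 5) (nat_lit 63) (nat_lit 5) (nat_lit 331) (nat_lit 296) (nat_lit 261)) (XT.lf (nat_lit 0) (nat_lit 2020689063) (nat_lit 420) (nat_lit 1193692101) (nat_lit 504) (nat_lit 5681947388) (nat_lit 57) (nat_lit 5) (nat_lit 62) (nat_lit 5) (nat_lit 63) (nat_lit 5) (nat_lit 332) (nat_lit 296) (nat_lit 260))) (XT.nd (nat_lit 94) (nat_lit 0) (nat_lit 0) (XT.lf (nat_lit 0) (nat_lit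 4841429857) (nat_lit 504) (nat_lit 3527002843) (nat_lit 84) (nat_lit 678149692) (nat_lit 57) (nat_lit 5) (nat_lit 63) (nat_lit 5) (nat_lit 58) (nat_lit 5) (nat_lit 333) (nat_lit 296) (nat_lit 259)) (XT.lf (nat_lit 0) (nat_lit 6491276101) (nat_lit 504) (nat_lit 128176070) (nat_lit 84) (nat_lit 2583191065) (nat_lit 57) (nat_lit 5) (nat_lit 63) (nat_lit 5) (nat_lit 58) (nat_lit 5) (nat_lit 334) (nat_lit 296) (nat_lit 258)))) (XT.nd (nat_lit 188) (nat_lit 336) (nat_lit 0) (XT.nd (nat_lit 94) (nat_lit 84) (nat_lit 0) (XT.lf (nat_lit 0) (nat_lit 3404442389) (nat_lit 420) (nat_lit 4782946253) (nat_lit 504) (nat_lit 1176588049) (nat_lit 52) (nat_lit 5) (nat_lit 57) (nat_lit 5) (nat_lit 58) (nat_lit 5) (nat_lit 335) (nat_lit 296) (nat_lit 257)) (XT.lf (nat_lit 0) (nat_lit 360404891) (nat_lit 504) (nat_lit 2525836091) (nat_lit 84) (nat_lit 6645365262) (nat_lit 51) (nat_lit 5) (nat_lit 57) (nat_lit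 5) (nat_lit 52) (nat_lit 5) (nat_lit 336) (nat_lit 296) (nat_lit 256))) (XT.nd (nat_lit 94) (nat_lit 0) (nat_lit 0) (XT.lf (nat_lit 0) (nat_lit 982478652) (nat_lit 336) (nat_lit 910490072) (nat_lit 420) (nat_lit 7812205908) (nat_lit 47) (nat_lit 5) (nat_lit 51) (nat_lit 5) (nat_lit 52) (nat_lit 5) (nat_lit 337) (nat_lit 296) (nat_lit 255)) (XT.lf (nat_lit 0) (nat_lit 3474179663) (nat_lit 420) (nat_lit 5282203598) (nat_lit 84) (nat_lit 1127956002) (nat_lit 47) (nat_lit 5) (nat_lit 52) (nat_lit 5) (nat_lit 48) (nat_lit 5) (nat_lit 338) (nat_lit 296) (nat_lit 254))))) (XT.nd (nat_lit 376) (nat_lit 756) (nat_lit 0) (XT.nd (nat_lit 188) (nat_lit 0) (nat_lit 0) (XT.nd (nat_lit 94) (nat_lit 420) (nat_lit 0) (XT.lf (nat_lit 0) (nat_lit 5078151275) (nat_lit 420) (nat_lit 1783698919) (nat_lit 84) (nat_lit 3208265113) (nat_lit 47) (nat_lit 5) (nat_lit 52) (nat_lit 5) (nat_lit 48) (nat_lit 5) (nat_lit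 339) (nat_lit 296) (nat_lit 253)) (XT.lf (nat_lit 0) (nat_lit 1821816748) (nat_lit 420) (nat_lit 4893602354) (nat_lit 504) (nat_lit 3546976570) (nat_lit 42) (nat_lit 5) (nat_lit 47) (nat_lit 5) (nat_lit 48) (nat_lit 5) (nat_lit 340) (nat_lit 296) (nat_lit 252))) (XT.nd (nat_lit 94) (nat_lit 0) (nat_lit 0) (XT.lf (nat_lit 0) (nat_lit 5539154896) (nat_lit 420) (nat_lit 2849068669) (nat_lit 504) (nat_lit 2073113876) (nat_lit 42) (nat_lit 5) (nat_lit 47) (nat_lit 5) (nat_lit 48) (nat_lit 5) (nat_lit 341) (nat_lit 296) (nat_lit 251)) (XT.lf (nat_lit 0) (nat_lit 9335103963) (nat_lit 420) (nat_lit 744961577) (nat_lit 504) (nat_lit 587620313) (nat_lit 42) (nat_lit 5) (nat_lit 47) (nat_lit 5) (nat_lit 48) (nat_lit 5) (nat_lit 342) (nat_lit 296) (nat_lit 250)))) (XT.nd (nat_lit 188) (nat_lit 336) (nat_lit 0) (XT.nd (nat_lit 94) (nat_lit 0) (nat_lit 0) (XT.lf (nat_lit 0) (nat_lit 930476162) (nat_lit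 420) (nat_lit 8524761614) (nat_lit 84) (nat_lit 1424939222) (nat_lit 37) (nat_lit 5) (nat_lit 42) (nat_lit 5) (nat_lit 38) (nat_lit 5) (nat_lit 343) (nat_lit 296) (nat_lit 249)) (XT.lf (nat_lit 0) (nat_lit 2473302444) (nat_lit 420) (nat_lit 4963780775) (nat_lit 84) (nat_lit 3662502329) (nat_lit 37) (nat_lit 5) (nat_lit 42) (nat_lit 5) (nat_lit 38) (nat_lit 5) (nat_lit 344) (nat_lit 296) (nat_lit 248))) (XT.nd (nat_lit 94) (nat_lit 336) (nat_lit 0) (XT.lf (nat_lit 0) (nat_lit 4033116557) (nat_lit 420) (nat_lit 1328467505) (nat_lit 84) (nat_lit 5965364258) (nat_lit 37) (nat_lit 5) (nat_lit 42) (nat_lit 5) (nat_lit 38) (nat_lit 5) (nat_lit 345) (nat_lit 296) (nat_lit 247)) (XT.nd (nat_lit 94) (nat_lit 0) (nat_lit 0) (XT.lf (nat_lit 0) (nat_lit 2433598270) (nat_lit 336) (nat_lit 3201915737) (nat_lit 420) (nat_lit 5926214841) (nat_lit 33) (nat_lit 5) (nat_lit 37) (nat_lit 5) (nat_lit 38) (nat_lit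 5) (nat_lit 346) (nat_lit 296) (nat_lit 246)) (XT.lf (nat_lit 0) (nat_lit 6305831189) (nat_lit 336) (nat_lit 966264545) (nat_lit 420) (nat_lit 4532356915) (nat_lit 33) (nat_lit 5) (nat_lit 37) (nat_lit 5) (nat_lit 38) (nat_lit 5) (nat_lit 347) (nat_lit 296) (nat_lit 245))))))))
noncomputable def xc47 : XT := (XT.nd (nat_lit 1598) (nat_lit 420) (nat_lit 0) (XT.nd (nat_lit 752) (nat_lit 756) (nat_lit 0) (XT.nd (nat_lit 376) (nat_lit 252) (nat_lit 0) (XT.nd (nat_lit 188) (nat_lit 84) (nat_lit 0) (XT.nd (nat_lit 94) (nat_lit 252) (nat_lit 0) (XT.lf (nat_lit 0) (nat_lit 8944167010) (nat_lit 420) (nat_lit 1804467686) (nat_lit 84) (nat_lit 1306718094) (nat_lit 33) (nat_lit 5) (nat_lit 38) (nat_lit 5) (nat_lit 34) (nat_lit 5) (nat_lit 348) (nat_lit 296) (nat_lit 244)) (XT.lf (nat_lit 0) (nat_lit 2001089651) (nat_lit 252) (nat_lit 8669049709) (nat_lit 336) (nat_lit 1644001335) (nat_lit 30) (nat_lit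 5) (nat_lit 33) (nat_lit 5) (nat_lit 34) (nat_lit 5) (nat_lit 349) (nat_lit 296) (nat_lit 243))) (XT.nd (nat_lit 94) (nat_lit 84) (nat_lit 0) (XT.lf (nat_lit 0) (nat_lit 5929662613) (nat_lit 252) (nat_lit 6511624811) (nat_lit 336) (nat_lit 140090516) (nat_lit 30) (nat_lit 5) (nat_lit 33) (nat_lit 5) (nat_lit 34) (nat_lit 5) (nat_lit 350) (nat_lit 296) (nat_lit 242)) (XT.lf (nat_lit 0) (nat_lit 1355246880) (nat_lit 336) (nat_lit 2923791120) (nat_lit 84) (nat_lit 8578416604) (nat_lit 29) (nat_lit 5) (nat_lit 33) (nat_lit 5) (nat_lit 30) (nat_lit 5) (nat_lit 351) (nat_lit 296) (nat_lit 241)))) (XT.nd (nat_lit 188) (nat_lit 0) (nat_lit 0) (XT.nd (nat_lit 94) (nat_lit 0) (nat_lit 0) (XT.lf (nat_lit 0) (nat_lit 904559507) (nat_lit 252) (nat_lit 1972471297) (nat_lit 336) (nat_lit 10265695327) (nat_lit 26) (nat_lit 5) (nat_lit 29) (nat_lit 5) (nat_lit 30) (nat_lit 5) (nat_lit 352) (nat_lit 296)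 (nat_lit 240)) (XT.lf (nat_lit 0) (nat_lit 4455278706) (nat_lit 336) (nat_lit 8559146324) (nat_lit 84) (nat_lit 422277407) (nat_lit 26) (nat_lit 5) (nat_lit 30) (nat_lit 5) (nat_lit 27) (nat_lit 5) (nat_lit 353) (nat_lit 296) (nat_lit 239))) (XT.nd (nat_lit 94) (nat_lit 0) (nat_lit 0) (XT.lf (nat_lit 0) (nat_lit 6077829300) (nat_lit 336) (nat_lit 4817760741) (nat_lit 84) (nat_lit 2844490099) (nat_lit 26) (nat_lit 5) (nat_lit 30) (nat_lit 5) (nat_lit 27) (nat_lit 5) (nat_lit 354) (nat_lit 296) (nat_lit 238)) (XT.lf (nat_lit 0) (nat_lit 7726627816) (nat_lit 336) (nat_lit 990955351) (nat_lit 84) (nat_lit 5336165437) (nat_lit 26) (nat_lit 5) (nat_lit 30) (nat_lit 5) (nat_lit 27) (nat_lit 5) (nat_lit 355) (nat_lit 296) (nat_lit 237))))) (XT.nd (nat_lit 376) (nat_lit 252) (nat_lit 0) (XT.nd (nat_lit 188) (nat_lit 252) (nat_lit 0) (XT.nd (nat_lit 94) (nat_lit 0) (nat_lit 0) (XT.lf (nat_lit 0)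 (nat_lit 2984977471) (nat_lit 252) (nat_lit 6447844980) (nat_lit 336) (nat_lit 4944259795) (nat_lit 23) (nat_lit 5) (nat_lit 26) (nat_lit 5) (nat_lit 27) (nat_lit 5) (nat_lit 356) (nat_lit 296) (nat_lit 236)) (XT.lf (nat_lit 0) (nat_lit 7075827888) (nat_lit 252) (nat_lit 4103507120) (nat_lit 336) (nat_lit 3531626167) (nat_lit 23) (nat_lit 5) (nat_lit 26) (nat_lit 5) (nat_lit 27) (nat_lit 5) (nat_lit 357) (nat_lit 296) (nat_lit 235))) (XT.nd (nat_lit 94) (nat_lit 252) (nat_lit 0) (XT.lf (nat_lit 0) (nat_lit 11265032925) (nat_lit 252) (nat_lit 1692727963) (nat_lit 336) (nat_lit 2098246721) (nat_lit 23) (nat_lit 5) (nat_lit 26) (nat_lit 5) (nat_lit 27) (nat_lit 5) (nat_lit 358) (nat_lit 296) (nat_lit 234)) (XT.lf (nat_lit 0) (nat_lit 138949155) (nat_lit 252) (nat_lit 14639991559) (nat_lit 336) (nat_lit 633317780) (nat_lit 20) (nat_lit 5) (nat_lit 23) (nat_lit 5) (nat_lit 24) (nat_lit 5) (nat_lit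 359) (nat_lit 296) (nat_lit 233)))) (XT.nd (nat_lit 188) (nat_lit 168) (nat_lit 0) (XT.nd (nat_lit 94) (nat_lit 0) (nat_lit 0) (XT.lf (nat_lit 0) (nat_lit 895057362) (nat_lit 336) (nat_lit 11562289228) (nat_lit 84) (nat_lit 3320947007) (nat_lit 19) (nat_lit 5) (nat_lit 23) (nat_lit 5) (nat_lit 20) (nat_lit 5) (nat_lit 360) (nat_lit 296) (nat_lit 232)) (XT.lf (nat_lit 0) (nat_lit 2436721763) (nat_lit 336) (nat_lit 7770457054) (nat_lit 84) (nat_lit 5949058594) (nat_lit 19) (nat_lit 5) (nat_lit 23) (nat_lit 5) (nat_lit 20) (nat_lit 5) (nat_lit 361) (nat_lit 296) (nat_lit 231))) (XT.nd (nat_lit 94) (nat_lit 168) (nat_lit 0) (XT.lf (nat_lit 0) (nat_lit 4005872357) (nat_lit 336) (nat_lit 3887995840) (nat_lit 84) (nat_lit 8652768779) (nat_lit 19) (nat_lit 5) (nat_lit 23) (nat_lit 5) (nat_lit 20) (nat_lit 5) (nat_lit 362) (nat_lit 296) (nat_lit 230)) (XT.nd (nat_lit 94) (nat_lit 0) (nat_lit 0)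 (XT.lf (nat_lit 0) (nat_lit 90537400) (nat_lit 168) (nat_lit 5514332499) (nat_lit 252) (nat_lit 11344958446) (nat_lit 17) (nat_lit 5) (nat_lit 19) (nat_lit 5) (nat_lit 20) (nat_lit 5) (nat_lit 363) (nat_lit 296) (nat_lit 229)) (XT.lf (nat_lit 0) (nat_lit 4248984566) (nat_lit 168) (nat_lit 3025675446) (nat_lit 252) (nat_lit 10090304212) (nat_lit 17) (nat_lit 5) (nat_lit 19) (nat_lit 5) (nat_lit 20) (nat_lit 5) (nat_lit 364) (nat_lit 296) (nat_lit 228))))))) (XT.nd (nat_lit 846) (nat_lit 0) (nat_lit 0) (XT.nd (nat_lit 376) (nat_lit 252) (nat_lit 0) (XT.nd (nat_lit 188) (nat_lit 168) (nat_lit 0) (XT.nd (nat_lit 94) (nat_lit 0) (nat_lit 0) (XT.lf (nat_lit 0) (nat_lit 8511276598) (nat_lit 168) (nat_lit 466160052) (nat_lit 252) (nat_lit 8816215150) (nat_lit 17) (nat_lit 5) (nat_lit 19) (nat_lit 5) (nat_lit 20) (nat_lit 5) (nat_lit 365) (nat_lit 296) (nat_lit 227)) (XT.lf (nat_lit 0) (nat_lit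 10736279912) (nat_lit 252) (nat_lit 5376397189) (nat_lit 84) (nat_lit 2122947270) (nat_lit 17) (nat_lit 5) (nat_lit 20) (nat_lit 5) (nat_lit 18) (nat_lit 5) (nat_lit 366) (nat_lit 296) (nat_lit 226))) (XT.nd (nat_lit 94) (nat_lit 168) (nat_lit 0) (XT.lf (nat_lit 0) (nat_lit 12536691556) (nat_lit 252) (nat_lit 1378267171) (nat_lit 84) (nat_lit 4776835445) (nat_lit 17) (nat_lit 5) (nat_lit 20) (nat_lit 5) (nat_lit 18) (nat_lit 5) (nat_lit 367) (nat_lit 296) (nat_lit 225)) (XT.lf (nat_lit 0) (nat_lit 2776302194) (nat_lit 168) (nat_lit 11626964456) (nat_lit 252) (nat_lit 4758609326) (nat_lit 15) (nat_lit 5) (nat_lit 17) (nat_lit 5) (nat_lit 18) (nat_lit 5) (nat_lit 368) (nat_lit 296) (nat_lit 224)))) (XT.nd (nat_lit 188) (nat_lit 252) (nat_lit 0) (XT.nd (nat_lit 94) (nat_lit 0) (nat_lit 0) (XT.lf (nat_lit 0) (nat_lit 7065680065) (nat_lit 168) (nat_lit 9259507939) (nat_lit 252) (nat_lit 3321509214)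 (nat_lit 15) (nat_lit 5) (nat_lit 17) (nat_lit 5) (nat_lit 18) (nat_lit 5) (nat_lit 369) (nat_lit 296) (nat_lit 223)) (XT.lf (nat_lit 0) (nat_lit 11465524590) (nat_lit 168) (nat_lit 6824768742) (nat_lit 252) (nat_lit 1856849033) (nat_lit 15) (nat_lit 5) (nat_lit 17) (nat_lit 5) (nat_lit 18) (nat_lit 5) (nat_lit 370) (nat_lit 296) (nat_lit 222))) (XT.nd (nat_lit 94) (nat_lit 252) (nat_lit 0) (XT.lf (nat_lit 0) (nat_lit 15979936885) (nat_lit 168) (nat_lit 4320477433) (nat_lit 252) (nat_lit 363263569) (nat_lit 15) (nat_lit 5) (nat_lit 17) (nat_lit 5) (nat_lit 18) (nat_lit 5) (nat_lit 371) (nat_lit 296) (nat_lit 221)) (XT.nd (nat_lit 94) (nat_lit 168) (nat_lit 0) (XT.lf (nat_lit 0) (nat_lit 1137255061) (nat_lit 252) (nat_lit 595174078) (nat_lit 84) (nat_lit 19463999184) (nat_lit 14) (nat_lit 5) (nat_lit 17) (nat_lit 5) (nat_lit 15) (nat_lit 5) (nat_lit 372) (nat_lit 296) (nat_lit 220)) (XT.lf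 (nat_lit 0) (nat_lit 2707591566) (nat_lit 252) (nat_lit 18085203990) (nat_lit 84) (nat_lit 951903292) (nat_lit 12) (nat_lit 5) (nat_lit 15) (nat_lit 5) (nat_lit 13) (nat_lit 5) (nat_lit 373) (nat_lit 296) (nat_lit 219)))))) (XT.nd (nat_lit 48692) (nat_lit 0) (nat_lit 11172) (XT.nd (nat_lit 48504) (nat_lit 0) (nat_lit 11424) (XT.nd (nat_lit 94) (nat_lit 0) (nat_lit 0) (XT.lf (nat_lit 0) (nat_lit 4335606410) (nat_lit 252) (nat_lit 14290070665) (nat_lit 84) (nat_lit 3684083733) (nat_lit 12) (nat_lit 5) (nat_lit 15) (nat_lit 5) (nat_lit 13) (nat_lit 5) (nat_lit 374) (nat_lit 296) (nat_lit 218)) (XT.lf (nat_lit 0) (nat_lit 5999543931) (nat_lit 252) (nat_lit 10397842218) (nat_lit 84) (nat_lit 6495476218) (nat_lit 12) (nat_lit 5) (nat_lit 15) (nat_lit 5) (nat_lit 13) (nat_lit 5) (nat_lit 375) (nat_lit 296) (nat_lit 217))) (XT.nd (nat_lit 94) (nat_lit 252) (nat_lit 0) (XT.lf (nat_lit 0) (nat_lit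 1116308841) (nat_lit 0) (nat_lit 1116308841) (nat_lit 84) (nat_lit 990886538) (nat_lit 151) (nat_lit 5) (nat_lit 151) (nat_lit 3) (nat_lit 152) (nat_lit 0) (nat_lit 297) (nat_lit 297) (nat_lit 294)) (XT.lf (nat_lit 0) (nat_lit 197586567) (nat_lit 252) (nat_lit 1917545124) (nat_lit 252) (nat_lit 4339024125) (nat_lit 148) (nat_lit 3) (nat_lit 151) (nat_lit 3) (nat_lit 151) (nat_lit 5) (nat_lit 298) (nat_lit 297) (nat_lit 293)))) (XT.nd (nat_lit 188) (nat_lit 252) (nat_lit 0) (XT.nd (nat_lit 94) (nat_lit 0) (nat_lit 0) (XT.lf (nat_lit 84) (nat_lit 392549854) (nat_lit 0) (nat_lit 1927262174) (nat_lit 252) (nat_lit 4144727290) (nat_lit 149) (nat_lit 5) (nat_lit 148) (nat_lit 3) (nat_lit 151) (nat_lit 5) (nat_lit 299) (nat_lit 297) (nat_lit 292)) (XT.lf (nat_lit 84) (nat_lit 2769777316) (nat_lit 0) (nat_lit 1672822913) (nat_lit 252) (nat_lit 2035688331) (nat_lit 149) (nat_lit 5) (nat_lit 148)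 (nat_lit 3) (nat_lit 151) (nat_lit 5) (nat_lit 300) (nat_lit 297) (nat_lit 291))) (XT.nd (nat_lit 94) (nat_lit 0) (nat_lit 0) (XT.lf (nat_lit 0) (nat_lit 51440509) (nat_lit 252) (nat_lit 1319614537) (nat_lit 336) (nat_lit 5124946984) (nat_lit 145) (nat_lit 5) (nat_lit 148) (nat_lit 3) (nat_lit 149) (nat_lit 5) (nat_lit 301) (nat_lit 297) (nat_lit 290)) (XT.nd (nat_lit 94) (nat_lit 0) (nat_lit 0) (XT.lf (nat_lit 84) (nat_lit 1099596316) (nat_lit 0) (nat_lit 990341510) (nat_lit 336) (nat_lit 4426816212) (nat_lit 146) (nat_lit 5) (nat_lit 145) (nat_lit 5) (nat_lit 149) (nat_lit 5) (nat_lit 302) (nat_lit 297) (nat_lit 289)) (XT.lf (nat_lit 84) (nat_lit 3577158431) (nat_lit 0) (nat_lit 548311157) (nat_lit 336) (nat_lit 2415635072) (nat_lit 146) (nat_lit 5) (nat_lit 145) (nat_lit 5) (nat_lit 149) (nat_lit 5) (nat_lit 303) (nat_lit 297) (nat_lit 288))))))))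
noncomputable def xc48 : XT := (XT.nd (nat_lit 1598) (nat_lit 4032) (nat_lit 0) (XT.nd (nat_lit 752) (nat_lit 2772) (nat_lit 0) (XT.nd (nat_lit 376) (nat_lit 504) (nat_lit 0) (XT.nd (nat_lit 188) (nat_lit 336) (nat_lit 0) (XT.nd (nat_lit 94) (nat_lit 252) (nat_lit 0) (XT.lf (nat_lit 84) (nat_lit 6088247172) (nat_lit 0) (nat_lit 58326039) (nat_lit 336) (nat_lit 422917538) (nat_lit 146) (nat_lit 5) (nat_lit 145) (nat_lit 5) (nat_lit 149) (nat_lit 5) (nat_lit 304) (nat_lit 297) (nat_lit 287)) (XT.lf (nat_lit 0) (nat_lit 1547458286) (nat_lit 336) (nat_lit 4546608947) (nat_lit 84) (nat_lit 506601595) (nat_lit 142) (nat_lit 5) (nat_lit 146) (nat_lit 5) (nat_lit 143) (nat_lit 5) (nat_lit 305) (nat_lit 297) (nat_lit 286))) (XT.nd (nat_lit 94) (nat_lit 336) (nat_lit 0) (XT.lf (nat_lit 0) (nat_lit 3501181572) (nat_lit 336) (nat_lit 2006833496) (nat_lit 84) (nat_lit 1127602106) (nat_lit 142) (nat_lit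 5) (nat_lit 146) (nat_lit 5) (nat_lit 143) (nat_lit 5) (nat_lit 306) (nat_lit 297) (nat_lit 285)) (XT.lf (nat_lit 0) (nat_lit 577369505) (nat_lit 336) (nat_lit 4871451720) (nat_lit 420) (nat_lit 1225670159) (nat_lit 138) (nat_lit 5) (nat_lit 142) (nat_lit 5) (nat_lit 143) (nat_lit 5) (nat_lit 307) (nat_lit 297) (nat_lit 284)))) (XT.nd (nat_lit 188) (nat_lit 420) (nat_lit 0) (XT.nd (nat_lit 94) (nat_lit 0) (nat_lit 0) (XT.lf (nat_lit 0) (nat_lit 676361507) (nat_lit 420) (nat_lit 3484958581) (nat_lit 84) (nat_lit 2555332165) (nat_lit 137) (nat_lit 5) (nat_lit 142) (nat_lit 5) (nat_lit 138) (nat_lit 5) (nat_lit 308) (nat_lit 297) (nat_lit 283)) (XT.lf (nat_lit 0) (nat_lit 2541952410) (nat_lit 420) (nat_lit 850606363) (nat_lit 84) (nat_lit 3370049383) (nat_lit 137) (nat_lit 5) (nat_lit 142) (nat_lit 5) (nat_lit 138) (nat_lit 5) (nat_lit 309) (nat_lit 297) (nat_lit 282))) (XT.nd (nat_lit 94)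 (nat_lit 0) (nat_lit 0) (XT.lf (nat_lit 0) (nat_lit 1857983289) (nat_lit 420) (nat_lit 2557984134) (nat_lit 504) (nat_lit 2396240055) (nat_lit 132) (nat_lit 5) (nat_lit 137) (nat_lit 5) (nat_lit 138) (nat_lit 5) (nat_lit 310) (nat_lit 297) (nat_lit 281)) (XT.lf (nat_lit 0) (nat_lit 4624164106) (nat_lit 420) (nat_lit 1666550045) (nat_lit 504) (nat_lit 575074911) (nat_lit 132) (nat_lit 5) (nat_lit 137) (nat_lit 5) (nat_lit 138) (nat_lit 5) (nat_lit 311) (nat_lit 297) (nat_lit 280))))) (XT.nd (nat_lit 376) (nat_lit 1596) (nat_lit 0) (XT.nd (nat_lit 188) (nat_lit 588) (nat_lit 0) (XT.nd (nat_lit 94) (nat_lit 0) (nat_lit 0) (XT.lf (nat_lit 0) (nat_lit 507317868) (nat_lit 504) (nat_lit 708477634) (nat_lit 588) (nat_lit 5707338307) (nat_lit 125) (nat_lit 5) (nat_lit 131) (nat_lit 5) (nat_lit 132) (nat_lit 5) (nat_lit 312) (nat_lit 297) (nat_lit 279)) (XT.lf (nat_lit 0) (nat_lit 3012826022) (nat_lit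 588) (nat_lit 3648799288) (nat_lit 84) (nat_lit 322216462) (nat_lit 125) (nat_lit 5) (nat_lit 132) (nat_lit 5) (nat_lit 126) (nat_lit 5) (nat_lit 313) (nat_lit 297) (nat_lit 278))) (XT.nd (nat_lit 94) (nat_lit 588) (nat_lit 0) (XT.lf (nat_lit 0) (nat_lit 4810910322) (nat_lit 588) (nat_lit 849202647) (nat_lit 84) (nat_lit 1388602823) (nat_lit 125) (nat_lit 5) (nat_lit 132) (nat_lit 5) (nat_lit 126) (nat_lit 5) (nat_lit 314) (nat_lit 297) (nat_lit 277)) (XT.lf (nat_lit 0) (nat_lit 2033583866) (nat_lit 588) (nat_lit 4591285754) (nat_lit 672) (nat_lit 492539213) (nat_lit 118) (nat_lit 5) (nat_lit 125) (nat_lit 5) (nat_lit 126) (nat_lit 5) (nat_lit 315) (nat_lit 297) (nat_lit 276)))) (XT.nd (nat_lit 188) (nat_lit 840) (nat_lit 0) (XT.nd (nat_lit 94) (nat_lit 672) (nat_lit 0) (XT.lf (nat_lit 0) (nat_lit 1229639955) (nat_lit 672) (nat_lit 2223158448) (nat_lit 84) (nat_lit 3737145963) (nat_lit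 117) (nat_lit 5) (nat_lit 125) (nat_lit 5) (nat_lit 118) (nat_lit 5) (nat_lit 316) (nat_lit 297) (nat_lit 275)) (XT.lf (nat_lit 0) (nat_lit 690557417) (nat_lit 672) (nat_lit 2253251780) (nat_lit 756) (nat_lit 4322871320) (nat_lit 109) (nat_lit 5) (nat_lit 117) (nat_lit 5) (nat_lit 118) (nat_lit 5) (nat_lit 317) (nat_lit 297) (nat_lit 274))) (XT.nd (nat_lit 94) (nat_lit 840) (nat_lit 0) (XT.lf (nat_lit 0) (nat_lit 3697671869) (nat_lit 672) (nat_lit 979941729) (nat_lit 756) (nat_lit 2669726846) (nat_lit 109) (nat_lit 5) (nat_lit 117) (nat_lit 5) (nat_lit 118) (nat_lit 5) (nat_lit 318) (nat_lit 297) (nat_lit 273)) (XT.nd (nat_lit 94) (nat_lit 840) (nat_lit 0) (XT.lf (nat_lit 0) (nat_lit 6413585330) (nat_lit 756) (nat_lit 680845478) (nat_lit 84) (nat_lit 338160126) (nat_lit 109) (nat_lit 5) (nat_lit 118) (nat_lit 5) (nat_lit 110) (nat_lit 5) (nat_lit 319) (nat_lit 297) (nat_lit 272)) (XT.lf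 (nat_lit 0) (nat_lit 648803429) (nat_lit 840) (nat_lit 5154011620) (nat_lit 84) (nat_lit 1718551252) (nat_lit 99) (nat_lit 5) (nat_lit 109) (nat_lit 5) (nat_lit 100) (nat_lit 5) (nat_lit 320) (nat_lit 297) (nat_lit 271))))))) (XT.nd (nat_lit 752) (nat_lit 1512) (nat_lit 0) (XT.nd (nat_lit 376) (nat_lit 1680) (nat_lit 0) (XT.nd (nat_lit 188) (nat_lit 0) (nat_lit 0) (XT.nd (nat_lit 94) (nat_lit 840) (nat_lit 0) (XT.lf (nat_lit 0) (nat_lit 2301280827) (nat_lit 840) (nat_lit 2143477127) (nat_lit 84) (nat_lit 3169682657) (nat_lit 99) (nat_lit 5) (nat_lit 109) (nat_lit 5) (nat_lit 100) (nat_lit 5) (nat_lit 321) (nat_lit 297) (nat_lit 270)) (XT.lf (nat_lit 0) (nat_lit 935793246) (nat_lit 840) (nat_lit 3027024052) (nat_lit 924) (nat_lit 3749324775) (nat_lit 89) (nat_lit 5) (nat_lit 99) (nat_lit 5) (nat_lit 100) (nat_lit 5) (nat_lit 322) (nat_lit 297) (nat_lit 269))) (XT.nd (nat_lit 94) (nat_lit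 0) (nat_lit 0) (XT.lf (nat_lit 0) (nat_lit 4112956596) (nat_lit 840) (nat_lit 1534947807) (nat_lit 924) (nat_lit 2166256127) (nat_lit 89) (nat_lit 5) (nat_lit 99) (nat_lit 5) (nat_lit 100) (nat_lit 5) (nat_lit 323) (nat_lit 297) (nat_lit 268)) (XT.lf (nat_lit 0) (nat_lit 7336516079) (nat_lit 924) (nat_lit 574467756) (nat_lit 84) (nat_lit 10276735) (nat_lit 89) (nat_lit 5) (nat_lit 100) (nat_lit 5) (nat_lit 90) (nat_lit 5) (nat_lit 324) (nat_lit 297) (nat_lit 267)))) (XT.nd (nat_lit 188) (nat_lit 672) (nat_lit 0) (XT.nd (nat_lit 94) (nat_lit 0) (nat_lit 0) (XT.lf (nat_lit 0) (nat_lit 1018930823) (nat_lit 1008) (nat_lit 5398172626) (nat_lit 84) (nat_lit 1614819916) (nat_lit 77) (nat_lit 5) (nat_lit 89) (nat_lit 5) (nat_lit 78) (nat_lit 5) (nat_lit 325) (nat_lit 297) (nat_lit 266)) (XT.lf (nat_lit 0) (nat_lit 2619105324) (nat_lit 1008) (nat_lit 2241573784) (nat_lit 84) (nat_lit 3286798435)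 (nat_lit 77) (nat_lit 5) (nat_lit 89) (nat_lit 5) (nat_lit 78) (nat_lit 5) (nat_lit 326) (nat_lit 297) (nat_lit 265))) (XT.nd (nat_lit 94) (nat_lit 0) (nat_lit 0) (XT.lf (nat_lit 0) (nat_lit 990841415) (nat_lit 672) (nat_lit 3242164239) (nat_lit 756) (nat_lit 4035082412) (nat_lit 69) (nat_lit 5) (nat_lit 77) (nat_lit 5) (nat_lit 78) (nat_lit 5) (nat_lit 327) (nat_lit 297) (nat_lit 264)) (XT.lf (nat_lit 0) (nat_lit 4329405448) (nat_lit 672) (nat_lit 1546181958) (nat_lit 756) (nat_lit 2517862961) (nat_lit 69) (nat_lit 5) (nat_lit 77) (nat_lit 5) (nat_lit 78) (nat_lit 5) (nat_lit 328) (nat_lit 297) (nat_lit 263))))) (XT.nd (nat_lit 376) (nat_lit 504) (nat_lit 0) (XT.nd (nat_lit 188) (nat_lit 420) (nat_lit 0) (XT.nd (nat_lit 94) (nat_lit 588) (nat_lit 0) (XT.lf (nat_lit 0) (nat_lit 7527725817) (nat_lit 756) (nat_lit 795284060) (nat_lit 84) (nat_lit 201311751) (nat_lit 69) (nat_lit 5) (nat_lit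 78) (nat_lit 5) (nat_lit 70) (nat_lit 5) (nat_lit 329) (nat_lit 297) (nat_lit 262)) (XT.lf (nat_lit 0) (nat_lit 559219765) (nat_lit 588) (nat_lit 6095269364) (nat_lit 84) (nat_lit 2004938996) (nat_lit 62) (nat_lit 5) (nat_lit 69) (nat_lit 5) (nat_lit 63) (nat_lit 5) (nat_lit 330) (nat_lit 297) (nat_lit 261))) (XT.nd (nat_lit 94) (nat_lit 420) (nat_lit 0) (XT.lf (nat_lit 0) (nat_lit 2109012310) (nat_lit 588) (nat_lit 2805677954) (nat_lit 84) (nat_lit 3885067450) (nat_lit 62) (nat_lit 5) (nat_lit 69) (nat_lit 5) (nat_lit 63) (nat_lit 5) (nat_lit 331) (nat_lit 297) (nat_lit 260)) (XT.lf (nat_lit 0) (nat_lit 556819897) (nat_lit 420) (nat_lit 3114875518) (nat_lit 504) (nat_lit 5274133174) (nat_lit 57) (nat_lit 5) (nat_lit 62) (nat_lit 5) (nat_lit 63) (nat_lit 5) (nat_lit 332) (nat_lit 297) (nat_lit 259)))) (XT.nd (nat_lit 188) (nat_lit 504) (nat_lit 0) (XT.nd (nat_lit 94) (nat_lit 0) (nat_lit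 0) (XT.lf (nat_lit 0) (nat_lit 4043152403) (nat_lit 420) (nat_lit 1229105516) (nat_lit 504) (nat_lit 3824789484) (nat_lit 57) (nat_lit 5) (nat_lit 62) (nat_lit 5) (nat_lit 63) (nat_lit 5) (nat_lit 333) (nat_lit 297) (nat_lit 258)) (XT.lf (nat_lit 0) (nat_lit 6890880549) (nat_lit 504) (nat_lit 1662650765) (nat_lit 84) (nat_lit 700684441) (nat_lit 57) (nat_lit 5) (nat_lit 63) (nat_lit 5) (nat_lit 58) (nat_lit 5) (nat_lit 334) (nat_lit 297) (nat_lit 257))) (XT.nd (nat_lit 94) (nat_lit 84) (nat_lit 0) (XT.lf (nat_lit 0) (nat_lit 1818840541) (nat_lit 420) (nat_lit 6733964660) (nat_lit 504) (nat_lit 863939212) (nat_lit 52) (nat_lit 5) (nat_lit 57) (nat_lit 5) (nat_lit 58) (nat_lit 5) (nat_lit 335) (nat_lit 297) (nat_lit 256)) (XT.nd (nat_lit 94) (nat_lit 0) (nat_lit 0) (XT.lf (nat_lit 0) (nat_lit 648348988) (nat_lit 504) (nat_lit 4186799613) (nat_lit 84) (nat_lit 4749827149) (nat_lit 51) (nat_lit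 5) (nat_lit 57) (nat_lit 5) (nat_lit 52) (nat_lit 5) (nat_lit 336) (nat_lit 297) (nat_lit 255)) (XT.lf (nat_lit 0) (nat_lit 2153314364) (nat_lit 504) (nat_lit 717185967) (nat_lit 84) (nat_lit 6889022890) (nat_lit 51) (nat_lit 5) (nat_lit 57) (nat_lit 5) (nat_lit 52) (nat_lit 5) (nat_lit 337) (nat_lit 297) (nat_lit 254))))))))
noncomputable def xc49 : XT := (XT.nd (nat_lit 1598) (nat_lit 924) (nat_lit 0) (XT.nd (nat_lit 752) (nat_lit 924) (nat_lit 0) (XT.nd (nat_lit 376) (nat_lit 420) (nat_lit 0) (XT.nd (nat_lit 188) (nat_lit 420) (nat_lit 0) (XT.nd (nat_lit 94) (nat_lit 0) (nat_lit 0) (XT.lf (nat_lit 0) (nat_lit 2880782848) (nat_lit 336) (nat_lit 817561025) (nat_lit 420) (nat_lit 6241585419) (nat_lit 47) (nat_lit 5) (nat_lit 51) (nat_lit 5) (nat_lit 52) (nat_lit 5) (nat_lit 338) (nat_lit 297) (nat_lit 253)) (XT.lf (nat_lit 0) (nat_lit 5277218694) (nat_lit 420) (nat_lit 3571314425) (nat_lit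 84) (nat_lit 1278066432) (nat_lit 47) (nat_lit 5) (nat_lit 52) (nat_lit 5) (nat_lit 48) (nat_lit 5) (nat_lit 339) (nat_lit 297) (nat_lit 252))) (XT.nd (nat_lit 94) (nat_lit 420) (nat_lit 0) (XT.lf (nat_lit 0) (nat_lit 6879938136) (nat_lit 420) (nat_lit 20722506) (nat_lit 84) (nat_lit 3419402993) (nat_lit 47) (nat_lit 5) (nat_lit 52) (nat_lit 5) (nat_lit 48) (nat_lit 5) (nat_lit 340) (nat_lit 297) (nat_lit 251)) (XT.lf (nat_lit 0) (nat_lit 3678155786) (nat_lit 420) (nat_lit 4858217771) (nat_lit 504) (nat_lit 1983248616) (nat_lit 42) (nat_lit 5) (nat_lit 47) (nat_lit 5) (nat_lit 48) (nat_lit 5) (nat_lit 341) (nat_lit 297) (nat_lit 250)))) (XT.nd (nat_lit 188) (nat_lit 0) (nat_lit 0) (XT.nd (nat_lit 94) (nat_lit 420) (nat_lit 0) (XT.lf (nat_lit 0) (nat_lit 7456613332) (nat_lit 420) (nat_lit 2755928832) (nat_lit 504) (nat_lit 514020340) (nat_lit 42) (nat_lit 5) (nat_lit 47) (nat_lit 5) (nat_lit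 48) (nat_lit 5) (nat_lit 342) (nat_lit 297) (nat_lit 249)) (XT.lf (nat_lit 0) (nat_lit 374599529) (nat_lit 336) (nat_lit 578311648) (nat_lit 420) (nat_lit 9987759744) (nat_lit 37) (nat_lit 5) (nat_lit 41) (nat_lit 5) (nat_lit 42) (nat_lit 5) (nat_lit 343) (nat_lit 297) (nat_lit 248))) (XT.nd (nat_lit 94) (nat_lit 0) (nat_lit 0) (XT.lf (nat_lit 0) (nat_lit 2474816005) (nat_lit 420) (nat_lit 7017107433) (nat_lit 84) (nat_lit 1668901359) (nat_lit 37) (nat_lit 5) (nat_lit 42) (nat_lit 5) (nat_lit 38) (nat_lit 5) (nat_lit 344) (nat_lit 297) (nat_lit 247)) (XT.lf (nat_lit 0) (nat_lit 4019902154) (nat_lit 420) (nat_lit 3399014147) (nat_lit 84) (nat_lit 3969821688) (nat_lit 37) (nat_lit 5) (nat_lit 42) (nat_lit 5) (nat_lit 38) (nat_lit 5) (nat_lit 345) (nat_lit 297) (nat_lit 246))))) (XT.nd (nat_lit 376) (nat_lit 588) (nat_lit 0) (XT.nd (nat_lit 188) (nat_lit 0) (nat_lit 0) (XT.nd (nat_lit 94)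 (nat_lit 0) (nat_lit 0) (XT.lf (nat_lit 0) (nat_lit 303431296) (nat_lit 336) (nat_lit 5283451663) (nat_lit 420) (nat_lit 6037824505) (nat_lit 33) (nat_lit 5) (nat_lit 37) (nat_lit 5) (nat_lit 38) (nat_lit 5) (nat_lit 346) (nat_lit 297) (nat_lit 245)) (XT.lf (nat_lit 0) (nat_lit 4159131094) (nat_lit 336) (nat_lit 3050313979) (nat_lit 420) (nat_lit 4658509093) (nat_lit 33) (nat_lit 5) (nat_lit 37) (nat_lit 5) (nat_lit 38) (nat_lit 5) (nat_lit 347) (nat_lit 297) (nat_lit 244))) (XT.nd (nat_lit 94) (nat_lit 0) (nat_lit 0) (XT.lf (nat_lit 0) (nat_lit 8101788462) (nat_lit 336) (nat_lit 752900467) (nat_lit 420) (nat_lit 3265082667) (nat_lit 33) (nat_lit 5) (nat_lit 37) (nat_lit 5) (nat_lit 38) (nat_lit 5) (nat_lit 348) (nat_lit 297) (nat_lit 243)) (XT.lf (nat_lit 0) (nat_lit 10540128693) (nat_lit 420) (nat_lit 261296734) (nat_lit 84) (nat_lit 1578473648) (nat_lit 33) (nat_lit 5) (nat_lit 38) (nat_lit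 5) (nat_lit 34) (nat_lit 5) (nat_lit 349) (nat_lit 297) (nat_lit 242)))) (XT.nd (nat_lit 188) (nat_lit 252) (nat_lit 0) (XT.nd (nat_lit 94) (nat_lit 84) (nat_lit 0) (XT.lf (nat_lit 0) (nat_lit 3646043335) (nat_lit 252) (nat_lit 8649615305) (nat_lit 336) (nat_lit 352042407) (nat_lit 30) (nat_lit 5) (nat_lit 33) (nat_lit 5) (nat_lit 34) (nat_lit 5) (nat_lit 350) (nat_lit 297) (nat_lit 241)) (XT.lf (nat_lit 0) (nat_lit 1134777428) (nat_lit 336) (nat_lit 5287352871) (nat_lit 84) (nat_lit 6502184810) (nat_lit 29) (nat_lit 5) (nat_lit 33) (nat_lit 5) (nat_lit 30) (nat_lit 5) (nat_lit 351) (nat_lit 297) (nat_lit 240))) (XT.nd (nat_lit 94) (nat_lit 252) (nat_lit 0) (XT.lf (nat_lit 0) (nat_lit 2635184598) (nat_lit 336) (nat_lit 1492476332) (nat_lit 84) (nat_lit 9082661903) (nat_lit 29) (nat_lit 5) (nat_lit 33) (nat_lit 5) (nat_lit 30) (nat_lit 5) (nat_lit 352) (nat_lit 297) (nat_lit 239)) (XT.nd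 (nat_lit 94) (nat_lit 0) (nat_lit 0) (XT.lf (nat_lit 0) (nat_lit 2439144764) (nat_lit 252) (nat_lit 1742722361) (nat_lit 336) (nat_lit 9323481844) (nat_lit 26) (nat_lit 5) (nat_lit 29) (nat_lit 5) (nat_lit 30) (nat_lit 5) (nat_lit 353) (nat_lit 297) (nat_lit 238)) (XT.lf (nat_lit 0) (nat_lit 5775287676) (nat_lit 336) (nat_lit 7322578925) (nat_lit 84) (nat_lit 711832264) (nat_lit 26) (nat_lit 5) (nat_lit 30) (nat_lit 5) (nat_lit 27) (nat_lit 5) (nat_lit 354) (nat_lit 297) (nat_lit 237))))))) (XT.nd (nat_lit 752) (nat_lit 336) (nat_lit 0) (XT.nd (nat_lit 376) (nat_lit 336) (nat_lit 0) (XT.nd (nat_lit 188) (nat_lit 0) (nat_lit 0) (XT.nd (nat_lit 94) (nat_lit 252) (nat_lit 0) (XT.lf (nat_lit 0) (nat_lit 7412600234) (nat_lit 336) (nat_lit 3510369388) (nat_lit 84) (nat_lit 3200820852) (nat_lit 26) (nat_lit 5) (nat_lit 30) (nat_lit 5) (nat_lit 27) (nat_lit 5) (nat_lit 355) (nat_lit 297) (nat_lit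 236)) (XT.lf (nat_lit 0) (nat_lit 399311031) (nat_lit 252) (nat_lit 8682693107) (nat_lit 336) (nat_lit 5366325555) (nat_lit 23) (nat_lit 5) (nat_lit 26) (nat_lit 5) (nat_lit 27) (nat_lit 5) (nat_lit 356) (nat_lit 297) (nat_lit 235))) (XT.nd (nat_lit 94) (nat_lit 0) (nat_lit 0) (XT.lf (nat_lit 0) (nat_lit 4476147788) (nat_lit 252) (nat_lit 6341424266) (nat_lit 336) (nat_lit 3965038960) (nat_lit 23) (nat_lit 5) (nat_lit 26) (nat_lit 5) (nat_lit 27) (nat_lit 5) (nat_lit 357) (nat_lit 297) (nat_lit 234)) (XT.lf (nat_lit 0) (nat_lit 8651760527) (nat_lit 252) (nat_lit 3933621847) (nat_lit 336) (nat_lit 2542665366) (nat_lit 23) (nat_lit 5) (nat_lit 26) (nat_lit 5) (nat_lit 27) (nat_lit 5) (nat_lit 358) (nat_lit 297) (nat_lit 233)))) (XT.nd (nat_lit 188) (nat_lit 0) (nat_lit 0) (XT.nd (nat_lit 94) (nat_lit 336) (nat_lit 0) (XT.lf (nat_lit 0) (nat_lit 12930041355) (nat_lit 252) (nat_lit 1457041526)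 (nat_lit 336) (nat_lit 1097878972) (nat_lit 23) (nat_lit 5) (nat_lit 26) (nat_lit 5) (nat_lit 27) (nat_lit 5) (nat_lit 359) (nat_lit 297) (nat_lit 232)) (XT.lf (nat_lit 0) (nat_lit 388963516) (nat_lit 336) (nat_lit 14376535723) (nat_lit 84) (nat_lit 1087274103) (nat_lit 19) (nat_lit 5) (nat_lit 23) (nat_lit 5) (nat_lit 20) (nat_lit 5) (nat_lit 360) (nat_lit 297) (nat_lit 231))) (XT.nd (nat_lit 94) (nat_lit 0) (nat_lit 0) (XT.lf (nat_lit 0) (nat_lit 1920630181) (nat_lit 336) (nat_lit 10597956999) (nat_lit 84) (nat_lit 3712494080) (nat_lit 19) (nat_lit 5) (nat_lit 23) (nat_lit 5) (nat_lit 20) (nat_lit 5) (nat_lit 361) (nat_lit 297) (nat_lit 230)) (XT.lf (nat_lit 0) (nat_lit 3480083649) (nat_lit 336) (nat_lit 6728350732) (nat_lit 84) (nat_lit 6413399600) (nat_lit 19) (nat_lit 5) (nat_lit 23) (nat_lit 5) (nat_lit 20) (nat_lit 5) (nat_lit 362) (nat_lit 297) (nat_lit 229))))) (XT.nd (nat_lit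 376) (nat_lit 168) (nat_lit 0) (XT.nd (nat_lit 188) (nat_lit 0) (nat_lit 0) (XT.nd (nat_lit 94) (nat_lit 168) (nat_lit 0) (XT.lf (nat_lit 0) (nat_lit 5068777496) (nat_lit 336) (nat_lit 2764110044) (nat_lit 84) (nat_lit 9192508190) (nat_lit 19) (nat_lit 5) (nat_lit 23) (nat_lit 5) (nat_lit 20) (nat_lit 5) (nat_lit 363) (nat_lit 297) (nat_lit 228)) (XT.lf (nat_lit 0) (nat_lit 1325159155) (nat_lit 168) (nat_lit 5376179137) (nat_lit 252) (nat_lit 10740396858) (nat_lit 17) (nat_lit 5) (nat_lit 19) (nat_lit 5) (nat_lit 20) (nat_lit 5) (nat_lit 364) (nat_lit 297) (nat_lit 227))) (XT.nd (nat_lit 94) (nat_lit 0) (nat_lit 0) (XT.lf (nat_lit 0) (nat_lit 5575480096) (nat_lit 168) (nat_lit 2819667632) (nat_lit 252) (nat_lit 9475600926) (nat_lit 17) (nat_lit 5) (nat_lit 19) (nat_lit 5) (nat_lit 20) (nat_lit 5) (nat_lit 365) (nat_lit 297) (nat_lit 226)) (XT.lf (nat_lit 0) (nat_lit 9933978751) (nat_lit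 168) (nat_lit 189821728) (nat_lit 252) (nat_lit 8189903158) (nat_lit 17) (nat_lit 5) (nat_lit 19) (nat_lit 5) (nat_lit 20) (nat_lit 5) (nat_lit 366) (nat_lit 297) (nat_lit 225)))) (XT.nd (nat_lit 188) (nat_lit 168) (nat_lit 0) (XT.nd (nat_lit 94) (nat_lit 0) (nat_lit 0) (XT.lf (nat_lit 0) (nat_lit 11913864976) (nat_lit 252) (nat_lit 4391252426) (nat_lit 84) (nat_lit 2465121904) (nat_lit 17) (nat_lit 5) (nat_lit 20) (nat_lit 5) (nat_lit 18) (nat_lit 5) (nat_lit 367) (nat_lit 297) (nat_lit 224)) (XT.lf (nat_lit 0) (nat_lit 13744689214) (nat_lit 252) (nat_lit 303812972) (nat_lit 84) (nat_lit 5192970950) (nat_lit 17) (nat_lit 5) (nat_lit 20) (nat_lit 5) (nat_lit 18) (nat_lit 5) (nat_lit 368) (nat_lit 297) (nat_lit 223))) (XT.nd (nat_lit 94) (nat_lit 0) (nat_lit 0) (XT.lf (nat_lit 0) (nat_lit 3968237594) (nat_lit 168) (nat_lit 11687224472) (nat_lit 252) (nat_lit 4071220350) (nat_lit 15) (nat_lit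 5) (nat_lit 17) (nat_lit 5) (nat_lit 18) (nat_lit 5) (nat_lit 369) (nat_lit 297) (nat_lit 222)) (XT.nd (nat_lit 94) (nat_lit 0) (nat_lit 0) (XT.lf (nat_lit 0) (nat_lit 8357334995) (nat_lit 168) (nat_lit 9255402460) (nat_lit 252) (nat_lit 2614673995) (nat_lit 15) (nat_lit 5) (nat_lit 17) (nat_lit 5) (nat_lit 18) (nat_lit 5) (nat_lit 370) (nat_lit 297) (nat_lit 221)) (XT.lf (nat_lit 0) (nat_lit 12861323309) (nat_lit 168) (nat_lit 6753940623) (nat_lit 252) (nat_lit 1128958391) (nat_lit 15) (nat_lit 5) (nat_lit 17) (nat_lit 5) (nat_lit 18) (nat_lit 5) (nat_lit 371) (nat_lit 297) (nat_lit 220))))))))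
noncomputable def xc50 : XT := (XT.nd (nat_lit 50008) (nat_lit 0) (nat_lit 5460) (XT.nd (nat_lit 49162) (nat_lit 0) (nat_lit 10080) (XT.nd (nat_lit 48786) (nat_lit 0) (nat_lit 11172) (XT.nd (nat_lit 188) (nat_lit 0) (nat_lit 0) (XT.nd (nat_lit 94) (nat_lit 168) (nat_lit 0) (XT.lf (nat_lit 0) (nat_lit 379507845) (nat_lit 252) (nat_lit 3797038206) (nat_lit 84) (nat_lit 17100931597) (nat_lit 14) (nat_lit 5) (nat_lit 17) (nat_lit 5) (nat_lit 15) (nat_lit 5) (nat_lit 372) (nat_lit 297) (nat_lit 219)) (XT.lf (nat_lit 0) (nat_lit 391532148) (nat_lit 168) (nat_lit 1508903327) (nat_lit 252) (nat_lit 19926880799) (nat_lit 12) (nat_lit 5) (nat_lit 14) (nat_lit 5) (nat_lit 15) (nat_lit 5) (nat_lit 373) (nat_lit 297) (nat_lit 218))) (XT.nd (nat_lit 94) (nat_lit 0) (nat_lit 0) (XT.lf (nat_lit 0) (nat_lit 3506319930) (nat_lit 252) (nat_lit 17635802437) (nat_lit 84) (nat_lit 1250977241) (nat_lit 12) (nat_lit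 5) (nat_lit 15) (nat_lit 5) (nat_lit 13) (nat_lit 5) (nat_lit 374) (nat_lit 297) (nat_lit 217)) (XT.lf (nat_lit 0) (nat_lit 5163310913) (nat_lit 252) (nat_lit 13753389842) (nat_lit 84) (nat_lit 4059750026) (nat_lit 12) (nat_lit 5) (nat_lit 15) (nat_lit 5) (nat_lit 13) (nat_lit 5) (nat_lit 375) (nat_lit 297) (nat_lit 216)))) (XT.nd (nat_lit 188) (nat_lit 252) (nat_lit 0) (XT.nd (nat_lit 94) (nat_lit 0) (nat_lit 0) (XT.lf (nat_lit 0) (nat_lit 1146986944) (nat_lit 252) (nat_lit 1042143236) (nat_lit 252) (nat_lit 1042143236) (nat_lit 148) (nat_lit 3) (nat_lit 151) (nat_lit 3) (nat_lit 151) (nat_lit 5) (nat_lit 298) (nat_lit 298) (nat_lit 292)) (XT.lf (nat_lit 84) (nat_lit 200158687) (nat_lit 0) (nat_lit 4172382351) (nat_lit 252) (nat_lit 2102245825) (nat_lit 149) (nat_lit 5) (nat_lit 148) (nat_lit 3) (nat_lit 151) (nat_lit 5) (nat_lit 299) (nat_lit 298) (nat_lit 291))) (XT.nd (nat_lit 94) (nat_lit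 252) (nat_lit 0) (XT.lf (nat_lit 84) (nat_lit 2555833021) (nat_lit 0) (nat_lit 3898787967) (nat_lit 252) (nat_lit 35665065) (nat_lit 149) (nat_lit 5) (nat_lit 148) (nat_lit 3) (nat_lit 151) (nat_lit 5) (nat_lit 300) (nat_lit 298) (nat_lit 290)) (XT.lf (nat_lit 0) (nat_lit 1970815910) (nat_lit 252) (nat_lit 1587590681) (nat_lit 336) (nat_lit 2950687875) (nat_lit 145) (nat_lit 5) (nat_lit 148) (nat_lit 3) (nat_lit 149) (nat_lit 5) (nat_lit 301) (nat_lit 298) (nat_lit 289))))) (XT.nd (nat_lit 376) (nat_lit 756) (nat_lit 0) (XT.nd (nat_lit 188) (nat_lit 336) (nat_lit 0) (XT.nd (nat_lit 94) (nat_lit 0) (nat_lit 0) (XT.lf (nat_lit 84) (nat_lit 804140851) (nat_lit 0) (nat_lit 3163102864) (nat_lit 336) (nat_lit 2564352199) (nat_lit 146) (nat_lit 5) (nat_lit 145) (nat_lit 5) (nat_lit 149) (nat_lit 5) (nat_lit 302) (nat_lit 298) (nat_lit 288)) (XT.lf (nat_lit 84) (nat_lit 3260394349) (nat_lit 0)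 (nat_lit 2704207999) (nat_lit 336) (nat_lit 592959449) (nat_lit 146) (nat_lit 5) (nat_lit 145) (nat_lit 5) (nat_lit 149) (nat_lit 5) (nat_lit 303) (nat_lit 298) (nat_lit 287))) (XT.nd (nat_lit 94) (nat_lit 0) (nat_lit 0) (XT.lf (nat_lit 0) (nat_lit 1333741583) (nat_lit 336) (nat_lit 850202339) (nat_lit 420) (nat_lit 4403152070) (nat_lit 141) (nat_lit 5) (nat_lit 145) (nat_lit 5) (nat_lit 146) (nat_lit 5) (nat_lit 304) (nat_lit 298) (nat_lit 286)) (XT.lf (nat_lit 84) (nat_lit 1656890255) (nat_lit 0) (nat_lit 1592907501) (nat_lit 420) (nat_lit 3370160117) (nat_lit 142) (nat_lit 5) (nat_lit 141) (nat_lit 5) (nat_lit 146) (nat_lit 5) (nat_lit 305) (nat_lit 298) (nat_lit 285)))) (XT.nd (nat_lit 188) (nat_lit 336) (nat_lit 0) (XT.nd (nat_lit 94) (nat_lit 420) (nat_lit 0) (XT.lf (nat_lit 84) (nat_lit 4217115870) (nat_lit 0) (nat_lit 944335297) (nat_lit 420) (nat_lit 1495141465) (nat_lit 142) (nat_lit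 5) (nat_lit 141) (nat_lit 5) (nat_lit 146) (nat_lit 5) (nat_lit 306) (nat_lit 298) (nat_lit 284)) (XT.lf (nat_lit 84) (nat_lit 116814676) (nat_lit 0) (nat_lit 241573658) (nat_lit 504) (nat_lit 6338764876) (nat_lit 137) (nat_lit 5) (nat_lit 136) (nat_lit 5) (nat_lit 142) (nat_lit 5) (nat_lit 307) (nat_lit 298) (nat_lit 283))) (XT.nd (nat_lit 94) (nat_lit 420) (nat_lit 0) (XT.lf (nat_lit 0) (nat_lit 2198890982) (nat_lit 420) (nat_lit 4000710821) (nat_lit 84) (nat_lit 540826018) (nat_lit 137) (nat_lit 5) (nat_lit 142) (nat_lit 5) (nat_lit 138) (nat_lit 5) (nat_lit 308) (nat_lit 298) (nat_lit 282)) (XT.nd (nat_lit 94) (nat_lit 420) (nat_lit 0) (XT.lf (nat_lit 0) (nat_lit 4031079309) (nat_lit 420) (nat_lit 1388447085) (nat_lit 84) (nat_lit 1368231116) (nat_lit 137) (nat_lit 5) (nat_lit 142) (nat_lit 5) (nat_lit 138) (nat_lit 5) (nat_lit 309) (nat_lit 298) (nat_lit 281)) (XT.lf (nat_lit 0) (nat_lit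 1287218603) (nat_lit 420) (nat_lit 4579815431) (nat_lit 504) (nat_lit 971830799) (nat_lit 132) (nat_lit 5) (nat_lit 137) (nat_lit 5) (nat_lit 138) (nat_lit 5) (nat_lit 310) (nat_lit 298) (nat_lit 280))))))) (XT.nd (nat_lit 752) (nat_lit 2688) (nat_lit 0) (XT.nd (nat_lit 376) (nat_lit 1344) (nat_lit 0) (XT.nd (nat_lit 188) (nat_lit 504) (nat_lit 0) (XT.nd (nat_lit 94) (nat_lit 0) (nat_lit 0) (XT.lf (nat_lit 0) (nat_lit 799952283) (nat_lit 504) (nat_lit 2869652159) (nat_lit 84) (nat_lit 3223889850) (nat_lit 131) (nat_lit 5) (nat_lit 137) (nat_lit 5) (nat_lit 132) (nat_lit 5) (nat_lit 311) (nat_lit 298) (nat_lit 279)) (XT.lf (nat_lit 0) (nat_lit 2542903984) (nat_lit 504) (nat_lit 158148234) (nat_lit 84) (nat_lit 4251035686) (nat_lit 131) (nat_lit 5) (nat_lit 137) (nat_lit 5) (nat_lit 132) (nat_lit 5) (nat_lit 312) (nat_lit 298) (nat_lit 278))) (XT.nd (nat_lit 94) (nat_lit 0) (nat_lit 0) (XT.lf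 (nat_lit 0) (nat_lit 2648392843) (nat_lit 504) (nat_lit 1656108684) (nat_lit 588) (nat_lit 2709683176) (nat_lit 125) (nat_lit 5) (nat_lit 131) (nat_lit 5) (nat_lit 132) (nat_lit 5) (nat_lit 313) (nat_lit 298) (nat_lit 277)) (XT.lf (nat_lit 0) (nat_lit 5503339719) (nat_lit 504) (nat_lit 558799354) (nat_lit 588) (nat_lit 1018455179) (nat_lit 125) (nat_lit 5) (nat_lit 131) (nat_lit 5) (nat_lit 132) (nat_lit 5) (nat_lit 314) (nat_lit 298) (nat_lit 276)))) (XT.nd (nat_lit 188) (nat_lit 672) (nat_lit 0) (XT.nd (nat_lit 94) (nat_lit 0) (nat_lit 0) (XT.lf (nat_lit 0) (nat_lit 669726721) (nat_lit 672) (nat_lit 5883138523) (nat_lit 84) (nat_lit 597779198) (nat_lit 117) (nat_lit 5) (nat_lit 125) (nat_lit 5) (nat_lit 118) (nat_lit 5) (nat_lit 315) (nat_lit 298) (nat_lit 275)) (XT.lf (nat_lit 0) (nat_lit 2353416740) (nat_lit 672) (nat_lit 3049271885) (nat_lit 84) (nat_lit 1821482444) (nat_lit 117) (nat_lit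 5) (nat_lit 125) (nat_lit 5) (nat_lit 118) (nat_lit 5) (nat_lit 316) (nat_lit 298) (nat_lit 274))) (XT.nd (nat_lit 94) (nat_lit 672) (nat_lit 0) (XT.lf (nat_lit 0) (nat_lit 4033028892) (nat_lit 672) (nat_lit 170724140) (nat_lit 84) (nat_lit 3098474758) (nat_lit 117) (nat_lit 5) (nat_lit 125) (nat_lit 5) (nat_lit 118) (nat_lit 5) (nat_lit 317) (nat_lit 298) (nat_lit 273)) (XT.lf (nat_lit 0) (nat_lit 2811840131) (nat_lit 672) (nat_lit 2926182422) (nat_lit 756) (nat_lit 1646000102) (nat_lit 109) (nat_lit 5) (nat_lit 117) (nat_lit 5) (nat_lit 118) (nat_lit 5) (nat_lit 318) (nat_lit 298) (nat_lit 272))))) (XT.nd (nat_lit 376) (nat_lit 1848) (nat_lit 0) (XT.nd (nat_lit 188) (nat_lit 0) (nat_lit 0) (XT.nd (nat_lit 94) (nat_lit 840) (nat_lit 0) (XT.lf (nat_lit 0) (nat_lit 5849036296) (nat_lit 672) (nat_lit 1595266418) (nat_lit 756) (nat_lit 26125402) (nat_lit 109) (nat_lit 5) (nat_lit 117) (nat_lit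 5) (nat_lit 118) (nat_lit 5) (nat_lit 319) (nat_lit 298) (nat_lit 271)) (XT.lf (nat_lit 0) (nat_lit 1390854712) (nat_lit 756) (nat_lit 181057781) (nat_lit 840) (nat_lit 5988749071) (nat_lit 99) (nat_lit 5) (nat_lit 108) (nat_lit 5) (nat_lit 109) (nat_lit 5) (nat_lit 320) (nat_lit 298) (nat_lit 270))) (XT.nd (nat_lit 94) (nat_lit 0) (nat_lit 0) (XT.lf (nat_lit 0) (nat_lit 3197260979) (nat_lit 840) (nat_lit 3178867104) (nat_lit 84) (nat_lit 1278662795) (nat_lit 99) (nat_lit 5) (nat_lit 109) (nat_lit 5) (nat_lit 100) (nat_lit 5) (nat_lit 321) (nat_lit 298) (nat_lit 269)) (XT.lf (nat_lit 0) (nat_lit 4824943174) (nat_lit 840) (nat_lit 139198559) (nat_lit 84) (nat_lit 2789607663) (nat_lit 99) (nat_lit 5) (nat_lit 109) (nat_lit 5) (nat_lit 100) (nat_lit 5) (nat_lit 322) (nat_lit 298) (nat_lit 268)))) (XT.nd (nat_lit 188) (nat_lit 924) (nat_lit 0) (XT.nd (nat_lit 94) (nat_lit 84) (nat_lit 0) (XT.lf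 (nat_lit 0) (nat_lit 3014564952) (nat_lit 840) (nat_lit 3470020038) (nat_lit 924) (nat_lit 1372172998) (nat_lit 89) (nat_lit 5) (nat_lit 99) (nat_lit 5) (nat_lit 100) (nat_lit 5) (nat_lit 323) (nat_lit 298) (nat_lit 267)) (XT.lf (nat_lit 0) (nat_lit 181272724) (nat_lit 924) (nat_lit 1738026136) (nat_lit 84) (nat_lit 6045423492) (nat_lit 88) (nat_lit 5) (nat_lit 99) (nat_lit 5) (nat_lit 89) (nat_lit 5) (nat_lit 324) (nat_lit 298) (nat_lit 266))) (XT.nd (nat_lit 94) (nat_lit 0) (nat_lit 0) (XT.lf (nat_lit 0) (nat_lit 1436706153) (nat_lit 924) (nat_lit 285145861) (nat_lit 1008) (nat_lit 6355127778) (nat_lit 77) (nat_lit 5) (nat_lit 88) (nat_lit 5) (nat_lit 89) (nat_lit 5) (nat_lit 325) (nat_lit 298) (nat_lit 265)) (XT.nd (nat_lit 94) (nat_lit 0) (nat_lit 0) (XT.lf (nat_lit 0) (nat_lit 3296692245) (nat_lit 1008) (nat_lit 3501526299) (nat_lit 84) (nat_lit 1395278976) (nat_lit 77) (nat_lit 5)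 (nat_lit 89) (nat_lit 5) (nat_lit 78) (nat_lit 5) (nat_lit 326) (nat_lit 298) (nat_lit 264)) (XT.lf (nat_lit 0) (nat_lit 4878934414) (nat_lit 1008) (nat_lit 309132719) (nat_lit 84) (nat_lit 3127195144) (nat_lit 77) (nat_lit 5) (nat_lit 89) (nat_lit 5) (nat_lit 78) (nat_lit 5) (nat_lit 327) (nat_lit 298) (nat_lit 263))))))))
noncomputable def xc51 : XT := (XT.nd (nat_lit 1598) (nat_lit 1512) (nat_lit 0) (XT.nd (nat_lit 752) (nat_lit 1260) (nat_lit 0) (XT.nd (nat_lit 376) (nat_lit 840) (nat_lit 0) (XT.nd (nat_lit 188) (nat_lit 588) (nat_lit 0) (XT.nd (nat_lit 94) (nat_lit 0) (nat_lit 0) (XT.lf (nat_lit 0) (nat_lit 3003219610) (nat_lit 672) (nat_lit 3493797354) (nat_lit 756) (nat_lit 1944534723) (nat_lit 69) (nat_lit 5) (nat_lit 77) (nat_lit 5) (nat_lit 78) (nat_lit 5) (nat_lit 328) (nat_lit 298) (nat_lit 262)) (XT.lf (nat_lit 0) (nat_lit 6385694719) (nat_lit 672) (nat_lit 1740695581) (nat_lit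 756) (nat_lit 446900958) (nat_lit 69) (nat_lit 5) (nat_lit 77) (nat_lit 5) (nat_lit 78) (nat_lit 5) (nat_lit 329) (nat_lit 298) (nat_lit 261))) (XT.nd (nat_lit 94) (nat_lit 0) (nat_lit 0) (XT.lf (nat_lit 0) (nat_lit 1045682696) (nat_lit 588) (nat_lit 7574110467) (nat_lit 84) (nat_lit 90205370) (nat_lit 62) (nat_lit 5) (nat_lit 69) (nat_lit 5) (nat_lit 63) (nat_lit 5) (nat_lit 330) (nat_lit 298) (nat_lit 260)) (XT.lf (nat_lit 0) (nat_lit 2575447308) (nat_lit 588) (nat_lit 4304356365) (nat_lit 84) (nat_lit 1971293677) (nat_lit 62) (nat_lit 5) (nat_lit 69) (nat_lit 5) (nat_lit 63) (nat_lit 5) (nat_lit 331) (nat_lit 298) (nat_lit 259)))) (XT.nd (nat_lit 188) (nat_lit 420) (nat_lit 0) (XT.nd (nat_lit 94) (nat_lit 420) (nat_lit 0) (XT.lf (nat_lit 0) (nat_lit 4113180956) (nat_lit 588) (nat_lit 972318036) (nat_lit 84) (nat_lit 3912586570) (nat_lit 62) (nat_lit 5) (nat_lit 69) (nat_lit 5) (nat_lit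 63) (nat_lit 5) (nat_lit 332) (nat_lit 298) (nat_lit 258)) (XT.lf (nat_lit 0) (nat_lit 2474975572) (nat_lit 420) (nat_lit 3209893459) (nat_lit 504) (nat_lit 3465470028) (nat_lit 57) (nat_lit 5) (nat_lit 62) (nat_lit 5) (nat_lit 63) (nat_lit 5) (nat_lit 333) (nat_lit 298) (nat_lit 257))) (XT.nd (nat_lit 94) (nat_lit 420) (nat_lit 0) (XT.lf (nat_lit 0) (nat_lit 6012228496) (nat_lit 420) (nat_lit 1265710988) (nat_lit 504) (nat_lit 2030495422) (nat_lit 57) (nat_lit 5) (nat_lit 62) (nat_lit 5) (nat_lit 63) (nat_lit 5) (nat_lit 334) (nat_lit 298) (nat_lit 256)) (XT.lf (nat_lit 0) (nat_lit 145523206) (nat_lit 420) (nat_lit 8747281892) (nat_lit 504) (nat_lit 579748604) (nat_lit 52) (nat_lit 5) (nat_lit 57) (nat_lit 5) (nat_lit 58) (nat_lit 5) (nat_lit 335) (nat_lit 298) (nat_lit 255))))) (XT.nd (nat_lit 376) (nat_lit 840) (nat_lit 0) (XT.nd (nat_lit 188) (nat_lit 336) (nat_lit 0) (XT.nd (nat_lit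 94) (nat_lit 0) (nat_lit 0) (XT.lf (nat_lit 0) (nat_lit 908961642) (nat_lit 504) (nat_lit 5937651784) (nat_lit 84) (nat_lit 2794761165) (nat_lit 51) (nat_lit 5) (nat_lit 57) (nat_lit 5) (nat_lit 52) (nat_lit 5) (nat_lit 336) (nat_lit 298) (nat_lit 254)) (XT.lf (nat_lit 0) (nat_lit 2396611649) (nat_lit 504) (nat_lit 2486376005) (nat_lit 84) (nat_lit 4933591000) (nat_lit 51) (nat_lit 5) (nat_lit 57) (nat_lit 5) (nat_lit 52) (nat_lit 5) (nat_lit 337) (nat_lit 298) (nat_lit 253))) (XT.nd (nat_lit 94) (nat_lit 0) (nat_lit 0) (XT.lf (nat_lit 0) (nat_lit 1057062421) (nat_lit 336) (nat_lit 2849692471) (nat_lit 420) (nat_lit 6091427521) (nat_lit 47) (nat_lit 5) (nat_lit 51) (nat_lit 5) (nat_lit 52) (nat_lit 5) (nat_lit 338) (nat_lit 298) (nat_lit 252)) (XT.lf (nat_lit 0) (nat_lit 4727298677) (nat_lit 336) (nat_lit 728927351) (nat_lit 420) (nat_lit 4729650876) (nat_lit 47) (nat_lit 5) (nat_lit 51)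 (nat_lit 5) (nat_lit 52) (nat_lit 5) (nat_lit 339) (nat_lit 298) (nat_lit 251)))) (XT.nd (nat_lit 188) (nat_lit 420) (nat_lit 0) (XT.nd (nat_lit 94) (nat_lit 420) (nat_lit 0) (XT.lf (nat_lit 0) (nat_lit 7035734075) (nat_lit 420) (nat_lit 1918425677) (nat_lit 84) (nat_lit 1426010120) (nat_lit 47) (nat_lit 5) (nat_lit 52) (nat_lit 5) (nat_lit 48) (nat_lit 5) (nat_lit 340) (nat_lit 298) (nat_lit 250)) (XT.lf (nat_lit 0) (nat_lit 1723940424) (nat_lit 420) (nat_lit 6933343162) (nat_lit 504) (nat_lit 1923632329) (nat_lit 42) (nat_lit 5) (nat_lit 47) (nat_lit 5) (nat_lit 48) (nat_lit 5) (nat_lit 341) (nat_lit 298) (nat_lit 249))) (XT.nd (nat_lit 94) (nat_lit 420) (nat_lit 0) (XT.lf (nat_lit 0) (nat_lit 5485432383) (nat_lit 420) (nat_lit 4832817706) (nat_lit 504) (nat_lit 470180277) (nat_lit 42) (nat_lit 5) (nat_lit 47) (nat_lit 5) (nat_lit 48) (nat_lit 5) (nat_lit 342) (nat_lit 298) (nat_lit 248))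 (XT.nd (nat_lit 94) (nat_lit 336) (nat_lit 0) (XT.lf (nat_lit 0) (nat_lit 977158320) (nat_lit 504) (nat_lit 1683292055) (nat_lit 84) (nat_lit 8342751688) (nat_lit 41) (nat_lit 5) (nat_lit 47) (nat_lit 5) (nat_lit 42) (nat_lit 5) (nat_lit 343) (nat_lit 298) (nat_lit 247)) (XT.lf (nat_lit 0) (nat_lit 2051943919) (nat_lit 336) (nat_lit 398472972) (nat_lit 420) (nat_lit 8774540934) (nat_lit 37) (nat_lit 5) (nat_lit 41) (nat_lit 5) (nat_lit 42) (nat_lit 5) (nat_lit 344) (nat_lit 298) (nat_lit 246))))))) (XT.nd (nat_lit 846) (nat_lit 840) (nat_lit 0) (XT.nd (nat_lit 376) (nat_lit 336) (nat_lit 0) (XT.nd (nat_lit 188) (nat_lit 336) (nat_lit 0) (XT.nd (nat_lit 94) (nat_lit 0) (nat_lit 0) (XT.lf (nat_lit 0) (nat_lit 3977265014) (nat_lit 420) (nat_lit 5567669934) (nat_lit 84) (nat_lit 1908592477) (nat_lit 37) (nat_lit 5) (nat_lit 42) (nat_lit 5) (nat_lit 38) (nat_lit 5) (nat_lit 345) (nat_lit 298)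 (nat_lit 245)) (XT.lf (nat_lit 0) (nat_lit 5527380142) (nat_lit 420) (nat_lit 1887537970) (nat_lit 84) (nat_lit 4275189919) (nat_lit 37) (nat_lit 5) (nat_lit 42) (nat_lit 5) (nat_lit 38) (nat_lit 5) (nat_lit 346) (nat_lit 298) (nat_lit 244))) (XT.nd (nat_lit 94) (nat_lit 0) (nat_lit 0) (XT.lf (nat_lit 0) (nat_lit 1913314171) (nat_lit 336) (nat_lit 5203920385) (nat_lit 420) (nat_lit 4817219753) (nat_lit 33) (nat_lit 5) (nat_lit 37) (nat_lit 5) (nat_lit 38) (nat_lit 5) (nat_lit 347) (nat_lit 298) (nat_lit 243)) (XT.lf (nat_lit 0) (nat_lit 5840417704) (nat_lit 336) (nat_lit 2908871501) (nat_lit 420) (nat_lit 3437474463) (nat_lit 33) (nat_lit 5) (nat_lit 37) (nat_lit 5) (nat_lit 38) (nat_lit 5) (nat_lit 348) (nat_lit 298) (nat_lit 242)))) (XT.nd (nat_lit 188) (nat_lit 84) (nat_lit 0) (XT.nd (nat_lit 94) (nat_lit 252) (nat_lit 0) (XT.lf (nat_lit 0) (nat_lit 9858621446) (nat_lit 336) (nat_lit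 547334260) (nat_lit 420) (nat_lit 2041907978) (nat_lit 33) (nat_lit 5) (nat_lit 37) (nat_lit 5) (nat_lit 38) (nat_lit 5) (nat_lit 349) (nat_lit 298) (nat_lit 241)) (XT.lf (nat_lit 0) (nat_lit 1260388547) (nat_lit 252) (nat_lit 10859571436) (nat_lit 336) (nat_lit 597071112) (nat_lit 30) (nat_lit 5) (nat_lit 33) (nat_lit 5) (nat_lit 34) (nat_lit 5) (nat_lit 350) (nat_lit 298) (nat_lit 240))) (XT.nd (nat_lit 94) (nat_lit 0) (nat_lit 0) (XT.lf (nat_lit 0) (nat_lit 882282091) (nat_lit 336) (nat_lit 7755156223) (nat_lit 84) (nat_lit 4356740218) (nat_lit 29) (nat_lit 5) (nat_lit 33) (nat_lit 5) (nat_lit 30) (nat_lit 5) (nat_lit 351) (nat_lit 298) (nat_lit 239)) (XT.nd (nat_lit 94) (nat_lit 0) (nat_lit 0) (XT.lf (nat_lit 0) (nat_lit 2370658792) (nat_lit 336) (nat_lit 3975070400) (nat_lit 84) (nat_lit 6934901312) (nat_lit 29) (nat_lit 5) (nat_lit 33) (nat_lit 5) (nat_lit 30) (nat_lit 5) (nat_lit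 352) (nat_lit 298) (nat_lit 238)) (XT.lf (nat_lit 0) (nat_lit 3881475964) (nat_lit 336) (nat_lit 106938626) (nat_lit 84) (nat_lit 9588423038) (nat_lit 29) (nat_lit 5) (nat_lit 33) (nat_lit 5) (nat_lit 30) (nat_lit 5) (nat_lit 353) (nat_lit 298) (nat_lit 237)))))) (XT.nd (nat_lit 376) (nat_lit 336) (nat_lit 0) (XT.nd (nat_lit 188) (nat_lit 252) (nat_lit 0) (XT.nd (nat_lit 94) (nat_lit 0) (nat_lit 0) (XT.lf (nat_lit 0) (nat_lit 3932066989) (nat_lit 252) (nat_lit 1523081448) (nat_lit 336) (nat_lit 8426718358) (nat_lit 26) (nat_lit 5) (nat_lit 29) (nat_lit 5) (nat_lit 30) (nat_lit 5) (nat_lit 354) (nat_lit 298) (nat_lit 236)) (XT.lf (nat_lit 0) (nat_lit 7066211240) (nat_lit 336) (nat_lit 6136638100) (nat_lit 84) (nat_lit 993987871) (nat_lit 26) (nat_lit 5) (nat_lit 30) (nat_lit 5) (nat_lit 27) (nat_lit 5) (nat_lit 355) (nat_lit 298) (nat_lit 235))) (XT.nd (nat_lit 94) (nat_lit 252) (nat_lit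 0) (XT.lf (nat_lit 0) (nat_lit 8720848306) (nat_lit 336) (nat_lit 2248734222) (nat_lit 84) (nat_lit 3552314782) (nat_lit 26) (nat_lit 5) (nat_lit 30) (nat_lit 5) (nat_lit 27) (nat_lit 5) (nat_lit 356) (nat_lit 298) (nat_lit 234)) (XT.lf (nat_lit 0) (nat_lit 1768271648) (nat_lit 252) (nat_lit 8654762599) (nat_lit 336) (nat_lit 4434240435) (nat_lit 23) (nat_lit 5) (nat_lit 26) (nat_lit 5) (nat_lit 27) (nat_lit 5) (nat_lit 357) (nat_lit 298) (nat_lit 233)))) (XT.nd (nat_lit 188) (nat_lit 336) (nat_lit 0) (XT.nd (nat_lit 94) (nat_lit 0) (nat_lit 0) (XT.lf (nat_lit 0) (nat_lit 5930700779) (nat_lit 252) (nat_lit 6249847415) (nat_lit 336) (nat_lit 3022541771) (nat_lit 23) (nat_lit 5) (nat_lit 26) (nat_lit 5) (nat_lit 27) (nat_lit 5) (nat_lit 358) (nat_lit 298) (nat_lit 232)) (XT.lf (nat_lit 0) (nat_lit 10196194404) (nat_lit 252) (nat_lit 3776067515) (nat_lit 336) (nat_lit 1588109334) (nat_lit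 23) (nat_lit 5) (nat_lit 26) (nat_lit 5) (nat_lit 27) (nat_lit 5) (nat_lit 359) (nat_lit 298) (nat_lit 231))) (XT.nd (nat_lit 94) (nat_lit 336) (nat_lit 0) (XT.lf (nat_lit 0) (nat_lit 14568728409) (nat_lit 252) (nat_lit 1231117080) (nat_lit 336) (nat_lit 129606084) (nat_lit 23) (nat_lit 5) (nat_lit 26) (nat_lit 5) (nat_lit 27) (nat_lit 5) (nat_lit 360) (nat_lit 298) (nat_lit 230)) (XT.nd (nat_lit 94) (nat_lit 0) (nat_lit 0) (XT.lf (nat_lit 0) (nat_lit 1368844897) (nat_lit 336) (nat_lit 13539217840) (nat_lit 84) (nat_lit 1400899790) (nat_lit 19) (nat_lit 5) (nat_lit 23) (nat_lit 5) (nat_lit 20) (nat_lit 5) (nat_lit 361) (nat_lit 298) (nat_lit 229)) (XT.lf (nat_lit 0) (nat_lit 2918892812) (nat_lit 336) (nat_lit 9682079999) (nat_lit 84) (nat_lit 4099084975) (nat_lit 19) (nat_lit 5) (nat_lit 23) (nat_lit 5) (nat_lit 20) (nat_lit 5) (nat_lit 362) (nat_lit 298) (nat_lit 228))))))))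
noncomputable def xc52 : XT := (XT.nd (nat_lit 50196) (nat_lit 0) (nat_lit 7308) (XT.nd (nat_lit 752) (nat_lit 252) (nat_lit 0) (XT.nd (nat_lit 376) (nat_lit 168) (nat_lit 0) (XT.nd (nat_lit 188) (nat_lit 168) (nat_lit 0) (XT.nd (nat_lit 94) (nat_lit 0) (nat_lit 0) (XT.lf (nat_lit 0) (nat_lit 4498463910) (nat_lit 336) (nat_lit 5729932838) (nat_lit 84) (nat_lit 6875555025) (nat_lit 19) (nat_lit 5) (nat_lit 23) (nat_lit 5) (nat_lit 20) (nat_lit 5) (nat_lit 363) (nat_lit 298) (nat_lit 227)) (XT.lf (nat_lit 0) (nat_lit 6109030518) (nat_lit 336) (nat_lit 1679092541) (nat_lit 84) (nat_lit 9732897900) (nat_lit 19) (nat_lit 5) (nat_lit 23) (nat_lit 5) (nat_lit 20) (nat_lit 5) (nat_lit 364) (nat_lit 298) (nat_lit 226))) (XT.nd (nat_lit 94) (nat_lit 0) (nat_lit 0) (XT.lf (nat_lit 0) (nat_lit 2525091668) (nat_lit 168) (nat_lit 5252051405) (nat_lit 252) (nat_lit 10173734499) (nat_lit 17) (nat_lit 5)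 (nat_lit 19) (nat_lit 5) (nat_lit 20) (nat_lit 5) (nat_lit 365) (nat_lit 298) (nat_lit 225)) (XT.lf (nat_lit 0) (nat_lit 6872328300) (nat_lit 168) (nat_lit 2625031465) (nat_lit 252) (nat_lit 8896779413) (nat_lit 17) (nat_lit 5) (nat_lit 19) (nat_lit 5) (nat_lit 20) (nat_lit 5) (nat_lit 366) (nat_lit 298) (nat_lit 224)))) (XT.nd (nat_lit 188) (nat_lit 168) (nat_lit 0) (XT.nd (nat_lit 94) (nat_lit 0) (nat_lit 0) (XT.lf (nat_lit 0) (nat_lit 11255057085) (nat_lit 252) (nat_lit 7520374446) (nat_lit 84) (nat_lit 76290448) (nat_lit 17) (nat_lit 5) (nat_lit 20) (nat_lit 5) (nat_lit 18) (nat_lit 5) (nat_lit 367) (nat_lit 298) (nat_lit 223)) (XT.lf (nat_lit 0) (nat_lit 13077918573) (nat_lit 252) (nat_lit 3443792035) (nat_lit 84) (nat_lit 2801534481) (nat_lit 17) (nat_lit 5) (nat_lit 20) (nat_lit 5) (nat_lit 18) (nat_lit 5) (nat_lit 368) (nat_lit 298) (nat_lit 222))) (XT.nd (nat_lit 94) (nat_lit 0)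 (nat_lit 0) (XT.lf (nat_lit 0) (nat_lit 752946997) (nat_lit 168) (nat_lit 14196125021) (nat_lit 252) (nat_lit 4860651712) (nat_lit 15) (nat_lit 5) (nat_lit 17) (nat_lit 5) (nat_lit 18) (nat_lit 5) (nat_lit 369) (nat_lit 298) (nat_lit 221)) (XT.lf (nat_lit 0) (nat_lit 5131620416) (nat_lit 168) (nat_lit 11767132481) (nat_lit 252) (nat_lit 3411975218) (nat_lit 15) (nat_lit 5) (nat_lit 17) (nat_lit 5) (nat_lit 18) (nat_lit 5) (nat_lit 370) (nat_lit 298) (nat_lit 220))))) (XT.nd (nat_lit 48974) (nat_lit 0) (nat_lit 10836) (XT.nd (nat_lit 188) (nat_lit 252) (nat_lit 0) (XT.nd (nat_lit 94) (nat_lit 0) (nat_lit 0) (XT.lf (nat_lit 0) (nat_lit 9625498176) (nat_lit 168) (nat_lit 9268415038) (nat_lit 252) (nat_lit 1933892845) (nat_lit 15) (nat_lit 5) (nat_lit 17) (nat_lit 5) (nat_lit 18) (nat_lit 5) (nat_lit 371) (nat_lit 298) (nat_lit 219)) (XT.lf (nat_lit 0) (nat_lit 14238769042) (nat_lit 168) (nat_lit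 6697643627) (nat_lit 252) (nat_lit 425026863) (nat_lit 15) (nat_lit 5) (nat_lit 17) (nat_lit 5) (nat_lit 18) (nat_lit 5) (nat_lit 372) (nat_lit 298) (nat_lit 218))) (XT.nd (nat_lit 94) (nat_lit 168) (nat_lit 0) (XT.lf (nat_lit 0) (nat_lit 1093543646) (nat_lit 252) (nat_lit 2947464021) (nat_lit 84) (nat_lit 17870775066) (nat_lit 14) (nat_lit 5) (nat_lit 17) (nat_lit 5) (nat_lit 15) (nat_lit 5) (nat_lit 373) (nat_lit 298) (nat_lit 217)) (XT.lf (nat_lit 0) (nat_lit 1361159149) (nat_lit 168) (nat_lit 1288843486) (nat_lit 252) (nat_lit 19829129891) (nat_lit 12) (nat_lit 5) (nat_lit 14) (nat_lit 5) (nat_lit 15) (nat_lit 5) (nat_lit 374) (nat_lit 298) (nat_lit 216)))) (XT.nd (nat_lit 188) (nat_lit 336) (nat_lit 0) (XT.nd (nat_lit 94) (nat_lit 252) (nat_lit 0) (XT.lf (nat_lit 0) (nat_lit 3203321274) (nat_lit 252) (nat_lit 20562693) (nat_lit 252) (nat_lit 20562693) (nat_lit 148) (nat_lit 3) (nat_lit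 151) (nat_lit 3) (nat_lit 151) (nat_lit 5) (nat_lit 299) (nat_lit 299) (nat_lit 290)) (XT.lf (nat_lit 0) (nat_lit 1903577690) (nat_lit 252) (nat_lit 4232576511) (nat_lit 336) (nat_lit 369351117) (nat_lit 145) (nat_lit 5) (nat_lit 148) (nat_lit 3) (nat_lit 149) (nat_lit 5) (nat_lit 300) (nat_lit 299) (nat_lit 289))) (XT.nd (nat_lit 94) (nat_lit 336) (nat_lit 0) (XT.lf (nat_lit 0) (nat_lit 3870201537) (nat_lit 252) (nat_lit 1907594514) (nat_lit 336) (nat_lit 748165291) (nat_lit 145) (nat_lit 5) (nat_lit 148) (nat_lit 3) (nat_lit 149) (nat_lit 5) (nat_lit 301) (nat_lit 299) (nat_lit 288)) (XT.nd (nat_lit 94) (nat_lit 336) (nat_lit 0) (XT.lf (nat_lit 84) (nat_lit 456248466) (nat_lit 0) (nat_lit 5368967995) (nat_lit 336) (nat_lit 724962023) (nat_lit 146) (nat_lit 5) (nat_lit 145) (nat_lit 5) (nat_lit 149) (nat_lit 5) (nat_lit 302) (nat_lit 299) (nat_lit 287)) (XT.lf (nat_lit 0) (nat_lit 1183503430)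 (nat_lit 336) (nat_lit 3697858919) (nat_lit 420) (nat_lit 1695977276) (nat_lit 141) (nat_lit 5) (nat_lit 145) (nat_lit 5) (nat_lit 146) (nat_lit 5) (nat_lit 303) (nat_lit 299) (nat_lit 286))))))) (XT.nd (nat_lit 752) (nat_lit 2688) (nat_lit 0) (XT.nd (nat_lit 376) (nat_lit 420) (nat_lit 0) (XT.nd (nat_lit 188) (nat_lit 420) (nat_lit 0) (XT.nd (nat_lit 94) (nat_lit 0) (nat_lit 0) (XT.lf (nat_lit 0) (nat_lit 3061580160) (nat_lit 336) (nat_lit 1277970772) (nat_lit 420) (nat_lit 2268671637) (nat_lit 141) (nat_lit 5) (nat_lit 145) (nat_lit 5) (nat_lit 146) (nat_lit 5) (nat_lit 304) (nat_lit 299) (nat_lit 285)) (XT.lf (nat_lit 84) (nat_lit 1199345871) (nat_lit 0) (nat_lit 3738176887) (nat_lit 420) (nat_lit 1705187460) (nat_lit 142) (nat_lit 5) (nat_lit 141) (nat_lit 5) (nat_lit 146) (nat_lit 5) (nat_lit 305) (nat_lit 299) (nat_lit 284))) (XT.nd (nat_lit 94) (nat_lit 0) (nat_lit 0) (XT.lf (nat_lit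 0) (nat_lit 130984328) (nat_lit 420) (nat_lit 2942895582) (nat_lit 504) (nat_lit 3606870625) (nat_lit 136) (nat_lit 5) (nat_lit 141) (nat_lit 5) (nat_lit 142) (nat_lit 5) (nat_lit 306) (nat_lit 299) (nat_lit 283)) (XT.lf (nat_lit 0) (nat_lit 1918871561) (nat_lit 420) (nat_lit 424582455) (nat_lit 504) (nat_lit 4378847183) (nat_lit 136) (nat_lit 5) (nat_lit 141) (nat_lit 5) (nat_lit 142) (nat_lit 5) (nat_lit 307) (nat_lit 299) (nat_lit 282)))) (XT.nd (nat_lit 188) (nat_lit 420) (nat_lit 0) (XT.nd (nat_lit 94) (nat_lit 0) (nat_lit 0) (XT.lf (nat_lit 84) (nat_lit 2174652435) (nat_lit 0) (nat_lit 1541416849) (nat_lit 504) (nat_lit 3051187283) (nat_lit 137) (nat_lit 5) (nat_lit 136) (nat_lit 5) (nat_lit 142) (nat_lit 5) (nat_lit 308) (nat_lit 299) (nat_lit 281)) (XT.lf (nat_lit 84) (nat_lit 4822918877) (nat_lit 0) (nat_lit 684439178) (nat_lit 504) (nat_lit 1308824221) (nat_lit 137) (nat_lit 5)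 (nat_lit 136) (nat_lit 5) (nat_lit 142) (nat_lit 5) (nat_lit 309) (nat_lit 299) (nat_lit 280))) (XT.nd (nat_lit 94) (nat_lit 0) (nat_lit 0) (XT.lf (nat_lit 0) (nat_lit 421186938) (nat_lit 504) (nat_lit 6217562917) (nat_lit 84) (nat_lit 230104664) (nat_lit 131) (nat_lit 5) (nat_lit 137) (nat_lit 5) (nat_lit 132) (nat_lit 5) (nat_lit 310) (nat_lit 299) (nat_lit 279)) (XT.lf (nat_lit 0) (nat_lit 2142090217) (nat_lit 504) (nat_lit 3566722289) (nat_lit 84) (nat_lit 1215642313) (nat_lit 131) (nat_lit 5) (nat_lit 137) (nat_lit 5) (nat_lit 132) (nat_lit 5) (nat_lit 311) (nat_lit 299) (nat_lit 278))))) (XT.nd (nat_lit 376) (nat_lit 1512) (nat_lit 0) (XT.nd (nat_lit 188) (nat_lit 672) (nat_lit 0) (XT.nd (nat_lit 94) (nat_lit 504) (nat_lit 0) (XT.lf (nat_lit 0) (nat_lit 3854683452) (nat_lit 504) (nat_lit 876084283) (nat_lit 84) (nat_lit 2253512222) (nat_lit 131) (nat_lit 5) (nat_lit 137) (nat_lit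 5) (nat_lit 132) (nat_lit 5) (nat_lit 312) (nat_lit 299) (nat_lit 277)) (XT.lf (nat_lit 0) (nat_lit 1895039887) (nat_lit 504) (nat_lit 3684322102) (nat_lit 588) (nat_lit 1468440938) (nat_lit 125) (nat_lit 5) (nat_lit 131) (nat_lit 5) (nat_lit 132) (nat_lit 5) (nat_lit 313) (nat_lit 299) (nat_lit 276))) (XT.nd (nat_lit 94) (nat_lit 588) (nat_lit 0) (XT.lf (nat_lit 0) (nat_lit 188977532) (nat_lit 588) (nat_lit 2387337311) (nat_lit 84) (nat_lit 4539003064) (nat_lit 124) (nat_lit 5) (nat_lit 131) (nat_lit 5) (nat_lit 125) (nat_lit 5) (nat_lit 314) (nat_lit 299) (nat_lit 275)) (XT.lf (nat_lit 0) (nat_lit 416004912) (nat_lit 588) (nat_lit 1397634802) (nat_lit 672) (nat_lit 5373005215) (nat_lit 117) (nat_lit 5) (nat_lit 124) (nat_lit 5) (nat_lit 125) (nat_lit 5) (nat_lit 315) (nat_lit 299) (nat_lit 274)))) (XT.nd (nat_lit 188) (nat_lit 1512) (nat_lit 0) (XT.nd (nat_lit 94) (nat_lit 0) (nat_lit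 0) (XT.lf (nat_lit 0) (nat_lit 3316103319) (nat_lit 588) (nat_lit 141054305) (nat_lit 672) (nat_lit 3804508568) (nat_lit 117) (nat_lit 5) (nat_lit 124) (nat_lit 5) (nat_lit 125) (nat_lit 5) (nat_lit 316) (nat_lit 299) (nat_lit 273)) (XT.lf (nat_lit 0) (nat_lit 5108496906) (nat_lit 672) (nat_lit 1086231689) (nat_lit 84) (nat_lit 1146112581) (nat_lit 117) (nat_lit 5) (nat_lit 125) (nat_lit 5) (nat_lit 118) (nat_lit 5) (nat_lit 317) (nat_lit 299) (nat_lit 272))) (XT.nd (nat_lit 94) (nat_lit 840) (nat_lit 0) (XT.lf (nat_lit 0) (nat_lit 1857100749) (nat_lit 672) (nat_lit 4920853124) (nat_lit 756) (nat_lit 646018340) (nat_lit 109) (nat_lit 5) (nat_lit 117) (nat_lit 5) (nat_lit 118) (nat_lit 5) (nat_lit 318) (nat_lit 299) (nat_lit 271)) (XT.nd (nat_lit 94) (nat_lit 756) (nat_lit 0) (XT.lf (nat_lit 0) (nat_lit 928273664) (nat_lit 756) (nat_lit 2646289525) (nat_lit 84) (nat_lit 3936540454) (nat_lit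 108) (nat_lit 5) (nat_lit 117) (nat_lit 5) (nat_lit 109) (nat_lit 5) (nat_lit 319) (nat_lit 299) (nat_lit 270)) (XT.lf (nat_lit 0) (nat_lit 324278554) (nat_lit 756) (nat_lit 2165745022) (nat_lit 840) (nat_lit 5112628098) (nat_lit 99) (nat_lit 5) (nat_lit 108) (nat_lit 5) (nat_lit 109) (nat_lit 5) (nat_lit 320) (nat_lit 299) (nat_lit 269))))))))
noncomputable def xc53 : XT := (XT.nd (nat_lit 1598) (nat_lit 2100) (nat_lit 0) (XT.nd (nat_lit 752) (nat_lit 1512) (nat_lit 0) (XT.nd (nat_lit 376) (nat_lit 1596) (nat_lit 0) (XT.nd (nat_lit 188) (nat_lit 924) (nat_lit 0) (XT.nd (nat_lit 94) (nat_lit 0) (nat_lit 0) (XT.lf (nat_lit 0) (nat_lit 3402965855) (nat_lit 756) (nat_lit 674841280) (nat_lit 840) (nat_lit 3620345939) (nat_lit 99) (nat_lit 5) (nat_lit 108) (nat_lit 5) (nat_lit 109) (nat_lit 5) (nat_lit 321) (nat_lit 299) (nat_lit 268)) (XT.lf (nat_lit 0) (nat_lit 5674962530) (nat_lit 840) (nat_lit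 1268948008) (nat_lit 84) (nat_lit 854348717) (nat_lit 99) (nat_lit 5) (nat_lit 109) (nat_lit 5) (nat_lit 100) (nat_lit 5) (nat_lit 322) (nat_lit 299) (nat_lit 267))) (XT.nd (nat_lit 94) (nat_lit 84) (nat_lit 0) (XT.lf (nat_lit 0) (nat_lit 1841665430) (nat_lit 840) (nat_lit 5458187903) (nat_lit 924) (nat_lit 602687073) (nat_lit 89) (nat_lit 5) (nat_lit 99) (nat_lit 5) (nat_lit 100) (nat_lit 5) (nat_lit 323) (nat_lit 299) (nat_lit 266)) (XT.lf (nat_lit 0) (nat_lit 912226029) (nat_lit 924) (nat_lit 2984319862) (nat_lit 84) (nat_lit 4114619862) (nat_lit 88) (nat_lit 5) (nat_lit 99) (nat_lit 5) (nat_lit 89) (nat_lit 5) (nat_lit 324) (nat_lit 299) (nat_lit 265)))) (XT.nd (nat_lit 188) (nat_lit 672) (nat_lit 0) (XT.nd (nat_lit 94) (nat_lit 0) (nat_lit 0) (XT.lf (nat_lit 0) (nat_lit 145009946) (nat_lit 924) (nat_lit 2272644832) (nat_lit 1008) (nat_lit 5707036269) (nat_lit 77) (nat_lit 5) (nat_lit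 88) (nat_lit 5) (nat_lit 89) (nat_lit 5) (nat_lit 325) (nat_lit 299) (nat_lit 264)) (XT.lf (nat_lit 0) (nat_lit 3395657365) (nat_lit 924) (nat_lit 560856279) (nat_lit 1008) (nat_lit 4285983383) (nat_lit 77) (nat_lit 5) (nat_lit 88) (nat_lit 5) (nat_lit 89) (nat_lit 5) (nat_lit 326) (nat_lit 299) (nat_lit 263))) (XT.nd (nat_lit 94) (nat_lit 672) (nat_lit 0) (XT.lf (nat_lit 0) (nat_lit 5512019506) (nat_lit 1008) (nat_lit 1668337579) (nat_lit 84) (nat_lit 1184901158) (nat_lit 77) (nat_lit 5) (nat_lit 89) (nat_lit 5) (nat_lit 78) (nat_lit 5) (nat_lit 327) (nat_lit 299) (nat_lit 262)) (XT.lf (nat_lit 0) (nat_lit 1596808417) (nat_lit 672) (nat_lit 5498805936) (nat_lit 756) (nat_lit 1397165011) (nat_lit 69) (nat_lit 5) (nat_lit 77) (nat_lit 5) (nat_lit 78) (nat_lit 5) (nat_lit 328) (nat_lit 299) (nat_lit 261))))) (XT.nd (nat_lit 376) (nat_lit 924) (nat_lit 0) (XT.nd (nat_lit 188) (nat_lit 504)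 (nat_lit 0) (XT.nd (nat_lit 94) (nat_lit 0) (nat_lit 0) (XT.lf (nat_lit 0) (nat_lit 77980633) (nat_lit 756) (nat_lit 3665485051) (nat_lit 84) (nat_lit 4881809697) (nat_lit 68) (nat_lit 5) (nat_lit 77) (nat_lit 5) (nat_lit 69) (nat_lit 5) (nat_lit 329) (nat_lit 299) (nat_lit 260)) (XT.lf (nat_lit 0) (nat_lit 1529520898) (nat_lit 756) (nat_lit 387070865) (nat_lit 84) (nat_lit 6846395044) (nat_lit 68) (nat_lit 5) (nat_lit 77) (nat_lit 5) (nat_lit 69) (nat_lit 5) (nat_lit 330) (nat_lit 299) (nat_lit 259))) (XT.nd (nat_lit 94) (nat_lit 0) (nat_lit 0) (XT.lf (nat_lit 0) (nat_lit 3016888123) (nat_lit 588) (nat_lit 5888571957) (nat_lit 84) (nat_lit 83765) (nat_lit 62) (nat_lit 5) (nat_lit 69) (nat_lit 5) (nat_lit 63) (nat_lit 5) (nat_lit 331) (nat_lit 299) (nat_lit 258)) (XT.lf (nat_lit 0) (nat_lit 4535780126) (nat_lit 588) (nat_lit 2575195938) (nat_lit 84) (nat_lit 1942279659) (nat_lit 62) (nat_lit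 5) (nat_lit 69) (nat_lit 5) (nat_lit 63) (nat_lit 5) (nat_lit 332) (nat_lit 299) (nat_lit 257)))) (XT.nd (nat_lit 188) (nat_lit 504) (nat_lit 0) (XT.nd (nat_lit 94) (nat_lit 0) (nat_lit 0) (XT.lf (nat_lit 0) (nat_lit 820665841) (nat_lit 420) (nat_lit 5252116286) (nat_lit 504) (nat_lit 3133937739) (nat_lit 57) (nat_lit 5) (nat_lit 62) (nat_lit 5) (nat_lit 63) (nat_lit 5) (nat_lit 333) (nat_lit 299) (nat_lit 256)) (XT.lf (nat_lit 0) (nat_lit 4340000851) (nat_lit 420) (nat_lit 3307948362) (nat_lit 504) (nat_lit 1717552814) (nat_lit 57) (nat_lit 5) (nat_lit 62) (nat_lit 5) (nat_lit 63) (nat_lit 5) (nat_lit 334) (nat_lit 299) (nat_lit 255))) (XT.nd (nat_lit 94) (nat_lit 504) (nat_lit 0) (XT.lf (nat_lit 0) (nat_lit 7933138168) (nat_lit 420) (nat_lit 1303539887) (nat_lit 504) (nat_lit 293880367) (nat_lit 57) (nat_lit 5) (nat_lit 62) (nat_lit 5) (nat_lit 63) (nat_lit 5) (nat_lit 335) (nat_lit 299)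 (nat_lit 254)) (XT.nd (nat_lit 94) (nat_lit 0) (nat_lit 0) (XT.lf (nat_lit 0) (nat_lit 1142485773) (nat_lit 504) (nat_lit 7780024581) (nat_lit 84) (nat_lit 778344982) (nat_lit 51) (nat_lit 5) (nat_lit 57) (nat_lit 5) (nat_lit 52) (nat_lit 5) (nat_lit 336) (nat_lit 299) (nat_lit 253)) (XT.lf (nat_lit 0) (nat_lit 2613341046) (nat_lit 504) (nat_lit 4346535288) (nat_lit 84) (nat_lit 2916819914) (nat_lit 51) (nat_lit 5) (nat_lit 57) (nat_lit 5) (nat_lit 52) (nat_lit 5) (nat_lit 337) (nat_lit 299) (nat_lit 252))))))) (XT.nd (nat_lit 752) (nat_lit 924) (nat_lit 0) (XT.nd (nat_lit 376) (nat_lit 840) (nat_lit 0) (XT.nd (nat_lit 188) (nat_lit 0) (nat_lit 0) (XT.nd (nat_lit 94) (nat_lit 336) (nat_lit 0) (XT.lf (nat_lit 0) (nat_lit 4096708349) (nat_lit 504) (nat_lit 841645997) (nat_lit 84) (nat_lit 5120888435) (nat_lit 51) (nat_lit 5) (nat_lit 57) (nat_lit 5) (nat_lit 52) (nat_lit 5) (nat_lit 338)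 (nat_lit 299) (nat_lit 251)) (XT.lf (nat_lit 0) (nat_lit 2794207264) (nat_lit 336) (nat_lit 2827481952) (nat_lit 420) (nat_lit 4626116584) (nat_lit 47) (nat_lit 5) (nat_lit 51) (nat_lit 5) (nat_lit 52) (nat_lit 5) (nat_lit 339) (nat_lit 299) (nat_lit 250))) (XT.nd (nat_lit 94) (nat_lit 0) (nat_lit 0) (XT.lf (nat_lit 0) (nat_lit 6526973848) (nat_lit 336) (nat_lit 644297149) (nat_lit 420) (nat_lit 3271861528) (nat_lit 47) (nat_lit 5) (nat_lit 51) (nat_lit 5) (nat_lit 52) (nat_lit 5) (nat_lit 340) (nat_lit 299) (nat_lit 249)) (XT.lf (nat_lit 0) (nat_lit 8754293496) (nat_lit 420) (nat_lit 318758395) (nat_lit 84) (nat_lit 1572123869) (nat_lit 47) (nat_lit 5) (nat_lit 52) (nat_lit 5) (nat_lit 48) (nat_lit 5) (nat_lit 341) (nat_lit 299) (nat_lit 248)))) (XT.nd (nat_lit 188) (nat_lit 336) (nat_lit 0) (XT.nd (nat_lit 94) (nat_lit 84) (nat_lit 0) (XT.lf (nat_lit 0) (nat_lit 3419723769) (nat_lit 420)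 (nat_lit 6977564079) (nat_lit 504) (nat_lit 456059262) (nat_lit 42) (nat_lit 5) (nat_lit 47) (nat_lit 5) (nat_lit 48) (nat_lit 5) (nat_lit 342) (nat_lit 299) (nat_lit 247)) (XT.lf (nat_lit 0) (nat_lit 976452086) (nat_lit 504) (nat_lit 3830411062) (nat_lit 84) (nat_lit 6261795992) (nat_lit 41) (nat_lit 5) (nat_lit 47) (nat_lit 5) (nat_lit 42) (nat_lit 5) (nat_lit 343) (nat_lit 299) (nat_lit 246))) (XT.nd (nat_lit 94) (nat_lit 336) (nat_lit 0) (XT.lf (nat_lit 0) (nat_lit 2415249648) (nat_lit 504) (nat_lit 152379035) (nat_lit 84) (nat_lit 8723945542) (nat_lit 41) (nat_lit 5) (nat_lit 47) (nat_lit 5) (nat_lit 42) (nat_lit 5) (nat_lit 344) (nat_lit 299) (nat_lit 245)) (XT.lf (nat_lit 0) (nat_lit 3682621838) (nat_lit 336) (nat_lit 224773336) (nat_lit 420) (nat_lit 7613912724) (nat_lit 37) (nat_lit 5) (nat_lit 41) (nat_lit 5) (nat_lit 42) (nat_lit 5) (nat_lit 345) (nat_lit 299) (nat_lit 244)))))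 (XT.nd (nat_lit 376) (nat_lit 588) (nat_lit 0) (XT.nd (nat_lit 188) (nat_lit 336) (nat_lit 0) (XT.nd (nat_lit 94) (nat_lit 0) (nat_lit 0) (XT.lf (nat_lit 0) (nat_lit 5441841531) (nat_lit 420) (nat_lit 4172037231) (nat_lit 84) (nat_lit 2144581112) (nat_lit 37) (nat_lit 5) (nat_lit 42) (nat_lit 5) (nat_lit 38) (nat_lit 5) (nat_lit 346) (nat_lit 299) (nat_lit 243)) (XT.lf (nat_lit 0) (nat_lit 6999680722) (nat_lit 420) (nat_lit 424974566) (nat_lit 84) (nat_lit 4579226402) (nat_lit 37) (nat_lit 5) (nat_lit 42) (nat_lit 5) (nat_lit 38) (nat_lit 5) (nat_lit 347) (nat_lit 299) (nat_lit 242))) (XT.nd (nat_lit 94) (nat_lit 0) (nat_lit 0) (XT.lf (nat_lit 0) (nat_lit 3478304453) (nat_lit 336) (nat_lit 5136335796) (nat_lit 420) (nat_lit 3642161314) (nat_lit 33) (nat_lit 5) (nat_lit 37) (nat_lit 5) (nat_lit 38) (nat_lit 5) (nat_lit 348) (nat_lit 299) (nat_lit 241)) (XT.lf (nat_lit 0) (nat_lit 7481875640)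 (nat_lit 336) (nat_lit 2777023122) (nat_lit 420) (nat_lit 2259465608) (nat_lit 33) (nat_lit 5) (nat_lit 37) (nat_lit 5) (nat_lit 38) (nat_lit 5) (nat_lit 349) (nat_lit 299) (nat_lit 240)))) (XT.nd (nat_lit 188) (nat_lit 252) (nat_lit 0) (XT.nd (nat_lit 94) (nat_lit 336) (nat_lit 0) (XT.lf (nat_lit 0) (nat_lit 11580732394) (nat_lit 336) (nat_lit 348954002) (nat_lit 420) (nat_lit 859260895) (nat_lit 33) (nat_lit 5) (nat_lit 37) (nat_lit 5) (nat_lit 38) (nat_lit 5) (nat_lit 350) (nat_lit 299) (nat_lit 239)) (XT.lf (nat_lit 0) (nat_lit 597525517) (nat_lit 336) (nat_lit 10329501425) (nat_lit 84) (nat_lit 2140083050) (nat_lit 29) (nat_lit 5) (nat_lit 33) (nat_lit 5) (nat_lit 30) (nat_lit 5) (nat_lit 351) (nat_lit 299) (nat_lit 238))) (XT.nd (nat_lit 94) (nat_lit 252) (nat_lit 0) (XT.lf (nat_lit 0) (nat_lit 2074233480) (nat_lit 336) (nat_lit 6563761594) (nat_lit 84) (nat_lit 4715997781) (nat_lit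 29) (nat_lit 5) (nat_lit 33) (nat_lit 5) (nat_lit 30) (nat_lit 5) (nat_lit 352) (nat_lit 299) (nat_lit 237)) (XT.nd (nat_lit 94) (nat_lit 252) (nat_lit 0) (XT.lf (nat_lit 0) (nat_lit 3573732768) (nat_lit 336) (nat_lit 2709544458) (nat_lit 84) (nat_lit 7367340688) (nat_lit 29) (nat_lit 5) (nat_lit 33) (nat_lit 5) (nat_lit 30) (nat_lit 5) (nat_lit 353) (nat_lit 299) (nat_lit 236)) (XT.lf (nat_lit 0) (nat_lit 1262172479) (nat_lit 252) (nat_lit 3847769500) (nat_lit 336) (nat_lit 8846931527) (nat_lit 26) (nat_lit 5) (nat_lit 29) (nat_lit 5) (nat_lit 30) (nat_lit 5) (nat_lit 354) (nat_lit 299) (nat_lit 235))))))))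
noncomputable def xc54 : XT := (XT.nd (nat_lit 1598) (nat_lit 84) (nat_lit 0) (XT.nd (nat_lit 752) (nat_lit 336) (nat_lit 0) (XT.nd (nat_lit 376) (nat_lit 336) (nat_lit 0) (XT.nd (nat_lit 188) (nat_lit 252) (nat_lit 0) (XT.nd (nat_lit 94) (nat_lit 0) (nat_lit 0) (XT.lf (nat_lit 0) (nat_lit 5387320179) (nat_lit 252) (nat_lit 1312841332) (nat_lit 336) (nat_lit 7572391659) (nat_lit 26) (nat_lit 5) (nat_lit 29) (nat_lit 5) (nat_lit 30) (nat_lit 5) (nat_lit 355) (nat_lit 299) (nat_lit 234)) (XT.lf (nat_lit 0) (nat_lit 8331294307) (nat_lit 336) (nat_lit 4997624010) (nat_lit 84) (nat_lit 1269484796) (nat_lit 26) (nat_lit 5) (nat_lit 30) (nat_lit 5) (nat_lit 27) (nat_lit 5) (nat_lit 356) (nat_lit 299) (nat_lit 233))) (XT.nd (nat_lit 94) (nat_lit 252) (nat_lit 0) (XT.lf (nat_lit 0) (nat_lit 10005773186) (nat_lit 336) (nat_lit 1029162858) (nat_lit 84) (nat_lit 3899762730) (nat_lit 26) (nat_lit 5)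 (nat_lit 30) (nat_lit 5) (nat_lit 27) (nat_lit 5) (nat_lit 357) (nat_lit 299) (nat_lit 232)) (XT.lf (nat_lit 0) (nat_lit 3099317370) (nat_lit 252) (nat_lit 8643563631) (nat_lit 336) (nat_lit 3538323230) (nat_lit 23) (nat_lit 5) (nat_lit 26) (nat_lit 5) (nat_lit 27) (nat_lit 5) (nat_lit 358) (nat_lit 299) (nat_lit 231)))) (XT.nd (nat_lit 188) (nat_lit 336) (nat_lit 0) (XT.nd (nat_lit 94) (nat_lit 0) (nat_lit 0) (XT.lf (nat_lit 0) (nat_lit 7352408276) (nat_lit 252) (nat_lit 6172499951) (nat_lit 336) (nat_lit 2113933429) (nat_lit 23) (nat_lit 5) (nat_lit 26) (nat_lit 5) (nat_lit 27) (nat_lit 5) (nat_lit 359) (nat_lit 299) (nat_lit 230)) (XT.lf (nat_lit 0) (nat_lit 11712912486) (nat_lit 252) (nat_lit 3630184063) (nat_lit 336) (nat_lit 665170853) (nat_lit 23) (nat_lit 5) (nat_lit 26) (nat_lit 5) (nat_lit 27) (nat_lit 5) (nat_lit 360) (nat_lit 299) (nat_lit 229))) (XT.nd (nat_lit 94) (nat_lit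 252) (nat_lit 0) (XT.lf (nat_lit 0) (nat_lit 793009004) (nat_lit 336) (nat_lit 212959870) (nat_lit 84) (nat_lit 15383608053) (nat_lit 22) (nat_lit 5) (nat_lit 26) (nat_lit 5) (nat_lit 23) (nat_lit 5) (nat_lit 361) (nat_lit 299) (nat_lit 228)) (XT.lf (nat_lit 0) (nat_lit 2321776757) (nat_lit 336) (nat_lit 12751936826) (nat_lit 84) (nat_lit 1707667721) (nat_lit 19) (nat_lit 5) (nat_lit 23) (nat_lit 5) (nat_lit 20) (nat_lit 5) (nat_lit 362) (nat_lit 299) (nat_lit 227))))) (XT.nd (nat_lit 376) (nat_lit 168) (nat_lit 0) (XT.nd (nat_lit 188) (nat_lit 168) (nat_lit 0) (XT.nd (nat_lit 94) (nat_lit 0) (nat_lit 0) (XT.lf (nat_lit 0) (nat_lit 3892499409) (nat_lit 336) (nat_lit 8811519565) (nat_lit 84) (nat_lit 4481578566) (nat_lit 19) (nat_lit 5) (nat_lit 23) (nat_lit 5) (nat_lit 20) (nat_lit 5) (nat_lit 363) (nat_lit 299) (nat_lit 226)) (XT.lf (nat_lit 0) (nat_lit 5494483624) (nat_lit 336) (nat_lit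 4772056474) (nat_lit 84) (nat_lit 7336439186) (nat_lit 19) (nat_lit 5) (nat_lit 23) (nat_lit 5) (nat_lit 20) (nat_lit 5) (nat_lit 364) (nat_lit 299) (nat_lit 225))) (XT.nd (nat_lit 94) (nat_lit 168) (nat_lit 0) (XT.lf (nat_lit 0) (nat_lit 7129222619) (nat_lit 336) (nat_lit 629782352) (nat_lit 84) (nat_lit 10274910612) (nat_lit 19) (nat_lit 5) (nat_lit 23) (nat_lit 5) (nat_lit 20) (nat_lit 5) (nat_lit 365) (nat_lit 299) (nat_lit 224)) (XT.lf (nat_lit 0) (nat_lit 3693581266) (nat_lit 168) (nat_lit 5141299660) (nat_lit 252) (nat_lit 9642791323) (nat_lit 17) (nat_lit 5) (nat_lit 19) (nat_lit 5) (nat_lit 20) (nat_lit 5) (nat_lit 366) (nat_lit 299) (nat_lit 223)))) (XT.nd (nat_lit 188) (nat_lit 168) (nat_lit 0) (XT.nd (nat_lit 94) (nat_lit 0) (nat_lit 0) (XT.lf (nat_lit 0) (nat_lit 8142801861) (nat_lit 168) (nat_lit 2441067636) (nat_lit 252) (nat_lit 8351697960) (nat_lit 17) (nat_lit 5) (nat_lit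 19) (nat_lit 5) (nat_lit 20) (nat_lit 5) (nat_lit 367) (nat_lit 299) (nat_lit 222)) (XT.lf (nat_lit 0) (nat_lit 12374791966) (nat_lit 252) (nat_lit 6702498086) (nat_lit 84) (nat_lit 330831784) (nat_lit 17) (nat_lit 5) (nat_lit 20) (nat_lit 5) (nat_lit 18) (nat_lit 5) (nat_lit 368) (nat_lit 299) (nat_lit 221))) (XT.nd (nat_lit 94) (nat_lit 168) (nat_lit 0) (XT.lf (nat_lit 0) (nat_lit 14230984981) (nat_lit 252) (nat_lit 2531143218) (nat_lit 84) (nat_lit 3132975971) (nat_lit 17) (nat_lit 5) (nat_lit 20) (nat_lit 5) (nat_lit 18) (nat_lit 5) (nat_lit 369) (nat_lit 299) (nat_lit 220)) (XT.nd (nat_lit 94) (nat_lit 0) (nat_lit 0) (XT.lf (nat_lit 0) (nat_lit 1785374151) (nat_lit 168) (nat_lit 14362299998) (nat_lit 252) (nat_lit 4249495870) (nat_lit 15) (nat_lit 5) (nat_lit 17) (nat_lit 5) (nat_lit 18) (nat_lit 5) (nat_lit 370) (nat_lit 299) (nat_lit 219)) (XT.lf (nat_lit 0) (nat_lit 6269445360)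 (nat_lit 168) (nat_lit 11866244433) (nat_lit 252) (nat_lit 2778817212) (nat_lit 15) (nat_lit 5) (nat_lit 17) (nat_lit 5) (nat_lit 18) (nat_lit 5) (nat_lit 371) (nat_lit 299) (nat_lit 218))))))) (XT.nd (nat_lit 49444) (nat_lit 0) (nat_lit 9324) (XT.nd (nat_lit 49068) (nat_lit 0) (nat_lit 10584) (XT.nd (nat_lit 188) (nat_lit 0) (nat_lit 0) (XT.nd (nat_lit 94) (nat_lit 84) (nat_lit 0) (XT.lf (nat_lit 0) (nat_lit 10873204537) (nat_lit 168) (nat_lit 9298054862) (nat_lit 252) (nat_lit 1277132332) (nat_lit 15) (nat_lit 5) (nat_lit 17) (nat_lit 5) (nat_lit 18) (nat_lit 5) (nat_lit 372) (nat_lit 299) (nat_lit 217)) (XT.lf (nat_lit 0) (nat_lit 251781356) (nat_lit 252) (nat_lit 6400928027) (nat_lit 84) (nat_lit 15346533431) (nat_lit 14) (nat_lit 5) (nat_lit 17) (nat_lit 5) (nat_lit 15) (nat_lit 5) (nat_lit 373) (nat_lit 299) (nat_lit 216))) (XT.nd (nat_lit 48786) (nat_lit 0) (nat_lit 11004) (XT.lf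 (nat_lit 0) (nat_lit 1788117840) (nat_lit 252) (nat_lit 2128846827) (nat_lit 84) (nat_lit 18650284978) (nat_lit 14) (nat_lit 5) (nat_lit 17) (nat_lit 5) (nat_lit 15) (nat_lit 5) (nat_lit 374) (nat_lit 299) (nat_lit 215)) (XT.lf (nat_lit 0) (nat_lit 960440271) (nat_lit 0) (nat_lit 960440271) (nat_lit 252) (nat_lit 1341100923) (nat_lit 145) (nat_lit 5) (nat_lit 145) (nat_lit 3) (nat_lit 148) (nat_lit 3) (nat_lit 300) (nat_lit 300) (nat_lit 288)))) (XT.nd (nat_lit 188) (nat_lit 0) (nat_lit 0) (XT.nd (nat_lit 94) (nat_lit 420) (nat_lit 0) (XT.lf (nat_lit 0) (nat_lit 4251197119) (nat_lit 0) (nat_lit 1515201684) (nat_lit 252) (nat_lit 779753617) (nat_lit 145) (nat_lit 5) (nat_lit 145) (nat_lit 3) (nat_lit 148) (nat_lit 3) (nat_lit 301) (nat_lit 300) (nat_lit 287)) (XT.lf (nat_lit 84) (nat_lit 33699451) (nat_lit 0) (nat_lit 1047740178) (nat_lit 420) (nat_lit 5490421095) (nat_lit 141) (nat_lit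 5) (nat_lit 140) (nat_lit 3) (nat_lit 145) (nat_lit 5) (nat_lit 302) (nat_lit 300) (nat_lit 286))) (XT.nd (nat_lit 94) (nat_lit 0) (nat_lit 84) (XT.lf (nat_lit 84) (nat_lit 2435479168) (nat_lit 0) (nat_lit 497685442) (nat_lit 420) (nat_lit 3667334564) (nat_lit 141) (nat_lit 5) (nat_lit 140) (nat_lit 3) (nat_lit 145) (nat_lit 5) (nat_lit 303) (nat_lit 300) (nat_lit 285)) (XT.lf (nat_lit 0) (nat_lit 4770729563) (nat_lit 336) (nat_lit 1760752209) (nat_lit 420) (nat_lit 101538459) (nat_lit 141) (nat_lit 5) (nat_lit 145) (nat_lit 5) (nat_lit 146) (nat_lit 5) (nat_lit 304) (nat_lit 300) (nat_lit 284))))) (XT.nd (nat_lit 376) (nat_lit 924) (nat_lit 0) (XT.nd (nat_lit 188) (nat_lit 0) (nat_lit 0) (XT.nd (nat_lit 94) (nat_lit 420) (nat_lit 0) (XT.lf (nat_lit 84) (nat_lit 686288132) (nat_lit 0) (nat_lit 5920789411) (nat_lit 420) (nat_lit 62028523) (nat_lit 142) (nat_lit 5) (nat_lit 141) (nat_lit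 5) (nat_lit 146) (nat_lit 5) (nat_lit 305) (nat_lit 300) (nat_lit 283)) (XT.lf (nat_lit 0) (nat_lit 1706677290) (nat_lit 420) (nat_lit 3519442279) (nat_lit 504) (nat_lit 1481935458) (nat_lit 136) (nat_lit 5) (nat_lit 141) (nat_lit 5) (nat_lit 142) (nat_lit 5) (nat_lit 306) (nat_lit 300) (nat_lit 282))) (XT.nd (nat_lit 94) (nat_lit 0) (nat_lit 0) (XT.lf (nat_lit 0) (nat_lit 3461237672) (nat_lit 420) (nat_lit 1021296726) (nat_lit 504) (nat_lit 2268442732) (nat_lit 136) (nat_lit 5) (nat_lit 141) (nat_lit 5) (nat_lit 142) (nat_lit 5) (nat_lit 307) (nat_lit 300) (nat_lit 281)) (XT.lf (nat_lit 84) (nat_lit 1545705100) (nat_lit 0) (nat_lit 3674166277) (nat_lit 504) (nat_lit 1577584740) (nat_lit 137) (nat_lit 5) (nat_lit 136) (nat_lit 5) (nat_lit 142) (nat_lit 5) (nat_lit 308) (nat_lit 300) (nat_lit 280)))) (XT.nd (nat_lit 188) (nat_lit 420) (nat_lit 0) (XT.nd (nat_lit 94) (nat_lit 0) (nat_lit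 0) (XT.lf (nat_lit 0) (nat_lit 129278991) (nat_lit 504) (nat_lit 2674378416) (nat_lit 588) (nat_lit 4043980005) (nat_lit 130) (nat_lit 5) (nat_lit 136) (nat_lit 5) (nat_lit 137) (nat_lit 5) (nat_lit 309) (nat_lit 300) (nat_lit 279)) (XT.lf (nat_lit 0) (nat_lit 1792894089) (nat_lit 504) (nat_lit 73297881) (nat_lit 588) (nat_lit 5035255417) (nat_lit 130) (nat_lit 5) (nat_lit 136) (nat_lit 5) (nat_lit 137) (nat_lit 5) (nat_lit 310) (nat_lit 300) (nat_lit 278))) (XT.nd (nat_lit 94) (nat_lit 420) (nat_lit 0) (XT.lf (nat_lit 84) (nat_lit 2622400427) (nat_lit 0) (nat_lit 850210143) (nat_lit 588) (nat_lit 3486004321) (nat_lit 131) (nat_lit 5) (nat_lit 130) (nat_lit 5) (nat_lit 137) (nat_lit 5) (nat_lit 311) (nat_lit 300) (nat_lit 277)) (XT.nd (nat_lit 94) (nat_lit 504) (nat_lit 0) (XT.lf (nat_lit 0) (nat_lit 5147323964) (nat_lit 504) (nat_lit 1657380793) (nat_lit 84) (nat_lit 215191228) (nat_lit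 131) (nat_lit 5) (nat_lit 137) (nat_lit 5) (nat_lit 132) (nat_lit 5) (nat_lit 312) (nat_lit 300) (nat_lit 276)) (XT.lf (nat_lit 0) (nat_lit 1077644690) (nat_lit 504) (nat_lit 5757688866) (nat_lit 588) (nat_lit 249495347) (nat_lit 125) (nat_lit 5) (nat_lit 131) (nat_lit 5) (nat_lit 132) (nat_lit 5) (nat_lit 313) (nat_lit 300) (nat_lit 275))))))))
noncomputable def xc55 : XT := (XT.nd (nat_lit 1598) (nat_lit 2940) (nat_lit 0) (XT.nd (nat_lit 752) (nat_lit 2604) (nat_lit 0) (XT.nd (nat_lit 376) (nat_lit 1512) (nat_lit 0) (XT.nd (nat_lit 188) (nat_lit 588) (nat_lit 0) (XT.nd (nat_lit 94) (nat_lit 0) (nat_lit 0) (XT.lf (nat_lit 0) (nat_lit 1354924840) (nat_lit 588) (nat_lit 3274123632) (nat_lit 84) (nat_lit 2524059202) (nat_lit 124) (nat_lit 5) (nat_lit 131) (nat_lit 5) (nat_lit 125) (nat_lit 5) (nat_lit 314) (nat_lit 300) (nat_lit 274)) (XT.lf (nat_lit 0) (nat_lit 2947876065) (nat_lit 588)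 (nat_lit 498826469) (nat_lit 84) (nat_lit 3778964503) (nat_lit 124) (nat_lit 5) (nat_lit 131) (nat_lit 5) (nat_lit 125) (nat_lit 5) (nat_lit 315) (nat_lit 300) (nat_lit 273))) (XT.nd (nat_lit 94) (nat_lit 0) (nat_lit 0) (XT.lf (nat_lit 0) (nat_lit 2371550628) (nat_lit 588) (nat_lit 2187845345) (nat_lit 672) (nat_lit 2742526069) (nat_lit 117) (nat_lit 5) (nat_lit 124) (nat_lit 5) (nat_lit 125) (nat_lit 5) (nat_lit 316) (nat_lit 300) (nat_lit 272)) (XT.lf (nat_lit 0) (nat_lit 5303140701) (nat_lit 588) (nat_lit 869853627) (nat_lit 672) (nat_lit 1209507200) (nat_lit 117) (nat_lit 5) (nat_lit 124) (nat_lit 5) (nat_lit 125) (nat_lit 5) (nat_lit 317) (nat_lit 300) (nat_lit 271)))) (XT.nd (nat_lit 188) (nat_lit 756) (nat_lit 0) (XT.nd (nat_lit 94) (nat_lit 0) (nat_lit 0) (XT.lf (nat_lit 0) (nat_lit 324478582) (nat_lit 756) (nat_lit 6637947605) (nat_lit 84) (nat_lit 504698330) (nat_lit 108) (nat_lit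 5) (nat_lit 117) (nat_lit 5) (nat_lit 109) (nat_lit 5) (nat_lit 318) (nat_lit 300) (nat_lit 270)) (XT.lf (nat_lit 0) (nat_lit 1860573709) (nat_lit 756) (nat_lit 3743704401) (nat_lit 84) (nat_lit 1950773792) (nat_lit 108) (nat_lit 5) (nat_lit 117) (nat_lit 5) (nat_lit 109) (nat_lit 5) (nat_lit 319) (nat_lit 300) (nat_lit 269))) (XT.nd (nat_lit 94) (nat_lit 756) (nat_lit 0) (XT.lf (nat_lit 0) (nat_lit 3394682832) (nat_lit 756) (nat_lit 799000707) (nat_lit 84) (nat_lit 3453980832) (nat_lit 108) (nat_lit 5) (nat_lit 117) (nat_lit 5) (nat_lit 109) (nat_lit 5) (nat_lit 320) (nat_lit 300) (nat_lit 268)) (XT.lf (nat_lit 0) (nat_lit 2244122312) (nat_lit 756) (nat_lit 2706375560) (nat_lit 840) (nat_lit 2793860255) (nat_lit 99) (nat_lit 5) (nat_lit 108) (nat_lit 5) (nat_lit 109) (nat_lit 5) (nat_lit 321) (nat_lit 300) (nat_lit 267))))) (XT.nd (nat_lit 376) (nat_lit 1680) (nat_lit 0) (XT.nd (nat_lit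 188) (nat_lit 0) (nat_lit 0) (XT.nd (nat_lit 94) (nat_lit 924) (nat_lit 0) (XT.lf (nat_lit 0) (nat_lit 5360825520) (nat_lit 756) (nat_lit 1155016881) (nat_lit 840) (nat_lit 1329803322) (nat_lit 99) (nat_lit 5) (nat_lit 108) (nat_lit 5) (nat_lit 109) (nat_lit 5) (nat_lit 322) (nat_lit 300) (nat_lit 266)) (XT.lf (nat_lit 0) (nat_lit 140039390) (nat_lit 924) (nat_lit 7359803467) (nat_lit 84) (nat_lit 451663652) (nat_lit 88) (nat_lit 5) (nat_lit 99) (nat_lit 5) (nat_lit 89) (nat_lit 5) (nat_lit 323) (nat_lit 300) (nat_lit 265))) (XT.nd (nat_lit 94) (nat_lit 0) (nat_lit 0) (XT.lf (nat_lit 0) (nat_lit 1620472938) (nat_lit 924) (nat_lit 4308604764) (nat_lit 84) (nat_lit 2131739440) (nat_lit 88) (nat_lit 5) (nat_lit 99) (nat_lit 5) (nat_lit 89) (nat_lit 5) (nat_lit 324) (nat_lit 300) (nat_lit 264)) (XT.lf (nat_lit 0) (nat_lit 3102798036) (nat_lit 924) (nat_lit 1200991618) (nat_lit 84) (nat_lit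 3871441825) (nat_lit 88) (nat_lit 5) (nat_lit 99) (nat_lit 5) (nat_lit 89) (nat_lit 5) (nat_lit 325) (nat_lit 300) (nat_lit 263)))) (XT.nd (nat_lit 188) (nat_lit 756) (nat_lit 0) (XT.nd (nat_lit 94) (nat_lit 0) (nat_lit 0) (XT.lf (nat_lit 0) (nat_lit 2006356196) (nat_lit 924) (nat_lit 2601943472) (nat_lit 1008) (nat_lit 3685939499) (nat_lit 77) (nat_lit 5) (nat_lit 88) (nat_lit 5) (nat_lit 89) (nat_lit 5) (nat_lit 326) (nat_lit 300) (nat_lit 262)) (XT.lf (nat_lit 0) (nat_lit 5301942086) (nat_lit 924) (nat_lit 829306499) (nat_lit 1008) (nat_lit 2286923655) (nat_lit 77) (nat_lit 5) (nat_lit 88) (nat_lit 5) (nat_lit 89) (nat_lit 5) (nat_lit 327) (nat_lit 300) (nat_lit 261))) (XT.nd (nat_lit 94) (nat_lit 84) (nat_lit 0) (XT.lf (nat_lit 0) (nat_lit 108860946) (nat_lit 672) (nat_lit 7563076583) (nat_lit 756) (nat_lit 875243620) (nat_lit 69) (nat_lit 5) (nat_lit 77) (nat_lit 5) (nat_lit 78) (nat_lit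 5) (nat_lit 328) (nat_lit 300) (nat_lit 260)) (XT.nd (nat_lit 94) (nat_lit 0) (nat_lit 0) (XT.lf (nat_lit 0) (nat_lit 569537879) (nat_lit 756) (nat_lit 5231685914) (nat_lit 84) (nat_lit 2879056540) (nat_lit 68) (nat_lit 5) (nat_lit 77) (nat_lit 5) (nat_lit 69) (nat_lit 5) (nat_lit 329) (nat_lit 300) (nat_lit 259)) (XT.lf (nat_lit 0) (nat_lit 2001826357) (nat_lit 756) (nat_lit 1971384320) (nat_lit 84) (nat_lit 4845521789) (nat_lit 68) (nat_lit 5) (nat_lit 77) (nat_lit 5) (nat_lit 69) (nat_lit 5) (nat_lit 330) (nat_lit 300) (nat_lit 258))))))) (XT.nd (nat_lit 846) (nat_lit 1176) (nat_lit 0) (XT.nd (nat_lit 376) (nat_lit 840) (nat_lit 0) (XT.nd (nat_lit 188) (nat_lit 420) (nat_lit 0) (XT.nd (nat_lit 94) (nat_lit 0) (nat_lit 0) (XT.lf (nat_lit 0) (nat_lit 1382153356) (nat_lit 504) (nat_lit 2072148840) (nat_lit 588) (nat_lit 5508208517) (nat_lit 62) (nat_lit 5) (nat_lit 68) (nat_lit 5) (nat_lit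 69) (nat_lit 5) (nat_lit 331) (nat_lit 300) (nat_lit 257)) (XT.lf (nat_lit 0) (nat_lit 4846123669) (nat_lit 504) (nat_lit 89123558) (nat_lit 588) (nat_lit 4176287097) (nat_lit 62) (nat_lit 5) (nat_lit 68) (nat_lit 5) (nat_lit 69) (nat_lit 5) (nat_lit 332) (nat_lit 300) (nat_lit 256))) (XT.nd (nat_lit 94) (nat_lit 420) (nat_lit 0) (XT.lf (nat_lit 0) (nat_lit 6445498385) (nat_lit 588) (nat_lit 902756256) (nat_lit 84) (nat_lit 1917704411) (nat_lit 62) (nat_lit 5) (nat_lit 69) (nat_lit 5) (nat_lit 63) (nat_lit 5) (nat_lit 333) (nat_lit 300) (nat_lit 255)) (XT.lf (nat_lit 0) (nat_lit 2580637071) (nat_lit 420) (nat_lit 5413523749) (nat_lit 504) (nat_lit 1431529396) (nat_lit 57) (nat_lit 5) (nat_lit 62) (nat_lit 5) (nat_lit 63) (nat_lit 5) (nat_lit 334) (nat_lit 300) (nat_lit 254)))) (XT.nd (nat_lit 188) (nat_lit 336) (nat_lit 0) (XT.nd (nat_lit 94) (nat_lit 504) (nat_lit 0) (XT.lf (nat_lit 0)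 (nat_lit 6156917781) (nat_lit 420) (nat_lit 3409128959) (nat_lit 504) (nat_lit 25345532) (nat_lit 57) (nat_lit 5) (nat_lit 62) (nat_lit 5) (nat_lit 63) (nat_lit 5) (nat_lit 335) (nat_lit 300) (nat_lit 253)) (XT.lf (nat_lit 0) (nat_lit 34255225) (nat_lit 420) (nat_lit 1328058325) (nat_lit 504) (nat_lit 8400751465) (nat_lit 51) (nat_lit 5) (nat_lit 56) (nat_lit 5) (nat_lit 57) (nat_lit 5) (nat_lit 336) (nat_lit 300) (nat_lit 252))) (XT.nd (nat_lit 94) (nat_lit 336) (nat_lit 0) (XT.lf (nat_lit 0) (nat_lit 2803704571) (nat_lit 504) (nat_lit 6299397679) (nat_lit 84) (nat_lit 836829790) (nat_lit 51) (nat_lit 5) (nat_lit 57) (nat_lit 5) (nat_lit 52) (nat_lit 5) (nat_lit 337) (nat_lit 300) (nat_lit 251)) (XT.nd (nat_lit 94) (nat_lit 336) (nat_lit 0) (XT.lf (nat_lit 0) (nat_lit 4271271921) (nat_lit 504) (nat_lit 2811241350) (nat_lit 84) (nat_lit 3040564429) (nat_lit 51) (nat_lit 5) (nat_lit 57)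 (nat_lit 5) (nat_lit 52) (nat_lit 5) (nat_lit 338) (nat_lit 300) (nat_lit 250)) (XT.lf (nat_lit 0) (nat_lit 767549435) (nat_lit 336) (nat_lit 4993273776) (nat_lit 420) (nat_lit 4552021869) (nat_lit 47) (nat_lit 5) (nat_lit 51) (nat_lit 5) (nat_lit 52) (nat_lit 5) (nat_lit 339) (nat_lit 300) (nat_lit 249)))))) (XT.nd (nat_lit 376) (nat_lit 672) (nat_lit 0) (XT.nd (nat_lit 188) (nat_lit 504) (nat_lit 0) (XT.nd (nat_lit 94) (nat_lit 0) (nat_lit 0) (XT.lf (nat_lit 0) (nat_lit 4484250494) (nat_lit 336) (nat_lit 2811131032) (nat_lit 420) (nat_lit 3213358860) (nat_lit 47) (nat_lit 5) (nat_lit 51) (nat_lit 5) (nat_lit 52) (nat_lit 5) (nat_lit 340) (nat_lit 300) (nat_lit 248)) (XT.lf (nat_lit 0) (nat_lit 8284521293) (nat_lit 336) (nat_lit 563394647) (nat_lit 420) (nat_lit 1863912573) (nat_lit 47) (nat_lit 5) (nat_lit 51) (nat_lit 5) (nat_lit 52) (nat_lit 5) (nat_lit 341) (nat_lit 300) (nat_lit 247)))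 (XT.nd (nat_lit 94) (nat_lit 84) (nat_lit 0) (XT.lf (nat_lit 0) (nat_lit 1257562032) (nat_lit 420) (nat_lit 9192167077) (nat_lit 504) (nat_lit 471644131) (nat_lit 42) (nat_lit 5) (nat_lit 47) (nat_lit 5) (nat_lit 48) (nat_lit 5) (nat_lit 342) (nat_lit 300) (nat_lit 246)) (XT.lf (nat_lit 0) (nat_lit 947075744) (nat_lit 504) (nat_lit 6076306177) (nat_lit 84) (nat_lit 4113836443) (nat_lit 41) (nat_lit 5) (nat_lit 47) (nat_lit 5) (nat_lit 42) (nat_lit 5) (nat_lit 343) (nat_lit 300) (nat_lit 245)))) (XT.nd (nat_lit 188) (nat_lit 336) (nat_lit 0) (XT.nd (nat_lit 94) (nat_lit 336) (nat_lit 0) (XT.lf (nat_lit 0) (nat_lit 2372191955) (nat_lit 504) (nat_lit 2413659068) (nat_lit 84) (nat_lit 6574794841) (nat_lit 41) (nat_lit 5) (nat_lit 47) (nat_lit 5) (nat_lit 42) (nat_lit 5) (nat_lit 344) (nat_lit 300) (nat_lit 244)) (XT.lf (nat_lit 0) (nat_lit 1359616090) (nat_lit 336) (nat_lit 2468406906) (nat_lit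 420) (nat_lit 7763567930) (nat_lit 37) (nat_lit 5) (nat_lit 41) (nat_lit 5) (nat_lit 42) (nat_lit 5) (nat_lit 345) (nat_lit 300) (nat_lit 243))) (XT.nd (nat_lit 94) (nat_lit 336) (nat_lit 0) (XT.lf (nat_lit 0) (nat_lit 5271030673) (nat_lit 336) (nat_lit 56709208) (nat_lit 420) (nat_lit 6502162699) (nat_lit 37) (nat_lit 5) (nat_lit 41) (nat_lit 5) (nat_lit 42) (nat_lit 5) (nat_lit 346) (nat_lit 300) (nat_lit 242)) (XT.nd (nat_lit 94) (nat_lit 336) (nat_lit 0) (XT.lf (nat_lit 0) (nat_lit 6872373531) (nat_lit 420) (nat_lit 2826028891) (nat_lit 84) (nat_lit 2377411910) (nat_lit 37) (nat_lit 5) (nat_lit 42) (nat_lit 5) (nat_lit 38) (nat_lit 5) (nat_lit 347) (nat_lit 300) (nat_lit 241)) (XT.lf (nat_lit 0) (nat_lit 1013246972) (nat_lit 336) (nat_lit 7437369581) (nat_lit 420) (nat_lit 3879334008) (nat_lit 33) (nat_lit 5) (nat_lit 37) (nat_lit 5) (nat_lit 38) (nat_lit 5) (nat_lit 348) (nat_lit 300)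 (nat_lit 240))))))))
noncomputable def xc56 : XT := (XT.nd (nat_lit 1598) (nat_lit 420) (nat_lit 0) (XT.nd (nat_lit 752) (nat_lit 588) (nat_lit 0) (XT.nd (nat_lit 376) (nat_lit 252) (nat_lit 0) (XT.nd (nat_lit 188) (nat_lit 336) (nat_lit 0) (XT.nd (nat_lit 94) (nat_lit 0) (nat_lit 0) (XT.lf (nat_lit 0) (nat_lit 5002625574) (nat_lit 336) (nat_lit 5080214586) (nat_lit 420) (nat_lit 2509122084) (nat_lit 33) (nat_lit 5) (nat_lit 37) (nat_lit 5) (nat_lit 38) (nat_lit 5) (nat_lit 349) (nat_lit 300) (nat_lit 239)) (XT.lf (nat_lit 0) (nat_lit 9087716485) (nat_lit 336) (nat_lit 2654238269) (nat_lit 420) (nat_lit 1121025791) (nat_lit 33) (nat_lit 5) (nat_lit 37) (nat_lit 5) (nat_lit 38) (nat_lit 5) (nat_lit 350) (nat_lit 300) (nat_lit 238))) (XT.nd (nat_lit 94) (nat_lit 0) (nat_lit 0) (XT.lf (nat_lit 0) (nat_lit 128825273) (nat_lit 252) (nat_lit 152934134) (nat_lit 336) (nat_lit 12861371028) (nat_lit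 29) (nat_lit 5) (nat_lit 32) (nat_lit 5) (nat_lit 33) (nat_lit 5) (nat_lit 351) (nat_lit 300) (nat_lit 237)) (XT.lf (nat_lit 0) (nat_lit 1745632361) (nat_lit 336) (nat_lit 9260962845) (nat_lit 84) (nat_lit 2423883059) (nat_lit 29) (nat_lit 5) (nat_lit 33) (nat_lit 5) (nat_lit 30) (nat_lit 5) (nat_lit 352) (nat_lit 300) (nat_lit 236)))) (XT.nd (nat_lit 188) (nat_lit 252) (nat_lit 0) (XT.nd (nat_lit 94) (nat_lit 0) (nat_lit 0) (XT.lf (nat_lit 0) (nat_lit 3234154071) (nat_lit 336) (nat_lit 5420241963) (nat_lit 84) (nat_lit 5073112660) (nat_lit 29) (nat_lit 5) (nat_lit 33) (nat_lit 5) (nat_lit 30) (nat_lit 5) (nat_lit 353) (nat_lit 300) (nat_lit 235)) (XT.lf (nat_lit 0) (nat_lit 4747194869) (nat_lit 336) (nat_lit 1487045437) (nat_lit 84) (nat_lit 7800305308) (nat_lit 29) (nat_lit 5) (nat_lit 33) (nat_lit 5) (nat_lit 30) (nat_lit 5) (nat_lit 354) (nat_lit 300) (nat_lit 234))) (XT.nd (nat_lit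 94) (nat_lit 0) (nat_lit 0) (XT.lf (nat_lit 0) (nat_lit 2594567637) (nat_lit 252) (nat_lit 3717335863) (nat_lit 336) (nat_lit 8039173827) (nat_lit 26) (nat_lit 5) (nat_lit 29) (nat_lit 5) (nat_lit 30) (nat_lit 5) (nat_lit 355) (nat_lit 300) (nat_lit 233)) (XT.lf (nat_lit 0) (nat_lit 6808709076) (nat_lit 252) (nat_lit 1111333311) (nat_lit 336) (nat_lit 6757657064) (nat_lit 26) (nat_lit 5) (nat_lit 29) (nat_lit 5) (nat_lit 30) (nat_lit 5) (nat_lit 356) (nat_lit 300) (nat_lit 232))))) (XT.nd (nat_lit 376) (nat_lit 336) (nat_lit 0) (XT.nd (nat_lit 188) (nat_lit 0) (nat_lit 0) (XT.nd (nat_lit 94) (nat_lit 252) (nat_lit 0) (XT.lf (nat_lit 0) (nat_lit 9573636771) (nat_lit 336) (nat_lit 3902034229) (nat_lit 84) (nat_lit 1539029115) (nat_lit 26) (nat_lit 5) (nat_lit 30) (nat_lit 5) (nat_lit 27) (nat_lit 5) (nat_lit 357) (nat_lit 300) (nat_lit 231)) (XT.lf (nat_lit 0) (nat_lit 154971152) (nat_lit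 252) (nat_lit 11117001691) (nat_lit 336) (nat_lit 4090490507) (nat_lit 23) (nat_lit 5) (nat_lit 26) (nat_lit 5) (nat_lit 27) (nat_lit 5) (nat_lit 358) (nat_lit 300) (nat_lit 230))) (XT.nd (nat_lit 94) (nat_lit 0) (nat_lit 0) (XT.lf (nat_lit 0) (nat_lit 4396032263) (nat_lit 252) (nat_lit 8648572558) (nat_lit 336) (nat_lit 2675841380) (nat_lit 23) (nat_lit 5) (nat_lit 26) (nat_lit 5) (nat_lit 27) (nat_lit 5) (nat_lit 359) (nat_lit 300) (nat_lit 229)) (XT.lf (nat_lit 0) (nat_lit 8744868388) (nat_lit 252) (nat_lit 6108812002) (nat_lit 336) (nat_lit 1236526596) (nat_lit 23) (nat_lit 5) (nat_lit 26) (nat_lit 5) (nat_lit 27) (nat_lit 5) (nat_lit 360) (nat_lit 300) (nat_lit 228)))) (XT.nd (nat_lit 188) (nat_lit 0) (nat_lit 0) (XT.nd (nat_lit 94) (nat_lit 252) (nat_lit 0) (XT.lf (nat_lit 0) (nat_lit 224185717) (nat_lit 336) (nat_lit 3268826944) (nat_lit 84) (nat_lit 12979007342) (nat_lit 22) (nat_lit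 5) (nat_lit 26) (nat_lit 5) (nat_lit 23) (nat_lit 5) (nat_lit 361) (nat_lit 300) (nat_lit 227)) (XT.lf (nat_lit 0) (nat_lit 917132693) (nat_lit 252) (nat_lit 778771727) (nat_lit 336) (nat_lit 15169736426) (nat_lit 19) (nat_lit 5) (nat_lit 22) (nat_lit 5) (nat_lit 23) (nat_lit 5) (nat_lit 362) (nat_lit 300) (nat_lit 226))) (XT.nd (nat_lit 94) (nat_lit 0) (nat_lit 0) (XT.lf (nat_lit 0) (nat_lit 3250319168) (nat_lit 336) (nat_lit 12011742586) (nat_lit 84) (nat_lit 2008347377) (nat_lit 19) (nat_lit 5) (nat_lit 23) (nat_lit 5) (nat_lit 20) (nat_lit 5) (nat_lit 363) (nat_lit 300) (nat_lit 225)) (XT.nd (nat_lit 94) (nat_lit 0) (nat_lit 0) (XT.lf (nat_lit 0) (nat_lit 4843979046) (nat_lit 336) (nat_lit 7983314613) (nat_lit 84) (nat_lit 4860800378) (nat_lit 19) (nat_lit 5) (nat_lit 23) (nat_lit 5) (nat_lit 20) (nat_lit 5) (nat_lit 364) (nat_lit 300) (nat_lit 224)) (XT.lf (nat_lit 0) (nat_lit 6470643999)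 (nat_lit 336) (nat_lit 3851743806) (nat_lit 84) (nat_lit 7796936577) (nat_lit 19) (nat_lit 5) (nat_lit 23) (nat_lit 5) (nat_lit 20) (nat_lit 5) (nat_lit 365) (nat_lit 300) (nat_lit 223))))))) (XT.nd (nat_lit 752) (nat_lit 84) (nat_lit 0) (XT.nd (nat_lit 376) (nat_lit 168) (nat_lit 0) (XT.nd (nat_lit 188) (nat_lit 0) (nat_lit 0) (XT.nd (nat_lit 94) (nat_lit 0) (nat_lit 0) (XT.lf (nat_lit 0) (nat_lit 394774723) (nat_lit 168) (nat_lit 7740971740) (nat_lit 252) (nat_lit 10428634250) (nat_lit 17) (nat_lit 5) (nat_lit 19) (nat_lit 5) (nat_lit 20) (nat_lit 5) (nat_lit 366) (nat_lit 300) (nat_lit 222)) (XT.lf (nat_lit 0) (nat_lit 4833718932) (nat_lit 168) (nat_lit 5043318355) (nat_lit 252) (nat_lit 9145518422) (nat_lit 17) (nat_lit 5) (nat_lit 19) (nat_lit 5) (nat_lit 20) (nat_lit 5) (nat_lit 367) (nat_lit 300) (nat_lit 221))) (XT.nd (nat_lit 94) (nat_lit 0) (nat_lit 0) (XT.lf (nat_lit 0) (nat_lit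 9390026631) (nat_lit 168) (nat_lit 2267117459) (nat_lit 252) (nat_lit 7838341205) (nat_lit 17) (nat_lit 5) (nat_lit 19) (nat_lit 5) (nat_lit 20) (nat_lit 5) (nat_lit 368) (nat_lit 300) (nat_lit 220)) (XT.lf (nat_lit 0) (nat_lit 13483581159) (nat_lit 252) (nat_lit 5921520560) (nat_lit 84) (nat_lit 578327066) (nat_lit 17) (nat_lit 5) (nat_lit 20) (nat_lit 5) (nat_lit 18) (nat_lit 5) (nat_lit 369) (nat_lit 300) (nat_lit 219)))) (XT.nd (nat_lit 188) (nat_lit 0) (nat_lit 0) (XT.nd (nat_lit 94) (nat_lit 168) (nat_lit 0) (XT.lf (nat_lit 0) (nat_lit 15375511803) (nat_lit 252) (nat_lit 1650583471) (nat_lit 84) (nat_lit 3460204430) (nat_lit 17) (nat_lit 5) (nat_lit 20) (nat_lit 5) (nat_lit 18) (nat_lit 5) (nat_lit 370) (nat_lit 300) (nat_lit 218)) (XT.lf (nat_lit 0) (nat_lit 2790036667) (nat_lit 168) (nat_lit 14549850256) (nat_lit 252) (nat_lit 3664519051) (nat_lit 15) (nat_lit 5) (nat_lit 17) (nat_lit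 5) (nat_lit 18) (nat_lit 5) (nat_lit 371) (nat_lit 300) (nat_lit 217))) (XT.nd (nat_lit 94) (nat_lit 0) (nat_lit 0) (XT.lf (nat_lit 0) (nat_lit 7384570152) (nat_lit 168) (nat_lit 11984164895) (nat_lit 252) (nat_lit 2169799351) (nat_lit 15) (nat_lit 5) (nat_lit 17) (nat_lit 5) (nat_lit 18) (nat_lit 5) (nat_lit 372) (nat_lit 300) (nat_lit 216)) (XT.lf (nat_lit 0) (nat_lit 12103360188) (nat_lit 168) (nat_lit 9343876410) (nat_lit 252) (nat_lit 642464274) (nat_lit 15) (nat_lit 5) (nat_lit 17) (nat_lit 5) (nat_lit 18) (nat_lit 5) (nat_lit 373) (nat_lit 300) (nat_lit 215))))) (XT.nd (nat_lit 49162) (nat_lit 0) (nat_lit 10164) (XT.nd (nat_lit 48974) (nat_lit 0) (nat_lit 10584) (XT.nd (nat_lit 48880) (nat_lit 0) (nat_lit 10584) (XT.lf (nat_lit 0) (nat_lit 900395832) (nat_lit 252) (nat_lit 5716729658) (nat_lit 84) (nat_lit 16041011064) (nat_lit 14) (nat_lit 5) (nat_lit 17) (nat_lit 5) (nat_lit 15)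 (nat_lit 5) (nat_lit 374) (nat_lit 300) (nat_lit 214)) (XT.lf (nat_lit 0) (nat_lit 531141014) (nat_lit 420) (nat_lit 1376823129) (nat_lit 420) (nat_lit 1376823129) (nat_lit 140) (nat_lit 3) (nat_lit 145) (nat_lit 3) (nat_lit 145) (nat_lit 5) (nat_lit 301) (nat_lit 301) (nat_lit 286))) (XT.nd (nat_lit 94) (nat_lit 0) (nat_lit 0) (XT.lf (nat_lit 0) (nat_lit 2870774238) (nat_lit 420) (nat_lit 452499167) (nat_lit 420) (nat_lit 3273310460) (nat_lit 140) (nat_lit 3) (nat_lit 145) (nat_lit 3) (nat_lit 145) (nat_lit 5) (nat_lit 302) (nat_lit 301) (nat_lit 285)) (XT.lf (nat_lit 84) (nat_lit 1921076100) (nat_lit 0) (nat_lit 2761100224) (nat_lit 420) (nat_lit 1944678250) (nat_lit 141) (nat_lit 5) (nat_lit 140) (nat_lit 3) (nat_lit 145) (nat_lit 5) (nat_lit 303) (nat_lit 301) (nat_lit 284)))) (XT.nd (nat_lit 188) (nat_lit 0) (nat_lit 0) (XT.nd (nat_lit 94) (nat_lit 420) (nat_lit 0) (XT.lf (nat_lit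 84) (nat_lit 4340592956) (nat_lit 0) (nat_lit 2143453265) (nat_lit 420) (nat_lit 176806710) (nat_lit 141) (nat_lit 5) (nat_lit 140) (nat_lit 3) (nat_lit 145) (nat_lit 5) (nat_lit 304) (nat_lit 301) (nat_lit 283)) (XT.lf (nat_lit 84) (nat_lit 86368306) (nat_lit 0) (nat_lit 1457490855) (nat_lit 504) (nat_lit 5154382652) (nat_lit 136) (nat_lit 5) (nat_lit 135) (nat_lit 5) (nat_lit 141) (nat_lit 5) (nat_lit 305) (nat_lit 301) (nat_lit 282))) (XT.nd (nat_lit 94) (nat_lit 0) (nat_lit 84) (XT.lf (nat_lit 84) (nat_lit 2577077950) (nat_lit 0) (nat_lit 693329866) (nat_lit 504) (nat_lit 3468370317) (nat_lit 136) (nat_lit 5) (nat_lit 135) (nat_lit 5) (nat_lit 141) (nat_lit 5) (nat_lit 306) (nat_lit 301) (nat_lit 281)) (XT.nd (nat_lit 94) (nat_lit 0) (nat_lit 0) (XT.lf (nat_lit 0) (nat_lit 4985765498) (nat_lit 420) (nat_lit 1676237891) (nat_lit 504) (nat_lit 121240266) (nat_lit 136) (nat_lit 5) (nat_lit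 141) (nat_lit 5) (nat_lit 142) (nat_lit 5) (nat_lit 307) (nat_lit 301) (nat_lit 280)) (XT.lf (nat_lit 84) (nat_lit 857933864) (nat_lit 0) (nat_lit 5848289719) (nat_lit 504) (nat_lit 125000770) (nat_lit 137) (nat_lit 5) (nat_lit 136) (nat_lit 5) (nat_lit 142) (nat_lit 5) (nat_lit 308) (nat_lit 301) (nat_lit 279))))))))
noncomputable def xc57 : XT := (XT.nd (nat_lit 1598) (nat_lit 3444) (nat_lit 0) (XT.nd (nat_lit 752) (nat_lit 2436) (nat_lit 0) (XT.nd (nat_lit 376) (nat_lit 1092) (nat_lit 0) (XT.nd (nat_lit 188) (nat_lit 0) (nat_lit 0) (XT.nd (nat_lit 94) (nat_lit 0) (nat_lit 0) (XT.lf (nat_lit 0) (nat_lit 1521384782) (nat_lit 504) (nat_lit 3430049826) (nat_lit 588) (nat_lit 1930791319) (nat_lit 130) (nat_lit 5) (nat_lit 136) (nat_lit 5) (nat_lit 137) (nat_lit 5) (nat_lit 309) (nat_lit 301) (nat_lit 278)) (XT.lf (nat_lit 0) (nat_lit 3154726507) (nat_lit 504) (nat_lit 848098413) (nat_lit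 588) (nat_lit 2934439869) (nat_lit 130) (nat_lit 5) (nat_lit 136) (nat_lit 5) (nat_lit 137) (nat_lit 5) (nat_lit 310) (nat_lit 301) (nat_lit 277))) (XT.nd (nat_lit 94) (nat_lit 0) (nat_lit 0) (XT.lf (nat_lit 84) (nat_lit 1812732950) (nat_lit 0) (nat_lit 2984314921) (nat_lit 588) (nat_lit 2198825353) (nat_lit 131) (nat_lit 5) (nat_lit 130) (nat_lit 5) (nat_lit 137) (nat_lit 5) (nat_lit 311) (nat_lit 301) (nat_lit 276)) (XT.lf (nat_lit 84) (nat_lit 4536727762) (nat_lit 0) (nat_lit 1904192460) (nat_lit 588) (nat_lit 617463379) (nat_lit 131) (nat_lit 5) (nat_lit 130) (nat_lit 5) (nat_lit 137) (nat_lit 5) (nat_lit 312) (nat_lit 301) (nat_lit 275)))) (XT.nd (nat_lit 188) (nat_lit 504) (nat_lit 0) (XT.nd (nat_lit 94) (nat_lit 0) (nat_lit 84) (XT.lf (nat_lit 84) (nat_lit 177986621) (nat_lit 0) (nat_lit 758723869) (nat_lit 672) (nat_lit 6188061709) (nat_lit 124) (nat_lit 5) (nat_lit 123) (nat_lit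 5) (nat_lit 131) (nat_lit 5) (nat_lit 313) (nat_lit 301) (nat_lit 274)) (XT.lf (nat_lit 0) (nat_lit 2500993130) (nat_lit 588) (nat_lit 4228336876) (nat_lit 84) (nat_lit 464981973) (nat_lit 124) (nat_lit 5) (nat_lit 131) (nat_lit 5) (nat_lit 125) (nat_lit 5) (nat_lit 314) (nat_lit 301) (nat_lit 273))) (XT.nd (nat_lit 94) (nat_lit 588) (nat_lit 0) (XT.lf (nat_lit 0) (nat_lit 4067189614) (nat_lit 588) (nat_lit 1472111961) (nat_lit 84) (nat_lit 1728640968) (nat_lit 124) (nat_lit 5) (nat_lit 131) (nat_lit 5) (nat_lit 125) (nat_lit 5) (nat_lit 315) (nat_lit 301) (nat_lit 272)) (XT.lf (nat_lit 0) (nat_lit 1359373230) (nat_lit 588) (nat_lit 4283345085) (nat_lit 672) (nat_lit 1702829494) (nat_lit 117) (nat_lit 5) (nat_lit 124) (nat_lit 5) (nat_lit 125) (nat_lit 5) (nat_lit 316) (nat_lit 301) (nat_lit 271))))) (XT.nd (nat_lit 376) (nat_lit 1680) (nat_lit 0) (XT.nd (nat_lit 188) (nat_lit 672) (nat_lit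 0) (XT.nd (nat_lit 94) (nat_lit 84) (nat_lit 0) (XT.lf (nat_lit 0) (nat_lit 4272651801) (nat_lit 588) (nat_lit 2958313206) (nat_lit 672) (nat_lit 196175673) (nat_lit 117) (nat_lit 5) (nat_lit 124) (nat_lit 5) (nat_lit 125) (nat_lit 5) (nat_lit 317) (nat_lit 301) (nat_lit 270)) (XT.lf (nat_lit 0) (nat_lit 1278949241) (nat_lit 672) (nat_lit 286037850) (nat_lit 84) (nat_lit 5947870741) (nat_lit 116) (nat_lit 5) (nat_lit 124) (nat_lit 5) (nat_lit 117) (nat_lit 5) (nat_lit 318) (nat_lit 301) (nat_lit 269))) (XT.nd (nat_lit 94) (nat_lit 0) (nat_lit 0) (XT.lf (nat_lit 0) (nat_lit 2687042324) (nat_lit 672) (nat_lit 85980717) (nat_lit 756) (nat_lit 4829272410) (nat_lit 108) (nat_lit 5) (nat_lit 116) (nat_lit 5) (nat_lit 117) (nat_lit 5) (nat_lit 319) (nat_lit 301) (nat_lit 268)) (XT.lf (nat_lit 0) (nat_lit 4282589695) (nat_lit 756) (nat_lit 1988446150) (nat_lit 84) (nat_lit 1424834223) (nat_lit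 108) (nat_lit 5) (nat_lit 117) (nat_lit 5) (nat_lit 109) (nat_lit 5) (nat_lit 320) (nat_lit 301) (nat_lit 267)))) (XT.nd (nat_lit 188) (nat_lit 924) (nat_lit 0) (XT.nd (nat_lit 94) (nat_lit 0) (nat_lit 0) (XT.lf (nat_lit 0) (nat_lit 1011659598) (nat_lit 756) (nat_lit 4791541717) (nat_lit 840) (nat_lit 1990649093) (nat_lit 99) (nat_lit 5) (nat_lit 108) (nat_lit 5) (nat_lit 109) (nat_lit 5) (nat_lit 321) (nat_lit 301) (nat_lit 266)) (XT.lf (nat_lit 0) (nat_lit 4110361028) (nat_lit 756) (nat_lit 3235719877) (nat_lit 840) (nat_lit 549942919) (nat_lit 99) (nat_lit 5) (nat_lit 108) (nat_lit 5) (nat_lit 109) (nat_lit 5) (nat_lit 322) (nat_lit 301) (nat_lit 265))) (XT.nd (nat_lit 94) (nat_lit 840) (nat_lit 0) (XT.lf (nat_lit 0) (nat_lit 871505789) (nat_lit 840) (nat_lit 742272912) (nat_lit 84) (nat_lit 6389057399) (nat_lit 98) (nat_lit 5) (nat_lit 108) (nat_lit 5) (nat_lit 99) (nat_lit 5) (nat_lit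 323) (nat_lit 301) (nat_lit 264)) (XT.nd (nat_lit 94) (nat_lit 0) (nat_lit 0) (XT.lf (nat_lit 0) (nat_lit 2306673611) (nat_lit 924) (nat_lit 5712115216) (nat_lit 84) (nat_lit 94933973) (nat_lit 88) (nat_lit 5) (nat_lit 99) (nat_lit 5) (nat_lit 89) (nat_lit 5) (nat_lit 324) (nat_lit 301) (nat_lit 263)) (XT.lf (nat_lit 0) (nat_lit 3767984999) (nat_lit 924) (nat_lit 2622731978) (nat_lit 84) (nat_lit 1838239218) (nat_lit 88) (nat_lit 5) (nat_lit 99) (nat_lit 5) (nat_lit 89) (nat_lit 5) (nat_lit 325) (nat_lit 301) (nat_lit 262))))))) (XT.nd (nat_lit 752) (nat_lit 1260) (nat_lit 0) (XT.nd (nat_lit 376) (nat_lit 504) (nat_lit 0) (XT.nd (nat_lit 188) (nat_lit 756) (nat_lit 0) (XT.nd (nat_lit 94) (nat_lit 0) (nat_lit 0) (XT.lf (nat_lit 0) (nat_lit 537336592) (nat_lit 924) (nat_lit 4701195312) (nat_lit 1008) (nat_lit 3110678170) (nat_lit 77) (nat_lit 5) (nat_lit 88) (nat_lit 5) (nat_lit 89) (nat_lit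 5) (nat_lit 326) (nat_lit 301) (nat_lit 261)) (XT.lf (nat_lit 0) (nat_lit 3815419720) (nat_lit 924) (nat_lit 2926118439) (nat_lit 1008) (nat_lit 1732380914) (nat_lit 77) (nat_lit 5) (nat_lit 88) (nat_lit 5) (nat_lit 89) (nat_lit 5) (nat_lit 327) (nat_lit 301) (nat_lit 260))) (XT.nd (nat_lit 94) (nat_lit 756) (nat_lit 0) (XT.lf (nat_lit 0) (nat_lit 7160644174) (nat_lit 924) (nat_lit 1091207745) (nat_lit 1008) (nat_lit 352170656) (nat_lit 77) (nat_lit 5) (nat_lit 88) (nat_lit 5) (nat_lit 89) (nat_lit 5) (nat_lit 328) (nat_lit 301) (nat_lit 259)) (XT.lf (nat_lit 0) (nat_lit 1037233020) (nat_lit 756) (nat_lit 6883225678) (nat_lit 84) (nat_lit 818036116) (nat_lit 68) (nat_lit 5) (nat_lit 77) (nat_lit 5) (nat_lit 69) (nat_lit 5) (nat_lit 329) (nat_lit 301) (nat_lit 258)))) (XT.nd (nat_lit 188) (nat_lit 504) (nat_lit 0) (XT.nd (nat_lit 94) (nat_lit 0) (nat_lit 0) (XT.lf (nat_lit 0) (nat_lit 2450848572)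 (nat_lit 756) (nat_lit 3640492069) (nat_lit 84) (nat_lit 2786324743) (nat_lit 68) (nat_lit 5) (nat_lit 77) (nat_lit 5) (nat_lit 69) (nat_lit 5) (nat_lit 330) (nat_lit 301) (nat_lit 257)) (XT.lf (nat_lit 0) (nat_lit 3871501808) (nat_lit 756) (nat_lit 331841454) (nat_lit 84) (nat_lit 4819222247) (nat_lit 68) (nat_lit 5) (nat_lit 77) (nat_lit 5) (nat_lit 69) (nat_lit 5) (nat_lit 331) (nat_lit 301) (nat_lit 256))) (XT.nd (nat_lit 94) (nat_lit 0) (nat_lit 0) (XT.lf (nat_lit 0) (nat_lit 3108438277) (nat_lit 504) (nat_lit 2222914743) (nat_lit 588) (nat_lit 3841021317) (nat_lit 62) (nat_lit 5) (nat_lit 68) (nat_lit 5) (nat_lit 69) (nat_lit 5) (nat_lit 332) (nat_lit 301) (nat_lit 255)) (XT.lf (nat_lit 0) (nat_lit 6629174227) (nat_lit 504) (nat_lit 175813924) (nat_lit 588) (nat_lit 2523073371) (nat_lit 62) (nat_lit 5) (nat_lit 68) (nat_lit 5) (nat_lit 69) (nat_lit 5) (nat_lit 333) (nat_lit 301) (nat_lit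 254))))) (XT.nd (nat_lit 376) (nat_lit 336) (nat_lit 0) (XT.nd (nat_lit 188) (nat_lit 420) (nat_lit 0) (XT.nd (nat_lit 94) (nat_lit 84) (nat_lit 0) (XT.lf (nat_lit 0) (nat_lit 732497245) (nat_lit 420) (nat_lit 7584399768) (nat_lit 504) (nat_lit 1172158564) (nat_lit 57) (nat_lit 5) (nat_lit 62) (nat_lit 5) (nat_lit 63) (nat_lit 5) (nat_lit 334) (nat_lit 301) (nat_lit 253)) (XT.lf (nat_lit 0) (nat_lit 212689233) (nat_lit 504) (nat_lit 5365108978) (nat_lit 84) (nat_lit 4077518918) (nat_lit 56) (nat_lit 5) (nat_lit 62) (nat_lit 5) (nat_lit 57) (nat_lit 5) (nat_lit 335) (nat_lit 301) (nat_lit 252))) (XT.nd (nat_lit 94) (nat_lit 420) (nat_lit 0) (XT.lf (nat_lit 0) (nat_lit 1583376627) (nat_lit 504) (nat_lit 1913623222) (nat_lit 84) (nat_lit 6330605240) (nat_lit 56) (nat_lit 5) (nat_lit 62) (nat_lit 5) (nat_lit 57) (nat_lit 5) (nat_lit 336) (nat_lit 301) (nat_lit 251)) (XT.lf (nat_lit 0) (nat_lit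 1645905363) (nat_lit 420) (nat_lit 1335219844) (nat_lit 504) (nat_lit 7024809151) (nat_lit 51) (nat_lit 5) (nat_lit 56) (nat_lit 5) (nat_lit 57) (nat_lit 5) (nat_lit 337) (nat_lit 301) (nat_lit 250)))) (XT.nd (nat_lit 188) (nat_lit 336) (nat_lit 0) (XT.nd (nat_lit 94) (nat_lit 0) (nat_lit 0) (XT.lf (nat_lit 0) (nat_lit 4420122131) (nat_lit 504) (nat_lit 4874856958) (nat_lit 84) (nat_lit 895092656) (nat_lit 51) (nat_lit 5) (nat_lit 57) (nat_lit 5) (nat_lit 52) (nat_lit 5) (nat_lit 338) (nat_lit 301) (nat_lit 249)) (XT.lf (nat_lit 0) (nat_lit 5887195142) (nat_lit 504) (nat_lit 1327272423) (nat_lit 84) (nat_lit 3166171240) (nat_lit 51) (nat_lit 5) (nat_lit 57) (nat_lit 5) (nat_lit 52) (nat_lit 5) (nat_lit 339) (nat_lit 301) (nat_lit 248))) (XT.nd (nat_lit 94) (nat_lit 0) (nat_lit 0) (XT.lf (nat_lit 0) (nat_lit 2346554723) (nat_lit 336) (nat_lit 5047189549) (nat_lit 420) (nat_lit 3183757885)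 (nat_lit 47) (nat_lit 5) (nat_lit 51) (nat_lit 5) (nat_lit 52) (nat_lit 5) (nat_lit 340) (nat_lit 301) (nat_lit 247)) (XT.nd (nat_lit 94) (nat_lit 0) (nat_lit 0) (XT.lf (nat_lit 0) (nat_lit 6131711586) (nat_lit 336) (nat_lit 2800433500) (nat_lit 420) (nat_lit 1848980102) (nat_lit 47) (nat_lit 5) (nat_lit 51) (nat_lit 5) (nat_lit 52) (nat_lit 5) (nat_lit 341) (nat_lit 301) (nat_lit 246)) (XT.lf (nat_lit 0) (nat_lit 10004434884) (nat_lit 336) (nat_lit 485959208) (nat_lit 420) (nat_lit 501720165) (nat_lit 47) (nat_lit 5) (nat_lit 51) (nat_lit 5) (nat_lit 52) (nat_lit 5) (nat_lit 342) (nat_lit 301) (nat_lit 245))))))))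
noncomputable def xc58 : XT := (XT.nd (nat_lit 1598) (nat_lit 672) (nat_lit 0) (XT.nd (nat_lit 752) (nat_lit 840) (nat_lit 0) (XT.nd (nat_lit 376) (nat_lit 336) (nat_lit 0) (XT.nd (nat_lit 188) (nat_lit 336) (nat_lit 0) (XT.nd (nat_lit 94) (nat_lit 0) (nat_lit 0) (XT.lf (nat_lit 0) (nat_lit 889001912) (nat_lit 504) (nat_lit 8423070810) (nat_lit 84) (nat_lit 1896870918) (nat_lit 41) (nat_lit 5) (nat_lit 47) (nat_lit 5) (nat_lit 42) (nat_lit 5) (nat_lit 343) (nat_lit 301) (nat_lit 244)) (XT.lf (nat_lit 0) (nat_lit 2300848142) (nat_lit 504) (nat_lit 4775346027) (nat_lit 84) (nat_lit 4356673980) (nat_lit 41) (nat_lit 5) (nat_lit 47) (nat_lit 5) (nat_lit 42) (nat_lit 5) (nat_lit 344) (nat_lit 301) (nat_lit 243))) (XT.nd (nat_lit 94) (nat_lit 336) (nat_lit 0) (XT.lf (nat_lit 0) (nat_lit 3730320643) (nat_lit 504) (nat_lit 1043937745) (nat_lit 84) (nat_lit 6890455001) (nat_lit 41) (nat_lit 5) (nat_lit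 47) (nat_lit 5) (nat_lit 42) (nat_lit 5) (nat_lit 345) (nat_lit 301) (nat_lit 242)) (XT.lf (nat_lit 0) (nat_lit 2831684225) (nat_lit 336) (nat_lit 2375158265) (nat_lit 420) (nat_lit 6696982164) (nat_lit 37) (nat_lit 5) (nat_lit 41) (nat_lit 5) (nat_lit 42) (nat_lit 5) (nat_lit 346) (nat_lit 301) (nat_lit 241)))) (XT.nd (nat_lit 188) (nat_lit 336) (nat_lit 0) (XT.nd (nat_lit 94) (nat_lit 0) (nat_lit 0) (XT.lf (nat_lit 0) (nat_lit 6716214009) (nat_lit 420) (nat_lit 5330635853) (nat_lit 84) (nat_lit 104057815) (nat_lit 37) (nat_lit 5) (nat_lit 42) (nat_lit 5) (nat_lit 38) (nat_lit 5) (nat_lit 347) (nat_lit 301) (nat_lit 240)) (XT.lf (nat_lit 0) (nat_lit 8272511382) (nat_lit 420) (nat_lit 1525681294) (nat_lit 84) (nat_lit 2607607339) (nat_lit 37) (nat_lit 5) (nat_lit 42) (nat_lit 5) (nat_lit 38) (nat_lit 5) (nat_lit 348) (nat_lit 301) (nat_lit 239))) (XT.nd (nat_lit 94) (nat_lit 0) (nat_lit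 0) (XT.lf (nat_lit 0) (nat_lit 2418560327) (nat_lit 336) (nat_lit 7459055468) (nat_lit 420) (nat_lit 2791110113) (nat_lit 33) (nat_lit 5) (nat_lit 37) (nat_lit 5) (nat_lit 38) (nat_lit 5) (nat_lit 349) (nat_lit 301) (nat_lit 238)) (XT.lf (nat_lit 0) (nat_lit 6490299304) (nat_lit 336) (nat_lit 5035109027) (nat_lit 420) (nat_lit 1414758166) (nat_lit 33) (nat_lit 5) (nat_lit 37) (nat_lit 5) (nat_lit 38) (nat_lit 5) (nat_lit 350) (nat_lit 301) (nat_lit 237))))) (XT.nd (nat_lit 376) (nat_lit 504) (nat_lit 0) (XT.nd (nat_lit 188) (nat_lit 0) (nat_lit 0) (XT.nd (nat_lit 94) (nat_lit 336) (nat_lit 0) (XT.lf (nat_lit 0) (nat_lit 10661959786) (nat_lit 336) (nat_lit 2540018965) (nat_lit 420) (nat_lit 18874873) (nat_lit 33) (nat_lit 5) (nat_lit 37) (nat_lit 5) (nat_lit 38) (nat_lit 5) (nat_lit 351) (nat_lit 301) (nat_lit 236)) (XT.lf (nat_lit 0) (nat_lit 1384549146) (nat_lit 336) (nat_lit 12069188226)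 (nat_lit 84) (nat_lit 56420656) (nat_lit 29) (nat_lit 5) (nat_lit 33) (nat_lit 5) (nat_lit 30) (nat_lit 5) (nat_lit 352) (nat_lit 301) (nat_lit 235))) (XT.nd (nat_lit 94) (nat_lit 0) (nat_lit 0) (XT.lf (nat_lit 0) (nat_lit 2862423350) (nat_lit 336) (nat_lit 8241557794) (nat_lit 84) (nat_lit 2703600493) (nat_lit 29) (nat_lit 5) (nat_lit 33) (nat_lit 5) (nat_lit 30) (nat_lit 5) (nat_lit 353) (nat_lit 301) (nat_lit 234)) (XT.lf (nat_lit 0) (nat_lit 4365136790) (nat_lit 336) (nat_lit 4321058116) (nat_lit 84) (nat_lit 5428805009) (nat_lit 29) (nat_lit 5) (nat_lit 33) (nat_lit 5) (nat_lit 30) (nat_lit 5) (nat_lit 354) (nat_lit 301) (nat_lit 233)))) (XT.nd (nat_lit 188) (nat_lit 252) (nat_lit 0) (XT.nd (nat_lit 94) (nat_lit 252) (nat_lit 0) (XT.lf (nat_lit 0) (nat_lit 5894090154) (nat_lit 336) (nat_lit 304034876) (nat_lit 84) (nat_lit 8234574382) (nat_lit 29) (nat_lit 5) (nat_lit 33) (nat_lit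 5) (nat_lit 30) (nat_lit 5) (nat_lit 355) (nat_lit 301) (nat_lit 232)) (XT.lf (nat_lit 0) (nat_lit 3891664579) (nat_lit 252) (nat_lit 3597649800) (nat_lit 336) (nat_lit 7270465096) (nat_lit 26) (nat_lit 5) (nat_lit 29) (nat_lit 5) (nat_lit 30) (nat_lit 5) (nat_lit 356) (nat_lit 301) (nat_lit 231))) (XT.nd (nat_lit 94) (nat_lit 252) (nat_lit 0) (XT.lf (nat_lit 0) (nat_lit 8199861836) (nat_lit 252) (nat_lit 917924823) (nat_lit 336) (nat_lit 5979828119) (nat_lit 26) (nat_lit 5) (nat_lit 29) (nat_lit 5) (nat_lit 30) (nat_lit 5) (nat_lit 357) (nat_lit 301) (nat_lit 230)) (XT.nd (nat_lit 94) (nat_lit 252) (nat_lit 0) (XT.lf (nat_lit 0) (nat_lit 10796203561) (nat_lit 336) (nat_lit 2846551377) (nat_lit 84) (nat_lit 1803294743) (nat_lit 26) (nat_lit 5) (nat_lit 30) (nat_lit 5) (nat_lit 27) (nat_lit 5) (nat_lit 358) (nat_lit 301) (nat_lit 229)) (XT.lf (nat_lit 0) (nat_lit 1324310714) (nat_lit 252)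 (nat_lit 11206593296) (nat_lit 336) (nat_lit 3274356944) (nat_lit 23) (nat_lit 5) (nat_lit 26) (nat_lit 5) (nat_lit 27) (nat_lit 5) (nat_lit 359) (nat_lit 301) (nat_lit 228))))))) (XT.nd (nat_lit 752) (nat_lit 168) (nat_lit 0) (XT.nd (nat_lit 376) (nat_lit 168) (nat_lit 0) (XT.nd (nat_lit 188) (nat_lit 336) (nat_lit 0) (XT.nd (nat_lit 94) (nat_lit 0) (nat_lit 0) (XT.lf (nat_lit 0) (nat_lit 5661829589) (nat_lit 252) (nat_lit 8669311239) (nat_lit 336) (nat_lit 1844205877) (nat_lit 23) (nat_lit 5) (nat_lit 26) (nat_lit 5) (nat_lit 27) (nat_lit 5) (nat_lit 360) (nat_lit 301) (nat_lit 227)) (XT.lf (nat_lit 0) (nat_lit 10111517335) (nat_lit 252) (nat_lit 6058255914) (nat_lit 336) (nat_lit 387772029) (nat_lit 23) (nat_lit 5) (nat_lit 26) (nat_lit 5) (nat_lit 27) (nat_lit 5) (nat_lit 361) (nat_lit 301) (nat_lit 226))) (XT.nd (nat_lit 94) (nat_lit 252) (nat_lit 0) (XT.lf (nat_lit 0) (nat_lit 1074214104)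 (nat_lit 336) (nat_lit 2285566845) (nat_lit 84) (nat_lit 13592094830) (nat_lit 22) (nat_lit 5) (nat_lit 26) (nat_lit 5) (nat_lit 23) (nat_lit 5) (nat_lit 362) (nat_lit 301) (nat_lit 225)) (XT.lf (nat_lit 0) (nat_lit 2019177004) (nat_lit 252) (nat_lit 557679859) (nat_lit 336) (nat_lit 14781437239) (nat_lit 19) (nat_lit 5) (nat_lit 22) (nat_lit 5) (nat_lit 23) (nat_lit 5) (nat_lit 363) (nat_lit 301) (nat_lit 224)))) (XT.nd (nat_lit 188) (nat_lit 168) (nat_lit 0) (XT.nd (nat_lit 94) (nat_lit 0) (nat_lit 0) (XT.lf (nat_lit 0) (nat_lit 4156910445) (nat_lit 336) (nat_lit 11315860187) (nat_lit 84) (nat_lit 2303673921) (nat_lit 19) (nat_lit 5) (nat_lit 23) (nat_lit 5) (nat_lit 20) (nat_lit 5) (nat_lit 364) (nat_lit 301) (nat_lit 223)) (XT.lf (nat_lit 0) (nat_lit 5775744125) (nat_lit 336) (nat_lit 7194670868) (nat_lit 84) (nat_lit 5237545108) (nat_lit 19) (nat_lit 5) (nat_lit 23) (nat_lit 5) (nat_lit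 20) (nat_lit 5) (nat_lit 365) (nat_lit 301) (nat_lit 222))) (XT.nd (nat_lit 94) (nat_lit 168) (nat_lit 0) (XT.lf (nat_lit 0) (nat_lit 7429334573) (nat_lit 336) (nat_lit 2966175509) (nat_lit 84) (nat_lit 8257904383) (nat_lit 19) (nat_lit 5) (nat_lit 23) (nat_lit 5) (nat_lit 20) (nat_lit 5) (nat_lit 366) (nat_lit 301) (nat_lit 221)) (XT.lf (nat_lit 0) (nat_lit 1401810651) (nat_lit 168) (nat_lit 7731318591) (nat_lit 252) (nat_lit 9979662521) (nat_lit 17) (nat_lit 5) (nat_lit 19) (nat_lit 5) (nat_lit 20) (nat_lit 5) (nat_lit 367) (nat_lit 301) (nat_lit 220))))) (XT.nd (nat_lit 376) (nat_lit 168) (nat_lit 0) (XT.nd (nat_lit 188) (nat_lit 0) (nat_lit 0) (XT.nd (nat_lit 94) (nat_lit 0) (nat_lit 0) (XT.lf (nat_lit 0) (nat_lit 5948450652) (nat_lit 168) (nat_lit 4957543597) (nat_lit 252) (nat_lit 8679990316) (nat_lit 17) (nat_lit 5) (nat_lit 19) (nat_lit 5) (nat_lit 20) (nat_lit 5) (nat_lit 368)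 (nat_lit 301) (nat_lit 219)) (XT.lf (nat_lit 0) (nat_lit 10616991785) (nat_lit 168) (nat_lit 2102560441) (nat_lit 252) (nat_lit 7354812637) (nat_lit 17) (nat_lit 5) (nat_lit 19) (nat_lit 5) (nat_lit 20) (nat_lit 5) (nat_lit 369) (nat_lit 301) (nat_lit 218))) (XT.nd (nat_lit 94) (nat_lit 0) (nat_lit 0) (XT.lf (nat_lit 0) (nat_lit 14583789719) (nat_lit 252) (nat_lit 5174898380) (nat_lit 84) (nat_lit 819442600) (nat_lit 17) (nat_lit 5) (nat_lit 20) (nat_lit 5) (nat_lit 18) (nat_lit 5) (nat_lit 370) (nat_lit 301) (nat_lit 217)) (XT.lf (nat_lit 0) (nat_lit 16513857367) (nat_lit 252) (nat_lit 799531077) (nat_lit 84) (nat_lit 3783947387) (nat_lit 17) (nat_lit 5) (nat_lit 20) (nat_lit 5) (nat_lit 18) (nat_lit 5) (nat_lit 371) (nat_lit 301) (nat_lit 216)))) (XT.nd (nat_lit 188) (nat_lit 0) (nat_lit 0) (XT.nd (nat_lit 94) (nat_lit 0) (nat_lit 0) (XT.lf (nat_lit 0) (nat_lit 3769614114) (nat_lit 168)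 (nat_lit 14758477461) (nat_lit 252) (nat_lit 3103859981) (nat_lit 15) (nat_lit 5) (nat_lit 17) (nat_lit 5) (nat_lit 18) (nat_lit 5) (nat_lit 372) (nat_lit 301) (nat_lit 215)) (XT.lf (nat_lit 0) (nat_lit 8479724911) (nat_lit 168) (nat_lit 12120544857) (nat_lit 252) (nat_lit 1583077525) (nat_lit 15) (nat_lit 5) (nat_lit 17) (nat_lit 5) (nat_lit 18) (nat_lit 5) (nat_lit 373) (nat_lit 301) (nat_lit 214))) (XT.nd (nat_lit 48974) (nat_lit 0) (nat_lit 10500) (XT.lf (nat_lit 0) (nat_lit 13318751633) (nat_lit 168) (nat_lit 9405477268) (nat_lit 252) (nat_lit 28059031) (nat_lit 15) (nat_lit 5) (nat_lit 17) (nat_lit 5) (nat_lit 18) (nat_lit 5) (nat_lit 374) (nat_lit 301) (nat_lit 213)) (XT.nd (nat_lit 94) (nat_lit 0) (nat_lit 0) (XT.lf (nat_lit 0) (nat_lit 2321856095) (nat_lit 420) (nat_lit 495341356) (nat_lit 420) (nat_lit 495341356) (nat_lit 140) (nat_lit 3) (nat_lit 145) (nat_lit 3) (nat_lit 145)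 (nat_lit 5) (nat_lit 302) (nat_lit 302) (nat_lit 284)) (XT.lf (nat_lit 84) (nat_lit 1353494546) (nat_lit 0) (nat_lit 5061504036) (nat_lit 420) (nat_lit 241964081) (nat_lit 141) (nat_lit 5) (nat_lit 140) (nat_lit 3) (nat_lit 145) (nat_lit 5) (nat_lit 303) (nat_lit 302) (nat_lit 283))))))))
noncomputable def xc59 : XT := (XT.nd (nat_lit 1598) (nat_lit 4788) (nat_lit 0) (XT.nd (nat_lit 752) (nat_lit 1764) (nat_lit 0) (XT.nd (nat_lit 376) (nat_lit 504) (nat_lit 0) (XT.nd (nat_lit 188) (nat_lit 0) (nat_lit 0) (XT.nd (nat_lit 94) (nat_lit 0) (nat_lit 0) (XT.lf (nat_lit 0) (nat_lit 1460842858) (nat_lit 420) (nat_lit 2951921963) (nat_lit 504) (nat_lit 2279139690) (nat_lit 135) (nat_lit 5) (nat_lit 140) (nat_lit 3) (nat_lit 141) (nat_lit 5) (nat_lit 304) (nat_lit 302) (nat_lit 282)) (XT.lf (nat_lit 0) (nat_lit 3143800679) (nat_lit 420) (nat_lit 567056574) (nat_lit 504) (nat_lit 3019778594) (nat_lit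 135) (nat_lit 5) (nat_lit 140) (nat_lit 3) (nat_lit 141) (nat_lit 5) (nat_lit 305) (nat_lit 302) (nat_lit 281))) (XT.nd (nat_lit 94) (nat_lit 0) (nat_lit 0) (XT.lf (nat_lit 84) (nat_lit 1893909358) (nat_lit 0) (nat_lit 2938231568) (nat_lit 504) (nat_lit 1940543837) (nat_lit 136) (nat_lit 5) (nat_lit 135) (nat_lit 5) (nat_lit 141) (nat_lit 5) (nat_lit 306) (nat_lit 302) (nat_lit 280)) (XT.lf (nat_lit 84) (nat_lit 4407562550) (nat_lit 0) (nat_lit 2107217366) (nat_lit 504) (nat_lit 303702914) (nat_lit 136) (nat_lit 5) (nat_lit 135) (nat_lit 5) (nat_lit 141) (nat_lit 5) (nat_lit 307) (nat_lit 302) (nat_lit 279)))) (XT.nd (nat_lit 188) (nat_lit 0) (nat_lit 84) (XT.nd (nat_lit 94) (nat_lit 0) (nat_lit 0) (XT.lf (nat_lit 84) (nat_lit 84959620) (nat_lit 0) (nat_lit 1208596748) (nat_lit 588) (nat_lit 5574262496) (nat_lit 130) (nat_lit 5) (nat_lit 129) (nat_lit 5) (nat_lit 136) (nat_lit 5) (nat_lit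 308) (nat_lit 302) (nat_lit 278)) (XT.lf (nat_lit 84) (nat_lit 2670058933) (nat_lit 0) (nat_lit 227357110) (nat_lit 588) (nat_lit 4022896598) (nat_lit 130) (nat_lit 5) (nat_lit 129) (nat_lit 5) (nat_lit 136) (nat_lit 5) (nat_lit 309) (nat_lit 302) (nat_lit 277))) (XT.nd (nat_lit 94) (nat_lit 0) (nat_lit 0) (XT.lf (nat_lit 0) (nat_lit 4499139241) (nat_lit 504) (nat_lit 1684600834) (nat_lit 588) (nat_lit 792873283) (nat_lit 130) (nat_lit 5) (nat_lit 136) (nat_lit 5) (nat_lit 137) (nat_lit 5) (nat_lit 310) (nat_lit 302) (nat_lit 276)) (XT.lf (nat_lit 84) (nat_lit 940664216) (nat_lit 0) (nat_lit 5163665129) (nat_lit 588) (nat_lit 932316728) (nat_lit 131) (nat_lit 5) (nat_lit 130) (nat_lit 5) (nat_lit 137) (nat_lit 5) (nat_lit 311) (nat_lit 302) (nat_lit 275))))) (XT.nd (nat_lit 376) (nat_lit 1260) (nat_lit 0) (XT.nd (nat_lit 188) (nat_lit 0) (nat_lit 0) (XT.nd (nat_lit 94) (nat_lit 0) (nat_lit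 0) (XT.lf (nat_lit 0) (nat_lit 607623833) (nat_lit 588) (nat_lit 3459589761) (nat_lit 672) (nat_lit 3032878971) (nat_lit 123) (nat_lit 5) (nat_lit 130) (nat_lit 5) (nat_lit 131) (nat_lit 5) (nat_lit 312) (nat_lit 302) (nat_lit 274)) (XT.lf (nat_lit 0) (nat_lit 2120099208) (nat_lit 588) (nat_lit 787751497) (nat_lit 672) (nat_lit 4259596870) (nat_lit 123) (nat_lit 5) (nat_lit 130) (nat_lit 5) (nat_lit 131) (nat_lit 5) (nat_lit 313) (nat_lit 302) (nat_lit 273))) (XT.nd (nat_lit 94) (nat_lit 0) (nat_lit 0) (XT.lf (nat_lit 84) (nat_lit 1970982979) (nat_lit 0) (nat_lit 1673872703) (nat_lit 672) (nat_lit 3593598788) (nat_lit 124) (nat_lit 5) (nat_lit 123) (nat_lit 5) (nat_lit 131) (nat_lit 5) (nat_lit 314) (nat_lit 302) (nat_lit 272)) (XT.lf (nat_lit 84) (nat_lit 4796657296) (nat_lit 0) (nat_lit 375565217) (nat_lit 672) (nat_lit 2141300775) (nat_lit 124) (nat_lit 5) (nat_lit 123) (nat_lit 5) (nat_lit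 131) (nat_lit 5) (nat_lit 315) (nat_lit 302) (nat_lit 271)))) (XT.nd (nat_lit 188) (nat_lit 672) (nat_lit 0) (XT.nd (nat_lit 94) (nat_lit 84) (nat_lit 0) (XT.lf (nat_lit 0) (nat_lit 278627670) (nat_lit 588) (nat_lit 6429506749) (nat_lit 672) (nat_lit 684449737) (nat_lit 117) (nat_lit 5) (nat_lit 124) (nat_lit 5) (nat_lit 125) (nat_lit 5) (nat_lit 316) (nat_lit 302) (nat_lit 270)) (XT.lf (nat_lit 0) (nat_lit 780581421) (nat_lit 672) (nat_lit 4308917301) (nat_lit 84) (nat_lit 2385416236) (nat_lit 116) (nat_lit 5) (nat_lit 124) (nat_lit 5) (nat_lit 117) (nat_lit 5) (nat_lit 317) (nat_lit 302) (nat_lit 269))) (XT.nd (nat_lit 94) (nat_lit 672) (nat_lit 0) (XT.lf (nat_lit 0) (nat_lit 2227450166) (nat_lit 672) (nat_lit 1460346546) (nat_lit 84) (nat_lit 3873736056) (nat_lit 116) (nat_lit 5) (nat_lit 124) (nat_lit 5) (nat_lit 117) (nat_lit 5) (nat_lit 318) (nat_lit 302) (nat_lit 268)) (XT.nd (nat_lit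 94) (nat_lit 0) (nat_lit 0) (XT.lf (nat_lit 0) (nat_lit 1470834813) (nat_lit 672) (nat_lit 2215051316) (nat_lit 756) (nat_lit 3966390363) (nat_lit 108) (nat_lit 5) (nat_lit 116) (nat_lit 5) (nat_lit 117) (nat_lit 5) (nat_lit 319) (nat_lit 302) (nat_lit 267)) (XT.lf (nat_lit 0) (nat_lit 4488869918) (nat_lit 672) (nat_lit 669122765) (nat_lit 756) (nat_lit 2589214968) (nat_lit 108) (nat_lit 5) (nat_lit 116) (nat_lit 5) (nat_lit 117) (nat_lit 5) (nat_lit 320) (nat_lit 302) (nat_lit 266))))))) (XT.nd (nat_lit 846) (nat_lit 1428) (nat_lit 0) (XT.nd (nat_lit 376) (nat_lit 1680) (nat_lit 0) (XT.nd (nat_lit 188) (nat_lit 840) (nat_lit 0) (XT.nd (nat_lit 94) (nat_lit 840) (nat_lit 0) (XT.lf (nat_lit 0) (nat_lit 6639644376) (nat_lit 756) (nat_lit 289615972) (nat_lit 84) (nat_lit 917324807) (nat_lit 108) (nat_lit 5) (nat_lit 117) (nat_lit 5) (nat_lit 109) (nat_lit 5) (nat_lit 321) (nat_lit 302) (nat_lit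 265)) (XT.lf (nat_lit 0) (nat_lit 203901121) (nat_lit 840) (nat_lit 5166103110) (nat_lit 84) (nat_lit 2579640426) (nat_lit 98) (nat_lit 5) (nat_lit 108) (nat_lit 5) (nat_lit 99) (nat_lit 5) (nat_lit 322) (nat_lit 302) (nat_lit 264))) (XT.nd (nat_lit 94) (nat_lit 840) (nat_lit 0) (XT.lf (nat_lit 0) (nat_lit 1592744652) (nat_lit 840) (nat_lit 2145719658) (nat_lit 84) (nat_lit 4318663609) (nat_lit 98) (nat_lit 5) (nat_lit 108) (nat_lit 5) (nat_lit 99) (nat_lit 5) (nat_lit 323) (nat_lit 302) (nat_lit 263)) (XT.lf (nat_lit 0) (nat_lit 952920767) (nat_lit 840) (nat_lit 2038771761) (nat_lit 924) (nat_lit 5177612542) (nat_lit 88) (nat_lit 5) (nat_lit 98) (nat_lit 5) (nat_lit 99) (nat_lit 5) (nat_lit 324) (nat_lit 302) (nat_lit 262)))) (XT.nd (nat_lit 188) (nat_lit 1680) (nat_lit 0) (XT.nd (nat_lit 94) (nat_lit 0) (nat_lit 0) (XT.lf (nat_lit 0) (nat_lit 4158883066) (nat_lit 840) (nat_lit 256054200)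 (nat_lit 924) (nat_lit 3870943860) (nat_lit 88) (nat_lit 5) (nat_lit 98) (nat_lit 5) (nat_lit 99) (nat_lit 5) (nat_lit 325) (nat_lit 302) (nat_lit 261)) (XT.lf (nat_lit 0) (nat_lit 5857844604) (nat_lit 924) (nat_lit 992365655) (nat_lit 84) (nat_lit 1556939275) (nat_lit 88) (nat_lit 5) (nat_lit 99) (nat_lit 5) (nat_lit 89) (nat_lit 5) (nat_lit 326) (nat_lit 302) (nat_lit 260))) (XT.nd (nat_lit 94) (nat_lit 756) (nat_lit 0) (XT.lf (nat_lit 0) (nat_lit 2248335909) (nat_lit 924) (nat_lit 5083125111) (nat_lit 1008) (nat_lit 1201461561) (nat_lit 77) (nat_lit 5) (nat_lit 88) (nat_lit 5) (nat_lit 89) (nat_lit 5) (nat_lit 327) (nat_lit 302) (nat_lit 259)) (XT.nd (nat_lit 94) (nat_lit 672) (nat_lit 0) (XT.lf (nat_lit 0) (nat_lit 156048626) (nat_lit 1008) (nat_lit 3088241582) (nat_lit 84) (nat_lit 5419416866) (nat_lit 76) (nat_lit 5) (nat_lit 88) (nat_lit 5) (nat_lit 77) (nat_lit 5) (nat_lit 328)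 (nat_lit 302) (nat_lit 258)) (XT.lf (nat_lit 0) (nat_lit 164726887) (nat_lit 672) (nat_lit 1329968562) (nat_lit 756) (nat_lit 7304868642) (nat_lit 68) (nat_lit 5) (nat_lit 76) (nat_lit 5) (nat_lit 77) (nat_lit 5) (nat_lit 329) (nat_lit 302) (nat_lit 257)))))) (XT.nd (nat_lit 376) (nat_lit 924) (nat_lit 0) (XT.nd (nat_lit 188) (nat_lit 504) (nat_lit 0) (XT.nd (nat_lit 94) (nat_lit 0) (nat_lit 0) (XT.lf (nat_lit 0) (nat_lit 2877006078) (nat_lit 756) (nat_lit 5395949895) (nat_lit 84) (nat_lit 666884518) (nat_lit 68) (nat_lit 5) (nat_lit 77) (nat_lit 5) (nat_lit 69) (nat_lit 5) (nat_lit 330) (nat_lit 302) (nat_lit 256)) (XT.lf (nat_lit 0) (nat_lit 4280092418) (nat_lit 756) (nat_lit 2103826683) (nat_lit 84) (nat_lit 2701497398) (nat_lit 68) (nat_lit 5) (nat_lit 77) (nat_lit 5) (nat_lit 69) (nat_lit 5) (nat_lit 331) (nat_lit 302) (nat_lit 255))) (XT.nd (nat_lit 94) (nat_lit 0) (nat_lit 0) (XT.lf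 (nat_lit 0) (nat_lit 1283657320) (nat_lit 504) (nat_lit 4421145560) (nat_lit 588) (nat_lit 3531639171) (nat_lit 62) (nat_lit 5) (nat_lit 68) (nat_lit 5) (nat_lit 69) (nat_lit 5) (nat_lit 332) (nat_lit 302) (nat_lit 254)) (XT.lf (nat_lit 0) (nat_lit 4788525105) (nat_lit 504) (nat_lit 2373229112) (nat_lit 588) (nat_lit 2231015746) (nat_lit 62) (nat_lit 5) (nat_lit 68) (nat_lit 5) (nat_lit 69) (nat_lit 5) (nat_lit 333) (nat_lit 302) (nat_lit 253)))) (XT.nd (nat_lit 188) (nat_lit 420) (nat_lit 0) (XT.nd (nat_lit 94) (nat_lit 504) (nat_lit 0) (XT.lf (nat_lit 0) (nat_lit 8370784586) (nat_lit 504) (nat_lit 260220519) (nat_lit 588) (nat_lit 924201126) (nat_lit 62) (nat_lit 5) (nat_lit 68) (nat_lit 5) (nat_lit 69) (nat_lit 5) (nat_lit 334) (nat_lit 302) (nat_lit 252)) (XT.lf (nat_lit 0) (nat_lit 424834395) (nat_lit 504) (nat_lit 7388962462) (nat_lit 84) (nat_lit 1908662704) (nat_lit 56) (nat_lit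 5) (nat_lit 62) (nat_lit 5) (nat_lit 57) (nat_lit 5) (nat_lit 335) (nat_lit 302) (nat_lit 251))) (XT.nd (nat_lit 94) (nat_lit 420) (nat_lit 0) (XT.lf (nat_lit 0) (nat_lit 1779885301) (nat_lit 504) (nat_lit 3953288894) (nat_lit 84) (nat_lit 4162167386) (nat_lit 56) (nat_lit 5) (nat_lit 62) (nat_lit 5) (nat_lit 57) (nat_lit 5) (nat_lit 336) (nat_lit 302) (nat_lit 250)) (XT.nd (nat_lit 94) (nat_lit 420) (nat_lit 0) (XT.lf (nat_lit 0) (nat_lit 3146139965) (nat_lit 504) (nat_lit 442258382) (nat_lit 84) (nat_lit 6486354858) (nat_lit 56) (nat_lit 5) (nat_lit 62) (nat_lit 5) (nat_lit 57) (nat_lit 5) (nat_lit 337) (nat_lit 302) (nat_lit 249)) (XT.lf (nat_lit 0) (nat_lit 3212118756) (nat_lit 420) (nat_lit 1344617740) (nat_lit 504) (nat_lit 5703137363) (nat_lit 51) (nat_lit 5) (nat_lit 56) (nat_lit 5) (nat_lit 57) (nat_lit 5) (nat_lit 338) (nat_lit 302) (nat_lit 248))))))))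
noncomputable def xc60 : XT := (XT.nd (nat_lit 1598) (nat_lit 1176) (nat_lit 0) (XT.nd (nat_lit 752) (nat_lit 672) (nat_lit 0) (XT.nd (nat_lit 376) (nat_lit 840) (nat_lit 0) (XT.nd (nat_lit 188) (nat_lit 0) (nat_lit 0) (XT.nd (nat_lit 94) (nat_lit 336) (nat_lit 0) (XT.lf (nat_lit 0) (nat_lit 5996053571) (nat_lit 504) (nat_lit 3502100309) (nat_lit 84) (nat_lit 953247234) (nat_lit 51) (nat_lit 5) (nat_lit 57) (nat_lit 5) (nat_lit 52) (nat_lit 5) (nat_lit 339) (nat_lit 302) (nat_lit 247)) (XT.lf (nat_lit 0) (nat_lit 111893979) (nat_lit 336) (nat_lit 7354556942) (nat_lit 420) (nat_lit 3183031011) (nat_lit 47) (nat_lit 5) (nat_lit 51) (nat_lit 5) (nat_lit 52) (nat_lit 5) (nat_lit 340) (nat_lit 302) (nat_lit 246))) (XT.nd (nat_lit 94) (nat_lit 0) (nat_lit 0) (XT.lf (nat_lit 0) (nat_lit 3882391350) (nat_lit 336) (nat_lit 5108751753) (nat_lit 420) (nat_lit 1862480682) (nat_lit 47) (nat_lit 5) (nat_lit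 51) (nat_lit 5) (nat_lit 52) (nat_lit 5) (nat_lit 341) (nat_lit 302) (nat_lit 245)) (XT.lf (nat_lit 0) (nat_lit 7740895936) (nat_lit 336) (nat_lit 2795199729) (nat_lit 420) (nat_lit 529020408) (nat_lit 47) (nat_lit 5) (nat_lit 51) (nat_lit 5) (nat_lit 52) (nat_lit 5) (nat_lit 342) (nat_lit 302) (nat_lit 244)))) (XT.nd (nat_lit 188) (nat_lit 336) (nat_lit 0) (XT.nd (nat_lit 94) (nat_lit 0) (nat_lit 0) (XT.lf (nat_lit 0) (nat_lit 406926452) (nat_lit 420) (nat_lit 399210222) (nat_lit 504) (nat_lit 10477642382) (nat_lit 41) (nat_lit 5) (nat_lit 46) (nat_lit 5) (nat_lit 47) (nat_lit 5) (nat_lit 343) (nat_lit 302) (nat_lit 243)) (XT.lf (nat_lit 0) (nat_lit 2201151709) (nat_lit 504) (nat_lit 7239641250) (nat_lit 84) (nat_lit 2067515436) (nat_lit 41) (nat_lit 5) (nat_lit 47) (nat_lit 5) (nat_lit 42) (nat_lit 5) (nat_lit 344) (nat_lit 302) (nat_lit 242))) (XT.nd (nat_lit 94) (nat_lit 336) (nat_lit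 0) (XT.lf (nat_lit 0) (nat_lit 3618140232) (nat_lit 504) (nat_lit 3522271419) (nat_lit 84) (nat_lit 4600209553) (nat_lit 41) (nat_lit 5) (nat_lit 47) (nat_lit 5) (nat_lit 42) (nat_lit 5) (nat_lit 345) (nat_lit 302) (nat_lit 241)) (XT.lf (nat_lit 0) (nat_lit 288494603) (nat_lit 336) (nat_lit 4768830110) (nat_lit 420) (nat_lit 6923643359) (nat_lit 37) (nat_lit 5) (nat_lit 41) (nat_lit 5) (nat_lit 42) (nat_lit 5) (nat_lit 346) (nat_lit 302) (nat_lit 240))))) (XT.nd (nat_lit 376) (nat_lit 336) (nat_lit 0) (XT.nd (nat_lit 188) (nat_lit 336) (nat_lit 0) (XT.nd (nat_lit 94) (nat_lit 0) (nat_lit 0) (XT.lf (nat_lit 0) (nat_lit 4264689861) (nat_lit 336) (nat_lit 2289074640) (nat_lit 420) (nat_lit 5674763272) (nat_lit 37) (nat_lit 5) (nat_lit 41) (nat_lit 5) (nat_lit 42) (nat_lit 5) (nat_lit 347) (nat_lit 302) (nat_lit 239)) (XT.lf (nat_lit 0) (nat_lit 8075817488) (nat_lit 420) (nat_lit 4149663942)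 (nat_lit 84) (nat_lit 259073772) (nat_lit 37) (nat_lit 5) (nat_lit 42) (nat_lit 5) (nat_lit 38) (nat_lit 5) (nat_lit 348) (nat_lit 302) (nat_lit 238))) (XT.nd (nat_lit 94) (nat_lit 336) (nat_lit 0) (XT.lf (nat_lit 0) (nat_lit 9645739879) (nat_lit 420) (nat_lit 267233843) (nat_lit 84) (nat_lit 2835669320) (nat_lit 37) (nat_lit 5) (nat_lit 42) (nat_lit 5) (nat_lit 38) (nat_lit 5) (nat_lit 349) (nat_lit 302) (nat_lit 237)) (XT.lf (nat_lit 0) (nat_lit 3786059788) (nat_lit 336) (nat_lit 7493785497) (nat_lit 420) (nat_lit 1740731808) (nat_lit 33) (nat_lit 5) (nat_lit 37) (nat_lit 5) (nat_lit 38) (nat_lit 5) (nat_lit 350) (nat_lit 302) (nat_lit 236)))) (XT.nd (nat_lit 188) (nat_lit 252) (nat_lit 0) (XT.nd (nat_lit 94) (nat_lit 84) (nat_lit 0) (XT.lf (nat_lit 0) (nat_lit 7945159194) (nat_lit 336) (nat_lit 5000605079) (nat_lit 420) (nat_lit 355897223) (nat_lit 33) (nat_lit 5) (nat_lit 37) (nat_lit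 5) (nat_lit 38) (nat_lit 5) (nat_lit 351) (nat_lit 302) (nat_lit 235)) (XT.lf (nat_lit 0) (nat_lit 1028944813) (nat_lit 420) (nat_lit 1394213048) (nat_lit 84) (nat_lit 11168761328) (nat_lit 32) (nat_lit 5) (nat_lit 37) (nat_lit 5) (nat_lit 33) (nat_lit 5) (nat_lit 352) (nat_lit 302) (nat_lit 234))) (XT.nd (nat_lit 94) (nat_lit 0) (nat_lit 0) (XT.lf (nat_lit 0) (nat_lit 2458194113) (nat_lit 336) (nat_lit 11176121713) (nat_lit 84) (nat_lit 256595553) (nat_lit 29) (nat_lit 5) (nat_lit 33) (nat_lit 5) (nat_lit 30) (nat_lit 5) (nat_lit 353) (nat_lit 302) (nat_lit 233)) (XT.nd (nat_lit 94) (nat_lit 0) (nat_lit 0) (XT.lf (nat_lit 0) (nat_lit 3950890718) (nat_lit 336) (nat_lit 7267937116) (nat_lit 84) (nat_lit 2979871717) (nat_lit 29) (nat_lit 5) (nat_lit 33) (nat_lit 5) (nat_lit 30) (nat_lit 5) (nat_lit 354) (nat_lit 302) (nat_lit 232)) (XT.lf (nat_lit 0) (nat_lit 5470128430) (nat_lit 336) (nat_lit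 3262858668) (nat_lit 84) (nat_lit 5783770719) (nat_lit 29) (nat_lit 5) (nat_lit 33) (nat_lit 5) (nat_lit 30) (nat_lit 5) (nat_lit 355) (nat_lit 302) (nat_lit 231))))))) (XT.nd (nat_lit 752) (nat_lit 588) (nat_lit 0) (XT.nd (nat_lit 376) (nat_lit 336) (nat_lit 0) (XT.nd (nat_lit 188) (nat_lit 0) (nat_lit 0) (XT.nd (nat_lit 94) (nat_lit 0) (nat_lit 0) (XT.lf (nat_lit 0) (nat_lit 860177440) (nat_lit 252) (nat_lit 6165678965) (nat_lit 336) (nat_lit 7819261710) (nat_lit 26) (nat_lit 5) (nat_lit 29) (nat_lit 5) (nat_lit 30) (nat_lit 5) (nat_lit 356) (nat_lit 302) (nat_lit 230)) (XT.lf (nat_lit 0) (nat_lit 5156906354) (nat_lit 252) (nat_lit 3488168388) (nat_lit 336) (nat_lit 6538219723) (nat_lit 26) (nat_lit 5) (nat_lit 29) (nat_lit 5) (nat_lit 30) (nat_lit 5) (nat_lit 357) (nat_lit 302) (nat_lit 229))) (XT.nd (nat_lit 94) (nat_lit 0) (nat_lit 0) (XT.lf (nat_lit 0) (nat_lit 9564242008) (nat_lit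 252) (nat_lit 732017200) (nat_lit 336) (nat_lit 5236366912) (nat_lit 26) (nat_lit 5) (nat_lit 29) (nat_lit 5) (nat_lit 30) (nat_lit 5) (nat_lit 358) (nat_lit 302) (nat_lit 228)) (XT.lf (nat_lit 0) (nat_lit 12001834148) (nat_lit 336) (nat_lit 1828031461) (nat_lit 84) (nat_lit 2062925639) (nat_lit 26) (nat_lit 5) (nat_lit 30) (nat_lit 5) (nat_lit 27) (nat_lit 5) (nat_lit 359) (nat_lit 302) (nat_lit 227)))) (XT.nd (nat_lit 188) (nat_lit 84) (nat_lit 0) (XT.nd (nat_lit 94) (nat_lit 0) (nat_lit 0) (XT.lf (nat_lit 0) (nat_lit 2460922372) (nat_lit 252) (nat_lit 11314068428) (nat_lit 336) (nat_lit 2488775118) (nat_lit 23) (nat_lit 5) (nat_lit 26) (nat_lit 5) (nat_lit 27) (nat_lit 5) (nat_lit 360) (nat_lit 302) (nat_lit 226)) (XT.lf (nat_lit 0) (nat_lit 6899963208) (nat_lit 252) (nat_lit 8705344795) (nat_lit 336) (nat_lit 1040962204) (nat_lit 23) (nat_lit 5) (nat_lit 26) (nat_lit 5) (nat_lit 27)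 (nat_lit 5) (nat_lit 361) (nat_lit 302) (nat_lit 225))) (XT.nd (nat_lit 94) (nat_lit 0) (nat_lit 0) (XT.lf (nat_lit 0) (nat_lit 425991004) (nat_lit 336) (nat_lit 5589906530) (nat_lit 84) (nat_lit 11025203144) (nat_lit 22) (nat_lit 5) (nat_lit 26) (nat_lit 5) (nat_lit 23) (nat_lit 5) (nat_lit 362) (nat_lit 302) (nat_lit 224)) (XT.lf (nat_lit 0) (nat_lit 1900656380) (nat_lit 336) (nat_lit 1336068027) (nat_lit 84) (nat_lit 14211705643) (nat_lit 22) (nat_lit 5) (nat_lit 26) (nat_lit 5) (nat_lit 23) (nat_lit 5) (nat_lit 363) (nat_lit 302) (nat_lit 223))))) (XT.nd (nat_lit 376) (nat_lit 336) (nat_lit 0) (XT.nd (nat_lit 188) (nat_lit 0) (nat_lit 0) (XT.nd (nat_lit 94) (nat_lit 0) (nat_lit 0) (XT.lf (nat_lit 0) (nat_lit 3091792740) (nat_lit 252) (nat_lit 344259761) (nat_lit 336) (nat_lit 14431954816) (nat_lit 19) (nat_lit 5) (nat_lit 22) (nat_lit 5) (nat_lit 23) (nat_lit 5) (nat_lit 364) (nat_lit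 302) (nat_lit 222)) (XT.lf (nat_lit 0) (nat_lit 5043875279) (nat_lit 336) (nat_lit 10661679498) (nat_lit 84) (nat_lit 2594350585) (nat_lit 19) (nat_lit 5) (nat_lit 23) (nat_lit 5) (nat_lit 20) (nat_lit 5) (nat_lit 365) (nat_lit 302) (nat_lit 221))) (XT.nd (nat_lit 94) (nat_lit 0) (nat_lit 0) (XT.lf (nat_lit 0) (nat_lit 6690098313) (nat_lit 336) (nat_lit 6442950714) (nat_lit 84) (nat_lit 5612579009) (nat_lit 19) (nat_lit 5) (nat_lit 23) (nat_lit 5) (nat_lit 20) (nat_lit 5) (nat_lit 366) (nat_lit 302) (nat_lit 220)) (XT.lf (nat_lit 0) (nat_lit 8372840957) (nat_lit 336) (nat_lit 2112680829) (nat_lit 84) (nat_lit 8720174882) (nat_lit 19) (nat_lit 5) (nat_lit 23) (nat_lit 5) (nat_lit 20) (nat_lit 5) (nat_lit 367) (nat_lit 302) (nat_lit 219)))) (XT.nd (nat_lit 188) (nat_lit 168) (nat_lit 0) (XT.nd (nat_lit 94) (nat_lit 0) (nat_lit 0) (XT.lf (nat_lit 0) (nat_lit 2381141110) (nat_lit 168) (nat_lit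 7736151808) (nat_lit 252) (nat_lit 9562514914) (nat_lit 17) (nat_lit 5) (nat_lit 19) (nat_lit 5) (nat_lit 20) (nat_lit 5) (nat_lit 368) (nat_lit 302) (nat_lit 218)) (XT.lf (nat_lit 0) (nat_lit 7040587180) (nat_lit 168) (nat_lit 4883450863) (nat_lit 252) (nat_lit 8244397712) (nat_lit 17) (nat_lit 5) (nat_lit 19) (nat_lit 5) (nat_lit 20) (nat_lit 5) (nat_lit 369) (nat_lit 302) (nat_lit 217))) (XT.nd (nat_lit 94) (nat_lit 168) (nat_lit 0) (XT.lf (nat_lit 0) (nat_lit 11826559420) (nat_lit 168) (nat_lit 1946811992) (nat_lit 252) (nat_lit 6899327538) (nat_lit 17) (nat_lit 5) (nat_lit 19) (nat_lit 5) (nat_lit 20) (nat_lit 5) (nat_lit 370) (nat_lit 302) (nat_lit 216)) (XT.nd (nat_lit 94) (nat_lit 168) (nat_lit 0) (XT.lf (nat_lit 0) (nat_lit 15677695831) (nat_lit 252) (nat_lit 4460227618) (nat_lit 84) (nat_lit 1054812943) (nat_lit 17) (nat_lit 5) (nat_lit 20) (nat_lit 5) (nat_lit 18) (nat_lit 5)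 (nat_lit 371) (nat_lit 302) (nat_lit 215)) (XT.lf (nat_lit 0) (nat_lit 24966905) (nat_lit 168) (nat_lit 17623578511) (nat_lit 252) (nat_lit 4080184864) (nat_lit 15) (nat_lit 5) (nat_lit 17) (nat_lit 5) (nat_lit 18) (nat_lit 5) (nat_lit 372) (nat_lit 302) (nat_lit 214))))))))
noncomputable def xc61 : XT := (XT.nd (nat_lit 50572) (nat_lit 0) (nat_lit 3444) (XT.nd (nat_lit 49726) (nat_lit 0) (nat_lit 8400) (XT.nd (nat_lit 49350) (nat_lit 0) (nat_lit 9576) (XT.nd (nat_lit 49162) (nat_lit 0) (nat_lit 10080) (XT.nd (nat_lit 94) (nat_lit 0) (nat_lit 0) (XT.lf (nat_lit 0) (nat_lit 4726659430) (nat_lit 168) (nat_lit 14987930952) (nat_lit 252) (nat_lit 2565758005) (nat_lit 15) (nat_lit 5) (nat_lit 17) (nat_lit 5) (nat_lit 18) (nat_lit 5) (nat_lit 373) (nat_lit 302) (nat_lit 213)) (XT.lf (nat_lit 0) (nat_lit 9557521000) (nat_lit 168) (nat_lit 12275079701) (nat_lit 252) (nat_lit 1016904009) (nat_lit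 15) (nat_lit 5) (nat_lit 17) (nat_lit 5) (nat_lit 18) (nat_lit 5) (nat_lit 374) (nat_lit 302) (nat_lit 212))) (XT.nd (nat_lit 94) (nat_lit 0) (nat_lit 0) (XT.lf (nat_lit 0) (nat_lit 355094793) (nat_lit 0) (nat_lit 355094793) (nat_lit 420) (nat_lit 2634905183) (nat_lit 135) (nat_lit 5) (nat_lit 135) (nat_lit 3) (nat_lit 140) (nat_lit 3) (nat_lit 303) (nat_lit 303) (nat_lit 282)) (XT.lf (nat_lit 0) (nat_lit 3077976901) (nat_lit 420) (nat_lit 3642077763) (nat_lit 504) (nat_lit 6590977) (nat_lit 135) (nat_lit 5) (nat_lit 140) (nat_lit 3) (nat_lit 141) (nat_lit 5) (nat_lit 304) (nat_lit 303) (nat_lit 281)))) (XT.nd (nat_lit 188) (nat_lit 504) (nat_lit 0) (XT.nd (nat_lit 94) (nat_lit 0) (nat_lit 0) (XT.lf (nat_lit 0) (nat_lit 4728646646) (nat_lit 420) (nat_lit 1274931890) (nat_lit 504) (nat_lit 763127506) (nat_lit 135) (nat_lit 5) (nat_lit 140) (nat_lit 3) (nat_lit 141) (nat_lit 5) (nat_lit 305)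 (nat_lit 303) (nat_lit 280)) (XT.lf (nat_lit 84) (nat_lit 1153938553) (nat_lit 0) (nat_lit 5224390496) (nat_lit 504) (nat_lit 431942569) (nat_lit 136) (nat_lit 5) (nat_lit 135) (nat_lit 5) (nat_lit 141) (nat_lit 5) (nat_lit 306) (nat_lit 303) (nat_lit 279))) (XT.nd (nat_lit 94) (nat_lit 0) (nat_lit 0) (XT.lf (nat_lit 0) (nat_lit 1149463096) (nat_lit 504) (nat_lit 3218383521) (nat_lit 588) (nat_lit 2489117885) (nat_lit 129) (nat_lit 5) (nat_lit 135) (nat_lit 5) (nat_lit 136) (nat_lit 5) (nat_lit 307) (nat_lit 303) (nat_lit 278)) (XT.lf (nat_lit 0) (nat_lit 2709538283) (nat_lit 504) (nat_lit 744641175) (nat_lit 588) (nat_lit 3453281116) (nat_lit 129) (nat_lit 5) (nat_lit 135) (nat_lit 5) (nat_lit 136) (nat_lit 5) (nat_lit 308) (nat_lit 303) (nat_lit 277))))) (XT.nd (nat_lit 376) (nat_lit 588) (nat_lit 0) (XT.nd (nat_lit 188) (nat_lit 588) (nat_lit 0) (XT.nd (nat_lit 94) (nat_lit 0) (nat_lit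 0) (XT.lf (nat_lit 84) (nat_lit 1807910042) (nat_lit 0) (nat_lit 2468464475) (nat_lit 588) (nat_lit 2685009241) (nat_lit 130) (nat_lit 5) (nat_lit 129) (nat_lit 5) (nat_lit 136) (nat_lit 5) (nat_lit 309) (nat_lit 303) (nat_lit 276)) (XT.lf (nat_lit 84) (nat_lit 4421421133) (nat_lit 0) (nat_lit 1420051376) (nat_lit 588) (nat_lit 1177620560) (nat_lit 130) (nat_lit 5) (nat_lit 129) (nat_lit 5) (nat_lit 136) (nat_lit 5) (nat_lit 310) (nat_lit 303) (nat_lit 275))) (XT.nd (nat_lit 94) (nat_lit 0) (nat_lit 84) (XT.lf (nat_lit 0) (nat_lit 311471768) (nat_lit 588) (nat_lit 1012562) (nat_lit 672) (nat_lit 6768293916) (nat_lit 122) (nat_lit 5) (nat_lit 129) (nat_lit 5) (nat_lit 130) (nat_lit 5) (nat_lit 311) (nat_lit 303) (nat_lit 274)) (XT.lf (nat_lit 0) (nat_lit 1802025651) (nat_lit 588) (nat_lit 4469661411) (nat_lit 672) (nat_lit 873448947) (nat_lit 123) (nat_lit 5) (nat_lit 130) (nat_lit 5) (nat_lit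 131) (nat_lit 5) (nat_lit 312) (nat_lit 303) (nat_lit 273)))) (XT.nd (nat_lit 188) (nat_lit 672) (nat_lit 0) (XT.nd (nat_lit 94) (nat_lit 0) (nat_lit 0) (XT.lf (nat_lit 0) (nat_lit 3287835329) (nat_lit 588) (nat_lit 1815371984) (nat_lit 672) (nat_lit 2110352148) (nat_lit 123) (nat_lit 5) (nat_lit 130) (nat_lit 5) (nat_lit 131) (nat_lit 5) (nat_lit 313) (nat_lit 303) (nat_lit 272)) (XT.lf (nat_lit 84) (nat_lit 904861337) (nat_lit 0) (nat_lit 3871290491) (nat_lit 672) (nat_lit 2509778702) (nat_lit 124) (nat_lit 5) (nat_lit 123) (nat_lit 5) (nat_lit 131) (nat_lit 5) (nat_lit 314) (nat_lit 303) (nat_lit 271))) (XT.nd (nat_lit 94) (nat_lit 672) (nat_lit 0) (XT.lf (nat_lit 84) (nat_lit 3713686797) (nat_lit 0) (nat_lit 2564578475) (nat_lit 672) (nat_lit 1083744412) (nat_lit 124) (nat_lit 5) (nat_lit 123) (nat_lit 5) (nat_lit 131) (nat_lit 5) (nat_lit 315) (nat_lit 303) (nat_lit 270)) (XT.nd (nat_lit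 94) (nat_lit 0) (nat_lit 84) (XT.lf (nat_lit 0) (nat_lit 328014538) (nat_lit 672) (nat_lit 869363696) (nat_lit 756) (nat_lit 6244956406) (nat_lit 115) (nat_lit 5) (nat_lit 123) (nat_lit 5) (nat_lit 124) (nat_lit 5) (nat_lit 316) (nat_lit 303) (nat_lit 269)) (XT.lf (nat_lit 0) (nat_lit 1734182206) (nat_lit 672) (nat_lit 5537563754) (nat_lit 84) (nat_lit 254313843) (nat_lit 116) (nat_lit 5) (nat_lit 124) (nat_lit 5) (nat_lit 117) (nat_lit 5) (nat_lit 317) (nat_lit 303) (nat_lit 268))))))) (XT.nd (nat_lit 846) (nat_lit 2688) (nat_lit 0) (XT.nd (nat_lit 376) (nat_lit 1680) (nat_lit 0) (XT.nd (nat_lit 188) (nat_lit 0) (nat_lit 0) (XT.nd (nat_lit 94) (nat_lit 672) (nat_lit 0) (XT.lf (nat_lit 0) (nat_lit 3157478044) (nat_lit 672) (nat_lit 2706387944) (nat_lit 84) (nat_lit 1749743718) (nat_lit 116) (nat_lit 5) (nat_lit 124) (nat_lit 5) (nat_lit 117) (nat_lit 5) (nat_lit 318) (nat_lit 303) (nat_lit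 267)) (XT.lf (nat_lit 0) (nat_lit 181953412) (nat_lit 672) (nat_lit 4398310612) (nat_lit 756) (nat_lit 3125389833) (nat_lit 108) (nat_lit 5) (nat_lit 116) (nat_lit 5) (nat_lit 117) (nat_lit 5) (nat_lit 319) (nat_lit 303) (nat_lit 266))) (XT.nd (nat_lit 94) (nat_lit 0) (nat_lit 0) (XT.lf (nat_lit 0) (nat_lit 3183287415) (nat_lit 672) (nat_lit 2846740842) (nat_lit 756) (nat_lit 1771438777) (nat_lit 108) (nat_lit 5) (nat_lit 116) (nat_lit 5) (nat_lit 117) (nat_lit 5) (nat_lit 320) (nat_lit 303) (nat_lit 265)) (XT.lf (nat_lit 0) (nat_lit 6244762735) (nat_lit 672) (nat_lit 1235959591) (nat_lit 756) (nat_lit 421265611) (nat_lit 108) (nat_lit 5) (nat_lit 116) (nat_lit 5) (nat_lit 117) (nat_lit 5) (nat_lit 321) (nat_lit 303) (nat_lit 264)))) (XT.nd (nat_lit 188) (nat_lit 840) (nat_lit 0) (XT.nd (nat_lit 94) (nat_lit 0) (nat_lit 0) (XT.lf (nat_lit 0) (nat_lit 925973334) (nat_lit 840) (nat_lit 6630607636)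 (nat_lit 84) (nat_lit 449878658) (nat_lit 98) (nat_lit 5) (nat_lit 108) (nat_lit 5) (nat_lit 99) (nat_lit 5) (nat_lit 322) (nat_lit 303) (nat_lit 263)) (XT.lf (nat_lit 0) (nat_lit 2293939024) (nat_lit 840) (nat_lit 3627247396) (nat_lit 84) (nat_lit 2193571318) (nat_lit 98) (nat_lit 5) (nat_lit 108) (nat_lit 5) (nat_lit 99) (nat_lit 5) (nat_lit 323) (nat_lit 303) (nat_lit 262))) (XT.nd (nat_lit 94) (nat_lit 840) (nat_lit 0) (XT.lf (nat_lit 0) (nat_lit 3663183721) (nat_lit 840) (nat_lit 564317559) (nat_lit 84) (nat_lit 4000517000) (nat_lit 98) (nat_lit 5) (nat_lit 108) (nat_lit 5) (nat_lit 99) (nat_lit 5) (nat_lit 324) (nat_lit 303) (nat_lit 261)) (XT.nd (nat_lit 94) (nat_lit 0) (nat_lit 0) (XT.lf (nat_lit 0) (nat_lit 2613697016) (nat_lit 840) (nat_lit 2447214886) (nat_lit 924) (nat_lit 3284631151) (nat_lit 88) (nat_lit 5) (nat_lit 98) (nat_lit 5) (nat_lit 99) (nat_lit 5) (nat_lit 325) (nat_lit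 303) (nat_lit 260)) (XT.lf (nat_lit 0) (nat_lit 5869996321) (nat_lit 840) (nat_lit 598852404) (nat_lit 924) (nat_lit 1999199784) (nat_lit 88) (nat_lit 5) (nat_lit 98) (nat_lit 5) (nat_lit 99) (nat_lit 5) (nat_lit 326) (nat_lit 303) (nat_lit 259)))))) (XT.nd (nat_lit 376) (nat_lit 1008) (nat_lit 0) (XT.nd (nat_lit 188) (nat_lit 672) (nat_lit 0) (XT.nd (nat_lit 94) (nat_lit 84) (nat_lit 0) (XT.lf (nat_lit 0) (nat_lit 599229967) (nat_lit 924) (nat_lit 7302337071) (nat_lit 1008) (nat_lit 693670722) (nat_lit 77) (nat_lit 5) (nat_lit 88) (nat_lit 5) (nat_lit 89) (nat_lit 5) (nat_lit 327) (nat_lit 303) (nat_lit 258)) (XT.lf (nat_lit 0) (nat_lit 635084186) (nat_lit 1008) (nat_lit 4821191470) (nat_lit 84) (nat_lit 3270304272) (nat_lit 76) (nat_lit 5) (nat_lit 88) (nat_lit 5) (nat_lit 77) (nat_lit 5) (nat_lit 328) (nat_lit 303) (nat_lit 257))) (XT.nd (nat_lit 94) (nat_lit 672) (nat_lit 0) (XT.lf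 (nat_lit 0) (nat_lit 1954129463) (nat_lit 1008) (nat_lit 1587537437) (nat_lit 84) (nat_lit 5321513072) (nat_lit 76) (nat_lit 5) (nat_lit 88) (nat_lit 5) (nat_lit 77) (nat_lit 5) (nat_lit 329) (nat_lit 303) (nat_lit 256)) (XT.lf (nat_lit 0) (nat_lit 1750110537) (nat_lit 672) (nat_lit 1545921293) (nat_lit 756) (nat_lit 5708808506) (nat_lit 68) (nat_lit 5) (nat_lit 76) (nat_lit 5) (nat_lit 77) (nat_lit 5) (nat_lit 330) (nat_lit 303) (nat_lit 255)))) (XT.nd (nat_lit 188) (nat_lit 1008) (nat_lit 0) (XT.nd (nat_lit 94) (nat_lit 0) (nat_lit 0) (XT.lf (nat_lit 0) (nat_lit 4666743743) (nat_lit 756) (nat_lit 3963301316) (nat_lit 84) (nat_lit 521502253) (nat_lit 68) (nat_lit 5) (nat_lit 77) (nat_lit 5) (nat_lit 69) (nat_lit 5) (nat_lit 331) (nat_lit 303) (nat_lit 254)) (XT.lf (nat_lit 0) (nat_lit 6062193786) (nat_lit 756) (nat_lit 617228603) (nat_lit 84) (nat_lit 2624181077) (nat_lit 68) (nat_lit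 5) (nat_lit 77) (nat_lit 5) (nat_lit 69) (nat_lit 5) (nat_lit 332) (nat_lit 303) (nat_lit 253))) (XT.nd (nat_lit 94) (nat_lit 504) (nat_lit 0) (XT.lf (nat_lit 0) (nat_lit 2859556654) (nat_lit 504) (nat_lit 4637157436) (nat_lit 588) (nat_lit 1964032466) (nat_lit 62) (nat_lit 5) (nat_lit 68) (nat_lit 5) (nat_lit 69) (nat_lit 5) (nat_lit 333) (nat_lit 303) (nat_lit 252)) (XT.nd (nat_lit 94) (nat_lit 504) (nat_lit 0) (XT.lf (nat_lit 0) (nat_lit 6426887868) (nat_lit 504) (nat_lit 2523381526) (nat_lit 588) (nat_lit 673516207) (nat_lit 62) (nat_lit 5) (nat_lit 68) (nat_lit 5) (nat_lit 69) (nat_lit 5) (nat_lit 334) (nat_lit 303) (nat_lit 251)) (XT.lf (nat_lit 0) (nat_lit 281811180) (nat_lit 420) (nat_lit 333293482) (nat_lit 504) (nat_lit 9177682787) (nat_lit 56) (nat_lit 5) (nat_lit 61) (nat_lit 5) (nat_lit 62) (nat_lit 5) (nat_lit 335) (nat_lit 303) (nat_lit 250))))))))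
noncomputable def xc62 : XT := (XT.nd (nat_lit 1598) (nat_lit 1260) (nat_lit 0) (XT.nd (nat_lit 752) (nat_lit 1176) (nat_lit 0) (XT.nd (nat_lit 376) (nat_lit 420) (nat_lit 0) (XT.nd (nat_lit 188) (nat_lit 420) (nat_lit 0) (XT.nd (nat_lit 94) (nat_lit 0) (nat_lit 0) (XT.lf (nat_lit 0) (nat_lit 1951682925) (nat_lit 504) (nat_lit 6087333138) (nat_lit 84) (nat_lit 1927332102) (nat_lit 56) (nat_lit 5) (nat_lit 62) (nat_lit 5) (nat_lit 57) (nat_lit 5) (nat_lit 336) (nat_lit 303) (nat_lit 249)) (XT.lf (nat_lit 0) (nat_lit 3303227277) (nat_lit 504) (nat_lit 2591178231) (nat_lit 84) (nat_lit 4251913155) (nat_lit 56) (nat_lit 5) (nat_lit 62) (nat_lit 5) (nat_lit 57) (nat_lit 5) (nat_lit 337) (nat_lit 303) (nat_lit 248))) (XT.nd (nat_lit 94) (nat_lit 0) (nat_lit 0) (XT.lf (nat_lit 0) (nat_lit 1004287705) (nat_lit 420) (nat_lit 3673366141) (nat_lit 504) (nat_lit 5655006500) (nat_lit 51) (nat_lit 5)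 (nat_lit 56) (nat_lit 5) (nat_lit 57) (nat_lit 5) (nat_lit 338) (nat_lit 303) (nat_lit 247)) (XT.lf (nat_lit 0) (nat_lit 4737137447) (nat_lit 420) (nat_lit 1356202025) (nat_lit 504) (nat_lit 4431677467) (nat_lit 51) (nat_lit 5) (nat_lit 56) (nat_lit 5) (nat_lit 57) (nat_lit 5) (nat_lit 339) (nat_lit 303) (nat_lit 246)))) (XT.nd (nat_lit 188) (nat_lit 84) (nat_lit 0) (XT.nd (nat_lit 94) (nat_lit 336) (nat_lit 0) (XT.lf (nat_lit 0) (nat_lit 7535609921) (nat_lit 504) (nat_lit 2177050061) (nat_lit 84) (nat_lit 1011403563) (nat_lit 51) (nat_lit 5) (nat_lit 57) (nat_lit 5) (nat_lit 52) (nat_lit 5) (nat_lit 340) (nat_lit 303) (nat_lit 245)) (XT.lf (nat_lit 0) (nat_lit 1534463983) (nat_lit 336) (nat_lit 7490500998) (nat_lit 420) (nat_lit 1904426895) (nat_lit 47) (nat_lit 5) (nat_lit 51) (nat_lit 5) (nat_lit 52) (nat_lit 5) (nat_lit 341) (nat_lit 303) (nat_lit 244))) (XT.nd (nat_lit 94) (nat_lit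 84) (nat_lit 0) (XT.lf (nat_lit 0) (nat_lit 5379177384) (nat_lit 336) (nat_lit 5177843513) (nat_lit 420) (nat_lit 584351358) (nat_lit 47) (nat_lit 5) (nat_lit 51) (nat_lit 5) (nat_lit 52) (nat_lit 5) (nat_lit 342) (nat_lit 303) (nat_lit 243)) (XT.lf (nat_lit 0) (nat_lit 735163037) (nat_lit 420) (nat_lit 2052419194) (nat_lit 84) (nat_lit 8573072569) (nat_lit 46) (nat_lit 5) (nat_lit 51) (nat_lit 5) (nat_lit 47) (nat_lit 5) (nat_lit 343) (nat_lit 303) (nat_lit 242))))) (XT.nd (nat_lit 376) (nat_lit 420) (nat_lit 0) (XT.nd (nat_lit 188) (nat_lit 336) (nat_lit 0) (XT.nd (nat_lit 94) (nat_lit 0) (nat_lit 0) (XT.lf (nat_lit 0) (nat_lit 1775117945) (nat_lit 420) (nat_lit 300876514) (nat_lit 504) (nat_lit 9510949937) (nat_lit 41) (nat_lit 5) (nat_lit 46) (nat_lit 5) (nat_lit 47) (nat_lit 5) (nat_lit 344) (nat_lit 303) (nat_lit 241)) (XT.lf (nat_lit 0) (nat_lit 3477889640) (nat_lit 504) (nat_lit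 6105088234) (nat_lit 84) (nat_lit 2236825370) (nat_lit 41) (nat_lit 5) (nat_lit 47) (nat_lit 5) (nat_lit 42) (nat_lit 5) (nat_lit 345) (nat_lit 303) (nat_lit 240))) (XT.nd (nat_lit 94) (nat_lit 336) (nat_lit 0) (XT.lf (nat_lit 0) (nat_lit 4902467689) (nat_lit 504) (nat_lit 2313341663) (nat_lit 84) (nat_lit 4844869352) (nat_lit 41) (nat_lit 5) (nat_lit 47) (nat_lit 5) (nat_lit 42) (nat_lit 5) (nat_lit 346) (nat_lit 303) (nat_lit 239)) (XT.lf (nat_lit 0) (nat_lit 1602213323) (nat_lit 336) (nat_lit 4761752562) (nat_lit 420) (nat_lit 5945429224) (nat_lit 37) (nat_lit 5) (nat_lit 41) (nat_lit 5) (nat_lit 42) (nat_lit 5) (nat_lit 347) (nat_lit 303) (nat_lit 238)))) (XT.nd (nat_lit 188) (nat_lit 420) (nat_lit 0) (XT.nd (nat_lit 94) (nat_lit 0) (nat_lit 0) (XT.lf (nat_lit 0) (nat_lit 5662438784) (nat_lit 336) (nat_lit 2209782528) (nat_lit 420) (nat_lit 4693700255) (nat_lit 37) (nat_lit 5) (nat_lit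 41) (nat_lit 5) (nat_lit 42) (nat_lit 5) (nat_lit 348) (nat_lit 303) (nat_lit 237)) (XT.lf (nat_lit 0) (nat_lit 9409369231) (nat_lit 420) (nat_lit 3011820914) (nat_lit 84) (nat_lit 409904432) (nat_lit 37) (nat_lit 5) (nat_lit 42) (nat_lit 5) (nat_lit 38) (nat_lit 5) (nat_lit 349) (nat_lit 303) (nat_lit 236))) (XT.nd (nat_lit 94) (nat_lit 84) (nat_lit 0) (XT.lf (nat_lit 0) (nat_lit 972477301) (nat_lit 336) (nat_lit 10032559424) (nat_lit 420) (nat_lit 2099250559) (nat_lit 33) (nat_lit 5) (nat_lit 37) (nat_lit 5) (nat_lit 38) (nat_lit 5) (nat_lit 350) (nat_lit 303) (nat_lit 235)) (XT.nd (nat_lit 94) (nat_lit 84) (nat_lit 0) (XT.lf (nat_lit 0) (nat_lit 5119393317) (nat_lit 336) (nat_lit 7541231230) (nat_lit 420) (nat_lit 725132471) (nat_lit 33) (nat_lit 5) (nat_lit 37) (nat_lit 5) (nat_lit 38) (nat_lit 5) (nat_lit 351) (nat_lit 303) (nat_lit 234)) (XT.lf (nat_lit 0) (nat_lit 656963980) (nat_lit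 420) (nat_lit 4312499281) (nat_lit 84) (nat_lit 8707041939) (nat_lit 32) (nat_lit 5) (nat_lit 37) (nat_lit 5) (nat_lit 33) (nat_lit 5) (nat_lit 352) (nat_lit 303) (nat_lit 233))))))) (XT.nd (nat_lit 752) (nat_lit 756) (nat_lit 0) (XT.nd (nat_lit 376) (nat_lit 252) (nat_lit 0) (XT.nd (nat_lit 188) (nat_lit 0) (nat_lit 0) (XT.nd (nat_lit 94) (nat_lit 252) (nat_lit 0) (XT.lf (nat_lit 0) (nat_lit 2046779246) (nat_lit 420) (nat_lit 267293400) (nat_lit 84) (nat_lit 11662706570) (nat_lit 32) (nat_lit 5) (nat_lit 37) (nat_lit 5) (nat_lit 33) (nat_lit 5) (nat_lit 353) (nat_lit 303) (nat_lit 232)) (XT.lf (nat_lit 0) (nat_lit 3504070530) (nat_lit 336) (nat_lit 10330429237) (nat_lit 84) (nat_lit 451222770) (nat_lit 29) (nat_lit 5) (nat_lit 33) (nat_lit 5) (nat_lit 30) (nat_lit 5) (nat_lit 354) (nat_lit 303) (nat_lit 231))) (XT.nd (nat_lit 94) (nat_lit 0) (nat_lit 0) (XT.lf (nat_lit 0) (nat_lit 5013884721)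 (nat_lit 336) (nat_lit 6336936426) (nat_lit 84) (nat_lit 3253307638) (nat_lit 29) (nat_lit 5) (nat_lit 33) (nat_lit 5) (nat_lit 30) (nat_lit 5) (nat_lit 355) (nat_lit 303) (nat_lit 230)) (XT.lf (nat_lit 0) (nat_lit 6551939454) (nat_lit 336) (nat_lit 2242468256) (nat_lit 84) (nat_lit 6138683418) (nat_lit 29) (nat_lit 5) (nat_lit 33) (nat_lit 5) (nat_lit 30) (nat_lit 5) (nat_lit 356) (nat_lit 303) (nat_lit 229)))) (XT.nd (nat_lit 188) (nat_lit 0) (nat_lit 0) (XT.nd (nat_lit 94) (nat_lit 0) (nat_lit 0) (XT.lf (nat_lit 0) (nat_lit 1997027396) (nat_lit 252) (nat_lit 6142451720) (nat_lit 336) (nat_lit 7132822945) (nat_lit 26) (nat_lit 5) (nat_lit 29) (nat_lit 5) (nat_lit 30) (nat_lit 5) (nat_lit 357) (nat_lit 303) (nat_lit 228)) (XT.lf (nat_lit 0) (nat_lit 6393573997) (nat_lit 252) (nat_lit 3388383768) (nat_lit 336) (nat_lit 5839996796) (nat_lit 26) (nat_lit 5) (nat_lit 29) (nat_lit 5) (nat_lit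 30) (nat_lit 5) (nat_lit 358) (nat_lit 303) (nat_lit 227))) (XT.nd (nat_lit 94) (nat_lit 0) (nat_lit 0) (XT.lf (nat_lit 0) (nat_lit 10905159839) (nat_lit 252) (nat_lit 553043545) (nat_lit 336) (nat_lit 4524874947) (nat_lit 26) (nat_lit 5) (nat_lit 29) (nat_lit 5) (nat_lit 30) (nat_lit 5) (nat_lit 359) (nat_lit 303) (nat_lit 226)) (XT.lf (nat_lit 0) (nat_lit 13193251525) (nat_lit 336) (nat_lit 843492897) (nat_lit 84) (nat_lit 2318537890) (nat_lit 26) (nat_lit 5) (nat_lit 30) (nat_lit 5) (nat_lit 27) (nat_lit 5) (nat_lit 360) (nat_lit 303) (nat_lit 225))))) (XT.nd (nat_lit 376) (nat_lit 420) (nat_lit 0) (XT.nd (nat_lit 188) (nat_lit 84) (nat_lit 0) (XT.nd (nat_lit 94) (nat_lit 0) (nat_lit 0) (XT.lf (nat_lit 0) (nat_lit 3567877215) (nat_lit 252) (nat_lit 11439086709) (nat_lit 336) (nat_lit 1731383930) (nat_lit 23) (nat_lit 5) (nat_lit 26) (nat_lit 5) (nat_lit 27) (nat_lit 5) (nat_lit 361)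 (nat_lit 303) (nat_lit 224)) (XT.lf (nat_lit 0) (nat_lit 8113538352) (nat_lit 252) (nat_lit 8756279504) (nat_lit 336) (nat_lit 263781774) (nat_lit 23) (nat_lit 5) (nat_lit 26) (nat_lit 5) (nat_lit 27) (nat_lit 5) (nat_lit 362) (nat_lit 303) (nat_lit 223))) (XT.nd (nat_lit 94) (nat_lit 0) (nat_lit 0) (XT.lf (nat_lit 0) (nat_lit 1208490265) (nat_lit 336) (nat_lit 4773522061) (nat_lit 84) (nat_lit 11559279177) (nat_lit 22) (nat_lit 5) (nat_lit 26) (nat_lit 5) (nat_lit 23) (nat_lit 5) (nat_lit 363) (nat_lit 303) (nat_lit 222)) (XT.lf (nat_lit 0) (nat_lit 2705739230) (nat_lit 336) (nat_lit 417571905) (nat_lit 84) (nat_lit 14838781356) (nat_lit 22) (nat_lit 5) (nat_lit 26) (nat_lit 5) (nat_lit 23) (nat_lit 5) (nat_lit 364) (nat_lit 303) (nat_lit 221)))) (XT.nd (nat_lit 188) (nat_lit 168) (nat_lit 0) (XT.nd (nat_lit 94) (nat_lit 0) (nat_lit 0) (XT.lf (nat_lit 0) (nat_lit 4137834277) (nat_lit 252)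 (nat_lit 137888879) (nat_lit 336) (nat_lit 14119480305) (nat_lit 19) (nat_lit 5) (nat_lit 22) (nat_lit 5) (nat_lit 23) (nat_lit 5) (nat_lit 365) (nat_lit 303) (nat_lit 220)) (XT.lf (nat_lit 0) (nat_lit 5913432425) (nat_lit 336) (nat_lit 10046745441) (nat_lit 84) (nat_lit 2881050916) (nat_lit 19) (nat_lit 5) (nat_lit 23) (nat_lit 5) (nat_lit 20) (nat_lit 5) (nat_lit 366) (nat_lit 303) (nat_lit 219))) (XT.nd (nat_lit 94) (nat_lit 168) (nat_lit 0) (XT.lf (nat_lit 0) (nat_lit 7589244041) (nat_lit 336) (nat_lit 5725663640) (nat_lit 84) (nat_lit 5986642152) (nat_lit 19) (nat_lit 5) (nat_lit 23) (nat_lit 5) (nat_lit 20) (nat_lit 5) (nat_lit 367) (nat_lit 303) (nat_lit 218)) (XT.nd (nat_lit 94) (nat_lit 168) (nat_lit 0) (XT.lf (nat_lit 0) (nat_lit 9303352160) (nat_lit 336) (nat_lit 1288728205) (nat_lit 84) (nat_lit 9184557718) (nat_lit 19) (nat_lit 5) (nat_lit 23) (nat_lit 5) (nat_lit 20) (nat_lit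 5) (nat_lit 368) (nat_lit 303) (nat_lit 217)) (XT.lf (nat_lit 0) (nat_lit 3335397374) (nat_lit 168) (nat_lit 7755044691) (nat_lit 252) (nat_lit 9175468585) (nat_lit 17) (nat_lit 5) (nat_lit 19) (nat_lit 5) (nat_lit 20) (nat_lit 5) (nat_lit 369) (nat_lit 303) (nat_lit 216))))))))
noncomputable def xc63 : XT := (XT.nd (nat_lit 50666) (nat_lit 0) (nat_lit 3948) (XT.nd (nat_lit 49820) (nat_lit 0) (nat_lit 8988) (XT.nd (nat_lit 376) (nat_lit 0) (nat_lit 0) (XT.nd (nat_lit 188) (nat_lit 168) (nat_lit 0) (XT.nd (nat_lit 94) (nat_lit 0) (nat_lit 0) (XT.lf (nat_lit 0) (nat_lit 8112813267) (nat_lit 168) (nat_lit 4820552852) (nat_lit 252) (nat_lit 7837040684) (nat_lit 17) (nat_lit 5) (nat_lit 19) (nat_lit 5) (nat_lit 20) (nat_lit 5) (nat_lit 370) (nat_lit 303) (nat_lit 215)) (XT.lf (nat_lit 0) (nat_lit 13021473630) (nat_lit 168) (nat_lit 1799321274) (nat_lit 252) (nat_lit 6470206346) (nat_lit 17)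 (nat_lit 5) (nat_lit 19) (nat_lit 5) (nat_lit 20) (nat_lit 5) (nat_lit 371) (nat_lit 303) (nat_lit 214))) (XT.nd (nat_lit 94) (nat_lit 168) (nat_lit 0) (XT.lf (nat_lit 0) (nat_lit 16767497608) (nat_lit 252) (nat_lit 3775235297) (nat_lit 84) (nat_lit 1285043026) (nat_lit 17) (nat_lit 5) (nat_lit 20) (nat_lit 5) (nat_lit 18) (nat_lit 5) (nat_lit 372) (nat_lit 303) (nat_lit 213)) (XT.lf (nat_lit 0) (nat_lit 840665495) (nat_lit 168) (nat_lit 17948707398) (nat_lit 252) (nat_lit 3591421676) (nat_lit 15) (nat_lit 5) (nat_lit 17) (nat_lit 5) (nat_lit 18) (nat_lit 5) (nat_lit 373) (nat_lit 303) (nat_lit 212)))) (XT.nd (nat_lit 49256) (nat_lit 0) (nat_lit 9492) (XT.nd (nat_lit 49162) (nat_lit 0) (nat_lit 10080) (XT.lf (nat_lit 0) (nat_lit 5663607421) (nat_lit 168) (nat_lit 15238005844) (nat_lit 252) (nat_lit 2048546824) (nat_lit 15) (nat_lit 5) (nat_lit 17) (nat_lit 5) (nat_lit 18) (nat_lit 5) (nat_lit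 374) (nat_lit 303) (nat_lit 211)) (XT.lf (nat_lit 0) (nat_lit 1175748037) (nat_lit 0) (nat_lit 1175748037) (nat_lit 420) (nat_lit 1030723893) (nat_lit 135) (nat_lit 5) (nat_lit 135) (nat_lit 3) (nat_lit 140) (nat_lit 3) (nat_lit 304) (nat_lit 304) (nat_lit 280))) (XT.nd (nat_lit 94) (nat_lit 588) (nat_lit 0) (XT.lf (nat_lit 0) (nat_lit 4750862363) (nat_lit 0) (nat_lit 1563666927) (nat_lit 420) (nat_lit 491502424) (nat_lit 135) (nat_lit 5) (nat_lit 135) (nat_lit 3) (nat_lit 140) (nat_lit 3) (nat_lit 305) (nat_lit 304) (nat_lit 279)) (XT.lf (nat_lit 84) (nat_lit 338424766) (nat_lit 0) (nat_lit 706086096) (nat_lit 588) (nat_lit 5806520115) (nat_lit 129) (nat_lit 5) (nat_lit 128) (nat_lit 3) (nat_lit 135) (nat_lit 5) (nat_lit 306) (nat_lit 304) (nat_lit 278))))) (XT.nd (nat_lit 376) (nat_lit 0) (nat_lit 0) (XT.nd (nat_lit 188) (nat_lit 588) (nat_lit 0) (XT.nd (nat_lit 94) (nat_lit 0) (nat_lit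 0) (XT.lf (nat_lit 0) (nat_lit 2579987038) (nat_lit 504) (nat_lit 4089350167) (nat_lit 588) (nat_lit 229698269) (nat_lit 129) (nat_lit 5) (nat_lit 135) (nat_lit 5) (nat_lit 136) (nat_lit 5) (nat_lit 307) (nat_lit 304) (nat_lit 277)) (XT.lf (nat_lit 0) (nat_lit 4110748599) (nat_lit 504) (nat_lit 1632497283) (nat_lit 588) (nat_lit 1207476067) (nat_lit 129) (nat_lit 5) (nat_lit 135) (nat_lit 5) (nat_lit 136) (nat_lit 5) (nat_lit 308) (nat_lit 304) (nat_lit 276))) (XT.nd (nat_lit 94) (nat_lit 588) (nat_lit 0) (XT.lf (nat_lit 84) (nat_lit 885079319) (nat_lit 0) (nat_lit 4754918692) (nat_lit 588) (nat_lit 1366085526) (nat_lit 130) (nat_lit 5) (nat_lit 129) (nat_lit 5) (nat_lit 136) (nat_lit 5) (nat_lit 309) (nat_lit 304) (nat_lit 275)) (XT.lf (nat_lit 0) (nat_lit 110174664) (nat_lit 588) (nat_lit 3583658521) (nat_lit 672) (nat_lit 3371049965) (nat_lit 122) (nat_lit 5) (nat_lit 129) (nat_lit 5)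 (nat_lit 130) (nat_lit 5) (nat_lit 310) (nat_lit 304) (nat_lit 274)))) (XT.nd (nat_lit 188) (nat_lit 0) (nat_lit 0) (XT.nd (nat_lit 94) (nat_lit 0) (nat_lit 0) (XT.lf (nat_lit 0) (nat_lit 1548109383) (nat_lit 588) (nat_lit 1015222839) (nat_lit 672) (nat_lit 4563973626) (nat_lit 122) (nat_lit 5) (nat_lit 129) (nat_lit 5) (nat_lit 130) (nat_lit 5) (nat_lit 311) (nat_lit 304) (nat_lit 273)) (XT.lf (nat_lit 84) (nat_lit 1633153011) (nat_lit 0) (nat_lit 1359630585) (nat_lit 672) (nat_lit 4200544089) (nat_lit 123) (nat_lit 5) (nat_lit 122) (nat_lit 5) (nat_lit 130) (nat_lit 5) (nat_lit 312) (nat_lit 304) (nat_lit 272))) (XT.nd (nat_lit 94) (nat_lit 0) (nat_lit 84) (XT.lf (nat_lit 84) (nat_lit 4352894875) (nat_lit 0) (nat_lit 87211932) (nat_lit 672) (nat_lit 2823071944) (nat_lit 123) (nat_lit 5) (nat_lit 122) (nat_lit 5) (nat_lit 130) (nat_lit 5) (nat_lit 313) (nat_lit 304) (nat_lit 271)) (XT.nd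 (nat_lit 94) (nat_lit 0) (nat_lit 0) (XT.lf (nat_lit 0) (nat_lit 5893495573) (nat_lit 588) (nat_lit 223925730) (nat_lit 672) (nat_lit 1219438757) (nat_lit 123) (nat_lit 5) (nat_lit 130) (nat_lit 5) (nat_lit 131) (nat_lit 5) (nat_lit 314) (nat_lit 304) (nat_lit 270)) (XT.lf (nat_lit 84) (nat_lit 2563953110) (nat_lit 0) (nat_lit 4804894790) (nat_lit 672) (nat_lit 45141552) (nat_lit 124) (nat_lit 5) (nat_lit 123) (nat_lit 5) (nat_lit 131) (nat_lit 5) (nat_lit 315) (nat_lit 304) (nat_lit 269))))))) (XT.nd (nat_lit 846) (nat_lit 3024) (nat_lit 0) (XT.nd (nat_lit 376) (nat_lit 1428) (nat_lit 0) (XT.nd (nat_lit 188) (nat_lit 0) (nat_lit 0) (XT.nd (nat_lit 94) (nat_lit 0) (nat_lit 0) (XT.lf (nat_lit 0) (nat_lit 1321481600) (nat_lit 672) (nat_lit 2097936476) (nat_lit 756) (nat_lit 4075535029) (nat_lit 115) (nat_lit 5) (nat_lit 123) (nat_lit 5) (nat_lit 124) (nat_lit 5) (nat_lit 316) (nat_lit 304)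 (nat_lit 268)) (XT.lf (nat_lit 84) (nat_lit 720927171) (nat_lit 0) (nat_lit 1968064312) (nat_lit 756) (nat_lit 4891086509) (nat_lit 116) (nat_lit 5) (nat_lit 115) (nat_lit 5) (nat_lit 124) (nat_lit 5) (nat_lit 317) (nat_lit 304) (nat_lit 267))) (XT.nd (nat_lit 94) (nat_lit 0) (nat_lit 84) (XT.lf (nat_lit 84) (nat_lit 3639366238) (nat_lit 0) (nat_lit 434847259) (nat_lit 756) (nat_lit 3594789963) (nat_lit 116) (nat_lit 5) (nat_lit 115) (nat_lit 5) (nat_lit 124) (nat_lit 5) (nat_lit 318) (nat_lit 304) (nat_lit 266)) (XT.lf (nat_lit 0) (nat_lit 5468704096) (nat_lit 672) (nat_lit 1157012695) (nat_lit 84) (nat_lit 1136397384) (nat_lit 116) (nat_lit 5) (nat_lit 124) (nat_lit 5) (nat_lit 117) (nat_lit 5) (nat_lit 319) (nat_lit 304) (nat_lit 265)))) (XT.nd (nat_lit 188) (nat_lit 756) (nat_lit 0) (XT.nd (nat_lit 94) (nat_lit 84) (nat_lit 0) (XT.lf (nat_lit 0) (nat_lit 1804331818) (nat_lit 672) (nat_lit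 5080752262) (nat_lit 756) (nat_lit 974061896) (nat_lit 108) (nat_lit 5) (nat_lit 116) (nat_lit 5) (nat_lit 117) (nat_lit 5) (nat_lit 320) (nat_lit 304) (nat_lit 264)) (XT.lf (nat_lit 0) (nat_lit 347124946) (nat_lit 756) (nat_lit 3113915711) (nat_lit 84) (nat_lit 4499347051) (nat_lit 107) (nat_lit 5) (nat_lit 116) (nat_lit 5) (nat_lit 108) (nat_lit 5) (nat_lit 321) (nat_lit 304) (nat_lit 263))) (XT.nd (nat_lit 94) (nat_lit 756) (nat_lit 0) (XT.lf (nat_lit 0) (nat_lit 1646861697) (nat_lit 756) (nat_lit 123970719) (nat_lit 84) (nat_lit 6295274523) (nat_lit 107) (nat_lit 5) (nat_lit 116) (nat_lit 5) (nat_lit 108) (nat_lit 5) (nat_lit 322) (nat_lit 304) (nat_lit 262)) (XT.nd (nat_lit 94) (nat_lit 0) (nat_lit 0) (XT.lf (nat_lit 0) (nat_lit 2975742492) (nat_lit 840) (nat_lit 5188237064) (nat_lit 84) (nat_lit 11799716) (nat_lit 98) (nat_lit 5) (nat_lit 108) (nat_lit 5) (nat_lit 99) (nat_lit 5)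 (nat_lit 323) (nat_lit 304) (nat_lit 261)) (XT.lf (nat_lit 0) (nat_lit 4325345979) (nat_lit 840) (nat_lit 2141322125) (nat_lit 84) (nat_lit 1823138293) (nat_lit 98) (nat_lit 5) (nat_lit 108) (nat_lit 5) (nat_lit 99) (nat_lit 5) (nat_lit 324) (nat_lit 304) (nat_lit 260)))))) (XT.nd (nat_lit 376) (nat_lit 1176) (nat_lit 0) (XT.nd (nat_lit 188) (nat_lit 1008) (nat_lit 0) (XT.nd (nat_lit 94) (nat_lit 0) (nat_lit 0) (XT.lf (nat_lit 0) (nat_lit 988413241) (nat_lit 840) (nat_lit 4699487262) (nat_lit 924) (nat_lit 2720674013) (nat_lit 88) (nat_lit 5) (nat_lit 98) (nat_lit 5) (nat_lit 99) (nat_lit 5) (nat_lit 325) (nat_lit 304) (nat_lit 259)) (XT.lf (nat_lit 0) (nat_lit 4229336444) (nat_lit 840) (nat_lit 2847870520) (nat_lit 924) (nat_lit 1454598911) (nat_lit 88) (nat_lit 5) (nat_lit 98) (nat_lit 5) (nat_lit 99) (nat_lit 5) (nat_lit 326) (nat_lit 304) (nat_lit 258))) (XT.nd (nat_lit 94) (nat_lit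 1008) (nat_lit 0) (XT.lf (nat_lit 0) (nat_lit 7540438390) (nat_lit 840) (nat_lit 932442990) (nat_lit 924) (nat_lit 187406009) (nat_lit 88) (nat_lit 5) (nat_lit 98) (nat_lit 5) (nat_lit 99) (nat_lit 5) (nat_lit 327) (nat_lit 304) (nat_lit 257)) (XT.lf (nat_lit 0) (nat_lit 1092477987) (nat_lit 1008) (nat_lit 6640349781) (nat_lit 84) (nat_lit 1059980274) (nat_lit 76) (nat_lit 5) (nat_lit 88) (nat_lit 5) (nat_lit 77) (nat_lit 5) (nat_lit 328) (nat_lit 304) (nat_lit 256)))) (XT.nd (nat_lit 188) (nat_lit 1176) (nat_lit 0) (XT.nd (nat_lit 94) (nat_lit 0) (nat_lit 0) (XT.lf (nat_lit 0) (nat_lit 2394096073) (nat_lit 1008) (nat_lit 3422210352) (nat_lit 84) (nat_lit 3113773213) (nat_lit 76) (nat_lit 5) (nat_lit 88) (nat_lit 5) (nat_lit 77) (nat_lit 5) (nat_lit 329) (nat_lit 304) (nat_lit 255)) (XT.lf (nat_lit 0) (nat_lit 3701733933) (nat_lit 1008) (nat_lit 134871316) (nat_lit 84) (nat_lit 5236324311)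 (nat_lit 76) (nat_lit 5) (nat_lit 88) (nat_lit 5) (nat_lit 77) (nat_lit 5) (nat_lit 330) (nat_lit 304) (nat_lit 254))) (XT.nd (nat_lit 94) (nat_lit 504) (nat_lit 0) (XT.lf (nat_lit 0) (nat_lit 3291038561) (nat_lit 672) (nat_lit 1758219374) (nat_lit 756) (nat_lit 4171220957) (nat_lit 68) (nat_lit 5) (nat_lit 76) (nat_lit 5) (nat_lit 77) (nat_lit 5) (nat_lit 331) (nat_lit 304) (nat_lit 253)) (XT.nd (nat_lit 94) (nat_lit 504) (nat_lit 0) (XT.lf (nat_lit 0) (nat_lit 6411236758) (nat_lit 756) (nat_lit 2581006811) (nat_lit 84) (nat_lit 381448900) (nat_lit 68) (nat_lit 5) (nat_lit 77) (nat_lit 5) (nat_lit 69) (nat_lit 5) (nat_lit 332) (nat_lit 304) (nat_lit 252)) (XT.lf (nat_lit 0) (nat_lit 840470872) (nat_lit 504) (nat_lit 6969709117) (nat_lit 588) (nat_lit 1721874675) (nat_lit 62) (nat_lit 5) (nat_lit 68) (nat_lit 5) (nat_lit 69) (nat_lit 5) (nat_lit 333) (nat_lit 304) (nat_lit 251))))))))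
noncomputable def xc64 : XT := (XT.nd (nat_lit 1598) (nat_lit 1512) (nat_lit 0) (XT.nd (nat_lit 752) (nat_lit 1176) (nat_lit 0) (XT.nd (nat_lit 376) (nat_lit 420) (nat_lit 0) (XT.nd (nat_lit 188) (nat_lit 420) (nat_lit 0) (XT.nd (nat_lit 94) (nat_lit 84) (nat_lit 0) (XT.lf (nat_lit 0) (nat_lit 4393322681) (nat_lit 504) (nat_lit 4855188960) (nat_lit 588) (nat_lit 447166719) (nat_lit 62) (nat_lit 5) (nat_lit 68) (nat_lit 5) (nat_lit 69) (nat_lit 5) (nat_lit 334) (nat_lit 304) (nat_lit 250)) (XT.lf (nat_lit 0) (nat_lit 819074057) (nat_lit 588) (nat_lit 1846029054) (nat_lit 84) (nat_lit 7200165943) (nat_lit 61) (nat_lit 5) (nat_lit 68) (nat_lit 5) (nat_lit 62) (nat_lit 5) (nat_lit 335) (nat_lit 304) (nat_lit 249))) (XT.nd (nat_lit 94) (nat_lit 0) (nat_lit 0) (XT.lf (nat_lit 0) (nat_lit 1719021420) (nat_lit 420) (nat_lit 383714708) (nat_lit 504) (nat_lit 7937836897) (nat_lit 56) (nat_lit 5)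 (nat_lit 61) (nat_lit 5) (nat_lit 62) (nat_lit 5) (nat_lit 336) (nat_lit 304) (nat_lit 248)) (XT.lf (nat_lit 0) (nat_lit 3436205980) (nat_lit 504) (nat_lit 4836018527) (nat_lit 84) (nat_lit 1948979086) (nat_lit 56) (nat_lit 5) (nat_lit 62) (nat_lit 5) (nat_lit 57) (nat_lit 5) (nat_lit 337) (nat_lit 304) (nat_lit 247)))) (XT.nd (nat_lit 188) (nat_lit 0) (nat_lit 0) (XT.nd (nat_lit 94) (nat_lit 420) (nat_lit 0) (XT.lf (nat_lit 0) (nat_lit 4786830896) (nat_lit 504) (nat_lit 1274781246) (nat_lit 84) (nat_lit 4346767747) (nat_lit 56) (nat_lit 5) (nat_lit 62) (nat_lit 5) (nat_lit 57) (nat_lit 5) (nat_lit 338) (nat_lit 304) (nat_lit 246)) (XT.lf (nat_lit 0) (nat_lit 2418003562) (nat_lit 420) (nat_lit 3758046636) (nat_lit 504) (nat_lit 4425600592) (nat_lit 51) (nat_lit 5) (nat_lit 56) (nat_lit 5) (nat_lit 57) (nat_lit 5) (nat_lit 339) (nat_lit 304) (nat_lit 245))) (XT.nd (nat_lit 94) (nat_lit 0)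 (nat_lit 0) (XT.lf (nat_lit 0) (nat_lit 6225000288) (nat_lit 420) (nat_lit 1369928229) (nat_lit 504) (nat_lit 3206585066) (nat_lit 51) (nat_lit 5) (nat_lit 56) (nat_lit 5) (nat_lit 57) (nat_lit 5) (nat_lit 340) (nat_lit 304) (nat_lit 244)) (XT.lf (nat_lit 0) (nat_lit 9042711812) (nat_lit 504) (nat_lit 895838746) (nat_lit 84) (nat_lit 1069668375) (nat_lit 51) (nat_lit 5) (nat_lit 57) (nat_lit 5) (nat_lit 52) (nat_lit 5) (nat_lit 341) (nat_lit 304) (nat_lit 243))))) (XT.nd (nat_lit 376) (nat_lit 336) (nat_lit 0) (XT.nd (nat_lit 188) (nat_lit 420) (nat_lit 0) (XT.nd (nat_lit 94) (nat_lit 84) (nat_lit 0) (XT.lf (nat_lit 0) (nat_lit 2917077858) (nat_lit 336) (nat_lit 7636111434) (nat_lit 420) (nat_lit 667764590) (nat_lit 47) (nat_lit 5) (nat_lit 51) (nat_lit 5) (nat_lit 52) (nat_lit 5) (nat_lit 342) (nat_lit 304) (nat_lit 242)) (XT.lf (nat_lit 0) (nat_lit 641092160) (nat_lit 420) (nat_lit 4606581452)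 (nat_lit 84) (nat_lit 6193051518) (nat_lit 46) (nat_lit 5) (nat_lit 51) (nat_lit 5) (nat_lit 47) (nat_lit 5) (nat_lit 343) (nat_lit 304) (nat_lit 241))) (XT.nd (nat_lit 94) (nat_lit 420) (nat_lit 0) (XT.lf (nat_lit 0) (nat_lit 1952346941) (nat_lit 420) (nat_lit 827717397) (nat_lit 84) (nat_lit 8887945408) (nat_lit 46) (nat_lit 5) (nat_lit 51) (nat_lit 5) (nat_lit 47) (nat_lit 5) (nat_lit 344) (nat_lit 304) (nat_lit 240)) (XT.lf (nat_lit 0) (nat_lit 3105430241) (nat_lit 420) (nat_lit 206051959) (nat_lit 504) (nat_lit 8590787745) (nat_lit 41) (nat_lit 5) (nat_lit 46) (nat_lit 5) (nat_lit 47) (nat_lit 5) (nat_lit 345) (nat_lit 304) (nat_lit 239)))) (XT.nd (nat_lit 188) (nat_lit 336) (nat_lit 0) (XT.nd (nat_lit 94) (nat_lit 0) (nat_lit 0) (XT.lf (nat_lit 0) (nat_lit 4722624791) (nat_lit 504) (nat_lit 5015858898) (nat_lit 84) (nat_lit 2405151731) (nat_lit 41) (nat_lit 5) (nat_lit 47) (nat_lit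 5) (nat_lit 42) (nat_lit 5) (nat_lit 346) (nat_lit 304) (nat_lit 238)) (XT.lf (nat_lit 0) (nat_lit 6157179951) (nat_lit 504) (nat_lit 1145009599) (nat_lit 84) (nat_lit 5091068813) (nat_lit 41) (nat_lit 5) (nat_lit 47) (nat_lit 5) (nat_lit 42) (nat_lit 5) (nat_lit 347) (nat_lit 304) (nat_lit 237))) (XT.nd (nat_lit 94) (nat_lit 0) (nat_lit 0) (XT.lf (nat_lit 0) (nat_lit 2879373243) (nat_lit 336) (nat_lit 4763631270) (nat_lit 420) (nat_lit 5007544826) (nat_lit 37) (nat_lit 5) (nat_lit 41) (nat_lit 5) (nat_lit 42) (nat_lit 5) (nat_lit 348) (nat_lit 304) (nat_lit 236)) (XT.nd (nat_lit 94) (nat_lit 0) (nat_lit 0) (XT.lf (nat_lit 0) (nat_lit 7028557613) (nat_lit 336) (nat_lit 2136932129) (nat_lit 420) (nat_lit 3750754231) (nat_lit 37) (nat_lit 5) (nat_lit 41) (nat_lit 5) (nat_lit 42) (nat_lit 5) (nat_lit 349) (nat_lit 304) (nat_lit 235)) (XT.lf (nat_lit 0) (nat_lit 10720101205) (nat_lit 420) (nat_lit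 1913720686) (nat_lit 84) (nat_lit 556952591) (nat_lit 37) (nat_lit 5) (nat_lit 42) (nat_lit 5) (nat_lit 38) (nat_lit 5) (nat_lit 350) (nat_lit 304) (nat_lit 234))))))) (XT.nd (nat_lit 752) (nat_lit 588) (nat_lit 0) (XT.nd (nat_lit 376) (nat_lit 252) (nat_lit 0) (XT.nd (nat_lit 188) (nat_lit 252) (nat_lit 0) (XT.nd (nat_lit 94) (nat_lit 84) (nat_lit 0) (XT.lf (nat_lit 0) (nat_lit 2182028245) (nat_lit 336) (nat_lit 10164265548) (nat_lit 420) (nat_lit 1126924782) (nat_lit 33) (nat_lit 5) (nat_lit 37) (nat_lit 5) (nat_lit 38) (nat_lit 5) (nat_lit 351) (nat_lit 304) (nat_lit 233)) (XT.lf (nat_lit 0) (nat_lit 253388273) (nat_lit 420) (nat_lit 7345064323) (nat_lit 84) (nat_lit 6166003329) (nat_lit 32) (nat_lit 5) (nat_lit 37) (nat_lit 5) (nat_lit 33) (nat_lit 5) (nat_lit 352) (nat_lit 304) (nat_lit 232))) (XT.nd (nat_lit 94) (nat_lit 252) (nat_lit 0) (XT.lf (nat_lit 0) (nat_lit 1633621952) (nat_lit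 420) (nat_lit 3311230160) (nat_lit 84) (nat_lit 9120232442) (nat_lit 32) (nat_lit 5) (nat_lit 37) (nat_lit 5) (nat_lit 33) (nat_lit 5) (nat_lit 353) (nat_lit 304) (nat_lit 231)) (XT.lf (nat_lit 0) (nat_lit 842220206) (nat_lit 252) (nat_lit 2203902523) (nat_lit 336) (nat_lit 11329349504) (nat_lit 29) (nat_lit 5) (nat_lit 32) (nat_lit 5) (nat_lit 33) (nat_lit 5) (nat_lit 354) (nat_lit 304) (nat_lit 230)))) (XT.nd (nat_lit 188) (nat_lit 252) (nat_lit 0) (XT.nd (nat_lit 94) (nat_lit 0) (nat_lit 0) (XT.lf (nat_lit 0) (nat_lit 4524933759) (nat_lit 336) (nat_lit 9529133512) (nat_lit 84) (nat_lit 640826483) (nat_lit 29) (nat_lit 5) (nat_lit 33) (nat_lit 5) (nat_lit 30) (nat_lit 5) (nat_lit 355) (nat_lit 304) (nat_lit 229)) (XT.lf (nat_lit 0) (nat_lit 6054123142) (nat_lit 336) (nat_lit 5445564742) (nat_lit 84) (nat_lit 3524495584) (nat_lit 29) (nat_lit 5) (nat_lit 33) (nat_lit 5) (nat_lit 30) (nat_lit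 5) (nat_lit 356) (nat_lit 304) (nat_lit 228))) (XT.nd (nat_lit 94) (nat_lit 252) (nat_lit 0) (XT.lf (nat_lit 0) (nat_lit 7613253258) (nat_lit 336) (nat_lit 1256876418) (nat_lit 84) (nat_lit 6494196386) (nat_lit 29) (nat_lit 5) (nat_lit 33) (nat_lit 5) (nat_lit 30) (nat_lit 5) (nat_lit 357) (nat_lit 304) (nat_lit 227)) (XT.lf (nat_lit 0) (nat_lit 3103361575) (nat_lit 252) (nat_lit 6131201535) (nat_lit 336) (nat_lit 6480121117) (nat_lit 26) (nat_lit 5) (nat_lit 29) (nat_lit 5) (nat_lit 30) (nat_lit 5) (nat_lit 358) (nat_lit 304) (nat_lit 226))))) (XT.nd (nat_lit 376) (nat_lit 336) (nat_lit 0) (XT.nd (nat_lit 188) (nat_lit 252) (nat_lit 0) (XT.nd (nat_lit 94) (nat_lit 0) (nat_lit 0) (XT.lf (nat_lit 0) (nat_lit 7604797418) (nat_lit 252) (nat_lit 3297821155) (nat_lit 336) (nat_lit 5173491265) (nat_lit 26) (nat_lit 5) (nat_lit 29) (nat_lit 5) (nat_lit 30) (nat_lit 5) (nat_lit 359) (nat_lit 304)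 (nat_lit 225)) (XT.lf (nat_lit 0) (nat_lit 12225782964) (nat_lit 252) (nat_lit 380466740) (nat_lit 336) (nat_lit 3843084547) (nat_lit 26) (nat_lit 5) (nat_lit 29) (nat_lit 5) (nat_lit 30) (nat_lit 5) (nat_lit 360) (nat_lit 304) (nat_lit 224))) (XT.nd (nat_lit 94) (nat_lit 0) (nat_lit 0) (XT.lf (nat_lit 0) (nat_lit 112153500) (nat_lit 252) (nat_lit 14262029790) (nat_lit 336) (nat_lit 2459680753) (nat_lit 23) (nat_lit 5) (nat_lit 26) (nat_lit 5) (nat_lit 27) (nat_lit 5) (nat_lit 361) (nat_lit 304) (nat_lit 223)) (XT.lf (nat_lit 0) (nat_lit 4648099531) (nat_lit 252) (nat_lit 11581350211) (nat_lit 336) (nat_lit 999945040) (nat_lit 23) (nat_lit 5) (nat_lit 26) (nat_lit 5) (nat_lit 27) (nat_lit 5) (nat_lit 362) (nat_lit 304) (nat_lit 222)))) (XT.nd (nat_lit 188) (nat_lit 252) (nat_lit 0) (XT.nd (nat_lit 94) (nat_lit 0) (nat_lit 0) (XT.lf (nat_lit 0) (nat_lit 479682859) (nat_lit 336) (nat_lit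 8337071081) (nat_lit 84) (nat_lit 8820832022) (nat_lit 22) (nat_lit 5) (nat_lit 26) (nat_lit 5) (nat_lit 23) (nat_lit 5) (nat_lit 363) (nat_lit 304) (nat_lit 221)) (XT.lf (nat_lit 0) (nat_lit 1969680429) (nat_lit 336) (nat_lit 3990449614) (nat_lit 84) (nat_lit 12098521621) (nat_lit 22) (nat_lit 5) (nat_lit 26) (nat_lit 5) (nat_lit 23) (nat_lit 5) (nat_lit 364) (nat_lit 304) (nat_lit 220))) (XT.nd (nat_lit 94) (nat_lit 0) (nat_lit 0) (XT.lf (nat_lit 0) (nat_lit 482256629) (nat_lit 252) (nat_lit 3014110582) (nat_lit 336) (nat_lit 14996776357) (nat_lit 19) (nat_lit 5) (nat_lit 22) (nat_lit 5) (nat_lit 23) (nat_lit 5) (nat_lit 365) (nat_lit 304) (nat_lit 219)) (XT.nd (nat_lit 94) (nat_lit 0) (nat_lit 0) (XT.lf (nat_lit 0) (nat_lit 5098612975) (nat_lit 336) (nat_lit 13780918804) (nat_lit 84) (nat_lit 60774035) (nat_lit 19) (nat_lit 5) (nat_lit 23) (nat_lit 5) (nat_lit 20) (nat_lit 5) (nat_lit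 366) (nat_lit 304) (nat_lit 218)) (XT.lf (nat_lit 0) (nat_lit 6767701963) (nat_lit 336) (nat_lit 9468748821) (nat_lit 84) (nat_lit 3164420909) (nat_lit 19) (nat_lit 5) (nat_lit 23) (nat_lit 5) (nat_lit 20) (nat_lit 5) (nat_lit 367) (nat_lit 304) (nat_lit 217))))))))
noncomputable def xc65 : XT := (XT.nd (nat_lit 50760) (nat_lit 0) (nat_lit 4452) (XT.nd (nat_lit 49914) (nat_lit 0) (nat_lit 8988) (XT.nd (nat_lit 376) (nat_lit 168) (nat_lit 0) (XT.nd (nat_lit 188) (nat_lit 168) (nat_lit 0) (XT.nd (nat_lit 94) (nat_lit 0) (nat_lit 0) (XT.lf (nat_lit 0) (nat_lit 8475289590) (nat_lit 336) (nat_lit 5040457245) (nat_lit 84) (nat_lit 6360450575) (nat_lit 19) (nat_lit 5) (nat_lit 23) (nat_lit 5) (nat_lit 20) (nat_lit 5) (nat_lit 368) (nat_lit 304) (nat_lit 216)) (XT.lf (nat_lit 0) (nat_lit 10222967506) (nat_lit 336) (nat_lit 491916444) (nat_lit 84) (nat_lit 9651842068) (nat_lit 19) (nat_lit 5) (nat_lit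 23) (nat_lit 5) (nat_lit 20) (nat_lit 5) (nat_lit 369) (nat_lit 304) (nat_lit 215))) (XT.nd (nat_lit 94) (nat_lit 0) (nat_lit 0) (XT.lf (nat_lit 0) (nat_lit 4267085561) (nat_lit 168) (nat_lit 7787609187) (nat_lit 252) (nat_lit 8816907765) (nat_lit 17) (nat_lit 5) (nat_lit 19) (nat_lit 5) (nat_lit 20) (nat_lit 5) (nat_lit 370) (nat_lit 304) (nat_lit 214)) (XT.lf (nat_lit 0) (nat_lit 9167696384) (nat_lit 168) (nat_lit 4768397469) (nat_lit 252) (nat_lit 7456322267) (nat_lit 17) (nat_lit 5) (nat_lit 19) (nat_lit 5) (nat_lit 20) (nat_lit 5) (nat_lit 371) (nat_lit 304) (nat_lit 213)))) (XT.nd (nat_lit 188) (nat_lit 168) (nat_lit 0) (XT.nd (nat_lit 94) (nat_lit 0) (nat_lit 0) (XT.lf (nat_lit 0) (nat_lit 14204369095) (nat_lit 168) (nat_lit 1659569175) (nat_lit 252) (nat_lit 6065868408) (nat_lit 17) (nat_lit 5) (nat_lit 19) (nat_lit 5) (nat_lit 20) (nat_lit 5) (nat_lit 372) (nat_lit 304) (nat_lit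 212)) (XT.lf (nat_lit 0) (nat_lit 17855319535) (nat_lit 252) (nat_lit 3117771276) (nat_lit 84) (nat_lit 1510710149) (nat_lit 17) (nat_lit 5) (nat_lit 20) (nat_lit 5) (nat_lit 18) (nat_lit 5) (nat_lit 373) (nat_lit 304) (nat_lit 211))) (XT.nd (nat_lit 49256) (nat_lit 0) (nat_lit 9492) (XT.lf (nat_lit 0) (nat_lit 1633381361) (nat_lit 168) (nat_lit 18297017456) (nat_lit 252) (nat_lit 3123949075) (nat_lit 15) (nat_lit 5) (nat_lit 17) (nat_lit 5) (nat_lit 18) (nat_lit 5) (nat_lit 374) (nat_lit 304) (nat_lit 210)) (XT.lf (nat_lit 0) (nat_lit 512786502) (nat_lit 588) (nat_lit 1455745913) (nat_lit 588) (nat_lit 1455745913) (nat_lit 128) (nat_lit 3) (nat_lit 135) (nat_lit 3) (nat_lit 135) (nat_lit 5) (nat_lit 305) (nat_lit 305) (nat_lit 278))))) (XT.nd (nat_lit 376) (nat_lit 504) (nat_lit 0) (XT.nd (nat_lit 188) (nat_lit 0) (nat_lit 0) (XT.nd (nat_lit 94) (nat_lit 0) (nat_lit 0) (XT.lf (nat_lit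 0) (nat_lit 2518121052) (nat_lit 588) (nat_lit 545308039) (nat_lit 588) (nat_lit 3831306533) (nat_lit 128) (nat_lit 3) (nat_lit 135) (nat_lit 3) (nat_lit 135) (nat_lit 5) (nat_lit 306) (nat_lit 305) (nat_lit 277)) (XT.lf (nat_lit 84) (nat_lit 1901580477) (nat_lit 0) (nat_lit 2114719044) (nat_lit 588) (nat_lit 2927878507) (nat_lit 129) (nat_lit 5) (nat_lit 128) (nat_lit 3) (nat_lit 135) (nat_lit 5) (nat_lit 307) (nat_lit 305) (nat_lit 276))) (XT.nd (nat_lit 94) (nat_lit 0) (nat_lit 0) (XT.lf (nat_lit 84) (nat_lit 4405236644) (nat_lit 0) (nat_lit 1103359398) (nat_lit 588) (nat_lit 1488734090) (nat_lit 129) (nat_lit 5) (nat_lit 128) (nat_lit 3) (nat_lit 135) (nat_lit 5) (nat_lit 308) (nat_lit 305) (nat_lit 275)) (XT.lf (nat_lit 84) (nat_lit 6956781480) (nat_lit 0) (nat_lit 34099357) (nat_lit 588) (nat_lit 63531783) (nat_lit 129) (nat_lit 5) (nat_lit 128) (nat_lit 3) (nat_lit 135) (nat_lit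 5) (nat_lit 309) (nat_lit 305) (nat_lit 274)))) (XT.nd (nat_lit 188) (nat_lit 0) (nat_lit 0) (XT.nd (nat_lit 94) (nat_lit 0) (nat_lit 0) (XT.lf (nat_lit 0) (nat_lit 1357716865) (nat_lit 588) (nat_lit 4645850868) (nat_lit 672) (nat_lit 1110385042) (nat_lit 122) (nat_lit 5) (nat_lit 129) (nat_lit 5) (nat_lit 130) (nat_lit 5) (nat_lit 310) (nat_lit 305) (nat_lit 273)) (XT.lf (nat_lit 0) (nat_lit 2769045202) (nat_lit 588) (nat_lit 2093459366) (nat_lit 672) (nat_lit 2314937507) (nat_lit 122) (nat_lit 5) (nat_lit 129) (nat_lit 5) (nat_lit 130) (nat_lit 5) (nat_lit 311) (nat_lit 305) (nat_lit 272))) (XT.nd (nat_lit 94) (nat_lit 0) (nat_lit 0) (XT.lf (nat_lit 84) (nat_lit 516863982) (nat_lit 0) (nat_lit 3659975323) (nat_lit 672) (nat_lit 3068002424) (nat_lit 123) (nat_lit 5) (nat_lit 122) (nat_lit 5) (nat_lit 130) (nat_lit 5) (nat_lit 312) (nat_lit 305) (nat_lit 271)) (XT.nd (nat_lit 94) (nat_lit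 0) (nat_lit 0) (XT.lf (nat_lit 84) (nat_lit 3221201628) (nat_lit 0) (nat_lit 2377777635) (nat_lit 672) (nat_lit 1716721694) (nat_lit 123) (nat_lit 5) (nat_lit 122) (nat_lit 5) (nat_lit 130) (nat_lit 5) (nat_lit 313) (nat_lit 305) (nat_lit 270)) (XT.lf (nat_lit 84) (nat_lit 5979028480) (nat_lit 0) (nat_lit 1036567783) (nat_lit 672) (nat_lit 375146572) (nat_lit 123) (nat_lit 5) (nat_lit 122) (nat_lit 5) (nat_lit 130) (nat_lit 5) (nat_lit 314) (nat_lit 305) (nat_lit 269))))))) (XT.nd (nat_lit 752) (nat_lit 3276) (nat_lit 0) (XT.nd (nat_lit 376) (nat_lit 672) (nat_lit 0) (XT.nd (nat_lit 188) (nat_lit 0) (nat_lit 0) (XT.nd (nat_lit 94) (nat_lit 0) (nat_lit 0) (XT.lf (nat_lit 0) (nat_lit 955822225) (nat_lit 672) (nat_lit 6132803324) (nat_lit 756) (nat_lit 380585513) (nat_lit 115) (nat_lit 5) (nat_lit 123) (nat_lit 5) (nat_lit 124) (nat_lit 5) (nat_lit 315) (nat_lit 305) (nat_lit 268)) (XT.lf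 (nat_lit 0) (nat_lit 2298053563) (nat_lit 672) (nat_lit 3397209711) (nat_lit 756) (nat_lit 1855826843) (nat_lit 115) (nat_lit 5) (nat_lit 123) (nat_lit 5) (nat_lit 124) (nat_lit 5) (nat_lit 316) (nat_lit 305) (nat_lit 267))) (XT.nd (nat_lit 94) (nat_lit 0) (nat_lit 0) (XT.lf (nat_lit 0) (nat_lit 3635635510) (nat_lit 672) (nat_lit 608446739) (nat_lit 756) (nat_lit 3393255799) (nat_lit 115) (nat_lit 5) (nat_lit 123) (nat_lit 5) (nat_lit 124) (nat_lit 5) (nat_lit 317) (nat_lit 305) (nat_lit 266)) (XT.lf (nat_lit 84) (nat_lit 2282063503) (nat_lit 0) (nat_lit 2710389681) (nat_lit 756) (nat_lit 2734880274) (nat_lit 116) (nat_lit 5) (nat_lit 115) (nat_lit 5) (nat_lit 124) (nat_lit 5) (nat_lit 318) (nat_lit 305) (nat_lit 265)))) (XT.nd (nat_lit 188) (nat_lit 84) (nat_lit 0) (XT.nd (nat_lit 94) (nat_lit 588) (nat_lit 0) (XT.lf (nat_lit 84) (nat_lit 5244706077) (nat_lit 0) (nat_lit 1109157180) (nat_lit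 756) (nat_lit 1467790123) (nat_lit 116) (nat_lit 5) (nat_lit 115) (nat_lit 5) (nat_lit 124) (nat_lit 5) (nat_lit 319) (nat_lit 305) (nat_lit 264)) (XT.lf (nat_lit 0) (nat_lit 350717794) (nat_lit 672) (nat_lit 7373239356) (nat_lit 756) (nat_lit 196341087) (nat_lit 108) (nat_lit 5) (nat_lit 116) (nat_lit 5) (nat_lit 117) (nat_lit 5) (nat_lit 320) (nat_lit 305) (nat_lit 263))) (XT.nd (nat_lit 94) (nat_lit 0) (nat_lit 0) (XT.lf (nat_lit 0) (nat_lit 1088411605) (nat_lit 756) (nat_lit 4652231128) (nat_lit 84) (nat_lit 2281469412) (nat_lit 107) (nat_lit 5) (nat_lit 116) (nat_lit 5) (nat_lit 108) (nat_lit 5) (nat_lit 321) (nat_lit 305) (nat_lit 262)) (XT.lf (nat_lit 0) (nat_lit 2368007900) (nat_lit 756) (nat_lit 1677644084) (nat_lit 84) (nat_lit 4082966339) (nat_lit 107) (nat_lit 5) (nat_lit 116) (nat_lit 5) (nat_lit 108) (nat_lit 5) (nat_lit 322) (nat_lit 305) (nat_lit 261))))) (XT.nd (nat_lit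 376) (nat_lit 1680) (nat_lit 0) (XT.nd (nat_lit 188) (nat_lit 840) (nat_lit 0) (XT.nd (nat_lit 94) (nat_lit 0) (nat_lit 0) (XT.lf (nat_lit 0) (nat_lit 1386842835) (nat_lit 756) (nat_lit 2274511167) (nat_lit 840) (nat_lit 4578195934) (nat_lit 98) (nat_lit 5) (nat_lit 107) (nat_lit 5) (nat_lit 108) (nat_lit 5) (nat_lit 323) (nat_lit 305) (nat_lit 260)) (XT.lf (nat_lit 0) (nat_lit 4551946201) (nat_lit 756) (nat_lit 421579332) (nat_lit 840) (nat_lit 3381364880) (nat_lit 98) (nat_lit 5) (nat_lit 107) (nat_lit 5) (nat_lit 108) (nat_lit 5) (nat_lit 324) (nat_lit 305) (nat_lit 259))) (XT.nd (nat_lit 94) (nat_lit 840) (nat_lit 0) (XT.lf (nat_lit 0) (nat_lit 6303614929) (nat_lit 840) (nat_lit 704007358) (nat_lit 84) (nat_lit 1467191026) (nat_lit 98) (nat_lit 5) (nat_lit 108) (nat_lit 5) (nat_lit 99) (nat_lit 5) (nat_lit 325) (nat_lit 305) (nat_lit 258)) (XT.lf (nat_lit 0) (nat_lit 2507526234) (nat_lit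 840) (nat_lit 5160197528) (nat_lit 924) (nat_lit 931245939) (nat_lit 88) (nat_lit 5) (nat_lit 98) (nat_lit 5) (nat_lit 99) (nat_lit 5) (nat_lit 326) (nat_lit 305) (nat_lit 257)))) (XT.nd (nat_lit 188) (nat_lit 672) (nat_lit 0) (XT.nd (nat_lit 94) (nat_lit 924) (nat_lit 0) (XT.lf (nat_lit 0) (nat_lit 311335505) (nat_lit 924) (nat_lit 2927123285) (nat_lit 84) (nat_lit 5489577622) (nat_lit 87) (nat_lit 5) (nat_lit 98) (nat_lit 5) (nat_lit 88) (nat_lit 5) (nat_lit 327) (nat_lit 305) (nat_lit 256)) (XT.lf (nat_lit 0) (nat_lit 302373333) (nat_lit 924) (nat_lit 1238569801) (nat_lit 1008) (nat_lit 7321129124) (nat_lit 76) (nat_lit 5) (nat_lit 87) (nat_lit 5) (nat_lit 88) (nat_lit 5) (nat_lit 328) (nat_lit 305) (nat_lit 255))) (XT.nd (nat_lit 94) (nat_lit 672) (nat_lit 0) (XT.lf (nat_lit 0) (nat_lit 2813371262) (nat_lit 1008) (nat_lit 5344320843) (nat_lit 84) (nat_lit 842683997) (nat_lit 76) (nat_lit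 5) (nat_lit 88) (nat_lit 5) (nat_lit 77) (nat_lit 5) (nat_lit 329) (nat_lit 305) (nat_lit 254)) (XT.nd (nat_lit 94) (nat_lit 672) (nat_lit 0) (XT.lf (nat_lit 0) (nat_lit 4104614173) (nat_lit 1008) (nat_lit 2071577455) (nat_lit 84) (nat_lit 2967666171) (nat_lit 76) (nat_lit 5) (nat_lit 88) (nat_lit 5) (nat_lit 77) (nat_lit 5) (nat_lit 330) (nat_lit 305) (nat_lit 253)) (XT.lf (nat_lit 0) (nat_lit 1300061892) (nat_lit 672) (nat_lit 4116423559) (nat_lit 756) (nat_lit 3876146729) (nat_lit 68) (nat_lit 5) (nat_lit 76) (nat_lit 5) (nat_lit 77) (nat_lit 5) (nat_lit 331) (nat_lit 305) (nat_lit 252))))))))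
noncomputable def xc66 : XT := (XT.nd (nat_lit 1598) (nat_lit 1596) (nat_lit 0) (XT.nd (nat_lit 752) (nat_lit 1260) (nat_lit 0) (XT.nd (nat_lit 376) (nat_lit 420) (nat_lit 0) (XT.nd (nat_lit 188) (nat_lit 588) (nat_lit 0) (XT.nd (nat_lit 94) (nat_lit 0) (nat_lit 0) (XT.lf (nat_lit 0) (nat_lit 4791677072) (nat_lit 672) (nat_lit 1967362511) (nat_lit 756) (nat_lit 2687524554) (nat_lit 68) (nat_lit 5) (nat_lit 76) (nat_lit 5) (nat_lit 77) (nat_lit 5) (nat_lit 332) (nat_lit 305) (nat_lit 251)) (XT.lf (nat_lit 0) (nat_lit 8115048745) (nat_lit 756) (nat_lit 1245014194) (nat_lit 84) (nat_lit 246307066) (nat_lit 68) (nat_lit 5) (nat_lit 77) (nat_lit 5) (nat_lit 69) (nat_lit 5) (nat_lit 333) (nat_lit 305) (nat_lit 250))) (XT.nd (nat_lit 94) (nat_lit 84) (nat_lit 0) (XT.lf (nat_lit 0) (nat_lit 2268193530) (nat_lit 504) (nat_lit 7257816310) (nat_lit 588) (nat_lit 244941680) (nat_lit 62) (nat_lit 5)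 (nat_lit 68) (nat_lit 5) (nat_lit 69) (nat_lit 5) (nat_lit 334) (nat_lit 305) (nat_lit 249)) (XT.lf (nat_lit 0) (nat_lit 1002652398) (nat_lit 588) (nat_lit 4062461718) (nat_lit 84) (nat_lit 4875920505) (nat_lit 61) (nat_lit 5) (nat_lit 68) (nat_lit 5) (nat_lit 62) (nat_lit 5) (nat_lit 335) (nat_lit 305) (nat_lit 248)))) (XT.nd (nat_lit 188) (nat_lit 0) (nat_lit 0) (XT.nd (nat_lit 94) (nat_lit 420) (nat_lit 0) (XT.lf (nat_lit 0) (nat_lit 2255127409) (nat_lit 588) (nat_lit 545648269) (nat_lit 84) (nat_lit 7316629474) (nat_lit 61) (nat_lit 5) (nat_lit 68) (nat_lit 5) (nat_lit 62) (nat_lit 5) (nat_lit 336) (nat_lit 305) (nat_lit 247)) (XT.lf (nat_lit 0) (nat_lit 3116174211) (nat_lit 420) (nat_lit 433324443) (nat_lit 504) (nat_lit 6749845884) (nat_lit 56) (nat_lit 5) (nat_lit 61) (nat_lit 5) (nat_lit 62) (nat_lit 5) (nat_lit 337) (nat_lit 305) (nat_lit 246))) (XT.nd (nat_lit 94) (nat_lit 0)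 (nat_lit 0) (XT.lf (nat_lit 0) (nat_lit 4882402054) (nat_lit 504) (nat_lit 3631208128) (nat_lit 84) (nat_lit 1973553874) (nat_lit 56) (nat_lit 5) (nat_lit 62) (nat_lit 5) (nat_lit 57) (nat_lit 5) (nat_lit 338) (nat_lit 305) (nat_lit 245)) (XT.lf (nat_lit 0) (nat_lit 6234615175) (nat_lit 504) (nat_lit 306280) (nat_lit 84) (nat_lit 4446751724) (nat_lit 56) (nat_lit 5) (nat_lit 62) (nat_lit 5) (nat_lit 57) (nat_lit 5) (nat_lit 339) (nat_lit 305) (nat_lit 244))))) (XT.nd (nat_lit 376) (nat_lit 420) (nat_lit 0) (XT.nd (nat_lit 188) (nat_lit 420) (nat_lit 0) (XT.nd (nat_lit 94) (nat_lit 0) (nat_lit 0) (XT.lf (nat_lit 0) (nat_lit 3793651857) (nat_lit 420) (nat_lit 3847081428) (nat_lit 504) (nat_lit 3241286545) (nat_lit 51) (nat_lit 5) (nat_lit 56) (nat_lit 5) (nat_lit 57) (nat_lit 5) (nat_lit 340) (nat_lit 305) (nat_lit 243)) (XT.lf (nat_lit 0) (nat_lit 7679556465) (nat_lit 420) (nat_lit 1385757155)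 (nat_lit 504) (nat_lit 2024216492) (nat_lit 51) (nat_lit 5) (nat_lit 56) (nat_lit 5) (nat_lit 57) (nat_lit 5) (nat_lit 341) (nat_lit 305) (nat_lit 242))) (XT.nd (nat_lit 94) (nat_lit 84) (nat_lit 0) (XT.lf (nat_lit 0) (nat_lit 352302424) (nat_lit 336) (nat_lit 10172294854) (nat_lit 420) (nat_lit 779337854) (nat_lit 47) (nat_lit 5) (nat_lit 51) (nat_lit 5) (nat_lit 52) (nat_lit 5) (nat_lit 342) (nat_lit 305) (nat_lit 241)) (XT.lf (nat_lit 0) (nat_lit 519799597) (nat_lit 420) (nat_lit 7266139729) (nat_lit 84) (nat_lit 3738250493) (nat_lit 46) (nat_lit 5) (nat_lit 51) (nat_lit 5) (nat_lit 47) (nat_lit 5) (nat_lit 343) (nat_lit 305) (nat_lit 240)))) (XT.nd (nat_lit 188) (nat_lit 0) (nat_lit 0) (XT.nd (nat_lit 94) (nat_lit 420) (nat_lit 0) (XT.lf (nat_lit 0) (nat_lit 1819446957) (nat_lit 420) (nat_lit 3499795960) (nat_lit 84) (nat_lit 6432667143) (nat_lit 46) (nat_lit 5) (nat_lit 51) (nat_lit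 5) (nat_lit 47) (nat_lit 5) (nat_lit 344) (nat_lit 305) (nat_lit 239)) (XT.lf (nat_lit 0) (nat_lit 366014733) (nat_lit 420) (nat_lit 2774133731) (nat_lit 504) (nat_lit 8847286756) (nat_lit 41) (nat_lit 5) (nat_lit 46) (nat_lit 5) (nat_lit 47) (nat_lit 5) (nat_lit 345) (nat_lit 305) (nat_lit 238))) (XT.nd (nat_lit 94) (nat_lit 0) (nat_lit 0) (XT.lf (nat_lit 0) (nat_lit 4401444984) (nat_lit 420) (nat_lit 114456927) (nat_lit 504) (nat_lit 7714067152) (nat_lit 41) (nat_lit 5) (nat_lit 46) (nat_lit 5) (nat_lit 47) (nat_lit 5) (nat_lit 346) (nat_lit 305) (nat_lit 237)) (XT.nd (nat_lit 94) (nat_lit 0) (nat_lit 0) (XT.lf (nat_lit 0) (nat_lit 5938604980) (nat_lit 504) (nat_lit 3968590431) (nat_lit 84) (nat_lit 2572833171) (nat_lit 41) (nat_lit 5) (nat_lit 47) (nat_lit 5) (nat_lit 42) (nat_lit 5) (nat_lit 347) (nat_lit 305) (nat_lit 236)) (XT.lf (nat_lit 0) (nat_lit 7385471366) (nat_lit 504) (nat_lit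 13909269) (nat_lit 84) (nat_lit 5339213708) (nat_lit 41) (nat_lit 5) (nat_lit 47) (nat_lit 5) (nat_lit 42) (nat_lit 5) (nat_lit 348) (nat_lit 305) (nat_lit 235))))))) (XT.nd (nat_lit 752) (nat_lit 588) (nat_lit 0) (XT.nd (nat_lit 376) (nat_lit 336) (nat_lit 0) (XT.nd (nat_lit 188) (nat_lit 336) (nat_lit 0) (XT.nd (nat_lit 94) (nat_lit 0) (nat_lit 0) (XT.lf (nat_lit 0) (nat_lit 4123418709) (nat_lit 336) (nat_lit 4774200388) (nat_lit 420) (nat_lit 4107055406) (nat_lit 37) (nat_lit 5) (nat_lit 41) (nat_lit 5) (nat_lit 42) (nat_lit 5) (nat_lit 349) (nat_lit 305) (nat_lit 234)) (XT.lf (nat_lit 0) (nat_lit 8366505843) (nat_lit 336) (nat_lit 2070195986) (nat_lit 420) (nat_lit 2843047681) (nat_lit 37) (nat_lit 5) (nat_lit 41) (nat_lit 5) (nat_lit 42) (nat_lit 5) (nat_lit 350) (nat_lit 305) (nat_lit 233))) (XT.nd (nat_lit 94) (nat_lit 336) (nat_lit 0) (XT.lf (nat_lit 0) (nat_lit 12011106295) (nat_lit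 420) (nat_lit 852151961) (nat_lit 84) (nat_lit 700601989) (nat_lit 37) (nat_lit 5) (nat_lit 42) (nat_lit 5) (nat_lit 38) (nat_lit 5) (nat_lit 351) (nat_lit 305) (nat_lit 232)) (XT.lf (nat_lit 0) (nat_lit 3359217140) (nat_lit 336) (nat_lit 10310674998) (nat_lit 420) (nat_lit 185904034) (nat_lit 33) (nat_lit 5) (nat_lit 37) (nat_lit 5) (nat_lit 38) (nat_lit 5) (nat_lit 352) (nat_lit 305) (nat_lit 231)))) (XT.nd (nat_lit 188) (nat_lit 252) (nat_lit 0) (XT.nd (nat_lit 94) (nat_lit 0) (nat_lit 0) (XT.lf (nat_lit 0) (nat_lit 1188781708) (nat_lit 420) (nat_lit 6471930475) (nat_lit 84) (nat_lit 6496113741) (nat_lit 32) (nat_lit 5) (nat_lit 37) (nat_lit 5) (nat_lit 33) (nat_lit 5) (nat_lit 353) (nat_lit 305) (nat_lit 230)) (XT.lf (nat_lit 0) (nat_lit 2583913504) (nat_lit 420) (nat_lit 2346147119) (nat_lit 84) (nat_lit 9537745592) (nat_lit 32) (nat_lit 5) (nat_lit 37) (nat_lit 5) (nat_lit 33) (nat_lit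 5) (nat_lit 354) (nat_lit 305) (nat_lit 229))) (XT.nd (nat_lit 94) (nat_lit 0) (nat_lit 0) (XT.lf (nat_lit 0) (nat_lit 1925250390) (nat_lit 252) (nat_lit 2098385646) (nat_lit 336) (nat_lit 10764855988) (nat_lit 29) (nat_lit 5) (nat_lit 32) (nat_lit 5) (nat_lit 33) (nat_lit 5) (nat_lit 355) (nat_lit 305) (nat_lit 228)) (XT.lf (nat_lit 0) (nat_lit 5523410387) (nat_lit 336) (nat_lit 8769428298) (nat_lit 84) (nat_lit 825905886) (nat_lit 29) (nat_lit 5) (nat_lit 33) (nat_lit 5) (nat_lit 30) (nat_lit 5) (nat_lit 356) (nat_lit 305) (nat_lit 227))))) (XT.nd (nat_lit 376) (nat_lit 336) (nat_lit 0) (XT.nd (nat_lit 188) (nat_lit 252) (nat_lit 0) (XT.nd (nat_lit 94) (nat_lit 0) (nat_lit 0) (XT.lf (nat_lit 0) (nat_lit 7074200262) (nat_lit 336) (nat_lit 4590993783) (nat_lit 84) (nat_lit 3794001099) (nat_lit 29) (nat_lit 5) (nat_lit 33) (nat_lit 5) (nat_lit 30) (nat_lit 5) (nat_lit 357) (nat_lit 305)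 (nat_lit 226)) (XT.lf (nat_lit 0) (nat_lit 8656634917) (nat_lit 336) (nat_lit 303227108) (nat_lit 84) (nat_lit 6850944361) (nat_lit 29) (nat_lit 5) (nat_lit 33) (nat_lit 5) (nat_lit 30) (nat_lit 5) (nat_lit 358) (nat_lit 305) (nat_lit 225))) (XT.nd (nat_lit 94) (nat_lit 0) (nat_lit 0) (XT.lf (nat_lit 0) (nat_lit 4182128953) (nat_lit 252) (nat_lit 6131547628) (nat_lit 336) (nat_lit 5858943348) (nat_lit 26) (nat_lit 5) (nat_lit 29) (nat_lit 5) (nat_lit 30) (nat_lit 5) (nat_lit 359) (nat_lit 305) (nat_lit 224)) (XT.lf (nat_lit 0) (nat_lit 8793565701) (nat_lit 252) (nat_lit 3216036972) (nat_lit 336) (nat_lit 4536525631) (nat_lit 26) (nat_lit 5) (nat_lit 29) (nat_lit 5) (nat_lit 30) (nat_lit 5) (nat_lit 360) (nat_lit 305) (nat_lit 223)))) (XT.nd (nat_lit 188) (nat_lit 84) (nat_lit 0) (XT.nd (nat_lit 94) (nat_lit 252) (nat_lit 0) (XT.lf (nat_lit 0) (nat_lit 13529146507) (nat_lit 252) (nat_lit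 213777563) (nat_lit 336) (nat_lit 3188850755) (nat_lit 26) (nat_lit 5) (nat_lit 29) (nat_lit 5) (nat_lit 30) (nat_lit 5) (nat_lit 361) (nat_lit 305) (nat_lit 222)) (XT.lf (nat_lit 0) (nat_lit 1056094005) (nat_lit 252) (nat_lit 14498189390) (nat_lit 336) (nat_lit 1774425724) (nat_lit 23) (nat_lit 5) (nat_lit 26) (nat_lit 5) (nat_lit 27) (nat_lit 5) (nat_lit 362) (nat_lit 305) (nat_lit 221))) (XT.nd (nat_lit 94) (nat_lit 84) (nat_lit 0) (XT.lf (nat_lit 0) (nat_lit 5704376597) (nat_lit 252) (nat_lit 11740601629) (nat_lit 336) (nat_lit 292335059) (nat_lit 23) (nat_lit 5) (nat_lit 26) (nat_lit 5) (nat_lit 27) (nat_lit 5) (nat_lit 363) (nat_lit 305) (nat_lit 220)) (XT.nd (nat_lit 94) (nat_lit 0) (nat_lit 0) (XT.lf (nat_lit 0) (nat_lit 1196519047) (nat_lit 336) (nat_lit 7692463417) (nat_lit 84) (nat_lit 9269743178) (nat_lit 22) (nat_lit 5) (nat_lit 26) (nat_lit 5) (nat_lit 23) (nat_lit 5) (nat_lit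 364) (nat_lit 305) (nat_lit 219)) (XT.lf (nat_lit 0) (nat_lit 2711599901) (nat_lit 336) (nat_lit 3238249704) (nat_lit 84) (nat_lit 12643765281) (nat_lit 22) (nat_lit 5) (nat_lit 26) (nat_lit 5) (nat_lit 23) (nat_lit 5) (nat_lit 365) (nat_lit 305) (nat_lit 218))))))))
noncomputable def xc67 : XT := (XT.nd (nat_lit 50854) (nat_lit 0) (nat_lit 4956) (XT.nd (nat_lit 752) (nat_lit 0) (nat_lit 0) (XT.nd (nat_lit 376) (nat_lit 168) (nat_lit 0) (XT.nd (nat_lit 188) (nat_lit 0) (nat_lit 0) (XT.nd (nat_lit 94) (nat_lit 0) (nat_lit 0) (XT.lf (nat_lit 0) (nat_lit 1364242693) (nat_lit 252) (nat_lit 2909500377) (nat_lit 336) (nat_lit 14768313671) (nat_lit 19) (nat_lit 5) (nat_lit 22) (nat_lit 5) (nat_lit 23) (nat_lit 5) (nat_lit 366) (nat_lit 305) (nat_lit 217)) (XT.lf (nat_lit 0) (nat_lit 5907448962) (nat_lit 336) (nat_lit 13345425320) (nat_lit 84) (nat_lit 250880546) (nat_lit 19) (nat_lit 5) (nat_lit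 23) (nat_lit 5) (nat_lit 20) (nat_lit 5) (nat_lit 367) (nat_lit 305) (nat_lit 216))) (XT.nd (nat_lit 94) (nat_lit 0) (nat_lit 0) (XT.lf (nat_lit 0) (nat_lit 7608712154) (nat_lit 336) (nat_lit 8925517699) (nat_lit 84) (nat_lit 3445081018) (nat_lit 19) (nat_lit 5) (nat_lit 23) (nat_lit 5) (nat_lit 20) (nat_lit 5) (nat_lit 368) (nat_lit 305) (nat_lit 215)) (XT.lf (nat_lit 0) (nat_lit 9350255798) (nat_lit 336) (nat_lit 4385108766) (nat_lit 84) (nat_lit 6734698317) (nat_lit 19) (nat_lit 5) (nat_lit 23) (nat_lit 5) (nat_lit 20) (nat_lit 5) (nat_lit 369) (nat_lit 305) (nat_lit 214)))) (XT.nd (nat_lit 188) (nat_lit 0) (nat_lit 0) (XT.nd (nat_lit 94) (nat_lit 0) (nat_lit 0) (XT.lf (nat_lit 0) (nat_lit 285791680) (nat_lit 168) (nat_lit 10850746604) (nat_lit 252) (nat_lit 9839842119) (nat_lit 17) (nat_lit 5) (nat_lit 19) (nat_lit 5) (nat_lit 20) (nat_lit 5) (nat_lit 370) (nat_lit 305) (nat_lit 213))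 (XT.lf (nat_lit 0) (nat_lit 5178594995) (nat_lit 168) (nat_lit 7833494013) (nat_lit 252) (nat_lit 8485317571) (nat_lit 17) (nat_lit 5) (nat_lit 19) (nat_lit 5) (nat_lit 20) (nat_lit 5) (nat_lit 371) (nat_lit 305) (nat_lit 212))) (XT.nd (nat_lit 94) (nat_lit 0) (nat_lit 0) (XT.lf (nat_lit 0) (nat_lit 10207694954) (nat_lit 168) (nat_lit 4726565939) (nat_lit 252) (nat_lit 7100742423) (nat_lit 17) (nat_lit 5) (nat_lit 19) (nat_lit 5) (nat_lit 20) (nat_lit 5) (nat_lit 372) (nat_lit 305) (nat_lit 211)) (XT.lf (nat_lit 0) (nat_lit 15377779205) (nat_lit 168) (nat_lit 1527066400) (nat_lit 252) (nat_lit 5684826106) (nat_lit 17) (nat_lit 5) (nat_lit 19) (nat_lit 5) (nat_lit 20) (nat_lit 5) (nat_lit 373) (nat_lit 305) (nat_lit 210))))) (XT.nd (nat_lit 49632) (nat_lit 0) (nat_lit 8736) (XT.nd (nat_lit 49444) (nat_lit 0) (nat_lit 9324) (XT.nd (nat_lit 49350) (nat_lit 0) (nat_lit 9324) (XT.lf (nat_lit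 0) (nat_lit 18943218582) (nat_lit 252) (nat_lit 2485800613) (nat_lit 84) (nat_lit 1732365877) (nat_lit 17) (nat_lit 5) (nat_lit 20) (nat_lit 5) (nat_lit 18) (nat_lit 5) (nat_lit 374) (nat_lit 305) (nat_lit 209)) (XT.lf (nat_lit 0) (nat_lit 1990685982) (nat_lit 588) (nat_lit 740183129) (nat_lit 588) (nat_lit 740183129) (nat_lit 128) (nat_lit 3) (nat_lit 135) (nat_lit 3) (nat_lit 135) (nat_lit 5) (nat_lit 306) (nat_lit 306) (nat_lit 276))) (XT.nd (nat_lit 94) (nat_lit 0) (nat_lit 0) (XT.lf (nat_lit 84) (nat_lit 932206355) (nat_lit 0) (nat_lit 4509311536) (nat_lit 588) (nat_lit 1551481218) (nat_lit 129) (nat_lit 5) (nat_lit 128) (nat_lit 3) (nat_lit 135) (nat_lit 5) (nat_lit 307) (nat_lit 306) (nat_lit 275)) (XT.lf (nat_lit 84) (nat_lit 3421227036) (nat_lit 0) (nat_lit 3484880376) (nat_lit 588) (nat_lit 141167715) (nat_lit 129) (nat_lit 5) (nat_lit 128) (nat_lit 3) (nat_lit 135) (nat_lit 5)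 (nat_lit 308) (nat_lit 306) (nat_lit 274)))) (XT.nd (nat_lit 188) (nat_lit 0) (nat_lit 84) (XT.nd (nat_lit 94) (nat_lit 0) (nat_lit 0) (XT.lf (nat_lit 0) (nat_lit 1230763539) (nat_lit 588) (nat_lit 1159331666) (nat_lit 672) (nat_lit 4714966257) (nat_lit 121) (nat_lit 5) (nat_lit 128) (nat_lit 3) (nat_lit 129) (nat_lit 5) (nat_lit 309) (nat_lit 306) (nat_lit 273)) (XT.lf (nat_lit 84) (nat_lit 1380661383) (nat_lit 0) (nat_lit 1221349870) (nat_lit 672) (nat_lit 4564322979) (nat_lit 122) (nat_lit 5) (nat_lit 121) (nat_lit 5) (nat_lit 129) (nat_lit 5) (nat_lit 310) (nat_lit 306) (nat_lit 272))) (XT.nd (nat_lit 94) (nat_lit 0) (nat_lit 0) (XT.lf (nat_lit 0) (nat_lit 3975417265) (nat_lit 588) (nat_lit 3236727172) (nat_lit 672) (nat_lit 19089222) (nat_lit 122) (nat_lit 5) (nat_lit 129) (nat_lit 5) (nat_lit 130) (nat_lit 5) (nat_lit 311) (nat_lit 306) (nat_lit 271)) (XT.nd (nat_lit 94) (nat_lit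 0) (nat_lit 0) (XT.lf (nat_lit 0) (nat_lit 5353053573) (nat_lit 588) (nat_lit 651911337) (nat_lit 672) (nat_lit 1294830776) (nat_lit 122) (nat_lit 5) (nat_lit 129) (nat_lit 5) (nat_lit 130) (nat_lit 5) (nat_lit 312) (nat_lit 306) (nat_lit 270)) (XT.lf (nat_lit 84) (nat_lit 2024080629) (nat_lit 0) (nat_lit 4720086839) (nat_lit 672) (nat_lit 627669896) (nat_lit 123) (nat_lit 5) (nat_lit 122) (nat_lit 5) (nat_lit 130) (nat_lit 5) (nat_lit 313) (nat_lit 306) (nat_lit 269))))))) (XT.nd (nat_lit 846) (nat_lit 2520) (nat_lit 0) (XT.nd (nat_lit 376) (nat_lit 672) (nat_lit 0) (XT.nd (nat_lit 188) (nat_lit 0) (nat_lit 0) (XT.nd (nat_lit 94) (nat_lit 0) (nat_lit 0) (XT.lf (nat_lit 0) (nat_lit 675378015) (nat_lit 672) (nat_lit 2687249604) (nat_lit 756) (nat_lit 4084988105) (nat_lit 114) (nat_lit 5) (nat_lit 122) (nat_lit 5) (nat_lit 123) (nat_lit 5) (nat_lit 314) (nat_lit 306) (nat_lit 268)) (XT.lf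 (nat_lit 84) (nat_lit 19777409) (nat_lit 0) (nat_lit 1938639743) (nat_lit 756) (nat_lit 5569004276) (nat_lit 115) (nat_lit 5) (nat_lit 114) (nat_lit 5) (nat_lit 123) (nat_lit 5) (nat_lit 315) (nat_lit 306) (nat_lit 267))) (XT.nd (nat_lit 94) (nat_lit 0) (nat_lit 84) (XT.lf (nat_lit 84) (nat_lit 2838058881) (nat_lit 0) (nat_lit 424795841) (nat_lit 756) (nat_lit 4347812646) (nat_lit 115) (nat_lit 5) (nat_lit 114) (nat_lit 5) (nat_lit 123) (nat_lit 5) (nat_lit 316) (nat_lit 306) (nat_lit 266)) (XT.lf (nat_lit 0) (nat_lit 4574131226) (nat_lit 672) (nat_lit 1994738762) (nat_lit 756) (nat_lit 1129050185) (nat_lit 115) (nat_lit 5) (nat_lit 123) (nat_lit 5) (nat_lit 124) (nat_lit 5) (nat_lit 317) (nat_lit 306) (nat_lit 265)))) (XT.nd (nat_lit 188) (nat_lit 756) (nat_lit 0) (XT.nd (nat_lit 94) (nat_lit 0) (nat_lit 0) (XT.lf (nat_lit 84) (nat_lit 852312146) (nat_lit 0) (nat_lit 5043026270) (nat_lit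 756) (nat_lit 1893864803) (nat_lit 116) (nat_lit 5) (nat_lit 115) (nat_lit 5) (nat_lit 124) (nat_lit 5) (nat_lit 318) (nat_lit 306) (nat_lit 264)) (XT.lf (nat_lit 84) (nat_lit 3800450039) (nat_lit 0) (nat_lit 3435371660) (nat_lit 756) (nat_lit 648528362) (nat_lit 116) (nat_lit 5) (nat_lit 115) (nat_lit 5) (nat_lit 124) (nat_lit 5) (nat_lit 319) (nat_lit 306) (nat_lit 263))) (XT.nd (nat_lit 94) (nat_lit 0) (nat_lit 84) (XT.lf (nat_lit 0) (nat_lit 580621409) (nat_lit 756) (nat_lit 1178546730) (nat_lit 840) (nat_lit 6224725061) (nat_lit 106) (nat_lit 5) (nat_lit 115) (nat_lit 5) (nat_lit 116) (nat_lit 5) (nat_lit 320) (nat_lit 306) (nat_lit 262)) (XT.nd (nat_lit 94) (nat_lit 0) (nat_lit 0) (XT.lf (nat_lit 0) (nat_lit 1811772885) (nat_lit 756) (nat_lit 6269426315) (nat_lit 84) (nat_lit 6149129) (nat_lit 107) (nat_lit 5) (nat_lit 116) (nat_lit 5) (nat_lit 108) (nat_lit 5) (nat_lit 321) (nat_lit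 306) (nat_lit 261)) (XT.lf (nat_lit 0) (nat_lit 3071834305) (nat_lit 756) (nat_lit 3309735439) (nat_lit 84) (nat_lit 1813048048) (nat_lit 107) (nat_lit 5) (nat_lit 116) (nat_lit 5) (nat_lit 108) (nat_lit 5) (nat_lit 322) (nat_lit 306) (nat_lit 260)))))) (XT.nd (nat_lit 376) (nat_lit 1008) (nat_lit 0) (XT.nd (nat_lit 188) (nat_lit 840) (nat_lit 0) (XT.nd (nat_lit 94) (nat_lit 756) (nat_lit 0) (XT.lf (nat_lit 0) (nat_lit 4332475252) (nat_lit 756) (nat_lit 287638583) (nat_lit 84) (nat_lit 3686602392) (nat_lit 107) (nat_lit 5) (nat_lit 116) (nat_lit 5) (nat_lit 108) (nat_lit 5) (nat_lit 323) (nat_lit 306) (nat_lit 259)) (XT.lf (nat_lit 0) (nat_lit 2857248349) (nat_lit 756) (nat_lit 2765966684) (nat_lit 840) (nat_lit 2799654418) (nat_lit 98) (nat_lit 5) (nat_lit 107) (nat_lit 5) (nat_lit 108) (nat_lit 5) (nat_lit 324) (nat_lit 306) (nat_lit 258))) (XT.nd (nat_lit 94) (nat_lit 840) (nat_lit 0)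 (XT.lf (nat_lit 0) (nat_lit 6077550604) (nat_lit 756) (nat_lit 842937012) (nat_lit 840) (nat_lit 1623465959) (nat_lit 98) (nat_lit 5) (nat_lit 107) (nat_lit 5) (nat_lit 108) (nat_lit 5) (nat_lit 325) (nat_lit 306) (nat_lit 257)) (XT.lf (nat_lit 0) (nat_lit 702960784) (nat_lit 840) (nat_lit 7537988759) (nat_lit 924) (nat_lit 428653049) (nat_lit 88) (nat_lit 5) (nat_lit 98) (nat_lit 5) (nat_lit 99) (nat_lit 5) (nat_lit 326) (nat_lit 306) (nat_lit 256)))) (XT.nd (nat_lit 188) (nat_lit 924) (nat_lit 0) (XT.nd (nat_lit 94) (nat_lit 0) (nat_lit 0) (XT.lf (nat_lit 0) (nat_lit 786495891) (nat_lit 924) (nat_lit 4821824979) (nat_lit 84) (nat_lit 3190861679) (nat_lit 87) (nat_lit 5) (nat_lit 98) (nat_lit 5) (nat_lit 88) (nat_lit 5) (nat_lit 327) (nat_lit 306) (nat_lit 255)) (XT.lf (nat_lit 0) (nat_lit 1996317930) (nat_lit 924) (nat_lit 1612501565) (nat_lit 84) (nat_lit 5325139614) (nat_lit 87) (nat_lit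 5) (nat_lit 98) (nat_lit 5) (nat_lit 88) (nat_lit 5) (nat_lit 328) (nat_lit 306) (nat_lit 254))) (XT.nd (nat_lit 94) (nat_lit 0) (nat_lit 0) (XT.lf (nat_lit 0) (nat_lit 1702881415) (nat_lit 924) (nat_lit 1524588530) (nat_lit 1008) (nat_lit 5846196096) (nat_lit 76) (nat_lit 5) (nat_lit 87) (nat_lit 5) (nat_lit 88) (nat_lit 5) (nat_lit 329) (nat_lit 306) (nat_lit 253)) (XT.nd (nat_lit 94) (nat_lit 0) (nat_lit 0) (XT.lf (nat_lit 0) (nat_lit 4487686762) (nat_lit 1008) (nat_lit 4097073919) (nat_lit 84) (nat_lit 633468683) (nat_lit 76) (nat_lit 5) (nat_lit 88) (nat_lit 5) (nat_lit 77) (nat_lit 5) (nat_lit 330) (nat_lit 306) (nat_lit 252)) (XT.lf (nat_lit 0) (nat_lit 5771237417) (nat_lit 1008) (nat_lit 765359043) (nat_lit 84) (nat_lit 2831401438) (nat_lit 76) (nat_lit 5) (nat_lit 88) (nat_lit 5) (nat_lit 77) (nat_lit 5) (nat_lit 331) (nat_lit 306) (nat_lit 251))))))))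
noncomputable def xc68 : XT := (XT.nd (nat_lit 1598) (nat_lit 1596) (nat_lit 0) (XT.nd (nat_lit 752) (nat_lit 1260) (nat_lit 0) (XT.nd (nat_lit 376) (nat_lit 420) (nat_lit 0) (XT.nd (nat_lit 188) (nat_lit 588) (nat_lit 0) (XT.nd (nat_lit 94) (nat_lit 0) (nat_lit 0) (XT.lf (nat_lit 0) (nat_lit 2696926677) (nat_lit 672) (nat_lit 4394021377) (nat_lit 756) (nat_lit 2431802668) (nat_lit 68) (nat_lit 5) (nat_lit 76) (nat_lit 5) (nat_lit 77) (nat_lit 5) (nat_lit 332) (nat_lit 306) (nat_lit 250)) (XT.lf (nat_lit 0) (nat_lit 6255992937) (nat_lit 672) (nat_lit 2173829592) (nat_lit 756) (nat_lit 1253374567) (nat_lit 68) (nat_lit 5) (nat_lit 76) (nat_lit 5) (nat_lit 77) (nat_lit 5) (nat_lit 333) (nat_lit 306) (nat_lit 249))) (XT.nd (nat_lit 94) (nat_lit 84) (nat_lit 0) (XT.lf (nat_lit 0) (nat_lit 49519571) (nat_lit 504) (nat_lit 9733503076) (nat_lit 588) (nat_lit 66652597) (nat_lit 62) (nat_lit 5)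 (nat_lit 68) (nat_lit 5) (nat_lit 69) (nat_lit 5) (nat_lit 334) (nat_lit 306) (nat_lit 248)) (XT.lf (nat_lit 0) (nat_lit 1163215199) (nat_lit 588) (nat_lit 6375230626) (nat_lit 84) (nat_lit 2481795612) (nat_lit 61) (nat_lit 5) (nat_lit 68) (nat_lit 5) (nat_lit 62) (nat_lit 5) (nat_lit 335) (nat_lit 306) (nat_lit 247)))) (XT.nd (nat_lit 188) (nat_lit 0) (nat_lit 0) (XT.nd (nat_lit 94) (nat_lit 420) (nat_lit 0) (XT.lf (nat_lit 0) (nat_lit 2401981040) (nat_lit 588) (nat_lit 2871610751) (nat_lit 84) (nat_lit 4923541922) (nat_lit 61) (nat_lit 5) (nat_lit 68) (nat_lit 5) (nat_lit 62) (nat_lit 5) (nat_lit 336) (nat_lit 306) (nat_lit 246)) (XT.lf (nat_lit 0) (nat_lit 729325168) (nat_lit 420) (nat_lit 2930052315) (nat_lit 504) (nat_lit 6720935690) (nat_lit 56) (nat_lit 5) (nat_lit 61) (nat_lit 5) (nat_lit 62) (nat_lit 5) (nat_lit 337) (nat_lit 306) (nat_lit 245))) (XT.nd (nat_lit 94) (nat_lit 0)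 (nat_lit 0) (XT.lf (nat_lit 0) (nat_lit 4477039425) (nat_lit 420) (nat_lit 482238182) (nat_lit 504) (nat_lit 5609969214) (nat_lit 56) (nat_lit 5) (nat_lit 61) (nat_lit 5) (nat_lit 62) (nat_lit 5) (nat_lit 338) (nat_lit 306) (nat_lit 244)) (XT.lf (nat_lit 0) (nat_lit 6294079041) (nat_lit 504) (nat_lit 2469291404) (nat_lit 84) (nat_lit 2001013555) (nat_lit 56) (nat_lit 5) (nat_lit 62) (nat_lit 5) (nat_lit 57) (nat_lit 5) (nat_lit 339) (nat_lit 306) (nat_lit 243))))) (XT.nd (nat_lit 376) (nat_lit 420) (nat_lit 0) (XT.nd (nat_lit 188) (nat_lit 420) (nat_lit 0) (XT.nd (nat_lit 94) (nat_lit 0) (nat_lit 0) (XT.lf (nat_lit 0) (nat_lit 1261258899) (nat_lit 420) (nat_lit 6401568467) (nat_lit 504) (nat_lit 3303147387) (nat_lit 51) (nat_lit 5) (nat_lit 56) (nat_lit 5) (nat_lit 57) (nat_lit 5) (nat_lit 340) (nat_lit 306) (nat_lit 242)) (XT.lf (nat_lit 0) (nat_lit 5134903142) (nat_lit 420) (nat_lit 3940503077)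 (nat_lit 504) (nat_lit 2098533925) (nat_lit 51) (nat_lit 5) (nat_lit 56) (nat_lit 5) (nat_lit 57) (nat_lit 5) (nat_lit 341) (nat_lit 306) (nat_lit 241))) (XT.nd (nat_lit 94) (nat_lit 420) (nat_lit 0) (XT.lf (nat_lit 0) (nat_lit 9104478270) (nat_lit 420) (nat_lit 1403654642) (nat_lit 504) (nat_lit 881116084) (nat_lit 51) (nat_lit 5) (nat_lit 56) (nat_lit 5) (nat_lit 57) (nat_lit 5) (nat_lit 342) (nat_lit 306) (nat_lit 240)) (XT.lf (nat_lit 0) (nat_lit 371172292) (nat_lit 420) (nat_lit 10033573014) (nat_lit 84) (nat_lit 1206381361) (nat_lit 46) (nat_lit 5) (nat_lit 51) (nat_lit 5) (nat_lit 47) (nat_lit 5) (nat_lit 343) (nat_lit 306) (nat_lit 239)))) (XT.nd (nat_lit 188) (nat_lit 420) (nat_lit 0) (XT.nd (nat_lit 94) (nat_lit 0) (nat_lit 0) (XT.lf (nat_lit 0) (nat_lit 1659561241) (nat_lit 420) (nat_lit 6279373071) (nat_lit 84) (nat_lit 3900335121) (nat_lit 46) (nat_lit 5) (nat_lit 51) (nat_lit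 5) (nat_lit 47) (nat_lit 5) (nat_lit 344) (nat_lit 306) (nat_lit 238)) (XT.lf (nat_lit 0) (nat_lit 2965711943) (nat_lit 420) (nat_lit 2432715446) (nat_lit 84) (nat_lit 6676889584) (nat_lit 46) (nat_lit 5) (nat_lit 51) (nat_lit 5) (nat_lit 47) (nat_lit 5) (nat_lit 345) (nat_lit 306) (nat_lit 237))) (XT.nd (nat_lit 94) (nat_lit 0) (nat_lit 0) (XT.lf (nat_lit 0) (nat_lit 1541033747) (nat_lit 420) (nat_lit 2765095366) (nat_lit 504) (nat_lit 8012886289) (nat_lit 41) (nat_lit 5) (nat_lit 46) (nat_lit 5) (nat_lit 47) (nat_lit 5) (nat_lit 346) (nat_lit 306) (nat_lit 236)) (XT.nd (nat_lit 94) (nat_lit 0) (nat_lit 0) (XT.lf (nat_lit 0) (nat_lit 5666573151) (nat_lit 420) (nat_lit 25826129) (nat_lit 504) (nat_lit 6877872142) (nat_lit 41) (nat_lit 5) (nat_lit 46) (nat_lit 5) (nat_lit 47) (nat_lit 5) (nat_lit 347) (nat_lit 306) (nat_lit 235)) (XT.lf (nat_lit 0) (nat_lit 7128927569) (nat_lit 504) (nat_lit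 2960098181) (nat_lit 84) (nat_lit 2740196976) (nat_lit 41) (nat_lit 5) (nat_lit 47) (nat_lit 5) (nat_lit 42) (nat_lit 5) (nat_lit 348) (nat_lit 306) (nat_lit 234))))))) (XT.nd (nat_lit 752) (nat_lit 588) (nat_lit 0) (XT.nd (nat_lit 376) (nat_lit 336) (nat_lit 0) (XT.nd (nat_lit 188) (nat_lit 336) (nat_lit 0) (XT.nd (nat_lit 94) (nat_lit 0) (nat_lit 0) (XT.lf (nat_lit 0) (nat_lit 1105427618) (nat_lit 336) (nat_lit 7495930081) (nat_lit 420) (nat_lit 4495239543) (nat_lit 37) (nat_lit 5) (nat_lit 41) (nat_lit 5) (nat_lit 42) (nat_lit 5) (nat_lit 349) (nat_lit 306) (nat_lit 233)) (XT.lf (nat_lit 0) (nat_lit 5337629697) (nat_lit 336) (nat_lit 4793218022) (nat_lit 420) (nat_lit 3241183114) (nat_lit 37) (nat_lit 5) (nat_lit 41) (nat_lit 5) (nat_lit 42) (nat_lit 5) (nat_lit 350) (nat_lit 306) (nat_lit 232))) (XT.nd (nat_lit 94) (nat_lit 336) (nat_lit 0) (XT.lf (nat_lit 0) (nat_lit 9679587222) (nat_lit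 336) (nat_lit 2009267718) (nat_lit 420) (nat_lit 1967854312) (nat_lit 37) (nat_lit 5) (nat_lit 41) (nat_lit 5) (nat_lit 42) (nat_lit 5) (nat_lit 351) (nat_lit 306) (nat_lit 231)) (XT.lf (nat_lit 0) (nat_lit 179550460) (nat_lit 336) (nat_lit 13107578873) (nat_lit 420) (nat_lit 663449287) (nat_lit 33) (nat_lit 5) (nat_lit 37) (nat_lit 5) (nat_lit 38) (nat_lit 5) (nat_lit 352) (nat_lit 306) (nat_lit 230)))) (XT.nd (nat_lit 188) (nat_lit 252) (nat_lit 0) (XT.nd (nat_lit 94) (nat_lit 0) (nat_lit 0) (XT.lf (nat_lit 0) (nat_lit 711843875) (nat_lit 420) (nat_lit 9752340446) (nat_lit 84) (nat_lit 3787904515) (nat_lit 32) (nat_lit 5) (nat_lit 37) (nat_lit 5) (nat_lit 33) (nat_lit 5) (nat_lit 353) (nat_lit 306) (nat_lit 229)) (XT.lf (nat_lit 0) (nat_lit 2098232652) (nat_lit 420) (nat_lit 5636933573) (nat_lit 84) (nat_lit 6828226482) (nat_lit 32) (nat_lit 5) (nat_lit 37) (nat_lit 5) (nat_lit 33) (nat_lit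 5) (nat_lit 354) (nat_lit 306) (nat_lit 228))) (XT.nd (nat_lit 94) (nat_lit 252) (nat_lit 0) (XT.lf (nat_lit 0) (nat_lit 3510376327) (nat_lit 420) (nat_lit 1414390050) (nat_lit 84) (nat_lit 9960218048) (nat_lit 32) (nat_lit 5) (nat_lit 37) (nat_lit 5) (nat_lit 33) (nat_lit 5) (nat_lit 355) (nat_lit 306) (nat_lit 227)) (XT.lf (nat_lit 0) (nat_lit 2979251247) (nat_lit 252) (nat_lit 1999894460) (nat_lit 336) (nat_lit 10237101850) (nat_lit 29) (nat_lit 5) (nat_lit 32) (nat_lit 5) (nat_lit 33) (nat_lit 5) (nat_lit 356) (nat_lit 306) (nat_lit 226))))) (XT.nd (nat_lit 376) (nat_lit 336) (nat_lit 0) (XT.nd (nat_lit 188) (nat_lit 252) (nat_lit 0) (XT.nd (nat_lit 94) (nat_lit 0) (nat_lit 0) (XT.lf (nat_lit 0) (nat_lit 6502006916) (nat_lit 336) (nat_lit 8048668096) (nat_lit 84) (nat_lit 1006936855) (nat_lit 29) (nat_lit 5) (nat_lit 33) (nat_lit 5) (nat_lit 30) (nat_lit 5) (nat_lit 357) (nat_lit 306)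 (nat_lit 225)) (XT.lf (nat_lit 0) (nat_lit 8076595337) (nat_lit 336) (nat_lit 3770547879) (nat_lit 84) (nat_lit 4062369630) (nat_lit 29) (nat_lit 5) (nat_lit 33) (nat_lit 5) (nat_lit 30) (nat_lit 5) (nat_lit 358) (nat_lit 306) (nat_lit 224))) (XT.nd (nat_lit 94) (nat_lit 0) (nat_lit 0) (XT.lf (nat_lit 0) (nat_lit 633964158) (nat_lit 252) (nat_lit 9056864296) (nat_lit 336) (nat_lit 6581870108) (nat_lit 26) (nat_lit 5) (nat_lit 29) (nat_lit 5) (nat_lit 30) (nat_lit 5) (nat_lit 359) (nat_lit 306) (nat_lit 223)) (XT.lf (nat_lit 0) (nat_lit 5236139221) (nat_lit 252) (nat_lit 6143141959) (nat_lit 336) (nat_lit 5267201180) (nat_lit 26) (nat_lit 5) (nat_lit 29) (nat_lit 5) (nat_lit 30) (nat_lit 5) (nat_lit 360) (nat_lit 306) (nat_lit 222)))) (XT.nd (nat_lit 188) (nat_lit 336) (nat_lit 0) (XT.nd (nat_lit 94) (nat_lit 0) (nat_lit 0) (XT.lf (nat_lit 0) (nat_lit 9962736821) (nat_lit 252) (nat_lit 3142617100)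 (nat_lit 336) (nat_lit 3927042104) (nat_lit 26) (nat_lit 5) (nat_lit 29) (nat_lit 5) (nat_lit 30) (nat_lit 5) (nat_lit 361) (nat_lit 306) (nat_lit 221)) (XT.lf (nat_lit 0) (nat_lit 14818162640) (nat_lit 252) (nat_lit 52492914) (nat_lit 336) (nat_lit 2560143711) (nat_lit 26) (nat_lit 5) (nat_lit 29) (nat_lit 5) (nat_lit 30) (nat_lit 5) (nat_lit 362) (nat_lit 306) (nat_lit 220))) (XT.nd (nat_lit 94) (nat_lit 84) (nat_lit 0) (XT.lf (nat_lit 0) (nat_lit 1973591387) (nat_lit 252) (nat_lit 14753869499) (nat_lit 336) (nat_lit 1113033041) (nat_lit 23) (nat_lit 5) (nat_lit 26) (nat_lit 5) (nat_lit 27) (nat_lit 5) (nat_lit 363) (nat_lit 306) (nat_lit 219)) (XT.nd (nat_lit 94) (nat_lit 0) (nat_lit 0) (XT.lf (nat_lit 0) (nat_lit 385534418) (nat_lit 336) (nat_lit 11527063978) (nat_lit 84) (nat_lit 6349809307) (nat_lit 22) (nat_lit 5) (nat_lit 26) (nat_lit 5) (nat_lit 23) (nat_lit 5) (nat_lit 364) (nat_lit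 306) (nat_lit 218)) (XT.lf (nat_lit 0) (nat_lit 1893998508) (nat_lit 336) (nat_lit 7081362520) (nat_lit 84) (nat_lit 9722177466) (nat_lit 22) (nat_lit 5) (nat_lit 26) (nat_lit 5) (nat_lit 23) (nat_lit 5) (nat_lit 365) (nat_lit 306) (nat_lit 217))))))))
noncomputable def xc69 : XT := (XT.nd (nat_lit 50948) (nat_lit 0) (nat_lit 4956) (XT.nd (nat_lit 752) (nat_lit 0) (nat_lit 0) (XT.nd (nat_lit 376) (nat_lit 168) (nat_lit 0) (XT.nd (nat_lit 188) (nat_lit 0) (nat_lit 0) (XT.nd (nat_lit 94) (nat_lit 252) (nat_lit 0) (XT.lf (nat_lit 0) (nat_lit 3436190410) (nat_lit 336) (nat_lit 2514612882) (nat_lit 84) (nat_lit 13195830879) (nat_lit 22) (nat_lit 5) (nat_lit 26) (nat_lit 5) (nat_lit 23) (nat_lit 5) (nat_lit 366) (nat_lit 306) (nat_lit 216)) (XT.lf (nat_lit 0) (nat_lit 2222214291) (nat_lit 252) (nat_lit 2813377956) (nat_lit 336) (nat_lit 14573837704) (nat_lit 19) (nat_lit 5) (nat_lit 22) (nat_lit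 5) (nat_lit 23) (nat_lit 5) (nat_lit 367) (nat_lit 306) (nat_lit 215))) (XT.nd (nat_lit 94) (nat_lit 0) (nat_lit 0) (XT.lf (nat_lit 0) (nat_lit 6702812110) (nat_lit 336) (nat_lit 12947530851) (nat_lit 84) (nat_lit 435731617) (nat_lit 19) (nat_lit 5) (nat_lit 23) (nat_lit 5) (nat_lit 20) (nat_lit 5) (nat_lit 368) (nat_lit 306) (nat_lit 214)) (XT.lf (nat_lit 0) (nat_lit 8438405927) (nat_lit 336) (nat_lit 8415009278) (nat_lit 84) (nat_lit 3723628068) (nat_lit 19) (nat_lit 5) (nat_lit 23) (nat_lit 5) (nat_lit 20) (nat_lit 5) (nat_lit 369) (nat_lit 306) (nat_lit 213)))) (XT.nd (nat_lit 188) (nat_lit 0) (nat_lit 0) (XT.nd (nat_lit 94) (nat_lit 168) (nat_lit 0) (XT.lf (nat_lit 0) (nat_lit 10216082395) (nat_lit 336) (nat_lit 3757517100) (nat_lit 84) (nat_lit 7110059357) (nat_lit 19) (nat_lit 5) (nat_lit 23) (nat_lit 5) (nat_lit 20) (nat_lit 5) (nat_lit 370) (nat_lit 306) (nat_lit 212)) (XT.lf (nat_lit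 0) (nat_lit 1050451205) (nat_lit 168) (nat_lit 10997467897) (nat_lit 252) (nat_lit 9558151391) (nat_lit 17) (nat_lit 5) (nat_lit 19) (nat_lit 5) (nat_lit 20) (nat_lit 5) (nat_lit 371) (nat_lit 306) (nat_lit 211))) (XT.nd (nat_lit 94) (nat_lit 0) (nat_lit 0) (XT.lf (nat_lit 0) (nat_lit 6072206108) (nat_lit 168) (nat_lit 7892382908) (nat_lit 252) (nat_lit 8179278193) (nat_lit 17) (nat_lit 5) (nat_lit 19) (nat_lit 5) (nat_lit 20) (nat_lit 5) (nat_lit 372) (nat_lit 306) (nat_lit 210)) (XT.lf (nat_lit 0) (nat_lit 11235166153) (nat_lit 168) (nat_lit 4694671036) (nat_lit 252) (nat_lit 6768892380) (nat_lit 17) (nat_lit 5) (nat_lit 19) (nat_lit 5) (nat_lit 20) (nat_lit 5) (nat_lit 373) (nat_lit 306) (nat_lit 209))))) (XT.nd (nat_lit 49726) (nat_lit 0) (nat_lit 8148) (XT.nd (nat_lit 49538) (nat_lit 0) (nat_lit 8736) (XT.nd (nat_lit 49444) (nat_lit 0) (nat_lit 9324) (XT.lf (nat_lit 0) (nat_lit 16544143760)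 (nat_lit 168) (nat_lit 1401351678) (nat_lit 252) (nat_lit 5325679325) (nat_lit 17) (nat_lit 5) (nat_lit 19) (nat_lit 5) (nat_lit 20) (nat_lit 5) (nat_lit 374) (nat_lit 306) (nat_lit 208)) (XT.lf (nat_lit 0) (nat_lit 3427803400) (nat_lit 588) (nat_lit 47494925) (nat_lit 588) (nat_lit 47494925) (nat_lit 128) (nat_lit 3) (nat_lit 135) (nat_lit 3) (nat_lit 135) (nat_lit 5) (nat_lit 307) (nat_lit 307) (nat_lit 274))) (XT.nd (nat_lit 94) (nat_lit 0) (nat_lit 0) (XT.lf (nat_lit 0) (nat_lit 1167374655) (nat_lit 588) (nat_lit 4734918855) (nat_lit 672) (nat_lit 1198322562) (nat_lit 121) (nat_lit 5) (nat_lit 128) (nat_lit 3) (nat_lit 129) (nat_lit 5) (nat_lit 308) (nat_lit 307) (nat_lit 273)) (XT.lf (nat_lit 0) (nat_lit 2509884957) (nat_lit 588) (nat_lit 2284159710) (nat_lit 672) (nat_lit 2365380012) (nat_lit 121) (nat_lit 5) (nat_lit 128) (nat_lit 3) (nat_lit 129) (nat_lit 5) (nat_lit 309) (nat_lit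 307) (nat_lit 272)))) (XT.nd (nat_lit 188) (nat_lit 588) (nat_lit 0) (XT.nd (nat_lit 94) (nat_lit 0) (nat_lit 0) (XT.lf (nat_lit 84) (nat_lit 218295065) (nat_lit 0) (nat_lit 3625529157) (nat_lit 672) (nat_lit 3378264323) (nat_lit 122) (nat_lit 5) (nat_lit 121) (nat_lit 5) (nat_lit 129) (nat_lit 5) (nat_lit 310) (nat_lit 307) (nat_lit 271)) (XT.lf (nat_lit 84) (nat_lit 2818363182) (nat_lit 0) (nat_lit 2373532591) (nat_lit 672) (nat_lit 2096105048) (nat_lit 122) (nat_lit 5) (nat_lit 121) (nat_lit 5) (nat_lit 129) (nat_lit 5) (nat_lit 311) (nat_lit 307) (nat_lit 270))) (XT.nd (nat_lit 94) (nat_lit 588) (nat_lit 0) (XT.lf (nat_lit 84) (nat_lit 5471501167) (nat_lit 0) (nat_lit 1060729922) (nat_lit 672) (nat_lit 825708733) (nat_lit 122) (nat_lit 5) (nat_lit 121) (nat_lit 5) (nat_lit 129) (nat_lit 5) (nat_lit 312) (nat_lit 307) (nat_lit 269)) (XT.nd (nat_lit 94) (nat_lit 0) (nat_lit 0) (XT.lf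 (nat_lit 0) (nat_lit 436130815) (nat_lit 672) (nat_lit 6675639696) (nat_lit 756) (nat_lit 319732909) (nat_lit 114) (nat_lit 5) (nat_lit 122) (nat_lit 5) (nat_lit 123) (nat_lit 5) (nat_lit 313) (nat_lit 307) (nat_lit 268)) (XT.lf (nat_lit 0) (nat_lit 1703114915) (nat_lit 672) (nat_lit 4036098035) (nat_lit 756) (nat_lit 1768803085) (nat_lit 114) (nat_lit 5) (nat_lit 122) (nat_lit 5) (nat_lit 123) (nat_lit 5) (nat_lit 314) (nat_lit 307) (nat_lit 267))))))) (XT.nd (nat_lit 752) (nat_lit 2520) (nat_lit 0) (XT.nd (nat_lit 376) (nat_lit 672) (nat_lit 0) (XT.nd (nat_lit 188) (nat_lit 0) (nat_lit 0) (XT.nd (nat_lit 94) (nat_lit 0) (nat_lit 0) (XT.lf (nat_lit 0) (nat_lit 2963244315) (nat_lit 672) (nat_lit 1343765231) (nat_lit 756) (nat_lit 3281717672) (nat_lit 114) (nat_lit 5) (nat_lit 122) (nat_lit 5) (nat_lit 123) (nat_lit 5) (nat_lit 315) (nat_lit 307) (nat_lit 266)) (XT.lf (nat_lit 84) (nat_lit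 1432734661) (nat_lit 0) (nat_lit 2799171832) (nat_lit 756) (nat_lit 3441365109) (nat_lit 115) (nat_lit 5) (nat_lit 114) (nat_lit 5) (nat_lit 123) (nat_lit 5) (nat_lit 316) (nat_lit 307) (nat_lit 265))) (XT.nd (nat_lit 94) (nat_lit 0) (nat_lit 84) (XT.lf (nat_lit 84) (nat_lit 4295916643) (nat_lit 0) (nat_lit 1214331395) (nat_lit 756) (nat_lit 2251481065) (nat_lit 115) (nat_lit 5) (nat_lit 114) (nat_lit 5) (nat_lit 123) (nat_lit 5) (nat_lit 317) (nat_lit 307) (nat_lit 264)) (XT.lf (nat_lit 0) (nat_lit 6790170966) (nat_lit 672) (nat_lit 638099869) (nat_lit 756) (nat_lit 426199314) (nat_lit 115) (nat_lit 5) (nat_lit 123) (nat_lit 5) (nat_lit 124) (nat_lit 5) (nat_lit 318) (nat_lit 307) (nat_lit 263)))) (XT.nd (nat_lit 188) (nat_lit 0) (nat_lit 0) (XT.nd (nat_lit 94) (nat_lit 0) (nat_lit 0) (XT.lf (nat_lit 0) (nat_lit 150188988) (nat_lit 756) (nat_lit 5669291016) (nat_lit 840) (nat_lit 2131092171)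 (nat_lit 106) (nat_lit 5) (nat_lit 115) (nat_lit 5) (nat_lit 116) (nat_lit 5) (nat_lit 319) (nat_lit 307) (nat_lit 262)) (XT.lf (nat_lit 0) (nat_lit 1346219487) (nat_lit 756) (nat_lit 2784591671) (nat_lit 840) (nat_lit 3919888951) (nat_lit 106) (nat_lit 5) (nat_lit 115) (nat_lit 5) (nat_lit 116) (nat_lit 5) (nat_lit 320) (nat_lit 307) (nat_lit 261))) (XT.nd (nat_lit 94) (nat_lit 0) (nat_lit 0) (XT.lf (nat_lit 84) (nat_lit 164841184) (nat_lit 0) (nat_lit 2376618196) (nat_lit 840) (nat_lit 5613966820) (nat_lit 107) (nat_lit 5) (nat_lit 106) (nat_lit 5) (nat_lit 116) (nat_lit 5) (nat_lit 321) (nat_lit 307) (nat_lit 260)) (XT.lf (nat_lit 84) (nat_lit 3237008596) (nat_lit 0) (nat_lit 527218427) (nat_lit 840) (nat_lit 4499777708) (nat_lit 107) (nat_lit 5) (nat_lit 106) (nat_lit 5) (nat_lit 116) (nat_lit 5) (nat_lit 322) (nat_lit 307) (nat_lit 259))))) (XT.nd (nat_lit 376) (nat_lit 1764) (nat_lit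 0) (XT.nd (nat_lit 188) (nat_lit 84) (nat_lit 0) (XT.nd (nat_lit 94) (nat_lit 756) (nat_lit 0) (XT.lf (nat_lit 0) (nat_lit 5001260108) (nat_lit 756) (nat_lit 2013683050) (nat_lit 84) (nat_lit 1362040216) (nat_lit 107) (nat_lit 5) (nat_lit 116) (nat_lit 5) (nat_lit 108) (nat_lit 5) (nat_lit 323) (nat_lit 307) (nat_lit 258)) (XT.lf (nat_lit 0) (nat_lit 1081840904) (nat_lit 756) (nat_lit 5174721515) (nat_lit 840) (nat_lit 2237816643) (nat_lit 98) (nat_lit 5) (nat_lit 107) (nat_lit 5) (nat_lit 108) (nat_lit 5) (nat_lit 324) (nat_lit 307) (nat_lit 257))) (XT.nd (nat_lit 94) (nat_lit 84) (nat_lit 0) (XT.lf (nat_lit 0) (nat_lit 4288688295) (nat_lit 756) (nat_lit 3247723990) (nat_lit 840) (nat_lit 1079730579) (nat_lit 98) (nat_lit 5) (nat_lit 107) (nat_lit 5) (nat_lit 108) (nat_lit 5) (nat_lit 325) (nat_lit 307) (nat_lit 256)) (XT.lf (nat_lit 0) (nat_lit 77012133) (nat_lit 840) (nat_lit 1175357159)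 (nat_lit 84) (nat_lit 7490626807) (nat_lit 97) (nat_lit 5) (nat_lit 107) (nat_lit 5) (nat_lit 98) (nat_lit 5) (nat_lit 326) (nat_lit 307) (nat_lit 255)))) (XT.nd (nat_lit 188) (nat_lit 924) (nat_lit 0) (XT.nd (nat_lit 94) (nat_lit 0) (nat_lit 0) (XT.lf (nat_lit 0) (nat_lit 1242293862) (nat_lit 924) (nat_lit 6803861050) (nat_lit 84) (nat_lit 827694836) (nat_lit 87) (nat_lit 5) (nat_lit 98) (nat_lit 5) (nat_lit 88) (nat_lit 5) (nat_lit 327) (nat_lit 307) (nat_lit 254)) (XT.lf (nat_lit 0) (nat_lit 2435834611) (nat_lit 924) (nat_lit 3608195304) (nat_lit 84) (nat_lit 2965224643) (nat_lit 87) (nat_lit 5) (nat_lit 98) (nat_lit 5) (nat_lit 88) (nat_lit 5) (nat_lit 328) (nat_lit 307) (nat_lit 253))) (XT.nd (nat_lit 94) (nat_lit 924) (nat_lit 0) (XT.lf (nat_lit 0) (nat_lit 3634302086) (nat_lit 924) (nat_lit 340368600) (nat_lit 84) (nat_lit 5175423842) (nat_lit 87) (nat_lit 5) (nat_lit 98) (nat_lit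 5) (nat_lit 88) (nat_lit 5) (nat_lit 329) (nat_lit 307) (nat_lit 252)) (XT.nd (nat_lit 94) (nat_lit 0) (nat_lit 0) (XT.lf (nat_lit 0) (nat_lit 3064405969) (nat_lit 924) (nat_lit 1804806701) (nat_lit 1008) (nat_lit 4426345887) (nat_lit 76) (nat_lit 5) (nat_lit 87) (nat_lit 5) (nat_lit 88) (nat_lit 5) (nat_lit 330) (nat_lit 307) (nat_lit 251)) (XT.lf (nat_lit 0) (nat_lit 6119899334) (nat_lit 1008) (nat_lit 2894852062) (nat_lit 84) (nat_lit 431707198) (nat_lit 76) (nat_lit 5) (nat_lit 88) (nat_lit 5) (nat_lit 77) (nat_lit 5) (nat_lit 331) (nat_lit 307) (nat_lit 250))))))))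
noncomputable def xc70 : XT := (XT.nd (nat_lit 1598) (nat_lit 1596) (nat_lit 0) (XT.nd (nat_lit 752) (nat_lit 1260) (nat_lit 0) (XT.nd (nat_lit 376) (nat_lit 420) (nat_lit 0) (XT.nd (nat_lit 188) (nat_lit 588) (nat_lit 0) (XT.nd (nat_lit 94) (nat_lit 0) (nat_lit 0) (XT.lf (nat_lit 0) (nat_lit 510463493) (nat_lit 672) (nat_lit 6892946225) (nat_lit 756) (nat_lit 2199033239) (nat_lit 68) (nat_lit 5) (nat_lit 76) (nat_lit 5) (nat_lit 77) (nat_lit 5) (nat_lit 332) (nat_lit 307) (nat_lit 249)) (XT.lf (nat_lit 0) (nat_lit 4056742730) (nat_lit 672) (nat_lit 4671340640) (nat_lit 756) (nat_lit 1035352229) (nat_lit 68) (nat_lit 5) (nat_lit 76) (nat_lit 5) (nat_lit 77) (nat_lit 5) (nat_lit 333) (nat_lit 307) (nat_lit 248))) (XT.nd (nat_lit 94) (nat_lit 504) (nat_lit 0) (XT.lf (nat_lit 0) (nat_lit 132625079) (nat_lit 756) (nat_lit 2244070778) (nat_lit 84) (nat_lit 7553757642) (nat_lit 67) (nat_lit 5)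 (nat_lit 76) (nat_lit 5) (nat_lit 68) (nat_lit 5) (nat_lit 334) (nat_lit 307) (nat_lit 247)) (XT.lf (nat_lit 0) (nat_lit 1300912121) (nat_lit 588) (nat_lit 8786491520) (nat_lit 84) (nat_lit 15559688) (nat_lit 61) (nat_lit 5) (nat_lit 68) (nat_lit 5) (nat_lit 62) (nat_lit 5) (nat_lit 335) (nat_lit 307) (nat_lit 246)))) (XT.nd (nat_lit 188) (nat_lit 420) (nat_lit 0) (XT.nd (nat_lit 94) (nat_lit 0) (nat_lit 0) (XT.lf (nat_lit 0) (nat_lit 2526380998) (nat_lit 588) (nat_lit 5295668517) (nat_lit 84) (nat_lit 2458312151) (nat_lit 61) (nat_lit 5) (nat_lit 68) (nat_lit 5) (nat_lit 62) (nat_lit 5) (nat_lit 336) (nat_lit 307) (nat_lit 245)) (XT.lf (nat_lit 0) (nat_lit 3763645292) (nat_lit 588) (nat_lit 1721838970) (nat_lit 84) (nat_lit 4978771989) (nat_lit 61) (nat_lit 5) (nat_lit 68) (nat_lit 5) (nat_lit 62) (nat_lit 5) (nat_lit 337) (nat_lit 307) (nat_lit 244))) (XT.nd (nat_lit 94) (nat_lit 0) (nat_lit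 0) (XT.lf (nat_lit 0) (nat_lit 1978184310) (nat_lit 420) (nat_lit 3055297788) (nat_lit 504) (nat_lit 5620728059) (nat_lit 56) (nat_lit 5) (nat_lit 61) (nat_lit 5) (nat_lit 62) (nat_lit 5) (nat_lit 338) (nat_lit 307) (nat_lit 243)) (XT.lf (nat_lit 0) (nat_lit 5805206950) (nat_lit 420) (nat_lit 530566665) (nat_lit 504) (nat_lit 4514667166) (nat_lit 56) (nat_lit 5) (nat_lit 61) (nat_lit 5) (nat_lit 62) (nat_lit 5) (nat_lit 339) (nat_lit 307) (nat_lit 242))))) (XT.nd (nat_lit 376) (nat_lit 756) (nat_lit 0) (XT.nd (nat_lit 188) (nat_lit 84) (nat_lit 0) (XT.nd (nat_lit 94) (nat_lit 420) (nat_lit 0) (XT.lf (nat_lit 0) (nat_lit 7674866953) (nat_lit 504) (nat_lit 1346845142) (nat_lit 84) (nat_lit 2031321809) (nat_lit 56) (nat_lit 5) (nat_lit 62) (nat_lit 5) (nat_lit 57) (nat_lit 5) (nat_lit 340) (nat_lit 307) (nat_lit 241)) (XT.lf (nat_lit 0) (nat_lit 2487213480) (nat_lit 420) (nat_lit 6574956105)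 (nat_lit 504) (nat_lit 2199693838) (nat_lit 51) (nat_lit 5) (nat_lit 56) (nat_lit 5) (nat_lit 57) (nat_lit 5) (nat_lit 341) (nat_lit 307) (nat_lit 240))) (XT.nd (nat_lit 94) (nat_lit 84) (nat_lit 0) (XT.lf (nat_lit 0) (nat_lit 6445254446) (nat_lit 420) (nat_lit 4038351219) (nat_lit 504) (nat_lit 993994763) (nat_lit 51) (nat_lit 5) (nat_lit 56) (nat_lit 5) (nat_lit 57) (nat_lit 5) (nat_lit 342) (nat_lit 307) (nat_lit 239)) (XT.lf (nat_lit 0) (nat_lit 221442497) (nat_lit 504) (nat_lit 1199837454) (nat_lit 84) (nat_lit 10279519262) (nat_lit 50) (nat_lit 5) (nat_lit 56) (nat_lit 5) (nat_lit 51) (nat_lit 5) (nat_lit 343) (nat_lit 307) (nat_lit 238)))) (XT.nd (nat_lit 188) (nat_lit 420) (nat_lit 0) (XT.nd (nat_lit 94) (nat_lit 0) (nat_lit 0) (XT.lf (nat_lit 0) (nat_lit 1472540764) (nat_lit 420) (nat_lit 9169039587) (nat_lit 84) (nat_lit 1288588944) (nat_lit 46) (nat_lit 5) (nat_lit 51) (nat_lit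 5) (nat_lit 47) (nat_lit 5) (nat_lit 344) (nat_lit 307) (nat_lit 237)) (XT.lf (nat_lit 0) (nat_lit 2768099910) (nat_lit 420) (nat_lit 5333806489) (nat_lit 84) (nat_lit 4064707935) (nat_lit 46) (nat_lit 5) (nat_lit 51) (nat_lit 5) (nat_lit 47) (nat_lit 5) (nat_lit 345) (nat_lit 307) (nat_lit 236))) (XT.nd (nat_lit 94) (nat_lit 420) (nat_lit 0) (XT.lf (nat_lit 0) (nat_lit 4082956744) (nat_lit 420) (nat_lit 1402186707) (nat_lit 84) (nat_lit 6926028763) (nat_lit 46) (nat_lit 5) (nat_lit 51) (nat_lit 5) (nat_lit 47) (nat_lit 5) (nat_lit 346) (nat_lit 307) (nat_lit 235)) (XT.nd (nat_lit 94) (nat_lit 0) (nat_lit 0) (XT.lf (nat_lit 0) (nat_lit 2683552032) (nat_lit 420) (nat_lit 2761405986) (nat_lit 504) (nat_lit 7218287615) (nat_lit 41) (nat_lit 5) (nat_lit 46) (nat_lit 5) (nat_lit 47) (nat_lit 5) (nat_lit 347) (nat_lit 307) (nat_lit 234)) (XT.lf (nat_lit 0) (nat_lit 6844570260) (nat_lit 504) (nat_lit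 6019952605) (nat_lit 84) (nat_lit 58881579) (nat_lit 41) (nat_lit 5) (nat_lit 47) (nat_lit 5) (nat_lit 42) (nat_lit 5) (nat_lit 348) (nat_lit 307) (nat_lit 233))))))) (XT.nd (nat_lit 752) (nat_lit 840) (nat_lit 0) (XT.nd (nat_lit 376) (nat_lit 420) (nat_lit 0) (XT.nd (nat_lit 188) (nat_lit 0) (nat_lit 0) (XT.nd (nat_lit 94) (nat_lit 336) (nat_lit 0) (XT.lf (nat_lit 0) (nat_lit 8296549680) (nat_lit 504) (nat_lit 1987364453) (nat_lit 84) (nat_lit 2907560008) (nat_lit 41) (nat_lit 5) (nat_lit 47) (nat_lit 5) (nat_lit 42) (nat_lit 5) (nat_lit 349) (nat_lit 307) (nat_lit 232)) (XT.lf (nat_lit 0) (nat_lit 2193415572) (nat_lit 336) (nat_lit 7603199569) (nat_lit 420) (nat_lit 3671264122) (nat_lit 37) (nat_lit 5) (nat_lit 41) (nat_lit 5) (nat_lit 42) (nat_lit 5) (nat_lit 350) (nat_lit 307) (nat_lit 231))) (XT.nd (nat_lit 94) (nat_lit 0) (nat_lit 0) (XT.lf (nat_lit 0) (nat_lit 6525132783) (nat_lit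 336) (nat_lit 4820465061) (nat_lit 420) (nat_lit 2407297184) (nat_lit 37) (nat_lit 5) (nat_lit 41) (nat_lit 5) (nat_lit 42) (nat_lit 5) (nat_lit 351) (nat_lit 307) (nat_lit 230)) (XT.lf (nat_lit 0) (nat_lit 10970960502) (nat_lit 336) (nat_lit 1953860817) (nat_lit 420) (nat_lit 1122589507) (nat_lit 37) (nat_lit 5) (nat_lit 41) (nat_lit 5) (nat_lit 42) (nat_lit 5) (nat_lit 352) (nat_lit 307) (nat_lit 229)))) (XT.nd (nat_lit 188) (nat_lit 0) (nat_lit 0) (XT.nd (nat_lit 94) (nat_lit 0) (nat_lit 0) (XT.lf (nat_lit 0) (nat_lit 202363897) (nat_lit 420) (nat_lit 13155517761) (nat_lit 84) (nat_lit 993080429) (nat_lit 32) (nat_lit 5) (nat_lit 37) (nat_lit 5) (nat_lit 33) (nat_lit 5) (nat_lit 353) (nat_lit 307) (nat_lit 228)) (XT.lf (nat_lit 0) (nat_lit 1580272540) (nat_lit 420) (nat_lit 9050175370) (nat_lit 84) (nat_lit 4032131898) (nat_lit 32) (nat_lit 5) (nat_lit 37) (nat_lit 5) (nat_lit 33) (nat_lit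 5) (nat_lit 354) (nat_lit 307) (nat_lit 227))) (XT.nd (nat_lit 94) (nat_lit 0) (nat_lit 0) (XT.lf (nat_lit 0) (nat_lit 2984191060) (nat_lit 420) (nat_lit 4837393712) (nat_lit 84) (nat_lit 7162891166) (nat_lit 32) (nat_lit 5) (nat_lit 37) (nat_lit 5) (nat_lit 33) (nat_lit 5) (nat_lit 355) (nat_lit 307) (nat_lit 226)) (XT.lf (nat_lit 0) (nat_lit 4415428057) (nat_lit 420) (nat_lit 513246033) (nat_lit 84) (nat_lit 10388276430) (nat_lit 32) (nat_lit 5) (nat_lit 37) (nat_lit 5) (nat_lit 33) (nat_lit 5) (nat_lit 356) (nat_lit 307) (nat_lit 225))))) (XT.nd (nat_lit 376) (nat_lit 336) (nat_lit 0) (XT.nd (nat_lit 188) (nat_lit 252) (nat_lit 0) (XT.nd (nat_lit 94) (nat_lit 0) (nat_lit 0) (XT.lf (nat_lit 0) (nat_lit 4007030968) (nat_lit 252) (nat_lit 1908036869) (nat_lit 336) (nat_lit 9744013362) (nat_lit 29) (nat_lit 5) (nat_lit 32) (nat_lit 5) (nat_lit 33) (nat_lit 5) (nat_lit 357) (nat_lit 307)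 (nat_lit 224)) (XT.lf (nat_lit 0) (nat_lit 7463117983) (nat_lit 336) (nat_lit 7364358464) (nat_lit 84) (nat_lit 1184373525) (nat_lit 29) (nat_lit 5) (nat_lit 33) (nat_lit 5) (nat_lit 30) (nat_lit 5) (nat_lit 358) (nat_lit 307) (nat_lit 223))) (XT.nd (nat_lit 94) (nat_lit 252) (nat_lit 0) (XT.lf (nat_lit 0) (nat_lit 9063680609) (nat_lit 336) (nat_lit 2981694473) (nat_lit 84) (nat_lit 4330128140) (nat_lit 29) (nat_lit 5) (nat_lit 33) (nat_lit 5) (nat_lit 30) (nat_lit 5) (nat_lit 359) (nat_lit 307) (nat_lit 222)) (XT.lf (nat_lit 0) (nat_lit 1550187630) (nat_lit 252) (nat_lit 9164510071) (nat_lit 336) (nat_lit 6035792260) (nat_lit 26) (nat_lit 5) (nat_lit 29) (nat_lit 5) (nat_lit 30) (nat_lit 5) (nat_lit 360) (nat_lit 307) (nat_lit 221)))) (XT.nd (nat_lit 188) (nat_lit 336) (nat_lit 0) (XT.nd (nat_lit 94) (nat_lit 0) (nat_lit 0) (XT.lf (nat_lit 0) (nat_lit 6268072130) (nat_lit 252) (nat_lit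 6165667606) (nat_lit 336) (nat_lit 4702922999) (nat_lit 26) (nat_lit 5) (nat_lit 29) (nat_lit 5) (nat_lit 30) (nat_lit 5) (nat_lit 361) (nat_lit 307) (nat_lit 220)) (XT.lf (nat_lit 0) (nat_lit 11115046834) (nat_lit 252) (nat_lit 3077175229) (nat_lit 336) (nat_lit 3343095232) (nat_lit 26) (nat_lit 5) (nat_lit 29) (nat_lit 5) (nat_lit 30) (nat_lit 5) (nat_lit 362) (nat_lit 307) (nat_lit 219))) (XT.nd (nat_lit 94) (nat_lit 336) (nat_lit 0) (XT.lf (nat_lit 0) (nat_lit 15992813937) (nat_lit 336) (nat_lit 1852225762) (nat_lit 84) (nat_lit 101753595) (nat_lit 26) (nat_lit 5) (nat_lit 30) (nat_lit 5) (nat_lit 27) (nat_lit 5) (nat_lit 363) (nat_lit 307) (nat_lit 218)) (XT.nd (nat_lit 94) (nat_lit 84) (nat_lit 0) (XT.lf (nat_lit 0) (nat_lit 2867125430) (nat_lit 252) (nat_lit 15028952650) (nat_lit 336) (nat_lit 473570776) (nat_lit 23) (nat_lit 5) (nat_lit 26) (nat_lit 5) (nat_lit 27) (nat_lit 5) (nat_lit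 364) (nat_lit 307) (nat_lit 217)) (XT.lf (nat_lit 0) (nat_lit 1038016897) (nat_lit 336) (nat_lit 11060380398) (nat_lit 84) (nat_lit 6706762270) (nat_lit 22) (nat_lit 5) (nat_lit 26) (nat_lit 5) (nat_lit 23) (nat_lit 5) (nat_lit 365) (nat_lit 307) (nat_lit 216))))))))
noncomputable def xc71 : XT := (XT.nd (nat_lit 51042) (nat_lit 0) (nat_lit 4284) (XT.nd (nat_lit 752) (nat_lit 0) (nat_lit 0) (XT.nd (nat_lit 376) (nat_lit 168) (nat_lit 0) (XT.nd (nat_lit 188) (nat_lit 252) (nat_lit 0) (XT.nd (nat_lit 94) (nat_lit 0) (nat_lit 0) (XT.lf (nat_lit 0) (nat_lit 2573983957) (nat_lit 336) (nat_lit 6501638819) (nat_lit 84) (nat_lit 10178859705) (nat_lit 22) (nat_lit 5) (nat_lit 26) (nat_lit 5) (nat_lit 23) (nat_lit 5) (nat_lit 366) (nat_lit 307) (nat_lit 215)) (XT.lf (nat_lit 0) (nat_lit 4145303482) (nat_lit 336) (nat_lit 1817351585) (nat_lit 84) (nat_lit 13755526988) (nat_lit 22) (nat_lit 5) (nat_lit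 26) (nat_lit 5) (nat_lit 23) (nat_lit 5) (nat_lit 367) (nat_lit 307) (nat_lit 214))) (XT.nd (nat_lit 94) (nat_lit 0) (nat_lit 0) (XT.lf (nat_lit 0) (nat_lit 3058468882) (nat_lit 252) (nat_lit 2725311612) (nat_lit 336) (nat_lit 14411969455) (nat_lit 19) (nat_lit 5) (nat_lit 22) (nat_lit 5) (nat_lit 23) (nat_lit 5) (nat_lit 368) (nat_lit 307) (nat_lit 213)) (XT.lf (nat_lit 0) (nat_lit 7486567953) (nat_lit 336) (nat_lit 12585374269) (nat_lit 84) (nat_lit 615824689) (nat_lit 19) (nat_lit 5) (nat_lit 23) (nat_lit 5) (nat_lit 20) (nat_lit 5) (nat_lit 369) (nat_lit 307) (nat_lit 212)))) (XT.nd (nat_lit 188) (nat_lit 168) (nat_lit 0) (XT.nd (nat_lit 94) (nat_lit 0) (nat_lit 0) (XT.lf (nat_lit 0) (nat_lit 9258647013) (nat_lit 336) (nat_lit 7935302269) (nat_lit 84) (nat_lit 4000637058) (nat_lit 19) (nat_lit 5) (nat_lit 23) (nat_lit 5) (nat_lit 20) (nat_lit 5) (nat_lit 370) (nat_lit 307) (nat_lit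 211)) (XT.lf (nat_lit 0) (nat_lit 11074634007) (nat_lit 336) (nat_lit 3155695283) (nat_lit 84) (nat_lit 7487189450) (nat_lit 19) (nat_lit 5) (nat_lit 23) (nat_lit 5) (nat_lit 20) (nat_lit 5) (nat_lit 371) (nat_lit 307) (nat_lit 210))) (XT.nd (nat_lit 94) (nat_lit 0) (nat_lit 0) (XT.lf (nat_lit 0) (nat_lit 1794047847) (nat_lit 168) (nat_lit 11159970954) (nat_lit 252) (nat_lit 9302481026) (nat_lit 17) (nat_lit 5) (nat_lit 19) (nat_lit 5) (nat_lit 20) (nat_lit 5) (nat_lit 372) (nat_lit 307) (nat_lit 209)) (XT.lf (nat_lit 0) (nat_lit 6950097898) (nat_lit 168) (nat_lit 7963992998) (nat_lit 252) (nat_lit 7897459427) (nat_lit 17) (nat_lit 5) (nat_lit 19) (nat_lit 5) (nat_lit 20) (nat_lit 5) (nat_lit 373) (nat_lit 307) (nat_lit 208))))) (XT.nd (nat_lit 49820) (nat_lit 0) (nat_lit 8064) (XT.nd (nat_lit 49632) (nat_lit 0) (nat_lit 8736) (XT.nd (nat_lit 49538) (nat_lit 0) (nat_lit 8736) (XT.lf (nat_lit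 0) (nat_lit 12252373278) (nat_lit 168) (nat_lit 4672355421) (nat_lit 252) (nat_lit 6459449295) (nat_lit 17) (nat_lit 5) (nat_lit 19) (nat_lit 5) (nat_lit 20) (nat_lit 5) (nat_lit 374) (nat_lit 307) (nat_lit 207)) (XT.lf (nat_lit 0) (nat_lit 617958135) (nat_lit 0) (nat_lit 617958135) (nat_lit 588) (nat_lit 2342758808) (nat_lit 121) (nat_lit 5) (nat_lit 121) (nat_lit 3) (nat_lit 128) (nat_lit 3) (nat_lit 308) (nat_lit 308) (nat_lit 272))) (XT.nd (nat_lit 94) (nat_lit 0) (nat_lit 0) (XT.lf (nat_lit 0) (nat_lit 3744712644) (nat_lit 0) (nat_lit 31908662) (nat_lit 588) (nat_lit 3440941360) (nat_lit 121) (nat_lit 5) (nat_lit 121) (nat_lit 3) (nat_lit 128) (nat_lit 3) (nat_lit 309) (nat_lit 308) (nat_lit 271)) (XT.lf (nat_lit 0) (nat_lit 5083075968) (nat_lit 588) (nat_lit 988171517) (nat_lit 672) (nat_lit 1210058551) (nat_lit 121) (nat_lit 5) (nat_lit 128) (nat_lit 3) (nat_lit 129) (nat_lit 5)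 (nat_lit 310) (nat_lit 308) (nat_lit 270)))) (XT.nd (nat_lit 188) (nat_lit 0) (nat_lit 0) (XT.nd (nat_lit 94) (nat_lit 672) (nat_lit 0) (XT.lf (nat_lit 84) (nat_lit 1578021762) (nat_lit 0) (nat_lit 4818736152) (nat_lit 672) (nat_lit 951747119) (nat_lit 122) (nat_lit 5) (nat_lit 121) (nat_lit 5) (nat_lit 129) (nat_lit 5) (nat_lit 311) (nat_lit 308) (nat_lit 269)) (XT.lf (nat_lit 0) (nat_lit 288125481) (nat_lit 672) (nat_lit 3204296923) (nat_lit 756) (nat_lit 3926878424) (nat_lit 113) (nat_lit 5) (nat_lit 121) (nat_lit 5) (nat_lit 122) (nat_lit 5) (nat_lit 312) (nat_lit 308) (nat_lit 268))) (XT.nd (nat_lit 94) (nat_lit 0) (nat_lit 0) (XT.lf (nat_lit 0) (nat_lit 1499181565) (nat_lit 672) (nat_lit 595579637) (nat_lit 756) (nat_lit 5399109196) (nat_lit 113) (nat_lit 5) (nat_lit 121) (nat_lit 5) (nat_lit 122) (nat_lit 5) (nat_lit 313) (nat_lit 308) (nat_lit 267)) (XT.nd (nat_lit 94) (nat_lit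 0) (nat_lit 84) (XT.lf (nat_lit 84) (nat_lit 2110054530) (nat_lit 0) (nat_lit 612603019) (nat_lit 756) (nat_lit 4849269494) (nat_lit 114) (nat_lit 5) (nat_lit 113) (nat_lit 5) (nat_lit 122) (nat_lit 5) (nat_lit 314) (nat_lit 308) (nat_lit 266)) (XT.lf (nat_lit 0) (nat_lit 3954679257) (nat_lit 672) (nat_lit 2777328509) (nat_lit 756) (nat_lit 921691205) (nat_lit 114) (nat_lit 5) (nat_lit 122) (nat_lit 5) (nat_lit 123) (nat_lit 5) (nat_lit 315) (nat_lit 308) (nat_lit 265))))))) (XT.nd (nat_lit 846) (nat_lit 3108) (nat_lit 0) (XT.nd (nat_lit 376) (nat_lit 0) (nat_lit 84) (XT.nd (nat_lit 188) (nat_lit 756) (nat_lit 0) (XT.nd (nat_lit 94) (nat_lit 0) (nat_lit 0) (XT.lf (nat_lit 0) (nat_lit 5187760350) (nat_lit 672) (nat_lit 43144005) (nat_lit 756) (nat_lit 2508625725) (nat_lit 114) (nat_lit 5) (nat_lit 122) (nat_lit 5) (nat_lit 123) (nat_lit 5) (nat_lit 316) (nat_lit 308) (nat_lit 264)) (XT.lf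 (nat_lit 84) (nat_lit 2805838026) (nat_lit 0) (nat_lit 3638969324) (nat_lit 756) (nat_lit 1384018550) (nat_lit 115) (nat_lit 5) (nat_lit 114) (nat_lit 5) (nat_lit 123) (nat_lit 5) (nat_lit 317) (nat_lit 308) (nat_lit 263))) (XT.nd (nat_lit 94) (nat_lit 756) (nat_lit 0) (XT.lf (nat_lit 84) (nat_lit 5717827780) (nat_lit 0) (nat_lit 1982357012) (nat_lit 756) (nat_lit 222315895) (nat_lit 115) (nat_lit 5) (nat_lit 114) (nat_lit 5) (nat_lit 123) (nat_lit 5) (nat_lit 318) (nat_lit 308) (nat_lit 262)) (XT.lf (nat_lit 84) (nat_lit 678400257) (nat_lit 0) (nat_lit 243482856) (nat_lit 840) (nat_lit 7098276338) (nat_lit 106) (nat_lit 5) (nat_lit 105) (nat_lit 5) (nat_lit 115) (nat_lit 5) (nat_lit 319) (nat_lit 308) (nat_lit 261)))) (XT.nd (nat_lit 188) (nat_lit 0) (nat_lit 0) (XT.nd (nat_lit 94) (nat_lit 0) (nat_lit 0) (XT.lf (nat_lit 0) (nat_lit 2096048308) (nat_lit 756) (nat_lit 4468437356) (nat_lit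 840) (nat_lit 1556637249) (nat_lit 106) (nat_lit 5) (nat_lit 115) (nat_lit 5) (nat_lit 116) (nat_lit 5) (nat_lit 320) (nat_lit 308) (nat_lit 260)) (XT.lf (nat_lit 0) (nat_lit 3270787851) (nat_lit 756) (nat_lit 1535703846) (nat_lit 840) (nat_lit 3420145781) (nat_lit 106) (nat_lit 5) (nat_lit 115) (nat_lit 5) (nat_lit 116) (nat_lit 5) (nat_lit 321) (nat_lit 308) (nat_lit 259))) (XT.nd (nat_lit 94) (nat_lit 0) (nat_lit 0) (XT.lf (nat_lit 84) (nat_lit 1491643623) (nat_lit 0) (nat_lit 2967935007) (nat_lit 840) (nat_lit 3876839025) (nat_lit 107) (nat_lit 5) (nat_lit 106) (nat_lit 5) (nat_lit 116) (nat_lit 5) (nat_lit 322) (nat_lit 308) (nat_lit 258)) (XT.nd (nat_lit 94) (nat_lit 0) (nat_lit 84) (XT.lf (nat_lit 84) (nat_lit 4619307717) (nat_lit 0) (nat_lit 1045639451) (nat_lit 840) (nat_lit 2785574633) (nat_lit 107) (nat_lit 5) (nat_lit 106) (nat_lit 5) (nat_lit 116) (nat_lit 5) (nat_lit 323)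 (nat_lit 308) (nat_lit 257)) (XT.lf (nat_lit 0) (nat_lit 6881855368) (nat_lit 756) (nat_lit 760297719) (nat_lit 84) (nat_lit 927094195) (nat_lit 107) (nat_lit 5) (nat_lit 116) (nat_lit 5) (nat_lit 108) (nat_lit 5) (nat_lit 324) (nat_lit 308) (nat_lit 256)))))) (XT.nd (nat_lit 376) (nat_lit 1596) (nat_lit 0) (XT.nd (nat_lit 188) (nat_lit 840) (nat_lit 0) (XT.nd (nat_lit 94) (nat_lit 84) (nat_lit 0) (XT.lf (nat_lit 0) (nat_lit 2417866088) (nat_lit 756) (nat_lit 5719242963) (nat_lit 840) (nat_lit 554799894) (nat_lit 98) (nat_lit 5) (nat_lit 107) (nat_lit 5) (nat_lit 108) (nat_lit 5) (nat_lit 325) (nat_lit 308) (nat_lit 255)) (XT.lf (nat_lit 0) (nat_lit 574679594) (nat_lit 840) (nat_lit 3140281212) (nat_lit 84) (nat_lit 5104284601) (nat_lit 97) (nat_lit 5) (nat_lit 107) (nat_lit 5) (nat_lit 98) (nat_lit 5) (nat_lit 326) (nat_lit 308) (nat_lit 254))) (XT.nd (nat_lit 94) (nat_lit 0) (nat_lit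 0) (XT.lf (nat_lit 0) (nat_lit 60305738) (nat_lit 840) (nat_lit 1635068615) (nat_lit 924) (nat_lit 7256230432) (nat_lit 87) (nat_lit 5) (nat_lit 97) (nat_lit 5) (nat_lit 98) (nat_lit 5) (nat_lit 327) (nat_lit 308) (nat_lit 253)) (XT.lf (nat_lit 0) (nat_lit 2856903272) (nat_lit 924) (nat_lit 5692660230) (nat_lit 84) (nat_lit 538558276) (nat_lit 87) (nat_lit 5) (nat_lit 98) (nat_lit 5) (nat_lit 88) (nat_lit 5) (nat_lit 328) (nat_lit 308) (nat_lit 252)))) (XT.nd (nat_lit 188) (nat_lit 672) (nat_lit 0) (XT.nd (nat_lit 94) (nat_lit 924) (nat_lit 0) (XT.lf (nat_lit 0) (nat_lit 4040053825) (nat_lit 924) (nat_lit 2437682227) (nat_lit 84) (nat_lit 2751816733) (nat_lit 87) (nat_lit 5) (nat_lit 98) (nat_lit 5) (nat_lit 88) (nat_lit 5) (nat_lit 329) (nat_lit 308) (nat_lit 251)) (XT.lf (nat_lit 0) (nat_lit 911248653) (nat_lit 924) (nat_lit 4327499795) (nat_lit 1008) (nat_lit 4137503780) (nat_lit 76)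 (nat_lit 5) (nat_lit 87) (nat_lit 5) (nat_lit 88) (nat_lit 5) (nat_lit 330) (nat_lit 308) (nat_lit 250))) (XT.nd (nat_lit 94) (nat_lit 672) (nat_lit 0) (XT.lf (nat_lit 0) (nat_lit 4390619156) (nat_lit 924) (nat_lit 2079913257) (nat_lit 1008) (nat_lit 3057315166) (nat_lit 76) (nat_lit 5) (nat_lit 87) (nat_lit 5) (nat_lit 88) (nat_lit 5) (nat_lit 331) (nat_lit 308) (nat_lit 249)) (XT.nd (nat_lit 94) (nat_lit 672) (nat_lit 0) (XT.lf (nat_lit 0) (nat_lit 7714271965) (nat_lit 1008) (nat_lit 1734093965) (nat_lit 84) (nat_lit 236804949) (nat_lit 76) (nat_lit 5) (nat_lit 88) (nat_lit 5) (nat_lit 77) (nat_lit 5) (nat_lit 332) (nat_lit 308) (nat_lit 248)) (XT.lf (nat_lit 0) (nat_lit 1764126198) (nat_lit 672) (nat_lit 7243489440) (nat_lit 756) (nat_lit 839621967) (nat_lit 68) (nat_lit 5) (nat_lit 76) (nat_lit 5) (nat_lit 77) (nat_lit 5) (nat_lit 333) (nat_lit 308) (nat_lit 247))))))))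
noncomputable def xc72 : XT := (XT.nd (nat_lit 1598) (nat_lit 1596) (nat_lit 0) (XT.nd (nat_lit 752) (nat_lit 1260) (nat_lit 0) (XT.nd (nat_lit 376) (nat_lit 420) (nat_lit 0) (XT.nd (nat_lit 188) (nat_lit 504) (nat_lit 0) (XT.nd (nat_lit 94) (nat_lit 0) (nat_lit 0) (XT.lf (nat_lit 0) (nat_lit 310817738) (nat_lit 756) (nat_lit 4634836895) (nat_lit 84) (nat_lit 5069058859) (nat_lit 67) (nat_lit 5) (nat_lit 76) (nat_lit 5) (nat_lit 68) (nat_lit 5) (nat_lit 334) (nat_lit 308) (nat_lit 246)) (XT.lf (nat_lit 0) (nat_lit 1452700749) (nat_lit 756) (nat_lit 1112692030) (nat_lit 84) (nat_lit 7622742921) (nat_lit 67) (nat_lit 5) (nat_lit 76) (nat_lit 5) (nat_lit 68) (nat_lit 5) (nat_lit 335) (nat_lit 308) (nat_lit 245))) (XT.nd (nat_lit 94) (nat_lit 0) (nat_lit 0) (XT.lf (nat_lit 0) (nat_lit 2546236336) (nat_lit 504) (nat_lit 83030575) (nat_lit 588) (nat_lit 7737874141) (nat_lit 61) (nat_lit 5) (nat_lit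 67) (nat_lit 5) (nat_lit 68) (nat_lit 5) (nat_lit 336) (nat_lit 308) (nat_lit 244)) (XT.lf (nat_lit 0) (nat_lit 3853198169) (nat_lit 588) (nat_lit 4258290386) (nat_lit 84) (nat_lit 2440048699) (nat_lit 61) (nat_lit 5) (nat_lit 68) (nat_lit 5) (nat_lit 62) (nat_lit 5) (nat_lit 337) (nat_lit 308) (nat_lit 243)))) (XT.nd (nat_lit 188) (nat_lit 0) (nat_lit 0) (XT.nd (nat_lit 94) (nat_lit 420) (nat_lit 0) (XT.lf (nat_lit 0) (nat_lit 5091277908) (nat_lit 588) (nat_lit 609800018) (nat_lit 84) (nat_lit 5041483340) (nat_lit 61) (nat_lit 5) (nat_lit 68) (nat_lit 5) (nat_lit 62) (nat_lit 5) (nat_lit 338) (nat_lit 308) (nat_lit 242)) (XT.lf (nat_lit 0) (nat_lit 3193125194) (nat_lit 420) (nat_lit 3182387479) (nat_lit 504) (nat_lit 4563922042) (nat_lit 56) (nat_lit 5) (nat_lit 61) (nat_lit 5) (nat_lit 62) (nat_lit 5) (nat_lit 339) (nat_lit 308) (nat_lit 241))) (XT.nd (nat_lit 94) (nat_lit 0) (nat_lit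 0) (XT.lf (nat_lit 0) (nat_lit 7104098696) (nat_lit 420) (nat_lit 578416229) (nat_lit 504) (nat_lit 3460588302) (nat_lit 56) (nat_lit 5) (nat_lit 61) (nat_lit 5) (nat_lit 62) (nat_lit 5) (nat_lit 340) (nat_lit 308) (nat_lit 240)) (XT.lf (nat_lit 0) (nat_lit 9028229939) (nat_lit 504) (nat_lit 260621531) (nat_lit 84) (nat_lit 2064448636) (nat_lit 56) (nat_lit 5) (nat_lit 62) (nat_lit 5) (nat_lit 57) (nat_lit 5) (nat_lit 341) (nat_lit 308) (nat_lit 239))))) (XT.nd (nat_lit 376) (nat_lit 420) (nat_lit 0) (XT.nd (nat_lit 188) (nat_lit 336) (nat_lit 0) (XT.nd (nat_lit 94) (nat_lit 84) (nat_lit 0) (XT.lf (nat_lit 0) (nat_lit 3680873166) (nat_lit 420) (nat_lit 6755203165) (nat_lit 504) (nat_lit 1133457854) (nat_lit 51) (nat_lit 5) (nat_lit 56) (nat_lit 5) (nat_lit 57) (nat_lit 5) (nat_lit 342) (nat_lit 308) (nat_lit 238)) (XT.lf (nat_lit 0) (nat_lit 73986755) (nat_lit 504) (nat_lit 4065913401)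 (nat_lit 84) (nat_lit 7653281886) (nat_lit 50) (nat_lit 5) (nat_lit 56) (nat_lit 5) (nat_lit 51) (nat_lit 5) (nat_lit 343) (nat_lit 308) (nat_lit 237))) (XT.nd (nat_lit 94) (nat_lit 336) (nat_lit 0) (XT.lf (nat_lit 0) (nat_lit 1274037327) (nat_lit 504) (nat_lit 158206926) (nat_lit 84) (nat_lit 10591959510) (nat_lit 50) (nat_lit 5) (nat_lit 56) (nat_lit 5) (nat_lit 51) (nat_lit 5) (nat_lit 344) (nat_lit 308) (nat_lit 236)) (XT.lf (nat_lit 0) (nat_lit 2543497258) (nat_lit 420) (nat_lit 8347336897) (nat_lit 84) (nat_lit 1370690802) (nat_lit 46) (nat_lit 5) (nat_lit 51) (nat_lit 5) (nat_lit 47) (nat_lit 5) (nat_lit 345) (nat_lit 308) (nat_lit 235)))) (XT.nd (nat_lit 188) (nat_lit 420) (nat_lit 0) (XT.nd (nat_lit 94) (nat_lit 0) (nat_lit 0) (XT.lf (nat_lit 0) (nat_lit 3848389893) (nat_lit 420) (nat_lit 4426464948) (nat_lit 84) (nat_lit 4231601952) (nat_lit 46) (nat_lit 5) (nat_lit 51) (nat_lit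 5) (nat_lit 47) (nat_lit 5) (nat_lit 346) (nat_lit 308) (nat_lit 234)) (XT.lf (nat_lit 0) (nat_lit 5174105402) (nat_lit 420) (nat_lit 405218470) (nat_lit 84) (nat_lit 7180394307) (nat_lit 46) (nat_lit 5) (nat_lit 51) (nat_lit 5) (nat_lit 47) (nat_lit 5) (nat_lit 347) (nat_lit 308) (nat_lit 233))) (XT.nd (nat_lit 94) (nat_lit 0) (nat_lit 0) (XT.lf (nat_lit 0) (nat_lit 3796644690) (nat_lit 420) (nat_lit 2762897986) (nat_lit 504) (nat_lit 6460834948) (nat_lit 41) (nat_lit 5) (nat_lit 46) (nat_lit 5) (nat_lit 47) (nat_lit 5) (nat_lit 348) (nat_lit 308) (nat_lit 232)) (XT.nd (nat_lit 94) (nat_lit 0) (nat_lit 0) (XT.lf (nat_lit 0) (nat_lit 7974914262) (nat_lit 504) (nat_lit 5174081541) (nat_lit 84) (nat_lit 140645730) (nat_lit 41) (nat_lit 5) (nat_lit 47) (nat_lit 5) (nat_lit 42) (nat_lit 5) (nat_lit 349) (nat_lit 308) (nat_lit 231)) (XT.lf (nat_lit 0) (nat_lit 9444297836) (nat_lit 504) (nat_lit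 1047527946) (nat_lit 84) (nat_lit 3075229597) (nat_lit 41) (nat_lit 5) (nat_lit 47) (nat_lit 5) (nat_lit 42) (nat_lit 5) (nat_lit 350) (nat_lit 308) (nat_lit 230))))))) (XT.nd (nat_lit 752) (nat_lit 588) (nat_lit 0) (XT.nd (nat_lit 376) (nat_lit 252) (nat_lit 0) (XT.nd (nat_lit 188) (nat_lit 420) (nat_lit 0) (XT.nd (nat_lit 94) (nat_lit 0) (nat_lit 0) (XT.lf (nat_lit 0) (nat_lit 3252717531) (nat_lit 336) (nat_lit 7721204556) (nat_lit 420) (nat_lit 2878805021) (nat_lit 37) (nat_lit 5) (nat_lit 41) (nat_lit 5) (nat_lit 42) (nat_lit 5) (nat_lit 351) (nat_lit 308) (nat_lit 229)) (XT.lf (nat_lit 0) (nat_lit 7688911488) (nat_lit 336) (nat_lit 4855744095) (nat_lit 420) (nat_lit 1602904688) (nat_lit 37) (nat_lit 5) (nat_lit 41) (nat_lit 5) (nat_lit 42) (nat_lit 5) (nat_lit 352) (nat_lit 308) (nat_lit 228))) (XT.nd (nat_lit 94) (nat_lit 420) (nat_lit 0) (XT.lf (nat_lit 0) (nat_lit 12243649598) (nat_lit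 336) (nat_lit 1903707532) (nat_lit 420) (nat_lit 304801315) (nat_lit 37) (nat_lit 5) (nat_lit 41) (nat_lit 5) (nat_lit 42) (nat_lit 5) (nat_lit 353) (nat_lit 308) (nat_lit 227)) (XT.lf (nat_lit 0) (nat_lit 1029550374) (nat_lit 420) (nat_lit 12589054010) (nat_lit 84) (nat_lit 1146855586) (nat_lit 32) (nat_lit 5) (nat_lit 37) (nat_lit 5) (nat_lit 33) (nat_lit 5) (nat_lit 354) (nat_lit 308) (nat_lit 226)))) (XT.nd (nat_lit 188) (nat_lit 252) (nat_lit 0) (XT.nd (nat_lit 94) (nat_lit 0) (nat_lit 0) (XT.lf (nat_lit 0) (nat_lit 2425491052) (nat_lit 420) (nat_lit 8385740698) (nat_lit 84) (nat_lit 4276419609) (nat_lit 32) (nat_lit 5) (nat_lit 37) (nat_lit 5) (nat_lit 33) (nat_lit 5) (nat_lit 355) (nat_lit 308) (nat_lit 225)) (XT.lf (nat_lit 0) (nat_lit 3848990084) (nat_lit 420) (nat_lit 4070776673) (nat_lit 84) (nat_lit 7500645567) (nat_lit 32) (nat_lit 5) (nat_lit 37) (nat_lit 5) (nat_lit 33) (nat_lit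 5) (nat_lit 356) (nat_lit 308) (nat_lit 224))) (XT.nd (nat_lit 94) (nat_lit 0) (nat_lit 0) (XT.lf (nat_lit 0) (nat_lit 367259526) (nat_lit 252) (nat_lit 4937758054) (nat_lit 336) (nat_lit 10458922509) (nat_lit 29) (nat_lit 5) (nat_lit 32) (nat_lit 5) (nat_lit 33) (nat_lit 5) (nat_lit 357) (nat_lit 308) (nat_lit 223)) (XT.lf (nat_lit 0) (nat_lit 5011265158) (nat_lit 252) (nat_lit 1822444748) (nat_lit 336) (nat_lit 9283642799) (nat_lit 29) (nat_lit 5) (nat_lit 32) (nat_lit 5) (nat_lit 33) (nat_lit 5) (nat_lit 358) (nat_lit 308) (nat_lit 222))))) (XT.nd (nat_lit 376) (nat_lit 336) (nat_lit 0) (XT.nd (nat_lit 188) (nat_lit 252) (nat_lit 0) (XT.nd (nat_lit 94) (nat_lit 0) (nat_lit 0) (XT.lf (nat_lit 0) (nat_lit 8409034113) (nat_lit 336) (nat_lit 6714146893) (nat_lit 84) (nat_lit 1358649774) (nat_lit 29) (nat_lit 5) (nat_lit 33) (nat_lit 5) (nat_lit 30) (nat_lit 5) (nat_lit 359) (nat_lit 308)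 (nat_lit 221)) (XT.lf (nat_lit 0) (nat_lit 10037728882) (nat_lit 336) (nat_lit 2222035165) (nat_lit 84) (nat_lit 4597786622) (nat_lit 29) (nat_lit 5) (nat_lit 33) (nat_lit 5) (nat_lit 30) (nat_lit 5) (nat_lit 360) (nat_lit 308) (nat_lit 220))) (XT.nd (nat_lit 94) (nat_lit 0) (nat_lit 0) (XT.lf (nat_lit 0) (nat_lit 2441708618) (nat_lit 252) (nat_lit 9285746882) (nat_lit 336) (nat_lit 5517216643) (nat_lit 26) (nat_lit 5) (nat_lit 29) (nat_lit 5) (nat_lit 30) (nat_lit 5) (nat_lit 361) (nat_lit 308) (nat_lit 219)) (XT.lf (nat_lit 0) (nat_lit 7280486315) (nat_lit 252) (nat_lit 6198837249) (nat_lit 336) (nat_lit 4164246903) (nat_lit 26) (nat_lit 5) (nat_lit 29) (nat_lit 5) (nat_lit 30) (nat_lit 5) (nat_lit 362) (nat_lit 308) (nat_lit 218)))) (XT.nd (nat_lit 188) (nat_lit 336) (nat_lit 0) (XT.nd (nat_lit 94) (nat_lit 0) (nat_lit 0) (XT.lf (nat_lit 0) (nat_lit 12253118572) (nat_lit 252) (nat_lit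 3019351315) (nat_lit 336) (nat_lit 2782844948) (nat_lit 26) (nat_lit 5) (nat_lit 29) (nat_lit 5) (nat_lit 30) (nat_lit 5) (nat_lit 363) (nat_lit 308) (nat_lit 217)) (XT.lf (nat_lit 0) (nat_lit 17111102192) (nat_lit 336) (nat_lit 1118584958) (nat_lit 84) (nat_lit 250523261) (nat_lit 26) (nat_lit 5) (nat_lit 30) (nat_lit 5) (nat_lit 27) (nat_lit 5) (nat_lit 364) (nat_lit 308) (nat_lit 216))) (XT.nd (nat_lit 94) (nat_lit 0) (nat_lit 0) (XT.lf (nat_lit 0) (nat_lit 142857203) (nat_lit 336) (nat_lit 15179012199) (nat_lit 84) (nat_lit 3594709011) (nat_lit 22) (nat_lit 5) (nat_lit 26) (nat_lit 5) (nat_lit 23) (nat_lit 5) (nat_lit 365) (nat_lit 308) (nat_lit 215)) (XT.nd (nat_lit 94) (nat_lit 0) (nat_lit 0) (XT.lf (nat_lit 0) (nat_lit 1672786590) (nat_lit 336) (nat_lit 10628037894) (nat_lit 84) (nat_lit 7065297252) (nat_lit 22) (nat_lit 5) (nat_lit 26) (nat_lit 5) (nat_lit 23) (nat_lit 5) (nat_lit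 366) (nat_lit 308) (nat_lit 214)) (XT.lf (nat_lit 0) (nat_lit 3238249981) (nat_lit 336) (nat_lit 5951284388) (nat_lit 84) (nat_lit 10640500720) (nat_lit 22) (nat_lit 5) (nat_lit 26) (nat_lit 5) (nat_lit 23) (nat_lit 5) (nat_lit 367) (nat_lit 308) (nat_lit 213))))))))
noncomputable def xc73 : XT := (XT.nd (nat_lit 51136) (nat_lit 0) (nat_lit 4200) (XT.nd (nat_lit 50290) (nat_lit 0) (nat_lit 7392) (XT.nd (nat_lit 376) (nat_lit 168) (nat_lit 0) (XT.nd (nat_lit 188) (nat_lit 0) (nat_lit 0) (XT.nd (nat_lit 94) (nat_lit 252) (nat_lit 0) (XT.lf (nat_lit 0) (nat_lit 4840706552) (nat_lit 336) (nat_lit 1144392458) (nat_lit 84) (nat_lit 14323651878) (nat_lit 22) (nat_lit 5) (nat_lit 26) (nat_lit 5) (nat_lit 23) (nat_lit 5) (nat_lit 368) (nat_lit 308) (nat_lit 212)) (XT.lf (nat_lit 0) (nat_lit 3875194966) (nat_lit 252) (nat_lit 2644897408) (nat_lit 336) (nat_lit 14281431258) (nat_lit 19) (nat_lit 5)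 (nat_lit 22) (nat_lit 5) (nat_lit 23) (nat_lit 5) (nat_lit 369) (nat_lit 308) (nat_lit 211))) (XT.nd (nat_lit 94) (nat_lit 0) (nat_lit 0) (XT.lf (nat_lit 0) (nat_lit 8260504617) (nat_lit 336) (nat_lit 12257216025) (nat_lit 84) (nat_lit 791633507) (nat_lit 19) (nat_lit 5) (nat_lit 23) (nat_lit 5) (nat_lit 20) (nat_lit 5) (nat_lit 370) (nat_lit 308) (nat_lit 210)) (XT.lf (nat_lit 0) (nat_lit 10071225746) (nat_lit 336) (nat_lit 7484589707) (nat_lit 84) (nat_lit 4276662872) (nat_lit 19) (nat_lit 5) (nat_lit 23) (nat_lit 5) (nat_lit 20) (nat_lit 5) (nat_lit 371) (nat_lit 308) (nat_lit 209)))) (XT.nd (nat_lit 188) (nat_lit 0) (nat_lit 0) (XT.nd (nat_lit 94) (nat_lit 168) (nat_lit 0) (XT.lf (nat_lit 0) (nat_lit 11927705834) (nat_lit 336) (nat_lit 2577763416) (nat_lit 84) (nat_lit 7866727886) (nat_lit 19) (nat_lit 5) (nat_lit 23) (nat_lit 5) (nat_lit 20) (nat_lit 5) (nat_lit 372) (nat_lit 308)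 (nat_lit 208)) (XT.lf (nat_lit 0) (nat_lit 2518580305) (nat_lit 168) (nat_lit 11338079637) (nat_lit 252) (nat_lit 9071579189) (nat_lit 17) (nat_lit 5) (nat_lit 19) (nat_lit 5) (nat_lit 20) (nat_lit 5) (nat_lit 373) (nat_lit 308) (nat_lit 207))) (XT.nd (nat_lit 49632) (nat_lit 0) (nat_lit 8736) (XT.lf (nat_lit 0) (nat_lit 7814354981) (nat_lit 168) (nat_lit 8048073272) (nat_lit 252) (nat_lit 7638615540) (nat_lit 17) (nat_lit 5) (nat_lit 19) (nat_lit 5) (nat_lit 20) (nat_lit 5) (nat_lit 374) (nat_lit 308) (nat_lit 206)) (XT.lf (nat_lit 0) (nat_lit 1264070722) (nat_lit 0) (nat_lit 1264070722) (nat_lit 588) (nat_lit 1111249355) (nat_lit 121) (nat_lit 5) (nat_lit 121) (nat_lit 3) (nat_lit 128) (nat_lit 3) (nat_lit 309) (nat_lit 309) (nat_lit 270))))) (XT.nd (nat_lit 376) (nat_lit 672) (nat_lit 0) (XT.nd (nat_lit 188) (nat_lit 0) (nat_lit 0) (XT.nd (nat_lit 94) (nat_lit 672) (nat_lit 0) (XT.lf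 (nat_lit 0) (nat_lit 5077008017) (nat_lit 0) (nat_lit 1249107112) (nat_lit 588) (nat_lit 1017765777) (nat_lit 121) (nat_lit 5) (nat_lit 121) (nat_lit 3) (nat_lit 128) (nat_lit 3) (nat_lit 310) (nat_lit 309) (nat_lit 269)) (XT.lf (nat_lit 0) (nat_lit 174535984) (nat_lit 672) (nat_lit 7142050351) (nat_lit 756) (nat_lit 96167570) (nat_lit 113) (nat_lit 5) (nat_lit 121) (nat_lit 5) (nat_lit 122) (nat_lit 5) (nat_lit 311) (nat_lit 309) (nat_lit 268))) (XT.nd (nat_lit 94) (nat_lit 0) (nat_lit 0) (XT.lf (nat_lit 0) (nat_lit 1371854103) (nat_lit 672) (nat_lit 4598740560) (nat_lit 756) (nat_lit 1513588429) (nat_lit 113) (nat_lit 5) (nat_lit 121) (nat_lit 5) (nat_lit 122) (nat_lit 5) (nat_lit 312) (nat_lit 309) (nat_lit 267)) (XT.lf (nat_lit 0) (nat_lit 2560234245) (nat_lit 672) (nat_lit 2003054416) (nat_lit 756) (nat_lit 2996362234) (nat_lit 113) (nat_lit 5) (nat_lit 121) (nat_lit 5) (nat_lit 122)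 (nat_lit 5) (nat_lit 313) (nat_lit 309) (nat_lit 266)))) (XT.nd (nat_lit 188) (nat_lit 672) (nat_lit 0) (XT.nd (nat_lit 94) (nat_lit 0) (nat_lit 0) (XT.lf (nat_lit 84) (nat_lit 660739969) (nat_lit 0) (nat_lit 3086598755) (nat_lit 756) (nat_lit 3891685738) (nat_lit 114) (nat_lit 5) (nat_lit 113) (nat_lit 5) (nat_lit 122) (nat_lit 5) (nat_lit 314) (nat_lit 309) (nat_lit 265)) (XT.lf (nat_lit 84) (nat_lit 3424165106) (nat_lit 0) (nat_lit 1524407108) (nat_lit 756) (nat_lit 2773362324) (nat_lit 114) (nat_lit 5) (nat_lit 113) (nat_lit 5) (nat_lit 122) (nat_lit 5) (nat_lit 315) (nat_lit 309) (nat_lit 264))) (XT.nd (nat_lit 94) (nat_lit 756) (nat_lit 0) (XT.lf (nat_lit 0) (nat_lit 6145805314) (nat_lit 672) (nat_lit 1561507217) (nat_lit 756) (nat_lit 101742590) (nat_lit 114) (nat_lit 5) (nat_lit 122) (nat_lit 5) (nat_lit 123) (nat_lit 5) (nat_lit 316) (nat_lit 309) (nat_lit 263)) (XT.nd (nat_lit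 94) (nat_lit 756) (nat_lit 0) (XT.lf (nat_lit 84) (nat_lit 1243341621) (nat_lit 0) (nat_lit 6123908029) (nat_lit 756) (nat_lit 532377804) (nat_lit 115) (nat_lit 5) (nat_lit 114) (nat_lit 5) (nat_lit 123) (nat_lit 5) (nat_lit 317) (nat_lit 309) (nat_lit 262)) (XT.lf (nat_lit 0) (nat_lit 596658102) (nat_lit 756) (nat_lit 3857311698) (nat_lit 840) (nat_lit 3539921106) (nat_lit 105) (nat_lit 5) (nat_lit 114) (nat_lit 5) (nat_lit 115) (nat_lit 5) (nat_lit 318) (nat_lit 309) (nat_lit 261))))))) (XT.nd (nat_lit 752) (nat_lit 2520) (nat_lit 0) (XT.nd (nat_lit 376) (nat_lit 672) (nat_lit 0) (XT.nd (nat_lit 188) (nat_lit 0) (nat_lit 84) (XT.nd (nat_lit 94) (nat_lit 0) (nat_lit 0) (XT.lf (nat_lit 0) (nat_lit 1710261845) (nat_lit 756) (nat_lit 1002816213) (nat_lit 840) (nat_lit 5379370548) (nat_lit 105) (nat_lit 5) (nat_lit 114) (nat_lit 5) (nat_lit 115) (nat_lit 5) (nat_lit 319) (nat_lit 309) (nat_lit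 260)) (XT.lf (nat_lit 84) (nat_lit 1954521820) (nat_lit 0) (nat_lit 885064926) (nat_lit 840) (nat_lit 5355368334) (nat_lit 106) (nat_lit 5) (nat_lit 105) (nat_lit 5) (nat_lit 115) (nat_lit 5) (nat_lit 320) (nat_lit 309) (nat_lit 259))) (XT.nd (nat_lit 94) (nat_lit 0) (nat_lit 0) (XT.lf (nat_lit 0) (nat_lit 3987248464) (nat_lit 756) (nat_lit 3311895707) (nat_lit 840) (nat_lit 1002313249) (nat_lit 106) (nat_lit 5) (nat_lit 115) (nat_lit 5) (nat_lit 116) (nat_lit 5) (nat_lit 321) (nat_lit 309) (nat_lit 258)) (XT.lf (nat_lit 0) (nat_lit 5143494260) (nat_lit 756) (nat_lit 327187284) (nat_lit 840) (nat_lit 2941708850) (nat_lit 106) (nat_lit 5) (nat_lit 115) (nat_lit 5) (nat_lit 116) (nat_lit 5) (nat_lit 322) (nat_lit 309) (nat_lit 257)))) (XT.nd (nat_lit 188) (nat_lit 756) (nat_lit 0) (XT.nd (nat_lit 94) (nat_lit 0) (nat_lit 0) (XT.lf (nat_lit 84) (nat_lit 2781290836) (nat_lit 0) (nat_lit 3546921839)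 (nat_lit 840) (nat_lit 2199061594) (nat_lit 107) (nat_lit 5) (nat_lit 106) (nat_lit 5) (nat_lit 116) (nat_lit 5) (nat_lit 323) (nat_lit 309) (nat_lit 256)) (XT.lf (nat_lit 84) (nat_lit 5968525908) (nat_lit 0) (nat_lit 1550392631) (nat_lit 840) (nat_lit 1128028861) (nat_lit 107) (nat_lit 5) (nat_lit 106) (nat_lit 5) (nat_lit 116) (nat_lit 5) (nat_lit 324) (nat_lit 309) (nat_lit 255))) (XT.nd (nat_lit 94) (nat_lit 84) (nat_lit 0) (XT.lf (nat_lit 0) (nat_lit 463340179) (nat_lit 756) (nat_lit 8259797646) (nat_lit 840) (nat_lit 48184613) (nat_lit 98) (nat_lit 5) (nat_lit 107) (nat_lit 5) (nat_lit 108) (nat_lit 5) (nat_lit 325) (nat_lit 309) (nat_lit 254)) (XT.lf (nat_lit 0) (nat_lit 1054902410) (nat_lit 840) (nat_lit 5191979946) (nat_lit 84) (nat_lit 2652246023) (nat_lit 97) (nat_lit 5) (nat_lit 107) (nat_lit 5) (nat_lit 98) (nat_lit 5) (nat_lit 326) (nat_lit 309) (nat_lit 253))))) (XT.nd (nat_lit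 376) (nat_lit 1680) (nat_lit 0) (XT.nd (nat_lit 188) (nat_lit 0) (nat_lit 0) (XT.nd (nat_lit 94) (nat_lit 840) (nat_lit 0) (XT.lf (nat_lit 0) (nat_lit 2159300291) (nat_lit 840) (nat_lit 2004958792) (nat_lit 84) (nat_lit 4867853692) (nat_lit 97) (nat_lit 5) (nat_lit 107) (nat_lit 5) (nat_lit 98) (nat_lit 5) (nat_lit 327) (nat_lit 309) (nat_lit 252)) (XT.lf (nat_lit 0) (nat_lit 1282366665) (nat_lit 840) (nat_lit 1997363824) (nat_lit 924) (nat_lit 5890289552) (nat_lit 87) (nat_lit 5) (nat_lit 97) (nat_lit 5) (nat_lit 98) (nat_lit 5) (nat_lit 328) (nat_lit 309) (nat_lit 251))) (XT.nd (nat_lit 94) (nat_lit 0) (nat_lit 0) (XT.lf (nat_lit 0) (nat_lit 4428210572) (nat_lit 924) (nat_lit 4625323646) (nat_lit 84) (nat_lit 259104335) (nat_lit 87) (nat_lit 5) (nat_lit 98) (nat_lit 5) (nat_lit 88) (nat_lit 5) (nat_lit 329) (nat_lit 309) (nat_lit 250)) (XT.lf (nat_lit 0) (nat_lit 5603455822) (nat_lit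 924) (nat_lit 1306840045) (nat_lit 84) (nat_lit 2549878389) (nat_lit 87) (nat_lit 5) (nat_lit 98) (nat_lit 5) (nat_lit 88) (nat_lit 5) (nat_lit 330) (nat_lit 309) (nat_lit 249)))) (XT.nd (nat_lit 188) (nat_lit 756) (nat_lit 0) (XT.nd (nat_lit 94) (nat_lit 0) (nat_lit 0) (XT.lf (nat_lit 0) (nat_lit 2133693871) (nat_lit 924) (nat_lit 4674220231) (nat_lit 1008) (nat_lit 2804808644) (nat_lit 76) (nat_lit 5) (nat_lit 87) (nat_lit 5) (nat_lit 88) (nat_lit 5) (nat_lit 331) (nat_lit 309) (nat_lit 248)) (XT.lf (nat_lit 0) (nat_lit 5685017884) (nat_lit 924) (nat_lit 2350567039) (nat_lit 1008) (nat_lit 1735062108) (nat_lit 76) (nat_lit 5) (nat_lit 87) (nat_lit 5) (nat_lit 88) (nat_lit 5) (nat_lit 332) (nat_lit 309) (nat_lit 247))) (XT.nd (nat_lit 94) (nat_lit 756) (nat_lit 0) (XT.lf (nat_lit 0) (nat_lit 9274869982) (nat_lit 1008) (nat_lit 611421535) (nat_lit 84) (nat_lit 48197818) (nat_lit 76) (nat_lit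 5) (nat_lit 88) (nat_lit 5) (nat_lit 77) (nat_lit 5) (nat_lit 333) (nat_lit 309) (nat_lit 246)) (XT.nd (nat_lit 94) (nat_lit 0) (nat_lit 0) (XT.lf (nat_lit 0) (nat_lit 467754967) (nat_lit 756) (nat_lit 7124155561) (nat_lit 84) (nat_lit 2510695793) (nat_lit 67) (nat_lit 5) (nat_lit 76) (nat_lit 5) (nat_lit 68) (nat_lit 5) (nat_lit 334) (nat_lit 309) (nat_lit 245)) (XT.lf (nat_lit 0) (nat_lit 1596849104) (nat_lit 756) (nat_lit 3613681783) (nat_lit 84) (nat_lit 5065985127) (nat_lit 67) (nat_lit 5) (nat_lit 76) (nat_lit 5) (nat_lit 68) (nat_lit 5) (nat_lit 335) (nat_lit 309) (nat_lit 244))))))))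
noncomputable def xc74 : XT := (XT.nd (nat_lit 1598) (nat_lit 1260) (nat_lit 0) (XT.nd (nat_lit 752) (nat_lit 1176) (nat_lit 0) (XT.nd (nat_lit 376) (nat_lit 420) (nat_lit 0) (XT.nd (nat_lit 188) (nat_lit 420) (nat_lit 0) (XT.nd (nat_lit 94) (nat_lit 504) (nat_lit 0) (XT.lf (nat_lit 0) (nat_lit 2735751947) (nat_lit 756) (nat_lit 17374566) (nat_lit 84) (nat_lit 7703650709) (nat_lit 67) (nat_lit 5) (nat_lit 76) (nat_lit 5) (nat_lit 68) (nat_lit 5) (nat_lit 336) (nat_lit 309) (nat_lit 243)) (XT.lf (nat_lit 0) (nat_lit 3743542258) (nat_lit 504) (nat_lit 179119215) (nat_lit 588) (nat_lit 6719745263) (nat_lit 61) (nat_lit 5) (nat_lit 67) (nat_lit 5) (nat_lit 68) (nat_lit 5) (nat_lit 337) (nat_lit 309) (nat_lit 242))) (XT.nd (nat_lit 94) (nat_lit 420) (nat_lit 0) (XT.lf (nat_lit 0) (nat_lit 5147195917) (nat_lit 588) (nat_lit 3259923033) (nat_lit 84) (nat_lit 2426814767) (nat_lit 61) (nat_lit 5)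 (nat_lit 68) (nat_lit 5) (nat_lit 62) (nat_lit 5) (nat_lit 338) (nat_lit 309) (nat_lit 241)) (XT.lf (nat_lit 0) (nat_lit 477299071) (nat_lit 420) (nat_lit 5915775719) (nat_lit 504) (nat_lit 4639001974) (nat_lit 56) (nat_lit 5) (nat_lit 61) (nat_lit 5) (nat_lit 62) (nat_lit 5) (nat_lit 339) (nat_lit 309) (nat_lit 240)))) (XT.nd (nat_lit 188) (nat_lit 420) (nat_lit 0) (XT.nd (nat_lit 94) (nat_lit 0) (nat_lit 0) (XT.lf (nat_lit 0) (nat_lit 4377398525) (nat_lit 420) (nat_lit 3311499297) (nat_lit 504) (nat_lit 3547272154) (nat_lit 56) (nat_lit 5) (nat_lit 61) (nat_lit 5) (nat_lit 62) (nat_lit 5) (nat_lit 340) (nat_lit 309) (nat_lit 239)) (XT.lf (nat_lit 0) (nat_lit 8376979926) (nat_lit 420) (nat_lit 625889136) (nat_lit 504) (nat_lit 2444557643) (nat_lit 56) (nat_lit 5) (nat_lit 61) (nat_lit 5) (nat_lit 62) (nat_lit 5) (nat_lit 341) (nat_lit 309) (nat_lit 238))) (XT.nd (nat_lit 94) (nat_lit 0)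 (nat_lit 0) (XT.lf (nat_lit 0) (nat_lit 808757739) (nat_lit 420) (nat_lit 9556742870) (nat_lit 504) (nat_lit 1299635352) (nat_lit 51) (nat_lit 5) (nat_lit 56) (nat_lit 5) (nat_lit 57) (nat_lit 5) (nat_lit 342) (nat_lit 309) (nat_lit 237)) (XT.lf (nat_lit 0) (nat_lit 4845400776) (nat_lit 420) (nat_lit 6942434365) (nat_lit 504) (nat_lit 101362579) (nat_lit 51) (nat_lit 5) (nat_lit 56) (nat_lit 5) (nat_lit 57) (nat_lit 5) (nat_lit 343) (nat_lit 309) (nat_lit 236))))) (XT.nd (nat_lit 376) (nat_lit 756) (nat_lit 0) (XT.nd (nat_lit 188) (nat_lit 0) (nat_lit 0) (XT.nd (nat_lit 94) (nat_lit 336) (nat_lit 0) (XT.lf (nat_lit 0) (nat_lit 1090567554) (nat_lit 504) (nat_lit 3145569239) (nat_lit 84) (nat_lit 7884495943) (nat_lit 50) (nat_lit 5) (nat_lit 56) (nat_lit 5) (nat_lit 51) (nat_lit 5) (nat_lit 344) (nat_lit 309) (nat_lit 235)) (XT.lf (nat_lit 0) (nat_lit 869328499) (nat_lit 336) (nat_lit 1436617560)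 (nat_lit 420) (nat_lit 10053749460) (nat_lit 46) (nat_lit 5) (nat_lit 50) (nat_lit 5) (nat_lit 51) (nat_lit 5) (nat_lit 345) (nat_lit 309) (nat_lit 234))) (XT.nd (nat_lit 94) (nat_lit 0) (nat_lit 0) (XT.lf (nat_lit 0) (nat_lit 3586922672) (nat_lit 420) (nat_lit 7565668316) (nat_lit 84) (nat_lit 1452840870) (nat_lit 46) (nat_lit 5) (nat_lit 51) (nat_lit 5) (nat_lit 47) (nat_lit 5) (nat_lit 346) (nat_lit 309) (nat_lit 233)) (XT.lf (nat_lit 0) (nat_lit 4903264178) (nat_lit 420) (nat_lit 3554533058) (nat_lit 84) (nat_lit 4401247813) (nat_lit 46) (nat_lit 5) (nat_lit 51) (nat_lit 5) (nat_lit 47) (nat_lit 5) (nat_lit 347) (nat_lit 309) (nat_lit 232)))) (XT.nd (nat_lit 188) (nat_lit 336) (nat_lit 0) (XT.nd (nat_lit 94) (nat_lit 0) (nat_lit 0) (XT.lf (nat_lit 0) (nat_lit 572564881) (nat_lit 420) (nat_lit 5675061153) (nat_lit 504) (nat_lit 6873411167) (nat_lit 41) (nat_lit 5) (nat_lit 46) (nat_lit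 5) (nat_lit 47) (nat_lit 5) (nat_lit 348) (nat_lit 309) (nat_lit 231)) (XT.lf (nat_lit 0) (nat_lit 4883240329) (nat_lit 420) (nat_lit 2769418311) (nat_lit 504) (nat_lit 5738020564) (nat_lit 41) (nat_lit 5) (nat_lit 46) (nat_lit 5) (nat_lit 47) (nat_lit 5) (nat_lit 349) (nat_lit 309) (nat_lit 230))) (XT.nd (nat_lit 94) (nat_lit 336) (nat_lit 0) (XT.lf (nat_lit 0) (nat_lit 9085914602) (nat_lit 504) (nat_lit 4363144601) (nat_lit 84) (nat_lit 220209655) (nat_lit 41) (nat_lit 5) (nat_lit 47) (nat_lit 5) (nat_lit 42) (nat_lit 5) (nat_lit 350) (nat_lit 309) (nat_lit 229)) (XT.nd (nat_lit 94) (nat_lit 336) (nat_lit 0) (XT.lf (nat_lit 0) (nat_lit 10574877080) (nat_lit 504) (nat_lit 137873797) (nat_lit 84) (nat_lit 3243504400) (nat_lit 41) (nat_lit 5) (nat_lit 47) (nat_lit 5) (nat_lit 42) (nat_lit 5) (nat_lit 351) (nat_lit 309) (nat_lit 228)) (XT.lf (nat_lit 0) (nat_lit 4286141095) (nat_lit 336)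 (nat_lit 7849838927) (nat_lit 420) (nat_lit 2115459510) (nat_lit 37) (nat_lit 5) (nat_lit 41) (nat_lit 5) (nat_lit 42) (nat_lit 5) (nat_lit 352) (nat_lit 309) (nat_lit 227))))))) (XT.nd (nat_lit 752) (nat_lit 588) (nat_lit 0) (XT.nd (nat_lit 376) (nat_lit 252) (nat_lit 0) (XT.nd (nat_lit 188) (nat_lit 336) (nat_lit 0) (XT.nd (nat_lit 94) (nat_lit 84) (nat_lit 0) (XT.lf (nat_lit 0) (nat_lit 8831816066) (nat_lit 336) (nat_lit 4898878398) (nat_lit 420) (nat_lit 825641807) (nat_lit 37) (nat_lit 5) (nat_lit 41) (nat_lit 5) (nat_lit 42) (nat_lit 5) (nat_lit 353) (nat_lit 309) (nat_lit 226)) (XT.lf (nat_lit 0) (nat_lit 478009186) (nat_lit 420) (nat_lit 1375559184) (nat_lit 84) (nat_lit 13017554571) (nat_lit 36) (nat_lit 5) (nat_lit 41) (nat_lit 5) (nat_lit 37) (nat_lit 5) (nat_lit 354) (nat_lit 309) (nat_lit 225))) (XT.nd (nat_lit 94) (nat_lit 0) (nat_lit 0) (XT.lf (nat_lit 0) (nat_lit 1833755537)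 (nat_lit 420) (nat_lit 12062738440) (nat_lit 84) (nat_lit 1298112883) (nat_lit 32) (nat_lit 5) (nat_lit 37) (nat_lit 5) (nat_lit 33) (nat_lit 5) (nat_lit 355) (nat_lit 309) (nat_lit 224)) (XT.lf (nat_lit 0) (nat_lit 3249749268) (nat_lit 420) (nat_lit 7756681934) (nat_lit 84) (nat_lit 4521214393) (nat_lit 32) (nat_lit 5) (nat_lit 37) (nat_lit 5) (nat_lit 33) (nat_lit 5) (nat_lit 356) (nat_lit 309) (nat_lit 223)))) (XT.nd (nat_lit 188) (nat_lit 0) (nat_lit 0) (XT.nd (nat_lit 94) (nat_lit 252) (nat_lit 0) (XT.lf (nat_lit 0) (nat_lit 4694853872) (nat_lit 420) (nat_lit 3334684885) (nat_lit 84) (nat_lit 7842016963) (nat_lit 32) (nat_lit 5) (nat_lit 37) (nat_lit 5) (nat_lit 33) (nat_lit 5) (nat_lit 357) (nat_lit 309) (nat_lit 222)) (XT.lf (nat_lit 0) (nat_lit 1232200565) (nat_lit 252) (nat_lit 4950439355) (nat_lit 336) (nat_lit 10043638945) (nat_lit 29) (nat_lit 5) (nat_lit 32) (nat_lit 5) (nat_lit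 33) (nat_lit 5) (nat_lit 358) (nat_lit 309) (nat_lit 221))) (XT.nd (nat_lit 94) (nat_lit 0) (nat_lit 0) (XT.lf (nat_lit 0) (nat_lit 5994505740) (nat_lit 252) (nat_lit 1742772544) (nat_lit 336) (nat_lit 8854161077) (nat_lit 29) (nat_lit 5) (nat_lit 32) (nat_lit 5) (nat_lit 33) (nat_lit 5) (nat_lit 359) (nat_lit 309) (nat_lit 220)) (XT.lf (nat_lit 0) (nat_lit 9341949063) (nat_lit 336) (nat_lit 6095814218) (nat_lit 84) (nat_lit 1530180633) (nat_lit 29) (nat_lit 5) (nat_lit 33) (nat_lit 5) (nat_lit 30) (nat_lit 5) (nat_lit 360) (nat_lit 309) (nat_lit 219))))) (XT.nd (nat_lit 376) (nat_lit 336) (nat_lit 0) (XT.nd (nat_lit 188) (nat_lit 0) (nat_lit 0) (XT.nd (nat_lit 94) (nat_lit 252) (nat_lit 0) (XT.lf (nat_lit 0) (nat_lit 11000920681) (nat_lit 336) (nat_lit 1489297277) (nat_lit 84) (nat_lit 4865839555) (nat_lit 29) (nat_lit 5) (nat_lit 33) (nat_lit 5) (nat_lit 30) (nat_lit 5) (nat_lit 361)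 (nat_lit 309) (nat_lit 218)) (XT.lf (nat_lit 0) (nat_lit 3310906871) (nat_lit 252) (nat_lit 9420388689) (nat_lit 336) (nat_lit 5024364123) (nat_lit 26) (nat_lit 5) (nat_lit 29) (nat_lit 5) (nat_lit 30) (nat_lit 5) (nat_lit 362) (nat_lit 309) (nat_lit 217))) (XT.nd (nat_lit 94) (nat_lit 0) (nat_lit 0) (XT.lf (nat_lit 0) (nat_lit 8275827643) (nat_lit 252) (nat_lit 6242391750) (nat_lit 336) (nat_lit 3649413983) (nat_lit 26) (nat_lit 5) (nat_lit 29) (nat_lit 5) (nat_lit 30) (nat_lit 5) (nat_lit 363) (nat_lit 309) (nat_lit 216)) (XT.lf (nat_lit 0) (nat_lit 13379469856) (nat_lit 252) (nat_lit 2968810126) (nat_lit 336) (nat_lit 2244550024) (nat_lit 26) (nat_lit 5) (nat_lit 29) (nat_lit 5) (nat_lit 30) (nat_lit 5) (nat_lit 364) (nat_lit 309) (nat_lit 215)))) (XT.nd (nat_lit 188) (nat_lit 0) (nat_lit 0) (XT.nd (nat_lit 94) (nat_lit 336) (nat_lit 0) (XT.lf (nat_lit 0) (nat_lit 18227184989) (nat_lit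 336) (nat_lit 409057115) (nat_lit 84) (nat_lit 395279742) (nat_lit 26) (nat_lit 5) (nat_lit 30) (nat_lit 5) (nat_lit 27) (nat_lit 5) (nat_lit 365) (nat_lit 309) (nat_lit 214)) (XT.lf (nat_lit 0) (nat_lit 731758298) (nat_lit 336) (nat_lit 14897656343) (nat_lit 84) (nat_lit 3852241355) (nat_lit 22) (nat_lit 5) (nat_lit 26) (nat_lit 5) (nat_lit 23) (nat_lit 5) (nat_lit 366) (nat_lit 309) (nat_lit 213))) (XT.nd (nat_lit 94) (nat_lit 0) (nat_lit 0) (XT.lf (nat_lit 0) (nat_lit 2291541637) (nat_lit 336) (nat_lit 10228210043) (nat_lit 84) (nat_lit 7426025021) (nat_lit 22) (nat_lit 5) (nat_lit 26) (nat_lit 5) (nat_lit 23) (nat_lit 5) (nat_lit 367) (nat_lit 309) (nat_lit 212)) (XT.nd (nat_lit 94) (nat_lit 0) (nat_lit 0) (XT.lf (nat_lit 0) (nat_lit 3888488943) (nat_lit 336) (nat_lit 5428405605) (nat_lit 84) (nat_lit 11107799069) (nat_lit 22) (nat_lit 5) (nat_lit 26) (nat_lit 5) (nat_lit 23) (nat_lit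 5) (nat_lit 368) (nat_lit 309) (nat_lit 211)) (XT.lf (nat_lit 0) (nat_lit 5524088739) (nat_lit 336) (nat_lit 493769109) (nat_lit 84) (nat_lit 14900995297) (nat_lit 22) (nat_lit 5) (nat_lit 26) (nat_lit 5) (nat_lit 23) (nat_lit 5) (nat_lit 369) (nat_lit 309) (nat_lit 210))))))))
noncomputable def xc75 : XT := (XT.nd (nat_lit 51230) (nat_lit 0) (nat_lit 3696) (XT.nd (nat_lit 50384) (nat_lit 0) (nat_lit 7308) (XT.nd (nat_lit 376) (nat_lit 168) (nat_lit 0) (XT.nd (nat_lit 188) (nat_lit 0) (nat_lit 0) (XT.nd (nat_lit 94) (nat_lit 0) (nat_lit 0) (XT.lf (nat_lit 0) (nat_lit 4674479383) (nat_lit 252) (nat_lit 2571757606) (nat_lit 336) (nat_lit 14181041392) (nat_lit 19) (nat_lit 5) (nat_lit 22) (nat_lit 5) (nat_lit 23) (nat_lit 5) (nat_lit 370) (nat_lit 309) (nat_lit 209)) (XT.lf (nat_lit 0) (nat_lit 9026338433) (nat_lit 336) (nat_lit 11961431300) (nat_lit 84) (nat_lit 963609709) (nat_lit 19) (nat_lit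 5) (nat_lit 23) (nat_lit 5) (nat_lit 20) (nat_lit 5) (nat_lit 371) (nat_lit 309) (nat_lit 208))) (XT.nd (nat_lit 94) (nat_lit 0) (nat_lit 0) (XT.lf (nat_lit 0) (nat_lit 10877864562) (nat_lit 336) (nat_lit 7061172200) (nat_lit 84) (nat_lit 4552241907) (nat_lit 19) (nat_lit 5) (nat_lit 23) (nat_lit 5) (nat_lit 20) (nat_lit 5) (nat_lit 372) (nat_lit 309) (nat_lit 207)) (XT.lf (nat_lit 0) (nat_lit 12777029038) (nat_lit 336) (nat_lit 2021941989) (nat_lit 84) (nat_lit 8249299153) (nat_lit 19) (nat_lit 5) (nat_lit 23) (nat_lit 5) (nat_lit 20) (nat_lit 5) (nat_lit 373) (nat_lit 309) (nat_lit 206)))) (XT.nd (nat_lit 49820) (nat_lit 0) (nat_lit 7980) (XT.nd (nat_lit 49726) (nat_lit 0) (nat_lit 7980) (XT.lf (nat_lit 0) (nat_lit 3225952170) (nat_lit 168) (nat_lit 11531651756) (nat_lit 252) (nat_lit 8864277165) (nat_lit 17) (nat_lit 5) (nat_lit 19) (nat_lit 5) (nat_lit 20) (nat_lit 5) (nat_lit 374)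 (nat_lit 309) (nat_lit 205)) (XT.lf (nat_lit 0) (nat_lit 79554930) (nat_lit 756) (nat_lit 1812691807) (nat_lit 756) (nat_lit 1812691807) (nat_lit 112) (nat_lit 3) (nat_lit 121) (nat_lit 3) (nat_lit 121) (nat_lit 5) (nat_lit 310) (nat_lit 310) (nat_lit 268))) (XT.nd (nat_lit 94) (nat_lit 0) (nat_lit 0) (XT.lf (nat_lit 0) (nat_lit 1303870949) (nat_lit 756) (nat_lit 1114519867) (nat_lit 756) (nat_lit 5061085700) (nat_lit 112) (nat_lit 3) (nat_lit 121) (nat_lit 3) (nat_lit 121) (nat_lit 5) (nat_lit 311) (nat_lit 310) (nat_lit 267)) (XT.lf (nat_lit 84) (nat_lit 1480074401) (nat_lit 0) (nat_lit 972698360) (nat_lit 756) (nat_lit 5099829127) (nat_lit 113) (nat_lit 5) (nat_lit 112) (nat_lit 3) (nat_lit 121) (nat_lit 5) (nat_lit 312) (nat_lit 310) (nat_lit 266))))) (XT.nd (nat_lit 376) (nat_lit 756) (nat_lit 0) (XT.nd (nat_lit 188) (nat_lit 0) (nat_lit 0) (XT.nd (nat_lit 94) (nat_lit 0) (nat_lit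 0) (XT.lf (nat_lit 0) (nat_lit 3609509490) (nat_lit 672) (nat_lit 3479831380) (nat_lit 756) (nat_lit 539899174) (nat_lit 113) (nat_lit 5) (nat_lit 121) (nat_lit 5) (nat_lit 122) (nat_lit 5) (nat_lit 313) (nat_lit 310) (nat_lit 265)) (XT.lf (nat_lit 0) (nat_lit 4768726539) (nat_lit 672) (nat_lit 841608717) (nat_lit 756) (nat_lit 2099326576) (nat_lit 113) (nat_lit 5) (nat_lit 121) (nat_lit 5) (nat_lit 122) (nat_lit 5) (nat_lit 314) (nat_lit 310) (nat_lit 264))) (XT.nd (nat_lit 94) (nat_lit 0) (nat_lit 0) (XT.lf (nat_lit 84) (nat_lit 1892376046) (nat_lit 0) (nat_lit 4048251692) (nat_lit 756) (nat_lit 1853031658) (nat_lit 114) (nat_lit 5) (nat_lit 113) (nat_lit 5) (nat_lit 122) (nat_lit 5) (nat_lit 315) (nat_lit 310) (nat_lit 263)) (XT.lf (nat_lit 84) (nat_lit 4705050536) (nat_lit 0) (nat_lit 2411594257) (nat_lit 756) (nat_lit 764965714) (nat_lit 114) (nat_lit 5) (nat_lit 113) (nat_lit 5) (nat_lit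 122) (nat_lit 5) (nat_lit 316) (nat_lit 310) (nat_lit 262)))) (XT.nd (nat_lit 188) (nat_lit 0) (nat_lit 84) (XT.nd (nat_lit 94) (nat_lit 0) (nat_lit 84) (XT.lf (nat_lit 0) (nat_lit 309135599) (nat_lit 756) (nat_lit 395259744) (nat_lit 840) (nat_lit 7269368918) (nat_lit 104) (nat_lit 5) (nat_lit 113) (nat_lit 5) (nat_lit 114) (nat_lit 5) (nat_lit 317) (nat_lit 310) (nat_lit 261)) (XT.lf (nat_lit 0) (nat_lit 1397028732) (nat_lit 756) (nat_lit 5589257936) (nat_lit 840) (nat_lit 1082677943) (nat_lit 105) (nat_lit 5) (nat_lit 114) (nat_lit 5) (nat_lit 115) (nat_lit 5) (nat_lit 318) (nat_lit 310) (nat_lit 260))) (XT.nd (nat_lit 94) (nat_lit 0) (nat_lit 0) (XT.lf (nat_lit 0) (nat_lit 2491829100) (nat_lit 756) (nat_lit 2747084495) (nat_lit 840) (nat_lit 2929344585) (nat_lit 105) (nat_lit 5) (nat_lit 114) (nat_lit 5) (nat_lit 115) (nat_lit 5) (nat_lit 319) (nat_lit 310) (nat_lit 259)) (XT.nd (nat_lit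 94) (nat_lit 0) (nat_lit 0) (XT.lf (nat_lit 84) (nat_lit 162190512) (nat_lit 0) (nat_lit 3422945342) (nat_lit 840) (nat_lit 4686893725) (nat_lit 106) (nat_lit 5) (nat_lit 105) (nat_lit 5) (nat_lit 115) (nat_lit 5) (nat_lit 320) (nat_lit 310) (nat_lit 258)) (XT.lf (nat_lit 84) (nat_lit 3195861953) (nat_lit 0) (nat_lit 1508981116) (nat_lit 840) (nat_lit 3674699341) (nat_lit 106) (nat_lit 5) (nat_lit 105) (nat_lit 5) (nat_lit 115) (nat_lit 5) (nat_lit 321) (nat_lit 310) (nat_lit 257))))))) (XT.nd (nat_lit 846) (nat_lit 2184) (nat_lit 0) (XT.nd (nat_lit 376) (nat_lit 756) (nat_lit 0) (XT.nd (nat_lit 188) (nat_lit 840) (nat_lit 0) (XT.nd (nat_lit 94) (nat_lit 0) (nat_lit 0) (XT.lf (nat_lit 0) (nat_lit 5828905529) (nat_lit 756) (nat_lit 2196210079) (nat_lit 840) (nat_lit 466497035) (nat_lit 106) (nat_lit 5) (nat_lit 115) (nat_lit 5) (nat_lit 116) (nat_lit 5) (nat_lit 322) (nat_lit 310) (nat_lit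 256)) (XT.lf (nat_lit 84) (nat_lit 861753362) (nat_lit 0) (nat_lit 6116132064) (nat_lit 840) (nat_lit 1629854363) (nat_lit 107) (nat_lit 5) (nat_lit 106) (nat_lit 5) (nat_lit 116) (nat_lit 5) (nat_lit 323) (nat_lit 310) (nat_lit 255))) (XT.nd (nat_lit 94) (nat_lit 840) (nat_lit 0) (XT.lf (nat_lit 84) (nat_lit 4037268031) (nat_lit 0) (nat_lit 4115012553) (nat_lit 840) (nat_lit 575769278) (nat_lit 107) (nat_lit 5) (nat_lit 106) (nat_lit 5) (nat_lit 116) (nat_lit 5) (nat_lit 324) (nat_lit 310) (nat_lit 254)) (XT.lf (nat_lit 0) (nat_lit 467984018) (nat_lit 840) (nat_lit 1569946938) (nat_lit 924) (nat_lit 6815266442) (nat_lit 96) (nat_lit 5) (nat_lit 106) (nat_lit 5) (nat_lit 107) (nat_lit 5) (nat_lit 325) (nat_lit 310) (nat_lit 253)))) (XT.nd (nat_lit 188) (nat_lit 840) (nat_lit 0) (XT.nd (nat_lit 94) (nat_lit 0) (nat_lit 0) (XT.lf (nat_lit 0) (nat_lit 1518128200) (nat_lit 840) (nat_lit 7332365757)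 (nat_lit 84) (nat_lit 132225514) (nat_lit 97) (nat_lit 5) (nat_lit 107) (nat_lit 5) (nat_lit 98) (nat_lit 5) (nat_lit 326) (nat_lit 310) (nat_lit 252)) (XT.lf (nat_lit 0) (nat_lit 2607299467) (nat_lit 840) (nat_lit 4157324013) (nat_lit 84) (nat_lit 2351668625) (nat_lit 97) (nat_lit 5) (nat_lit 107) (nat_lit 5) (nat_lit 98) (nat_lit 5) (nat_lit 327) (nat_lit 310) (nat_lit 251))) (XT.nd (nat_lit 94) (nat_lit 840) (nat_lit 0) (XT.lf (nat_lit 0) (nat_lit 3700239649) (nat_lit 840) (nat_lit 907454599) (nat_lit 84) (nat_lit 4647470033) (nat_lit 97) (nat_lit 5) (nat_lit 107) (nat_lit 5) (nat_lit 98) (nat_lit 5) (nat_lit 328) (nat_lit 310) (nat_lit 250)) (XT.nd (nat_lit 94) (nat_lit 0) (nat_lit 0) (XT.lf (nat_lit 0) (nat_lit 2470037452) (nat_lit 840) (nat_lit 2352433105) (nat_lit 924) (nat_lit 4576235290) (nat_lit 87) (nat_lit 5) (nat_lit 97) (nat_lit 5) (nat_lit 98) (nat_lit 5) (nat_lit 329) (nat_lit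 310) (nat_lit 249)) (XT.lf (nat_lit 0) (nat_lit 5948811988) (nat_lit 840) (nat_lit 11707122) (nat_lit 924) (nat_lit 3586981581) (nat_lit 87) (nat_lit 5) (nat_lit 97) (nat_lit 5) (nat_lit 98) (nat_lit 5) (nat_lit 330) (nat_lit 310) (nat_lit 248)))))) (XT.nd (nat_lit 376) (nat_lit 504) (nat_lit 0) (XT.nd (nat_lit 188) (nat_lit 756) (nat_lit 0) (XT.nd (nat_lit 94) (nat_lit 924) (nat_lit 0) (XT.lf (nat_lit 0) (nat_lit 7130138583) (nat_lit 924) (nat_lit 212399505) (nat_lit 84) (nat_lit 2358693950) (nat_lit 87) (nat_lit 5) (nat_lit 98) (nat_lit 5) (nat_lit 88) (nat_lit 5) (nat_lit 331) (nat_lit 310) (nat_lit 247)) (XT.lf (nat_lit 0) (nat_lit 3323300587) (nat_lit 924) (nat_lit 5019098237) (nat_lit 1008) (nat_lit 1517334988) (nat_lit 76) (nat_lit 5) (nat_lit 87) (nat_lit 5) (nat_lit 88) (nat_lit 5) (nat_lit 332) (nat_lit 310) (nat_lit 246))) (XT.nd (nat_lit 94) (nat_lit 756) (nat_lit 0) (XT.lf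 (nat_lit 0) (nat_lit 6950935500) (nat_lit 924) (nat_lit 2617398903) (nat_lit 1008) (nat_lit 455752308) (nat_lit 76) (nat_lit 5) (nat_lit 87) (nat_lit 5) (nat_lit 88) (nat_lit 5) (nat_lit 333) (nat_lit 310) (nat_lit 245)) (XT.lf (nat_lit 0) (nat_lit 478575485) (nat_lit 672) (nat_lit 126260078) (nat_lit 756) (nat_lit 9589339520) (nat_lit 67) (nat_lit 5) (nat_lit 75) (nat_lit 5) (nat_lit 76) (nat_lit 5) (nat_lit 334) (nat_lit 310) (nat_lit 244)))) (XT.nd (nat_lit 188) (nat_lit 504) (nat_lit 0) (XT.nd (nat_lit 94) (nat_lit 0) (nat_lit 0) (XT.lf (nat_lit 0) (nat_lit 1720272846) (nat_lit 756) (nat_lit 6215193466) (nat_lit 84) (nat_lit 2433130120) (nat_lit 67) (nat_lit 5) (nat_lit 76) (nat_lit 5) (nat_lit 68) (nat_lit 5) (nat_lit 335) (nat_lit 310) (nat_lit 243)) (XT.lf (nat_lit 0) (nat_lit 2847144321) (nat_lit 756) (nat_lit 2629866037) (nat_lit 84) (nat_lit 5072305892) (nat_lit 67) (nat_lit 5)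 (nat_lit 76) (nat_lit 5) (nat_lit 68) (nat_lit 5) (nat_lit 336) (nat_lit 310) (nat_lit 242))) (XT.nd (nat_lit 94) (nat_lit 0) (nat_lit 0) (XT.lf (nat_lit 0) (nat_lit 1066463976) (nat_lit 504) (nat_lit 2929363315) (nat_lit 588) (nat_lit 6740386561) (nat_lit 61) (nat_lit 5) (nat_lit 67) (nat_lit 5) (nat_lit 68) (nat_lit 5) (nat_lit 337) (nat_lit 310) (nat_lit 241)) (XT.nd (nat_lit 94) (nat_lit 0) (nat_lit 0) (XT.lf (nat_lit 0) (nat_lit 4911721541) (nat_lit 504) (nat_lit 272647569) (nat_lit 588) (nat_lit 5744568060) (nat_lit 61) (nat_lit 5) (nat_lit 67) (nat_lit 5) (nat_lit 68) (nat_lit 5) (nat_lit 338) (nat_lit 310) (nat_lit 240)) (XT.lf (nat_lit 0) (nat_lit 6411737071) (nat_lit 588) (nat_lit 2297560300) (nat_lit 84) (nat_lit 2418434828) (nat_lit 61) (nat_lit 5) (nat_lit 68) (nat_lit 5) (nat_lit 62) (nat_lit 5) (nat_lit 339) (nat_lit 310) (nat_lit 239))))))))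
noncomputable def xc76 : XT := (XT.nd (nat_lit 1598) (nat_lit 1092) (nat_lit 0) (XT.nd (nat_lit 752) (nat_lit 1176) (nat_lit 0) (XT.nd (nat_lit 376) (nat_lit 420) (nat_lit 0) (XT.nd (nat_lit 188) (nat_lit 420) (nat_lit 0) (XT.nd (nat_lit 94) (nat_lit 0) (nat_lit 0) (XT.lf (nat_lit 0) (nat_lit 1544749513) (nat_lit 420) (nat_lit 6128706770) (nat_lit 504) (nat_lit 3659502140) (nat_lit 56) (nat_lit 5) (nat_lit 61) (nat_lit 5) (nat_lit 62) (nat_lit 5) (nat_lit 340) (nat_lit 310) (nat_lit 238)) (XT.lf (nat_lit 0) (nat_lit 5534100955) (nat_lit 420) (nat_lit 3442809513) (nat_lit 504) (nat_lit 2567704229) (nat_lit 56) (nat_lit 5) (nat_lit 61) (nat_lit 5) (nat_lit 62) (nat_lit 5) (nat_lit 341) (nat_lit 310) (nat_lit 237))) (XT.nd (nat_lit 94) (nat_lit 420) (nat_lit 0) (XT.lf (nat_lit 0) (nat_lit 9626969966) (nat_lit 420) (nat_lit 673083880) (nat_lit 504) (nat_lit 1463565544) (nat_lit 56) (nat_lit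 5) (nat_lit 61) (nat_lit 5) (nat_lit 62) (nat_lit 5) (nat_lit 342) (nat_lit 310) (nat_lit 236)) (XT.lf (nat_lit 0) (nat_lit 1852665835) (nat_lit 420) (nat_lit 9831488709) (nat_lit 504) (nat_lit 304781013) (nat_lit 51) (nat_lit 5) (nat_lit 56) (nat_lit 5) (nat_lit 57) (nat_lit 5) (nat_lit 343) (nat_lit 310) (nat_lit 235)))) (XT.nd (nat_lit 188) (nat_lit 336) (nat_lit 0) (XT.nd (nat_lit 94) (nat_lit 0) (nat_lit 0) (XT.lf (nat_lit 0) (nat_lit 881390448) (nat_lit 504) (nat_lit 6246193140) (nat_lit 84) (nat_lit 5093220177) (nat_lit 50) (nat_lit 5) (nat_lit 56) (nat_lit 5) (nat_lit 51) (nat_lit 5) (nat_lit 344) (nat_lit 310) (nat_lit 234)) (XT.lf (nat_lit 0) (nat_lit 2078584389) (nat_lit 504) (nat_lit 2258673729) (nat_lit 84) (nat_lit 8123235258) (nat_lit 50) (nat_lit 5) (nat_lit 56) (nat_lit 5) (nat_lit 51) (nat_lit 5) (nat_lit 345) (nat_lit 310) (nat_lit 233))) (XT.nd (nat_lit 94) (nat_lit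 0) (nat_lit 0) (XT.lf (nat_lit 0) (nat_lit 1870719589) (nat_lit 336) (nat_lit 1441895559) (nat_lit 420) (nat_lit 9395131099) (nat_lit 46) (nat_lit 5) (nat_lit 50) (nat_lit 5) (nat_lit 51) (nat_lit 5) (nat_lit 346) (nat_lit 310) (nat_lit 232)) (XT.lf (nat_lit 0) (nat_lit 4605560726) (nat_lit 420) (nat_lit 6821394816) (nat_lit 84) (nat_lit 1535188540) (nat_lit 46) (nat_lit 5) (nat_lit 51) (nat_lit 5) (nat_lit 47) (nat_lit 5) (nat_lit 347) (nat_lit 310) (nat_lit 231))))) (XT.nd (nat_lit 376) (nat_lit 756) (nat_lit 0) (XT.nd (nat_lit 188) (nat_lit 0) (nat_lit 0) (XT.nd (nat_lit 94) (nat_lit 420) (nat_lit 0) (XT.lf (nat_lit 0) (nat_lit 5935423904) (nat_lit 420) (nat_lit 2715345098) (nat_lit 84) (nat_lit 4573874277) (nat_lit 46) (nat_lit 5) (nat_lit 51) (nat_lit 5) (nat_lit 47) (nat_lit 5) (nat_lit 348) (nat_lit 310) (nat_lit 230)) (XT.lf (nat_lit 0) (nat_lit 1530081273) (nat_lit 420) (nat_lit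 5774237794) (nat_lit 504) (nat_lit 6191142328) (nat_lit 41) (nat_lit 5) (nat_lit 46) (nat_lit 5) (nat_lit 47) (nat_lit 5) (nat_lit 349) (nat_lit 310) (nat_lit 229))) (XT.nd (nat_lit 94) (nat_lit 0) (nat_lit 0) (XT.lf (nat_lit 0) (nat_lit 5946130847) (nat_lit 420) (nat_lit 2780827743) (nat_lit 504) (nat_lit 5047475743) (nat_lit 41) (nat_lit 5) (nat_lit 46) (nat_lit 5) (nat_lit 47) (nat_lit 5) (nat_lit 350) (nat_lit 310) (nat_lit 228)) (XT.lf (nat_lit 0) (nat_lit 10180192902) (nat_lit 504) (nat_lit 3584602360) (nat_lit 84) (nat_lit 297785607) (nat_lit 41) (nat_lit 5) (nat_lit 47) (nat_lit 5) (nat_lit 42) (nat_lit 5) (nat_lit 351) (nat_lit 310) (nat_lit 227)))) (XT.nd (nat_lit 188) (nat_lit 420) (nat_lit 0) (XT.nd (nat_lit 94) (nat_lit 0) (nat_lit 0) (XT.lf (nat_lit 0) (nat_lit 759477584) (nat_lit 336) (nat_lit 10938936123) (nat_lit 420) (nat_lit 2660731727) (nat_lit 37) (nat_lit 5) (nat_lit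 41) (nat_lit 5) (nat_lit 42) (nat_lit 5) (nat_lit 352) (nat_lit 310) (nat_lit 226)) (XT.lf (nat_lit 0) (nat_lit 5296361926) (nat_lit 336) (nat_lit 7989019274) (nat_lit 420) (nat_lit 1378950563) (nat_lit 37) (nat_lit 5) (nat_lit 41) (nat_lit 5) (nat_lit 42) (nat_lit 5) (nat_lit 353) (nat_lit 310) (nat_lit 225))) (XT.nd (nat_lit 94) (nat_lit 420) (nat_lit 0) (XT.lf (nat_lit 0) (nat_lit 9956572740) (nat_lit 336) (nat_lit 4949710981) (nat_lit 420) (nat_lit 73265615) (nat_lit 37) (nat_lit 5) (nat_lit 41) (nat_lit 5) (nat_lit 42) (nat_lit 5) (nat_lit 354) (nat_lit 310) (nat_lit 224)) (XT.nd (nat_lit 94) (nat_lit 336) (nat_lit 0) (XT.lf (nat_lit 0) (nat_lit 1232203518) (nat_lit 420) (nat_lit 573113094) (nat_lit 84) (nat_lit 13499388635) (nat_lit 36) (nat_lit 5) (nat_lit 41) (nat_lit 5) (nat_lit 37) (nat_lit 5) (nat_lit 355) (nat_lit 310) (nat_lit 223)) (XT.lf (nat_lit 0) (nat_lit 2617147054) (nat_lit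 420) (nat_lit 11574397467) (nat_lit 84) (nat_lit 1447205766) (nat_lit 32) (nat_lit 5) (nat_lit 37) (nat_lit 5) (nat_lit 33) (nat_lit 5) (nat_lit 356) (nat_lit 310) (nat_lit 222))))))) (XT.nd (nat_lit 752) (nat_lit 588) (nat_lit 0) (XT.nd (nat_lit 376) (nat_lit 252) (nat_lit 0) (XT.nd (nat_lit 188) (nat_lit 252) (nat_lit 0) (XT.nd (nat_lit 94) (nat_lit 0) (nat_lit 0) (XT.lf (nat_lit 0) (nat_lit 4055190909) (nat_lit 420) (nat_lit 7160780331) (nat_lit 84) (nat_lit 4766950490) (nat_lit 32) (nat_lit 5) (nat_lit 37) (nat_lit 5) (nat_lit 33) (nat_lit 5) (nat_lit 357) (nat_lit 310) (nat_lit 221)) (XT.lf (nat_lit 0) (nat_lit 5523904928) (nat_lit 420) (nat_lit 2626848921) (nat_lit 84) (nat_lit 8187523417) (nat_lit 32) (nat_lit 5) (nat_lit 37) (nat_lit 5) (nat_lit 33) (nat_lit 5) (nat_lit 358) (nat_lit 310) (nat_lit 220))) (XT.nd (nat_lit 94) (nat_lit 0) (nat_lit 0) (XT.lf (nat_lit 0) (nat_lit 2073397194)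 (nat_lit 252) (nat_lit 4971829268) (nat_lit 336) (nat_lit 9659284043) (nat_lit 29) (nat_lit 5) (nat_lit 32) (nat_lit 5) (nat_lit 33) (nat_lit 5) (nat_lit 359) (nat_lit 310) (nat_lit 219)) (XT.lf (nat_lit 0) (nat_lit 6959189357) (nat_lit 252) (nat_lit 1668695964) (nat_lit 336) (nat_lit 8453850828) (nat_lit 29) (nat_lit 5) (nat_lit 32) (nat_lit 5) (nat_lit 33) (nat_lit 5) (nat_lit 360) (nat_lit 310) (nat_lit 218)))) (XT.nd (nat_lit 188) (nat_lit 252) (nat_lit 0) (XT.nd (nat_lit 94) (nat_lit 0) (nat_lit 0) (XT.lf (nat_lit 0) (nat_lit 10263966752) (nat_lit 336) (nat_lit 5507266537) (nat_lit 84) (nat_lit 1699363612) (nat_lit 29) (nat_lit 5) (nat_lit 33) (nat_lit 5) (nat_lit 30) (nat_lit 5) (nat_lit 361) (nat_lit 310) (nat_lit 217)) (XT.lf (nat_lit 0) (nat_lit 11955351035) (nat_lit 336) (nat_lit 781325898) (nat_lit 84) (nat_lit 5134767273) (nat_lit 29) (nat_lit 5) (nat_lit 33) (nat_lit 5) (nat_lit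 30) (nat_lit 5) (nat_lit 362) (nat_lit 310) (nat_lit 216))) (XT.nd (nat_lit 94) (nat_lit 0) (nat_lit 0) (XT.lf (nat_lit 0) (nat_lit 4160049593) (nat_lit 252) (nat_lit 9568279658) (nat_lit 336) (nat_lit 4555556293) (nat_lit 26) (nat_lit 5) (nat_lit 29) (nat_lit 5) (nat_lit 30) (nat_lit 5) (nat_lit 363) (nat_lit 310) (nat_lit 215)) (XT.lf (nat_lit 0) (nat_lit 9256437086) (nat_lit 252) (nat_lit 6296098833) (nat_lit 336) (nat_lit 3156761997) (nat_lit 26) (nat_lit 5) (nat_lit 29) (nat_lit 5) (nat_lit 30) (nat_lit 5) (nat_lit 364) (nat_lit 310) (nat_lit 214))))) (XT.nd (nat_lit 376) (nat_lit 252) (nat_lit 0) (XT.nd (nat_lit 188) (nat_lit 84) (nat_lit 0) (XT.nd (nat_lit 94) (nat_lit 252) (nat_lit 0) (XT.lf (nat_lit 0) (nat_lit 14496521285) (nat_lit 252) (nat_lit 2925239883) (nat_lit 336) (nat_lit 1726561901) (nat_lit 26) (nat_lit 5) (nat_lit 29) (nat_lit 5) (nat_lit 30) (nat_lit 5) (nat_lit 365)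 (nat_lit 310) (nat_lit 213)) (XT.lf (nat_lit 0) (nat_lit 284109794) (nat_lit 252) (nat_lit 19061886584) (nat_lit 336) (nat_lit 255118117) (nat_lit 23) (nat_lit 5) (nat_lit 26) (nat_lit 5) (nat_lit 27) (nat_lit 5) (nat_lit 366) (nat_lit 310) (nat_lit 212))) (XT.nd (nat_lit 94) (nat_lit 0) (nat_lit 0) (XT.lf (nat_lit 0) (nat_lit 1304296018) (nat_lit 336) (nat_lit 14652115090) (nat_lit 84) (nat_lit 4109103663) (nat_lit 22) (nat_lit 5) (nat_lit 26) (nat_lit 5) (nat_lit 23) (nat_lit 5) (nat_lit 367) (nat_lit 310) (nat_lit 211)) (XT.lf (nat_lit 0) (nat_lit 2895899712) (nat_lit 336) (nat_lit 9859185040) (nat_lit 84) (nat_lit 7789542007) (nat_lit 22) (nat_lit 5) (nat_lit 26) (nat_lit 5) (nat_lit 23) (nat_lit 5) (nat_lit 368) (nat_lit 310) (nat_lit 210)))) (XT.nd (nat_lit 188) (nat_lit 0) (nat_lit 0) (XT.nd (nat_lit 94) (nat_lit 252) (nat_lit 0) (XT.lf (nat_lit 0) (nat_lit 4526316566) (nat_lit 336)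 (nat_lit 4931216233) (nat_lit 84) (nat_lit 11581442692) (nat_lit 22) (nat_lit 5) (nat_lit 26) (nat_lit 5) (nat_lit 23) (nat_lit 5) (nat_lit 369) (nat_lit 310) (nat_lit 209)) (XT.lf (nat_lit 0) (nat_lit 139189062) (nat_lit 252) (nat_lit 6059258011) (nat_lit 336) (nat_lit 15350531879) (nat_lit 19) (nat_lit 5) (nat_lit 22) (nat_lit 5) (nat_lit 23) (nat_lit 5) (nat_lit 370) (nat_lit 310) (nat_lit 208))) (XT.nd (nat_lit 94) (nat_lit 0) (nat_lit 0) (XT.lf (nat_lit 0) (nat_lit 5458314200) (nat_lit 252) (nat_lit 2505539181) (nat_lit 336) (nat_lit 14109709026) (nat_lit 19) (nat_lit 5) (nat_lit 22) (nat_lit 5) (nat_lit 23) (nat_lit 5) (nat_lit 371) (nat_lit 310) (nat_lit 207)) (XT.nd (nat_lit 94) (nat_lit 0) (nat_lit 0) (XT.lf (nat_lit 0) (nat_lit 9785719248) (nat_lit 336) (nat_lit 11696503578) (nat_lit 84) (nat_lit 1132184312) (nat_lit 19) (nat_lit 5) (nat_lit 23) (nat_lit 5) (nat_lit 20) (nat_lit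 5) (nat_lit 372) (nat_lit 310) (nat_lit 206)) (XT.lf (nat_lit 0) (nat_lit 11680223197) (nat_lit 336) (nat_lit 6663451572) (nat_lit 84) (nat_lit 4827893610) (nat_lit 19) (nat_lit 5) (nat_lit 23) (nat_lit 5) (nat_lit 20) (nat_lit 5) (nat_lit 373) (nat_lit 310) (nat_lit 205))))))))
noncomputable def xc77 : XT := (XT.nd (nat_lit 51324) (nat_lit 0) (nat_lit 2604) (XT.nd (nat_lit 50478) (nat_lit 0) (nat_lit 6468) (XT.nd (nat_lit 50102) (nat_lit 0) (nat_lit 7140) (XT.nd (nat_lit 49914) (nat_lit 0) (nat_lit 7812) (XT.nd (nat_lit 49820) (nat_lit 0) (nat_lit 7812) (XT.lf (nat_lit 0) (nat_lit 13624275846) (nat_lit 336) (nat_lit 1486545598) (nat_lit 84) (nat_lit 8635514530) (nat_lit 19) (nat_lit 5) (nat_lit 23) (nat_lit 5) (nat_lit 20) (nat_lit 5) (nat_lit 374) (nat_lit 310) (nat_lit 204)) (XT.lf (nat_lit 0) (nat_lit 1212984313) (nat_lit 756) (nat_lit 1281001290) (nat_lit 756) (nat_lit 1281001290)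 (nat_lit 112) (nat_lit 3) (nat_lit 121) (nat_lit 3) (nat_lit 121) (nat_lit 5) (nat_lit 311) (nat_lit 311) (nat_lit 266))) (XT.nd (nat_lit 94) (nat_lit 0) (nat_lit 0) (XT.lf (nat_lit 0) (nat_lit 3538205944) (nat_lit 756) (nat_lit 8654923) (nat_lit 756) (nat_lit 4077564297) (nat_lit 112) (nat_lit 3) (nat_lit 121) (nat_lit 3) (nat_lit 121) (nat_lit 5) (nat_lit 312) (nat_lit 311) (nat_lit 265)) (XT.lf (nat_lit 84) (nat_lit 2654826089) (nat_lit 0) (nat_lit 2013129741) (nat_lit 756) (nat_lit 3034127793) (nat_lit 113) (nat_lit 5) (nat_lit 112) (nat_lit 3) (nat_lit 121) (nat_lit 5) (nat_lit 313) (nat_lit 311) (nat_lit 264)))) (XT.nd (nat_lit 188) (nat_lit 672) (nat_lit 0) (XT.nd (nat_lit 94) (nat_lit 0) (nat_lit 84) (XT.lf (nat_lit 84) (nat_lit 5378777126) (nat_lit 0) (nat_lit 411819179) (nat_lit 756) (nat_lit 1993221169) (nat_lit 113) (nat_lit 5) (nat_lit 112) (nat_lit 3) (nat_lit 121) (nat_lit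 5) (nat_lit 314) (nat_lit 311) (nat_lit 263)) (XT.lf (nat_lit 84) (nat_lit 289196061) (nat_lit 0) (nat_lit 6633243173) (nat_lit 756) (nat_lit 946790440) (nat_lit 114) (nat_lit 5) (nat_lit 113) (nat_lit 5) (nat_lit 122) (nat_lit 5) (nat_lit 315) (nat_lit 311) (nat_lit 262))) (XT.nd (nat_lit 94) (nat_lit 0) (nat_lit 0) (XT.lf (nat_lit 0) (nat_lit 118485572) (nat_lit 756) (nat_lit 4868700762) (nat_lit 840) (nat_lit 2970731849) (nat_lit 104) (nat_lit 5) (nat_lit 113) (nat_lit 5) (nat_lit 114) (nat_lit 5) (nat_lit 316) (nat_lit 311) (nat_lit 261)) (XT.lf (nat_lit 0) (nat_lit 1157830647) (nat_lit 756) (nat_lit 2106617661) (nat_lit 840) (nat_lit 4786145748) (nat_lit 104) (nat_lit 5) (nat_lit 113) (nat_lit 5) (nat_lit 114) (nat_lit 5) (nat_lit 317) (nat_lit 311) (nat_lit 260))))) (XT.nd (nat_lit 376) (nat_lit 672) (nat_lit 0) (XT.nd (nat_lit 188) (nat_lit 0) (nat_lit 84) (XT.nd (nat_lit 94) (nat_lit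 0) (nat_lit 84) (XT.lf (nat_lit 84) (nat_lit 732949824) (nat_lit 0) (nat_lit 1465610408) (nat_lit 840) (nat_lit 5948849206) (nat_lit 105) (nat_lit 5) (nat_lit 104) (nat_lit 5) (nat_lit 114) (nat_lit 5) (nat_lit 318) (nat_lit 311) (nat_lit 259)) (XT.lf (nat_lit 0) (nat_lit 3260583565) (nat_lit 756) (nat_lit 4569698681) (nat_lit 840) (nat_lit 417585211) (nat_lit 105) (nat_lit 5) (nat_lit 114) (nat_lit 5) (nat_lit 115) (nat_lit 5) (nat_lit 319) (nat_lit 311) (nat_lit 258))) (XT.nd (nat_lit 94) (nat_lit 0) (nat_lit 0) (XT.lf (nat_lit 0) (nat_lit 4334591750) (nat_lit 756) (nat_lit 1675283638) (nat_lit 840) (nat_lit 2342505627) (nat_lit 105) (nat_lit 5) (nat_lit 114) (nat_lit 5) (nat_lit 115) (nat_lit 5) (nat_lit 320) (nat_lit 311) (nat_lit 257)) (XT.lf (nat_lit 84) (nat_lit 1312465709) (nat_lit 0) (nat_lit 4107600951) (nat_lit 840) (nat_lit 3041027963) (nat_lit 106) (nat_lit 5) (nat_lit 105)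 (nat_lit 5) (nat_lit 115) (nat_lit 5) (nat_lit 321) (nat_lit 311) (nat_lit 256)))) (XT.nd (nat_lit 188) (nat_lit 756) (nat_lit 0) (XT.nd (nat_lit 94) (nat_lit 0) (nat_lit 0) (XT.lf (nat_lit 84) (nat_lit 4405745789) (nat_lit 0) (nat_lit 2116908224) (nat_lit 840) (nat_lit 2051311949) (nat_lit 106) (nat_lit 5) (nat_lit 105) (nat_lit 5) (nat_lit 115) (nat_lit 5) (nat_lit 322) (nat_lit 311) (nat_lit 255)) (XT.lf (nat_lit 84) (nat_lit 7572992597) (nat_lit 0) (nat_lit 53428197) (nat_lit 840) (nat_lit 1065205229) (nat_lit 106) (nat_lit 5) (nat_lit 105) (nat_lit 5) (nat_lit 115) (nat_lit 5) (nat_lit 323) (nat_lit 311) (nat_lit 254))) (XT.nd (nat_lit 94) (nat_lit 840) (nat_lit 0) (XT.lf (nat_lit 84) (nat_lit 2023052759) (nat_lit 0) (nat_lit 6750093105) (nat_lit 840) (nat_lit 39775363) (nat_lit 107) (nat_lit 5) (nat_lit 106) (nat_lit 5) (nat_lit 116) (nat_lit 5) (nat_lit 324) (nat_lit 311) (nat_lit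 253)) (XT.nd (nat_lit 94) (nat_lit 0) (nat_lit 0) (XT.lf (nat_lit 0) (nat_lit 977556273) (nat_lit 840) (nat_lit 3685817934) (nat_lit 924) (nat_lit 4275133841) (nat_lit 96) (nat_lit 5) (nat_lit 106) (nat_lit 5) (nat_lit 107) (nat_lit 5) (nat_lit 325) (nat_lit 311) (nat_lit 252)) (XT.lf (nat_lit 0) (nat_lit 1994823547) (nat_lit 840) (nat_lit 508538311) (nat_lit 924) (nat_lit 6565803660) (nat_lit 96) (nat_lit 5) (nat_lit 106) (nat_lit 5) (nat_lit 107) (nat_lit 5) (nat_lit 326) (nat_lit 311) (nat_lit 251))))))) (XT.nd (nat_lit 846) (nat_lit 1428) (nat_lit 0) (XT.nd (nat_lit 376) (nat_lit 1680) (nat_lit 0) (XT.nd (nat_lit 188) (nat_lit 756) (nat_lit 0) (XT.nd (nat_lit 94) (nat_lit 0) (nat_lit 84) (XT.lf (nat_lit 84) (nat_lit 2801776077) (nat_lit 0) (nat_lit 239793931) (nat_lit 924) (nat_lit 6162596033) (nat_lit 97) (nat_lit 5) (nat_lit 96) (nat_lit 5) (nat_lit 107) (nat_lit 5) (nat_lit 327)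 (nat_lit 311) (nat_lit 250)) (XT.lf (nat_lit 0) (nat_lit 4117806690) (nat_lit 840) (nat_lit 3161411615) (nat_lit 84) (nat_lit 2064447051) (nat_lit 97) (nat_lit 5) (nat_lit 107) (nat_lit 5) (nat_lit 98) (nat_lit 5) (nat_lit 328) (nat_lit 311) (nat_lit 249))) (XT.nd (nat_lit 94) (nat_lit 0) (nat_lit 0) (XT.lf (nat_lit 0) (nat_lit 158578706) (nat_lit 840) (nat_lit 5044634934) (nat_lit 924) (nat_lit 4285240866) (nat_lit 87) (nat_lit 5) (nat_lit 97) (nat_lit 5) (nat_lit 98) (nat_lit 5) (nat_lit 329) (nat_lit 311) (nat_lit 248)) (XT.lf (nat_lit 0) (nat_lit 3626532920) (nat_lit 840) (nat_lit 2701145697) (nat_lit 924) (nat_lit 3310094679) (nat_lit 87) (nat_lit 5) (nat_lit 97) (nat_lit 5) (nat_lit 98) (nat_lit 5) (nat_lit 330) (nat_lit 311) (nat_lit 247)))) (XT.nd (nat_lit 188) (nat_lit 756) (nat_lit 0) (XT.nd (nat_lit 94) (nat_lit 924) (nat_lit 0) (XT.lf (nat_lit 0) (nat_lit 7180678415) (nat_lit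 840) (nat_lit 279564870) (nat_lit 924) (nat_lit 2332509818) (nat_lit 87) (nat_lit 5) (nat_lit 97) (nat_lit 5) (nat_lit 98) (nat_lit 5) (nat_lit 331) (nat_lit 311) (nat_lit 246)) (XT.lf (nat_lit 0) (nat_lit 866195413) (nat_lit 924) (nat_lit 7766406798) (nat_lit 1008) (nat_lit 1319986370) (nat_lit 76) (nat_lit 5) (nat_lit 87) (nat_lit 5) (nat_lit 88) (nat_lit 5) (nat_lit 332) (nat_lit 311) (nat_lit 245))) (XT.nd (nat_lit 94) (nat_lit 756) (nat_lit 0) (XT.lf (nat_lit 0) (nat_lit 4483240521) (nat_lit 924) (nat_lit 5362822470) (nat_lit 1008) (nat_lit 271359060) (nat_lit 76) (nat_lit 5) (nat_lit 87) (nat_lit 5) (nat_lit 88) (nat_lit 5) (nat_lit 333) (nat_lit 311) (nat_lit 244)) (XT.nd (nat_lit 94) (nat_lit 672) (nat_lit 0) (XT.lf (nat_lit 0) (nat_lit 768453513) (nat_lit 1008) (nat_lit 2104539127) (nat_lit 84) (nat_lit 7415078237) (nat_lit 75) (nat_lit 5) (nat_lit 87) (nat_lit 5) (nat_lit 76)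 (nat_lit 5) (nat_lit 334) (nat_lit 311) (nat_lit 243)) (XT.lf (nat_lit 0) (nat_lit 1541906188) (nat_lit 672) (nat_lit 283998125) (nat_lit 756) (nat_lit 8638471132) (nat_lit 67) (nat_lit 5) (nat_lit 75) (nat_lit 5) (nat_lit 76) (nat_lit 5) (nat_lit 335) (nat_lit 311) (nat_lit 242)))))) (XT.nd (nat_lit 376) (nat_lit 924) (nat_lit 0) (XT.nd (nat_lit 188) (nat_lit 504) (nat_lit 0) (XT.nd (nat_lit 94) (nat_lit 0) (nat_lit 0) (XT.lf (nat_lit 0) (nat_lit 2938288884) (nat_lit 756) (nat_lit 5344974181) (nat_lit 84) (nat_lit 2362364356) (nat_lit 67) (nat_lit 5) (nat_lit 76) (nat_lit 5) (nat_lit 68) (nat_lit 5) (nat_lit 336) (nat_lit 311) (nat_lit 241)) (XT.lf (nat_lit 0) (nat_lit 4065073671) (nat_lit 756) (nat_lit 1680460476) (nat_lit 84) (nat_lit 5087750286) (nat_lit 67) (nat_lit 5) (nat_lit 76) (nat_lit 5) (nat_lit 68) (nat_lit 5) (nat_lit 337) (nat_lit 311) (nat_lit 240))) (XT.nd (nat_lit 94)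 (nat_lit 0) (nat_lit 0) (XT.lf (nat_lit 0) (nat_lit 2120018514) (nat_lit 504) (nat_lit 3105503992) (nat_lit 588) (nat_lit 5801434271) (nat_lit 61) (nat_lit 5) (nat_lit 67) (nat_lit 5) (nat_lit 68) (nat_lit 5) (nat_lit 338) (nat_lit 311) (nat_lit 239)) (XT.lf (nat_lit 0) (nat_lit 6053794951) (nat_lit 504) (nat_lit 363864352) (nat_lit 588) (nat_lit 4809260462) (nat_lit 61) (nat_lit 5) (nat_lit 67) (nat_lit 5) (nat_lit 68) (nat_lit 5) (nat_lit 339) (nat_lit 311) (nat_lit 238)))) (XT.nd (nat_lit 188) (nat_lit 504) (nat_lit 0) (XT.nd (nat_lit 94) (nat_lit 420) (nat_lit 0) (XT.lf (nat_lit 0) (nat_lit 7650029257) (nat_lit 588) (nat_lit 1368352530) (nat_lit 84) (nat_lit 2414747545) (nat_lit 61) (nat_lit 5) (nat_lit 68) (nat_lit 5) (nat_lit 62) (nat_lit 5) (nat_lit 340) (nat_lit 311) (nat_lit 237)) (XT.lf (nat_lit 0) (nat_lit 2582940410) (nat_lit 420) (nat_lit 6346488860) (nat_lit 504) (nat_lit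 2716173320) (nat_lit 56) (nat_lit 5) (nat_lit 61) (nat_lit 5) (nat_lit 62) (nat_lit 5) (nat_lit 341) (nat_lit 311) (nat_lit 236))) (XT.nd (nat_lit 94) (nat_lit 504) (nat_lit 0) (XT.lf (nat_lit 0) (nat_lit 6666185400) (nat_lit 420) (nat_lit 3576493136) (nat_lit 504) (nat_lit 1622304625) (nat_lit 56) (nat_lit 5) (nat_lit 61) (nat_lit 5) (nat_lit 62) (nat_lit 5) (nat_lit 342) (nat_lit 311) (nat_lit 235)) (XT.nd (nat_lit 94) (nat_lit 504) (nat_lit 0) (XT.lf (nat_lit 0) (nat_lit 10857052316) (nat_lit 420) (nat_lit 720095482) (nat_lit 504) (nat_lit 514757186) (nat_lit 56) (nat_lit 5) (nat_lit 61) (nat_lit 5) (nat_lit 62) (nat_lit 5) (nat_lit 343) (nat_lit 311) (nat_lit 234)) (XT.lf (nat_lit 0) (nat_lit 646311035) (nat_lit 504) (nat_lit 9462968736) (nat_lit 84) (nat_lit 2215530448) (nat_lit 50) (nat_lit 5) (nat_lit 56) (nat_lit 5) (nat_lit 51) (nat_lit 5) (nat_lit 344) (nat_lit 311) (nat_lit 233))))))))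
noncomputable def xc78 : XT := (XT.nd (nat_lit 1598) (nat_lit 840) (nat_lit 0) (XT.nd (nat_lit 752) (nat_lit 1008) (nat_lit 0) (XT.nd (nat_lit 376) (nat_lit 420) (nat_lit 0) (XT.nd (nat_lit 188) (nat_lit 336) (nat_lit 0) (XT.nd (nat_lit 94) (nat_lit 0) (nat_lit 0) (XT.lf (nat_lit 0) (nat_lit 1834231730) (nat_lit 504) (nat_lit 5485016053) (nat_lit 84) (nat_lit 5245600730) (nat_lit 50) (nat_lit 5) (nat_lit 56) (nat_lit 5) (nat_lit 51) (nat_lit 5) (nat_lit 345) (nat_lit 311) (nat_lit 232)) (XT.lf (nat_lit 0) (nat_lit 3040710300) (nat_lit 504) (nat_lit 1402592640) (nat_lit 84) (nat_lit 8369711931) (nat_lit 50) (nat_lit 5) (nat_lit 56) (nat_lit 5) (nat_lit 51) (nat_lit 5) (nat_lit 346) (nat_lit 311) (nat_lit 231))) (XT.nd (nat_lit 94) (nat_lit 0) (nat_lit 0) (XT.lf (nat_lit 0) (nat_lit 2845435941) (nat_lit 336) (nat_lit 1449662445) (nat_lit 420) (nat_lit 8773567186) (nat_lit 46) (nat_lit 5)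 (nat_lit 50) (nat_lit 5) (nat_lit 51) (nat_lit 5) (nat_lit 347) (nat_lit 311) (nat_lit 230)) (XT.lf (nat_lit 0) (nat_lit 5602027130) (nat_lit 420) (nat_lit 6112025383) (nat_lit 84) (nat_lit 1617879076) (nat_lit 46) (nat_lit 5) (nat_lit 51) (nat_lit 5) (nat_lit 47) (nat_lit 5) (nat_lit 348) (nat_lit 311) (nat_lit 229)))) (XT.nd (nat_lit 188) (nat_lit 0) (nat_lit 0) (XT.nd (nat_lit 94) (nat_lit 420) (nat_lit 0) (XT.lf (nat_lit 0) (nat_lit 6947447284) (nat_lit 420) (nat_lit 1906375624) (nat_lit 84) (nat_lit 4749708697) (nat_lit 46) (nat_lit 5) (nat_lit 51) (nat_lit 5) (nat_lit 47) (nat_lit 5) (nat_lit 349) (nat_lit 311) (nat_lit 228)) (XT.lf (nat_lit 0) (nat_lit 2461616671) (nat_lit 420) (nat_lit 5881034960) (nat_lit 504) (nat_lit 5540755947) (nat_lit 41) (nat_lit 5) (nat_lit 46) (nat_lit 5) (nat_lit 47) (nat_lit 5) (nat_lit 350) (nat_lit 311) (nat_lit 227))) (XT.nd (nat_lit 94) (nat_lit 0)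 (nat_lit 0) (XT.lf (nat_lit 0) (nat_lit 6987980670) (nat_lit 420) (nat_lit 2797000225) (nat_lit 504) (nat_lit 4386962241) (nat_lit 41) (nat_lit 5) (nat_lit 46) (nat_lit 5) (nat_lit 47) (nat_lit 5) (nat_lit 351) (nat_lit 311) (nat_lit 226)) (XT.lf (nat_lit 0) (nat_lit 11260261256) (nat_lit 504) (nat_lit 2836051232) (nat_lit 84) (nat_lit 373575801) (nat_lit 41) (nat_lit 5) (nat_lit 47) (nat_lit 5) (nat_lit 42) (nat_lit 5) (nat_lit 352) (nat_lit 311) (nat_lit 225))))) (XT.nd (nat_lit 376) (nat_lit 252) (nat_lit 0) (XT.nd (nat_lit 188) (nat_lit 420) (nat_lit 0) (XT.nd (nat_lit 94) (nat_lit 0) (nat_lit 0) (XT.lf (nat_lit 0) (nat_lit 1633991766) (nat_lit 336) (nat_lit 11177010496) (nat_lit 420) (nat_lit 1965243323) (nat_lit 37) (nat_lit 5) (nat_lit 41) (nat_lit 5) (nat_lit 42) (nat_lit 5) (nat_lit 353) (nat_lit 311) (nat_lit 224)) (XT.lf (nat_lit 0) (nat_lit 6285932634) (nat_lit 336) (nat_lit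 8138684063) (nat_lit 420) (nat_lit 667118895) (nat_lit 37) (nat_lit 5) (nat_lit 41) (nat_lit 5) (nat_lit 42) (nat_lit 5) (nat_lit 354) (nat_lit 311) (nat_lit 223))) (XT.nd (nat_lit 94) (nat_lit 336) (nat_lit 0) (XT.lf (nat_lit 0) (nat_lit 643129615) (nat_lit 420) (nat_lit 4358261141) (nat_lit 84) (nat_lit 10415949870) (nat_lit 36) (nat_lit 5) (nat_lit 41) (nat_lit 5) (nat_lit 37) (nat_lit 5) (nat_lit 355) (nat_lit 311) (nat_lit 222)) (XT.lf (nat_lit 0) (nat_lit 208350590) (nat_lit 336) (nat_lit 1759699638) (nat_lit 420) (nat_lit 13785238584) (nat_lit 32) (nat_lit 5) (nat_lit 36) (nat_lit 5) (nat_lit 37) (nat_lit 5) (nat_lit 356) (nat_lit 311) (nat_lit 221)))) (XT.nd (nat_lit 188) (nat_lit 252) (nat_lit 0) (XT.nd (nat_lit 94) (nat_lit 0) (nat_lit 0) (XT.lf (nat_lit 0) (nat_lit 3381789198) (nat_lit 420) (nat_lit 11121992593) (nat_lit 84) (nat_lit 1594473073) (nat_lit 32) (nat_lit 5) (nat_lit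 37) (nat_lit 5) (nat_lit 33) (nat_lit 5) (nat_lit 357) (nat_lit 311) (nat_lit 220)) (XT.lf (nat_lit 0) (nat_lit 4843860689) (nat_lit 420) (nat_lit 6595944738) (nat_lit 84) (nat_lit 5014050814) (nat_lit 32) (nat_lit 5) (nat_lit 37) (nat_lit 5) (nat_lit 33) (nat_lit 5) (nat_lit 358) (nat_lit 311) (nat_lit 219))) (XT.nd (nat_lit 94) (nat_lit 252) (nat_lit 0) (XT.lf (nat_lit 0) (nat_lit 6338171064) (nat_lit 420) (nat_lit 1945119469) (nat_lit 84) (nat_lit 8537675012) (nat_lit 32) (nat_lit 5) (nat_lit 37) (nat_lit 5) (nat_lit 33) (nat_lit 5) (nat_lit 359) (nat_lit 311) (nat_lit 218)) (XT.nd (nat_lit 94) (nat_lit 0) (nat_lit 0) (XT.lf (nat_lit 0) (nat_lit 2893107948) (nat_lit 252) (nat_lit 5001705221) (nat_lit 336) (nat_lit 9304222098) (nat_lit 29) (nat_lit 5) (nat_lit 32) (nat_lit 5) (nat_lit 33) (nat_lit 5) (nat_lit 360) (nat_lit 311) (nat_lit 217)) (XT.lf (nat_lit 0) (nat_lit 7907645314) (nat_lit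 252) (nat_lit 1599910743) (nat_lit 336) (nat_lit 8081099883) (nat_lit 29) (nat_lit 5) (nat_lit 32) (nat_lit 5) (nat_lit 33) (nat_lit 5) (nat_lit 361) (nat_lit 311) (nat_lit 216))))))) (XT.nd (nat_lit 752) (nat_lit 252) (nat_lit 0) (XT.nd (nat_lit 376) (nat_lit 336) (nat_lit 0) (XT.nd (nat_lit 188) (nat_lit 252) (nat_lit 0) (XT.nd (nat_lit 94) (nat_lit 0) (nat_lit 0) (XT.lf (nat_lit 0) (nat_lit 11177107833) (nat_lit 336) (nat_lit 4946527595) (nat_lit 84) (nat_lit 1866579957) (nat_lit 29) (nat_lit 5) (nat_lit 33) (nat_lit 5) (nat_lit 30) (nat_lit 5) (nat_lit 362) (nat_lit 311) (nat_lit 215)) (XT.lf (nat_lit 0) (nat_lit 12903035889) (nat_lit 336) (nat_lit 96076385) (nat_lit 84) (nat_lit 5405037273) (nat_lit 29) (nat_lit 5) (nat_lit 33) (nat_lit 5) (nat_lit 30) (nat_lit 5) (nat_lit 363) (nat_lit 311) (nat_lit 214))) (XT.nd (nat_lit 94) (nat_lit 0) (nat_lit 0) (XT.lf (nat_lit 0) (nat_lit 4991298993)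 (nat_lit 252) (nat_lit 9729292971) (nat_lit 336) (nat_lit 4109209364) (nat_lit 26) (nat_lit 5) (nat_lit 29) (nat_lit 5) (nat_lit 30) (nat_lit 5) (nat_lit 364) (nat_lit 311) (nat_lit 213)) (XT.lf (nat_lit 0) (nat_lit 10224558181) (nat_lit 252) (nat_lit 6359751848) (nat_lit 336) (nat_lit 2684719413) (nat_lit 26) (nat_lit 5) (nat_lit 29) (nat_lit 5) (nat_lit 30) (nat_lit 5) (nat_lit 365) (nat_lit 311) (nat_lit 212)))) (XT.nd (nat_lit 188) (nat_lit 0) (nat_lit 0) (XT.nd (nat_lit 94) (nat_lit 336) (nat_lit 0) (XT.lf (nat_lit 0) (nat_lit 15606603595) (nat_lit 252) (nat_lit 2888350981) (nat_lit 336) (nat_lit 1227318873) (nat_lit 26) (nat_lit 5) (nat_lit 29) (nat_lit 5) (nat_lit 30) (nat_lit 5) (nat_lit 366) (nat_lit 311) (nat_lit 211)) (XT.lf (nat_lit 0) (nat_lit 275592908) (nat_lit 336) (nat_lit 19227123074) (nat_lit 84) (nat_lit 686644928) (nat_lit 22) (nat_lit 5) (nat_lit 26) (nat_lit 5) (nat_lit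 23) (nat_lit 5) (nat_lit 367) (nat_lit 311) (nat_lit 210))) (XT.nd (nat_lit 94) (nat_lit 0) (nat_lit 0) (XT.lf (nat_lit 0) (nat_lit 1862013660) (nat_lit 336) (nat_lit 14440860712) (nat_lit 84) (nat_lit 4365787729) (nat_lit 22) (nat_lit 5) (nat_lit 26) (nat_lit 5) (nat_lit 23) (nat_lit 5) (nat_lit 368) (nat_lit 311) (nat_lit 209)) (XT.lf (nat_lit 0) (nat_lit 3487403414) (nat_lit 336) (nat_lit 9519359110) (nat_lit 84) (nat_lit 8156431827) (nat_lit 22) (nat_lit 5) (nat_lit 26) (nat_lit 5) (nat_lit 23) (nat_lit 5) (nat_lit 369) (nat_lit 311) (nat_lit 208))))) (XT.nd (nat_lit 376) (nat_lit 0) (nat_lit 0) (XT.nd (nat_lit 188) (nat_lit 0) (nat_lit 0) (XT.nd (nat_lit 94) (nat_lit 252) (nat_lit 0) (XT.lf (nat_lit 0) (nat_lit 5153277201) (nat_lit 336) (nat_lit 4458030914) (nat_lit 84) (nat_lit 12062110498) (nat_lit 22) (nat_lit 5) (nat_lit 26) (nat_lit 5) (nat_lit 23) (nat_lit 5) (nat_lit 370) (nat_lit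 311) (nat_lit 207)) (XT.lf (nat_lit 0) (nat_lit 763218720) (nat_lit 252) (nat_lit 6105540295) (nat_lit 336) (nat_lit 15330816748) (nat_lit 19) (nat_lit 5) (nat_lit 22) (nat_lit 5) (nat_lit 23) (nat_lit 5) (nat_lit 371) (nat_lit 311) (nat_lit 206))) (XT.nd (nat_lit 94) (nat_lit 0) (nat_lit 0) (XT.lf (nat_lit 0) (nat_lit 6228603218) (nat_lit 252) (nat_lit 2445912434) (nat_lit 336) (nat_lit 14066429483) (nat_lit 19) (nat_lit 5) (nat_lit 22) (nat_lit 5) (nat_lit 23) (nat_lit 5) (nat_lit 372) (nat_lit 311) (nat_lit 205)) (XT.lf (nat_lit 0) (nat_lit 10540235452) (nat_lit 336) (nat_lit 11461018597) (nat_lit 84) (nat_lit 1297769130) (nat_lit 19) (nat_lit 5) (nat_lit 23) (nat_lit 5) (nat_lit 20) (nat_lit 5) (nat_lit 373) (nat_lit 311) (nat_lit 204)))) (XT.nd (nat_lit 50008) (nat_lit 0) (nat_lit 7812) (XT.nd (nat_lit 49914) (nat_lit 0) (nat_lit 7812) (XT.lf (nat_lit 0) (nat_lit 12479903624) (nat_lit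 336) (nat_lit 6289924882) (nat_lit 84) (nat_lit 5104121943) (nat_lit 19) (nat_lit 5) (nat_lit 23) (nat_lit 5) (nat_lit 20) (nat_lit 5) (nat_lit 374) (nat_lit 311) (nat_lit 203)) (XT.lf (nat_lit 0) (nat_lit 2314561121) (nat_lit 756) (nat_lit 767649740) (nat_lit 756) (nat_lit 767649740) (nat_lit 112) (nat_lit 3) (nat_lit 121) (nat_lit 3) (nat_lit 121) (nat_lit 5) (nat_lit 312) (nat_lit 312) (nat_lit 264))) (XT.nd (nat_lit 94) (nat_lit 0) (nat_lit 0) (XT.lf (nat_lit 84) (nat_lit 1085819949) (nat_lit 0) (nat_lit 4636807501) (nat_lit 756) (nat_lit 2056053986) (nat_lit 113) (nat_lit 5) (nat_lit 112) (nat_lit 3) (nat_lit 121) (nat_lit 5) (nat_lit 313) (nat_lit 312) (nat_lit 263)) (XT.nd (nat_lit 94) (nat_lit 0) (nat_lit 0) (XT.lf (nat_lit 84) (nat_lit 3799130213) (nat_lit 0) (nat_lit 3025974015) (nat_lit 756) (nat_lit 1036108964) (nat_lit 113) (nat_lit 5) (nat_lit 112) (nat_lit 3) (nat_lit 121)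 (nat_lit 5) (nat_lit 314) (nat_lit 312) (nat_lit 262)) (XT.lf (nat_lit 84) (nat_lit 6575591492) (nat_lit 0) (nat_lit 1346445177) (nat_lit 756) (nat_lit 25838581) (nat_lit 113) (nat_lit 5) (nat_lit 112) (nat_lit 3) (nat_lit 121) (nat_lit 5) (nat_lit 315) (nat_lit 312) (nat_lit 261))))))))
noncomputable def xc79 : XT := (XT.nd (nat_lit 1598) (nat_lit 3444) (nat_lit 0) (XT.nd (nat_lit 752) (nat_lit 1428) (nat_lit 0) (XT.nd (nat_lit 376) (nat_lit 0) (nat_lit 0) (XT.nd (nat_lit 188) (nat_lit 0) (nat_lit 0) (XT.nd (nat_lit 94) (nat_lit 0) (nat_lit 0) (XT.lf (nat_lit 0) (nat_lit 974146281) (nat_lit 756) (nat_lit 6644739346) (nat_lit 840) (nat_lit 419001438) (nat_lit 104) (nat_lit 5) (nat_lit 113) (nat_lit 5) (nat_lit 114) (nat_lit 5) (nat_lit 316) (nat_lit 312) (nat_lit 260)) (XT.lf (nat_lit 0) (nat_lit 1994729101) (nat_lit 756) (nat_lit 3893935170) (nat_lit 840) (nat_lit 2242633259) (nat_lit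 104) (nat_lit 5) (nat_lit 113) (nat_lit 5) (nat_lit 114) (nat_lit 5) (nat_lit 317) (nat_lit 312) (nat_lit 259))) (XT.nd (nat_lit 94) (nat_lit 0) (nat_lit 0) (XT.lf (nat_lit 0) (nat_lit 3009989620) (nat_lit 756) (nat_lit 1080074782) (nat_lit 840) (nat_lit 4138986415) (nat_lit 104) (nat_lit 5) (nat_lit 113) (nat_lit 5) (nat_lit 114) (nat_lit 5) (nat_lit 318) (nat_lit 312) (nat_lit 258)) (XT.lf (nat_lit 84) (nat_lit 1836465314) (nat_lit 0) (nat_lit 2202626816) (nat_lit 840) (nat_lit 4291581153) (nat_lit 105) (nat_lit 5) (nat_lit 104) (nat_lit 5) (nat_lit 114) (nat_lit 5) (nat_lit 319) (nat_lit 312) (nat_lit 257)))) (XT.nd (nat_lit 188) (nat_lit 0) (nat_lit 84) (XT.nd (nat_lit 94) (nat_lit 0) (nat_lit 84) (XT.lf (nat_lit 84) (nat_lit 4844982706) (nat_lit 0) (nat_lit 231405115) (nat_lit 840) (nat_lit 3360076682) (nat_lit 105) (nat_lit 5) (nat_lit 104) (nat_lit 5) (nat_lit 114) (nat_lit 5) (nat_lit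 320) (nat_lit 312) (nat_lit 256)) (XT.lf (nat_lit 0) (nat_lit 6129905509) (nat_lit 756) (nat_lit 638785704) (nat_lit 840) (nat_lit 1777612951) (nat_lit 105) (nat_lit 5) (nat_lit 114) (nat_lit 5) (nat_lit 115) (nat_lit 5) (nat_lit 321) (nat_lit 312) (nat_lit 255))) (XT.nd (nat_lit 94) (nat_lit 0) (nat_lit 0) (XT.lf (nat_lit 84) (nat_lit 2430564479) (nat_lit 0) (nat_lit 4779212714) (nat_lit 840) (nat_lit 1450233804) (nat_lit 106) (nat_lit 5) (nat_lit 105) (nat_lit 5) (nat_lit 115) (nat_lit 5) (nat_lit 322) (nat_lit 312) (nat_lit 254)) (XT.lf (nat_lit 84) (nat_lit 5587340721) (nat_lit 0) (nat_lit 2710443274) (nat_lit 840) (nat_lit 480502982) (nat_lit 106) (nat_lit 5) (nat_lit 105) (nat_lit 5) (nat_lit 115) (nat_lit 5) (nat_lit 323) (nat_lit 312) (nat_lit 253))))) (XT.nd (nat_lit 376) (nat_lit 672) (nat_lit 0) (XT.nd (nat_lit 188) (nat_lit 0) (nat_lit 84) (XT.nd (nat_lit 94) (nat_lit 0) (nat_lit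 84) (XT.lf (nat_lit 0) (nat_lit 477217516) (nat_lit 840) (nat_lit 84923508) (nat_lit 924) (nat_lit 8339152034) (nat_lit 95) (nat_lit 5) (nat_lit 105) (nat_lit 5) (nat_lit 106) (nat_lit 5) (nat_lit 324) (nat_lit 312) (nat_lit 252)) (XT.lf (nat_lit 0) (nat_lit 1472149853) (nat_lit 840) (nat_lit 5889870600) (nat_lit 924) (nat_lit 1665632944) (nat_lit 96) (nat_lit 5) (nat_lit 106) (nat_lit 5) (nat_lit 107) (nat_lit 5) (nat_lit 325) (nat_lit 312) (nat_lit 251))) (XT.nd (nat_lit 94) (nat_lit 0) (nat_lit 0) (XT.lf (nat_lit 0) (nat_lit 2474719902) (nat_lit 840) (nat_lit 2723378986) (nat_lit 924) (nat_lit 3960780312) (nat_lit 96) (nat_lit 5) (nat_lit 106) (nat_lit 5) (nat_lit 107) (nat_lit 5) (nat_lit 326) (nat_lit 312) (nat_lit 250)) (XT.lf (nat_lit 84) (nat_lit 530714945) (nat_lit 0) (nat_lit 2953966900) (nat_lit 924) (nat_lit 5810447528) (nat_lit 97) (nat_lit 5) (nat_lit 96) (nat_lit 5) (nat_lit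 107) (nat_lit 5) (nat_lit 327) (nat_lit 312) (nat_lit 249)))) (XT.nd (nat_lit 188) (nat_lit 756) (nat_lit 0) (XT.nd (nat_lit 94) (nat_lit 0) (nat_lit 84) (XT.lf (nat_lit 84) (nat_lit 3922383502) (nat_lit 0) (nat_lit 603704919) (nat_lit 924) (nat_lit 4909726042) (nat_lit 97) (nat_lit 5) (nat_lit 96) (nat_lit 5) (nat_lit 107) (nat_lit 5) (nat_lit 328) (nat_lit 312) (nat_lit 248)) (XT.lf (nat_lit 0) (nat_lit 5590457188) (nat_lit 840) (nat_lit 2201249136) (nat_lit 84) (nat_lit 1789652329) (nat_lit 97) (nat_lit 5) (nat_lit 107) (nat_lit 5) (nat_lit 98) (nat_lit 5) (nat_lit 329) (nat_lit 312) (nat_lit 247))) (XT.nd (nat_lit 94) (nat_lit 0) (nat_lit 0) (XT.lf (nat_lit 0) (nat_lit 1210947902) (nat_lit 840) (nat_lit 5468513444) (nat_lit 924) (nat_lit 3052415142) (nat_lit 87) (nat_lit 5) (nat_lit 97) (nat_lit 5) (nat_lit 98) (nat_lit 5) (nat_lit 330) (nat_lit 312) (nat_lit 246)) (XT.nd (nat_lit 94)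 (nat_lit 0) (nat_lit 0) (XT.lf (nat_lit 0) (nat_lit 4754913981) (nat_lit 840) (nat_lit 3044333034) (nat_lit 924) (nat_lit 2088102191) (nat_lit 87) (nat_lit 5) (nat_lit 97) (nat_lit 5) (nat_lit 98) (nat_lit 5) (nat_lit 331) (nat_lit 312) (nat_lit 245)) (XT.lf (nat_lit 0) (nat_lit 8388690252) (nat_lit 840) (nat_lit 539882031) (nat_lit 924) (nat_lit 1120040297) (nat_lit 87) (nat_lit 5) (nat_lit 97) (nat_lit 5) (nat_lit 98) (nat_lit 5) (nat_lit 332) (nat_lit 312) (nat_lit 244))))))) (XT.nd (nat_lit 846) (nat_lit 1260) (nat_lit 0) (XT.nd (nat_lit 376) (nat_lit 504) (nat_lit 0) (XT.nd (nat_lit 188) (nat_lit 672) (nat_lit 0) (XT.nd (nat_lit 94) (nat_lit 84) (nat_lit 0) (XT.lf (nat_lit 0) (nat_lit 1918185799) (nat_lit 924) (nat_lit 8189640858) (nat_lit 1008) (nat_lit 106770823) (nat_lit 76) (nat_lit 5) (nat_lit 87) (nat_lit 5) (nat_lit 88) (nat_lit 5) (nat_lit 333) (nat_lit 312) (nat_lit 243))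 (XT.lf (nat_lit 0) (nat_lit 917783223) (nat_lit 1008) (nat_lit 4778695766) (nat_lit 84) (nat_lit 4689172555) (nat_lit 75) (nat_lit 5) (nat_lit 87) (nat_lit 5) (nat_lit 76) (nat_lit 5) (nat_lit 334) (nat_lit 312) (nat_lit 242))) (XT.nd (nat_lit 94) (nat_lit 672) (nat_lit 0) (XT.lf (nat_lit 0) (nat_lit 1948354766) (nat_lit 1008) (nat_lit 1173300666) (nat_lit 84) (nat_lit 7441217002) (nat_lit 75) (nat_lit 5) (nat_lit 87) (nat_lit 5) (nat_lit 76) (nat_lit 5) (nat_lit 335) (nat_lit 312) (nat_lit 241)) (XT.lf (nat_lit 0) (nat_lit 2576095996) (nat_lit 672) (nat_lit 437514794) (nat_lit 756) (nat_lit 7732055170) (nat_lit 67) (nat_lit 5) (nat_lit 75) (nat_lit 5) (nat_lit 76) (nat_lit 5) (nat_lit 336) (nat_lit 312) (nat_lit 240)))) (XT.nd (nat_lit 188) (nat_lit 504) (nat_lit 0) (XT.nd (nat_lit 94) (nat_lit 0) (nat_lit 0) (XT.lf (nat_lit 0) (nat_lit 4125076979) (nat_lit 756) (nat_lit 4510734910) (nat_lit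 84) (nat_lit 2298064103) (nat_lit 67) (nat_lit 5) (nat_lit 76) (nat_lit 5) (nat_lit 68) (nat_lit 5) (nat_lit 337) (nat_lit 312) (nat_lit 239)) (XT.lf (nat_lit 0) (nat_lit 5253846668) (nat_lit 756) (nat_lit 762687175) (nat_lit 84) (nat_lit 5112072342) (nat_lit 67) (nat_lit 5) (nat_lit 76) (nat_lit 5) (nat_lit 68) (nat_lit 5) (nat_lit 338) (nat_lit 312) (nat_lit 238))) (XT.nd (nat_lit 94) (nat_lit 0) (nat_lit 0) (XT.lf (nat_lit 0) (nat_lit 3145787625) (nat_lit 504) (nat_lit 3282050764) (nat_lit 588) (nat_lit 4901366796) (nat_lit 61) (nat_lit 5) (nat_lit 67) (nat_lit 5) (nat_lit 68) (nat_lit 5) (nat_lit 339) (nat_lit 312) (nat_lit 237)) (XT.nd (nat_lit 94) (nat_lit 0) (nat_lit 0) (XT.lf (nat_lit 0) (nat_lit 7172644494) (nat_lit 504) (nat_lit 453006560) (nat_lit 588) (nat_lit 3910906278) (nat_lit 61) (nat_lit 5) (nat_lit 67) (nat_lit 5) (nat_lit 68) (nat_lit 5) (nat_lit 340) (nat_lit 312) (nat_lit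 236)) (XT.lf (nat_lit 0) (nat_lit 8865135458) (nat_lit 588) (nat_lit 469596628) (nat_lit 84) (nat_lit 2415605049) (nat_lit 61) (nat_lit 5) (nat_lit 68) (nat_lit 5) (nat_lit 62) (nat_lit 5) (nat_lit 341) (nat_lit 312) (nat_lit 235)))))) (XT.nd (nat_lit 376) (nat_lit 336) (nat_lit 0) (XT.nd (nat_lit 188) (nat_lit 504) (nat_lit 0) (XT.nd (nat_lit 94) (nat_lit 0) (nat_lit 0) (XT.lf (nat_lit 0) (nat_lit 3594657843) (nat_lit 420) (nat_lit 6569376017) (nat_lit 504) (nat_lit 1806195803) (nat_lit 56) (nat_lit 5) (nat_lit 61) (nat_lit 5) (nat_lit 62) (nat_lit 5) (nat_lit 342) (nat_lit 312) (nat_lit 234)) (XT.lf (nat_lit 0) (nat_lit 7776470785) (nat_lit 420) (nat_lit 3712724270) (nat_lit 504) (nat_lit 708310046) (nat_lit 56) (nat_lit 5) (nat_lit 61) (nat_lit 5) (nat_lit 62) (nat_lit 5) (nat_lit 343) (nat_lit 312) (nat_lit 233))) (XT.nd (nat_lit 94) (nat_lit 420) (nat_lit 0) (XT.lf (nat_lit 0) (nat_lit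 396425980) (nat_lit 504) (nat_lit 366451917) (nat_lit 84) (nat_lit 11669520359) (nat_lit 55) (nat_lit 5) (nat_lit 61) (nat_lit 5) (nat_lit 56) (nat_lit 5) (nat_lit 344) (nat_lit 312) (nat_lit 232)) (XT.lf (nat_lit 0) (nat_lit 1564036471) (nat_lit 504) (nat_lit 8830220792) (nat_lit 84) (nat_lit 2278868272) (nat_lit 50) (nat_lit 5) (nat_lit 56) (nat_lit 5) (nat_lit 51) (nat_lit 5) (nat_lit 345) (nat_lit 312) (nat_lit 231)))) (XT.nd (nat_lit 188) (nat_lit 336) (nat_lit 0) (XT.nd (nat_lit 94) (nat_lit 0) (nat_lit 0) (XT.lf (nat_lit 0) (nat_lit 2761791065) (nat_lit 504) (nat_lit 4756797453) (nat_lit 84) (nat_lit 5403031404) (nat_lit 50) (nat_lit 5) (nat_lit 56) (nat_lit 5) (nat_lit 51) (nat_lit 5) (nat_lit 346) (nat_lit 312) (nat_lit 230)) (XT.lf (nat_lit 0) (nat_lit 3979490410) (nat_lit 504) (nat_lit 574827524) (nat_lit 84) (nat_lit 8624145893) (nat_lit 50) (nat_lit 5) (nat_lit 56) (nat_lit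 5) (nat_lit 51) (nat_lit 5) (nat_lit 347) (nat_lit 312) (nat_lit 229))) (XT.nd (nat_lit 94) (nat_lit 0) (nat_lit 0) (XT.lf (nat_lit 0) (nat_lit 3796069365) (nat_lit 336) (nat_lit 1459857642) (nat_lit 420) (nat_lit 8186802267) (nat_lit 46) (nat_lit 5) (nat_lit 50) (nat_lit 5) (nat_lit 51) (nat_lit 5) (nat_lit 348) (nat_lit 312) (nat_lit 228)) (XT.nd (nat_lit 94) (nat_lit 0) (nat_lit 0) (XT.lf (nat_lit 0) (nat_lit 6578818234) (nat_lit 420) (nat_lit 5435207993) (nat_lit 84) (nat_lit 1701054004) (nat_lit 46) (nat_lit 5) (nat_lit 51) (nat_lit 5) (nat_lit 47) (nat_lit 5) (nat_lit 349) (nat_lit 312) (nat_lit 227)) (XT.lf (nat_lit 0) (nat_lit 7941798037) (nat_lit 420) (nat_lit 1125230614) (nat_lit 84) (nat_lit 4928977481) (nat_lit 46) (nat_lit 5) (nat_lit 51) (nat_lit 5) (nat_lit 47) (nat_lit 5) (nat_lit 350) (nat_lit 312) (nat_lit 226))))))))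
noncomputable def xc80 : XT := (XT.nd (nat_lit 1598) (nat_lit 588) (nat_lit 0) (XT.nd (nat_lit 752) (nat_lit 504) (nat_lit 0) (XT.nd (nat_lit 376) (nat_lit 420) (nat_lit 0) (XT.nd (nat_lit 188) (nat_lit 336) (nat_lit 0) (XT.nd (nat_lit 94) (nat_lit 0) (nat_lit 0) (XT.lf (nat_lit 0) (nat_lit 3369662740) (nat_lit 420) (nat_lit 5995419617) (nat_lit 504) (nat_lit 4920099159) (nat_lit 41) (nat_lit 5) (nat_lit 46) (nat_lit 5) (nat_lit 47) (nat_lit 5) (nat_lit 351) (nat_lit 312) (nat_lit 225)) (XT.lf (nat_lit 0) (nat_lit 8011335473) (nat_lit 420) (nat_lit 2817822240) (nat_lit 504) (nat_lit 3754364256) (nat_lit 41) (nat_lit 5) (nat_lit 46) (nat_lit 5) (nat_lit 47) (nat_lit 5) (nat_lit 352) (nat_lit 312) (nat_lit 224))) (XT.nd (nat_lit 94) (nat_lit 336) (nat_lit 0) (XT.lf (nat_lit 0) (nat_lit 12328530128) (nat_lit 504) (nat_lit 2115214970) (nat_lit 84) (nat_lit 447773098) (nat_lit 41) (nat_lit 5)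 (nat_lit 47) (nat_lit 5) (nat_lit 42) (nat_lit 5) (nat_lit 353) (nat_lit 312) (nat_lit 223)) (XT.lf (nat_lit 0) (nat_lit 2485211454) (nat_lit 336) (nat_lit 11428449510) (nat_lit 420) (nat_lit 1294275337) (nat_lit 37) (nat_lit 5) (nat_lit 41) (nat_lit 5) (nat_lit 42) (nat_lit 5) (nat_lit 354) (nat_lit 312) (nat_lit 222)))) (XT.nd (nat_lit 188) (nat_lit 336) (nat_lit 0) (XT.nd (nat_lit 94) (nat_lit 0) (nat_lit 0) (XT.lf (nat_lit 0) (nat_lit 21639585) (nat_lit 420) (nat_lit 8276927403) (nat_lit 84) (nat_lit 7235425699) (nat_lit 36) (nat_lit 5) (nat_lit 41) (nat_lit 5) (nat_lit 37) (nat_lit 5) (nat_lit 355) (nat_lit 312) (nat_lit 221)) (XT.lf (nat_lit 0) (nat_lit 1337733498) (nat_lit 420) (nat_lit 3722239796) (nat_lit 84) (nat_lit 10810282365) (nat_lit 36) (nat_lit 5) (nat_lit 41) (nat_lit 5) (nat_lit 37) (nat_lit 5) (nat_lit 356) (nat_lit 312) (nat_lit 220))) (XT.nd (nat_lit 94) (nat_lit 0)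 (nat_lit 0) (XT.lf (nat_lit 0) (nat_lit 978129926) (nat_lit 336) (nat_lit 1712883146) (nat_lit 420) (nat_lit 13526122803) (nat_lit 32) (nat_lit 5) (nat_lit 36) (nat_lit 5) (nat_lit 37) (nat_lit 5) (nat_lit 357) (nat_lit 312) (nat_lit 219)) (XT.lf (nat_lit 0) (nat_lit 4129649747) (nat_lit 420) (nat_lit 10703612595) (nat_lit 84) (nat_lit 1740240108) (nat_lit 32) (nat_lit 5) (nat_lit 37) (nat_lit 5) (nat_lit 33) (nat_lit 5) (nat_lit 358) (nat_lit 312) (nat_lit 218))))) (XT.nd (nat_lit 376) (nat_lit 252) (nat_lit 0) (XT.nd (nat_lit 188) (nat_lit 252) (nat_lit 0) (XT.nd (nat_lit 94) (nat_lit 0) (nat_lit 0) (XT.lf (nat_lit 0) (nat_lit 5617711042) (nat_lit 420) (nat_lit 6060203925) (nat_lit 84) (nat_lit 5262928066) (nat_lit 32) (nat_lit 5) (nat_lit 37) (nat_lit 5) (nat_lit 33) (nat_lit 5) (nat_lit 359) (nat_lit 312) (nat_lit 217)) (XT.lf (nat_lit 0) (nat_lit 7139591974) (nat_lit 420) (nat_lit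 1287459783) (nat_lit 84) (nat_lit 8892975020) (nat_lit 32) (nat_lit 5) (nat_lit 37) (nat_lit 5) (nat_lit 33) (nat_lit 5) (nat_lit 360) (nat_lit 312) (nat_lit 216))) (XT.nd (nat_lit 94) (nat_lit 0) (nat_lit 0) (XT.lf (nat_lit 0) (nat_lit 3693484000) (nat_lit 252) (nat_lit 5039866912) (nat_lit 336) (nat_lit 8976920373) (nat_lit 29) (nat_lit 5) (nat_lit 32) (nat_lit 5) (nat_lit 33) (nat_lit 5) (nat_lit 361) (nat_lit 312) (nat_lit 215)) (XT.lf (nat_lit 0) (nat_lit 8842103081) (nat_lit 252) (nat_lit 1536131477) (nat_lit 336) (nat_lit 7734395154) (nat_lit 29) (nat_lit 5) (nat_lit 32) (nat_lit 5) (nat_lit 33) (nat_lit 5) (nat_lit 362) (nat_lit 312) (nat_lit 214)))) (XT.nd (nat_lit 188) (nat_lit 0) (nat_lit 0) (XT.nd (nat_lit 94) (nat_lit 252) (nat_lit 0) (XT.lf (nat_lit 0) (nat_lit 12083315899) (nat_lit 336) (nat_lit 4411731623) (nat_lit 84) (nat_lit 2032195841) (nat_lit 29) (nat_lit 5) (nat_lit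 33) (nat_lit 5) (nat_lit 30) (nat_lit 5) (nat_lit 363) (nat_lit 312) (nat_lit 213)) (XT.lf (nat_lit 0) (nat_lit 580080022) (nat_lit 252) (nat_lit 13271592635) (nat_lit 336) (nat_lit 5102779904) (nat_lit 26) (nat_lit 5) (nat_lit 29) (nat_lit 5) (nat_lit 30) (nat_lit 5) (nat_lit 364) (nat_lit 312) (nat_lit 212))) (XT.nd (nat_lit 94) (nat_lit 0) (nat_lit 0) (XT.lf (nat_lit 0) (nat_lit 5806719412) (nat_lit 252) (nat_lit 9903329715) (nat_lit 336) (nat_lit 3683828407) (nat_lit 26) (nat_lit 5) (nat_lit 29) (nat_lit 5) (nat_lit 30) (nat_lit 5) (nat_lit 365) (nat_lit 312) (nat_lit 211)) (XT.nd (nat_lit 94) (nat_lit 0) (nat_lit 0) (XT.lf (nat_lit 0) (nat_lit 11182344072) (nat_lit 252) (nat_lit 6433168619) (nat_lit 336) (nat_lit 2231799792) (nat_lit 26) (nat_lit 5) (nat_lit 29) (nat_lit 5) (nat_lit 30) (nat_lit 5) (nat_lit 366) (nat_lit 312) (nat_lit 210)) (XT.lf (nat_lit 0) (nat_lit 16711964648)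 (nat_lit 252) (nat_lit 2857874792) (nat_lit 336) (nat_lit 745340615) (nat_lit 26) (nat_lit 5) (nat_lit 29) (nat_lit 5) (nat_lit 30) (nat_lit 5) (nat_lit 367) (nat_lit 312) (nat_lit 209))))))) (XT.nd (nat_lit 50666) (nat_lit 0) (nat_lit 7056) (XT.nd (nat_lit 376) (nat_lit 252) (nat_lit 0) (XT.nd (nat_lit 188) (nat_lit 0) (nat_lit 0) (XT.nd (nat_lit 94) (nat_lit 0) (nat_lit 0) (XT.lf (nat_lit 0) (nat_lit 785867098) (nat_lit 336) (nat_lit 19177703224) (nat_lit 84) (nat_lit 833344939) (nat_lit 22) (nat_lit 5) (nat_lit 26) (nat_lit 5) (nat_lit 23) (nat_lit 5) (nat_lit 368) (nat_lit 312) (nat_lit 208)) (XT.lf (nat_lit 0) (nat_lit 2406380905) (nat_lit 336) (nat_lit 14262474372) (nat_lit 84) (nat_lit 4622770232) (nat_lit 22) (nat_lit 5) (nat_lit 26) (nat_lit 5) (nat_lit 23) (nat_lit 5) (nat_lit 369) (nat_lit 312) (nat_lit 207))) (XT.nd (nat_lit 94) (nat_lit 0) (nat_lit 0) (XT.lf (nat_lit 0) (nat_lit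 4067525355) (nat_lit 336) (nat_lit 9207230317) (nat_lit 84) (nat_lit 8527266745) (nat_lit 22) (nat_lit 5) (nat_lit 26) (nat_lit 5) (nat_lit 23) (nat_lit 5) (nat_lit 370) (nat_lit 312) (nat_lit 206)) (XT.lf (nat_lit 0) (nat_lit 5770848810) (nat_lit 336) (nat_lit 4007259043) (nat_lit 84) (nat_lit 12550473878) (nat_lit 22) (nat_lit 5) (nat_lit 26) (nat_lit 5) (nat_lit 23) (nat_lit 5) (nat_lit 371) (nat_lit 312) (nat_lit 205)))) (XT.nd (nat_lit 188) (nat_lit 0) (nat_lit 0) (XT.nd (nat_lit 94) (nat_lit 0) (nat_lit 0) (XT.lf (nat_lit 0) (nat_lit 1369886530) (nat_lit 252) (nat_lit 6161641858) (nat_lit 336) (nat_lit 15339844597) (nat_lit 19) (nat_lit 5) (nat_lit 22) (nat_lit 5) (nat_lit 23) (nat_lit 5) (nat_lit 372) (nat_lit 312) (nat_lit 204)) (XT.lf (nat_lit 0) (nat_lit 6987168122) (nat_lit 252) (nat_lit 2392569680) (nat_lit 336) (nat_lit 14050279805) (nat_lit 19) (nat_lit 5) (nat_lit 22) (nat_lit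 5) (nat_lit 23) (nat_lit 5) (nat_lit 373) (nat_lit 312) (nat_lit 203))) (XT.nd (nat_lit 50008) (nat_lit 0) (nat_lit 7812) (XT.lf (nat_lit 0) (nat_lit 11291418744) (nat_lit 336) (nat_lit 11253658681) (nat_lit 84) (nat_lit 1460758102) (nat_lit 19) (nat_lit 5) (nat_lit 23) (nat_lit 5) (nat_lit 20) (nat_lit 5) (nat_lit 374) (nat_lit 312) (nat_lit 202)) (XT.lf (nat_lit 0) (nat_lit 3387265791) (nat_lit 756) (nat_lit 271143137) (nat_lit 756) (nat_lit 271143137) (nat_lit 112) (nat_lit 3) (nat_lit 121) (nat_lit 3) (nat_lit 121) (nat_lit 5) (nat_lit 313) (nat_lit 313) (nat_lit 262))))) (XT.nd (nat_lit 376) (nat_lit 0) (nat_lit 84) (XT.nd (nat_lit 188) (nat_lit 0) (nat_lit 0) (XT.nd (nat_lit 94) (nat_lit 756) (nat_lit 0) (XT.lf (nat_lit 84) (nat_lit 2149552642) (nat_lit 0) (nat_lit 5702408138) (nat_lit 756) (nat_lit 90619215) (nat_lit 113) (nat_lit 5) (nat_lit 112) (nat_lit 3) (nat_lit 121) (nat_lit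 5) (nat_lit 314) (nat_lit 313) (nat_lit 261)) (XT.lf (nat_lit 0) (nat_lit 881799549) (nat_lit 756) (nat_lit 3122916707) (nat_lit 840) (nat_lit 4024999690) (nat_lit 103) (nat_lit 5) (nat_lit 112) (nat_lit 3) (nat_lit 113) (nat_lit 5) (nat_lit 315) (nat_lit 313) (nat_lit 260))) (XT.nd (nat_lit 94) (nat_lit 0) (nat_lit 0) (XT.lf (nat_lit 0) (nat_lit 1844416522) (nat_lit 756) (nat_lit 391772811) (nat_lit 840) (nat_lit 5884825711) (nat_lit 103) (nat_lit 5) (nat_lit 112) (nat_lit 3) (nat_lit 113) (nat_lit 5) (nat_lit 316) (nat_lit 313) (nat_lit 259)) (XT.lf (nat_lit 84) (nat_lit 2453277065) (nat_lit 0) (nat_lit 371014483) (nat_lit 840) (nat_lit 5391544265) (nat_lit 104) (nat_lit 5) (nat_lit 103) (nat_lit 5) (nat_lit 113) (nat_lit 5) (nat_lit 317) (nat_lit 313) (nat_lit 258)))) (XT.nd (nat_lit 188) (nat_lit 0) (nat_lit 0) (XT.nd (nat_lit 94) (nat_lit 0) (nat_lit 0) (XT.lf (nat_lit 0) (nat_lit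 3818220624) (nat_lit 756) (nat_lit 2955628706) (nat_lit 840) (nat_lit 1540544947) (nat_lit 104) (nat_lit 5) (nat_lit 113) (nat_lit 5) (nat_lit 114) (nat_lit 5) (nat_lit 318) (nat_lit 313) (nat_lit 257)) (XT.lf (nat_lit 0) (nat_lit 4811984963) (nat_lit 756) (nat_lit 86381102) (nat_lit 840) (nat_lit 3518885737) (nat_lit 104) (nat_lit 5) (nat_lit 113) (nat_lit 5) (nat_lit 114) (nat_lit 5) (nat_lit 319) (nat_lit 313) (nat_lit 256))) (XT.nd (nat_lit 94) (nat_lit 0) (nat_lit 0) (XT.lf (nat_lit 84) (nat_lit 2910172503) (nat_lit 0) (nat_lit 2921527118) (nat_lit 840) (nat_lit 2692023791) (nat_lit 105) (nat_lit 5) (nat_lit 104) (nat_lit 5) (nat_lit 114) (nat_lit 5) (nat_lit 320) (nat_lit 313) (nat_lit 255)) (XT.nd (nat_lit 94) (nat_lit 0) (nat_lit 84) (XT.lf (nat_lit 84) (nat_lit 5981381597) (nat_lit 0) (nat_lit 869634804) (nat_lit 840) (nat_lit 1783738208) (nat_lit 105) (nat_lit 5) (nat_lit 104)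 (nat_lit 5) (nat_lit 114) (nat_lit 5) (nat_lit 321) (nat_lit 313) (nat_lit 254)) (XT.lf (nat_lit 84) (nat_lit 372886829) (nat_lit 0) (nat_lit 7513305845) (nat_lit 840) (nat_lit 863781685) (nat_lit 106) (nat_lit 5) (nat_lit 105) (nat_lit 5) (nat_lit 115) (nat_lit 5) (nat_lit 322) (nat_lit 313) (nat_lit 253))))))))
noncomputable def xc81 : XT := (XT.nd (nat_lit 1598) (nat_lit 2100) (nat_lit 0) (XT.nd (nat_lit 752) (nat_lit 2856) (nat_lit 0) (XT.nd (nat_lit 376) (nat_lit 0) (nat_lit 84) (XT.nd (nat_lit 188) (nat_lit 0) (nat_lit 0) (XT.nd (nat_lit 94) (nat_lit 0) (nat_lit 0) (XT.lf (nat_lit 0) (nat_lit 88251005) (nat_lit 840) (nat_lit 5350233869) (nat_lit 924) (nat_lit 3430335169) (nat_lit 95) (nat_lit 5) (nat_lit 105) (nat_lit 5) (nat_lit 106) (nat_lit 5) (nat_lit 323) (nat_lit 313) (nat_lit 252)) (XT.lf (nat_lit 0) (nat_lit 1021194910) (nat_lit 840) (nat_lit 2259254754) (nat_lit 924) (nat_lit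 5711812869) (nat_lit 95) (nat_lit 5) (nat_lit 105) (nat_lit 5) (nat_lit 106) (nat_lit 5) (nat_lit 324) (nat_lit 313) (nat_lit 251))) (XT.nd (nat_lit 94) (nat_lit 0) (nat_lit 84) (XT.lf (nat_lit 84) (nat_lit 925955695) (nat_lit 0) (nat_lit 1036552807) (nat_lit 924) (nat_lit 7157889270) (nat_lit 96) (nat_lit 5) (nat_lit 95) (nat_lit 5) (nat_lit 106) (nat_lit 5) (nat_lit 325) (nat_lit 313) (nat_lit 250)) (XT.lf (nat_lit 0) (nat_lit 2940540509) (nat_lit 840) (nat_lit 5028131367) (nat_lit 924) (nat_lit 1283821708) (nat_lit 96) (nat_lit 5) (nat_lit 106) (nat_lit 5) (nat_lit 107) (nat_lit 5) (nat_lit 326) (nat_lit 313) (nat_lit 249)))) (XT.nd (nat_lit 188) (nat_lit 0) (nat_lit 0) (XT.nd (nat_lit 94) (nat_lit 0) (nat_lit 0) (XT.lf (nat_lit 0) (nat_lit 3931411011) (nat_lit 840) (nat_lit 1794879174) (nat_lit 924) (nat_lit 3663151449) (nat_lit 96) (nat_lit 5) (nat_lit 106) (nat_lit 5) (nat_lit 107)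 (nat_lit 5) (nat_lit 327) (nat_lit 313) (nat_lit 248)) (XT.lf (nat_lit 84) (nat_lit 1549836718) (nat_lit 0) (nat_lit 3391298725) (nat_lit 924) (nat_lit 4590076282) (nat_lit 97) (nat_lit 5) (nat_lit 96) (nat_lit 5) (nat_lit 107) (nat_lit 5) (nat_lit 328) (nat_lit 313) (nat_lit 247))) (XT.nd (nat_lit 94) (nat_lit 0) (nat_lit 84) (XT.lf (nat_lit 84) (nat_lit 5016498835) (nat_lit 0) (nat_lit 957782382) (nat_lit 924) (nat_lit 3703542371) (nat_lit 97) (nat_lit 5) (nat_lit 96) (nat_lit 5) (nat_lit 107) (nat_lit 5) (nat_lit 329) (nat_lit 313) (nat_lit 246)) (XT.lf (nat_lit 0) (nat_lit 7029093287) (nat_lit 840) (nat_lit 1273998619) (nat_lit 84) (nat_lit 1526406234) (nat_lit 97) (nat_lit 5) (nat_lit 107) (nat_lit 5) (nat_lit 98) (nat_lit 5) (nat_lit 330) (nat_lit 313) (nat_lit 245))))) (XT.nd (nat_lit 376) (nat_lit 1176) (nat_lit 0) (XT.nd (nat_lit 188) (nat_lit 1008) (nat_lit 0) (XT.nd (nat_lit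 94) (nat_lit 0) (nat_lit 0) (XT.lf (nat_lit 0) (nat_lit 2233898093) (nat_lit 840) (nat_lit 5889688011) (nat_lit 924) (nat_lit 1862262686) (nat_lit 87) (nat_lit 5) (nat_lit 97) (nat_lit 5) (nat_lit 98) (nat_lit 5) (nat_lit 331) (nat_lit 313) (nat_lit 244)) (XT.lf (nat_lit 0) (nat_lit 5858097892) (nat_lit 840) (nat_lit 3382791403) (nat_lit 924) (nat_lit 906686583) (nat_lit 87) (nat_lit 5) (nat_lit 97) (nat_lit 5) (nat_lit 98) (nat_lit 5) (nat_lit 332) (nat_lit 313) (nat_lit 243))) (XT.nd (nat_lit 94) (nat_lit 924) (nat_lit 0) (XT.lf (nat_lit 0) (nat_lit 52829926) (nat_lit 924) (nat_lit 739981963) (nat_lit 84) (nat_lit 9522401523) (nat_lit 86) (nat_lit 5) (nat_lit 97) (nat_lit 5) (nat_lit 87) (nat_lit 5) (nat_lit 333) (nat_lit 313) (nat_lit 242)) (XT.lf (nat_lit 0) (nat_lit 1048216355) (nat_lit 1008) (nat_lit 7556029256) (nat_lit 84) (nat_lit 1882909603) (nat_lit 75) (nat_lit 5) (nat_lit 87)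 (nat_lit 5) (nat_lit 76) (nat_lit 5) (nat_lit 334) (nat_lit 313) (nat_lit 241)))) (XT.nd (nat_lit 188) (nat_lit 1176) (nat_lit 0) (XT.nd (nat_lit 94) (nat_lit 0) (nat_lit 0) (XT.lf (nat_lit 0) (nat_lit 2067552828) (nat_lit 1008) (nat_lit 3960318192) (nat_lit 84) (nat_lit 4636933936) (nat_lit 75) (nat_lit 5) (nat_lit 87) (nat_lit 5) (nat_lit 76) (nat_lit 5) (nat_lit 335) (nat_lit 313) (nat_lit 240)) (XT.lf (nat_lit 0) (nat_lit 3096356407) (nat_lit 1008) (nat_lit 272216980) (nat_lit 84) (nat_lit 7480233266) (nat_lit 75) (nat_lit 5) (nat_lit 87) (nat_lit 5) (nat_lit 76) (nat_lit 5) (nat_lit 336) (nat_lit 313) (nat_lit 239))) (XT.nd (nat_lit 94) (nat_lit 504) (nat_lit 0) (XT.lf (nat_lit 0) (nat_lit 3583920078) (nat_lit 672) (nat_lit 587218897) (nat_lit 756) (nat_lit 6867090697) (nat_lit 67) (nat_lit 5) (nat_lit 75) (nat_lit 5) (nat_lit 76) (nat_lit 5) (nat_lit 337) (nat_lit 313) (nat_lit 238))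 (XT.nd (nat_lit 94) (nat_lit 504) (nat_lit 0) (XT.lf (nat_lit 0) (nat_lit 5283755251) (nat_lit 756) (nat_lit 3709861993) (nat_lit 84) (nat_lit 2239916890) (nat_lit 67) (nat_lit 5) (nat_lit 76) (nat_lit 5) (nat_lit 68) (nat_lit 5) (nat_lit 338) (nat_lit 313) (nat_lit 237)) (XT.lf (nat_lit 0) (nat_lit 128682854) (nat_lit 504) (nat_lit 6289116483) (nat_lit 588) (nat_lit 5017643480) (nat_lit 61) (nat_lit 5) (nat_lit 67) (nat_lit 5) (nat_lit 68) (nat_lit 5) (nat_lit 339) (nat_lit 313) (nat_lit 236))))))) (XT.nd (nat_lit 752) (nat_lit 1176) (nat_lit 0) (XT.nd (nat_lit 376) (nat_lit 504) (nat_lit 0) (XT.nd (nat_lit 188) (nat_lit 420) (nat_lit 0) (XT.nd (nat_lit 94) (nat_lit 0) (nat_lit 0) (XT.lf (nat_lit 0) (nat_lit 4146490261) (nat_lit 504) (nat_lit 3459315592) (nat_lit 588) (nat_lit 4037362262) (nat_lit 61) (nat_lit 5) (nat_lit 67) (nat_lit 5) (nat_lit 68) (nat_lit 5) (nat_lit 340) (nat_lit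 313) (nat_lit 235)) (XT.lf (nat_lit 0) (nat_lit 8271022874) (nat_lit 504) (nat_lit 540300253) (nat_lit 588) (nat_lit 3046744853) (nat_lit 61) (nat_lit 5) (nat_lit 67) (nat_lit 5) (nat_lit 68) (nat_lit 5) (nat_lit 341) (nat_lit 313) (nat_lit 234))) (XT.nd (nat_lit 94) (nat_lit 0) (nat_lit 0) (XT.lf (nat_lit 0) (nat_lit 409524311) (nat_lit 420) (nat_lit 9654522204) (nat_lit 504) (nat_lit 2015410483) (nat_lit 56) (nat_lit 5) (nat_lit 61) (nat_lit 5) (nat_lit 62) (nat_lit 5) (nat_lit 342) (nat_lit 313) (nat_lit 233)) (XT.lf (nat_lit 0) (nat_lit 4582555513) (nat_lit 420) (nat_lit 6797624003) (nat_lit 504) (nat_lit 926895901) (nat_lit 56) (nat_lit 5) (nat_lit 61) (nat_lit 5) (nat_lit 62) (nat_lit 5) (nat_lit 343) (nat_lit 313) (nat_lit 232)))) (XT.nd (nat_lit 188) (nat_lit 0) (nat_lit 0) (XT.nd (nat_lit 94) (nat_lit 420) (nat_lit 0) (XT.lf (nat_lit 0) (nat_lit 173337870) (nat_lit 504) (nat_lit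 3676529299) (nat_lit 84) (nat_lit 8692504087) (nat_lit 55) (nat_lit 5) (nat_lit 61) (nat_lit 5) (nat_lit 56) (nat_lit 5) (nat_lit 344) (nat_lit 313) (nat_lit 231)) (XT.lf (nat_lit 0) (nat_lit 479880589) (nat_lit 420) (nat_lit 795760214) (nat_lit 504) (nat_lit 11509539852) (nat_lit 50) (nat_lit 5) (nat_lit 55) (nat_lit 5) (nat_lit 56) (nat_lit 5) (nat_lit 345) (nat_lit 313) (nat_lit 230))) (XT.nd (nat_lit 94) (nat_lit 0) (nat_lit 0) (XT.lf (nat_lit 0) (nat_lit 2457039693) (nat_lit 504) (nat_lit 8232712149) (nat_lit 84) (nat_lit 2344486081) (nat_lit 50) (nat_lit 5) (nat_lit 56) (nat_lit 5) (nat_lit 51) (nat_lit 5) (nat_lit 346) (nat_lit 313) (nat_lit 229)) (XT.lf (nat_lit 0) (nat_lit 3666531797) (nat_lit 504) (nat_lit 4059209204) (nat_lit 84) (nat_lit 5565649424) (nat_lit 50) (nat_lit 5) (nat_lit 56) (nat_lit 5) (nat_lit 51) (nat_lit 5) (nat_lit 347) (nat_lit 313) (nat_lit 228))))) (XT.nd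 (nat_lit 376) (nat_lit 840) (nat_lit 0) (XT.nd (nat_lit 188) (nat_lit 0) (nat_lit 0) (XT.nd (nat_lit 94) (nat_lit 0) (nat_lit 0) (XT.lf (nat_lit 0) (nat_lit 231660388) (nat_lit 336) (nat_lit 4667988162) (nat_lit 420) (nat_lit 8657402783) (nat_lit 46) (nat_lit 5) (nat_lit 50) (nat_lit 5) (nat_lit 51) (nat_lit 5) (nat_lit 348) (nat_lit 313) (nat_lit 227)) (XT.lf (nat_lit 0) (nat_lit 4725089521) (nat_lit 336) (nat_lit 1472426857) (nat_lit 420) (nat_lit 7632712603) (nat_lit 46) (nat_lit 5) (nat_lit 50) (nat_lit 5) (nat_lit 51) (nat_lit 5) (nat_lit 349) (nat_lit 313) (nat_lit 226))) (XT.nd (nat_lit 94) (nat_lit 0) (nat_lit 0) (XT.lf (nat_lit 0) (nat_lit 7538319201) (nat_lit 420) (nat_lit 4788721115) (nat_lit 84) (nat_lit 1784851484) (nat_lit 46) (nat_lit 5) (nat_lit 51) (nat_lit 5) (nat_lit 47) (nat_lit 5) (nat_lit 350) (nat_lit 313) (nat_lit 225)) (XT.lf (nat_lit 0) (nat_lit 8920833350) (nat_lit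 420) (nat_lit 369639120) (nat_lit 84) (nat_lit 5111906535) (nat_lit 46) (nat_lit 5) (nat_lit 51) (nat_lit 5) (nat_lit 47) (nat_lit 5) (nat_lit 351) (nat_lit 313) (nat_lit 224)))) (XT.nd (nat_lit 188) (nat_lit 420) (nat_lit 0) (XT.nd (nat_lit 94) (nat_lit 0) (nat_lit 0) (XT.lf (nat_lit 0) (nat_lit 4256593092) (nat_lit 420) (nat_lit 6117373656) (nat_lit 504) (nat_lit 4327138416) (nat_lit 41) (nat_lit 5) (nat_lit 46) (nat_lit 5) (nat_lit 47) (nat_lit 5) (nat_lit 352) (nat_lit 313) (nat_lit 223)) (XT.lf (nat_lit 0) (nat_lit 9018630429) (nat_lit 420) (nat_lit 2843192218) (nat_lit 504) (nat_lit 3147680861) (nat_lit 41) (nat_lit 5) (nat_lit 46) (nat_lit 5) (nat_lit 47) (nat_lit 5) (nat_lit 353) (nat_lit 313) (nat_lit 222))) (XT.nd (nat_lit 94) (nat_lit 420) (nat_lit 0) (XT.lf (nat_lit 0) (nat_lit 13387315842) (nat_lit 504) (nat_lit 1419936659) (nat_lit 84) (nat_lit 520561631) (nat_lit 41) (nat_lit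 5) (nat_lit 47) (nat_lit 5) (nat_lit 42) (nat_lit 5) (nat_lit 354) (nat_lit 313) (nat_lit 221)) (XT.nd (nat_lit 94) (nat_lit 84) (nat_lit 0) (XT.lf (nat_lit 0) (nat_lit 3315400062) (nat_lit 336) (nat_lit 11693313009) (nat_lit 420) (nat_lit 645858473) (nat_lit 37) (nat_lit 5) (nat_lit 41) (nat_lit 5) (nat_lit 42) (nat_lit 5) (nat_lit 355) (nat_lit 313) (nat_lit 220)) (XT.lf (nat_lit 0) (nat_lit 676691465) (nat_lit 420) (nat_lit 7785570891) (nat_lit 84) (nat_lit 7529013952) (nat_lit 36) (nat_lit 5) (nat_lit 41) (nat_lit 5) (nat_lit 37) (nat_lit 5) (nat_lit 356) (nat_lit 313) (nat_lit 219))))))))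
noncomputable def xc82 : XT := (XT.nd (nat_lit 51700) (nat_lit 0) (nat_lit 6384) (XT.nd (nat_lit 752) (nat_lit 840) (nat_lit 0) (XT.nd (nat_lit 376) (nat_lit 252) (nat_lit 0) (XT.nd (nat_lit 188) (nat_lit 0) (nat_lit 0) (XT.nd (nat_lit 94) (nat_lit 336) (nat_lit 0) (XT.lf (nat_lit 0) (nat_lit 2013908428) (nat_lit 420) (nat_lit 3112176989) (nat_lit 84) (nat_lit 11212607769) (nat_lit 36) (nat_lit 5) (nat_lit 41) (nat_lit 5) (nat_lit 37) (nat_lit 5) (nat_lit 357) (nat_lit 313) (nat_lit 218)) (XT.lf (nat_lit 0) (nat_lit 1726559642) (nat_lit 336) (nat_lit 1670619494) (nat_lit 420) (nat_lit 13299634527) (nat_lit 32) (nat_lit 5) (nat_lit 36) (nat_lit 5) (nat_lit 37) (nat_lit 5) (nat_lit 358) (nat_lit 313) (nat_lit 217))) (XT.nd (nat_lit 94) (nat_lit 0) (nat_lit 0) (XT.lf (nat_lit 0) (nat_lit 4862606496) (nat_lit 420) (nat_lit 10317466196) (nat_lit 84) (nat_lit 1884819633) (nat_lit 32) (nat_lit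 5) (nat_lit 37) (nat_lit 5) (nat_lit 33) (nat_lit 5) (nat_lit 359) (nat_lit 313) (nat_lit 216)) (XT.lf (nat_lit 0) (nat_lit 6378608491) (nat_lit 420) (nat_lit 5551699355) (nat_lit 84) (nat_lit 5513985802) (nat_lit 32) (nat_lit 5) (nat_lit 37) (nat_lit 5) (nat_lit 33) (nat_lit 5) (nat_lit 360) (nat_lit 313) (nat_lit 215)))) (XT.nd (nat_lit 188) (nat_lit 0) (nat_lit 0) (XT.nd (nat_lit 94) (nat_lit 252) (nat_lit 0) (XT.lf (nat_lit 0) (nat_lit 7930025442) (nat_lit 420) (nat_lit 651938551) (nat_lit 84) (nat_lit 9253921035) (nat_lit 32) (nat_lit 5) (nat_lit 37) (nat_lit 5) (nat_lit 33) (nat_lit 5) (nat_lit 361) (nat_lit 313) (nat_lit 214)) (XT.lf (nat_lit 0) (nat_lit 4476576342) (nat_lit 252) (nat_lit 5086135281) (nat_lit 336) (nat_lit 8675943192) (nat_lit 29) (nat_lit 5) (nat_lit 32) (nat_lit 5) (nat_lit 33) (nat_lit 5) (nat_lit 362) (nat_lit 313) (nat_lit 213))) (XT.nd (nat_lit 94) (nat_lit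 0) (nat_lit 0) (XT.lf (nat_lit 0) (nat_lit 9764699390) (nat_lit 252) (nat_lit 1477090539) (nat_lit 336) (nat_lit 7412316871) (nat_lit 29) (nat_lit 5) (nat_lit 32) (nat_lit 5) (nat_lit 33) (nat_lit 5) (nat_lit 363) (nat_lit 313) (nat_lit 212)) (XT.lf (nat_lit 0) (nat_lit 12984463376) (nat_lit 336) (nat_lit 3901116587) (nat_lit 84) (nat_lit 2196563488) (nat_lit 29) (nat_lit 5) (nat_lit 33) (nat_lit 5) (nat_lit 30) (nat_lit 5) (nat_lit 364) (nat_lit 313) (nat_lit 211))))) (XT.nd (nat_lit 376) (nat_lit 588) (nat_lit 0) (XT.nd (nat_lit 188) (nat_lit 0) (nat_lit 0) (XT.nd (nat_lit 94) (nat_lit 0) (nat_lit 0) (XT.lf (nat_lit 0) (nat_lit 1238887091) (nat_lit 252) (nat_lit 13559276470) (nat_lit 336) (nat_lit 4724820159) (nat_lit 26) (nat_lit 5) (nat_lit 29) (nat_lit 5) (nat_lit 30) (nat_lit 5) (nat_lit 365) (nat_lit 313) (nat_lit 210)) (XT.lf (nat_lit 0) (nat_lit 6608284055) (nat_lit 252) (nat_lit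 10090317867) (nat_lit 336) (nat_lit 3278001945) (nat_lit 26) (nat_lit 5) (nat_lit 29) (nat_lit 5) (nat_lit 30) (nat_lit 5) (nat_lit 366) (nat_lit 313) (nat_lit 209))) (XT.nd (nat_lit 94) (nat_lit 0) (nat_lit 0) (XT.lf (nat_lit 0) (nat_lit 12131864189) (nat_lit 252) (nat_lit 6516190377) (nat_lit 336) (nat_lit 1796596504) (nat_lit 26) (nat_lit 5) (nat_lit 29) (nat_lit 5) (nat_lit 30) (nat_lit 5) (nat_lit 367) (nat_lit 313) (nat_lit 208)) (XT.lf (nat_lit 0) (nat_lit 17814776047) (nat_lit 252) (nat_lit 2833562540) (nat_lit 336) (nat_lit 279223010) (nat_lit 26) (nat_lit 5) (nat_lit 29) (nat_lit 5) (nat_lit 30) (nat_lit 5) (nat_lit 368) (nat_lit 313) (nat_lit 207)))) (XT.nd (nat_lit 188) (nat_lit 252) (nat_lit 0) (XT.nd (nat_lit 94) (nat_lit 0) (nat_lit 0) (XT.lf (nat_lit 0) (nat_lit 1282241414) (nat_lit 336) (nat_lit 19164983099) (nat_lit 84) (nat_lit 977164163) (nat_lit 22) (nat_lit 5) (nat_lit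 26) (nat_lit 5) (nat_lit 23) (nat_lit 5) (nat_lit 369) (nat_lit 313) (nat_lit 206)) (XT.lf (nat_lit 0) (nat_lit 2938798728) (nat_lit 336) (nat_lit 14115640248) (nat_lit 84) (nat_lit 4880514063) (nat_lit 22) (nat_lit 5) (nat_lit 26) (nat_lit 5) (nat_lit 23) (nat_lit 5) (nat_lit 370) (nat_lit 313) (nat_lit 205))) (XT.nd (nat_lit 94) (nat_lit 252) (nat_lit 0) (XT.lf (nat_lit 0) (nat_lit 4637672972) (nat_lit 336) (nat_lit 8921392741) (nat_lit 84) (nat_lit 8902609060) (nat_lit 22) (nat_lit 5) (nat_lit 26) (nat_lit 5) (nat_lit 23) (nat_lit 5) (nat_lit 371) (nat_lit 313) (nat_lit 204)) (XT.nd (nat_lit 94) (nat_lit 252) (nat_lit 0) (XT.lf (nat_lit 0) (nat_lit 6380447674) (nat_lit 336) (nat_lit 3577398994) (nat_lit 84) (nat_lit 13047198167) (nat_lit 22) (nat_lit 5) (nat_lit 26) (nat_lit 5) (nat_lit 23) (nat_lit 5) (nat_lit 372) (nat_lit 313) (nat_lit 203)) (XT.lf (nat_lit 0) (nat_lit 1960828477)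 (nat_lit 252) (nat_lit 6227370468) (nat_lit 336) (nat_lit 15376767759) (nat_lit 19) (nat_lit 5) (nat_lit 22) (nat_lit 5) (nat_lit 23) (nat_lit 5) (nat_lit 373) (nat_lit 313) (nat_lit 202))))))) (XT.nd (nat_lit 752) (nat_lit 672) (nat_lit 0) (XT.nd (nat_lit 376) (nat_lit 0) (nat_lit 0) (XT.nd (nat_lit 188) (nat_lit 0) (nat_lit 0) (XT.nd (nat_lit 94) (nat_lit 0) (nat_lit 0) (XT.lf (nat_lit 0) (nat_lit 207811268) (nat_lit 0) (nat_lit 207811268) (nat_lit 756) (nat_lit 3598180623) (nat_lit 103) (nat_lit 5) (nat_lit 103) (nat_lit 3) (nat_lit 112) (nat_lit 3) (nat_lit 314) (nat_lit 314) (nat_lit 260)) (XT.lf (nat_lit 0) (nat_lit 1778973334) (nat_lit 756) (nat_lit 4948896903) (nat_lit 840) (nat_lit 1387705937) (nat_lit 103) (nat_lit 5) (nat_lit 112) (nat_lit 3) (nat_lit 113) (nat_lit 5) (nat_lit 315) (nat_lit 314) (nat_lit 259))) (XT.nd (nat_lit 94) (nat_lit 0) (nat_lit 0) (XT.lf (nat_lit 0) (nat_lit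 2723412126) (nat_lit 756) (nat_lit 2227692715) (nat_lit 840) (nat_lit 3256482317) (nat_lit 103) (nat_lit 5) (nat_lit 112) (nat_lit 3) (nat_lit 113) (nat_lit 5) (nat_lit 316) (nat_lit 314) (nat_lit 258)) (XT.lf (nat_lit 84) (nat_lit 569767805) (nat_lit 0) (nat_lit 3097203102) (nat_lit 840) (nat_lit 4636706726) (nat_lit 104) (nat_lit 5) (nat_lit 103) (nat_lit 5) (nat_lit 113) (nat_lit 5) (nat_lit 317) (nat_lit 314) (nat_lit 257)))) (XT.nd (nat_lit 188) (nat_lit 0) (nat_lit 84) (XT.nd (nat_lit 94) (nat_lit 0) (nat_lit 84) (XT.lf (nat_lit 84) (nat_lit 3481793205) (nat_lit 0) (nat_lit 1146314018) (nat_lit 840) (nat_lit 3775285025) (nat_lit 104) (nat_lit 5) (nat_lit 103) (nat_lit 5) (nat_lit 113) (nat_lit 5) (nat_lit 318) (nat_lit 314) (nat_lit 256)) (XT.lf (nat_lit 0) (nat_lit 5593894546) (nat_lit 756) (nat_lit 2050962218) (nat_lit 840) (nat_lit 862395675) (nat_lit 104) (nat_lit 5) (nat_lit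 113) (nat_lit 5) (nat_lit 114) (nat_lit 5) (nat_lit 319) (nat_lit 314) (nat_lit 255))) (XT.nd (nat_lit 94) (nat_lit 0) (nat_lit 0) (XT.lf (nat_lit 84) (nat_lit 895314276) (nat_lit 0) (nat_lit 5682201136) (nat_lit 840) (nat_lit 2037458852) (nat_lit 105) (nat_lit 5) (nat_lit 104) (nat_lit 5) (nat_lit 114) (nat_lit 5) (nat_lit 320) (nat_lit 314) (nat_lit 254)) (XT.lf (nat_lit 84) (nat_lit 3956939186) (nat_lit 0) (nat_lit 3624176060) (nat_lit 840) (nat_lit 1145504801) (nat_lit 105) (nat_lit 5) (nat_lit 104) (nat_lit 5) (nat_lit 114) (nat_lit 5) (nat_lit 321) (nat_lit 314) (nat_lit 253))))) (XT.nd (nat_lit 376) (nat_lit 0) (nat_lit 0) (XT.nd (nat_lit 188) (nat_lit 0) (nat_lit 0) (XT.nd (nat_lit 94) (nat_lit 756) (nat_lit 0) (XT.lf (nat_lit 84) (nat_lit 7094594276) (nat_lit 0) (nat_lit 1490271079) (nat_lit 840) (nat_lit 258072183) (nat_lit 105) (nat_lit 5) (nat_lit 104) (nat_lit 5) (nat_lit 114)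 (nat_lit 5) (nat_lit 322) (nat_lit 314) (nat_lit 252)) (XT.lf (nat_lit 0) (nat_lit 633996168) (nat_lit 840) (nat_lit 7602246368) (nat_lit 924) (nat_lit 726951210) (nat_lit 95) (nat_lit 5) (nat_lit 105) (nat_lit 5) (nat_lit 106) (nat_lit 5) (nat_lit 323) (nat_lit 314) (nat_lit 251))) (XT.nd (nat_lit 94) (nat_lit 0) (nat_lit 0) (XT.lf (nat_lit 0) (nat_lit 1552298434) (nat_lit 840) (nat_lit 4521235230) (nat_lit 924) (nat_lit 3013669182) (nat_lit 95) (nat_lit 5) (nat_lit 105) (nat_lit 5) (nat_lit 106) (nat_lit 5) (nat_lit 324) (nat_lit 314) (nat_lit 250)) (XT.lf (nat_lit 0) (nat_lit 2470225035) (nat_lit 840) (nat_lit 1364348985) (nat_lit 924) (nat_lit 5381598392) (nat_lit 95) (nat_lit 5) (nat_lit 105) (nat_lit 5) (nat_lit 106) (nat_lit 5) (nat_lit 325) (nat_lit 314) (nat_lit 249)))) (XT.nd (nat_lit 188) (nat_lit 0) (nat_lit 84) (XT.nd (nat_lit 94) (nat_lit 0) (nat_lit 84) (XT.lf (nat_lit 84)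 (nat_lit 1909833810) (nat_lit 0) (nat_lit 1497743551) (nat_lit 924) (nat_lit 5942057974) (nat_lit 96) (nat_lit 5) (nat_lit 95) (nat_lit 5) (nat_lit 106) (nat_lit 5) (nat_lit 326) (nat_lit 314) (nat_lit 248)) (XT.lf (nat_lit 0) (nat_lit 4370179118) (nat_lit 840) (nat_lit 4201535389) (nat_lit 924) (nat_lit 915848064) (nat_lit 96) (nat_lit 5) (nat_lit 106) (nat_lit 5) (nat_lit 107) (nat_lit 5) (nat_lit 327) (nat_lit 314) (nat_lit 247))) (XT.nd (nat_lit 94) (nat_lit 0) (nat_lit 0) (XT.lf (nat_lit 0) (nat_lit 5351521274) (nat_lit 840) (nat_lit 897593124) (nat_lit 924) (nat_lit 3381197876) (nat_lit 96) (nat_lit 5) (nat_lit 106) (nat_lit 5) (nat_lit 107) (nat_lit 5) (nat_lit 328) (nat_lit 314) (nat_lit 246)) (XT.nd (nat_lit 94) (nat_lit 0) (nat_lit 0) (XT.lf (nat_lit 84) (nat_lit 2541161427) (nat_lit 0) (nat_lit 3821707948) (nat_lit 924) (nat_lit 3414827251) (nat_lit 97) (nat_lit 5) (nat_lit 96)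 (nat_lit 5) (nat_lit 107) (nat_lit 5) (nat_lit 329) (nat_lit 314) (nat_lit 245)) (XT.lf (nat_lit 84) (nat_lit 6086927633) (nat_lit 0) (nat_lit 1302972145) (nat_lit 924) (nat_lit 2540426485) (nat_lit 97) (nat_lit 5) (nat_lit 96) (nat_lit 5) (nat_lit 107) (nat_lit 5) (nat_lit 330) (nat_lit 314) (nat_lit 244))))))))
noncomputable def xc83 : XT := (XT.nd (nat_lit 1598) (nat_lit 1764) (nat_lit 0) (XT.nd (nat_lit 752) (nat_lit 1428) (nat_lit 0) (XT.nd (nat_lit 376) (nat_lit 672) (nat_lit 0) (XT.nd (nat_lit 188) (nat_lit 1008) (nat_lit 0) (XT.nd (nat_lit 94) (nat_lit 840) (nat_lit 0) (XT.lf (nat_lit 0) (nat_lit 8437379329) (nat_lit 840) (nat_lit 376967868) (nat_lit 84) (nat_lit 1273878157) (nat_lit 97) (nat_lit 5) (nat_lit 107) (nat_lit 5) (nat_lit 98) (nat_lit 5) (nat_lit 331) (nat_lit 314) (nat_lit 243)) (XT.lf (nat_lit 0) (nat_lit 3230192170) (nat_lit 840) (nat_lit 6309013291) (nat_lit 924)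 (nat_lit 711315064) (nat_lit 87) (nat_lit 5) (nat_lit 97) (nat_lit 5) (nat_lit 98) (nat_lit 5) (nat_lit 332) (nat_lit 314) (nat_lit 242))) (XT.nd (nat_lit 94) (nat_lit 924) (nat_lit 0) (XT.lf (nat_lit 0) (nat_lit 232755569) (nat_lit 924) (nat_lit 3482099406) (nat_lit 84) (nat_lit 6703682864) (nat_lit 86) (nat_lit 5) (nat_lit 97) (nat_lit 5) (nat_lit 87) (nat_lit 5) (nat_lit 333) (nat_lit 314) (nat_lit 241)) (XT.lf (nat_lit 0) (nat_lit 143044155) (nat_lit 924) (nat_lit 1027018483) (nat_lit 1008) (nat_lit 9422298029) (nat_lit 75) (nat_lit 5) (nat_lit 86) (nat_lit 5) (nat_lit 87) (nat_lit 5) (nat_lit 334) (nat_lit 314) (nat_lit 240)))) (XT.nd (nat_lit 188) (nat_lit 672) (nat_lit 0) (XT.nd (nat_lit 94) (nat_lit 0) (nat_lit 0) (XT.lf (nat_lit 0) (nat_lit 2168313706) (nat_lit 1008) (nat_lit 6852810157) (nat_lit 84) (nat_lit 1749618338) (nat_lit 75) (nat_lit 5) (nat_lit 87) (nat_lit 5) (nat_lit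 76) (nat_lit 5) (nat_lit 335) (nat_lit 314) (nat_lit 239)) (XT.lf (nat_lit 0) (nat_lit 3186547687) (nat_lit 1008) (nat_lit 3173819379) (nat_lit 84) (nat_lit 4594780282) (nat_lit 75) (nat_lit 5) (nat_lit 87) (nat_lit 5) (nat_lit 76) (nat_lit 5) (nat_lit 336) (nat_lit 314) (nat_lit 238))) (XT.nd (nat_lit 94) (nat_lit 0) (nat_lit 0) (XT.lf (nat_lit 0) (nat_lit 613636583) (nat_lit 672) (nat_lit 3607976300) (nat_lit 756) (nat_lit 6924262238) (nat_lit 67) (nat_lit 5) (nat_lit 75) (nat_lit 5) (nat_lit 76) (nat_lit 5) (nat_lit 337) (nat_lit 314) (nat_lit 237)) (XT.lf (nat_lit 0) (nat_lit 4568021744) (nat_lit 672) (nat_lit 733499954) (nat_lit 756) (nat_lit 6040743121) (nat_lit 67) (nat_lit 5) (nat_lit 75) (nat_lit 5) (nat_lit 76) (nat_lit 5) (nat_lit 338) (nat_lit 314) (nat_lit 236))))) (XT.nd (nat_lit 376) (nat_lit 924) (nat_lit 0) (XT.nd (nat_lit 188) (nat_lit 0) (nat_lit 0) (XT.nd (nat_lit 94)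 (nat_lit 504) (nat_lit 0) (XT.lf (nat_lit 0) (nat_lit 6417296448) (nat_lit 756) (nat_lit 2939881625) (nat_lit 84) (nat_lit 2187630939) (nat_lit 67) (nat_lit 5) (nat_lit 76) (nat_lit 5) (nat_lit 68) (nat_lit 5) (nat_lit 339) (nat_lit 314) (nat_lit 235)) (XT.lf (nat_lit 0) (nat_lit 1008698423) (nat_lit 504) (nat_lit 6557329583) (nat_lit 588) (nat_lit 4187790909) (nat_lit 61) (nat_lit 5) (nat_lit 67) (nat_lit 5) (nat_lit 68) (nat_lit 5) (nat_lit 340) (nat_lit 314) (nat_lit 234))) (XT.nd (nat_lit 94) (nat_lit 0) (nat_lit 0) (XT.lf (nat_lit 0) (nat_lit 5124717590) (nat_lit 504) (nat_lit 3637602377) (nat_lit 588) (nat_lit 3206749862) (nat_lit 61) (nat_lit 5) (nat_lit 67) (nat_lit 5) (nat_lit 68) (nat_lit 5) (nat_lit 341) (nat_lit 314) (nat_lit 233)) (XT.lf (nat_lit 0) (nat_lit 9351562440) (nat_lit 504) (nat_lit 625961298) (nat_lit 588) (nat_lit 2214161324) (nat_lit 61) (nat_lit 5) (nat_lit 67)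 (nat_lit 5) (nat_lit 68) (nat_lit 5) (nat_lit 342) (nat_lit 314) (nat_lit 232)))) (XT.nd (nat_lit 188) (nat_lit 504) (nat_lit 0) (XT.nd (nat_lit 94) (nat_lit 0) (nat_lit 0) (XT.lf (nat_lit 0) (nat_lit 1272329435) (nat_lit 420) (nat_lit 9977670132) (nat_lit 504) (nat_lit 1170718498) (nat_lit 56) (nat_lit 5) (nat_lit 61) (nat_lit 5) (nat_lit 62) (nat_lit 5) (nat_lit 343) (nat_lit 314) (nat_lit 231)) (XT.lf (nat_lit 0) (nat_lit 5549163590) (nat_lit 420) (nat_lit 7031490735) (nat_lit 504) (nat_lit 75736648) (nat_lit 56) (nat_lit 5) (nat_lit 61) (nat_lit 5) (nat_lit 62) (nat_lit 5) (nat_lit 344) (nat_lit 314) (nat_lit 230))) (XT.nd (nat_lit 94) (nat_lit 420) (nat_lit 0) (XT.lf (nat_lit 0) (nat_lit 1014952996) (nat_lit 504) (nat_lit 2967976013) (nat_lit 84) (nat_lit 8916757822) (nat_lit 55) (nat_lit 5) (nat_lit 61) (nat_lit 5) (nat_lit 56) (nat_lit 5) (nat_lit 345) (nat_lit 314) (nat_lit 229))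 (XT.nd (nat_lit 94) (nat_lit 0) (nat_lit 0) (XT.lf (nat_lit 0) (nat_lit 1308955248) (nat_lit 420) (nat_lit 825404994) (nat_lit 504) (nat_lit 11016359770) (nat_lit 50) (nat_lit 5) (nat_lit 55) (nat_lit 5) (nat_lit 56) (nat_lit 5) (nat_lit 346) (nat_lit 314) (nat_lit 228)) (XT.lf (nat_lit 0) (nat_lit 3327703762) (nat_lit 504) (nat_lit 7668286099) (nat_lit 84) (nat_lit 2412435805) (nat_lit 50) (nat_lit 5) (nat_lit 56) (nat_lit 5) (nat_lit 51) (nat_lit 5) (nat_lit 347) (nat_lit 314) (nat_lit 227))))))) (XT.nd (nat_lit 846) (nat_lit 672) (nat_lit 0) (XT.nd (nat_lit 376) (nat_lit 756) (nat_lit 0) (XT.nd (nat_lit 188) (nat_lit 0) (nat_lit 0) (XT.nd (nat_lit 94) (nat_lit 336) (nat_lit 0) (XT.lf (nat_lit 0) (nat_lit 4550801304) (nat_lit 504) (nat_lit 3390049417) (nat_lit 84) (nat_lit 5733597414) (nat_lit 50) (nat_lit 5) (nat_lit 56) (nat_lit 5) (nat_lit 51) (nat_lit 5) (nat_lit 348) (nat_lit 314)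 (nat_lit 226)) (XT.lf (nat_lit 0) (nat_lit 1025788519) (nat_lit 336) (nat_lit 4780992234) (nat_lit 420) (nat_lit 8142193001) (nat_lit 46) (nat_lit 5) (nat_lit 50) (nat_lit 5) (nat_lit 51) (nat_lit 5) (nat_lit 349) (nat_lit 314) (nat_lit 225))) (XT.nd (nat_lit 94) (nat_lit 0) (nat_lit 0) (XT.lf (nat_lit 0) (nat_lit 5634852126) (nat_lit 336) (nat_lit 1487321788) (nat_lit 420) (nat_lit 7109298306) (nat_lit 46) (nat_lit 5) (nat_lit 50) (nat_lit 5) (nat_lit 51) (nat_lit 5) (nat_lit 350) (nat_lit 314) (nat_lit 224)) (XT.lf (nat_lit 0) (nat_lit 8482811727) (nat_lit 420) (nat_lit 4170465706) (nat_lit 84) (nat_lit 1869406663) (nat_lit 46) (nat_lit 5) (nat_lit 51) (nat_lit 5) (nat_lit 47) (nat_lit 5) (nat_lit 351) (nat_lit 314) (nat_lit 223)))) (XT.nd (nat_lit 188) (nat_lit 336) (nat_lit 0) (XT.nd (nat_lit 94) (nat_lit 0) (nat_lit 0) (XT.lf (nat_lit 0) (nat_lit 370009468) (nat_lit 420) (nat_lit 9520472487)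 (nat_lit 504) (nat_lit 4932382765) (nat_lit 41) (nat_lit 5) (nat_lit 46) (nat_lit 5) (nat_lit 47) (nat_lit 5) (nat_lit 352) (nat_lit 314) (nat_lit 222)) (XT.lf (nat_lit 0) (nat_lit 5124671200) (nat_lit 420) (nat_lit 6246893411) (nat_lit 504) (nat_lit 3759952174) (nat_lit 41) (nat_lit 5) (nat_lit 46) (nat_lit 5) (nat_lit 47) (nat_lit 5) (nat_lit 353) (nat_lit 314) (nat_lit 221))) (XT.nd (nat_lit 94) (nat_lit 336) (nat_lit 0) (XT.lf (nat_lit 0) (nat_lit 10012198003) (nat_lit 420) (nat_lit 2873019996) (nat_lit 504) (nat_lit 2565018877) (nat_lit 41) (nat_lit 5) (nat_lit 46) (nat_lit 5) (nat_lit 47) (nat_lit 5) (nat_lit 354) (nat_lit 314) (nat_lit 220)) (XT.nd (nat_lit 94) (nat_lit 336) (nat_lit 0) (XT.lf (nat_lit 0) (nat_lit 14438847661) (nat_lit 504) (nat_lit 748171167) (nat_lit 84) (nat_lit 592117413) (nat_lit 41) (nat_lit 5) (nat_lit 47) (nat_lit 5) (nat_lit 42) (nat_lit 5) (nat_lit 355)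 (nat_lit 314) (nat_lit 219)) (XT.lf (nat_lit 0) (nat_lit 4126714326) (nat_lit 336) (nat_lit 11971683682) (nat_lit 420) (nat_lit 18124054) (nat_lit 37) (nat_lit 5) (nat_lit 41) (nat_lit 5) (nat_lit 42) (nat_lit 5) (nat_lit 356) (nat_lit 314) (nat_lit 218)))))) (XT.nd (nat_lit 376) (nat_lit 252) (nat_lit 0) (XT.nd (nat_lit 188) (nat_lit 336) (nat_lit 0) (XT.nd (nat_lit 94) (nat_lit 0) (nat_lit 0) (XT.lf (nat_lit 0) (nat_lit 1313289842) (nat_lit 420) (nat_lit 7323284170) (nat_lit 84) (nat_lit 7827599273) (nat_lit 36) (nat_lit 5) (nat_lit 41) (nat_lit 5) (nat_lit 37) (nat_lit 5) (nat_lit 357) (nat_lit 314) (nat_lit 217)) (XT.lf (nat_lit 0) (nat_lit 2673450105) (nat_lit 420) (nat_lit 2526172012) (nat_lit 84) (nat_lit 11623424495) (nat_lit 36) (nat_lit 5) (nat_lit 41) (nat_lit 5) (nat_lit 37) (nat_lit 5) (nat_lit 358) (nat_lit 314) (nat_lit 216))) (XT.nd (nat_lit 94) (nat_lit 0) (nat_lit 0) (XT.lf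 (nat_lit 0) (nat_lit 2455655932) (nat_lit 336) (nat_lit 1632694184) (nat_lit 420) (nat_lit 13104376840) (nat_lit 32) (nat_lit 5) (nat_lit 36) (nat_lit 5) (nat_lit 37) (nat_lit 5) (nat_lit 359) (nat_lit 314) (nat_lit 215)) (XT.lf (nat_lit 0) (nat_lit 5582453414) (nat_lit 420) (nat_lit 9961875163) (nat_lit 84) (nat_lit 2028512831) (nat_lit 32) (nat_lit 5) (nat_lit 37) (nat_lit 5) (nat_lit 33) (nat_lit 5) (nat_lit 360) (nat_lit 314) (nat_lit 214)))) (XT.nd (nat_lit 188) (nat_lit 252) (nat_lit 0) (XT.nd (nat_lit 94) (nat_lit 0) (nat_lit 0) (XT.lf (nat_lit 0) (nat_lit 7128339648) (nat_lit 420) (nat_lit 5068678383) (nat_lit 84) (nat_lit 5767619449) (nat_lit 32) (nat_lit 5) (nat_lit 37) (nat_lit 5) (nat_lit 33) (nat_lit 5) (nat_lit 361) (nat_lit 314) (nat_lit 213)) (XT.lf (nat_lit 0) (nat_lit 8711253217) (nat_lit 420) (nat_lit 36723183) (nat_lit 84) (nat_lit 9621006056) (nat_lit 32) (nat_lit 5)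 (nat_lit 37) (nat_lit 5) (nat_lit 33) (nat_lit 5) (nat_lit 362) (nat_lit 314) (nat_lit 212))) (XT.nd (nat_lit 94) (nat_lit 0) (nat_lit 0) (XT.lf (nat_lit 0) (nat_lit 5244342559) (nat_lit 252) (nat_lit 5140351533) (nat_lit 336) (nat_lit 8399946381) (nat_lit 29) (nat_lit 5) (nat_lit 32) (nat_lit 5) (nat_lit 33) (nat_lit 5) (nat_lit 363) (nat_lit 314) (nat_lit 211)) (XT.nd (nat_lit 94) (nat_lit 0) (nat_lit 0) (XT.lf (nat_lit 0) (nat_lit 10677484945) (nat_lit 252) (nat_lit 1422537046) (nat_lit 336) (nat_lit 7113533175) (nat_lit 29) (nat_lit 5) (nat_lit 32) (nat_lit 5) (nat_lit 33) (nat_lit 5) (nat_lit 364) (nat_lit 314) (nat_lit 210)) (XT.lf (nat_lit 0) (nat_lit 13882357097) (nat_lit 336) (nat_lit 3413017835) (nat_lit 84) (nat_lit 2360022239) (nat_lit 29) (nat_lit 5) (nat_lit 33) (nat_lit 5) (nat_lit 30) (nat_lit 5) (nat_lit 365) (nat_lit 314) (nat_lit 209))))))))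
noncomputable def xc84 : XT := (XT.nd (nat_lit 51794) (nat_lit 0) (nat_lit 3780) (XT.nd (nat_lit 50948) (nat_lit 0) (nat_lit 6048) (XT.nd (nat_lit 376) (nat_lit 252) (nat_lit 0) (XT.nd (nat_lit 188) (nat_lit 84) (nat_lit 0) (XT.nd (nat_lit 94) (nat_lit 0) (nat_lit 0) (XT.lf (nat_lit 0) (nat_lit 1880160041) (nat_lit 252) (nat_lit 13863207572) (nat_lit 336) (nat_lit 4366900502) (nat_lit 26) (nat_lit 5) (nat_lit 29) (nat_lit 5) (nat_lit 30) (nat_lit 5) (nat_lit 366) (nat_lit 314) (nat_lit 208)) (XT.lf (nat_lit 0) (nat_lit 7397881356) (nat_lit 252) (nat_lit 10290211350) (nat_lit 336) (nat_lit 2890396841) (nat_lit 26) (nat_lit 5) (nat_lit 29) (nat_lit 5) (nat_lit 30) (nat_lit 5) (nat_lit 367) (nat_lit 314) (nat_lit 207))) (XT.nd (nat_lit 94) (nat_lit 84) (nat_lit 0) (XT.lf (nat_lit 0) (nat_lit 13075110558) (nat_lit 252) (nat_lit 6608680765) (nat_lit 336) (nat_lit 1377777742) (nat_lit 26) (nat_lit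 5) (nat_lit 29) (nat_lit 5) (nat_lit 30) (nat_lit 5) (nat_lit 368) (nat_lit 314) (nat_lit 206)) (XT.lf (nat_lit 0) (nat_lit 168893908) (nat_lit 336) (nat_lit 2644527430) (nat_lit 84) (nat_lit 18746482604) (nat_lit 25) (nat_lit 5) (nat_lit 29) (nat_lit 5) (nat_lit 26) (nat_lit 5) (nat_lit 369) (nat_lit 314) (nat_lit 205)))) (XT.nd (nat_lit 188) (nat_lit 0) (nat_lit 0) (XT.nd (nat_lit 94) (nat_lit 0) (nat_lit 0) (XT.lf (nat_lit 0) (nat_lit 1766045229) (nat_lit 336) (nat_lit 19187835858) (nat_lit 84) (nat_lit 1118453298) (nat_lit 22) (nat_lit 5) (nat_lit 26) (nat_lit 5) (nat_lit 23) (nat_lit 5) (nat_lit 370) (nat_lit 314) (nat_lit 204)) (XT.lf (nat_lit 0) (nat_lit 3460604041) (nat_lit 336) (nat_lit 13999140017) (nat_lit 84) (nat_lit 5139469597) (nat_lit 22) (nat_lit 5) (nat_lit 26) (nat_lit 5) (nat_lit 23) (nat_lit 5) (nat_lit 371) (nat_lit 314) (nat_lit 203))) (XT.nd (nat_lit 94) (nat_lit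 0) (nat_lit 0) (XT.lf (nat_lit 0) (nat_lit 5199193067) (nat_lit 336) (nat_lit 8660531009) (nat_lit 84) (nat_lit 9283012441) (nat_lit 22) (nat_lit 5) (nat_lit 26) (nat_lit 5) (nat_lit 23) (nat_lit 5) (nat_lit 372) (nat_lit 314) (nat_lit 202)) (XT.lf (nat_lit 0) (nat_lit 6983432855) (nat_lit 336) (nat_lit 3167032692) (nat_lit 84) (nat_lit 13552944046) (nat_lit 22) (nat_lit 5) (nat_lit 26) (nat_lit 5) (nat_lit 23) (nat_lit 5) (nat_lit 373) (nat_lit 314) (nat_lit 201))))) (XT.nd (nat_lit 376) (nat_lit 756) (nat_lit 0) (XT.nd (nat_lit 188) (nat_lit 0) (nat_lit 0) (XT.nd (nat_lit 94) (nat_lit 0) (nat_lit 0) (XT.lf (nat_lit 0) (nat_lit 670083561) (nat_lit 0) (nat_lit 670083561) (nat_lit 756) (nat_lit 2762398766) (nat_lit 103) (nat_lit 5) (nat_lit 103) (nat_lit 3) (nat_lit 112) (nat_lit 3) (nat_lit 315) (nat_lit 315) (nat_lit 258)) (XT.lf (nat_lit 0) (nat_lit 3593846814) (nat_lit 756) (nat_lit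 4140106684) (nat_lit 840) (nat_lit 564291878) (nat_lit 103) (nat_lit 5) (nat_lit 112) (nat_lit 3) (nat_lit 113) (nat_lit 5) (nat_lit 316) (nat_lit 315) (nat_lit 257))) (XT.nd (nat_lit 94) (nat_lit 0) (nat_lit 0) (XT.lf (nat_lit 0) (nat_lit 4514651973) (nat_lit 756) (nat_lit 1363476676) (nat_lit 840) (nat_lit 2517052141) (nat_lit 103) (nat_lit 5) (nat_lit 112) (nat_lit 3) (nat_lit 113) (nat_lit 5) (nat_lit 317) (nat_lit 315) (nat_lit 256)) (XT.lf (nat_lit 84) (nat_lit 1511256554) (nat_lit 0) (nat_lit 3934048683) (nat_lit 840) (nat_lit 3050670520) (nat_lit 104) (nat_lit 5) (nat_lit 103) (nat_lit 5) (nat_lit 113) (nat_lit 5) (nat_lit 318) (nat_lit 315) (nat_lit 255)))) (XT.nd (nat_lit 188) (nat_lit 756) (nat_lit 0) (XT.nd (nat_lit 94) (nat_lit 0) (nat_lit 84) (XT.lf (nat_lit 84) (nat_lit 4485777239) (nat_lit 0) (nat_lit 1900406770) (nat_lit 840) (nat_lit 2214555413) (nat_lit 104) (nat_lit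 5) (nat_lit 103) (nat_lit 5) (nat_lit 113) (nat_lit 5) (nat_lit 319) (nat_lit 315) (nat_lit 254)) (XT.lf (nat_lit 0) (nat_lit 7326449106) (nat_lit 756) (nat_lit 1177263089) (nat_lit 840) (nat_lit 206220441) (nat_lit 104) (nat_lit 5) (nat_lit 113) (nat_lit 5) (nat_lit 114) (nat_lit 5) (nat_lit 320) (nat_lit 315) (nat_lit 253))) (XT.nd (nat_lit 94) (nat_lit 840) (nat_lit 0) (XT.lf (nat_lit 84) (nat_lit 1850858869) (nat_lit 0) (nat_lit 6452026967) (nat_lit 840) (nat_lit 519658168) (nat_lit 105) (nat_lit 5) (nat_lit 104) (nat_lit 5) (nat_lit 114) (nat_lit 5) (nat_lit 321) (nat_lit 315) (nat_lit 252)) (XT.nd (nat_lit 94) (nat_lit 0) (nat_lit 0) (XT.lf (nat_lit 0) (nat_lit 345309980) (nat_lit 840) (nat_lit 3963438170) (nat_lit 924) (nat_lit 4630583155) (nat_lit 94) (nat_lit 5) (nat_lit 104) (nat_lit 5) (nat_lit 105) (nat_lit 5) (nat_lit 322) (nat_lit 315) (nat_lit 251)) (XT.lf (nat_lit 0) (nat_lit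 1196641013) (nat_lit 840) (nat_lit 885851047) (nat_lit 924) (nat_lit 6978230477) (nat_lit 94) (nat_lit 5) (nat_lit 104) (nat_lit 5) (nat_lit 105) (nat_lit 5) (nat_lit 323) (nat_lit 315) (nat_lit 250))))))) (XT.nd (nat_lit 752) (nat_lit 2352) (nat_lit 0) (XT.nd (nat_lit 376) (nat_lit 0) (nat_lit 84) (XT.nd (nat_lit 188) (nat_lit 0) (nat_lit 0) (XT.nd (nat_lit 94) (nat_lit 0) (nat_lit 0) (XT.lf (nat_lit 0) (nat_lit 2071023131) (nat_lit 840) (nat_lit 6872973338) (nat_lit 924) (nat_lit 242206022) (nat_lit 95) (nat_lit 5) (nat_lit 105) (nat_lit 5) (nat_lit 106) (nat_lit 5) (nat_lit 324) (nat_lit 315) (nat_lit 249)) (XT.lf (nat_lit 0) (nat_lit 2975175342) (nat_lit 840) (nat_lit 3725464650) (nat_lit 924) (nat_lit 2615065113) (nat_lit 95) (nat_lit 5) (nat_lit 105) (nat_lit 5) (nat_lit 106) (nat_lit 5) (nat_lit 325) (nat_lit 315) (nat_lit 248))) (XT.nd (nat_lit 94) (nat_lit 0) (nat_lit 0) (XT.lf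 (nat_lit 0) (nat_lit 3880221658) (nat_lit 840) (nat_lit 498856343) (nat_lit 924) (nat_lit 5071194369) (nat_lit 95) (nat_lit 5) (nat_lit 105) (nat_lit 5) (nat_lit 106) (nat_lit 5) (nat_lit 326) (nat_lit 315) (nat_lit 247)) (XT.lf (nat_lit 84) (nat_lit 2867635586) (nat_lit 0) (nat_lit 1947817392) (nat_lit 924) (nat_lit 4773694873) (nat_lit 96) (nat_lit 5) (nat_lit 95) (nat_lit 5) (nat_lit 106) (nat_lit 5) (nat_lit 327) (nat_lit 315) (nat_lit 246)))) (XT.nd (nat_lit 188) (nat_lit 0) (nat_lit 0) (XT.nd (nat_lit 94) (nat_lit 0) (nat_lit 0) (XT.lf (nat_lit 0) (nat_lit 5764855953) (nat_lit 840) (nat_lit 3407508200) (nat_lit 924) (nat_lit 560620278) (nat_lit 96) (nat_lit 5) (nat_lit 106) (nat_lit 5) (nat_lit 107) (nat_lit 5) (nat_lit 328) (nat_lit 315) (nat_lit 245)) (XT.lf (nat_lit 0) (nat_lit 6738758183) (nat_lit 840) (nat_lit 28934723) (nat_lit 924) (nat_lit 3113930552) (nat_lit 96) (nat_lit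 5) (nat_lit 106) (nat_lit 5) (nat_lit 107) (nat_lit 5) (nat_lit 329) (nat_lit 315) (nat_lit 244))) (XT.nd (nat_lit 94) (nat_lit 0) (nat_lit 0) (XT.lf (nat_lit 84) (nat_lit 3507345127) (nat_lit 0) (nat_lit 4246193028) (nat_lit 924) (nat_lit 2281185733) (nat_lit 97) (nat_lit 5) (nat_lit 96) (nat_lit 5) (nat_lit 107) (nat_lit 5) (nat_lit 330) (nat_lit 315) (nat_lit 243)) (XT.lf (nat_lit 84) (nat_lit 7136347604) (nat_lit 0) (nat_lit 1640175274) (nat_lit 924) (nat_lit 1416947735) (nat_lit 97) (nat_lit 5) (nat_lit 96) (nat_lit 5) (nat_lit 107) (nat_lit 5) (nat_lit 331) (nat_lit 315) (nat_lit 242))))) (XT.nd (nat_lit 376) (nat_lit 672) (nat_lit 0) (XT.nd (nat_lit 188) (nat_lit 924) (nat_lit 0) (XT.nd (nat_lit 94) (nat_lit 84) (nat_lit 0) (XT.lf (nat_lit 0) (nat_lit 502523604) (nat_lit 840) (nat_lit 9321275239) (nat_lit 924) (nat_lit 533743633) (nat_lit 87) (nat_lit 5) (nat_lit 97) (nat_lit 5)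 (nat_lit 98) (nat_lit 5) (nat_lit 332) (nat_lit 315) (nat_lit 241)) (XT.lf (nat_lit 0) (nat_lit 395585824) (nat_lit 924) (nat_lit 6327599916) (nat_lit 84) (nat_lit 3802746077) (nat_lit 86) (nat_lit 5) (nat_lit 97) (nat_lit 5) (nat_lit 87) (nat_lit 5) (nat_lit 333) (nat_lit 315) (nat_lit 240))) (XT.nd (nat_lit 94) (nat_lit 924) (nat_lit 0) (XT.lf (nat_lit 0) (nat_lit 1320646034) (nat_lit 924) (nat_lit 2714114770) (nat_lit 84) (nat_lit 6665451638) (nat_lit 86) (nat_lit 5) (nat_lit 97) (nat_lit 5) (nat_lit 87) (nat_lit 5) (nat_lit 334) (nat_lit 315) (nat_lit 239)) (XT.lf (nat_lit 0) (nat_lit 1014540239) (nat_lit 924) (nat_lit 1248577119) (nat_lit 1008) (nat_lit 8617281585) (nat_lit 75) (nat_lit 5) (nat_lit 86) (nat_lit 5) (nat_lit 87) (nat_lit 5) (nat_lit 335) (nat_lit 315) (nat_lit 238)))) (XT.nd (nat_lit 188) (nat_lit 672) (nat_lit 0) (XT.nd (nat_lit 94) (nat_lit 0) (nat_lit 0) (XT.lf (nat_lit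 0) (nat_lit 3258713508) (nat_lit 1008) (nat_lit 6183318390) (nat_lit 84) (nat_lit 1623547480) (nat_lit 75) (nat_lit 5) (nat_lit 87) (nat_lit 5) (nat_lit 76) (nat_lit 5) (nat_lit 336) (nat_lit 315) (nat_lit 237)) (XT.lf (nat_lit 0) (nat_lit 4277747811) (nat_lit 1008) (nat_lit 2416796644) (nat_lit 84) (nat_lit 4562330958) (nat_lit 75) (nat_lit 5) (nat_lit 87) (nat_lit 5) (nat_lit 76) (nat_lit 5) (nat_lit 337) (nat_lit 315) (nat_lit 236))) (XT.nd (nat_lit 94) (nat_lit 0) (nat_lit 0) (XT.lf (nat_lit 0) (nat_lit 1479410185) (nat_lit 672) (nat_lit 3844049822) (nat_lit 756) (nat_lit 6130934360) (nat_lit 67) (nat_lit 5) (nat_lit 75) (nat_lit 5) (nat_lit 76) (nat_lit 5) (nat_lit 338) (nat_lit 315) (nat_lit 235)) (XT.nd (nat_lit 94) (nat_lit 0) (nat_lit 0) (XT.lf (nat_lit 0) (nat_lit 5530921269) (nat_lit 672) (nat_lit 876729488) (nat_lit 756) (nat_lit 5250333988) (nat_lit 67) (nat_lit 5) (nat_lit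 75) (nat_lit 5) (nat_lit 76) (nat_lit 5) (nat_lit 339) (nat_lit 315) (nat_lit 234)) (XT.lf (nat_lit 0) (nat_lit 7528537779) (nat_lit 756) (nat_lit 2198451106) (nat_lit 84) (nat_lit 2140934007) (nat_lit 67) (nat_lit 5) (nat_lit 76) (nat_lit 5) (nat_lit 68) (nat_lit 5) (nat_lit 340) (nat_lit 315) (nat_lit 233))))))))
noncomputable def xc85 : XT := (XT.nd (nat_lit 1598) (nat_lit 1176) (nat_lit 0) (XT.nd (nat_lit 752) (nat_lit 1176) (nat_lit 0) (XT.nd (nat_lit 376) (nat_lit 504) (nat_lit 0) (XT.nd (nat_lit 188) (nat_lit 420) (nat_lit 0) (XT.nd (nat_lit 94) (nat_lit 0) (nat_lit 0) (XT.lf (nat_lit 0) (nat_lit 1864105931) (nat_lit 504) (nat_lit 6829518538) (nat_lit 588) (nat_lit 3390579808) (nat_lit 61) (nat_lit 5) (nat_lit 67) (nat_lit 5) (nat_lit 68) (nat_lit 5) (nat_lit 341) (nat_lit 315) (nat_lit 232)) (XT.lf (nat_lit 0) (nat_lit 6082941601) (nat_lit 504) (nat_lit 3817207757) (nat_lit 588)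 (nat_lit 2407000408) (nat_lit 61) (nat_lit 5) (nat_lit 67) (nat_lit 5) (nat_lit 68) (nat_lit 5) (nat_lit 342) (nat_lit 315) (nat_lit 231))) (XT.nd (nat_lit 94) (nat_lit 420) (nat_lit 0) (XT.lf (nat_lit 0) (nat_lit 10416783637) (nat_lit 504) (nat_lit 710196076) (nat_lit 588) (nat_lit 1410677436) (nat_lit 61) (nat_lit 5) (nat_lit 67) (nat_lit 5) (nat_lit 68) (nat_lit 5) (nat_lit 343) (nat_lit 315) (nat_lit 230)) (XT.lf (nat_lit 0) (nat_lit 2111528055) (nat_lit 420) (nat_lit 10309422510) (nat_lit 504) (nat_lit 353574276) (nat_lit 56) (nat_lit 5) (nat_lit 61) (nat_lit 5) (nat_lit 62) (nat_lit 5) (nat_lit 344) (nat_lit 315) (nat_lit 229)))) (XT.nd (nat_lit 188) (nat_lit 420) (nat_lit 0) (XT.nd (nat_lit 94) (nat_lit 0) (nat_lit 0) (XT.lf (nat_lit 0) (nat_lit 734586369) (nat_lit 504) (nat_lit 6528982746) (nat_lit 84) (nat_lit 5754643132) (nat_lit 55) (nat_lit 5) (nat_lit 61) (nat_lit 5) (nat_lit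 56) (nat_lit 5) (nat_lit 345) (nat_lit 315) (nat_lit 228)) (XT.lf (nat_lit 0) (nat_lit 1833126166) (nat_lit 504) (nat_lit 2286177180) (nat_lit 84) (nat_lit 9150641518) (nat_lit 55) (nat_lit 5) (nat_lit 61) (nat_lit 5) (nat_lit 56) (nat_lit 5) (nat_lit 346) (nat_lit 315) (nat_lit 227))) (XT.nd (nat_lit 94) (nat_lit 0) (nat_lit 0) (XT.lf (nat_lit 0) (nat_lit 2115504858) (nat_lit 420) (nat_lit 855674013) (nat_lit 504) (nat_lit 10558236627) (nat_lit 50) (nat_lit 5) (nat_lit 55) (nat_lit 5) (nat_lit 56) (nat_lit 5) (nat_lit 347) (nat_lit 315) (nat_lit 226)) (XT.lf (nat_lit 0) (nat_lit 4178299068) (nat_lit 504) (nat_lit 7134911531) (nat_lit 84) (nat_lit 2482772098) (nat_lit 50) (nat_lit 5) (nat_lit 56) (nat_lit 5) (nat_lit 51) (nat_lit 5) (nat_lit 348) (nat_lit 315) (nat_lit 225))))) (XT.nd (nat_lit 376) (nat_lit 840) (nat_lit 0) (XT.nd (nat_lit 188) (nat_lit 0) (nat_lit 0) (XT.nd (nat_lit 94)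 (nat_lit 336) (nat_lit 0) (XT.lf (nat_lit 0) (nat_lit 5416838792) (nat_lit 504) (nat_lit 2747234608) (nat_lit 84) (nat_lit 5907023495) (nat_lit 50) (nat_lit 5) (nat_lit 56) (nat_lit 5) (nat_lit 51) (nat_lit 5) (nat_lit 349) (nat_lit 315) (nat_lit 224)) (XT.lf (nat_lit 0) (nat_lit 1797922425) (nat_lit 336) (nat_lit 4899377288) (nat_lit 420) (nat_lit 7657425051) (nat_lit 46) (nat_lit 5) (nat_lit 50) (nat_lit 5) (nat_lit 51) (nat_lit 5) (nat_lit 350) (nat_lit 315) (nat_lit 223))) (XT.nd (nat_lit 94) (nat_lit 0) (nat_lit 0) (XT.lf (nat_lit 0) (nat_lit 6527606704) (nat_lit 336) (nat_lit 1504499854) (nat_lit 420) (nat_lit 6614675948) (nat_lit 46) (nat_lit 5) (nat_lit 50) (nat_lit 5) (nat_lit 51) (nat_lit 5) (nat_lit 351) (nat_lit 315) (nat_lit 222)) (XT.lf (nat_lit 0) (nat_lit 9414481346) (nat_lit 420) (nat_lit 3578457673) (nat_lit 84) (nat_lit 1954852020) (nat_lit 46) (nat_lit 5) (nat_lit 51)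 (nat_lit 5) (nat_lit 47) (nat_lit 5) (nat_lit 352) (nat_lit 315) (nat_lit 221)))) (XT.nd (nat_lit 188) (nat_lit 420) (nat_lit 0) (XT.nd (nat_lit 94) (nat_lit 0) (nat_lit 0) (XT.lf (nat_lit 0) (nat_lit 1095469792) (nat_lit 420) (nat_lit 9757295953) (nat_lit 504) (nat_lit 4405046540) (nat_lit 41) (nat_lit 5) (nat_lit 46) (nat_lit 5) (nat_lit 47) (nat_lit 5) (nat_lit 353) (nat_lit 315) (nat_lit 220)) (XT.lf (nat_lit 0) (nat_lit 5976057860) (nat_lit 420) (nat_lit 6383989220) (nat_lit 504) (nat_lit 3216723989) (nat_lit 41) (nat_lit 5) (nat_lit 46) (nat_lit 5) (nat_lit 47) (nat_lit 5) (nat_lit 354) (nat_lit 315) (nat_lit 219))) (XT.nd (nat_lit 94) (nat_lit 420) (nat_lit 0) (XT.lf (nat_lit 0) (nat_lit 10994275320) (nat_lit 420) (nat_lit 2907226306) (nat_lit 504) (nat_lit 2004586157) (nat_lit 41) (nat_lit 5) (nat_lit 46) (nat_lit 5) (nat_lit 47) (nat_lit 5) (nat_lit 355) (nat_lit 315) (nat_lit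 218)) (XT.nd (nat_lit 94) (nat_lit 420) (nat_lit 0) (XT.lf (nat_lit 0) (nat_lit 15485274499) (nat_lit 504) (nat_lit 97978029) (nat_lit 84) (nat_lit 662608899) (nat_lit 41) (nat_lit 5) (nat_lit 47) (nat_lit 5) (nat_lit 42) (nat_lit 5) (nat_lit 356) (nat_lit 315) (nat_lit 217)) (XT.lf (nat_lit 0) (nat_lit 578801095) (nat_lit 420) (nat_lit 11678823947) (nat_lit 84) (nat_lit 4336368890) (nat_lit 36) (nat_lit 5) (nat_lit 41) (nat_lit 5) (nat_lit 37) (nat_lit 5) (nat_lit 357) (nat_lit 315) (nat_lit 216))))))) (XT.nd (nat_lit 752) (nat_lit 588) (nat_lit 0) (XT.nd (nat_lit 376) (nat_lit 252) (nat_lit 0) (XT.nd (nat_lit 188) (nat_lit 336) (nat_lit 0) (XT.nd (nat_lit 94) (nat_lit 0) (nat_lit 0) (XT.lf (nat_lit 0) (nat_lit 1933158487) (nat_lit 420) (nat_lit 6888344327) (nat_lit 84) (nat_lit 8131579667) (nat_lit 36) (nat_lit 5) (nat_lit 41) (nat_lit 5) (nat_lit 37) (nat_lit 5) (nat_lit 358) (nat_lit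 315) (nat_lit 215)) (XT.lf (nat_lit 0) (nat_lit 3318069697) (nat_lit 420) (nat_lit 1962425487) (nat_lit 84) (nat_lit 12043231563) (nat_lit 36) (nat_lit 5) (nat_lit 41) (nat_lit 5) (nat_lit 37) (nat_lit 5) (nat_lit 359) (nat_lit 315) (nat_lit 214))) (XT.nd (nat_lit 94) (nat_lit 0) (nat_lit 0) (XT.lf (nat_lit 0) (nat_lit 3167338865) (nat_lit 336) (nat_lit 1598907134) (nat_lit 420) (nat_lit 12939052175) (nat_lit 32) (nat_lit 5) (nat_lit 36) (nat_lit 5) (nat_lit 37) (nat_lit 5) (nat_lit 360) (nat_lit 315) (nat_lit 213)) (XT.lf (nat_lit 0) (nat_lit 6290906456) (nat_lit 420) (nat_lit 9635267830) (nat_lit 84) (nat_lit 2171610198) (nat_lit 32) (nat_lit 5) (nat_lit 37) (nat_lit 5) (nat_lit 33) (nat_lit 5) (nat_lit 361) (nat_lit 315) (nat_lit 212)))) (XT.nd (nat_lit 188) (nat_lit 0) (nat_lit 0) (XT.nd (nat_lit 94) (nat_lit 252) (nat_lit 0) (XT.lf (nat_lit 0) (nat_lit 7868616903) (nat_lit 420) (nat_lit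 4609487856) (nat_lit 84) (nat_lit 6024217270) (nat_lit 32) (nat_lit 5) (nat_lit 37) (nat_lit 5) (nat_lit 33) (nat_lit 5) (nat_lit 362) (nat_lit 315) (nat_lit 211)) (XT.lf (nat_lit 0) (nat_lit 571439759) (nat_lit 252) (nat_lit 8919215567) (nat_lit 336) (nat_lit 9428948525) (nat_lit 29) (nat_lit 5) (nat_lit 32) (nat_lit 5) (nat_lit 33) (nat_lit 5) (nat_lit 363) (nat_lit 315) (nat_lit 210))) (XT.nd (nat_lit 94) (nat_lit 0) (nat_lit 0) (XT.lf (nat_lit 0) (nat_lit 5998653235) (nat_lit 252) (nat_lit 5202376242) (nat_lit 336) (nat_lit 8147672053) (nat_lit 29) (nat_lit 5) (nat_lit 32) (nat_lit 5) (nat_lit 33) (nat_lit 5) (nat_lit 364) (nat_lit 315) (nat_lit 209)) (XT.lf (nat_lit 0) (nat_lit 11582430777) (nat_lit 252) (nat_lit 1372235900) (nat_lit 336) (nat_lit 6836795026) (nat_lit 29) (nat_lit 5) (nat_lit 32) (nat_lit 5) (nat_lit 33) (nat_lit 5) (nat_lit 365) (nat_lit 315) (nat_lit 208))))) (XT.nd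 (nat_lit 376) (nat_lit 336) (nat_lit 0) (XT.nd (nat_lit 188) (nat_lit 0) (nat_lit 0) (XT.nd (nat_lit 94) (nat_lit 252) (nat_lit 0) (XT.lf (nat_lit 0) (nat_lit 14778743593) (nat_lit 336) (nat_lit 2945862110) (nat_lit 84) (nat_lit 2522899561) (nat_lit 29) (nat_lit 5) (nat_lit 33) (nat_lit 5) (nat_lit 30) (nat_lit 5) (nat_lit 366) (nat_lit 315) (nat_lit 207)) (XT.lf (nat_lit 0) (nat_lit 2505603581) (nat_lit 252) (nat_lit 14183455493) (nat_lit 336) (nat_lit 4027761165) (nat_lit 26) (nat_lit 5) (nat_lit 29) (nat_lit 5) (nat_lit 30) (nat_lit 5) (nat_lit 367) (nat_lit 315) (nat_lit 206))) (XT.nd (nat_lit 94) (nat_lit 0) (nat_lit 0) (XT.lf (nat_lit 0) (nat_lit 8177320993) (nat_lit 252) (nat_lit 10502989168) (nat_lit 336) (nat_lit 2519753505) (nat_lit 26) (nat_lit 5) (nat_lit 29) (nat_lit 5) (nat_lit 30) (nat_lit 5) (nat_lit 368) (nat_lit 315) (nat_lit 205)) (XT.lf (nat_lit 0) (nat_lit 14014003791)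 (nat_lit 252) (nat_lit 6710524909) (nat_lit 336) (nat_lit 974081832) (nat_lit 26) (nat_lit 5) (nat_lit 29) (nat_lit 5) (nat_lit 30) (nat_lit 5) (nat_lit 369) (nat_lit 315) (nat_lit 204)))) (XT.nd (nat_lit 188) (nat_lit 0) (nat_lit 0) (XT.nd (nat_lit 94) (nat_lit 252) (nat_lit 0) (XT.lf (nat_lit 0) (nat_lit 598390448) (nat_lit 336) (nat_lit 2197891323) (nat_lit 84) (nat_lit 19416455958) (nat_lit 25) (nat_lit 5) (nat_lit 29) (nat_lit 5) (nat_lit 26) (nat_lit 5) (nat_lit 370) (nat_lit 315) (nat_lit 203)) (XT.lf (nat_lit 0) (nat_lit 2238544864) (nat_lit 336) (nat_lit 19245233863) (nat_lit 84) (nat_lit 1257547851) (nat_lit 22) (nat_lit 5) (nat_lit 26) (nat_lit 5) (nat_lit 23) (nat_lit 5) (nat_lit 371) (nat_lit 315) (nat_lit 202))) (XT.nd (nat_lit 94) (nat_lit 0) (nat_lit 0) (XT.lf (nat_lit 0) (nat_lit 3973074068) (nat_lit 336) (nat_lit 13911847687) (nat_lit 84) (nat_lit 5400075891) (nat_lit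 22) (nat_lit 5) (nat_lit 26) (nat_lit 5) (nat_lit 23) (nat_lit 5) (nat_lit 372) (nat_lit 315) (nat_lit 201)) (XT.nd (nat_lit 50384) (nat_lit 0) (nat_lit 6804) (XT.lf (nat_lit 0) (nat_lit 5753376104) (nat_lit 336) (nat_lit 8423415161) (nat_lit 84) (nat_lit 9669023204) (nat_lit 22) (nat_lit 5) (nat_lit 26) (nat_lit 5) (nat_lit 23) (nat_lit 5) (nat_lit 373) (nat_lit 315) (nat_lit 200)) (XT.lf (nat_lit 0) (nat_lit 1119686695) (nat_lit 0) (nat_lit 1119686695) (nat_lit 756) (nat_lit 1956819379) (nat_lit 103) (nat_lit 5) (nat_lit 103) (nat_lit 3) (nat_lit 112) (nat_lit 3) (nat_lit 316) (nat_lit 316) (nat_lit 256))))))))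
noncomputable def xc86 : XT := (XT.nd (nat_lit 1598) (nat_lit 3024) (nat_lit 0) (XT.nd (nat_lit 752) (nat_lit 588) (nat_lit 0) (XT.nd (nat_lit 376) (nat_lit 840) (nat_lit 0) (XT.nd (nat_lit 188) (nat_lit 0) (nat_lit 0) (XT.nd (nat_lit 94) (nat_lit 0) (nat_lit 0) (XT.lf (nat_lit 0) (nat_lit 5124986657) (nat_lit 0) (nat_lit 238125405) (nat_lit 756) (nat_lit 3127473907) (nat_lit 103) (nat_lit 5) (nat_lit 103) (nat_lit 3) (nat_lit 112) (nat_lit 3) (nat_lit 317) (nat_lit 316) (nat_lit 255)) (XT.lf (nat_lit 0) (nat_lit 6260322735) (nat_lit 756) (nat_lit 527749387) (nat_lit 840) (nat_lit 1804476843) (nat_lit 103) (nat_lit 5) (nat_lit 112) (nat_lit 3) (nat_lit 113) (nat_lit 5) (nat_lit 318) (nat_lit 316) (nat_lit 254))) (XT.nd (nat_lit 94) (nat_lit 0) (nat_lit 0) (XT.lf (nat_lit 84) (nat_lit 2427211661) (nat_lit 0) (nat_lit 4752955712) (nat_lit 840) (nat_lit 1517924674) (nat_lit 104) (nat_lit 5)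 (nat_lit 103) (nat_lit 5) (nat_lit 113) (nat_lit 5) (nat_lit 319) (nat_lit 316) (nat_lit 253)) (XT.lf (nat_lit 84) (nat_lit 5467810295) (nat_lit 0) (nat_lit 2635315034) (nat_lit 840) (nat_lit 704819984) (nat_lit 104) (nat_lit 5) (nat_lit 103) (nat_lit 5) (nat_lit 113) (nat_lit 5) (nat_lit 320) (nat_lit 316) (nat_lit 252)))) (XT.nd (nat_lit 188) (nat_lit 0) (nat_lit 84) (XT.nd (nat_lit 94) (nat_lit 0) (nat_lit 84) (XT.lf (nat_lit 0) (nat_lit 100275250) (nat_lit 840) (nat_lit 337362929) (nat_lit 924) (nat_lit 8484707140) (nat_lit 93) (nat_lit 5) (nat_lit 103) (nat_lit 5) (nat_lit 104) (nat_lit 5) (nat_lit 321) (nat_lit 316) (nat_lit 251)) (XT.lf (nat_lit 0) (nat_lit 932379619) (nat_lit 840) (nat_lit 6268441109) (nat_lit 924) (nat_lit 1838959012) (nat_lit 94) (nat_lit 5) (nat_lit 104) (nat_lit 5) (nat_lit 105) (nat_lit 5) (nat_lit 322) (nat_lit 316) (nat_lit 250))) (XT.nd (nat_lit 94) (nat_lit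 0) (nat_lit 0) (XT.lf (nat_lit 0) (nat_lit 1769547730) (nat_lit 840) (nat_lit 3199736968) (nat_lit 924) (nat_lit 4192434654) (nat_lit 94) (nat_lit 5) (nat_lit 104) (nat_lit 5) (nat_lit 105) (nat_lit 5) (nat_lit 323) (nat_lit 316) (nat_lit 249)) (XT.lf (nat_lit 0) (nat_lit 2604768058) (nat_lit 840) (nat_lit 53401872) (nat_lit 924) (nat_lit 6630349435) (nat_lit 94) (nat_lit 5) (nat_lit 104) (nat_lit 5) (nat_lit 105) (nat_lit 5) (nat_lit 324) (nat_lit 316) (nat_lit 248))))) (XT.nd (nat_lit 376) (nat_lit 672) (nat_lit 0) (XT.nd (nat_lit 188) (nat_lit 0) (nat_lit 84) (XT.nd (nat_lit 94) (nat_lit 0) (nat_lit 84) (XT.lf (nat_lit 84) (nat_lit 3238750498) (nat_lit 0) (nat_lit 232197424) (nat_lit 924) (nat_lit 5948354054) (nat_lit 95) (nat_lit 5) (nat_lit 94) (nat_lit 5) (nat_lit 105) (nat_lit 5) (nat_lit 325) (nat_lit 316) (nat_lit 247)) (XT.lf (nat_lit 0) (nat_lit 4360732303) (nat_lit 840) (nat_lit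 2960461852) (nat_lit 924) (nat_lit 2233247968) (nat_lit 95) (nat_lit 5) (nat_lit 105) (nat_lit 5) (nat_lit 106) (nat_lit 5) (nat_lit 326) (nat_lit 316) (nat_lit 246))) (XT.nd (nat_lit 94) (nat_lit 0) (nat_lit 0) (XT.lf (nat_lit 84) (nat_lit 346681627) (nat_lit 0) (nat_lit 4911704946) (nat_lit 924) (nat_lit 4436192681) (nat_lit 96) (nat_lit 5) (nat_lit 95) (nat_lit 5) (nat_lit 106) (nat_lit 5) (nat_lit 327) (nat_lit 316) (nat_lit 245)) (XT.lf (nat_lit 84) (nat_lit 3801903782) (nat_lit 0) (nat_lit 2387935008) (nat_lit 924) (nat_lit 3649227369) (nat_lit 96) (nat_lit 5) (nat_lit 95) (nat_lit 5) (nat_lit 106) (nat_lit 5) (nat_lit 328) (nat_lit 316) (nat_lit 244)))) (XT.nd (nat_lit 188) (nat_lit 840) (nat_lit 0) (XT.nd (nat_lit 94) (nat_lit 0) (nat_lit 0) (XT.lf (nat_lit 0) (nat_lit 7128183122) (nat_lit 840) (nat_lit 2643612546) (nat_lit 924) (nat_lit 217102845) (nat_lit 96) (nat_lit 5) (nat_lit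 106) (nat_lit 5) (nat_lit 107) (nat_lit 5) (nat_lit 329) (nat_lit 316) (nat_lit 243)) (XT.lf (nat_lit 84) (nat_lit 830280113) (nat_lit 0) (nat_lit 7274613760) (nat_lit 924) (nat_lit 2038373509) (nat_lit 97) (nat_lit 5) (nat_lit 96) (nat_lit 5) (nat_lit 107) (nat_lit 5) (nat_lit 330) (nat_lit 316) (nat_lit 242))) (XT.nd (nat_lit 94) (nat_lit 840) (nat_lit 0) (XT.lf (nat_lit 84) (nat_lit 4450917844) (nat_lit 0) (nat_lit 4665711522) (nat_lit 924) (nat_lit 1185819104) (nat_lit 97) (nat_lit 5) (nat_lit 96) (nat_lit 5) (nat_lit 107) (nat_lit 5) (nat_lit 331) (nat_lit 316) (nat_lit 241)) (XT.nd (nat_lit 94) (nat_lit 840) (nat_lit 0) (XT.lf (nat_lit 84) (nat_lit 8167317365) (nat_lit 0) (nat_lit 1970251076) (nat_lit 924) (nat_lit 329851401) (nat_lit 97) (nat_lit 5) (nat_lit 96) (nat_lit 5) (nat_lit 107) (nat_lit 5) (nat_lit 332) (nat_lit 316) (nat_lit 240)) (XT.lf (nat_lit 0) (nat_lit 541472466)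 (nat_lit 924) (nat_lit 9279135799) (nat_lit 84) (nat_lit 816887185) (nat_lit 86) (nat_lit 5) (nat_lit 97) (nat_lit 5) (nat_lit 87) (nat_lit 5) (nat_lit 333) (nat_lit 316) (nat_lit 239))))))) (XT.nd (nat_lit 752) (nat_lit 1428) (nat_lit 0) (XT.nd (nat_lit 376) (nat_lit 672) (nat_lit 0) (XT.nd (nat_lit 188) (nat_lit 924) (nat_lit 0) (XT.nd (nat_lit 94) (nat_lit 0) (nat_lit 0) (XT.lf (nat_lit 0) (nat_lit 1456030403) (nat_lit 924) (nat_lit 5674163160) (nat_lit 84) (nat_lit 3681983878) (nat_lit 86) (nat_lit 5) (nat_lit 97) (nat_lit 5) (nat_lit 87) (nat_lit 5) (nat_lit 334) (nat_lit 316) (nat_lit 238)) (XT.lf (nat_lit 0) (nat_lit 2378250870) (nat_lit 924) (nat_lit 1974205428) (nat_lit 84) (nat_lit 6640608934) (nat_lit 86) (nat_lit 5) (nat_lit 97) (nat_lit 5) (nat_lit 87) (nat_lit 5) (nat_lit 335) (nat_lit 316) (nat_lit 237))) (XT.nd (nat_lit 94) (nat_lit 0) (nat_lit 0) (XT.lf (nat_lit 0) (nat_lit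 1861695151) (nat_lit 924) (nat_lit 1465766569) (nat_lit 1008) (nat_lit 7852293197) (nat_lit 75) (nat_lit 5) (nat_lit 86) (nat_lit 5) (nat_lit 87) (nat_lit 5) (nat_lit 336) (nat_lit 316) (nat_lit 236)) (XT.lf (nat_lit 0) (nat_lit 4322310877) (nat_lit 1008) (nat_lit 5545310536) (nat_lit 84) (nat_lit 1504248438) (nat_lit 75) (nat_lit 5) (nat_lit 87) (nat_lit 5) (nat_lit 76) (nat_lit 5) (nat_lit 337) (nat_lit 316) (nat_lit 235)))) (XT.nd (nat_lit 188) (nat_lit 0) (nat_lit 0) (XT.nd (nat_lit 94) (nat_lit 672) (nat_lit 0) (XT.lf (nat_lit 0) (nat_lit 5343992572) (nat_lit 1008) (nat_lit 1686973669) (nat_lit 84) (nat_lit 4539234591) (nat_lit 75) (nat_lit 5) (nat_lit 87) (nat_lit 5) (nat_lit 76) (nat_lit 5) (nat_lit 338) (nat_lit 316) (nat_lit 234)) (XT.lf (nat_lit 0) (nat_lit 2321868264) (nat_lit 672) (nat_lit 4080083490) (nat_lit 756) (nat_lit 5372717699) (nat_lit 67) (nat_lit 5) (nat_lit 75) (nat_lit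 5) (nat_lit 76) (nat_lit 5) (nat_lit 339) (nat_lit 316) (nat_lit 233))) (XT.nd (nat_lit 94) (nat_lit 0) (nat_lit 0) (XT.lf (nat_lit 0) (nat_lit 6475024216) (nat_lit 672) (nat_lit 1017262247) (nat_lit 756) (nat_lit 4493331368) (nat_lit 67) (nat_lit 5) (nat_lit 75) (nat_lit 5) (nat_lit 76) (nat_lit 5) (nat_lit 340) (nat_lit 316) (nat_lit 232)) (XT.lf (nat_lit 0) (nat_lit 8620190195) (nat_lit 756) (nat_lit 1483350602) (nat_lit 84) (nat_lit 2099572300) (nat_lit 67) (nat_lit 5) (nat_lit 76) (nat_lit 5) (nat_lit 68) (nat_lit 5) (nat_lit 341) (nat_lit 316) (nat_lit 231))))) (XT.nd (nat_lit 376) (nat_lit 420) (nat_lit 0) (XT.nd (nat_lit 188) (nat_lit 504) (nat_lit 0) (XT.nd (nat_lit 94) (nat_lit 0) (nat_lit 0) (XT.lf (nat_lit 0) (nat_lit 2697215976) (nat_lit 504) (nat_lit 7106063590) (nat_lit 588) (nat_lit 2623564892) (nat_lit 61) (nat_lit 5) (nat_lit 67) (nat_lit 5) (nat_lit 68) (nat_lit 5) (nat_lit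 342) (nat_lit 316) (nat_lit 230)) (XT.lf (nat_lit 0) (nat_lit 7023523228) (nat_lit 504) (nat_lit 3998421874) (nat_lit 588) (nat_lit 1635717431) (nat_lit 61) (nat_lit 5) (nat_lit 67) (nat_lit 5) (nat_lit 68) (nat_lit 5) (nat_lit 343) (nat_lit 316) (nat_lit 229))) (XT.nd (nat_lit 94) (nat_lit 504) (nat_lit 0) (XT.lf (nat_lit 0) (nat_lit 11469102996) (nat_lit 504) (nat_lit 793202141) (nat_lit 588) (nat_lit 633942878) (nat_lit 61) (nat_lit 5) (nat_lit 67) (nat_lit 5) (nat_lit 68) (nat_lit 5) (nat_lit 344) (nat_lit 316) (nat_lit 228)) (XT.lf (nat_lit 0) (nat_lit 429519117) (nat_lit 504) (nat_lit 10216127364) (nat_lit 84) (nat_lit 2495368474) (nat_lit 55) (nat_lit 5) (nat_lit 61) (nat_lit 5) (nat_lit 56) (nat_lit 5) (nat_lit 345) (nat_lit 316) (nat_lit 227)))) (XT.nd (nat_lit 188) (nat_lit 420) (nat_lit 0) (XT.nd (nat_lit 94) (nat_lit 0) (nat_lit 0) (XT.lf (nat_lit 0) (nat_lit 1520413471) (nat_lit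 504) (nat_lit 5980841842) (nat_lit 84) (nat_lit 5891780234) (nat_lit 55) (nat_lit 5) (nat_lit 61) (nat_lit 5) (nat_lit 56) (nat_lit 5) (nat_lit 346) (nat_lit 316) (nat_lit 226)) (XT.lf (nat_lit 0) (nat_lit 2630064546) (nat_lit 504) (nat_lit 1629076442) (nat_lit 84) (nat_lit 9394295077) (nat_lit 55) (nat_lit 5) (nat_lit 61) (nat_lit 5) (nat_lit 56) (nat_lit 5) (nat_lit 347) (nat_lit 316) (nat_lit 225))) (XT.nd (nat_lit 94) (nat_lit 0) (nat_lit 0) (XT.lf (nat_lit 0) (nat_lit 2901687674) (nat_lit 420) (nat_lit 886604079) (nat_lit 504) (nat_lit 10133275139) (nat_lit 50) (nat_lit 5) (nat_lit 55) (nat_lit 5) (nat_lit 56) (nat_lit 5) (nat_lit 348) (nat_lit 316) (nat_lit 224)) (XT.nd (nat_lit 94) (nat_lit 0) (nat_lit 0) (XT.lf (nat_lit 0) (nat_lit 5010990885) (nat_lit 504) (nat_lit 6630675416) (nat_lit 84) (nat_lit 2555552352) (nat_lit 50) (nat_lit 5) (nat_lit 56) (nat_lit 5) (nat_lit 51) (nat_lit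 5) (nat_lit 349) (nat_lit 316) (nat_lit 223)) (XT.lf (nat_lit 0) (nat_lit 6266782663) (nat_lit 504) (nat_lit 2128792312) (nat_lit 84) (nat_lit 6086081396) (nat_lit 50) (nat_lit 5) (nat_lit 56) (nat_lit 5) (nat_lit 51) (nat_lit 5) (nat_lit 350) (nat_lit 316) (nat_lit 222))))))))
noncomputable def xc87 : XT := (XT.nd (nat_lit 1598) (nat_lit 588) (nat_lit 0) (XT.nd (nat_lit 752) (nat_lit 588) (nat_lit 0) (XT.nd (nat_lit 376) (nat_lit 420) (nat_lit 0) (XT.nd (nat_lit 188) (nat_lit 420) (nat_lit 0) (XT.nd (nat_lit 94) (nat_lit 0) (nat_lit 0) (XT.lf (nat_lit 0) (nat_lit 2550141203) (nat_lit 336) (nat_lit 5023198906) (nat_lit 420) (nat_lit 7201293486) (nat_lit 46) (nat_lit 5) (nat_lit 50) (nat_lit 5) (nat_lit 51) (nat_lit 5) (nat_lit 351) (nat_lit 316) (nat_lit 221)) (XT.lf (nat_lit 0) (nat_lit 7405503912) (nat_lit 336) (nat_lit 1523923950) (nat_lit 420) (nat_lit 6147071600) (nat_lit 46) (nat_lit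 5) (nat_lit 50) (nat_lit 5) (nat_lit 51) (nat_lit 5) (nat_lit 352) (nat_lit 316) (nat_lit 220))) (XT.nd (nat_lit 94) (nat_lit 420) (nat_lit 0) (XT.lf (nat_lit 0) (nat_lit 10335424332) (nat_lit 420) (nat_lit 3010820780) (nat_lit 84) (nat_lit 2041317680) (nat_lit 46) (nat_lit 5) (nat_lit 51) (nat_lit 5) (nat_lit 47) (nat_lit 5) (nat_lit 353) (nat_lit 316) (nat_lit 219)) (XT.lf (nat_lit 0) (nat_lit 1801128534) (nat_lit 420) (nat_lit 10004914818) (nat_lit 504) (nat_lit 3901654677) (nat_lit 41) (nat_lit 5) (nat_lit 46) (nat_lit 5) (nat_lit 47) (nat_lit 5) (nat_lit 354) (nat_lit 316) (nat_lit 218)))) (XT.nd (nat_lit 188) (nat_lit 420) (nat_lit 0) (XT.nd (nat_lit 94) (nat_lit 0) (nat_lit 0) (XT.lf (nat_lit 0) (nat_lit 6812818252) (nat_lit 420) (nat_lit 6528685020) (nat_lit 504) (nat_lit 2695736025) (nat_lit 41) (nat_lit 5) (nat_lit 46) (nat_lit 5) (nat_lit 47) (nat_lit 5) (nat_lit 355) (nat_lit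 316) (nat_lit 217)) (XT.lf (nat_lit 0) (nat_lit 11967011141) (nat_lit 420) (nat_lit 2945742304) (nat_lit 504) (nat_lit 1464685257) (nat_lit 41) (nat_lit 5) (nat_lit 46) (nat_lit 5) (nat_lit 47) (nat_lit 5) (nat_lit 356) (nat_lit 316) (nat_lit 216))) (XT.nd (nat_lit 94) (nat_lit 84) (nat_lit 0) (XT.lf (nat_lit 0) (nat_lit 543434252) (nat_lit 336) (nat_lit 15990627966) (nat_lit 420) (nat_lit 194154208) (nat_lit 37) (nat_lit 5) (nat_lit 41) (nat_lit 5) (nat_lit 42) (nat_lit 5) (nat_lit 357) (nat_lit 316) (nat_lit 215)) (XT.lf (nat_lit 0) (nat_lit 1158486567) (nat_lit 420) (nat_lit 11398809631) (nat_lit 84) (nat_lit 4530277234) (nat_lit 36) (nat_lit 5) (nat_lit 41) (nat_lit 5) (nat_lit 37) (nat_lit 5) (nat_lit 358) (nat_lit 316) (nat_lit 214))))) (XT.nd (nat_lit 376) (nat_lit 252) (nat_lit 0) (XT.nd (nat_lit 188) (nat_lit 336) (nat_lit 0) (XT.nd (nat_lit 94) (nat_lit 0) (nat_lit 0) (XT.lf (nat_lit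 0) (nat_lit 2537938620) (nat_lit 420) (nat_lit 6479130471) (nat_lit 84) (nat_lit 8441351080) (nat_lit 36) (nat_lit 5) (nat_lit 41) (nat_lit 5) (nat_lit 37) (nat_lit 5) (nat_lit 359) (nat_lit 316) (nat_lit 213)) (XT.lf (nat_lit 0) (nat_lit 3949399517) (nat_lit 420) (nat_lit 1419233005) (nat_lit 84) (nat_lit 12472529494) (nat_lit 36) (nat_lit 5) (nat_lit 41) (nat_lit 5) (nat_lit 37) (nat_lit 5) (nat_lit 360) (nat_lit 316) (nat_lit 212))) (XT.nd (nat_lit 94) (nat_lit 0) (nat_lit 0) (XT.lf (nat_lit 0) (nat_lit 3863438804) (nat_lit 336) (nat_lit 1569071876) (nat_lit 420) (nat_lit 12802456945) (nat_lit 32) (nat_lit 5) (nat_lit 36) (nat_lit 5) (nat_lit 37) (nat_lit 5) (nat_lit 361) (nat_lit 316) (nat_lit 211)) (XT.lf (nat_lit 0) (nat_lit 6989609063) (nat_lit 420) (nat_lit 9336173009) (nat_lit 84) (nat_lit 2314392402) (nat_lit 32) (nat_lit 5) (nat_lit 37) (nat_lit 5) (nat_lit 33) (nat_lit 5) (nat_lit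 362) (nat_lit 316) (nat_lit 210)))) (XT.nd (nat_lit 188) (nat_lit 0) (nat_lit 0) (XT.nd (nat_lit 94) (nat_lit 252) (nat_lit 0) (XT.lf (nat_lit 0) (nat_lit 8601083801) (nat_lit 420) (nat_lit 4172568086) (nat_lit 84) (nat_lit 6284161301) (nat_lit 32) (nat_lit 5) (nat_lit 37) (nat_lit 5) (nat_lit 33) (nat_lit 5) (nat_lit 363) (nat_lit 316) (nat_lit 209)) (XT.lf (nat_lit 0) (nat_lit 1163098190) (nat_lit 252) (nat_lit 9101311455) (nat_lit 336) (nat_lit 9223988251) (nat_lit 29) (nat_lit 5) (nat_lit 32) (nat_lit 5) (nat_lit 33) (nat_lit 5) (nat_lit 364) (nat_lit 316) (nat_lit 208))) (XT.nd (nat_lit 94) (nat_lit 0) (nat_lit 0) (XT.lf (nat_lit 0) (nat_lit 6741298002) (nat_lit 252) (nat_lit 5272088514) (nat_lit 336) (nat_lit 7917943700) (nat_lit 29) (nat_lit 5) (nat_lit 32) (nat_lit 5) (nat_lit 33) (nat_lit 5) (nat_lit 365) (nat_lit 316) (nat_lit 207)) (XT.nd (nat_lit 94) (nat_lit 0) (nat_lit 0)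 (XT.lf (nat_lit 0) (nat_lit 12481434256) (nat_lit 252) (nat_lit 1325966880) (nat_lit 336) (nat_lit 6580931417) (nat_lit 29) (nat_lit 5) (nat_lit 32) (nat_lit 5) (nat_lit 33) (nat_lit 5) (nat_lit 366) (nat_lit 316) (nat_lit 206)) (XT.lf (nat_lit 0) (nat_lit 15675314112) (nat_lit 336) (nat_lit 2498161917) (nat_lit 84) (nat_lit 2685512011) (nat_lit 29) (nat_lit 5) (nat_lit 33) (nat_lit 5) (nat_lit 30) (nat_lit 5) (nat_lit 367) (nat_lit 316) (nat_lit 205))))))) (XT.nd (nat_lit 51230) (nat_lit 0) (nat_lit 5964) (XT.nd (nat_lit 376) (nat_lit 252) (nat_lit 0) (XT.nd (nat_lit 188) (nat_lit 84) (nat_lit 0) (XT.nd (nat_lit 94) (nat_lit 0) (nat_lit 0) (XT.lf (nat_lit 0) (nat_lit 3116842098) (nat_lit 252) (nat_lit 14520117653) (nat_lit 336) (nat_lit 3706214740) (nat_lit 26) (nat_lit 5) (nat_lit 29) (nat_lit 5) (nat_lit 30) (nat_lit 5) (nat_lit 368) (nat_lit 316) (nat_lit 204)) (XT.lf (nat_lit 0) (nat_lit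 8948339578) (nat_lit 252) (nat_lit 10728654616) (nat_lit 336) (nat_lit 2164881363) (nat_lit 26) (nat_lit 5) (nat_lit 29) (nat_lit 5) (nat_lit 30) (nat_lit 5) (nat_lit 369) (nat_lit 316) (nat_lit 203))) (XT.nd (nat_lit 94) (nat_lit 84) (nat_lit 0) (XT.lf (nat_lit 0) (nat_lit 14950398757) (nat_lit 252) (nat_lit 6821628566) (nat_lit 336) (nat_lit 584312800) (nat_lit 26) (nat_lit 5) (nat_lit 29) (nat_lit 5) (nat_lit 30) (nat_lit 5) (nat_lit 370) (nat_lit 316) (nat_lit 202)) (XT.lf (nat_lit 0) (nat_lit 1016071685) (nat_lit 336) (nat_lit 1768720355) (nat_lit 84) (nat_lit 20101936792) (nat_lit 25) (nat_lit 5) (nat_lit 29) (nat_lit 5) (nat_lit 26) (nat_lit 5) (nat_lit 371) (nat_lit 316) (nat_lit 201)))) (XT.nd (nat_lit 50572) (nat_lit 0) (nat_lit 6804) (XT.nd (nat_lit 94) (nat_lit 0) (nat_lit 0) (XT.lf (nat_lit 0) (nat_lit 2700947807) (nat_lit 336) (nat_lit 19336243804) (nat_lit 84) (nat_lit 1394769212)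 (nat_lit 22) (nat_lit 5) (nat_lit 26) (nat_lit 5) (nat_lit 23) (nat_lit 5) (nat_lit 372) (nat_lit 316) (nat_lit 200)) (XT.lf (nat_lit 0) (nat_lit 4477430492) (nat_lit 336) (nat_lit 13852724752) (nat_lit 84) (nat_lit 5662761830) (nat_lit 22) (nat_lit 5) (nat_lit 26) (nat_lit 5) (nat_lit 23) (nat_lit 5) (nat_lit 373) (nat_lit 316) (nat_lit 199))) (XT.nd (nat_lit 94) (nat_lit 0) (nat_lit 0) (XT.lf (nat_lit 0) (nat_lit 1557827159) (nat_lit 0) (nat_lit 1557827159) (nat_lit 756) (nat_lit 1179055148) (nat_lit 103) (nat_lit 5) (nat_lit 103) (nat_lit 3) (nat_lit 112) (nat_lit 3) (nat_lit 317) (nat_lit 317) (nat_lit 254)) (XT.nd (nat_lit 94) (nat_lit 0) (nat_lit 0) (XT.lf (nat_lit 0) (nat_lit 6066461004) (nat_lit 0) (nat_lit 1028107053) (nat_lit 756) (nat_lit 1597993723) (nat_lit 103) (nat_lit 5) (nat_lit 103) (nat_lit 3) (nat_lit 112) (nat_lit 3) (nat_lit 318) (nat_lit 317) (nat_lit 253)) (XT.lf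 (nat_lit 84) (nat_lit 287676332) (nat_lit 0) (nat_lit 7680177402) (nat_lit 840) (nat_lit 831817986) (nat_lit 104) (nat_lit 5) (nat_lit 103) (nat_lit 5) (nat_lit 113) (nat_lit 5) (nat_lit 319) (nat_lit 317) (nat_lit 252)))))) (XT.nd (nat_lit 376) (nat_lit 0) (nat_lit 84) (XT.nd (nat_lit 188) (nat_lit 0) (nat_lit 0) (XT.nd (nat_lit 94) (nat_lit 840) (nat_lit 0) (XT.lf (nat_lit 84) (nat_lit 3320082732) (nat_lit 0) (nat_lit 5555967227) (nat_lit 840) (nat_lit 34052457) (nat_lit 104) (nat_lit 5) (nat_lit 103) (nat_lit 5) (nat_lit 113) (nat_lit 5) (nat_lit 320) (nat_lit 317) (nat_lit 251)) (XT.lf (nat_lit 0) (nat_lit 742950120) (nat_lit 840) (nat_lit 2602260079) (nat_lit 924) (nat_lit 5679650588) (nat_lit 93) (nat_lit 5) (nat_lit 103) (nat_lit 5) (nat_lit 104) (nat_lit 5) (nat_lit 321) (nat_lit 317) (nat_lit 250))) (XT.nd (nat_lit 94) (nat_lit 0) (nat_lit 84) (XT.lf (nat_lit 84) (nat_lit 470791745)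 (nat_lit 0) (nat_lit 1048492957) (nat_lit 924) (nat_lit 7624848699) (nat_lit 94) (nat_lit 5) (nat_lit 93) (nat_lit 5) (nat_lit 104) (nat_lit 5) (nat_lit 322) (nat_lit 317) (nat_lit 249)) (XT.lf (nat_lit 0) (nat_lit 2332314561) (nat_lit 840) (nat_lit 5602852226) (nat_lit 924) (nat_lit 1331760555) (nat_lit 94) (nat_lit 5) (nat_lit 104) (nat_lit 5) (nat_lit 105) (nat_lit 5) (nat_lit 323) (nat_lit 317) (nat_lit 248)))) (XT.nd (nat_lit 188) (nat_lit 0) (nat_lit 0) (XT.nd (nat_lit 94) (nat_lit 0) (nat_lit 0) (XT.lf (nat_lit 0) (nat_lit 3154210862) (nat_lit 840) (nat_lit 2464873958) (nat_lit 924) (nat_lit 3775158434) (nat_lit 94) (nat_lit 5) (nat_lit 104) (nat_lit 5) (nat_lit 105) (nat_lit 5) (nat_lit 324) (nat_lit 317) (nat_lit 247)) (XT.lf (nat_lit 84) (nat_lit 769421378) (nat_lit 0) (nat_lit 3213549896) (nat_lit 924) (nat_lit 5543314356) (nat_lit 95) (nat_lit 5) (nat_lit 94) (nat_lit 5) (nat_lit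 105) (nat_lit 5) (nat_lit 325) (nat_lit 317) (nat_lit 246))) (XT.nd (nat_lit 94) (nat_lit 0) (nat_lit 84) (XT.lf (nat_lit 84) (nat_lit 4139938185) (nat_lit 0) (nat_lit 697593422) (nat_lit 924) (nat_lit 4825082877) (nat_lit 95) (nat_lit 5) (nat_lit 94) (nat_lit 5) (nat_lit 105) (nat_lit 5) (nat_lit 326) (nat_lit 317) (nat_lit 245)) (XT.nd (nat_lit 94) (nat_lit 0) (nat_lit 0) (XT.lf (nat_lit 0) (nat_lit 5712635585) (nat_lit 840) (nat_lit 2223897028) (nat_lit 924) (nat_lit 1867011913) (nat_lit 95) (nat_lit 5) (nat_lit 105) (nat_lit 5) (nat_lit 106) (nat_lit 5) (nat_lit 327) (nat_lit 317) (nat_lit 244)) (XT.lf (nat_lit 84) (nat_lit 1177381709) (nat_lit 0) (nat_lit 5432285237) (nat_lit 924) (nat_lit 3339522564) (nat_lit 96) (nat_lit 5) (nat_lit 95) (nat_lit 5) (nat_lit 106) (nat_lit 5) (nat_lit 328) (nat_lit 317) (nat_lit 243))))))))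
noncomputable def xc88 : XT := (XT.nd (nat_lit 1598) (nat_lit 2352) (nat_lit 0) (XT.nd (nat_lit 752) (nat_lit 2100) (nat_lit 0) (XT.nd (nat_lit 376) (nat_lit 840) (nat_lit 0) (XT.nd (nat_lit 188) (nat_lit 0) (nat_lit 84) (XT.nd (nat_lit 94) (nat_lit 0) (nat_lit 0) (XT.lf (nat_lit 84) (nat_lit 4715061492) (nat_lit 0) (nat_lit 2819203901) (nat_lit 924) (nat_lit 2565270885) (nat_lit 96) (nat_lit 5) (nat_lit 95) (nat_lit 5) (nat_lit 106) (nat_lit 5) (nat_lit 329) (nat_lit 317) (nat_lit 242)) (XT.lf (nat_lit 84) (nat_lit 8346711924) (nat_lit 0) (nat_lit 118065865) (nat_lit 924) (nat_lit 1790645146) (nat_lit 96) (nat_lit 5) (nat_lit 95) (nat_lit 5) (nat_lit 106) (nat_lit 5) (nat_lit 330) (nat_lit 317) (nat_lit 241))) (XT.nd (nat_lit 94) (nat_lit 0) (nat_lit 0) (XT.lf (nat_lit 84) (nat_lit 1665761782) (nat_lit 0) (nat_lit 7779357156) (nat_lit 924) (nat_lit 970541374) (nat_lit 97) (nat_lit 5) (nat_lit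 96) (nat_lit 5) (nat_lit 107) (nat_lit 5) (nat_lit 331) (nat_lit 317) (nat_lit 240)) (XT.lf (nat_lit 84) (nat_lit 5374292016) (nat_lit 0) (nat_lit 5081183079) (nat_lit 924) (nat_lit 125565225) (nat_lit 97) (nat_lit 5) (nat_lit 96) (nat_lit 5) (nat_lit 107) (nat_lit 5) (nat_lit 332) (nat_lit 317) (nat_lit 239)))) (XT.nd (nat_lit 188) (nat_lit 0) (nat_lit 84) (XT.nd (nat_lit 94) (nat_lit 0) (nat_lit 84) (XT.lf (nat_lit 0) (nat_lit 709366535) (nat_lit 924) (nat_lit 1577249069) (nat_lit 1008) (nat_lit 8465513859) (nat_lit 85) (nat_lit 5) (nat_lit 96) (nat_lit 5) (nat_lit 97) (nat_lit 5) (nat_lit 333) (nat_lit 317) (nat_lit 238)) (XT.lf (nat_lit 0) (nat_lit 1574922922) (nat_lit 924) (nat_lit 8742742109) (nat_lit 84) (nat_lit 610738983) (nat_lit 86) (nat_lit 5) (nat_lit 97) (nat_lit 5) (nat_lit 87) (nat_lit 5) (nat_lit 334) (nat_lit 317) (nat_lit 237))) (XT.nd (nat_lit 94) (nat_lit 0) (nat_lit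 0) (XT.lf (nat_lit 0) (nat_lit 2487263183) (nat_lit 924) (nat_lit 5050792674) (nat_lit 84) (nat_lit 3571613540) (nat_lit 86) (nat_lit 5) (nat_lit 97) (nat_lit 5) (nat_lit 87) (nat_lit 5) (nat_lit 335) (nat_lit 317) (nat_lit 236)) (XT.lf (nat_lit 0) (nat_lit 3408422659) (nat_lit 924) (nat_lit 1260168605) (nat_lit 84) (nat_lit 6628706571) (nat_lit 86) (nat_lit 5) (nat_lit 97) (nat_lit 5) (nat_lit 87) (nat_lit 5) (nat_lit 336) (nat_lit 317) (nat_lit 235))))) (XT.nd (nat_lit 376) (nat_lit 588) (nat_lit 0) (XT.nd (nat_lit 188) (nat_lit 672) (nat_lit 0) (XT.nd (nat_lit 94) (nat_lit 0) (nat_lit 0) (XT.lf (nat_lit 0) (nat_lit 2686796312) (nat_lit 924) (nat_lit 1679117005) (nat_lit 1008) (nat_lit 7124724648) (nat_lit 75) (nat_lit 5) (nat_lit 86) (nat_lit 5) (nat_lit 87) (nat_lit 5) (nat_lit 337) (nat_lit 317) (nat_lit 234)) (XT.lf (nat_lit 0) (nat_lit 5361864667) (nat_lit 1008) (nat_lit 4936668441)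 (nat_lit 84) (nat_lit 1391298543) (nat_lit 75) (nat_lit 5) (nat_lit 87) (nat_lit 5) (nat_lit 76) (nat_lit 5) (nat_lit 338) (nat_lit 317) (nat_lit 233))) (XT.nd (nat_lit 94) (nat_lit 672) (nat_lit 0) (XT.lf (nat_lit 0) (nat_lit 6387990146) (nat_lit 1008) (nat_lit 982192528) (nat_lit 84) (nat_lit 4525167549) (nat_lit 75) (nat_lit 5) (nat_lit 87) (nat_lit 5) (nat_lit 76) (nat_lit 5) (nat_lit 339) (nat_lit 317) (nat_lit 232)) (XT.lf (nat_lit 0) (nat_lit 3143258777) (nat_lit 672) (nat_lit 4316511903) (nat_lit 756) (nat_lit 4647164311) (nat_lit 67) (nat_lit 5) (nat_lit 75) (nat_lit 5) (nat_lit 76) (nat_lit 5) (nat_lit 340) (nat_lit 317) (nat_lit 231)))) (XT.nd (nat_lit 188) (nat_lit 588) (nat_lit 0) (XT.nd (nat_lit 94) (nat_lit 0) (nat_lit 0) (XT.lf (nat_lit 0) (nat_lit 7402629304) (nat_lit 672) (nat_lit 1155437361) (nat_lit 756) (nat_lit 3767340802) (nat_lit 67) (nat_lit 5) (nat_lit 75) (nat_lit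 5) (nat_lit 76) (nat_lit 5) (nat_lit 341) (nat_lit 317) (nat_lit 230)) (XT.lf (nat_lit 0) (nat_lit 9694847168) (nat_lit 756) (nat_lit 792475368) (nat_lit 84) (nat_lit 2063309452) (nat_lit 67) (nat_lit 5) (nat_lit 76) (nat_lit 5) (nat_lit 68) (nat_lit 5) (nat_lit 342) (nat_lit 317) (nat_lit 229))) (XT.nd (nat_lit 94) (nat_lit 84) (nat_lit 0) (XT.lf (nat_lit 0) (nat_lit 3510228737) (nat_lit 504) (nat_lit 7387341548) (nat_lit 588) (nat_lit 1884429846) (nat_lit 61) (nat_lit 5) (nat_lit 67) (nat_lit 5) (nat_lit 68) (nat_lit 5) (nat_lit 343) (nat_lit 317) (nat_lit 228)) (XT.nd (nat_lit 94) (nat_lit 84) (nat_lit 0) (XT.lf (nat_lit 0) (nat_lit 7948720020) (nat_lit 504) (nat_lit 4181529098) (nat_lit 588) (nat_lit 890628786) (nat_lit 61) (nat_lit 5) (nat_lit 67) (nat_lit 5) (nat_lit 68) (nat_lit 5) (nat_lit 344) (nat_lit 317) (nat_lit 227)) (XT.lf (nat_lit 0) (nat_lit 115889935) (nat_lit 588) (nat_lit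 758069264) (nat_lit 84) (nat_lit 12393741111) (nat_lit 60) (nat_lit 5) (nat_lit 67) (nat_lit 5) (nat_lit 61) (nat_lit 5) (nat_lit 345) (nat_lit 317) (nat_lit 226))))))) (XT.nd (nat_lit 752) (nat_lit 1176) (nat_lit 0) (XT.nd (nat_lit 376) (nat_lit 336) (nat_lit 0) (XT.nd (nat_lit 188) (nat_lit 420) (nat_lit 0) (XT.nd (nat_lit 94) (nat_lit 0) (nat_lit 0) (XT.lf (nat_lit 0) (nat_lit 1182945679) (nat_lit 504) (nat_lit 9804855083) (nat_lit 84) (nat_lit 2532708569) (nat_lit 55) (nat_lit 5) (nat_lit 61) (nat_lit 5) (nat_lit 56) (nat_lit 5) (nat_lit 346) (nat_lit 317) (nat_lit 225)) (XT.lf (nat_lit 0) (nat_lit 2285404163) (nat_lit 504) (nat_lit 5460164301) (nat_lit 84) (nat_lit 6035612300) (nat_lit 55) (nat_lit 5) (nat_lit 61) (nat_lit 5) (nat_lit 56) (nat_lit 5) (nat_lit 347) (nat_lit 317) (nat_lit 224))) (XT.nd (nat_lit 94) (nat_lit 420) (nat_lit 0) (XT.lf (nat_lit 0) (nat_lit 3407869946) (nat_lit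 504) (nat_lit 994724623) (nat_lit 84) (nat_lit 9647872132) (nat_lit 55) (nat_lit 5) (nat_lit 61) (nat_lit 5) (nat_lit 56) (nat_lit 5) (nat_lit 348) (nat_lit 317) (nat_lit 223)) (XT.lf (nat_lit 0) (nat_lit 3669559657) (nat_lit 420) (nat_lit 918232112) (nat_lit 504) (nat_lit 9739697897) (nat_lit 50) (nat_lit 5) (nat_lit 55) (nat_lit 5) (nat_lit 56) (nat_lit 5) (nat_lit 349) (nat_lit 317) (nat_lit 222)))) (XT.nd (nat_lit 188) (nat_lit 336) (nat_lit 0) (XT.nd (nat_lit 94) (nat_lit 0) (nat_lit 0) (XT.lf (nat_lit 0) (nat_lit 5827846509) (nat_lit 504) (nat_lit 6153775755) (nat_lit 84) (nat_lit 2630836718) (nat_lit 50) (nat_lit 5) (nat_lit 56) (nat_lit 5) (nat_lit 51) (nat_lit 5) (nat_lit 350) (nat_lit 317) (nat_lit 221)) (XT.lf (nat_lit 0) (nat_lit 7102677471) (nat_lit 504) (nat_lit 1532854128) (nat_lit 84) (nat_lit 6270930563) (nat_lit 50) (nat_lit 5) (nat_lit 56) (nat_lit 5) (nat_lit 51) (nat_lit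 5) (nat_lit 351) (nat_lit 317) (nat_lit 220))) (XT.nd (nat_lit 94) (nat_lit 0) (nat_lit 0) (XT.lf (nat_lit 0) (nat_lit 3284424873) (nat_lit 336) (nat_lit 5152520982) (nat_lit 420) (nat_lit 6772099731) (nat_lit 46) (nat_lit 5) (nat_lit 50) (nat_lit 5) (nat_lit 51) (nat_lit 5) (nat_lit 352) (nat_lit 317) (nat_lit 219)) (XT.lf (nat_lit 0) (nat_lit 8270602459) (nat_lit 336) (nat_lit 1545562207) (nat_lit 420) (nat_lit 5704814279) (nat_lit 46) (nat_lit 5) (nat_lit 50) (nat_lit 5) (nat_lit 51) (nat_lit 5) (nat_lit 353) (nat_lit 317) (nat_lit 218))))) (XT.nd (nat_lit 376) (nat_lit 756) (nat_lit 0) (XT.nd (nat_lit 188) (nat_lit 0) (nat_lit 0) (XT.nd (nat_lit 94) (nat_lit 420) (nat_lit 0) (XT.lf (nat_lit 0) (nat_lit 11247654231) (nat_lit 420) (nat_lit 2465779952) (nat_lit 84) (nat_lit 2128931733) (nat_lit 46) (nat_lit 5) (nat_lit 51) (nat_lit 5) (nat_lit 47) (nat_lit 5) (nat_lit 354) (nat_lit 317)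 (nat_lit 217)) (XT.lf (nat_lit 0) (nat_lit 2488876805) (nat_lit 420) (nat_lit 10263459159) (nat_lit 504) (nat_lit 3420562901) (nat_lit 41) (nat_lit 5) (nat_lit 46) (nat_lit 5) (nat_lit 47) (nat_lit 5) (nat_lit 355) (nat_lit 317) (nat_lit 216))) (XT.nd (nat_lit 94) (nat_lit 0) (nat_lit 0) (XT.lf (nat_lit 0) (nat_lit 7636928601) (nat_lit 420) (nat_lit 6681017983) (nat_lit 504) (nat_lit 2195362939) (nat_lit 41) (nat_lit 5) (nat_lit 46) (nat_lit 5) (nat_lit 47) (nat_lit 5) (nat_lit 356) (nat_lit 317) (nat_lit 215)) (XT.lf (nat_lit 0) (nat_lit 12932472467) (nat_lit 420) (nat_lit 2988509129) (nat_lit 504) (nat_lit 943707470) (nat_lit 41) (nat_lit 5) (nat_lit 46) (nat_lit 5) (nat_lit 47) (nat_lit 5) (nat_lit 357) (nat_lit 317) (nat_lit 214)))) (XT.nd (nat_lit 188) (nat_lit 336) (nat_lit 0) (XT.nd (nat_lit 94) (nat_lit 0) (nat_lit 0) (XT.lf (nat_lit 0) (nat_lit 348712269) (nat_lit 420) (nat_lit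 16061772151) (nat_lit 84) (nat_lit 816160405) (nat_lit 36) (nat_lit 5) (nat_lit 41) (nat_lit 5) (nat_lit 37) (nat_lit 5) (nat_lit 358) (nat_lit 317) (nat_lit 213)) (XT.lf (nat_lit 0) (nat_lit 1722869310) (nat_lit 420) (nat_lit 11148145058) (nat_lit 84) (nat_lit 4726673581) (nat_lit 36) (nat_lit 5) (nat_lit 41) (nat_lit 5) (nat_lit 37) (nat_lit 5) (nat_lit 359) (nat_lit 317) (nat_lit 212))) (XT.nd (nat_lit 94) (nat_lit 336) (nat_lit 0) (XT.lf (nat_lit 0) (nat_lit 3129194406) (nat_lit 420) (nat_lit 6094117685) (nat_lit 84) (nat_lit 8757308184) (nat_lit 36) (nat_lit 5) (nat_lit 41) (nat_lit 5) (nat_lit 37) (nat_lit 5) (nat_lit 360) (nat_lit 317) (nat_lit 211)) (XT.nd (nat_lit 94) (nat_lit 336) (nat_lit 0) (XT.lf (nat_lit 0) (nat_lit 4568998399) (nat_lit 420) (nat_lit 894979149) (nat_lit 84) (nat_lit 12911821187) (nat_lit 36) (nat_lit 5) (nat_lit 41) (nat_lit 5) (nat_lit 37) (nat_lit 5) (nat_lit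 361) (nat_lit 317) (nat_lit 210)) (XT.lf (nat_lit 0) (nat_lit 4545702464) (nat_lit 336) (nat_lit 1543014804) (nat_lit 420) (nat_lit 12693476499) (nat_lit 32) (nat_lit 5) (nat_lit 36) (nat_lit 5) (nat_lit 37) (nat_lit 5) (nat_lit 362) (nat_lit 317) (nat_lit 209))))))))
noncomputable def xc89 : XT := (XT.nd (nat_lit 52076) (nat_lit 0) (nat_lit 4452) (XT.nd (nat_lit 752) (nat_lit 336) (nat_lit 0) (XT.nd (nat_lit 376) (nat_lit 252) (nat_lit 0) (XT.nd (nat_lit 188) (nat_lit 252) (nat_lit 0) (XT.nd (nat_lit 94) (nat_lit 0) (nat_lit 0) (XT.lf (nat_lit 0) (nat_lit 7680137355) (nat_lit 420) (nat_lit 9063214262) (nat_lit 84) (nat_lit 2457131093) (nat_lit 32) (nat_lit 5) (nat_lit 37) (nat_lit 5) (nat_lit 33) (nat_lit 5) (nat_lit 363) (nat_lit 317) (nat_lit 208)) (XT.lf (nat_lit 0) (nat_lit 9327320125) (nat_lit 420) (nat_lit 3756447173) (nat_lit 84) (nat_lit 6547828233) (nat_lit 32) (nat_lit 5) (nat_lit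 37) (nat_lit 5) (nat_lit 33) (nat_lit 5) (nat_lit 364) (nat_lit 317) (nat_lit 207))) (XT.nd (nat_lit 94) (nat_lit 0) (nat_lit 0) (XT.lf (nat_lit 0) (nat_lit 1739102359) (nat_lit 252) (nat_lit 9294643778) (nat_lit 336) (nat_lit 9042127632) (nat_lit 29) (nat_lit 5) (nat_lit 32) (nat_lit 5) (nat_lit 33) (nat_lit 5) (nat_lit 365) (nat_lit 317) (nat_lit 206)) (XT.lf (nat_lit 0) (nat_lit 7473991261) (nat_lit 252) (nat_lit 5349385205) (nat_lit 336) (nat_lit 7709661589) (nat_lit 29) (nat_lit 5) (nat_lit 32) (nat_lit 5) (nat_lit 33) (nat_lit 5) (nat_lit 366) (nat_lit 317) (nat_lit 205)))) (XT.nd (nat_lit 188) (nat_lit 252) (nat_lit 0) (XT.nd (nat_lit 94) (nat_lit 0) (nat_lit 0) (XT.lf (nat_lit 0) (nat_lit 13376324791) (nat_lit 252) (nat_lit 1283523790) (nat_lit 336) (nat_lit 6344844883) (nat_lit 29) (nat_lit 5) (nat_lit 32) (nat_lit 5) (nat_lit 33) (nat_lit 5) (nat_lit 367) (nat_lit 317) (nat_lit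 204)) (XT.lf (nat_lit 0) (nat_lit 16573709390) (nat_lit 336) (nat_lit 2068510210) (nat_lit 84) (nat_lit 2848166139) (nat_lit 29) (nat_lit 5) (nat_lit 33) (nat_lit 5) (nat_lit 30) (nat_lit 5) (nat_lit 368) (nat_lit 317) (nat_lit 203))) (XT.nd (nat_lit 94) (nat_lit 0) (nat_lit 0) (XT.lf (nat_lit 0) (nat_lit 3715425051) (nat_lit 252) (nat_lit 14873318686) (nat_lit 336) (nat_lit 3401141829) (nat_lit 26) (nat_lit 5) (nat_lit 29) (nat_lit 5) (nat_lit 30) (nat_lit 5) (nat_lit 369) (nat_lit 317) (nat_lit 202)) (XT.lf (nat_lit 0) (nat_lit 9712606047) (nat_lit 252) (nat_lit 10967234554) (nat_lit 336) (nat_lit 1824654598) (nat_lit 26) (nat_lit 5) (nat_lit 29) (nat_lit 5) (nat_lit 30) (nat_lit 5) (nat_lit 370) (nat_lit 317) (nat_lit 201))))) (XT.nd (nat_lit 50854) (nat_lit 0) (nat_lit 5964) (XT.nd (nat_lit 188) (nat_lit 252) (nat_lit 0) (XT.nd (nat_lit 94) (nat_lit 84) (nat_lit 0) (XT.lf (nat_lit 0)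 (nat_lit 15886089966) (nat_lit 252) (nat_lit 6941917329) (nat_lit 336) (nat_lit 207336209) (nat_lit 26) (nat_lit 5) (nat_lit 29) (nat_lit 5) (nat_lit 30) (nat_lit 5) (nat_lit 371) (nat_lit 317) (nat_lit 200)) (XT.lf (nat_lit 0) (nat_lit 1423059819) (nat_lit 336) (nat_lit 1355701349) (nat_lit 84) (nat_lit 20803717496) (nat_lit 25) (nat_lit 5) (nat_lit 29) (nat_lit 5) (nat_lit 26) (nat_lit 5) (nat_lit 372) (nat_lit 317) (nat_lit 199))) (XT.nd (nat_lit 50572) (nat_lit 0) (nat_lit 6804) (XT.lf (nat_lit 0) (nat_lit 3154406702) (nat_lit 336) (nat_lit 19460022150) (nat_lit 84) (nat_lit 1530425667) (nat_lit 22) (nat_lit 5) (nat_lit 26) (nat_lit 5) (nat_lit 23) (nat_lit 5) (nat_lit 373) (nat_lit 317) (nat_lit 198)) (XT.lf (nat_lit 0) (nat_lit 1985654117) (nat_lit 0) (nat_lit 1985654117) (nat_lit 756) (nat_lit 426841612) (nat_lit 103) (nat_lit 5) (nat_lit 103) (nat_lit 3) (nat_lit 112) (nat_lit 3)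 (nat_lit 318) (nat_lit 318) (nat_lit 252)))) (XT.nd (nat_lit 188) (nat_lit 0) (nat_lit 0) (XT.nd (nat_lit 94) (nat_lit 840) (nat_lit 0) (XT.lf (nat_lit 0) (nat_lit 6990766331) (nat_lit 0) (nat_lit 1796223408) (nat_lit 756) (nat_lit 117435997) (nat_lit 103) (nat_lit 5) (nat_lit 103) (nat_lit 3) (nat_lit 112) (nat_lit 3) (nat_lit 319) (nat_lit 318) (nat_lit 251)) (XT.lf (nat_lit 0) (nat_lit 614653228) (nat_lit 840) (nat_lit 7933149229) (nat_lit 924) (nat_lit 468568522) (nat_lit 93) (nat_lit 5) (nat_lit 103) (nat_lit 5) (nat_lit 104) (nat_lit 5) (nat_lit 320) (nat_lit 318) (nat_lit 250))) (XT.nd (nat_lit 94) (nat_lit 0) (nat_lit 0) (XT.lf (nat_lit 0) (nat_lit 1376829873) (nat_lit 840) (nat_lit 4953834496) (nat_lit 924) (nat_lit 2801002174) (nat_lit 93) (nat_lit 5) (nat_lit 103) (nat_lit 5) (nat_lit 104) (nat_lit 5) (nat_lit 321) (nat_lit 318) (nat_lit 249)) (XT.nd (nat_lit 94) (nat_lit 0)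 (nat_lit 0) (XT.lf (nat_lit 0) (nat_lit 2134779447) (nat_lit 840) (nat_lit 1898131381) (nat_lit 924) (nat_lit 5218704307) (nat_lit 93) (nat_lit 5) (nat_lit 103) (nat_lit 5) (nat_lit 104) (nat_lit 5) (nat_lit 322) (nat_lit 318) (nat_lit 248)) (XT.lf (nat_lit 84) (nat_lit 1262239667) (nat_lit 0) (nat_lit 1639490344) (nat_lit 924) (nat_lit 6474210377) (nat_lit 94) (nat_lit 5) (nat_lit 93) (nat_lit 5) (nat_lit 104) (nat_lit 5) (nat_lit 323) (nat_lit 318) (nat_lit 247))))))) (XT.nd (nat_lit 752) (nat_lit 1596) (nat_lit 0) (XT.nd (nat_lit 376) (nat_lit 0) (nat_lit 84) (XT.nd (nat_lit 188) (nat_lit 0) (nat_lit 0) (XT.nd (nat_lit 94) (nat_lit 0) (nat_lit 0) (XT.lf (nat_lit 0) (nat_lit 3694438963) (nat_lit 840) (nat_lit 4967564062) (nat_lit 924) (nat_lit 842257844) (nat_lit 94) (nat_lit 5) (nat_lit 104) (nat_lit 5) (nat_lit 105) (nat_lit 5) (nat_lit 324) (nat_lit 318) (nat_lit 246)) (XT.lf (nat_lit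 0) (nat_lit 4503031797) (nat_lit 840) (nat_lit 1756632691) (nat_lit 924) (nat_lit 3377360714) (nat_lit 94) (nat_lit 5) (nat_lit 104) (nat_lit 5) (nat_lit 105) (nat_lit 5) (nat_lit 325) (nat_lit 318) (nat_lit 245))) (XT.nd (nat_lit 94) (nat_lit 0) (nat_lit 0) (XT.lf (nat_lit 84) (nat_lit 1569981900) (nat_lit 0) (nat_lit 3757590774) (nat_lit 924) (nat_lit 4446805838) (nat_lit 95) (nat_lit 5) (nat_lit 94) (nat_lit 5) (nat_lit 105) (nat_lit 5) (nat_lit 326) (nat_lit 318) (nat_lit 244)) (XT.lf (nat_lit 84) (nat_lit 5021630739) (nat_lit 0) (nat_lit 1150276850) (nat_lit 924) (nat_lit 3744445836) (nat_lit 95) (nat_lit 5) (nat_lit 94) (nat_lit 5) (nat_lit 105) (nat_lit 5) (nat_lit 327) (nat_lit 318) (nat_lit 243)))) (XT.nd (nat_lit 188) (nat_lit 0) (nat_lit 0) (XT.nd (nat_lit 94) (nat_lit 0) (nat_lit 0) (XT.lf (nat_lit 0) (nat_lit 7034379426) (nat_lit 840) (nat_lit 1513562640) (nat_lit 924) (nat_lit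 1515215981) (nat_lit 95) (nat_lit 5) (nat_lit 105) (nat_lit 5) (nat_lit 106) (nat_lit 5) (nat_lit 328) (nat_lit 318) (nat_lit 242)) (XT.lf (nat_lit 84) (nat_lit 1985266276) (nat_lit 0) (nat_lit 5947187444) (nat_lit 924) (nat_lit 2281958983) (nat_lit 96) (nat_lit 5) (nat_lit 95) (nat_lit 5) (nat_lit 106) (nat_lit 5) (nat_lit 329) (nat_lit 318) (nat_lit 241))) (XT.nd (nat_lit 94) (nat_lit 0) (nat_lit 0) (XT.lf (nat_lit 84) (nat_lit 5609420187) (nat_lit 0) (nat_lit 3242682020) (nat_lit 924) (nat_lit 1518616998) (nat_lit 96) (nat_lit 5) (nat_lit 95) (nat_lit 5) (nat_lit 106) (nat_lit 5) (nat_lit 330) (nat_lit 318) (nat_lit 240)) (XT.lf (nat_lit 84) (nat_lit 9331155230) (nat_lit 0) (nat_lit 447703402) (nat_lit 924) (nat_lit 753839642) (nat_lit 96) (nat_lit 5) (nat_lit 95) (nat_lit 5) (nat_lit 106) (nat_lit 5) (nat_lit 331) (nat_lit 318) (nat_lit 239))))) (XT.nd (nat_lit 376) (nat_lit 840) (nat_lit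 0) (XT.nd (nat_lit 188) (nat_lit 0) (nat_lit 0) (XT.nd (nat_lit 94) (nat_lit 0) (nat_lit 0) (XT.lf (nat_lit 0) (nat_lit 62123811) (nat_lit 924) (nat_lit 8220436048) (nat_lit 1008) (nat_lit 2416408663) (nat_lit 85) (nat_lit 5) (nat_lit 96) (nat_lit 5) (nat_lit 97) (nat_lit 5) (nat_lit 332) (nat_lit 318) (nat_lit 238)) (XT.lf (nat_lit 0) (nat_lit 884393544) (nat_lit 924) (nat_lit 4599867463) (nat_lit 1008) (nat_lit 5386145654) (nat_lit 85) (nat_lit 5) (nat_lit 96) (nat_lit 5) (nat_lit 97) (nat_lit 5) (nat_lit 333) (nat_lit 318) (nat_lit 237))) (XT.nd (nat_lit 94) (nat_lit 0) (nat_lit 84) (XT.lf (nat_lit 0) (nat_lit 1712193956) (nat_lit 924) (nat_lit 882200238) (nat_lit 1008) (nat_lit 8453528760) (nat_lit 85) (nat_lit 5) (nat_lit 96) (nat_lit 5) (nat_lit 97) (nat_lit 5) (nat_lit 334) (nat_lit 318) (nat_lit 236)) (XT.lf (nat_lit 0) (nat_lit 2580191544) (nat_lit 924) (nat_lit 8238529923) (nat_lit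 84) (nat_lit 411910652) (nat_lit 86) (nat_lit 5) (nat_lit 97) (nat_lit 5) (nat_lit 87) (nat_lit 5) (nat_lit 335) (nat_lit 318) (nat_lit 235)))) (XT.nd (nat_lit 188) (nat_lit 924) (nat_lit 0) (XT.nd (nat_lit 94) (nat_lit 0) (nat_lit 0) (XT.lf (nat_lit 0) (nat_lit 3492056035) (nat_lit 924) (nat_lit 4455439806) (nat_lit 84) (nat_lit 3471119942) (nat_lit 86) (nat_lit 5) (nat_lit 97) (nat_lit 5) (nat_lit 87) (nat_lit 5) (nat_lit 336) (nat_lit 318) (nat_lit 234)) (XT.lf (nat_lit 0) (nat_lit 4413877838) (nat_lit 924) (nat_lit 569915267) (nat_lit 84) (nat_lit 6629333607) (nat_lit 86) (nat_lit 5) (nat_lit 97) (nat_lit 5) (nat_lit 87) (nat_lit 5) (nat_lit 337) (nat_lit 318) (nat_lit 233))) (XT.nd (nat_lit 94) (nat_lit 0) (nat_lit 0) (XT.lf (nat_lit 0) (nat_lit 3492021867) (nat_lit 924) (nat_lit 1889135609) (nat_lit 1008) (nat_lit 6432114853) (nat_lit 75) (nat_lit 5) (nat_lit 86) (nat_lit 5) (nat_lit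 87) (nat_lit 5) (nat_lit 338) (nat_lit 318) (nat_lit 232)) (XT.nd (nat_lit 94) (nat_lit 0) (nat_lit 0) (XT.lf (nat_lit 0) (nat_lit 6380006627) (nat_lit 1008) (nat_lit 4355391559) (nat_lit 84) (nat_lit 1284299492) (nat_lit 75) (nat_lit 5) (nat_lit 87) (nat_lit 5) (nat_lit 76) (nat_lit 5) (nat_lit 339) (nat_lit 318) (nat_lit 231)) (XT.lf (nat_lit 0) (nat_lit 7412326430) (nat_lit 1008) (nat_lit 300406158) (nat_lit 84) (nat_lit 4519832510) (nat_lit 75) (nat_lit 5) (nat_lit 87) (nat_lit 5) (nat_lit 76) (nat_lit 5) (nat_lit 340) (nat_lit 318) (nat_lit 230))))))))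
noncomputable def xc90 : XT := (XT.nd (nat_lit 1598) (nat_lit 1344) (nat_lit 0) (XT.nd (nat_lit 752) (nat_lit 1176) (nat_lit 0) (XT.nd (nat_lit 376) (nat_lit 504) (nat_lit 0) (XT.nd (nat_lit 188) (nat_lit 504) (nat_lit 0) (XT.nd (nat_lit 94) (nat_lit 0) (nat_lit 0) (XT.lf (nat_lit 0) (nat_lit 3945723404) (nat_lit 672) (nat_lit 4553757316) (nat_lit 756) (nat_lit 3951959831) (nat_lit 67) (nat_lit 5) (nat_lit 75) (nat_lit 5) (nat_lit 76) (nat_lit 5) (nat_lit 341) (nat_lit 318) (nat_lit 229)) (XT.lf (nat_lit 0) (nat_lit 8315935842) (nat_lit 672) (nat_lit 1291579435) (nat_lit 756) (nat_lit 3070096772) (nat_lit 67) (nat_lit 5) (nat_lit 75) (nat_lit 5) (nat_lit 76) (nat_lit 5) (nat_lit 342) (nat_lit 318) (nat_lit 228))) (XT.nd (nat_lit 94) (nat_lit 504) (nat_lit 0) (XT.lf (nat_lit 0) (nat_lit 10754992982) (nat_lit 756) (nat_lit 123828428) (nat_lit 84) (nat_lit 2031925565) (nat_lit 67) (nat_lit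 5) (nat_lit 76) (nat_lit 5) (nat_lit 68) (nat_lit 5) (nat_lit 343) (nat_lit 318) (nat_lit 227)) (XT.lf (nat_lit 0) (nat_lit 4305241339) (nat_lit 504) (nat_lit 7673726581) (nat_lit 588) (nat_lit 1170979193) (nat_lit 61) (nat_lit 5) (nat_lit 67) (nat_lit 5) (nat_lit 68) (nat_lit 5) (nat_lit 344) (nat_lit 318) (nat_lit 226)))) (XT.nd (nat_lit 188) (nat_lit 420) (nat_lit 0) (XT.nd (nat_lit 94) (nat_lit 84) (nat_lit 0) (XT.lf (nat_lit 0) (nat_lit 8860693396) (nat_lit 504) (nat_lit 4366808727) (nat_lit 588) (nat_lit 169578746) (nat_lit 61) (nat_lit 5) (nat_lit 67) (nat_lit 5) (nat_lit 68) (nat_lit 5) (nat_lit 345) (nat_lit 318) (nat_lit 225)) (XT.lf (nat_lit 0) (nat_lit 831001156) (nat_lit 588) (nat_lit 116602864) (nat_lit 84) (nat_lit 12704552632) (nat_lit 60) (nat_lit 5) (nat_lit 67) (nat_lit 5) (nat_lit 61) (nat_lit 5) (nat_lit 346) (nat_lit 318) (nat_lit 224))) (XT.nd (nat_lit 94) (nat_lit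 0) (nat_lit 0) (XT.lf (nat_lit 0) (nat_lit 1915890394) (nat_lit 504) (nat_lit 9423952402) (nat_lit 84) (nat_lit 2573576442) (nat_lit 55) (nat_lit 5) (nat_lit 61) (nat_lit 5) (nat_lit 56) (nat_lit 5) (nat_lit 347) (nat_lit 318) (nat_lit 223)) (XT.lf (nat_lit 0) (nat_lit 3031589616) (nat_lit 504) (nat_lit 4965168300) (nat_lit 84) (nat_lit 6186202128) (nat_lit 55) (nat_lit 5) (nat_lit 61) (nat_lit 5) (nat_lit 56) (nat_lit 5) (nat_lit 348) (nat_lit 318) (nat_lit 222))))) (XT.nd (nat_lit 376) (nat_lit 756) (nat_lit 0) (XT.nd (nat_lit 188) (nat_lit 0) (nat_lit 0) (XT.nd (nat_lit 94) (nat_lit 420) (nat_lit 0) (XT.lf (nat_lit 0) (nat_lit 4168545848) (nat_lit 504) (nat_lit 381272925) (nat_lit 84) (nat_lit 9911539918) (nat_lit 55) (nat_lit 5) (nat_lit 61) (nat_lit 5) (nat_lit 56) (nat_lit 5) (nat_lit 349) (nat_lit 318) (nat_lit 221)) (XT.lf (nat_lit 0) (nat_lit 4421081329) (nat_lit 420) (nat_lit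 950595198) (nat_lit 504) (nat_lit 9375838562) (nat_lit 50) (nat_lit 5) (nat_lit 55) (nat_lit 5) (nat_lit 56) (nat_lit 5) (nat_lit 350) (nat_lit 318) (nat_lit 220))) (XT.nd (nat_lit 94) (nat_lit 0) (nat_lit 0) (XT.lf (nat_lit 0) (nat_lit 6630841997) (nat_lit 504) (nat_lit 5702514921) (nat_lit 84) (nat_lit 2708688139) (nat_lit 50) (nat_lit 5) (nat_lit 56) (nat_lit 5) (nat_lit 51) (nat_lit 5) (nat_lit 351) (nat_lit 318) (nat_lit 219)) (XT.lf (nat_lit 0) (nat_lit 7926480498) (nat_lit 504) (nat_lit 957649151) (nat_lit 84) (nat_lit 6461736281) (nat_lit 50) (nat_lit 5) (nat_lit 56) (nat_lit 5) (nat_lit 51) (nat_lit 5) (nat_lit 352) (nat_lit 318) (nat_lit 218)))) (XT.nd (nat_lit 188) (nat_lit 420) (nat_lit 0) (XT.nd (nat_lit 94) (nat_lit 0) (nat_lit 0) (XT.lf (nat_lit 0) (nat_lit 4002660983) (nat_lit 336) (nat_lit 5287415587) (nat_lit 420) (nat_lit 6368245744) (nat_lit 46) (nat_lit 5) (nat_lit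 50) (nat_lit 5) (nat_lit 51) (nat_lit 5) (nat_lit 353) (nat_lit 318) (nat_lit 217)) (XT.lf (nat_lit 0) (nat_lit 9124875655) (nat_lit 336) (nat_lit 1569387782) (nat_lit 420) (nat_lit 5286329788) (nat_lit 46) (nat_lit 5) (nat_lit 50) (nat_lit 5) (nat_lit 51) (nat_lit 5) (nat_lit 354) (nat_lit 318) (nat_lit 216))) (XT.nd (nat_lit 94) (nat_lit 420) (nat_lit 0) (XT.lf (nat_lit 0) (nat_lit 12153108051) (nat_lit 420) (nat_lit 1941654977) (nat_lit 84) (nat_lit 2217820524) (nat_lit 46) (nat_lit 5) (nat_lit 51) (nat_lit 5) (nat_lit 47) (nat_lit 5) (nat_lit 355) (nat_lit 318) (nat_lit 215)) (XT.nd (nat_lit 94) (nat_lit 0) (nat_lit 0) (XT.lf (nat_lit 0) (nat_lit 3160515966) (nat_lit 420) (nat_lit 10533075207) (nat_lit 504) (nat_lit 2960217321) (nat_lit 41) (nat_lit 5) (nat_lit 46) (nat_lit 5) (nat_lit 47) (nat_lit 5) (nat_lit 356) (nat_lit 318) (nat_lit 214)) (XT.lf (nat_lit 0) (nat_lit 8450282486)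 (nat_lit 420) (nat_lit 6841038186) (nat_lit 504) (nat_lit 1714066106) (nat_lit 41) (nat_lit 5) (nat_lit 46) (nat_lit 5) (nat_lit 47) (nat_lit 5) (nat_lit 357) (nat_lit 318) (nat_lit 213))))))) (XT.nd (nat_lit 752) (nat_lit 588) (nat_lit 0) (XT.nd (nat_lit 376) (nat_lit 336) (nat_lit 0) (XT.nd (nat_lit 188) (nat_lit 0) (nat_lit 0) (XT.nd (nat_lit 94) (nat_lit 420) (nat_lit 0) (XT.lf (nat_lit 0) (nat_lit 13892650790) (nat_lit 420) (nat_lit 3035477496) (nat_lit 504) (nat_lit 440127208) (nat_lit 41) (nat_lit 5) (nat_lit 46) (nat_lit 5) (nat_lit 47) (nat_lit 5) (nat_lit 358) (nat_lit 318) (nat_lit 212)) (XT.lf (nat_lit 0) (nat_lit 872102039) (nat_lit 420) (nat_lit 15973821257) (nat_lit 84) (nat_lit 895736598) (nat_lit 36) (nat_lit 5) (nat_lit 41) (nat_lit 5) (nat_lit 37) (nat_lit 5) (nat_lit 359) (nat_lit 318) (nat_lit 211))) (XT.nd (nat_lit 94) (nat_lit 0) (nat_lit 0) (XT.lf (nat_lit 0) (nat_lit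 2273445756) (nat_lit 420) (nat_lit 10925487476) (nat_lit 84) (nat_lit 4925843740) (nat_lit 36) (nat_lit 5) (nat_lit 41) (nat_lit 5) (nat_lit 37) (nat_lit 5) (nat_lit 360) (nat_lit 318) (nat_lit 210)) (XT.lf (nat_lit 0) (nat_lit 3708418150) (nat_lit 420) (nat_lit 5731871338) (nat_lit 84) (nat_lit 9079845143) (nat_lit 36) (nat_lit 5) (nat_lit 41) (nat_lit 5) (nat_lit 37) (nat_lit 5) (nat_lit 361) (nat_lit 318) (nat_lit 209)))) (XT.nd (nat_lit 188) (nat_lit 0) (nat_lit 0) (XT.nd (nat_lit 94) (nat_lit 336) (nat_lit 0) (XT.lf (nat_lit 0) (nat_lit 5178356765) (nat_lit 420) (nat_lit 388131849) (nat_lit 84) (nat_lit 13361612771) (nat_lit 36) (nat_lit 5) (nat_lit 41) (nat_lit 5) (nat_lit 37) (nat_lit 5) (nat_lit 362) (nat_lit 318) (nat_lit 208)) (XT.lf (nat_lit 0) (nat_lit 5215798634) (nat_lit 336) (nat_lit 1520574471) (nat_lit 420) (nat_lit 12611080414) (nat_lit 32) (nat_lit 5) (nat_lit 36) (nat_lit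 5) (nat_lit 37) (nat_lit 5) (nat_lit 363) (nat_lit 318) (nat_lit 207))) (XT.nd (nat_lit 94) (nat_lit 0) (nat_lit 0) (XT.lf (nat_lit 0) (nat_lit 8364005053) (nat_lit 420) (nat_lit 8815104530) (nat_lit 84) (nat_lit 2600089675) (nat_lit 32) (nat_lit 5) (nat_lit 37) (nat_lit 5) (nat_lit 33) (nat_lit 5) (nat_lit 364) (nat_lit 318) (nat_lit 206)) (XT.lf (nat_lit 0) (nat_lit 10048846719) (nat_lit 420) (nat_lit 3359735664) (nat_lit 84) (nat_lit 6815590266) (nat_lit 32) (nat_lit 5) (nat_lit 37) (nat_lit 5) (nat_lit 33) (nat_lit 5) (nat_lit 365) (nat_lit 318) (nat_lit 205))))) (XT.nd (nat_lit 376) (nat_lit 336) (nat_lit 0) (XT.nd (nat_lit 188) (nat_lit 0) (nat_lit 0) (XT.nd (nat_lit 94) (nat_lit 0) (nat_lit 0) (XT.lf (nat_lit 0) (nat_lit 2300980605) (nat_lit 252) (nat_lit 9499229671) (nat_lit 336) (nat_lit 8882338182) (nat_lit 29) (nat_lit 5) (nat_lit 32) (nat_lit 5) (nat_lit 33) (nat_lit 5) (nat_lit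 366) (nat_lit 318) (nat_lit 204)) (XT.lf (nat_lit 0) (nat_lit 8198377593) (nat_lit 252) (nat_lit 5434180197) (nat_lit 336) (nat_lit 7521798434) (nat_lit 29) (nat_lit 5) (nat_lit 32) (nat_lit 5) (nat_lit 33) (nat_lit 5) (nat_lit 367) (nat_lit 318) (nat_lit 203))) (XT.nd (nat_lit 94) (nat_lit 0) (nat_lit 0) (XT.lf (nat_lit 0) (nat_lit 14268869232) (nat_lit 252) (nat_lit 1244713659) (nat_lit 336) (nat_lit 6127507272) (nat_lit 29) (nat_lit 5) (nat_lit 32) (nat_lit 5) (nat_lit 33) (nat_lit 5) (nat_lit 368) (nat_lit 318) (nat_lit 202)) (XT.lf (nat_lit 0) (nat_lit 17475524177) (nat_lit 336) (nat_lit 1655575388) (nat_lit 84) (nat_lit 3011159353) (nat_lit 29) (nat_lit 5) (nat_lit 33) (nat_lit 5) (nat_lit 30) (nat_lit 5) (nat_lit 369) (nat_lit 318) (nat_lit 201)))) (XT.nd (nat_lit 188) (nat_lit 84) (nat_lit 0) (XT.nd (nat_lit 94) (nat_lit 0) (nat_lit 0) (XT.lf (nat_lit 0) (nat_lit 4302832076) (nat_lit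 252) (nat_lit 15243209842) (nat_lit 336) (nat_lit 3111486937) (nat_lit 26) (nat_lit 5) (nat_lit 29) (nat_lit 5) (nat_lit 30) (nat_lit 5) (nat_lit 370) (nat_lit 318) (nat_lit 200)) (XT.lf (nat_lit 0) (nat_lit 10471726755) (nat_lit 252) (nat_lit 11218778745) (nat_lit 336) (nat_lit 1498008135) (nat_lit 26) (nat_lit 5) (nat_lit 29) (nat_lit 5) (nat_lit 30) (nat_lit 5) (nat_lit 371) (nat_lit 318) (nat_lit 199))) (XT.nd (nat_lit 94) (nat_lit 0) (nat_lit 0) (XT.lf (nat_lit 0) (nat_lit 154742950) (nat_lit 336) (nat_lit 6914977744) (nat_lit 84) (nat_lit 16666458531) (nat_lit 25) (nat_lit 5) (nat_lit 29) (nat_lit 5) (nat_lit 26) (nat_lit 5) (nat_lit 372) (nat_lit 318) (nat_lit 198)) (XT.nd (nat_lit 50666) (nat_lit 0) (nat_lit 5628) (XT.lf (nat_lit 0) (nat_lit 1820423676) (nat_lit 336) (nat_lit 957590271) (nat_lit 84) (nat_lit 21522596565) (nat_lit 25) (nat_lit 5) (nat_lit 29) (nat_lit 5) (nat_lit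 26) (nat_lit 5) (nat_lit 373) (nat_lit 318) (nat_lit 197)) (XT.lf (nat_lit 0) (nat_lit 295886650) (nat_lit 924) (nat_lit 2105288143) (nat_lit 924) (nat_lit 2105288143) (nat_lit 92) (nat_lit 3) (nat_lit 103) (nat_lit 3) (nat_lit 103) (nat_lit 5) (nat_lit 319) (nat_lit 319) (nat_lit 250))))))))
noncomputable def xc91 : XT := (XT.nd (nat_lit 1598) (nat_lit 3192) (nat_lit 0) (XT.nd (nat_lit 752) (nat_lit 672) (nat_lit 0) (XT.nd (nat_lit 376) (nat_lit 0) (nat_lit 84) (XT.nd (nat_lit 188) (nat_lit 0) (nat_lit 84) (XT.nd (nat_lit 94) (nat_lit 0) (nat_lit 0) (XT.lf (nat_lit 0) (nat_lit 1291826242) (nat_lit 924) (nat_lit 1239232057) (nat_lit 924) (nat_lit 6594805811) (nat_lit 92) (nat_lit 3) (nat_lit 103) (nat_lit 3) (nat_lit 103) (nat_lit 5) (nat_lit 320) (nat_lit 319) (nat_lit 249)) (XT.lf (nat_lit 84) (nat_lit 1846977424) (nat_lit 0) (nat_lit 157086240) (nat_lit 924) (nat_lit 7238750169) (nat_lit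 93) (nat_lit 5) (nat_lit 92) (nat_lit 3) (nat_lit 103) (nat_lit 5) (nat_lit 321) (nat_lit 319) (nat_lit 248))) (XT.nd (nat_lit 94) (nat_lit 0) (nat_lit 0) (XT.lf (nat_lit 0) (nat_lit 2747152600) (nat_lit 840) (nat_lit 4346201852) (nat_lit 924) (nat_lit 2269971506) (nat_lit 93) (nat_lit 5) (nat_lit 103) (nat_lit 5) (nat_lit 104) (nat_lit 5) (nat_lit 322) (nat_lit 319) (nat_lit 247)) (XT.lf (nat_lit 0) (nat_lit 3488679241) (nat_lit 840) (nat_lit 1218659668) (nat_lit 924) (nat_lit 4781200206) (nat_lit 93) (nat_lit 5) (nat_lit 103) (nat_lit 5) (nat_lit 104) (nat_lit 5) (nat_lit 323) (nat_lit 319) (nat_lit 246)))) (XT.nd (nat_lit 188) (nat_lit 0) (nat_lit 84) (XT.nd (nat_lit 94) (nat_lit 0) (nat_lit 84) (XT.lf (nat_lit 84) (nat_lit 2032208119) (nat_lit 0) (nat_lit 2215728088) (nat_lit 924) (nat_lit 5370057163) (nat_lit 94) (nat_lit 5) (nat_lit 93) (nat_lit 5) (nat_lit 104) (nat_lit 5) (nat_lit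 324) (nat_lit 319) (nat_lit 245)) (XT.lf (nat_lit 0) (nat_lit 5022390817) (nat_lit 840) (nat_lit 4360499034) (nat_lit 924) (nat_lit 369019989) (nat_lit 94) (nat_lit 5) (nat_lit 104) (nat_lit 5) (nat_lit 105) (nat_lit 5) (nat_lit 325) (nat_lit 319) (nat_lit 244))) (XT.nd (nat_lit 94) (nat_lit 0) (nat_lit 0) (XT.lf (nat_lit 0) (nat_lit 5819564916) (nat_lit 840) (nat_lit 1072912247) (nat_lit 924) (nat_lit 2997725387) (nat_lit 94) (nat_lit 5) (nat_lit 104) (nat_lit 5) (nat_lit 105) (nat_lit 5) (nat_lit 326) (nat_lit 319) (nat_lit 243)) (XT.lf (nat_lit 84) (nat_lit 2349354026) (nat_lit 0) (nat_lit 4292173113) (nat_lit 924) (nat_lit 3391432172) (nat_lit 95) (nat_lit 5) (nat_lit 94) (nat_lit 5) (nat_lit 105) (nat_lit 5) (nat_lit 327) (nat_lit 319) (nat_lit 242))))) (XT.nd (nat_lit 376) (nat_lit 840) (nat_lit 0) (XT.nd (nat_lit 188) (nat_lit 0) (nat_lit 84) (XT.nd (nat_lit 94) (nat_lit 0) (nat_lit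 84) (XT.lf (nat_lit 84) (nat_lit 5886033288) (nat_lit 0) (nat_lit 1591461160) (nat_lit 924) (nat_lit 2703176764) (nat_lit 95) (nat_lit 5) (nat_lit 94) (nat_lit 5) (nat_lit 105) (nat_lit 5) (nat_lit 328) (nat_lit 319) (nat_lit 241)) (XT.lf (nat_lit 0) (nat_lit 8329297620) (nat_lit 840) (nat_lit 827365690) (nat_lit 924) (nat_lit 1176780026) (nat_lit 95) (nat_lit 5) (nat_lit 105) (nat_lit 5) (nat_lit 106) (nat_lit 5) (nat_lit 329) (nat_lit 319) (nat_lit 240))) (XT.nd (nat_lit 94) (nat_lit 0) (nat_lit 0) (XT.lf (nat_lit 84) (nat_lit 2772504767) (nat_lit 0) (nat_lit 6457527750) (nat_lit 924) (nat_lit 1260384208) (nat_lit 96) (nat_lit 5) (nat_lit 95) (nat_lit 5) (nat_lit 106) (nat_lit 5) (nat_lit 330) (nat_lit 319) (nat_lit 239)) (XT.lf (nat_lit 84) (nat_lit 6487187321) (nat_lit 0) (nat_lit 3659381201) (nat_lit 924) (nat_lit 506222250) (nat_lit 96) (nat_lit 5) (nat_lit 95) (nat_lit 5) (nat_lit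 106) (nat_lit 5) (nat_lit 331) (nat_lit 319) (nat_lit 238)))) (XT.nd (nat_lit 188) (nat_lit 0) (nat_lit 84) (XT.nd (nat_lit 94) (nat_lit 0) (nat_lit 84) (XT.lf (nat_lit 0) (nat_lit 245361969) (nat_lit 924) (nat_lit 520328453) (nat_lit 1008) (nat_lit 10055209063) (nat_lit 84) (nat_lit 5) (nat_lit 95) (nat_lit 5) (nat_lit 96) (nat_lit 5) (nat_lit 332) (nat_lit 319) (nat_lit 237)) (XT.lf (nat_lit 0) (nat_lit 1044886707) (nat_lit 924) (nat_lit 7731326013) (nat_lit 1008) (nat_lit 2216901304) (nat_lit 85) (nat_lit 5) (nat_lit 96) (nat_lit 5) (nat_lit 97) (nat_lit 5) (nat_lit 333) (nat_lit 319) (nat_lit 236))) (XT.nd (nat_lit 94) (nat_lit 0) (nat_lit 0) (XT.lf (nat_lit 0) (nat_lit 1863155097) (nat_lit 924) (nat_lit 4020888619) (nat_lit 1008) (nat_lit 5286951254) (nat_lit 85) (nat_lit 5) (nat_lit 96) (nat_lit 5) (nat_lit 97) (nat_lit 5) (nat_lit 334) (nat_lit 319) (nat_lit 235)) (XT.nd (nat_lit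 94) (nat_lit 0) (nat_lit 84) (XT.lf (nat_lit 0) (nat_lit 2688012369) (nat_lit 924) (nat_lit 209669943) (nat_lit 1008) (nat_lit 8457426255) (nat_lit 85) (nat_lit 5) (nat_lit 96) (nat_lit 5) (nat_lit 97) (nat_lit 5) (nat_lit 335) (nat_lit 319) (nat_lit 234)) (XT.lf (nat_lit 0) (nat_lit 3559971559) (nat_lit 924) (nat_lit 7764605786) (nat_lit 84) (nat_lit 219817014) (nat_lit 86) (nat_lit 5) (nat_lit 97) (nat_lit 5) (nat_lit 87) (nat_lit 5) (nat_lit 336) (nat_lit 319) (nat_lit 233))))))) (XT.nd (nat_lit 846) (nat_lit 1260) (nat_lit 0) (XT.nd (nat_lit 376) (nat_lit 1176) (nat_lit 0) (XT.nd (nat_lit 188) (nat_lit 0) (nat_lit 0) (XT.nd (nat_lit 94) (nat_lit 924) (nat_lit 0) (XT.lf (nat_lit 0) (nat_lit 4473048935) (nat_lit 924) (nat_lit 3886168949) (nat_lit 84) (nat_lit 3380021588) (nat_lit 86) (nat_lit 5) (nat_lit 97) (nat_lit 5) (nat_lit 87) (nat_lit 5) (nat_lit 337) (nat_lit 319) (nat_lit 232))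 (XT.lf (nat_lit 0) (nat_lit 100563262) (nat_lit 924) (nat_lit 5297640122) (nat_lit 1008) (nat_lit 6542548796) (nat_lit 75) (nat_lit 5) (nat_lit 86) (nat_lit 5) (nat_lit 87) (nat_lit 5) (nat_lit 338) (nat_lit 319) (nat_lit 231))) (XT.nd (nat_lit 94) (nat_lit 0) (nat_lit 0) (XT.lf (nat_lit 0) (nat_lit 4279447976) (nat_lit 924) (nat_lit 2096308194) (nat_lit 1008) (nat_lit 5772140917) (nat_lit 75) (nat_lit 5) (nat_lit 86) (nat_lit 5) (nat_lit 87) (nat_lit 5) (nat_lit 339) (nat_lit 319) (nat_lit 230)) (XT.lf (nat_lit 0) (nat_lit 7379250061) (nat_lit 1008) (nat_lit 3799589746) (nat_lit 84) (nat_lit 1182875887) (nat_lit 75) (nat_lit 5) (nat_lit 87) (nat_lit 5) (nat_lit 76) (nat_lit 5) (nat_lit 340) (nat_lit 319) (nat_lit 229)))) (XT.nd (nat_lit 188) (nat_lit 504) (nat_lit 0) (XT.nd (nat_lit 94) (nat_lit 0) (nat_lit 0) (XT.lf (nat_lit 0) (nat_lit 367737827) (nat_lit 672) (nat_lit 8055383643) (nat_lit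 756) (nat_lit 4158867301) (nat_lit 67) (nat_lit 5) (nat_lit 75) (nat_lit 5) (nat_lit 76) (nat_lit 5) (nat_lit 341) (nat_lit 319) (nat_lit 228)) (XT.lf (nat_lit 0) (nat_lit 4731304680) (nat_lit 672) (nat_lit 4792230792) (nat_lit 756) (nat_lit 3284915207) (nat_lit 67) (nat_lit 5) (nat_lit 75) (nat_lit 5) (nat_lit 76) (nat_lit 5) (nat_lit 342) (nat_lit 319) (nat_lit 227))) (XT.nd (nat_lit 94) (nat_lit 504) (nat_lit 0) (XT.lf (nat_lit 0) (nat_lit 9217050755) (nat_lit 672) (nat_lit 1425999580) (nat_lit 756) (nat_lit 2399454663) (nat_lit 67) (nat_lit 5) (nat_lit 75) (nat_lit 5) (nat_lit 76) (nat_lit 5) (nat_lit 343) (nat_lit 319) (nat_lit 226)) (XT.nd (nat_lit 94) (nat_lit 0) (nat_lit 0) (XT.lf (nat_lit 0) (nat_lit 535270848) (nat_lit 504) (nat_lit 11273049682) (nat_lit 588) (nat_lit 1475255418) (nat_lit 61) (nat_lit 5) (nat_lit 67) (nat_lit 5) (nat_lit 68) (nat_lit 5) (nat_lit 344) (nat_lit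 319) (nat_lit 225)) (XT.lf (nat_lit 0) (nat_lit 5084254796) (nat_lit 504) (nat_lit 7965590986) (nat_lit 588) (nat_lit 481130632) (nat_lit 61) (nat_lit 5) (nat_lit 67) (nat_lit 5) (nat_lit 68) (nat_lit 5) (nat_lit 345) (nat_lit 319) (nat_lit 224)))))) (XT.nd (nat_lit 376) (nat_lit 756) (nat_lit 0) (XT.nd (nat_lit 188) (nat_lit 0) (nat_lit 0) (XT.nd (nat_lit 94) (nat_lit 420) (nat_lit 0) (XT.lf (nat_lit 0) (nat_lit 518811628) (nat_lit 588) (nat_lit 4030308689) (nat_lit 84) (nat_lit 9237288551) (nat_lit 60) (nat_lit 5) (nat_lit 67) (nat_lit 5) (nat_lit 61) (nat_lit 5) (nat_lit 346) (nat_lit 319) (nat_lit 223)) (XT.lf (nat_lit 0) (nat_lit 515753164) (nat_lit 420) (nat_lit 1015499529) (nat_lit 504) (nat_lit 12518709760) (nat_lit 55) (nat_lit 5) (nat_lit 60) (nat_lit 5) (nat_lit 61) (nat_lit 5) (nat_lit 347) (nat_lit 319) (nat_lit 222))) (XT.nd (nat_lit 94) (nat_lit 0) (nat_lit 0) (XT.lf (nat_lit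 0) (nat_lit 2630314930) (nat_lit 504) (nat_lit 9071806765) (nat_lit 84) (nat_lit 2617941062) (nat_lit 55) (nat_lit 5) (nat_lit 61) (nat_lit 5) (nat_lit 56) (nat_lit 5) (nat_lit 348) (nat_lit 319) (nat_lit 221)) (XT.lf (nat_lit 0) (nat_lit 3760905396) (nat_lit 504) (nat_lit 4494172745) (nat_lit 84) (nat_lit 6343623036) (nat_lit 55) (nat_lit 5) (nat_lit 61) (nat_lit 5) (nat_lit 56) (nat_lit 5) (nat_lit 349) (nat_lit 319) (nat_lit 220)))) (XT.nd (nat_lit 188) (nat_lit 336) (nat_lit 0) (XT.nd (nat_lit 94) (nat_lit 0) (nat_lit 0) (XT.lf (nat_lit 0) (nat_lit 217413889) (nat_lit 420) (nat_lit 4698746924) (nat_lit 504) (nat_lit 9970222054) (nat_lit 50) (nat_lit 5) (nat_lit 55) (nat_lit 5) (nat_lit 56) (nat_lit 5) (nat_lit 350) (nat_lit 319) (nat_lit 219)) (XT.lf (nat_lit 0) (nat_lit 5158124241) (nat_lit 420) (nat_lit 983730661) (nat_lit 504) (nat_lit 9040135468) (nat_lit 50) (nat_lit 5) (nat_lit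 55) (nat_lit 5) (nat_lit 56) (nat_lit 5) (nat_lit 351) (nat_lit 319) (nat_lit 218))) (XT.nd (nat_lit 94) (nat_lit 336) (nat_lit 0) (XT.lf (nat_lit 0) (nat_lit 7421868541) (nat_lit 504) (nat_lit 5275293412) (nat_lit 84) (nat_lit 2789172379) (nat_lit 50) (nat_lit 5) (nat_lit 56) (nat_lit 5) (nat_lit 51) (nat_lit 5) (nat_lit 352) (nat_lit 319) (nat_lit 217)) (XT.nd (nat_lit 94) (nat_lit 336) (nat_lit 0) (XT.lf (nat_lit 0) (nat_lit 8740067971) (nat_lit 504) (nat_lit 401497796) (nat_lit 84) (nat_lit 6658669803) (nat_lit 50) (nat_lit 5) (nat_lit 56) (nat_lit 5) (nat_lit 51) (nat_lit 5) (nat_lit 353) (nat_lit 319) (nat_lit 216)) (XT.lf (nat_lit 0) (nat_lit 4706650864) (nat_lit 336) (nat_lit 5427962858) (nat_lit 420) (nat_lit 5988228061) (nat_lit 46) (nat_lit 5) (nat_lit 50) (nat_lit 5) (nat_lit 51) (nat_lit 5) (nat_lit 354) (nat_lit 319) (nat_lit 215))))))))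
noncomputable def xc92 : XT := (XT.nd (nat_lit 1598) (nat_lit 84) (nat_lit 0) (XT.nd (nat_lit 752) (nat_lit 840) (nat_lit 0) (XT.nd (nat_lit 376) (nat_lit 420) (nat_lit 0) (XT.nd (nat_lit 188) (nat_lit 420) (nat_lit 0) (XT.nd (nat_lit 94) (nat_lit 0) (nat_lit 0) (XT.lf (nat_lit 0) (nat_lit 9970217596) (nat_lit 336) (nat_lit 1595378656) (nat_lit 420) (nat_lit 4890134915) (nat_lit 46) (nat_lit 5) (nat_lit 50) (nat_lit 5) (nat_lit 51) (nat_lit 5) (nat_lit 355) (nat_lit 319) (nat_lit 214)) (XT.lf (nat_lit 0) (nat_lit 13053652111) (nat_lit 420) (nat_lit 1436854571) (nat_lit 84) (nat_lit 2308108941) (nat_lit 46) (nat_lit 5) (nat_lit 51) (nat_lit 5) (nat_lit 47) (nat_lit 5) (nat_lit 356) (nat_lit 319) (nat_lit 213))) (XT.nd (nat_lit 94) (nat_lit 0) (nat_lit 0) (XT.lf (nat_lit 0) (nat_lit 3817763638) (nat_lit 420) (nat_lit 10813925122) (nat_lit 504) (nat_lit 2519148865) (nat_lit 41) (nat_lit 5)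 (nat_lit 46) (nat_lit 5) (nat_lit 47) (nat_lit 5) (nat_lit 357) (nat_lit 319) (nat_lit 212)) (XT.lf (nat_lit 0) (nat_lit 9254696798) (nat_lit 420) (nat_lit 7008808317) (nat_lit 504) (nat_lit 1250388195) (nat_lit 41) (nat_lit 5) (nat_lit 46) (nat_lit 5) (nat_lit 47) (nat_lit 5) (nat_lit 358) (nat_lit 319) (nat_lit 211)))) (XT.nd (nat_lit 188) (nat_lit 0) (nat_lit 0) (XT.nd (nat_lit 94) (nat_lit 336) (nat_lit 0) (XT.lf (nat_lit 0) (nat_lit 46546214) (nat_lit 504) (nat_lit 3039575253) (nat_lit 84) (nat_lit 14802435960) (nat_lit 40) (nat_lit 5) (nat_lit 46) (nat_lit 5) (nat_lit 41) (nat_lit 5) (nat_lit 359) (nat_lit 319) (nat_lit 210)) (XT.lf (nat_lit 0) (nat_lit 1381355919) (nat_lit 420) (nat_lit 15917845721) (nat_lit 84) (nat_lit 974564839) (nat_lit 36) (nat_lit 5) (nat_lit 41) (nat_lit 5) (nat_lit 37) (nat_lit 5) (nat_lit 360) (nat_lit 319) (nat_lit 209))) (XT.nd (nat_lit 94) (nat_lit 0)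 (nat_lit 0) (XT.lf (nat_lit 0) (nat_lit 2811641989) (nat_lit 420) (nat_lit 10729585934) (nat_lit 84) (nat_lit 5128070024) (nat_lit 36) (nat_lit 5) (nat_lit 41) (nat_lit 5) (nat_lit 37) (nat_lit 5) (nat_lit 361) (nat_lit 319) (nat_lit 208)) (XT.lf (nat_lit 0) (nat_lit 4277035189) (nat_lit 420) (nat_lit 5391041742) (nat_lit 84) (nat_lit 9409356354) (nat_lit 36) (nat_lit 5) (nat_lit 41) (nat_lit 5) (nat_lit 37) (nat_lit 5) (nat_lit 362) (nat_lit 319) (nat_lit 207))))) (XT.nd (nat_lit 376) (nat_lit 504) (nat_lit 0) (XT.nd (nat_lit 188) (nat_lit 0) (nat_lit 0) (XT.nd (nat_lit 94) (nat_lit 0) (nat_lit 0) (XT.lf (nat_lit 0) (nat_lit 104875954) (nat_lit 336) (nat_lit 5675065845) (nat_lit 420) (nat_lit 13718578864) (nat_lit 32) (nat_lit 5) (nat_lit 36) (nat_lit 5) (nat_lit 37) (nat_lit 5) (nat_lit 363) (nat_lit 319) (nat_lit 206)) (XT.lf (nat_lit 0) (nat_lit 5875323583) (nat_lit 336) (nat_lit 1501600925)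 (nat_lit 420) (nat_lit 12554318057) (nat_lit 32) (nat_lit 5) (nat_lit 36) (nat_lit 5) (nat_lit 37) (nat_lit 5) (nat_lit 364) (nat_lit 319) (nat_lit 205))) (XT.nd (nat_lit 94) (nat_lit 0) (nat_lit 0) (XT.lf (nat_lit 0) (nat_lit 9042668133) (nat_lit 420) (nat_lit 8590641082) (nat_lit 84) (nat_lit 2743524035) (nat_lit 32) (nat_lit 5) (nat_lit 37) (nat_lit 5) (nat_lit 33) (nat_lit 5) (nat_lit 365) (nat_lit 319) (nat_lit 204)) (XT.lf (nat_lit 0) (nat_lit 10767130049) (nat_lit 420) (nat_lit 2981121525) (nat_lit 84) (nat_lit 7087815930) (nat_lit 32) (nat_lit 5) (nat_lit 37) (nat_lit 5) (nat_lit 33) (nat_lit 5) (nat_lit 366) (nat_lit 319) (nat_lit 203)))) (XT.nd (nat_lit 188) (nat_lit 252) (nat_lit 0) (XT.nd (nat_lit 94) (nat_lit 0) (nat_lit 0) (XT.lf (nat_lit 0) (nat_lit 2850189377) (nat_lit 252) (nat_lit 9715106423) (nat_lit 336) (nat_lit 8743662862) (nat_lit 29) (nat_lit 5) (nat_lit 32) (nat_lit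 5) (nat_lit 33) (nat_lit 5) (nat_lit 367) (nat_lit 319) (nat_lit 202)) (XT.lf (nat_lit 0) (nat_lit 8916036874) (nat_lit 252) (nat_lit 5526403733) (nat_lit 336) (nat_lit 7353395327) (nat_lit 29) (nat_lit 5) (nat_lit 32) (nat_lit 5) (nat_lit 33) (nat_lit 5) (nat_lit 368) (nat_lit 319) (nat_lit 201))) (XT.nd (nat_lit 94) (nat_lit 252) (nat_lit 0) (XT.lf (nat_lit 0) (nat_lit 15160776997) (nat_lit 252) (nat_lit 1209355989) (nat_lit 336) (nat_lit 5927955770) (nat_lit 29) (nat_lit 5) (nat_lit 32) (nat_lit 5) (nat_lit 33) (nat_lit 5) (nat_lit 369) (nat_lit 319) (nat_lit 200)) (XT.nd (nat_lit 94) (nat_lit 252) (nat_lit 0) (XT.lf (nat_lit 0) (nat_lit 18382311553) (nat_lit 336) (nat_lit 1258096587) (nat_lit 84) (nat_lit 3174780745) (nat_lit 29) (nat_lit 5) (nat_lit 33) (nat_lit 5) (nat_lit 30) (nat_lit 5) (nat_lit 370) (nat_lit 319) (nat_lit 199)) (XT.lf (nat_lit 0) (nat_lit 4880477795) (nat_lit 252)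 (nat_lit 15629968474) (nat_lit 336) (nat_lit 2836254618) (nat_lit 26) (nat_lit 5) (nat_lit 29) (nat_lit 5) (nat_lit 30) (nat_lit 5) (nat_lit 371) (nat_lit 319) (nat_lit 198))))))) (XT.nd (nat_lit 51418) (nat_lit 0) (nat_lit 4956) (XT.nd (nat_lit 51042) (nat_lit 0) (nat_lit 5628) (XT.nd (nat_lit 50854) (nat_lit 0) (nat_lit 5628) (XT.nd (nat_lit 94) (nat_lit 84) (nat_lit 0) (XT.lf (nat_lit 0) (nat_lit 11227250309) (nat_lit 252) (nat_lit 11483359263) (nat_lit 336) (nat_lit 1183933861) (nat_lit 26) (nat_lit 5) (nat_lit 29) (nat_lit 5) (nat_lit 30) (nat_lit 5) (nat_lit 372) (nat_lit 319) (nat_lit 197)) (XT.lf (nat_lit 0) (nat_lit 502167529) (nat_lit 336) (nat_lit 6702438252) (nat_lit 84) (nat_lit 17254858635) (nat_lit 25) (nat_lit 5) (nat_lit 29) (nat_lit 5) (nat_lit 26) (nat_lit 5) (nat_lit 373) (nat_lit 319) (nat_lit 196))) (XT.nd (nat_lit 94) (nat_lit 0) (nat_lit 0) (XT.lf (nat_lit 0) (nat_lit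 989085971) (nat_lit 924) (nat_lit 1815290342) (nat_lit 924) (nat_lit 1815290342) (nat_lit 92) (nat_lit 3) (nat_lit 103) (nat_lit 3) (nat_lit 103) (nat_lit 5) (nat_lit 320) (nat_lit 320) (nat_lit 248)) (XT.lf (nat_lit 0) (nat_lit 2658792031) (nat_lit 924) (nat_lit 588488727) (nat_lit 924) (nat_lit 6110085268) (nat_lit 92) (nat_lit 3) (nat_lit 103) (nat_lit 3) (nat_lit 103) (nat_lit 5) (nat_lit 321) (nat_lit 320) (nat_lit 247)))) (XT.nd (nat_lit 188) (nat_lit 0) (nat_lit 84) (XT.nd (nat_lit 94) (nat_lit 0) (nat_lit 84) (XT.lf (nat_lit 84) (nat_lit 2586416127) (nat_lit 0) (nat_lit 773562355) (nat_lit 924) (nat_lit 6119298409) (nat_lit 93) (nat_lit 5) (nat_lit 92) (nat_lit 3) (nat_lit 103) (nat_lit 5) (nat_lit 322) (nat_lit 320) (nat_lit 246)) (XT.lf (nat_lit 0) (nat_lit 4081316883) (nat_lit 840) (nat_lit 3764819865) (nat_lit 924) (nat_lit 1759075895) (nat_lit 93) (nat_lit 5) (nat_lit 103)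 (nat_lit 5) (nat_lit 104) (nat_lit 5) (nat_lit 323) (nat_lit 320) (nat_lit 245))) (XT.nd (nat_lit 94) (nat_lit 0) (nat_lit 0) (XT.lf (nat_lit 0) (nat_lit 4808275971) (nat_lit 840) (nat_lit 561855922) (nat_lit 924) (nat_lit 4365630092) (nat_lit 93) (nat_lit 5) (nat_lit 103) (nat_lit 5) (nat_lit 104) (nat_lit 5) (nat_lit 324) (nat_lit 320) (nat_lit 244)) (XT.lf (nat_lit 84) (nat_lit 2782756746) (nat_lit 0) (nat_lit 2778708059) (nat_lit 924) (nat_lit 4308963920) (nat_lit 94) (nat_lit 5) (nat_lit 93) (nat_lit 5) (nat_lit 104) (nat_lit 5) (nat_lit 325) (nat_lit 320) (nat_lit 243))))) (XT.nd (nat_lit 376) (nat_lit 756) (nat_lit 0) (XT.nd (nat_lit 188) (nat_lit 0) (nat_lit 84) (XT.nd (nat_lit 94) (nat_lit 0) (nat_lit 84) (XT.lf (nat_lit 84) (nat_lit 6229392749) (nat_lit 0) (nat_lit 91147428) (nat_lit 924) (nat_lit 3689450612) (nat_lit 94) (nat_lit 5) (nat_lit 93) (nat_lit 5) (nat_lit 104) (nat_lit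 5) (nat_lit 326) (nat_lit 320) (nat_lit 242)) (XT.lf (nat_lit 0) (nat_lit 7107198442) (nat_lit 840) (nat_lit 411719902) (nat_lit 924) (nat_lit 2635009267) (nat_lit 94) (nat_lit 5) (nat_lit 104) (nat_lit 5) (nat_lit 105) (nat_lit 5) (nat_lit 327) (nat_lit 320) (nat_lit 241))) (XT.nd (nat_lit 94) (nat_lit 0) (nat_lit 0) (XT.lf (nat_lit 84) (nat_lit 3109605916) (nat_lit 0) (nat_lit 4818562902) (nat_lit 924) (nat_lit 2374018662) (nat_lit 95) (nat_lit 5) (nat_lit 94) (nat_lit 5) (nat_lit 105) (nat_lit 5) (nat_lit 328) (nat_lit 320) (nat_lit 240)) (XT.lf (nat_lit 84) (nat_lit 6735252905) (nat_lit 0) (nat_lit 2022302200) (nat_lit 924) (nat_lit 1698179989) (nat_lit 95) (nat_lit 5) (nat_lit 94) (nat_lit 5) (nat_lit 105) (nat_lit 5) (nat_lit 329) (nat_lit 320) (nat_lit 239)))) (XT.nd (nat_lit 188) (nat_lit 924) (nat_lit 0) (XT.nd (nat_lit 94) (nat_lit 0) (nat_lit 0) (XT.lf (nat_lit 0) (nat_lit 9600574465)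 (nat_lit 840) (nat_lit 163320433) (nat_lit 924) (nat_lit 850680911) (nat_lit 95) (nat_lit 5) (nat_lit 105) (nat_lit 5) (nat_lit 106) (nat_lit 5) (nat_lit 330) (nat_lit 320) (nat_lit 238)) (XT.lf (nat_lit 84) (nat_lit 3541163480) (nat_lit 0) (nat_lit 6964380401) (nat_lit 924) (nat_lit 271840333) (nat_lit 96) (nat_lit 5) (nat_lit 95) (nat_lit 5) (nat_lit 106) (nat_lit 5) (nat_lit 331) (nat_lit 320) (nat_lit 237))) (XT.nd (nat_lit 94) (nat_lit 0) (nat_lit 0) (XT.lf (nat_lit 0) (nat_lit 465236191) (nat_lit 924) (nat_lit 3600178105) (nat_lit 1008) (nat_lit 6880381205) (nat_lit 84) (nat_lit 5) (nat_lit 95) (nat_lit 5) (nat_lit 96) (nat_lit 5) (nat_lit 332) (nat_lit 320) (nat_lit 236)) (XT.nd (nat_lit 94) (nat_lit 0) (nat_lit 84) (XT.lf (nat_lit 84) (nat_lit 134912895) (nat_lit 0) (nat_lit 1066664166) (nat_lit 1008) (nat_lit 9918460840) (nat_lit 85) (nat_lit 5) (nat_lit 84) (nat_lit 5) (nat_lit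 96) (nat_lit 5) (nat_lit 333) (nat_lit 320) (nat_lit 235)) (XT.lf (nat_lit 0) (nat_lit 2000018596) (nat_lit 924) (nat_lit 7271118618) (nat_lit 1008) (nat_lit 2027463347) (nat_lit 85) (nat_lit 5) (nat_lit 96) (nat_lit 5) (nat_lit 97) (nat_lit 5) (nat_lit 334) (nat_lit 320) (nat_lit 234))))))))
noncomputable def xc93 : XT := (XT.nd (nat_lit 1598) (nat_lit 1764) (nat_lit 0) (XT.nd (nat_lit 752) (nat_lit 1428) (nat_lit 0) (XT.nd (nat_lit 376) (nat_lit 1512) (nat_lit 0) (XT.nd (nat_lit 188) (nat_lit 0) (nat_lit 84) (XT.nd (nat_lit 94) (nat_lit 0) (nat_lit 0) (XT.lf (nat_lit 0) (nat_lit 2815908443) (nat_lit 924) (nat_lit 3466701538) (nat_lit 1008) (nat_lit 5200447230) (nat_lit 85) (nat_lit 5) (nat_lit 96) (nat_lit 5) (nat_lit 97) (nat_lit 5) (nat_lit 335) (nat_lit 320) (nat_lit 233)) (XT.lf (nat_lit 84) (nat_lit 451347432) (nat_lit 0) (nat_lit 3192555649) (nat_lit 1008) (nat_lit 8029865933) (nat_lit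 86) (nat_lit 5) (nat_lit 85) (nat_lit 5) (nat_lit 97) (nat_lit 5) (nat_lit 336) (nat_lit 320) (nat_lit 232))) (XT.nd (nat_lit 94) (nat_lit 0) (nat_lit 0) (XT.lf (nat_lit 0) (nat_lit 4516828411) (nat_lit 924) (nat_lit 7319188788) (nat_lit 84) (nat_lit 33902852) (nat_lit 86) (nat_lit 5) (nat_lit 97) (nat_lit 5) (nat_lit 87) (nat_lit 5) (nat_lit 337) (nat_lit 320) (nat_lit 231)) (XT.lf (nat_lit 0) (nat_lit 5432758780) (nat_lit 924) (nat_lit 3341150587) (nat_lit 84) (nat_lit 3297868707) (nat_lit 86) (nat_lit 5) (nat_lit 97) (nat_lit 5) (nat_lit 87) (nat_lit 5) (nat_lit 338) (nat_lit 320) (nat_lit 230)))) (XT.nd (nat_lit 188) (nat_lit 672) (nat_lit 0) (XT.nd (nat_lit 94) (nat_lit 0) (nat_lit 0) (XT.lf (nat_lit 0) (nat_lit 762432839) (nat_lit 924) (nat_lit 5606007976) (nat_lit 1008) (nat_lit 5911837744) (nat_lit 75) (nat_lit 5) (nat_lit 86) (nat_lit 5) (nat_lit 87) (nat_lit 5) (nat_lit 339) (nat_lit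 320) (nat_lit 229)) (XT.lf (nat_lit 0) (nat_lit 5051055689) (nat_lit 924) (nat_lit 2301100741) (nat_lit 1008) (nat_lit 5142609715) (nat_lit 75) (nat_lit 5) (nat_lit 86) (nat_lit 5) (nat_lit 87) (nat_lit 5) (nat_lit 340) (nat_lit 320) (nat_lit 228))) (XT.nd (nat_lit 94) (nat_lit 672) (nat_lit 0) (XT.lf (nat_lit 0) (nat_lit 8361998003) (nat_lit 1008) (nat_lit 3267476467) (nat_lit 84) (nat_lit 1086673852) (nat_lit 75) (nat_lit 5) (nat_lit 87) (nat_lit 5) (nat_lit 76) (nat_lit 5) (nat_lit 341) (nat_lit 320) (nat_lit 227)) (XT.lf (nat_lit 0) (nat_lit 1022458602) (nat_lit 672) (nat_lit 8399481718) (nat_lit 756) (nat_lit 3521977077) (nat_lit 67) (nat_lit 5) (nat_lit 75) (nat_lit 5) (nat_lit 76) (nat_lit 5) (nat_lit 342) (nat_lit 320) (nat_lit 226))))) (XT.nd (nat_lit 376) (nat_lit 840) (nat_lit 0) (XT.nd (nat_lit 188) (nat_lit 588) (nat_lit 0) (XT.nd (nat_lit 94) (nat_lit 0) (nat_lit 0) (XT.lf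 (nat_lit 0) (nat_lit 5501952722) (nat_lit 672) (nat_lit 5032333285) (nat_lit 756) (nat_lit 2643958918) (nat_lit 67) (nat_lit 5) (nat_lit 75) (nat_lit 5) (nat_lit 76) (nat_lit 5) (nat_lit 343) (nat_lit 320) (nat_lit 225)) (XT.lf (nat_lit 0) (nat_lit 10107995233) (nat_lit 672) (nat_lit 1558996390) (nat_lit 756) (nat_lit 1753383188) (nat_lit 67) (nat_lit 5) (nat_lit 75) (nat_lit 5) (nat_lit 76) (nat_lit 5) (nat_lit 344) (nat_lit 320) (nat_lit 224))) (XT.nd (nat_lit 94) (nat_lit 84) (nat_lit 0) (XT.lf (nat_lit 0) (nat_lit 1178004861) (nat_lit 504) (nat_lit 11674870072) (nat_lit 588) (nat_lit 816673189) (nat_lit 61) (nat_lit 5) (nat_lit 67) (nat_lit 5) (nat_lit 68) (nat_lit 5) (nat_lit 345) (nat_lit 320) (nat_lit 223)) (XT.lf (nat_lit 0) (nat_lit 183322699) (nat_lit 588) (nat_lit 8078069714) (nat_lit 84) (nat_lit 5663944369) (nat_lit 60) (nat_lit 5) (nat_lit 67) (nat_lit 5) (nat_lit 61) (nat_lit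 5) (nat_lit 346) (nat_lit 320) (nat_lit 222)))) (XT.nd (nat_lit 188) (nat_lit 420) (nat_lit 0) (XT.nd (nat_lit 94) (nat_lit 420) (nat_lit 0) (XT.lf (nat_lit 0) (nat_lit 1184142283) (nat_lit 588) (nat_lit 3548478675) (nat_lit 84) (nat_lit 9456673425) (nat_lit 60) (nat_lit 5) (nat_lit 67) (nat_lit 5) (nat_lit 61) (nat_lit 5) (nat_lit 347) (nat_lit 320) (nat_lit 221)) (XT.lf (nat_lit 0) (nat_lit 1132368099) (nat_lit 420) (nat_lit 1082037707) (nat_lit 504) (nat_lit 12247164074) (nat_lit 55) (nat_lit 5) (nat_lit 60) (nat_lit 5) (nat_lit 61) (nat_lit 5) (nat_lit 348) (nat_lit 320) (nat_lit 220))) (XT.nd (nat_lit 94) (nat_lit 420) (nat_lit 0) (XT.lf (nat_lit 0) (nat_lit 3328087964) (nat_lit 504) (nat_lit 8746906904) (nat_lit 84) (nat_lit 2665778750) (nat_lit 55) (nat_lit 5) (nat_lit 61) (nat_lit 5) (nat_lit 56) (nat_lit 5) (nat_lit 349) (nat_lit 320) (nat_lit 219)) (XT.nd (nat_lit 94) (nat_lit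 420) (nat_lit 0) (XT.lf (nat_lit 0) (nat_lit 4475197897) (nat_lit 504) (nat_lit 4045591159) (nat_lit 84) (nat_lit 6507958682) (nat_lit 55) (nat_lit 5) (nat_lit 61) (nat_lit 5) (nat_lit 56) (nat_lit 5) (nat_lit 350) (nat_lit 320) (nat_lit 218)) (XT.lf (nat_lit 0) (nat_lit 806102692) (nat_lit 420) (nat_lit 4847964831) (nat_lit 504) (nat_lit 9671777997) (nat_lit 50) (nat_lit 5) (nat_lit 55) (nat_lit 5) (nat_lit 56) (nat_lit 5) (nat_lit 351) (nat_lit 320) (nat_lit 217))))))) (XT.nd (nat_lit 846) (nat_lit 924) (nat_lit 0) (XT.nd (nat_lit 376) (nat_lit 504) (nat_lit 0) (XT.nd (nat_lit 188) (nat_lit 336) (nat_lit 0) (XT.nd (nat_lit 94) (nat_lit 0) (nat_lit 0) (XT.lf (nat_lit 0) (nat_lit 5882477084) (nat_lit 420) (nat_lit 1017676120) (nat_lit 504) (nat_lit 8731125603) (nat_lit 50) (nat_lit 5) (nat_lit 55) (nat_lit 5) (nat_lit 56) (nat_lit 5) (nat_lit 352) (nat_lit 320) (nat_lit 216)) (XT.lf (nat_lit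 0) (nat_lit 8202738490) (nat_lit 504) (nat_lit 4870603960) (nat_lit 84) (nat_lit 2872358059) (nat_lit 50) (nat_lit 5) (nat_lit 56) (nat_lit 5) (nat_lit 51) (nat_lit 5) (nat_lit 353) (nat_lit 320) (nat_lit 215))) (XT.nd (nat_lit 94) (nat_lit 0) (nat_lit 0) (XT.lf (nat_lit 0) (nat_lit 140015025) (nat_lit 336) (nat_lit 9406614887) (nat_lit 420) (nat_lit 6723282426) (nat_lit 46) (nat_lit 5) (nat_lit 50) (nat_lit 5) (nat_lit 51) (nat_lit 5) (nat_lit 354) (nat_lit 320) (nat_lit 214)) (XT.lf (nat_lit 0) (nat_lit 5398115523) (nat_lit 336) (nat_lit 5574250902) (nat_lit 420) (nat_lit 5630632193) (nat_lit 46) (nat_lit 5) (nat_lit 50) (nat_lit 5) (nat_lit 51) (nat_lit 5) (nat_lit 355) (nat_lit 320) (nat_lit 213)))) (XT.nd (nat_lit 188) (nat_lit 504) (nat_lit 0) (XT.nd (nat_lit 94) (nat_lit 0) (nat_lit 0) (XT.lf (nat_lit 0) (nat_lit 10808449028) (nat_lit 336) (nat_lit 1623517446) (nat_lit 420) (nat_lit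 4514831970) (nat_lit 46) (nat_lit 5) (nat_lit 50) (nat_lit 5) (nat_lit 51) (nat_lit 5) (nat_lit 356) (nat_lit 320) (nat_lit 212)) (XT.lf (nat_lit 0) (nat_lit 13951087601) (nat_lit 420) (nat_lit 949870779) (nat_lit 84) (nat_lit 2399920686) (nat_lit 46) (nat_lit 5) (nat_lit 51) (nat_lit 5) (nat_lit 47) (nat_lit 5) (nat_lit 357) (nat_lit 320) (nat_lit 211))) (XT.nd (nat_lit 94) (nat_lit 84) (nat_lit 0) (XT.lf (nat_lit 0) (nat_lit 4462259368) (nat_lit 420) (nat_lit 11106186817) (nat_lit 504) (nat_lit 2095968028) (nat_lit 41) (nat_lit 5) (nat_lit 46) (nat_lit 5) (nat_lit 47) (nat_lit 5) (nat_lit 358) (nat_lit 320) (nat_lit 210)) (XT.nd (nat_lit 94) (nat_lit 84) (nat_lit 0) (XT.lf (nat_lit 0) (nat_lit 10051917381) (nat_lit 420) (nat_lit 7184403408) (nat_lit 504) (nat_lit 802948044) (nat_lit 41) (nat_lit 5) (nat_lit 46) (nat_lit 5) (nat_lit 47) (nat_lit 5) (nat_lit 359) (nat_lit 320) (nat_lit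 209)) (XT.lf (nat_lit 0) (nat_lit 510070906) (nat_lit 504) (nat_lit 2626472343) (nat_lit 84) (nat_lit 15289387115) (nat_lit 40) (nat_lit 5) (nat_lit 46) (nat_lit 5) (nat_lit 41) (nat_lit 5) (nat_lit 360) (nat_lit 320) (nat_lit 208)))))) (XT.nd (nat_lit 376) (nat_lit 252) (nat_lit 0) (XT.nd (nat_lit 188) (nat_lit 336) (nat_lit 0) (XT.nd (nat_lit 94) (nat_lit 0) (nat_lit 0) (XT.lf (nat_lit 0) (nat_lit 1877834029) (nat_lit 420) (nat_lit 15892781330) (nat_lit 84) (nat_lit 1052812360) (nat_lit 36) (nat_lit 5) (nat_lit 41) (nat_lit 5) (nat_lit 37) (nat_lit 5) (nat_lit 361) (nat_lit 320) (nat_lit 207)) (XT.lf (nat_lit 0) (nat_lit 3338818484) (nat_lit 420) (nat_lit 10559276223) (nat_lit 84) (nat_lit 5333631864) (nat_lit 36) (nat_lit 5) (nat_lit 41) (nat_lit 5) (nat_lit 37) (nat_lit 5) (nat_lit 362) (nat_lit 320) (nat_lit 206))) (XT.nd (nat_lit 94) (nat_lit 336) (nat_lit 0) (XT.lf (nat_lit 0) (nat_lit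 4836408530) (nat_lit 420) (nat_lit 5070359114) (nat_lit 84) (nat_lit 9746237157) (nat_lit 36) (nat_lit 5) (nat_lit 41) (nat_lit 5) (nat_lit 37) (nat_lit 5) (nat_lit 363) (nat_lit 320) (nat_lit 205)) (XT.lf (nat_lit 0) (nat_lit 590993444) (nat_lit 336) (nat_lit 5786869361) (nat_lit 420) (nat_lit 13709610533) (nat_lit 32) (nat_lit 5) (nat_lit 36) (nat_lit 5) (nat_lit 37) (nat_lit 5) (nat_lit 364) (nat_lit 320) (nat_lit 204)))) (XT.nd (nat_lit 188) (nat_lit 252) (nat_lit 0) (XT.nd (nat_lit 94) (nat_lit 0) (nat_lit 0) (XT.lf (nat_lit 0) (nat_lit 6525806176) (nat_lit 336) (nat_lit 1485955088) (nat_lit 420) (nat_lit 12522314452) (nat_lit 32) (nat_lit 5) (nat_lit 36) (nat_lit 5) (nat_lit 37) (nat_lit 5) (nat_lit 365) (nat_lit 320) (nat_lit 203)) (XT.lf (nat_lit 0) (nat_lit 9717529237) (nat_lit 420) (nat_lit 8388700767) (nat_lit 84) (nat_lit 2887683237) (nat_lit 32) (nat_lit 5) (nat_lit 37) (nat_lit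 5) (nat_lit 33) (nat_lit 5) (nat_lit 366) (nat_lit 320) (nat_lit 202))) (XT.nd (nat_lit 94) (nat_lit 252) (nat_lit 0) (XT.lf (nat_lit 0) (nat_lit 11483586533) (nat_lit 420) (nat_lit 2619365402) (nat_lit 84) (nat_lit 7364870869) (nat_lit 32) (nat_lit 5) (nat_lit 37) (nat_lit 5) (nat_lit 33) (nat_lit 5) (nat_lit 367) (nat_lit 320) (nat_lit 201)) (XT.nd (nat_lit 94) (nat_lit 0) (nat_lit 0) (XT.lf (nat_lit 0) (nat_lit 3388118066) (nat_lit 252) (nat_lit 9942330929) (nat_lit 336) (nat_lit 8625212184) (nat_lit 29) (nat_lit 5) (nat_lit 32) (nat_lit 5) (nat_lit 33) (nat_lit 5) (nat_lit 368) (nat_lit 320) (nat_lit 200)) (XT.lf (nat_lit 0) (nat_lit 9628489127) (nat_lit 252) (nat_lit 5626001789) (nat_lit 336) (nat_lit 7203557927) (nat_lit 29) (nat_lit 5) (nat_lit 32) (nat_lit 5) (nat_lit 33) (nat_lit 5) (nat_lit 369) (nat_lit 320) (nat_lit 199))))))))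
noncomputable def xc94 : XT := (XT.nd (nat_lit 52358) (nat_lit 0) (nat_lit 2436) (XT.nd (nat_lit 51512) (nat_lit 0) (nat_lit 4872) (XT.nd (nat_lit 51136) (nat_lit 0) (nat_lit 5544) (XT.nd (nat_lit 188) (nat_lit 252) (nat_lit 0) (XT.nd (nat_lit 94) (nat_lit 0) (nat_lit 0) (XT.lf (nat_lit 0) (nat_lit 16053704935) (nat_lit 252) (nat_lit 1177282049) (nat_lit 336) (nat_lit 5745289174) (nat_lit 29) (nat_lit 5) (nat_lit 32) (nat_lit 5) (nat_lit 33) (nat_lit 5) (nat_lit 370) (nat_lit 320) (nat_lit 198)) (XT.lf (nat_lit 0) (nat_lit 19295587031) (nat_lit 336) (nat_lit 874879232) (nat_lit 84) (nat_lit 3339311865) (nat_lit 29) (nat_lit 5) (nat_lit 33) (nat_lit 5) (nat_lit 30) (nat_lit 5) (nat_lit 371) (nat_lit 320) (nat_lit 197))) (XT.nd (nat_lit 94) (nat_lit 0) (nat_lit 0) (XT.lf (nat_lit 0) (nat_lit 5449716374) (nat_lit 252) (nat_lit 16033797572) (nat_lit 336) (nat_lit 2574505838) (nat_lit 26) (nat_lit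 5) (nat_lit 29) (nat_lit 5) (nat_lit 30) (nat_lit 5) (nat_lit 372) (nat_lit 320) (nat_lit 196)) (XT.lf (nat_lit 0) (nat_lit 11980672146) (nat_lit 252) (nat_lit 11761069952) (nat_lit 336) (nat_lit 881477059) (nat_lit 26) (nat_lit 5) (nat_lit 29) (nat_lit 5) (nat_lit 30) (nat_lit 5) (nat_lit 373) (nat_lit 320) (nat_lit 195)))) (XT.nd (nat_lit 188) (nat_lit 0) (nat_lit 0) (XT.nd (nat_lit 94) (nat_lit 0) (nat_lit 0) (XT.lf (nat_lit 0) (nat_lit 1663258391) (nat_lit 924) (nat_lit 1537345369) (nat_lit 924) (nat_lit 1537345369) (nat_lit 92) (nat_lit 3) (nat_lit 103) (nat_lit 3) (nat_lit 103) (nat_lit 5) (nat_lit 321) (nat_lit 321) (nat_lit 246)) (XT.lf (nat_lit 84) (nat_lit 42463082) (nat_lit 0) (nat_lit 3947496221) (nat_lit 924) (nat_lit 5609116643) (nat_lit 93) (nat_lit 5) (nat_lit 92) (nat_lit 3) (nat_lit 103) (nat_lit 5) (nat_lit 322) (nat_lit 321) (nat_lit 245))) (XT.nd (nat_lit 94) (nat_lit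 0) (nat_lit 84) (XT.lf (nat_lit 84) (nat_lit 3308370597) (nat_lit 0) (nat_lit 1372922732) (nat_lit 924) (nat_lit 5044742359) (nat_lit 93) (nat_lit 5) (nat_lit 92) (nat_lit 3) (nat_lit 103) (nat_lit 5) (nat_lit 323) (nat_lit 321) (nat_lit 244)) (XT.lf (nat_lit 0) (nat_lit 5382859699) (nat_lit 840) (nat_lit 3207831710) (nat_lit 924) (nat_lit 1266771826) (nat_lit 93) (nat_lit 5) (nat_lit 103) (nat_lit 5) (nat_lit 104) (nat_lit 5) (nat_lit 324) (nat_lit 321) (nat_lit 243))))) (XT.nd (nat_lit 376) (nat_lit 756) (nat_lit 0) (XT.nd (nat_lit 188) (nat_lit 0) (nat_lit 0) (XT.nd (nat_lit 94) (nat_lit 0) (nat_lit 0) (XT.lf (nat_lit 84) (nat_lit 75692482) (nat_lit 0) (nat_lit 6022082477) (nat_lit 924) (nat_lit 3895629789) (nat_lit 94) (nat_lit 5) (nat_lit 93) (nat_lit 5) (nat_lit 104) (nat_lit 5) (nat_lit 325) (nat_lit 321) (nat_lit 242)) (XT.lf (nat_lit 84) (nat_lit 3515847606) (nat_lit 0) (nat_lit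 3329862623) (nat_lit 924) (nat_lit 3287687565) (nat_lit 94) (nat_lit 5) (nat_lit 93) (nat_lit 5) (nat_lit 104) (nat_lit 5) (nat_lit 326) (nat_lit 321) (nat_lit 241))) (XT.nd (nat_lit 94) (nat_lit 0) (nat_lit 84) (XT.lf (nat_lit 84) (nat_lit 7049880647) (nat_lit 0) (nat_lit 545005603) (nat_lit 924) (nat_lit 2683693380) (nat_lit 94) (nat_lit 5) (nat_lit 93) (nat_lit 5) (nat_lit 104) (nat_lit 5) (nat_lit 327) (nat_lit 321) (nat_lit 240)) (XT.lf (nat_lit 84) (nat_lit 233541120) (nat_lit 0) (nat_lit 8137941292) (nat_lit 924) (nat_lit 2056813254) (nat_lit 95) (nat_lit 5) (nat_lit 94) (nat_lit 5) (nat_lit 105) (nat_lit 5) (nat_lit 328) (nat_lit 321) (nat_lit 239)))) (XT.nd (nat_lit 188) (nat_lit 840) (nat_lit 0) (XT.nd (nat_lit 94) (nat_lit 0) (nat_lit 0) (XT.lf (nat_lit 84) (nat_lit 3852708439) (nat_lit 0) (nat_lit 5337973021) (nat_lit 924) (nat_lit 1391555768) (nat_lit 95) (nat_lit 5) (nat_lit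 94) (nat_lit 5) (nat_lit 105) (nat_lit 5) (nat_lit 329) (nat_lit 321) (nat_lit 238)) (XT.lf (nat_lit 84) (nat_lit 7571305434) (nat_lit 0) (nat_lit 2443902074) (nat_lit 924) (nat_lit 726519521) (nat_lit 95) (nat_lit 5) (nat_lit 94) (nat_lit 5) (nat_lit 105) (nat_lit 5) (nat_lit 330) (nat_lit 321) (nat_lit 237))) (XT.nd (nat_lit 94) (nat_lit 924) (nat_lit 0) (XT.lf (nat_lit 84) (nat_lit 490337705) (nat_lit 0) (nat_lit 10365781608) (nat_lit 924) (nat_lit 50475421) (nat_lit 96) (nat_lit 5) (nat_lit 95) (nat_lit 5) (nat_lit 106) (nat_lit 5) (nat_lit 331) (nat_lit 321) (nat_lit 236)) (XT.nd (nat_lit 94) (nat_lit 0) (nat_lit 0) (XT.lf (nat_lit 0) (nat_lit 672649898) (nat_lit 924) (nat_lit 6789109952) (nat_lit 1008) (nat_lit 3613541484) (nat_lit 84) (nat_lit 5) (nat_lit 95) (nat_lit 5) (nat_lit 96) (nat_lit 5) (nat_lit 332) (nat_lit 321) (nat_lit 235)) (XT.lf (nat_lit 0) (nat_lit 1398446601) (nat_lit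 924) (nat_lit 3063235288) (nat_lit 1008) (nat_lit 6788255796) (nat_lit 84) (nat_lit 5) (nat_lit 95) (nat_lit 5) (nat_lit 96) (nat_lit 5) (nat_lit 333) (nat_lit 321) (nat_lit 234))))))) (XT.nd (nat_lit 752) (nat_lit 1680) (nat_lit 0) (XT.nd (nat_lit 376) (nat_lit 756) (nat_lit 0) (XT.nd (nat_lit 188) (nat_lit 0) (nat_lit 84) (XT.nd (nat_lit 94) (nat_lit 0) (nat_lit 84) (XT.lf (nat_lit 84) (nat_lit 781077564) (nat_lit 0) (nat_lit 1355278995) (nat_lit 1008) (nat_lit 9294085329) (nat_lit 85) (nat_lit 5) (nat_lit 84) (nat_lit 5) (nat_lit 96) (nat_lit 5) (nat_lit 334) (nat_lit 321) (nat_lit 233)) (XT.lf (nat_lit 0) (nat_lit 2930104078) (nat_lit 924) (nat_lit 6838099795) (nat_lit 1008) (nat_lit 1847444185) (nat_lit 85) (nat_lit 5) (nat_lit 96) (nat_lit 5) (nat_lit 97) (nat_lit 5) (nat_lit 335) (nat_lit 321) (nat_lit 232))) (XT.nd (nat_lit 94) (nat_lit 0) (nat_lit 0) (XT.lf (nat_lit 0) (nat_lit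 3745185025) (nat_lit 924) (nat_lit 2935543195) (nat_lit 1008) (nat_lit 5126093174) (nat_lit 85) (nat_lit 5) (nat_lit 96) (nat_lit 5) (nat_lit 97) (nat_lit 5) (nat_lit 336) (nat_lit 321) (nat_lit 231)) (XT.lf (nat_lit 84) (nat_lit 1097499778) (nat_lit 0) (nat_lit 3482302161) (nat_lit 1008) (nat_lit 7424417424) (nat_lit 86) (nat_lit 5) (nat_lit 85) (nat_lit 5) (nat_lit 97) (nat_lit 5) (nat_lit 337) (nat_lit 321) (nat_lit 230)))) (XT.nd (nat_lit 188) (nat_lit 840) (nat_lit 0) (XT.nd (nat_lit 94) (nat_lit 0) (nat_lit 84) (XT.lf (nat_lit 84) (nat_lit 5305321616) (nat_lit 0) (nat_lit 149368452) (nat_lit 1008) (nat_lit 6752717213) (nat_lit 86) (nat_lit 5) (nat_lit 85) (nat_lit 5) (nat_lit 97) (nat_lit 5) (nat_lit 338) (nat_lit 321) (nat_lit 229)) (XT.lf (nat_lit 0) (nat_lit 6373587710) (nat_lit 924) (nat_lit 2818654743) (nat_lit 84) (nat_lit 3224241481) (nat_lit 86) (nat_lit 5) (nat_lit 97) (nat_lit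 5) (nat_lit 87) (nat_lit 5) (nat_lit 339) (nat_lit 321) (nat_lit 228))) (XT.nd (nat_lit 94) (nat_lit 0) (nat_lit 0) (XT.lf (nat_lit 0) (nat_lit 1405801357) (nat_lit 924) (nat_lit 5915397514) (nat_lit 1008) (nat_lit 5310946063) (nat_lit 75) (nat_lit 5) (nat_lit 86) (nat_lit 5) (nat_lit 87) (nat_lit 5) (nat_lit 340) (nat_lit 321) (nat_lit 227)) (XT.lf (nat_lit 0) (nat_lit 5808737446) (nat_lit 924) (nat_lit 2503960850) (nat_lit 1008) (nat_lit 4541449965) (nat_lit 75) (nat_lit 5) (nat_lit 86) (nat_lit 5) (nat_lit 87) (nat_lit 5) (nat_lit 341) (nat_lit 321) (nat_lit 226))))) (XT.nd (nat_lit 376) (nat_lit 1008) (nat_lit 0) (XT.nd (nat_lit 188) (nat_lit 0) (nat_lit 0) (XT.nd (nat_lit 94) (nat_lit 672) (nat_lit 0) (XT.lf (nat_lit 0) (nat_lit 9330550941) (nat_lit 1008) (nat_lit 2757362398) (nat_lit 84) (nat_lit 995359742) (nat_lit 75) (nat_lit 5) (nat_lit 87) (nat_lit 5) (nat_lit 76) (nat_lit 5)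 (nat_lit 342) (nat_lit 321) (nat_lit 225)) (XT.lf (nat_lit 0) (nat_lit 1659370723) (nat_lit 672) (nat_lit 8748656474) (nat_lit 756) (nat_lit 2910703797) (nat_lit 67) (nat_lit 5) (nat_lit 75) (nat_lit 5) (nat_lit 76) (nat_lit 5) (nat_lit 343) (nat_lit 321) (nat_lit 224))) (XT.nd (nat_lit 94) (nat_lit 0) (nat_lit 0) (XT.lf (nat_lit 0) (nat_lit 6259531592) (nat_lit 672) (nat_lit 5274456687) (nat_lit 756) (nat_lit 2027129627) (nat_lit 67) (nat_lit 5) (nat_lit 75) (nat_lit 5) (nat_lit 76) (nat_lit 5) (nat_lit 344) (nat_lit 321) (nat_lit 223)) (XT.lf (nat_lit 0) (nat_lit 10990711015) (nat_lit 672) (nat_lit 1690856869) (nat_lit 756) (nat_lit 1129957255) (nat_lit 67) (nat_lit 5) (nat_lit 75) (nat_lit 5) (nat_lit 76) (nat_lit 5) (nat_lit 345) (nat_lit 321) (nat_lit 222)))) (XT.nd (nat_lit 188) (nat_lit 420) (nat_lit 0) (XT.nd (nat_lit 94) (nat_lit 84) (nat_lit 0) (XT.lf (nat_lit 0) (nat_lit 1803576248)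 (nat_lit 504) (nat_lit 12086045768) (nat_lit 588) (nat_lit 179392703) (nat_lit 61) (nat_lit 5) (nat_lit 67) (nat_lit 5) (nat_lit 68) (nat_lit 5) (nat_lit 346) (nat_lit 321) (nat_lit 221)) (XT.lf (nat_lit 0) (nat_lit 818731691) (nat_lit 588) (nat_lit 7739964575) (nat_lit 84) (nat_lit 5774569252) (nat_lit 60) (nat_lit 5) (nat_lit 67) (nat_lit 5) (nat_lit 61) (nat_lit 5) (nat_lit 347) (nat_lit 321) (nat_lit 220))) (XT.nd (nat_lit 94) (nat_lit 420) (nat_lit 0) (XT.lf (nat_lit 0) (nat_lit 1831642147) (nat_lit 588) (nat_lit 3087651932) (nat_lit 84) (nat_lit 9686826042) (nat_lit 60) (nat_lit 5) (nat_lit 67) (nat_lit 5) (nat_lit 61) (nat_lit 5) (nat_lit 348) (nat_lit 321) (nat_lit 219)) (XT.nd (nat_lit 94) (nat_lit 0) (nat_lit 0) (XT.lf (nat_lit 0) (nat_lit 1732521955) (nat_lit 420) (nat_lit 1148562041) (nat_lit 504) (nat_lit 12006271231) (nat_lit 55) (nat_lit 5) (nat_lit 60) (nat_lit 5) (nat_lit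 61) (nat_lit 5) (nat_lit 349) (nat_lit 321) (nat_lit 218)) (XT.lf (nat_lit 0) (nat_lit 4010991410) (nat_lit 504) (nat_lit 8447837020) (nat_lit 84) (nat_lit 2717072917) (nat_lit 55) (nat_lit 5) (nat_lit 61) (nat_lit 5) (nat_lit 56) (nat_lit 5) (nat_lit 350) (nat_lit 321) (nat_lit 217))))))))
noncomputable def xc95 : XT := (XT.nd (nat_lit 1598) (nat_lit 504) (nat_lit 0) (XT.nd (nat_lit 752) (nat_lit 1176) (nat_lit 0) (XT.nd (nat_lit 376) (nat_lit 336) (nat_lit 0) (XT.nd (nat_lit 188) (nat_lit 0) (nat_lit 0) (XT.nd (nat_lit 94) (nat_lit 420) (nat_lit 0) (XT.lf (nat_lit 0) (nat_lit 5176230408) (nat_lit 504) (nat_lit 3617925923) (nat_lit 84) (nat_lit 6679302904) (nat_lit 55) (nat_lit 5) (nat_lit 61) (nat_lit 5) (nat_lit 56) (nat_lit 5) (nat_lit 351) (nat_lit 321) (nat_lit 216)) (XT.lf (nat_lit 0) (nat_lit 1378571014) (nat_lit 420) (nat_lit 5001597821) (nat_lit 504) (nat_lit 9400066680) (nat_lit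 50) (nat_lit 5) (nat_lit 55) (nat_lit 5) (nat_lit 56) (nat_lit 5) (nat_lit 352) (nat_lit 321) (nat_lit 215))) (XT.nd (nat_lit 94) (nat_lit 0) (nat_lit 0) (XT.lf (nat_lit 0) (nat_lit 6595851466) (nat_lit 420) (nat_lit 1052469550) (nat_lit 504) (nat_lit 8447438959) (nat_lit 50) (nat_lit 5) (nat_lit 55) (nat_lit 5) (nat_lit 56) (nat_lit 5) (nat_lit 353) (nat_lit 321) (nat_lit 214)) (XT.lf (nat_lit 0) (nat_lit 8975191054) (nat_lit 504) (nat_lit 4487025988) (nat_lit 84) (nat_lit 2958316696) (nat_lit 50) (nat_lit 5) (nat_lit 56) (nat_lit 5) (nat_lit 51) (nat_lit 5) (nat_lit 354) (nat_lit 321) (nat_lit 213)))) (XT.nd (nat_lit 188) (nat_lit 0) (nat_lit 0) (XT.nd (nat_lit 94) (nat_lit 0) (nat_lit 0) (XT.lf (nat_lit 0) (nat_lit 673510178) (nat_lit 336) (nat_lit 9676902001) (nat_lit 420) (nat_lit 6404807055) (nat_lit 46) (nat_lit 5) (nat_lit 50) (nat_lit 5) (nat_lit 51) (nat_lit 5) (nat_lit 355) (nat_lit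 321) (nat_lit 212)) (XT.lf (nat_lit 0) (nat_lit 6078701224) (nat_lit 336) (nat_lit 5726375718) (nat_lit 420) (nat_lit 5294127352) (nat_lit 46) (nat_lit 5) (nat_lit 50) (nat_lit 5) (nat_lit 51) (nat_lit 5) (nat_lit 356) (nat_lit 321) (nat_lit 211))) (XT.nd (nat_lit 94) (nat_lit 0) (nat_lit 0) (XT.lf (nat_lit 0) (nat_lit 11641322897) (nat_lit 336) (nat_lit 1653791237) (nat_lit 420) (nat_lit 4159103654) (nat_lit 46) (nat_lit 5) (nat_lit 50) (nat_lit 5) (nat_lit 51) (nat_lit 5) (nat_lit 357) (nat_lit 321) (nat_lit 210)) (XT.lf (nat_lit 0) (nat_lit 14847155846) (nat_lit 420) (nat_lit 479273702) (nat_lit 84) (nat_lit 2493378539) (nat_lit 46) (nat_lit 5) (nat_lit 51) (nat_lit 5) (nat_lit 47) (nat_lit 5) (nat_lit 358) (nat_lit 321) (nat_lit 209))))) (XT.nd (nat_lit 376) (nat_lit 336) (nat_lit 0) (XT.nd (nat_lit 188) (nat_lit 420) (nat_lit 0) (XT.nd (nat_lit 94) (nat_lit 0) (nat_lit 0) (XT.lf (nat_lit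 0) (nat_lit 5095569993) (nat_lit 420) (nat_lit 11410053811) (nat_lit 504) (nat_lit 1689359928) (nat_lit 41) (nat_lit 5) (nat_lit 46) (nat_lit 5) (nat_lit 47) (nat_lit 5) (nat_lit 359) (nat_lit 321) (nat_lit 208)) (XT.lf (nat_lit 0) (nat_lit 10843624381) (nat_lit 420) (nat_lit 7367910605) (nat_lit 504) (nat_lit 370435837) (nat_lit 41) (nat_lit 5) (nat_lit 46) (nat_lit 5) (nat_lit 47) (nat_lit 5) (nat_lit 360) (nat_lit 321) (nat_lit 207))) (XT.nd (nat_lit 94) (nat_lit 336) (nat_lit 0) (XT.lf (nat_lit 0) (nat_lit 960594970) (nat_lit 504) (nat_lit 2230613252) (nat_lit 84) (nat_lit 15789770787) (nat_lit 40) (nat_lit 5) (nat_lit 46) (nat_lit 5) (nat_lit 41) (nat_lit 5) (nat_lit 361) (nat_lit 321) (nat_lit 206)) (XT.lf (nat_lit 0) (nat_lit 2362832135) (nat_lit 420) (nat_lit 15897652629) (nat_lit 84) (nat_lit 1130640299) (nat_lit 36) (nat_lit 5) (nat_lit 41) (nat_lit 5) (nat_lit 37) (nat_lit 5)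 (nat_lit 362) (nat_lit 321) (nat_lit 205)))) (XT.nd (nat_lit 188) (nat_lit 336) (nat_lit 0) (XT.nd (nat_lit 94) (nat_lit 0) (nat_lit 0) (XT.lf (nat_lit 0) (nat_lit 3856274574) (nat_lit 420) (nat_lit 10413476131) (nat_lit 84) (nat_lit 5542806416) (nat_lit 36) (nat_lit 5) (nat_lit 41) (nat_lit 5) (nat_lit 37) (nat_lit 5) (nat_lit 363) (nat_lit 321) (nat_lit 204)) (XT.lf (nat_lit 0) (nat_lit 5387843224) (nat_lit 420) (nat_lit 4768628845) (nat_lit 84) (nat_lit 10090884539) (nat_lit 36) (nat_lit 5) (nat_lit 41) (nat_lit 5) (nat_lit 37) (nat_lit 5) (nat_lit 364) (nat_lit 321) (nat_lit 203))) (XT.nd (nat_lit 94) (nat_lit 0) (nat_lit 0) (XT.lf (nat_lit 0) (nat_lit 1063579576) (nat_lit 336) (nat_lit 5905936932) (nat_lit 420) (nat_lit 13726085215) (nat_lit 32) (nat_lit 5) (nat_lit 36) (nat_lit 5) (nat_lit 37) (nat_lit 5) (nat_lit 365) (nat_lit 321) (nat_lit 202)) (XT.nd (nat_lit 94) (nat_lit 0) (nat_lit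 0) (XT.lf (nat_lit 0) (nat_lit 7168712700) (nat_lit 336) (nat_lit 1473508174) (nat_lit 420) (nat_lit 12514266389) (nat_lit 32) (nat_lit 5) (nat_lit 36) (nat_lit 5) (nat_lit 37) (nat_lit 5) (nat_lit 366) (nat_lit 321) (nat_lit 201)) (XT.lf (nat_lit 0) (nat_lit 10389941850) (nat_lit 420) (nat_lit 8208235562) (nat_lit 84) (nat_lit 3032810190) (nat_lit 32) (nat_lit 5) (nat_lit 37) (nat_lit 5) (nat_lit 33) (nat_lit 5) (nat_lit 367) (nat_lit 321) (nat_lit 200))))))) (XT.nd (nat_lit 51700) (nat_lit 0) (nat_lit 4788) (XT.nd (nat_lit 376) (nat_lit 252) (nat_lit 0) (XT.nd (nat_lit 188) (nat_lit 0) (nat_lit 0) (XT.nd (nat_lit 94) (nat_lit 252) (nat_lit 0) (XT.lf (nat_lit 0) (nat_lit 12199586646) (nat_lit 420) (nat_lit 2273296158) (nat_lit 84) (nat_lit 7647118601) (nat_lit 32) (nat_lit 5) (nat_lit 37) (nat_lit 5) (nat_lit 33) (nat_lit 5) (nat_lit 368) (nat_lit 321) (nat_lit 199)) (XT.lf (nat_lit 0)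 (nat_lit 3916093577) (nat_lit 252) (nat_lit 10180979212) (nat_lit 336) (nat_lit 8526160536) (nat_lit 29) (nat_lit 5) (nat_lit 32) (nat_lit 5) (nat_lit 33) (nat_lit 5) (nat_lit 369) (nat_lit 321) (nat_lit 198))) (XT.nd (nat_lit 94) (nat_lit 0) (nat_lit 0) (XT.lf (nat_lit 0) (nat_lit 10337199110) (nat_lit 252) (nat_lit 5732935511) (nat_lit 336) (nat_lit 7071452874) (nat_lit 29) (nat_lit 5) (nat_lit 32) (nat_lit 5) (nat_lit 33) (nat_lit 5) (nat_lit 370) (nat_lit 321) (nat_lit 197)) (XT.lf (nat_lit 0) (nat_lit 16949261950) (nat_lit 252) (nat_lit 1148334210) (nat_lit 336) (nat_lit 5578664380) (nat_lit 29) (nat_lit 5) (nat_lit 32) (nat_lit 5) (nat_lit 33) (nat_lit 5) (nat_lit 371) (nat_lit 321) (nat_lit 196)))) (XT.nd (nat_lit 51042) (nat_lit 0) (nat_lit 5544) (XT.nd (nat_lit 94) (nat_lit 252) (nat_lit 0) (XT.lf (nat_lit 0) (nat_lit 20216832468) (nat_lit 336) (nat_lit 504790855) (nat_lit 84)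 (nat_lit 3505027468) (nat_lit 29) (nat_lit 5) (nat_lit 33) (nat_lit 5) (nat_lit 30) (nat_lit 5) (nat_lit 372) (nat_lit 321) (nat_lit 195)) (XT.lf (nat_lit 0) (nat_lit 6011845824) (nat_lit 252) (nat_lit 16454925367) (nat_lit 336) (nat_lit 2325354556) (nat_lit 26) (nat_lit 5) (nat_lit 29) (nat_lit 5) (nat_lit 30) (nat_lit 5) (nat_lit 373) (nat_lit 321) (nat_lit 194))) (XT.nd (nat_lit 94) (nat_lit 0) (nat_lit 0) (XT.lf (nat_lit 0) (nat_lit 2320213912) (nat_lit 924) (nat_lit 1270580464) (nat_lit 924) (nat_lit 1270580464) (nat_lit 92) (nat_lit 3) (nat_lit 103) (nat_lit 3) (nat_lit 103) (nat_lit 5) (nat_lit 322) (nat_lit 322) (nat_lit 244)) (XT.nd (nat_lit 94) (nat_lit 0) (nat_lit 0) (XT.lf (nat_lit 84) (nat_lit 666258168) (nat_lit 0) (nat_lit 4627948084) (nat_lit 924) (nat_lit 4556758425) (nat_lit 93) (nat_lit 5) (nat_lit 92) (nat_lit 3) (nat_lit 103) (nat_lit 5) (nat_lit 323) (nat_lit 322)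 (nat_lit 243)) (XT.lf (nat_lit 84) (nat_lit 4014692190) (nat_lit 0) (nat_lit 1956782541) (nat_lit 924) (nat_lit 4011759019) (nat_lit 93) (nat_lit 5) (nat_lit 92) (nat_lit 3) (nat_lit 103) (nat_lit 5) (nat_lit 324) (nat_lit 322) (nat_lit 242)))))) (XT.nd (nat_lit 376) (nat_lit 840) (nat_lit 0) (XT.nd (nat_lit 188) (nat_lit 0) (nat_lit 0) (XT.nd (nat_lit 94) (nat_lit 0) (nat_lit 0) (XT.lf (nat_lit 0) (nat_lit 6655151777) (nat_lit 840) (nat_lit 2673481182) (nat_lit 924) (nat_lit 791596328) (nat_lit 93) (nat_lit 5) (nat_lit 103) (nat_lit 5) (nat_lit 104) (nat_lit 5) (nat_lit 325) (nat_lit 322) (nat_lit 241)) (XT.lf (nat_lit 84) (nat_lit 705415672) (nat_lit 0) (nat_lit 6659799637) (nat_lit 924) (nat_lit 2896264112) (nat_lit 94) (nat_lit 5) (nat_lit 93) (nat_lit 5) (nat_lit 104) (nat_lit 5) (nat_lit 326) (nat_lit 322) (nat_lit 240))) (XT.nd (nat_lit 94) (nat_lit 0) (nat_lit 0) (XT.lf (nat_lit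 84) (nat_lit 4233351707) (nat_lit 0) (nat_lit 3870559368) (nat_lit 924) (nat_lit 2303155636) (nat_lit 94) (nat_lit 5) (nat_lit 93) (nat_lit 5) (nat_lit 104) (nat_lit 5) (nat_lit 327) (nat_lit 322) (nat_lit 239)) (XT.lf (nat_lit 84) (nat_lit 7858643072) (nat_lit 0) (nat_lit 986217947) (nat_lit 924) (nat_lit 1713104904) (nat_lit 94) (nat_lit 5) (nat_lit 93) (nat_lit 5) (nat_lit 104) (nat_lit 5) (nat_lit 328) (nat_lit 322) (nat_lit 238)))) (XT.nd (nat_lit 188) (nat_lit 924) (nat_lit 0) (XT.nd (nat_lit 94) (nat_lit 0) (nat_lit 0) (XT.lf (nat_lit 84) (nat_lit 868040583) (nat_lit 0) (nat_lit 8749125977) (nat_lit 924) (nat_lit 1096270417) (nat_lit 95) (nat_lit 5) (nat_lit 94) (nat_lit 5) (nat_lit 105) (nat_lit 5) (nat_lit 329) (nat_lit 322) (nat_lit 237)) (XT.lf (nat_lit 84) (nat_lit 4580541710) (nat_lit 0) (nat_lit 5851567067) (nat_lit 924) (nat_lit 441188616) (nat_lit 95) (nat_lit 5) (nat_lit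 94) (nat_lit 5) (nat_lit 105) (nat_lit 5) (nat_lit 330) (nat_lit 322) (nat_lit 236))) (XT.nd (nat_lit 94) (nat_lit 0) (nat_lit 84) (XT.lf (nat_lit 0) (nat_lit 210267605) (nat_lit 924) (nat_lit 2644850411) (nat_lit 1008) (nat_lit 8183659558) (nat_lit 83) (nat_lit 5) (nat_lit 94) (nat_lit 5) (nat_lit 95) (nat_lit 5) (nat_lit 331) (nat_lit 322) (nat_lit 235)) (XT.nd (nat_lit 94) (nat_lit 0) (nat_lit 0) (XT.lf (nat_lit 0) (nat_lit 867796421) (nat_lit 924) (nat_lit 10090096414) (nat_lit 1008) (nat_lit 251644863) (nat_lit 84) (nat_lit 5) (nat_lit 95) (nat_lit 5) (nat_lit 96) (nat_lit 5) (nat_lit 332) (nat_lit 322) (nat_lit 234)) (XT.lf (nat_lit 0) (nat_lit 1584664109) (nat_lit 924) (nat_lit 6370524506) (nat_lit 1008) (nat_lit 3429327297) (nat_lit 84) (nat_lit 5) (nat_lit 95) (nat_lit 5) (nat_lit 96) (nat_lit 5) (nat_lit 333) (nat_lit 322) (nat_lit 233))))))))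
noncomputable def xc96 : XT := (XT.nd (nat_lit 1598) (nat_lit 1932) (nat_lit 0) (XT.nd (nat_lit 752) (nat_lit 1680) (nat_lit 0) (XT.nd (nat_lit 376) (nat_lit 756) (nat_lit 0) (XT.nd (nat_lit 188) (nat_lit 0) (nat_lit 84) (XT.nd (nat_lit 94) (nat_lit 0) (nat_lit 0) (XT.lf (nat_lit 0) (nat_lit 2306165143) (nat_lit 924) (nat_lit 2548061872) (nat_lit 1008) (nat_lit 6711364884) (nat_lit 84) (nat_lit 5) (nat_lit 95) (nat_lit 5) (nat_lit 96) (nat_lit 5) (nat_lit 334) (nat_lit 322) (nat_lit 232)) (XT.lf (nat_lit 84) (nat_lit 1409247623) (nat_lit 0) (nat_lit 1637704323) (nat_lit 1008) (nat_lit 8705549117) (nat_lit 85) (nat_lit 5) (nat_lit 84) (nat_lit 5) (nat_lit 96) (nat_lit 5) (nat_lit 335) (nat_lit 322) (nat_lit 231))) (XT.nd (nat_lit 94) (nat_lit 0) (nat_lit 0) (XT.lf (nat_lit 0) (nat_lit 3837604056) (nat_lit 924) (nat_lit 6430656941) (nat_lit 1008) (nat_lit 1676230066) (nat_lit 85) (nat_lit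 5) (nat_lit 96) (nat_lit 5) (nat_lit 97) (nat_lit 5) (nat_lit 336) (nat_lit 322) (nat_lit 230)) (XT.lf (nat_lit 0) (nat_lit 4653397062) (nat_lit 924) (nat_lit 2425745860) (nat_lit 1008) (nat_lit 5063387234) (nat_lit 85) (nat_lit 5) (nat_lit 96) (nat_lit 5) (nat_lit 97) (nat_lit 5) (nat_lit 337) (nat_lit 322) (nat_lit 229)))) (XT.nd (nat_lit 188) (nat_lit 840) (nat_lit 0) (XT.nd (nat_lit 94) (nat_lit 0) (nat_lit 0) (XT.lf (nat_lit 84) (nat_lit 1726238893) (nat_lit 0) (nat_lit 3769730750) (nat_lit 1008) (nat_lit 6850806067) (nat_lit 86) (nat_lit 5) (nat_lit 85) (nat_lit 5) (nat_lit 97) (nat_lit 5) (nat_lit 338) (nat_lit 322) (nat_lit 228)) (XT.lf (nat_lit 84) (nat_lit 6046621331) (nat_lit 0) (nat_lit 328079593) (nat_lit 1008) (nat_lit 6182450770) (nat_lit 86) (nat_lit 5) (nat_lit 85) (nat_lit 5) (nat_lit 97) (nat_lit 5) (nat_lit 339) (nat_lit 322) (nat_lit 227))) (XT.nd (nat_lit 94) (nat_lit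 924) (nat_lit 0) (XT.lf (nat_lit 0) (nat_lit 7297830968) (nat_lit 924) (nat_lit 2317044816) (nat_lit 84) (nat_lit 3158748369) (nat_lit 86) (nat_lit 5) (nat_lit 97) (nat_lit 5) (nat_lit 87) (nat_lit 5) (nat_lit 340) (nat_lit 322) (nat_lit 226)) (XT.lf (nat_lit 0) (nat_lit 2032406446) (nat_lit 924) (nat_lit 6226346113) (nat_lit 1008) (nat_lit 4737873798) (nat_lit 75) (nat_lit 5) (nat_lit 86) (nat_lit 5) (nat_lit 87) (nat_lit 5) (nat_lit 341) (nat_lit 322) (nat_lit 225))))) (XT.nd (nat_lit 376) (nat_lit 1008) (nat_lit 0) (XT.nd (nat_lit 188) (nat_lit 672) (nat_lit 0) (XT.nd (nat_lit 94) (nat_lit 0) (nat_lit 0) (XT.lf (nat_lit 0) (nat_lit 6554303212) (nat_lit 924) (nat_lit 2705319113) (nat_lit 1008) (nat_lit 3966704757) (nat_lit 75) (nat_lit 5) (nat_lit 86) (nat_lit 5) (nat_lit 87) (nat_lit 5) (nat_lit 342) (nat_lit 322) (nat_lit 224)) (XT.lf (nat_lit 0) (nat_lit 10287114131) (nat_lit 1008)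 (nat_lit 2267649408) (nat_lit 84) (nat_lit 908618918) (nat_lit 75) (nat_lit 5) (nat_lit 87) (nat_lit 5) (nat_lit 76) (nat_lit 5) (nat_lit 343) (nat_lit 322) (nat_lit 223))) (XT.nd (nat_lit 94) (nat_lit 0) (nat_lit 0) (XT.lf (nat_lit 0) (nat_lit 2280179145) (nat_lit 672) (nat_lit 9103396416) (nat_lit 756) (nat_lit 2323154803) (nat_lit 67) (nat_lit 5) (nat_lit 75) (nat_lit 5) (nat_lit 76) (nat_lit 5) (nat_lit 344) (nat_lit 322) (nat_lit 222)) (XT.lf (nat_lit 0) (nat_lit 7005825306) (nat_lit 672) (nat_lit 5518984816) (nat_lit 756) (nat_lit 1432569277) (nat_lit 67) (nat_lit 5) (nat_lit 75) (nat_lit 5) (nat_lit 76) (nat_lit 5) (nat_lit 345) (nat_lit 322) (nat_lit 221)))) (XT.nd (nat_lit 188) (nat_lit 420) (nat_lit 0) (XT.nd (nat_lit 94) (nat_lit 588) (nat_lit 0) (XT.lf (nat_lit 0) (nat_lit 11867066348) (nat_lit 672) (nat_lit 1821857303) (nat_lit 756) (nat_lit 527351236) (nat_lit 67) (nat_lit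 5) (nat_lit 75) (nat_lit 5) (nat_lit 76) (nat_lit 5) (nat_lit 346) (nat_lit 322) (nat_lit 220)) (XT.lf (nat_lit 0) (nat_lit 429563984) (nat_lit 588) (nat_lit 12073002717) (nat_lit 84) (nat_lit 1979601964) (nat_lit 60) (nat_lit 5) (nat_lit 67) (nat_lit 5) (nat_lit 61) (nat_lit 5) (nat_lit 347) (nat_lit 322) (nat_lit 219))) (XT.nd (nat_lit 94) (nat_lit 420) (nat_lit 0) (XT.lf (nat_lit 0) (nat_lit 1436538614) (nat_lit 588) (nat_lit 7426237539) (nat_lit 84) (nat_lit 5892471045) (nat_lit 60) (nat_lit 5) (nat_lit 67) (nat_lit 5) (nat_lit 61) (nat_lit 5) (nat_lit 348) (nat_lit 322) (nat_lit 218)) (XT.nd (nat_lit 94) (nat_lit 420) (nat_lit 0) (XT.lf (nat_lit 0) (nat_lit 2463036284) (nat_lit 588) (nat_lit 2646350773) (nat_lit 84) (nat_lit 9927845239) (nat_lit 60) (nat_lit 5) (nat_lit 67) (nat_lit 5) (nat_lit 61) (nat_lit 5) (nat_lit 349) (nat_lit 322) (nat_lit 217)) (XT.lf (nat_lit 0) (nat_lit 2317811676)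 (nat_lit 420) (nat_lit 1215195099) (nat_lit 504) (nat_lit 11794667241) (nat_lit 55) (nat_lit 5) (nat_lit 60) (nat_lit 5) (nat_lit 61) (nat_lit 5) (nat_lit 350) (nat_lit 322) (nat_lit 216))))))) (XT.nd (nat_lit 752) (nat_lit 1176) (nat_lit 0) (XT.nd (nat_lit 376) (nat_lit 336) (nat_lit 0) (XT.nd (nat_lit 188) (nat_lit 420) (nat_lit 0) (XT.nd (nat_lit 94) (nat_lit 0) (nat_lit 0) (XT.lf (nat_lit 0) (nat_lit 4680726301) (nat_lit 504) (nat_lit 8173271314) (nat_lit 84) (nat_lit 2771813820) (nat_lit 55) (nat_lit 5) (nat_lit 61) (nat_lit 5) (nat_lit 56) (nat_lit 5) (nat_lit 351) (nat_lit 322) (nat_lit 215)) (XT.lf (nat_lit 0) (nat_lit 5865688854) (nat_lit 504) (nat_lit 3209762854) (nat_lit 84) (nat_lit 6857759590) (nat_lit 55) (nat_lit 5) (nat_lit 61) (nat_lit 5) (nat_lit 56) (nat_lit 5) (nat_lit 352) (nat_lit 322) (nat_lit 214))) (XT.nd (nat_lit 94) (nat_lit 0) (nat_lit 0) (XT.lf (nat_lit 0) (nat_lit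 1936357727) (nat_lit 420) (nat_lit 5159795239) (nat_lit 504) (nat_lit 9153785393) (nat_lit 50) (nat_lit 5) (nat_lit 55) (nat_lit 5) (nat_lit 56) (nat_lit 5) (nat_lit 353) (nat_lit 322) (nat_lit 213)) (XT.lf (nat_lit 0) (nat_lit 7299887374) (nat_lit 420) (nat_lit 1088149342) (nat_lit 504) (nat_lit 8187793220) (nat_lit 50) (nat_lit 5) (nat_lit 55) (nat_lit 5) (nat_lit 56) (nat_lit 5) (nat_lit 354) (nat_lit 322) (nat_lit 212)))) (XT.nd (nat_lit 188) (nat_lit 0) (nat_lit 0) (XT.nd (nat_lit 94) (nat_lit 336) (nat_lit 0) (XT.lf (nat_lit 0) (nat_lit 9740897688) (nat_lit 504) (nat_lit 4123220399) (nat_lit 84) (nat_lit 3047122748) (nat_lit 50) (nat_lit 5) (nat_lit 56) (nat_lit 5) (nat_lit 51) (nat_lit 5) (nat_lit 355) (nat_lit 322) (nat_lit 211)) (XT.lf (nat_lit 0) (nat_lit 1192200942) (nat_lit 336) (nat_lit 9956830713) (nat_lit 420) (nat_lit 6107667966) (nat_lit 46) (nat_lit 5) (nat_lit 50) (nat_lit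 5) (nat_lit 51) (nat_lit 5) (nat_lit 356) (nat_lit 322) (nat_lit 210))) (XT.nd (nat_lit 94) (nat_lit 0) (nat_lit 0) (XT.lf (nat_lit 0) (nat_lit 6749984753) (nat_lit 336) (nat_lit 5884441135) (nat_lit 420) (nat_lit 4977461490) (nat_lit 46) (nat_lit 5) (nat_lit 50) (nat_lit 5) (nat_lit 51) (nat_lit 5) (nat_lit 357) (nat_lit 322) (nat_lit 209)) (XT.lf (nat_lit 0) (nat_lit 12470529602) (nat_lit 336) (nat_lit 1686191423) (nat_lit 420) (nat_lit 3821708214) (nat_lit 46) (nat_lit 5) (nat_lit 50) (nat_lit 5) (nat_lit 51) (nat_lit 5) (nat_lit 358) (nat_lit 322) (nat_lit 208))))) (XT.nd (nat_lit 376) (nat_lit 672) (nat_lit 0) (XT.nd (nat_lit 188) (nat_lit 84) (nat_lit 0) (XT.nd (nat_lit 94) (nat_lit 420) (nat_lit 0) (XT.lf (nat_lit 0) (nat_lit 15743543302) (nat_lit 420) (nat_lit 23706522) (nat_lit 84) (nat_lit 2588604610) (nat_lit 46) (nat_lit 5) (nat_lit 51) (nat_lit 5) (nat_lit 47) (nat_lit 5) (nat_lit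 359) (nat_lit 322) (nat_lit 207)) (XT.lf (nat_lit 0) (nat_lit 5719194700) (nat_lit 420) (nat_lit 11725735112) (nat_lit 504) (nat_lit 1298079653) (nat_lit 41) (nat_lit 5) (nat_lit 46) (nat_lit 5) (nat_lit 47) (nat_lit 5) (nat_lit 360) (nat_lit 322) (nat_lit 206))) (XT.nd (nat_lit 94) (nat_lit 0) (nat_lit 0) (XT.lf (nat_lit 0) (nat_lit 47416470) (nat_lit 504) (nat_lit 7511517558) (nat_lit 84) (nat_lit 11583525895) (nat_lit 40) (nat_lit 5) (nat_lit 46) (nat_lit 5) (nat_lit 41) (nat_lit 5) (nat_lit 361) (nat_lit 322) (nat_lit 205)) (XT.lf (nat_lit 0) (nat_lit 1399336551) (nat_lit 504) (nat_lit 1850752625) (nat_lit 84) (nat_lit 16304101884) (nat_lit 40) (nat_lit 5) (nat_lit 46) (nat_lit 5) (nat_lit 41) (nat_lit 5) (nat_lit 362) (nat_lit 322) (nat_lit 204)))) (XT.nd (nat_lit 188) (nat_lit 336) (nat_lit 0) (XT.nd (nat_lit 94) (nat_lit 0) (nat_lit 0) (XT.lf (nat_lit 0) (nat_lit 2837585960) (nat_lit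 420) (nat_lit 15931568460) (nat_lit 84) (nat_lit 1208204178) (nat_lit 36) (nat_lit 5) (nat_lit 41) (nat_lit 5) (nat_lit 37) (nat_lit 5) (nat_lit 363) (nat_lit 322) (nat_lit 203)) (XT.lf (nat_lit 0) (nat_lit 4365252673) (nat_lit 420) (nat_lit 10291180990) (nat_lit 84) (nat_lit 5755869138) (nat_lit 36) (nat_lit 5) (nat_lit 41) (nat_lit 5) (nat_lit 37) (nat_lit 5) (nat_lit 364) (nat_lit 322) (nat_lit 202))) (XT.nd (nat_lit 94) (nat_lit 336) (nat_lit 0) (XT.lf (nat_lit 0) (nat_lit 5932590504) (nat_lit 420) (nat_lit 4484727046) (nat_lit 84) (nat_lit 10443697810) (nat_lit 36) (nat_lit 5) (nat_lit 41) (nat_lit 5) (nat_lit 37) (nat_lit 5) (nat_lit 365) (nat_lit 322) (nat_lit 201)) (XT.nd (nat_lit 94) (nat_lit 0) (nat_lit 0) (XT.lf (nat_lit 0) (nat_lit 1523908965) (nat_lit 336) (nat_lit 6032268774) (nat_lit 420) (nat_lit 13767268143) (nat_lit 32) (nat_lit 5) (nat_lit 36) (nat_lit 5) (nat_lit 37)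 (nat_lit 5) (nat_lit 366) (nat_lit 322) (nat_lit 200)) (XT.lf (nat_lit 0) (nat_lit 7805451447) (nat_lit 336) (nat_lit 1464141143) (nat_lit 420) (nat_lit 12529438799) (nat_lit 32) (nat_lit 5) (nat_lit 36) (nat_lit 5) (nat_lit 37) (nat_lit 5) (nat_lit 367) (nat_lit 322) (nat_lit 199))))))))
noncomputable def xc97 : XT := (XT.nd (nat_lit 52546) (nat_lit 0) (nat_lit 2604) (XT.nd (nat_lit 51700) (nat_lit 0) (nat_lit 4536) (XT.nd (nat_lit 376) (nat_lit 0) (nat_lit 0) (XT.nd (nat_lit 188) (nat_lit 252) (nat_lit 0) (XT.nd (nat_lit 94) (nat_lit 0) (nat_lit 0) (XT.lf (nat_lit 0) (nat_lit 11061214267) (nat_lit 420) (nat_lit 8048268390) (nat_lit 84) (nat_lit 3179142277) (nat_lit 32) (nat_lit 5) (nat_lit 37) (nat_lit 5) (nat_lit 33) (nat_lit 5) (nat_lit 368) (nat_lit 322) (nat_lit 198)) (XT.lf (nat_lit 0) (nat_lit 12916458817) (nat_lit 420) (nat_lit 1941806675) (nat_lit 84) (nat_lit 7934921247) (nat_lit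 32) (nat_lit 5) (nat_lit 37) (nat_lit 5) (nat_lit 33) (nat_lit 5) (nat_lit 369) (nat_lit 322) (nat_lit 197))) (XT.nd (nat_lit 94) (nat_lit 0) (nat_lit 0) (XT.lf (nat_lit 0) (nat_lit 4435384640) (nat_lit 252) (nat_lit 10431145985) (nat_lit 336) (nat_lit 8445742755) (nat_lit 29) (nat_lit 5) (nat_lit 32) (nat_lit 5) (nat_lit 33) (nat_lit 5) (nat_lit 370) (nat_lit 322) (nat_lit 196)) (XT.lf (nat_lit 0) (nat_lit 11043580665) (nat_lit 252) (nat_lit 5847180680) (nat_lit 336) (nat_lit 6956304423) (nat_lit 29) (nat_lit 5) (nat_lit 32) (nat_lit 5) (nat_lit 33) (nat_lit 5) (nat_lit 371) (nat_lit 322) (nat_lit 195)))) (XT.nd (nat_lit 51136) (nat_lit 0) (nat_lit 5292) (XT.nd (nat_lit 94) (nat_lit 0) (nat_lit 0) (XT.lf (nat_lit 0) (nat_lit 17849013399) (nat_lit 252) (nat_lit 1122365323) (nat_lit 336) (nat_lit 5427293093) (nat_lit 29) (nat_lit 5) (nat_lit 32) (nat_lit 5) (nat_lit 33) (nat_lit 5) (nat_lit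 372) (nat_lit 322) (nat_lit 194)) (XT.lf (nat_lit 0) (nat_lit 21147499800) (nat_lit 336) (nat_lit 146757145) (nat_lit 84) (nat_lit 3672196223) (nat_lit 29) (nat_lit 5) (nat_lit 33) (nat_lit 5) (nat_lit 30) (nat_lit 5) (nat_lit 373) (nat_lit 322) (nat_lit 193))) (XT.nd (nat_lit 94) (nat_lit 0) (nat_lit 0) (XT.lf (nat_lit 0) (nat_lit 2961676500) (nat_lit 924) (nat_lit 1014169636) (nat_lit 924) (nat_lit 1014169636) (nat_lit 92) (nat_lit 3) (nat_lit 103) (nat_lit 3) (nat_lit 103) (nat_lit 5) (nat_lit 323) (nat_lit 323) (nat_lit 242)) (XT.lf (nat_lit 84) (nat_lit 1272520420) (nat_lit 0) (nat_lit 5296437951) (nat_lit 924) (nat_lit 3544409446) (nat_lit 93) (nat_lit 5) (nat_lit 92) (nat_lit 3) (nat_lit 103) (nat_lit 5) (nat_lit 324) (nat_lit 323) (nat_lit 241))))) (XT.nd (nat_lit 376) (nat_lit 756) (nat_lit 0) (XT.nd (nat_lit 188) (nat_lit 0) (nat_lit 84) (XT.nd (nat_lit 94) (nat_lit 0) (nat_lit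 84) (XT.lf (nat_lit 84) (nat_lit 4707147889) (nat_lit 0) (nat_lit 2526679926) (nat_lit 924) (nat_lit 3017201638) (nat_lit 93) (nat_lit 5) (nat_lit 92) (nat_lit 3) (nat_lit 103) (nat_lit 5) (nat_lit 325) (nat_lit 323) (nat_lit 240)) (XT.lf (nat_lit 0) (nat_lit 7901408788) (nat_lit 840) (nat_lit 2160106451) (nat_lit 924) (nat_lit 332161874) (nat_lit 93) (nat_lit 5) (nat_lit 103) (nat_lit 5) (nat_lit 104) (nat_lit 5) (nat_lit 326) (nat_lit 323) (nat_lit 239))) (XT.nd (nat_lit 94) (nat_lit 0) (nat_lit 0) (XT.lf (nat_lit 84) (nat_lit 1317499683) (nat_lit 0) (nat_lit 7290570597) (nat_lit 924) (nat_lit 1932265328) (nat_lit 94) (nat_lit 5) (nat_lit 93) (nat_lit 5) (nat_lit 104) (nat_lit 5) (nat_lit 327) (nat_lit 323) (nat_lit 238)) (XT.lf (nat_lit 84) (nat_lit 4937055179) (nat_lit 0) (nat_lit 4402105554) (nat_lit 924) (nat_lit 1352455525) (nat_lit 94) (nat_lit 5) (nat_lit 93) (nat_lit 5) (nat_lit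 104) (nat_lit 5) (nat_lit 328) (nat_lit 323) (nat_lit 237)))) (XT.nd (nat_lit 188) (nat_lit 840) (nat_lit 0) (XT.nd (nat_lit 94) (nat_lit 0) (nat_lit 84) (XT.lf (nat_lit 84) (nat_lit 8657517621) (nat_lit 0) (nat_lit 1415974841) (nat_lit 924) (nat_lit 774845554) (nat_lit 94) (nat_lit 5) (nat_lit 93) (nat_lit 5) (nat_lit 104) (nat_lit 5) (nat_lit 329) (nat_lit 323) (nat_lit 236)) (XT.lf (nat_lit 84) (nat_lit 1485055865) (nat_lit 0) (nat_lit 9357998623) (nat_lit 924) (nat_lit 166622035) (nat_lit 95) (nat_lit 5) (nat_lit 94) (nat_lit 5) (nat_lit 105) (nat_lit 5) (nat_lit 330) (nat_lit 323) (nat_lit 235))) (XT.nd (nat_lit 94) (nat_lit 0) (nat_lit 0) (XT.lf (nat_lit 0) (nat_lit 470126134) (nat_lit 924) (nat_lit 5885429682) (nat_lit 1008) (nat_lit 4819867993) (nat_lit 83) (nat_lit 5) (nat_lit 94) (nat_lit 5) (nat_lit 95) (nat_lit 5) (nat_lit 331) (nat_lit 323) (nat_lit 234)) (XT.nd (nat_lit 94)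 (nat_lit 0) (nat_lit 0) (XT.lf (nat_lit 0) (nat_lit 1105075981) (nat_lit 924) (nat_lit 2146928935) (nat_lit 1008) (nat_lit 8094944030) (nat_lit 83) (nat_lit 5) (nat_lit 94) (nat_lit 5) (nat_lit 95) (nat_lit 5) (nat_lit 332) (nat_lit 323) (nat_lit 233)) (XT.lf (nat_lit 84) (nat_lit 1730892799) (nat_lit 0) (nat_lit 28454277) (nat_lit 1008) (nat_lit 9764583686) (nat_lit 84) (nat_lit 5) (nat_lit 83) (nat_lit 5) (nat_lit 95) (nat_lit 5) (nat_lit 333) (nat_lit 323) (nat_lit 232))))))) (XT.nd (nat_lit 752) (nat_lit 2016) (nat_lit 0) (XT.nd (nat_lit 376) (nat_lit 0) (nat_lit 84) (XT.nd (nat_lit 188) (nat_lit 0) (nat_lit 0) (XT.nd (nat_lit 94) (nat_lit 0) (nat_lit 0) (XT.lf (nat_lit 0) (nat_lit 2472165706) (nat_lit 924) (nat_lit 5976222492) (nat_lit 1008) (nat_lit 3256948915) (nat_lit 84) (nat_lit 5) (nat_lit 95) (nat_lit 5) (nat_lit 96) (nat_lit 5) (nat_lit 334) (nat_lit 323) (nat_lit 231)) (XT.lf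 (nat_lit 0) (nat_lit 3190825039) (nat_lit 924) (nat_lit 2053057344) (nat_lit 1008) (nat_lit 6649109215) (nat_lit 84) (nat_lit 5) (nat_lit 95) (nat_lit 5) (nat_lit 96) (nat_lit 5) (nat_lit 335) (nat_lit 323) (nat_lit 230))) (XT.nd (nat_lit 94) (nat_lit 0) (nat_lit 84) (XT.lf (nat_lit 84) (nat_lit 2021117566) (nat_lit 0) (nat_lit 1914644842) (nat_lit 1008) (nat_lit 8150693932) (nat_lit 85) (nat_lit 5) (nat_lit 84) (nat_lit 5) (nat_lit 96) (nat_lit 5) (nat_lit 336) (nat_lit 323) (nat_lit 229)) (XT.lf (nat_lit 0) (nat_lit 4724863963) (nat_lit 924) (nat_lit 6047272898) (nat_lit 1008) (nat_lit 1513241860) (nat_lit 85) (nat_lit 5) (nat_lit 96) (nat_lit 5) (nat_lit 97) (nat_lit 5) (nat_lit 337) (nat_lit 323) (nat_lit 228)))) (XT.nd (nat_lit 188) (nat_lit 0) (nat_lit 0) (XT.nd (nat_lit 94) (nat_lit 0) (nat_lit 0) (XT.lf (nat_lit 0) (nat_lit 5542845563) (nat_lit 924) (nat_lit 1935731171) (nat_lit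 1008) (nat_lit 5011864035) (nat_lit 85) (nat_lit 5) (nat_lit 96) (nat_lit 5) (nat_lit 97) (nat_lit 5) (nat_lit 338) (nat_lit 323) (nat_lit 227)) (XT.lf (nat_lit 84) (nat_lit 2339242837) (nat_lit 0) (nat_lit 4055438882) (nat_lit 1008) (nat_lit 6307021330) (nat_lit 86) (nat_lit 5) (nat_lit 85) (nat_lit 5) (nat_lit 97) (nat_lit 5) (nat_lit 339) (nat_lit 323) (nat_lit 226))) (XT.nd (nat_lit 94) (nat_lit 0) (nat_lit 84) (XT.lf (nat_lit 84) (nat_lit 6776734427) (nat_lit 0) (nat_lit 502019681) (nat_lit 1008) (nat_lit 5640683151) (nat_lit 86) (nat_lit 5) (nat_lit 85) (nat_lit 5) (nat_lit 97) (nat_lit 5) (nat_lit 340) (nat_lit 323) (nat_lit 225)) (XT.lf (nat_lit 0) (nat_lit 8207684330) (nat_lit 924) (nat_lit 1834771762) (nat_lit 84) (nat_lit 3101024537) (nat_lit 86) (nat_lit 5) (nat_lit 97) (nat_lit 5) (nat_lit 87) (nat_lit 5) (nat_lit 341) (nat_lit 323) (nat_lit 224))))) (XT.nd (nat_lit 376) (nat_lit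 588) (nat_lit 0) (XT.nd (nat_lit 188) (nat_lit 672) (nat_lit 0) (XT.nd (nat_lit 94) (nat_lit 0) (nat_lit 0) (XT.lf (nat_lit 0) (nat_lit 2643902709) (nat_lit 924) (nat_lit 6539377854) (nat_lit 1008) (nat_lit 4190732215) (nat_lit 75) (nat_lit 5) (nat_lit 86) (nat_lit 5) (nat_lit 87) (nat_lit 5) (nat_lit 342) (nat_lit 323) (nat_lit 223)) (XT.lf (nat_lit 0) (nat_lit 7289486285) (nat_lit 924) (nat_lit 2905590417) (nat_lit 1008) (nat_lit 3416524523) (nat_lit 75) (nat_lit 5) (nat_lit 86) (nat_lit 5) (nat_lit 87) (nat_lit 5) (nat_lit 343) (nat_lit 323) (nat_lit 222))) (XT.nd (nat_lit 94) (nat_lit 672) (nat_lit 0) (XT.lf (nat_lit 0) (nat_lit 11233804504) (nat_lit 1008) (nat_lit 1796824877) (nat_lit 84) (nat_lit 826154599) (nat_lit 75) (nat_lit 5) (nat_lit 87) (nat_lit 5) (nat_lit 76) (nat_lit 5) (nat_lit 344) (nat_lit 323) (nat_lit 221)) (XT.lf (nat_lit 0) (nat_lit 2886507990) (nat_lit 672) (nat_lit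 9464185576) (nat_lit 756) (nat_lit 1757537909) (nat_lit 67) (nat_lit 5) (nat_lit 75) (nat_lit 5) (nat_lit 76) (nat_lit 5) (nat_lit 345) (nat_lit 323) (nat_lit 220)))) (XT.nd (nat_lit 188) (nat_lit 504) (nat_lit 0) (XT.nd (nat_lit 94) (nat_lit 84) (nat_lit 0) (XT.lf (nat_lit 0) (nat_lit 7742543516) (nat_lit 672) (nat_lit 5766294365) (nat_lit 756) (nat_lit 858516564) (nat_lit 67) (nat_lit 5) (nat_lit 75) (nat_lit 5) (nat_lit 76) (nat_lit 5) (nat_lit 346) (nat_lit 323) (nat_lit 219)) (XT.lf (nat_lit 0) (nat_lit 55035726) (nat_lit 756) (nat_lit 1896653907) (nat_lit 84) (nat_lit 12683251441) (nat_lit 66) (nat_lit 5) (nat_lit 75) (nat_lit 5) (nat_lit 67) (nat_lit 5) (nat_lit 347) (nat_lit 323) (nat_lit 218))) (XT.nd (nat_lit 94) (nat_lit 0) (nat_lit 0) (XT.lf (nat_lit 0) (nat_lit 1017493697) (nat_lit 588) (nat_lit 11910247432) (nat_lit 84) (nat_lit 1981697216) (nat_lit 60) (nat_lit 5) (nat_lit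 67) (nat_lit 5) (nat_lit 61) (nat_lit 5) (nat_lit 348) (nat_lit 323) (nat_lit 217)) (XT.nd (nat_lit 94) (nat_lit 0) (nat_lit 0) (XT.lf (nat_lit 0) (nat_lit 2038407131) (nat_lit 588) (nat_lit 7135579546) (nat_lit 84) (nat_lit 6017647434) (nat_lit 60) (nat_lit 5) (nat_lit 67) (nat_lit 5) (nat_lit 61) (nat_lit 5) (nat_lit 349) (nat_lit 323) (nat_lit 216)) (XT.lf (nat_lit 0) (nat_lit 3079968313) (nat_lit 588) (nat_lit 2223177796) (nat_lit 84) (nat_lit 10179846838) (nat_lit 60) (nat_lit 5) (nat_lit 67) (nat_lit 5) (nat_lit 61) (nat_lit 5) (nat_lit 350) (nat_lit 323) (nat_lit 215))))))))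
noncomputable def xc98 : XT := (XT.nd (nat_lit 1598) (nat_lit 252) (nat_lit 0) (XT.nd (nat_lit 752) (nat_lit 1176) (nat_lit 0) (XT.nd (nat_lit 376) (nat_lit 336) (nat_lit 0) (XT.nd (nat_lit 188) (nat_lit 420) (nat_lit 0) (XT.nd (nat_lit 94) (nat_lit 0) (nat_lit 0) (XT.lf (nat_lit 0) (nat_lit 2889758893) (nat_lit 420) (nat_lit 1282055961) (nat_lit 504) (nat_lit 11611082906) (nat_lit 55) (nat_lit 5) (nat_lit 60) (nat_lit 5) (nat_lit 61) (nat_lit 5) (nat_lit 351) (nat_lit 323) (nat_lit 214)) (XT.lf (nat_lit 0) (nat_lit 5338918344) (nat_lit 504) (nat_lit 7921968843) (nat_lit 84) (nat_lit 2829998337) (nat_lit 55) (nat_lit 5) (nat_lit 61) (nat_lit 5) (nat_lit 56) (nat_lit 5) (nat_lit 352) (nat_lit 323) (nat_lit 213))) (XT.nd (nat_lit 94) (nat_lit 420) (nat_lit 0) (XT.lf (nat_lit 0) (nat_lit 6545187214) (nat_lit 504) (nat_lit 2819766103) (nat_lit 84) (nat_lit 7043442560) (nat_lit 55) (nat_lit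 5) (nat_lit 61) (nat_lit 5) (nat_lit 56) (nat_lit 5) (nat_lit 353) (nat_lit 323) (nat_lit 212)) (XT.lf (nat_lit 0) (nat_lit 2480928475) (nat_lit 420) (nat_lit 5322710323) (nat_lit 504) (nat_lit 8931717293) (nat_lit 50) (nat_lit 5) (nat_lit 55) (nat_lit 5) (nat_lit 56) (nat_lit 5) (nat_lit 354) (nat_lit 323) (nat_lit 211)))) (XT.nd (nat_lit 188) (nat_lit 336) (nat_lit 0) (XT.nd (nat_lit 94) (nat_lit 0) (nat_lit 0) (XT.lf (nat_lit 0) (nat_lit 7996158332) (nat_lit 420) (nat_lit 1124754359) (nat_lit 504) (nat_lit 7950988769) (nat_lit 50) (nat_lit 5) (nat_lit 55) (nat_lit 5) (nat_lit 56) (nat_lit 5) (nat_lit 355) (nat_lit 323) (nat_lit 210)) (XT.lf (nat_lit 0) (nat_lit 10501467207) (nat_lit 504) (nat_lit 3777924666) (nat_lit 84) (nat_lit 3138853665) (nat_lit 50) (nat_lit 5) (nat_lit 56) (nat_lit 5) (nat_lit 51) (nat_lit 5) (nat_lit 356) (nat_lit 323) (nat_lit 209))) (XT.nd (nat_lit 94) (nat_lit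 0) (nat_lit 0) (XT.lf (nat_lit 0) (nat_lit 1697484866) (nat_lit 336) (nat_lit 10246625122) (nat_lit 420) (nat_lit 5830678020) (nat_lit 46) (nat_lit 5) (nat_lit 50) (nat_lit 5) (nat_lit 51) (nat_lit 5) (nat_lit 357) (nat_lit 323) (nat_lit 208)) (XT.lf (nat_lit 0) (nat_lit 7413478407) (nat_lit 336) (nat_lit 6048558768) (nat_lit 420) (nat_lit 4679456634) (nat_lit 46) (nat_lit 5) (nat_lit 50) (nat_lit 5) (nat_lit 51) (nat_lit 5) (nat_lit 358) (nat_lit 323) (nat_lit 207))))) (XT.nd (nat_lit 376) (nat_lit 672) (nat_lit 0) (XT.nd (nat_lit 188) (nat_lit 84) (nat_lit 0) (XT.nd (nat_lit 94) (nat_lit 420) (nat_lit 0) (XT.lf (nat_lit 0) (nat_lit 13297701982) (nat_lit 336) (nat_lit 1720713559) (nat_lit 420) (nat_lit 3501474902) (nat_lit 46) (nat_lit 5) (nat_lit 50) (nat_lit 5) (nat_lit 51) (nat_lit 5) (nat_lit 359) (nat_lit 323) (nat_lit 206)) (XT.lf (nat_lit 0) (nat_lit 426716569) (nat_lit 420) (nat_lit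 16219402813) (nat_lit 504) (nat_lit 2263237098) (nat_lit 41) (nat_lit 5) (nat_lit 46) (nat_lit 5) (nat_lit 47) (nat_lit 5) (nat_lit 360) (nat_lit 323) (nat_lit 205))) (XT.nd (nat_lit 94) (nat_lit 84) (nat_lit 0) (XT.lf (nat_lit 0) (nat_lit 6334569813) (nat_lit 420) (nat_lit 12053455136) (nat_lit 504) (nat_lit 920947864) (nat_lit 41) (nat_lit 5) (nat_lit 46) (nat_lit 5) (nat_lit 47) (nat_lit 5) (nat_lit 361) (nat_lit 323) (nat_lit 204)) (XT.lf (nat_lit 0) (nat_lit 445552857) (nat_lit 504) (nat_lit 7308865739) (nat_lit 84) (nat_lit 11966716269) (nat_lit 40) (nat_lit 5) (nat_lit 46) (nat_lit 5) (nat_lit 41) (nat_lit 5) (nat_lit 362) (nat_lit 323) (nat_lit 203)))) (XT.nd (nat_lit 188) (nat_lit 336) (nat_lit 0) (XT.nd (nat_lit 94) (nat_lit 336) (nat_lit 0) (XT.lf (nat_lit 0) (nat_lit 1827455535) (nat_lit 504) (nat_lit 1485711928) (nat_lit 84) (nat_lit 16832905445) (nat_lit 40) (nat_lit 5) (nat_lit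 46) (nat_lit 5) (nat_lit 41) (nat_lit 5) (nat_lit 363) (nat_lit 323) (nat_lit 202)) (XT.lf (nat_lit 0) (nat_lit 3303275265) (nat_lit 420) (nat_lit 15993717789) (nat_lit 84) (nat_lit 1285654359) (nat_lit 36) (nat_lit 5) (nat_lit 41) (nat_lit 5) (nat_lit 37) (nat_lit 5) (nat_lit 364) (nat_lit 323) (nat_lit 201))) (XT.nd (nat_lit 94) (nat_lit 336) (nat_lit 0) (XT.lf (nat_lit 0) (nat_lit 4866942276) (nat_lit 420) (nat_lit 10191459499) (nat_lit 84) (nat_lit 5973094341) (nat_lit 36) (nat_lit 5) (nat_lit 41) (nat_lit 5) (nat_lit 37) (nat_lit 5) (nat_lit 365) (nat_lit 323) (nat_lit 200)) (XT.nd (nat_lit 94) (nat_lit 336) (nat_lit 0) (XT.lf (nat_lit 0) (nat_lit 6471851701) (nat_lit 420) (nat_lit 4217596356) (nat_lit 84) (nat_lit 10805079271) (nat_lit 36) (nat_lit 5) (nat_lit 41) (nat_lit 5) (nat_lit 37) (nat_lit 5) (nat_lit 366) (nat_lit 323) (nat_lit 199)) (XT.lf (nat_lit 0) (nat_lit 1973195394)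 (nat_lit 336) (nat_lit 6165878432) (nat_lit 420) (nat_lit 13832492012) (nat_lit 32) (nat_lit 5) (nat_lit 36) (nat_lit 5) (nat_lit 37) (nat_lit 5) (nat_lit 367) (nat_lit 323) (nat_lit 198))))))) (XT.nd (nat_lit 51888) (nat_lit 0) (nat_lit 4452) (XT.nd (nat_lit 376) (nat_lit 0) (nat_lit 0) (XT.nd (nat_lit 188) (nat_lit 252) (nat_lit 0) (XT.nd (nat_lit 94) (nat_lit 0) (nat_lit 0) (XT.lf (nat_lit 0) (nat_lit 8437377039) (nat_lit 336) (nat_lit 1457744190) (nat_lit 420) (nat_lit 12567161350) (nat_lit 32) (nat_lit 5) (nat_lit 36) (nat_lit 5) (nat_lit 37) (nat_lit 5) (nat_lit 368) (nat_lit 323) (nat_lit 197)) (XT.lf (nat_lit 0) (nat_lit 11732613350) (nat_lit 420) (nat_lit 7907889188) (nat_lit 84) (nat_lit 3326911952) (nat_lit 32) (nat_lit 5) (nat_lit 37) (nat_lit 5) (nat_lit 33) (nat_lit 5) (nat_lit 369) (nat_lit 323) (nat_lit 196))) (XT.nd (nat_lit 94) (nat_lit 252) (nat_lit 0) (XT.lf (nat_lit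 0) (nat_lit 13635493134) (nat_lit 420) (nat_lit 1623849897) (nat_lit 84) (nat_lit 8228640241) (nat_lit 32) (nat_lit 5) (nat_lit 37) (nat_lit 5) (nat_lit 33) (nat_lit 5) (nat_lit 370) (nat_lit 323) (nat_lit 195)) (XT.lf (nat_lit 0) (nat_lit 4947205893) (nat_lit 252) (nat_lit 10692944263) (nat_lit 336) (nat_lit 8383250897) (nat_lit 29) (nat_lit 5) (nat_lit 32) (nat_lit 5) (nat_lit 33) (nat_lit 5) (nat_lit 371) (nat_lit 323) (nat_lit 194)))) (XT.nd (nat_lit 51324) (nat_lit 0) (nat_lit 5292) (XT.nd (nat_lit 51230) (nat_lit 0) (nat_lit 5292) (XT.lf (nat_lit 0) (nat_lit 11749000849) (nat_lit 252) (nat_lit 5968727232) (nat_lit 336) (nat_lit 6857391293) (nat_lit 29) (nat_lit 5) (nat_lit 32) (nat_lit 5) (nat_lit 33) (nat_lit 5) (nat_lit 372) (nat_lit 323) (nat_lit 193)) (XT.lf (nat_lit 0) (nat_lit 3589289839) (nat_lit 924) (nat_lit 767330744) (nat_lit 924) (nat_lit 767330744) (nat_lit 92) (nat_lit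 3) (nat_lit 103) (nat_lit 3) (nat_lit 103) (nat_lit 5) (nat_lit 324) (nat_lit 324) (nat_lit 240))) (XT.nd (nat_lit 94) (nat_lit 0) (nat_lit 0) (XT.lf (nat_lit 84) (nat_lit 1862890222) (nat_lit 0) (nat_lit 5954552966) (nat_lit 924) (nat_lit 2569007855) (nat_lit 93) (nat_lit 5) (nat_lit 92) (nat_lit 3) (nat_lit 103) (nat_lit 5) (nat_lit 325) (nat_lit 324) (nat_lit 239)) (XT.lf (nat_lit 84) (nat_lit 5387426088) (nat_lit 0) (nat_lit 3084081143) (nat_lit 924) (nat_lit 2058088639) (nat_lit 93) (nat_lit 5) (nat_lit 92) (nat_lit 3) (nat_lit 103) (nat_lit 5) (nat_lit 326) (nat_lit 324) (nat_lit 238))))) (XT.nd (nat_lit 376) (nat_lit 0) (nat_lit 84) (XT.nd (nat_lit 188) (nat_lit 840) (nat_lit 0) (XT.nd (nat_lit 94) (nat_lit 0) (nat_lit 84) (XT.lf (nat_lit 84) (nat_lit 9010675557) (nat_lit 0) (nat_lit 115168838) (nat_lit 924) (nat_lit 1552107818) (nat_lit 93) (nat_lit 5) (nat_lit 92) (nat_lit 3) (nat_lit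 103) (nat_lit 5) (nat_lit 327) (nat_lit 324) (nat_lit 237)) (XT.lf (nat_lit 84) (nat_lit 1913598787) (nat_lit 0) (nat_lit 7915762423) (nat_lit 924) (nat_lit 1000799951) (nat_lit 94) (nat_lit 5) (nat_lit 93) (nat_lit 5) (nat_lit 104) (nat_lit 5) (nat_lit 328) (nat_lit 324) (nat_lit 236))) (XT.nd (nat_lit 94) (nat_lit 924) (nat_lit 0) (XT.lf (nat_lit 84) (nat_lit 5628665105) (nat_lit 0) (nat_lit 4925752338) (nat_lit 924) (nat_lit 432824322) (nat_lit 94) (nat_lit 5) (nat_lit 93) (nat_lit 5) (nat_lit 104) (nat_lit 5) (nat_lit 329) (nat_lit 324) (nat_lit 235)) (XT.lf (nat_lit 0) (nat_lit 131084193) (nat_lit 924) (nat_lit 1702957396) (nat_lit 1008) (nat_lit 9315816038) (nat_lit 82) (nat_lit 5) (nat_lit 93) (nat_lit 5) (nat_lit 94) (nat_lit 5) (nat_lit 330) (nat_lit 324) (nat_lit 234)))) (XT.nd (nat_lit 188) (nat_lit 0) (nat_lit 0) (XT.nd (nat_lit 94) (nat_lit 0) (nat_lit 0) (XT.lf (nat_lit 0)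 (nat_lit 719963893) (nat_lit 924) (nat_lit 9238267908) (nat_lit 1008) (nat_lit 1358766789) (nat_lit 83) (nat_lit 5) (nat_lit 94) (nat_lit 5) (nat_lit 95) (nat_lit 5) (nat_lit 331) (nat_lit 324) (nat_lit 233)) (XT.lf (nat_lit 0) (nat_lit 1346281112) (nat_lit 924) (nat_lit 5505402891) (nat_lit 1008) (nat_lit 4637170444) (nat_lit 83) (nat_lit 5) (nat_lit 94) (nat_lit 5) (nat_lit 95) (nat_lit 5) (nat_lit 332) (nat_lit 324) (nat_lit 232))) (XT.nd (nat_lit 94) (nat_lit 0) (nat_lit 0) (XT.lf (nat_lit 0) (nat_lit 1975008474) (nat_lit 924) (nat_lit 1667921064) (nat_lit 1008) (nat_lit 8023759791) (nat_lit 83) (nat_lit 5) (nat_lit 94) (nat_lit 5) (nat_lit 95) (nat_lit 5) (nat_lit 333) (nat_lit 324) (nat_lit 231)) (XT.nd (nat_lit 94) (nat_lit 0) (nat_lit 84) (XT.lf (nat_lit 84) (nat_lit 2324589812) (nat_lit 0) (nat_lit 305202426) (nat_lit 1008) (nat_lit 9220161893) (nat_lit 84) (nat_lit 5) (nat_lit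 83) (nat_lit 5) (nat_lit 95) (nat_lit 5) (nat_lit 334) (nat_lit 324) (nat_lit 230)) (XT.lf (nat_lit 0) (nat_lit 3337521346) (nat_lit 924) (nat_lit 5604749749) (nat_lit 1008) (nat_lit 3095733943) (nat_lit 84) (nat_lit 5) (nat_lit 95) (nat_lit 5) (nat_lit 96) (nat_lit 5) (nat_lit 335) (nat_lit 324) (nat_lit 229))))))))
noncomputable def xc99 : XT := (XT.nd (nat_lit 1598) (nat_lit 1932) (nat_lit 0) (XT.nd (nat_lit 752) (nat_lit 1680) (nat_lit 0) (XT.nd (nat_lit 376) (nat_lit 756) (nat_lit 0) (XT.nd (nat_lit 188) (nat_lit 0) (nat_lit 84) (XT.nd (nat_lit 94) (nat_lit 0) (nat_lit 0) (XT.lf (nat_lit 0) (nat_lit 4054744014) (nat_lit 924) (nat_lit 1576706350) (nat_lit 1008) (nat_lit 6600934425) (nat_lit 84) (nat_lit 5) (nat_lit 95) (nat_lit 5) (nat_lit 96) (nat_lit 5) (nat_lit 336) (nat_lit 324) (nat_lit 228)) (XT.lf (nat_lit 84) (nat_lit 2618301011) (nat_lit 0) (nat_lit 2186773980) (nat_lit 1008)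 (nat_lit 7627488241) (nat_lit 85) (nat_lit 5) (nat_lit 84) (nat_lit 5) (nat_lit 96) (nat_lit 5) (nat_lit 337) (nat_lit 324) (nat_lit 227))) (XT.nd (nat_lit 94) (nat_lit 0) (nat_lit 0) (XT.lf (nat_lit 0) (nat_lit 5594121547) (nat_lit 924) (nat_lit 5686520307) (nat_lit 1008) (nat_lit 1357932956) (nat_lit 85) (nat_lit 5) (nat_lit 96) (nat_lit 5) (nat_lit 97) (nat_lit 5) (nat_lit 338) (nat_lit 324) (nat_lit 226)) (XT.lf (nat_lit 0) (nat_lit 6415727899) (nat_lit 924) (nat_lit 1464004550) (nat_lit 1008) (nat_lit 4971092730) (nat_lit 85) (nat_lit 5) (nat_lit 96) (nat_lit 5) (nat_lit 97) (nat_lit 5) (nat_lit 339) (nat_lit 324) (nat_lit 225)))) (XT.nd (nat_lit 188) (nat_lit 840) (nat_lit 0) (XT.nd (nat_lit 94) (nat_lit 0) (nat_lit 0) (XT.lf (nat_lit 84) (nat_lit 2938110320) (nat_lit 0) (nat_lit 4340002899) (nat_lit 1008) (nat_lit 5791167902) (nat_lit 86) (nat_lit 5) (nat_lit 85) (nat_lit 5) (nat_lit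 97) (nat_lit 5) (nat_lit 340) (nat_lit 324) (nat_lit 224)) (XT.lf (nat_lit 84) (nat_lit 7497337885) (nat_lit 0) (nat_lit 671651556) (nat_lit 1008) (nat_lit 5125562671) (nat_lit 86) (nat_lit 5) (nat_lit 85) (nat_lit 5) (nat_lit 97) (nat_lit 5) (nat_lit 341) (nat_lit 324) (nat_lit 223))) (XT.nd (nat_lit 94) (nat_lit 924) (nat_lit 0) (XT.lf (nat_lit 0) (nat_lit 9105251128) (nat_lit 924) (nat_lit 1370368621) (nat_lit 84) (nat_lit 3050730388) (nat_lit 86) (nat_lit 5) (nat_lit 97) (nat_lit 5) (nat_lit 87) (nat_lit 5) (nat_lit 342) (nat_lit 324) (nat_lit 222)) (XT.lf (nat_lit 0) (nat_lit 3241867257) (nat_lit 924) (nat_lit 6855004884) (nat_lit 1008) (nat_lit 3667736979) (nat_lit 75) (nat_lit 5) (nat_lit 86) (nat_lit 5) (nat_lit 87) (nat_lit 5) (nat_lit 343) (nat_lit 324) (nat_lit 221))))) (XT.nd (nat_lit 376) (nat_lit 1008) (nat_lit 0) (XT.nd (nat_lit 188) (nat_lit 672) (nat_lit 0) (XT.nd (nat_lit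 94) (nat_lit 0) (nat_lit 0) (XT.lf (nat_lit 0) (nat_lit 8015948782) (nat_lit 924) (nat_lit 3105175181) (nat_lit 1008) (nat_lit 2889160416) (nat_lit 75) (nat_lit 5) (nat_lit 86) (nat_lit 5) (nat_lit 87) (nat_lit 5) (nat_lit 344) (nat_lit 324) (nat_lit 220)) (XT.lf (nat_lit 0) (nat_lit 12172657212) (nat_lit 1008) (nat_lit 1343456348) (nat_lit 84) (nat_lit 747686779) (nat_lit 75) (nat_lit 5) (nat_lit 87) (nat_lit 5) (nat_lit 76) (nat_lit 5) (nat_lit 345) (nat_lit 324) (nat_lit 219))) (XT.nd (nat_lit 94) (nat_lit 0) (nat_lit 0) (XT.lf (nat_lit 0) (nat_lit 3479905961) (nat_lit 672) (nat_lit 9831504543) (nat_lit 756) (nat_lit 1212155085) (nat_lit 67) (nat_lit 5) (nat_lit 75) (nat_lit 5) (nat_lit 76) (nat_lit 5) (nat_lit 346) (nat_lit 324) (nat_lit 218)) (XT.lf (nat_lit 0) (nat_lit 8471326888) (nat_lit 672) (nat_lit 6016755809) (nat_lit 756) (nat_lit 303300801) (nat_lit 67) (nat_lit 5) (nat_lit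 75) (nat_lit 5) (nat_lit 76) (nat_lit 5) (nat_lit 347) (nat_lit 324) (nat_lit 217)))) (XT.nd (nat_lit 188) (nat_lit 420) (nat_lit 0) (XT.nd (nat_lit 94) (nat_lit 504) (nat_lit 0) (XT.lf (nat_lit 0) (nat_lit 609707113) (nat_lit 756) (nat_lit 1466263336) (nat_lit 84) (nat_lit 12991763536) (nat_lit 66) (nat_lit 5) (nat_lit 75) (nat_lit 5) (nat_lit 67) (nat_lit 5) (nat_lit 348) (nat_lit 324) (nat_lit 216)) (XT.lf (nat_lit 0) (nat_lit 1589613907) (nat_lit 588) (nat_lit 11774255251) (nat_lit 84) (nat_lit 1987368226) (nat_lit 60) (nat_lit 5) (nat_lit 67) (nat_lit 5) (nat_lit 61) (nat_lit 5) (nat_lit 349) (nat_lit 324) (nat_lit 215))) (XT.nd (nat_lit 94) (nat_lit 420) (nat_lit 0) (XT.lf (nat_lit 0) (nat_lit 2625921617) (nat_lit 588) (nat_lit 6866763258) (nat_lit 84) (nat_lit 6150109536) (nat_lit 60) (nat_lit 5) (nat_lit 67) (nat_lit 5) (nat_lit 61) (nat_lit 5) (nat_lit 350) (nat_lit 324) (nat_lit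 214)) (XT.nd (nat_lit 94) (nat_lit 420) (nat_lit 0) (XT.lf (nat_lit 0) (nat_lit 3684005881) (nat_lit 588) (nat_lit 1816810900) (nat_lit 84) (nat_lit 10442963342) (nat_lit 60) (nat_lit 5) (nat_lit 67) (nat_lit 5) (nat_lit 61) (nat_lit 5) (nat_lit 351) (nat_lit 324) (nat_lit 213)) (XT.lf (nat_lit 0) (nat_lit 3449814988) (nat_lit 420) (nat_lit 1349260548) (nat_lit 504) (nat_lit 11454338639) (nat_lit 55) (nat_lit 5) (nat_lit 60) (nat_lit 5) (nat_lit 61) (nat_lit 5) (nat_lit 352) (nat_lit 324) (nat_lit 212))))))) (XT.nd (nat_lit 846) (nat_lit 756) (nat_lit 0) (XT.nd (nat_lit 376) (nat_lit 756) (nat_lit 0) (XT.nd (nat_lit 188) (nat_lit 420) (nat_lit 0) (XT.nd (nat_lit 94) (nat_lit 0) (nat_lit 0) (XT.lf (nat_lit 0) (nat_lit 5987123170) (nat_lit 504) (nat_lit 7692768694) (nat_lit 84) (nat_lit 2891629763) (nat_lit 55) (nat_lit 5) (nat_lit 61) (nat_lit 5) (nat_lit 56) (nat_lit 5) (nat_lit 353) (nat_lit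 324) (nat_lit 211)) (XT.lf (nat_lit 0) (nat_lit 7216272651) (nat_lit 504) (nat_lit 2446673339) (nat_lit 84) (nat_lit 7236475485) (nat_lit 55) (nat_lit 5) (nat_lit 61) (nat_lit 5) (nat_lit 56) (nat_lit 5) (nat_lit 354) (nat_lit 324) (nat_lit 210))) (XT.nd (nat_lit 94) (nat_lit 0) (nat_lit 0) (XT.lf (nat_lit 0) (nat_lit 3013680565) (nat_lit 420) (nat_lit 5490500364) (nat_lit 504) (nat_lit 8732726581) (nat_lit 50) (nat_lit 5) (nat_lit 55) (nat_lit 5) (nat_lit 56) (nat_lit 5) (nat_lit 355) (nat_lit 324) (nat_lit 209)) (XT.lf (nat_lit 0) (nat_lit 8686176300) (nat_lit 420) (nat_lit 1162323995) (nat_lit 504) (nat_lit 7735904001) (nat_lit 50) (nat_lit 5) (nat_lit 55) (nat_lit 5) (nat_lit 56) (nat_lit 5) (nat_lit 356) (nat_lit 324) (nat_lit 208)))) (XT.nd (nat_lit 188) (nat_lit 420) (nat_lit 0) (XT.nd (nat_lit 94) (nat_lit 336) (nat_lit 0) (XT.lf (nat_lit 0) (nat_lit 11258450618) (nat_lit 504) (nat_lit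 3449948211) (nat_lit 84) (nat_lit 3233589936) (nat_lit 50) (nat_lit 5) (nat_lit 56) (nat_lit 5) (nat_lit 51) (nat_lit 5) (nat_lit 357) (nat_lit 324) (nat_lit 207)) (XT.lf (nat_lit 0) (nat_lit 2190692859) (nat_lit 336) (nat_lit 10546520703) (nat_lit 420) (nat_lit 5572722771) (nat_lit 46) (nat_lit 5) (nat_lit 50) (nat_lit 5) (nat_lit 51) (nat_lit 5) (nat_lit 358) (nat_lit 324) (nat_lit 206))) (XT.nd (nat_lit 94) (nat_lit 420) (nat_lit 0) (XT.lf (nat_lit 0) (nat_lit 8070634708) (nat_lit 336) (nat_lit 6218847991) (nat_lit 420) (nat_lit 4399004497) (nat_lit 46) (nat_lit 5) (nat_lit 50) (nat_lit 5) (nat_lit 51) (nat_lit 5) (nat_lit 359) (nat_lit 324) (nat_lit 205)) (XT.nd (nat_lit 94) (nat_lit 420) (nat_lit 0) (XT.lf (nat_lit 0) (nat_lit 14124420044) (nat_lit 336) (nat_lit 1757357232) (nat_lit 420) (nat_lit 3197299680) (nat_lit 46) (nat_lit 5) (nat_lit 50) (nat_lit 5) (nat_lit 51) (nat_lit 5)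 (nat_lit 360) (nat_lit 324) (nat_lit 204)) (XT.lf (nat_lit 0) (nat_lit 864852714) (nat_lit 420) (nat_lit 16687502298) (nat_lit 504) (nat_lit 1928574695) (nat_lit 41) (nat_lit 5) (nat_lit 46) (nat_lit 5) (nat_lit 47) (nat_lit 5) (nat_lit 361) (nat_lit 324) (nat_lit 203)))))) (XT.nd (nat_lit 376) (nat_lit 336) (nat_lit 0) (XT.nd (nat_lit 188) (nat_lit 336) (nat_lit 0) (XT.nd (nat_lit 94) (nat_lit 84) (nat_lit 0) (XT.lf (nat_lit 0) (nat_lit 6943073322) (nat_lit 420) (nat_lit 12393453660) (nat_lit 504) (nat_lit 556846662) (nat_lit 41) (nat_lit 5) (nat_lit 46) (nat_lit 5) (nat_lit 47) (nat_lit 5) (nat_lit 362) (nat_lit 324) (nat_lit 202)) (XT.lf (nat_lit 0) (nat_lit 832536238) (nat_lit 504) (nat_lit 7125727650) (nat_lit 84) (nat_lit 12360357996) (nat_lit 40) (nat_lit 5) (nat_lit 46) (nat_lit 5) (nat_lit 41) (nat_lit 5) (nat_lit 363) (nat_lit 324) (nat_lit 201))) (XT.nd (nat_lit 94) (nat_lit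 336) (nat_lit 0) (XT.lf (nat_lit 0) (nat_lit 2246057425) (nat_lit 504) (nat_lit 1134375276) (nat_lit 84) (nat_lit 17376717291) (nat_lit 40) (nat_lit 5) (nat_lit 46) (nat_lit 5) (nat_lit 41) (nat_lit 5) (nat_lit 364) (nat_lit 324) (nat_lit 200)) (XT.lf (nat_lit 0) (nat_lit 3761027690) (nat_lit 420) (nat_lit 16083365812) (nat_lit 84) (nat_lit 1363136472) (nat_lit 36) (nat_lit 5) (nat_lit 41) (nat_lit 5) (nat_lit 37) (nat_lit 5) (nat_lit 365) (nat_lit 324) (nat_lit 199)))) (XT.nd (nat_lit 188) (nat_lit 336) (nat_lit 0) (XT.nd (nat_lit 94) (nat_lit 0) (nat_lit 0) (XT.lf (nat_lit 0) (nat_lit 5362483726) (nat_lit 420) (nat_lit 10113449808) (nat_lit 84) (nat_lit 6194755735) (nat_lit 36) (nat_lit 5) (nat_lit 41) (nat_lit 5) (nat_lit 37) (nat_lit 5) (nat_lit 366) (nat_lit 324) (nat_lit 198)) (XT.lf (nat_lit 0) (nat_lit 7006781955) (nat_lit 420) (nat_lit 3966242003) (nat_lit 84) (nat_lit 11175434855)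 (nat_lit 36) (nat_lit 5) (nat_lit 41) (nat_lit 5) (nat_lit 37) (nat_lit 5) (nat_lit 367) (nat_lit 324) (nat_lit 197))) (XT.nd (nat_lit 94) (nat_lit 0) (nat_lit 0) (XT.lf (nat_lit 0) (nat_lit 2412595874) (nat_lit 336) (nat_lit 6306792411) (nat_lit 420) (nat_lit 13921153724) (nat_lit 32) (nat_lit 5) (nat_lit 36) (nat_lit 5) (nat_lit 37) (nat_lit 5) (nat_lit 368) (nat_lit 324) (nat_lit 196)) (XT.nd (nat_lit 94) (nat_lit 0) (nat_lit 0) (XT.lf (nat_lit 0) (nat_lit 9065794527) (nat_lit 336) (nat_lit 1454216265) (nat_lit 420) (nat_lit 12626825273) (nat_lit 32) (nat_lit 5) (nat_lit 36) (nat_lit 5) (nat_lit 37) (nat_lit 5) (nat_lit 369) (nat_lit 324) (nat_lit 195)) (XT.lf (nat_lit 0) (nat_lit 12405368101) (nat_lit 420) (nat_lit 7786251226) (nat_lit 84) (nat_lit 3476347324) (nat_lit 32) (nat_lit 5) (nat_lit 37) (nat_lit 5) (nat_lit 33) (nat_lit 5) (nat_lit 370) (nat_lit 324) (nat_lit 194))))))))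
noncomputable def xc100 : XT := (XT.nd (nat_lit 52828) (nat_lit 0) (nat_lit 1764) (XT.nd (nat_lit 51982) (nat_lit 0) (nat_lit 4452) (XT.nd (nat_lit 51606) (nat_lit 0) (nat_lit 4452) (XT.nd (nat_lit 51418) (nat_lit 0) (nat_lit 5292) (XT.nd (nat_lit 94) (nat_lit 252) (nat_lit 0) (XT.lf (nat_lit 0) (nat_lit 14357944864) (nat_lit 420) (nat_lit 1318435095) (nat_lit 84) (nat_lit 8528637013) (nat_lit 32) (nat_lit 5) (nat_lit 37) (nat_lit 5) (nat_lit 33) (nat_lit 5) (nat_lit 371) (nat_lit 324) (nat_lit 193)) (XT.lf (nat_lit 0) (nat_lit 5452721733) (nat_lit 252) (nat_lit 10966505022) (nat_lit 336) (nat_lit 8338031222) (nat_lit 29) (nat_lit 5) (nat_lit 32) (nat_lit 5) (nat_lit 33) (nat_lit 5) (nat_lit 372) (nat_lit 324) (nat_lit 192))) (XT.nd (nat_lit 94) (nat_lit 0) (nat_lit 0) (XT.lf (nat_lit 0) (nat_lit 4204622759) (nat_lit 924) (nat_lit 529322737) (nat_lit 924) (nat_lit 529322737) (nat_lit 92)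 (nat_lit 3) (nat_lit 103) (nat_lit 3) (nat_lit 103) (nat_lit 5) (nat_lit 325) (nat_lit 325) (nat_lit 238)) (XT.lf (nat_lit 84) (nat_lit 2438929455) (nat_lit 0) (nat_lit 6603813496) (nat_lit 924) (nat_lit 1627651705) (nat_lit 93) (nat_lit 5) (nat_lit 92) (nat_lit 3) (nat_lit 103) (nat_lit 5) (nat_lit 326) (nat_lit 325) (nat_lit 237)))) (XT.nd (nat_lit 188) (nat_lit 840) (nat_lit 0) (XT.nd (nat_lit 94) (nat_lit 0) (nat_lit 0) (XT.lf (nat_lit 84) (nat_lit 6057142054) (nat_lit 0) (nat_lit 3630385416) (nat_lit 924) (nat_lit 1131593176) (nat_lit 93) (nat_lit 5) (nat_lit 92) (nat_lit 3) (nat_lit 103) (nat_lit 5) (nat_lit 327) (nat_lit 325) (nat_lit 236)) (XT.lf (nat_lit 84) (nat_lit 9777596953) (nat_lit 0) (nat_lit 555885297) (nat_lit 924) (nat_lit 639703073) (nat_lit 93) (nat_lit 5) (nat_lit 92) (nat_lit 3) (nat_lit 103) (nat_lit 5) (nat_lit 328) (nat_lit 325) (nat_lit 235))) (XT.nd (nat_lit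 94) (nat_lit 924) (nat_lit 0) (XT.lf (nat_lit 84) (nat_lit 2495288163) (nat_lit 0) (nat_lit 8536690836) (nat_lit 924) (nat_lit 99179430) (nat_lit 94) (nat_lit 5) (nat_lit 93) (nat_lit 5) (nat_lit 104) (nat_lit 5) (nat_lit 329) (nat_lit 325) (nat_lit 234)) (XT.lf (nat_lit 0) (nat_lit 449125813) (nat_lit 924) (nat_lit 4988884982) (nat_lit 1008) (nat_lit 5856001271) (nat_lit 82) (nat_lit 5) (nat_lit 93) (nat_lit 5) (nat_lit 94) (nat_lit 5) (nat_lit 330) (nat_lit 325) (nat_lit 233))))) (XT.nd (nat_lit 376) (nat_lit 0) (nat_lit 84) (XT.nd (nat_lit 188) (nat_lit 0) (nat_lit 84) (XT.nd (nat_lit 94) (nat_lit 0) (nat_lit 84) (XT.lf (nat_lit 0) (nat_lit 994873225) (nat_lit 924) (nat_lit 1240345797) (nat_lit 1008) (nat_lit 9227334216) (nat_lit 82) (nat_lit 5) (nat_lit 93) (nat_lit 5) (nat_lit 94) (nat_lit 5) (nat_lit 331) (nat_lit 325) (nat_lit 232)) (XT.lf (nat_lit 0) (nat_lit 1577957912) (nat_lit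 924) (nat_lit 8979091545) (nat_lit 1008) (nat_lit 1078761056) (nat_lit 83) (nat_lit 5) (nat_lit 94) (nat_lit 5) (nat_lit 95) (nat_lit 5) (nat_lit 332) (nat_lit 325) (nat_lit 231))) (XT.nd (nat_lit 94) (nat_lit 0) (nat_lit 0) (XT.lf (nat_lit 0) (nat_lit 2198563972) (nat_lit 924) (nat_lit 5146911634) (nat_lit 1008) (nat_lit 4468480919) (nat_lit 83) (nat_lit 5) (nat_lit 94) (nat_lit 5) (nat_lit 95) (nat_lit 5) (nat_lit 333) (nat_lit 325) (nat_lit 230)) (XT.lf (nat_lit 0) (nat_lit 2822410406) (nat_lit 924) (nat_lit 1206378560) (nat_lit 1008) (nat_lit 7969449004) (nat_lit 83) (nat_lit 5) (nat_lit 94) (nat_lit 5) (nat_lit 95) (nat_lit 5) (nat_lit 334) (nat_lit 325) (nat_lit 229)))) (XT.nd (nat_lit 188) (nat_lit 0) (nat_lit 84) (XT.nd (nat_lit 94) (nat_lit 0) (nat_lit 84) (XT.lf (nat_lit 84) (nat_lit 2904703978) (nat_lit 0) (nat_lit 574189749) (nat_lit 1008) (nat_lit 8709039623) (nat_lit 84) (nat_lit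 5) (nat_lit 83) (nat_lit 5) (nat_lit 95) (nat_lit 5) (nat_lit 335) (nat_lit 325) (nat_lit 228)) (XT.lf (nat_lit 0) (nat_lit 4182985864) (nat_lit 924) (nat_lit 5254737755) (nat_lit 1008) (nat_lit 2945050700) (nat_lit 84) (nat_lit 5) (nat_lit 95) (nat_lit 5) (nat_lit 96) (nat_lit 5) (nat_lit 336) (nat_lit 325) (nat_lit 227))) (XT.nd (nat_lit 94) (nat_lit 0) (nat_lit 0) (XT.lf (nat_lit 0) (nat_lit 4900132015) (nat_lit 924) (nat_lit 1117573349) (nat_lit 1008) (nat_lit 6566328674) (nat_lit 84) (nat_lit 5) (nat_lit 95) (nat_lit 5) (nat_lit 96) (nat_lit 5) (nat_lit 337) (nat_lit 325) (nat_lit 226)) (XT.nd (nat_lit 94) (nat_lit 0) (nat_lit 84) (XT.lf (nat_lit 84) (nat_lit 3202336086) (nat_lit 0) (nat_lit 2454736086) (nat_lit 1008) (nat_lit 7134019709) (nat_lit 85) (nat_lit 5) (nat_lit 84) (nat_lit 5) (nat_lit 96) (nat_lit 5) (nat_lit 338) (nat_lit 325) (nat_lit 225)) (XT.lf (nat_lit 0) (nat_lit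 6447514217) (nat_lit 924) (nat_lit 5347056280) (nat_lit 1008) (nat_lit 1209787277) (nat_lit 85) (nat_lit 5) (nat_lit 96) (nat_lit 5) (nat_lit 97) (nat_lit 5) (nat_lit 339) (nat_lit 325) (nat_lit 224))))))) (XT.nd (nat_lit 752) (nat_lit 1428) (nat_lit 0) (XT.nd (nat_lit 376) (nat_lit 1512) (nat_lit 0) (XT.nd (nat_lit 188) (nat_lit 0) (nat_lit 0) (XT.nd (nat_lit 94) (nat_lit 0) (nat_lit 0) (XT.lf (nat_lit 0) (nat_lit 7274144952) (nat_lit 924) (nat_lit 1009149936) (nat_lit 1008) (nat_lit 4940675168) (nat_lit 85) (nat_lit 5) (nat_lit 96) (nat_lit 5) (nat_lit 97) (nat_lit 5) (nat_lit 340) (nat_lit 325) (nat_lit 223)) (XT.lf (nat_lit 84) (nat_lit 3524366028) (nat_lit 0) (nat_lit 4623979716) (nat_lit 1008) (nat_lit 5301458745) (nat_lit 86) (nat_lit 5) (nat_lit 85) (nat_lit 5) (nat_lit 97) (nat_lit 5) (nat_lit 341) (nat_lit 325) (nat_lit 222))) (XT.nd (nat_lit 94) (nat_lit 0) (nat_lit 84) (XT.lf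 (nat_lit 84) (nat_lit 8210040798) (nat_lit 0) (nat_lit 837416234) (nat_lit 1008) (nat_lit 4635342250) (nat_lit 86) (nat_lit 5) (nat_lit 85) (nat_lit 5) (nat_lit 97) (nat_lit 5) (nat_lit 342) (nat_lit 325) (nat_lit 221)) (XT.lf (nat_lit 0) (nat_lit 9992548889) (nat_lit 924) (nat_lit 922445352) (nat_lit 84) (nat_lit 3007550177) (nat_lit 86) (nat_lit 5) (nat_lit 97) (nat_lit 5) (nat_lit 87) (nat_lit 5) (nat_lit 343) (nat_lit 325) (nat_lit 220)))) (XT.nd (nat_lit 188) (nat_lit 672) (nat_lit 0) (XT.nd (nat_lit 94) (nat_lit 0) (nat_lit 0) (XT.lf (nat_lit 0) (nat_lit 3827804931) (nat_lit 924) (nat_lit 7173728717) (nat_lit 1008) (nat_lit 3167201745) (nat_lit 75) (nat_lit 5) (nat_lit 86) (nat_lit 5) (nat_lit 87) (nat_lit 5) (nat_lit 344) (nat_lit 325) (nat_lit 219)) (XT.lf (nat_lit 0) (nat_lit 8735286830) (nat_lit 924) (nat_lit 3304460522) (nat_lit 1008) (nat_lit 2382958065) (nat_lit 75) (nat_lit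 5) (nat_lit 86) (nat_lit 5) (nat_lit 87) (nat_lit 5) (nat_lit 345) (nat_lit 325) (nat_lit 218))) (XT.nd (nat_lit 94) (nat_lit 672) (nat_lit 0) (XT.lf (nat_lit 0) (nat_lit 13105631823) (nat_lit 1008) (nat_lit 906186488) (nat_lit 84) (nat_lit 672951211) (nat_lit 75) (nat_lit 5) (nat_lit 87) (nat_lit 5) (nat_lit 76) (nat_lit 5) (nat_lit 346) (nat_lit 325) (nat_lit 217)) (XT.lf (nat_lit 0) (nat_lit 4061851448) (nat_lit 672) (nat_lit 10205831445) (nat_lit 756) (nat_lit 685396513) (nat_lit 67) (nat_lit 5) (nat_lit 75) (nat_lit 5) (nat_lit 76) (nat_lit 5) (nat_lit 347) (nat_lit 325) (nat_lit 216))))) (XT.nd (nat_lit 376) (nat_lit 840) (nat_lit 0) (XT.nd (nat_lit 188) (nat_lit 504) (nat_lit 0) (XT.nd (nat_lit 94) (nat_lit 0) (nat_lit 0) (XT.lf (nat_lit 0) (nat_lit 229935921) (nat_lit 756) (nat_lit 6038398289) (nat_lit 84) (nat_lit 8961416203) (nat_lit 66) (nat_lit 5) (nat_lit 75) (nat_lit 5) (nat_lit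 67) (nat_lit 5) (nat_lit 348) (nat_lit 325) (nat_lit 215)) (XT.lf (nat_lit 0) (nat_lit 1148820232) (nat_lit 756) (nat_lit 1051506032) (nat_lit 84) (nat_lit 13314854578) (nat_lit 66) (nat_lit 5) (nat_lit 75) (nat_lit 5) (nat_lit 67) (nat_lit 5) (nat_lit 349) (nat_lit 325) (nat_lit 214))) (XT.nd (nat_lit 94) (nat_lit 0) (nat_lit 0) (XT.lf (nat_lit 0) (nat_lit 2147450488) (nat_lit 588) (nat_lit 11663971757) (nat_lit 84) (nat_lit 1996517893) (nat_lit 60) (nat_lit 5) (nat_lit 67) (nat_lit 5) (nat_lit 61) (nat_lit 5) (nat_lit 350) (nat_lit 325) (nat_lit 213)) (XT.lf (nat_lit 0) (nat_lit 3200592451) (nat_lit 588) (nat_lit 6618638344) (nat_lit 84) (nat_lit 6289881507) (nat_lit 60) (nat_lit 5) (nat_lit 67) (nat_lit 5) (nat_lit 61) (nat_lit 5) (nat_lit 351) (nat_lit 325) (nat_lit 212)))) (XT.nd (nat_lit 188) (nat_lit 420) (nat_lit 0) (XT.nd (nat_lit 94) (nat_lit 420) (nat_lit 0) (XT.lf (nat_lit 0)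 (nat_lit 4276645819) (nat_lit 588) (nat_lit 1425998600) (nat_lit 84) (nat_lit 10717343680) (nat_lit 60) (nat_lit 5) (nat_lit 67) (nat_lit 5) (nat_lit 61) (nat_lit 5) (nat_lit 352) (nat_lit 325) (nat_lit 211)) (XT.lf (nat_lit 0) (nat_lit 3999365867) (nat_lit 420) (nat_lit 1416921923) (nat_lit 504) (nat_lit 11323339606) (nat_lit 55) (nat_lit 5) (nat_lit 60) (nat_lit 5) (nat_lit 61) (nat_lit 5) (nat_lit 353) (nat_lit 325) (nat_lit 210))) (XT.nd (nat_lit 94) (nat_lit 420) (nat_lit 0) (XT.lf (nat_lit 0) (nat_lit 6626831294) (nat_lit 504) (nat_lit 7484585443) (nat_lit 84) (nat_lit 2956717623) (nat_lit 55) (nat_lit 5) (nat_lit 61) (nat_lit 5) (nat_lit 56) (nat_lit 5) (nat_lit 354) (nat_lit 325) (nat_lit 209)) (XT.nd (nat_lit 94) (nat_lit 420) (nat_lit 0) (XT.lf (nat_lit 0) (nat_lit 7880430359) (nat_lit 504) (nat_lit 2089291230) (nat_lit 84) (nat_lit 7436991809) (nat_lit 55) (nat_lit 5) (nat_lit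 61) (nat_lit 5) (nat_lit 56) (nat_lit 5) (nat_lit 355) (nat_lit 325) (nat_lit 208)) (XT.lf (nat_lit 0) (nat_lit 3535947591) (nat_lit 420) (nat_lit 5663326875) (nat_lit 504) (nat_lit 8555753985) (nat_lit 50) (nat_lit 5) (nat_lit 55) (nat_lit 5) (nat_lit 56) (nat_lit 5) (nat_lit 356) (nat_lit 325) (nat_lit 207))))))))
noncomputable def xc101 : XT := (XT.nd (nat_lit 52922) (nat_lit 0) (nat_lit 4116) (XT.nd (nat_lit 752) (nat_lit 672) (nat_lit 0) (XT.nd (nat_lit 376) (nat_lit 504) (nat_lit 0) (XT.nd (nat_lit 188) (nat_lit 336) (nat_lit 0) (XT.nd (nat_lit 94) (nat_lit 0) (nat_lit 0) (XT.lf (nat_lit 0) (nat_lit 9371396289) (nat_lit 420) (nat_lit 1200898230) (nat_lit 504) (nat_lit 7541490915) (nat_lit 50) (nat_lit 5) (nat_lit 55) (nat_lit 5) (nat_lit 56) (nat_lit 5) (nat_lit 357) (nat_lit 325) (nat_lit 206)) (XT.lf (nat_lit 0) (nat_lit 12013345708) (nat_lit 504) (nat_lit 3138168054) (nat_lit 84)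 (nat_lit 3331415150) (nat_lit 50) (nat_lit 5) (nat_lit 56) (nat_lit 5) (nat_lit 51) (nat_lit 5) (nat_lit 358) (nat_lit 325) (nat_lit 205))) (XT.nd (nat_lit 94) (nat_lit 0) (nat_lit 0) (XT.lf (nat_lit 0) (nat_lit 2673093639) (nat_lit 336) (nat_lit 10856764398) (nat_lit 420) (nat_lit 5332756233) (nat_lit 46) (nat_lit 5) (nat_lit 50) (nat_lit 5) (nat_lit 51) (nat_lit 5) (nat_lit 359) (nat_lit 325) (nat_lit 204)) (XT.lf (nat_lit 0) (nat_lit 8722850864) (nat_lit 336) (nat_lit 6395435919) (nat_lit 420) (nat_lit 4135062342) (nat_lit 46) (nat_lit 5) (nat_lit 50) (nat_lit 5) (nat_lit 51) (nat_lit 5) (nat_lit 360) (nat_lit 325) (nat_lit 203)))) (XT.nd (nat_lit 188) (nat_lit 84) (nat_lit 0) (XT.nd (nat_lit 94) (nat_lit 420) (nat_lit 0) (XT.lf (nat_lit 0) (nat_lit 14952215456) (nat_lit 336) (nat_lit 1796125937) (nat_lit 420) (nat_lit 2908141194) (nat_lit 46) (nat_lit 5) (nat_lit 50) (nat_lit 5) (nat_lit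 51) (nat_lit 5) (nat_lit 361) (nat_lit 325) (nat_lit 202)) (XT.lf (nat_lit 0) (nat_lit 1291403056) (nat_lit 420) (nat_lit 17172168326) (nat_lit 504) (nat_lit 1607516102) (nat_lit 41) (nat_lit 5) (nat_lit 46) (nat_lit 5) (nat_lit 47) (nat_lit 5) (nat_lit 362) (nat_lit 325) (nat_lit 201))) (XT.nd (nat_lit 94) (nat_lit 84) (nat_lit 0) (XT.lf (nat_lit 0) (nat_lit 7546029165) (nat_lit 420) (nat_lit 12745985793) (nat_lit 504) (nat_lit 204715690) (nat_lit 41) (nat_lit 5) (nat_lit 46) (nat_lit 5) (nat_lit 47) (nat_lit 5) (nat_lit 363) (nat_lit 325) (nat_lit 200)) (XT.lf (nat_lit 0) (nat_lit 1209412532) (nat_lit 504) (nat_lit 6961180278) (nat_lit 84) (nat_lit 12764859624) (nat_lit 40) (nat_lit 5) (nat_lit 46) (nat_lit 5) (nat_lit 41) (nat_lit 5) (nat_lit 364) (nat_lit 325) (nat_lit 199))))) (XT.nd (nat_lit 376) (nat_lit 336) (nat_lit 0) (XT.nd (nat_lit 188) (nat_lit 0) (nat_lit 0) (XT.nd (nat_lit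 94) (nat_lit 336) (nat_lit 0) (XT.lf (nat_lit 0) (nat_lit 2656197010) (nat_lit 504) (nat_lit 795685498) (nat_lit 84) (nat_lit 17936084694) (nat_lit 40) (nat_lit 5) (nat_lit 46) (nat_lit 5) (nat_lit 41) (nat_lit 5) (nat_lit 365) (nat_lit 325) (nat_lit 198)) (XT.lf (nat_lit 0) (nat_lit 4211922399) (nat_lit 420) (nat_lit 16199850312) (nat_lit 84) (nat_lit 1440791830) (nat_lit 36) (nat_lit 5) (nat_lit 41) (nat_lit 5) (nat_lit 37) (nat_lit 5) (nat_lit 366) (nat_lit 325) (nat_lit 197))) (XT.nd (nat_lit 94) (nat_lit 0) (nat_lit 0) (XT.lf (nat_lit 0) (nat_lit 5852971788) (nat_lit 420) (nat_lit 10056355850) (nat_lit 84) (nat_lit 6421126942) (nat_lit 36) (nat_lit 5) (nat_lit 41) (nat_lit 5) (nat_lit 37) (nat_lit 5) (nat_lit 367) (nat_lit 325) (nat_lit 196)) (XT.lf (nat_lit 0) (nat_lit 7538493715) (nat_lit 420) (nat_lit 3729728093) (nat_lit 84) (nat_lit 11555174771) (nat_lit 36) (nat_lit 5) (nat_lit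 41) (nat_lit 5) (nat_lit 37) (nat_lit 5) (nat_lit 368) (nat_lit 325) (nat_lit 195)))) (XT.nd (nat_lit 188) (nat_lit 0) (nat_lit 0) (XT.nd (nat_lit 94) (nat_lit 0) (nat_lit 0) (XT.lf (nat_lit 0) (nat_lit 2843214473) (nat_lit 336) (nat_lit 6455049829) (nat_lit 420) (nat_lit 14032711352) (nat_lit 32) (nat_lit 5) (nat_lit 36) (nat_lit 5) (nat_lit 37) (nat_lit 5) (nat_lit 369) (nat_lit 325) (nat_lit 194)) (XT.lf (nat_lit 0) (nat_lit 9691963282) (nat_lit 336) (nat_lit 1453464625) (nat_lit 420) (nat_lit 12707880389) (nat_lit 32) (nat_lit 5) (nat_lit 36) (nat_lit 5) (nat_lit 37) (nat_lit 5) (nat_lit 370) (nat_lit 325) (nat_lit 193))) (XT.nd (nat_lit 94) (nat_lit 0) (nat_lit 0) (XT.lf (nat_lit 0) (nat_lit 13080673060) (nat_lit 420) (nat_lit 7682567644) (nat_lit 84) (nat_lit 3627672699) (nat_lit 32) (nat_lit 5) (nat_lit 37) (nat_lit 5) (nat_lit 33) (nat_lit 5) (nat_lit 371) (nat_lit 325) (nat_lit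 192)) (XT.nd (nat_lit 51418) (nat_lit 0) (nat_lit 5040) (XT.lf (nat_lit 0) (nat_lit 15085037806) (nat_lit 420) (nat_lit 1024624361) (nat_lit 84) (nat_lit 8835273653) (nat_lit 32) (nat_lit 5) (nat_lit 37) (nat_lit 5) (nat_lit 33) (nat_lit 5) (nat_lit 372) (nat_lit 325) (nat_lit 191)) (XT.lf (nat_lit 0) (nat_lit 4809174370) (nat_lit 924) (nat_lit 299443064) (nat_lit 924) (nat_lit 299443064) (nat_lit 92) (nat_lit 3) (nat_lit 103) (nat_lit 3) (nat_lit 103) (nat_lit 5) (nat_lit 326) (nat_lit 326) (nat_lit 236))))))) (XT.nd (nat_lit 752) (nat_lit 0) (nat_lit 168) (XT.nd (nat_lit 376) (nat_lit 0) (nat_lit 84) (XT.nd (nat_lit 188) (nat_lit 924) (nat_lit 0) (XT.nd (nat_lit 94) (nat_lit 0) (nat_lit 0) (XT.lf (nat_lit 84) (nat_lit 3002126721) (nat_lit 0) (nat_lit 7245677939) (nat_lit 924) (nat_lit 717588820) (nat_lit 93) (nat_lit 5) (nat_lit 92) (nat_lit 3) (nat_lit 103) (nat_lit 5) (nat_lit 327)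 (nat_lit 326) (nat_lit 235)) (XT.lf (nat_lit 84) (nat_lit 6717843092) (nat_lit 0) (nat_lit 4166929522) (nat_lit 924) (nat_lit 235033294) (nat_lit 93) (nat_lit 5) (nat_lit 92) (nat_lit 3) (nat_lit 103) (nat_lit 5) (nat_lit 328) (nat_lit 326) (nat_lit 234))) (XT.nd (nat_lit 94) (nat_lit 0) (nat_lit 84) (XT.lf (nat_lit 0) (nat_lit 239175040) (nat_lit 924) (nat_lit 742699509) (nat_lit 1008) (nat_lit 10297740557) (nat_lit 81) (nat_lit 5) (nat_lit 92) (nat_lit 3) (nat_lit 93) (nat_lit 5) (nat_lit 329) (nat_lit 326) (nat_lit 233)) (XT.lf (nat_lit 0) (nat_lit 759531619) (nat_lit 924) (nat_lit 8387164595) (nat_lit 1008) (nat_lit 2296609598) (nat_lit 82) (nat_lit 5) (nat_lit 93) (nat_lit 5) (nat_lit 94) (nat_lit 5) (nat_lit 330) (nat_lit 326) (nat_lit 232)))) (XT.nd (nat_lit 188) (nat_lit 0) (nat_lit 84) (XT.nd (nat_lit 94) (nat_lit 0) (nat_lit 0) (XT.lf (nat_lit 0) (nat_lit 1296924002) (nat_lit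 924) (nat_lit 4643634229) (nat_lit 1008) (nat_lit 5671608970) (nat_lit 82) (nat_lit 5) (nat_lit 93) (nat_lit 5) (nat_lit 94) (nat_lit 5) (nat_lit 331) (nat_lit 326) (nat_lit 231)) (XT.lf (nat_lit 0) (nat_lit 1834516709) (nat_lit 924) (nat_lit 793921456) (nat_lit 1008) (nat_lit 9158455931) (nat_lit 82) (nat_lit 5) (nat_lit 93) (nat_lit 5) (nat_lit 94) (nat_lit 5) (nat_lit 332) (nat_lit 326) (nat_lit 230))) (XT.nd (nat_lit 94) (nat_lit 0) (nat_lit 0) (XT.lf (nat_lit 0) (nat_lit 2413051276) (nat_lit 924) (nat_lit 8744195326) (nat_lit 1008) (nat_lit 809155308) (nat_lit 83) (nat_lit 5) (nat_lit 94) (nat_lit 5) (nat_lit 95) (nat_lit 5) (nat_lit 333) (nat_lit 326) (nat_lit 229)) (XT.lf (nat_lit 0) (nat_lit 3029257447) (nat_lit 924) (nat_lit 4808650126) (nat_lit 1008) (nat_lit 4313068483) (nat_lit 83) (nat_lit 5) (nat_lit 94) (nat_lit 5) (nat_lit 95) (nat_lit 5) (nat_lit 334) (nat_lit 326) (nat_lit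 228))))) (XT.nd (nat_lit 376) (nat_lit 0) (nat_lit 84) (XT.nd (nat_lit 188) (nat_lit 0) (nat_lit 84) (XT.nd (nat_lit 94) (nat_lit 0) (nat_lit 0) (XT.lf (nat_lit 0) (nat_lit 3649515207) (nat_lit 924) (nat_lit 760928799) (nat_lit 1008) (nat_lit 7931404595) (nat_lit 83) (nat_lit 5) (nat_lit 94) (nat_lit 5) (nat_lit 95) (nat_lit 5) (nat_lit 335) (nat_lit 326) (nat_lit 227)) (XT.lf (nat_lit 84) (nat_lit 3472708900) (nat_lit 0) (nat_lit 836143506) (nat_lit 1008) (nat_lit 8229277115) (nat_lit 84) (nat_lit 5) (nat_lit 83) (nat_lit 5) (nat_lit 95) (nat_lit 5) (nat_lit 336) (nat_lit 326) (nat_lit 226))) (XT.nd (nat_lit 94) (nat_lit 0) (nat_lit 0) (XT.lf (nat_lit 0) (nat_lit 5010709772) (nat_lit 924) (nat_lit 4924898546) (nat_lit 1008) (nat_lit 2804305838) (nat_lit 84) (nat_lit 5) (nat_lit 95) (nat_lit 5) (nat_lit 96) (nat_lit 5) (nat_lit 337) (nat_lit 326) (nat_lit 225)) (XT.lf (nat_lit 0) (nat_lit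 5729098518) (nat_lit 924) (nat_lit 674297580) (nat_lit 1008) (nat_lit 6544820426) (nat_lit 84) (nat_lit 5) (nat_lit 95) (nat_lit 5) (nat_lit 96) (nat_lit 5) (nat_lit 338) (nat_lit 326) (nat_lit 224)))) (XT.nd (nat_lit 188) (nat_lit 0) (nat_lit 84) (XT.nd (nat_lit 94) (nat_lit 0) (nat_lit 84) (XT.lf (nat_lit 84) (nat_lit 3774690531) (nat_lit 0) (nat_lit 2719148480) (nat_lit 1008) (nat_lit 6668488103) (nat_lit 85) (nat_lit 5) (nat_lit 84) (nat_lit 5) (nat_lit 96) (nat_lit 5) (nat_lit 339) (nat_lit 326) (nat_lit 223)) (XT.lf (nat_lit 0) (nat_lit 7287085982) (nat_lit 924) (nat_lit 5027617396) (nat_lit 1008) (nat_lit 1068317418) (nat_lit 85) (nat_lit 5) (nat_lit 96) (nat_lit 5) (nat_lit 97) (nat_lit 5) (nat_lit 340) (nat_lit 326) (nat_lit 222))) (XT.nd (nat_lit 94) (nat_lit 0) (nat_lit 0) (XT.lf (nat_lit 0) (nat_lit 8120107872) (nat_lit 924) (nat_lit 569824826) (nat_lit 1008) (nat_lit 4920244183)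 (nat_lit 85) (nat_lit 5) (nat_lit 96) (nat_lit 5) (nat_lit 97) (nat_lit 5) (nat_lit 341) (nat_lit 326) (nat_lit 221)) (XT.nd (nat_lit 94) (nat_lit 0) (nat_lit 0) (XT.lf (nat_lit 84) (nat_lit 4099465641) (nat_lit 0) (nat_lit 4907908421) (nat_lit 1008) (nat_lit 4836208560) (nat_lit 86) (nat_lit 5) (nat_lit 85) (nat_lit 5) (nat_lit 97) (nat_lit 5) (nat_lit 342) (nat_lit 326) (nat_lit 220)) (XT.lf (nat_lit 84) (nat_lit 8916389373) (nat_lit 0) (nat_lit 999734365) (nat_lit 1008) (nat_lit 4168373063) (nat_lit 86) (nat_lit 5) (nat_lit 85) (nat_lit 5) (nat_lit 97) (nat_lit 5) (nat_lit 343) (nat_lit 326) (nat_lit 219))))))))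
noncomputable def xc102 : XT := (XT.nd (nat_lit 1598) (nat_lit 1176) (nat_lit 0) (XT.nd (nat_lit 752) (nat_lit 1176) (nat_lit 0) (XT.nd (nat_lit 376) (nat_lit 1260) (nat_lit 0) (XT.nd (nat_lit 188) (nat_lit 0) (nat_lit 0) (XT.nd (nat_lit 94) (nat_lit 924) (nat_lit 0) (XT.lf (nat_lit 0) (nat_lit 10871515623) (nat_lit 924) (nat_lit 489683972) (nat_lit 84) (nat_lit 2971190718) (nat_lit 86) (nat_lit 5) (nat_lit 97) (nat_lit 5) (nat_lit 87) (nat_lit 5) (nat_lit 344) (nat_lit 326) (nat_lit 218)) (XT.lf (nat_lit 0) (nat_lit 4403153242) (nat_lit 924) (nat_lit 7496041475) (nat_lit 1008) (nat_lit 2687532114) (nat_lit 75) (nat_lit 5) (nat_lit 86) (nat_lit 5) (nat_lit 87) (nat_lit 5) (nat_lit 345) (nat_lit 326) (nat_lit 217))) (XT.nd (nat_lit 94) (nat_lit 0) (nat_lit 0) (XT.lf (nat_lit 0) (nat_lit 9449035483) (nat_lit 924) (nat_lit 3503821366) (nat_lit 1008) (nat_lit 1896351700) (nat_lit 75) (nat_lit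 5) (nat_lit 86) (nat_lit 5) (nat_lit 87) (nat_lit 5) (nat_lit 346) (nat_lit 326) (nat_lit 216)) (XT.lf (nat_lit 0) (nat_lit 14034618189) (nat_lit 1008) (nat_lit 483728336) (nat_lit 84) (nat_lit 601698447) (nat_lit 75) (nat_lit 5) (nat_lit 87) (nat_lit 5) (nat_lit 76) (nat_lit 5) (nat_lit 347) (nat_lit 326) (nat_lit 215)))) (XT.nd (nat_lit 188) (nat_lit 504) (nat_lit 0) (XT.nd (nat_lit 94) (nat_lit 84) (nat_lit 0) (XT.lf (nat_lit 0) (nat_lit 4633757362) (nat_lit 672) (nat_lit 10587642899) (nat_lit 756) (nat_lit 175734976) (nat_lit 67) (nat_lit 5) (nat_lit 75) (nat_lit 5) (nat_lit 76) (nat_lit 5) (nat_lit 348) (nat_lit 326) (nat_lit 214)) (XT.lf (nat_lit 0) (nat_lit 741634448) (nat_lit 756) (nat_lit 5779214758) (nat_lit 84) (nat_lit 9161961495) (nat_lit 66) (nat_lit 5) (nat_lit 75) (nat_lit 5) (nat_lit 67) (nat_lit 5) (nat_lit 349) (nat_lit 326) (nat_lit 213))) (XT.nd (nat_lit 94) (nat_lit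 504) (nat_lit 0) (XT.lf (nat_lit 0) (nat_lit 1673832799) (nat_lit 756) (nat_lit 651150364) (nat_lit 84) (nat_lit 13652679462) (nat_lit 66) (nat_lit 5) (nat_lit 75) (nat_lit 5) (nat_lit 67) (nat_lit 5) (nat_lit 350) (nat_lit 326) (nat_lit 212)) (XT.lf (nat_lit 0) (nat_lit 2692457209) (nat_lit 588) (nat_lit 11578421443) (nat_lit 84) (nat_lit 2009058421) (nat_lit 60) (nat_lit 5) (nat_lit 67) (nat_lit 5) (nat_lit 61) (nat_lit 5) (nat_lit 351) (nat_lit 326) (nat_lit 211))))) (XT.nd (nat_lit 376) (nat_lit 756) (nat_lit 0) (XT.nd (nat_lit 188) (nat_lit 420) (nat_lit 0) (XT.nd (nat_lit 94) (nat_lit 0) (nat_lit 0) (XT.lf (nat_lit 0) (nat_lit 3763861017) (nat_lit 588) (nat_lit 6390127055) (nat_lit 84) (nat_lit 6437000204) (nat_lit 60) (nat_lit 5) (nat_lit 67) (nat_lit 5) (nat_lit 61) (nat_lit 5) (nat_lit 352) (nat_lit 326) (nat_lit 210)) (XT.lf (nat_lit 0) (nat_lit 4859319027) (nat_lit 588) (nat_lit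 1049555597) (nat_lit 84) (nat_lit 11003152983) (nat_lit 60) (nat_lit 5) (nat_lit 67) (nat_lit 5) (nat_lit 61) (nat_lit 5) (nat_lit 353) (nat_lit 326) (nat_lit 209))) (XT.nd (nat_lit 94) (nat_lit 0) (nat_lit 0) (XT.lf (nat_lit 0) (nat_lit 4539736475) (nat_lit 420) (nat_lit 1485150592) (nat_lit 504) (nat_lit 11217071162) (nat_lit 55) (nat_lit 5) (nat_lit 60) (nat_lit 5) (nat_lit 61) (nat_lit 5) (nat_lit 354) (nat_lit 326) (nat_lit 208)) (XT.lf (nat_lit 0) (nat_lit 7259472818) (nat_lit 504) (nat_lit 7296404892) (nat_lit 84) (nat_lit 3025277503) (nat_lit 55) (nat_lit 5) (nat_lit 61) (nat_lit 5) (nat_lit 56) (nat_lit 5) (nat_lit 355) (nat_lit 326) (nat_lit 207)))) (XT.nd (nat_lit 188) (nat_lit 336) (nat_lit 0) (XT.nd (nat_lit 94) (nat_lit 420) (nat_lit 0) (XT.lf (nat_lit 0) (nat_lit 8539088155) (nat_lit 504) (nat_lit 1746491170) (nat_lit 84) (nat_lit 7645134708) (nat_lit 55) (nat_lit 5) (nat_lit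 61) (nat_lit 5) (nat_lit 56) (nat_lit 5) (nat_lit 356) (nat_lit 326) (nat_lit 206)) (XT.lf (nat_lit 0) (nat_lit 4049003794) (nat_lit 420) (nat_lit 5841355761) (nat_lit 504) (nat_lit 8399812514) (nat_lit 50) (nat_lit 5) (nat_lit 55) (nat_lit 5) (nat_lit 56) (nat_lit 5) (nat_lit 357) (nat_lit 326) (nat_lit 205))) (XT.nd (nat_lit 94) (nat_lit 336) (nat_lit 0) (XT.lf (nat_lit 0) (nat_lit 10053220755) (nat_lit 420) (nat_lit 1240517689) (nat_lit 504) (nat_lit 7366770980) (nat_lit 50) (nat_lit 5) (nat_lit 55) (nat_lit 5) (nat_lit 56) (nat_lit 5) (nat_lit 358) (nat_lit 326) (nat_lit 204)) (XT.nd (nat_lit 94) (nat_lit 336) (nat_lit 0) (XT.lf (nat_lit 0) (nat_lit 12767601393) (nat_lit 504) (nat_lit 2841524720) (nat_lit 84) (nat_lit 3432416054) (nat_lit 50) (nat_lit 5) (nat_lit 56) (nat_lit 5) (nat_lit 51) (nat_lit 5) (nat_lit 359) (nat_lit 326) (nat_lit 203)) (XT.lf (nat_lit 0) (nat_lit 3145897932)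 (nat_lit 336) (nat_lit 11177614725) (nat_lit 420) (nat_lit 5109796901) (nat_lit 46) (nat_lit 5) (nat_lit 50) (nat_lit 5) (nat_lit 51) (nat_lit 5) (nat_lit 360) (nat_lit 326) (nat_lit 202))))))) (XT.nd (nat_lit 752) (nat_lit 336) (nat_lit 0) (XT.nd (nat_lit 376) (nat_lit 336) (nat_lit 0) (XT.nd (nat_lit 188) (nat_lit 504) (nat_lit 0) (XT.nd (nat_lit 94) (nat_lit 0) (nat_lit 0) (XT.lf (nat_lit 0) (nat_lit 9371473004) (nat_lit 336) (nat_lit 6578457411) (nat_lit 420) (nat_lit 3886649104) (nat_lit 46) (nat_lit 5) (nat_lit 50) (nat_lit 5) (nat_lit 51) (nat_lit 5) (nat_lit 361) (nat_lit 326) (nat_lit 201)) (XT.lf (nat_lit 0) (nat_lit 15782575807) (nat_lit 336) (nat_lit 1837026965) (nat_lit 420) (nat_lit 2633016975) (nat_lit 46) (nat_lit 5) (nat_lit 50) (nat_lit 5) (nat_lit 51) (nat_lit 5) (nat_lit 362) (nat_lit 326) (nat_lit 200))) (XT.nd (nat_lit 94) (nat_lit 84) (nat_lit 0) (XT.lf (nat_lit 0)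 (nat_lit 1707499178) (nat_lit 420) (nat_lit 17673792712) (nat_lit 504) (nat_lit 1299062759) (nat_lit 41) (nat_lit 5) (nat_lit 46) (nat_lit 5) (nat_lit 47) (nat_lit 5) (nat_lit 363) (nat_lit 326) (nat_lit 199)) (XT.lf (nat_lit 0) (nat_lit 133702353) (nat_lit 504) (nat_lit 12976224059) (nat_lit 84) (nat_lit 8009613353) (nat_lit 40) (nat_lit 5) (nat_lit 46) (nat_lit 5) (nat_lit 41) (nat_lit 5) (nat_lit 364) (nat_lit 326) (nat_lit 198)))) (XT.nd (nat_lit 188) (nat_lit 336) (nat_lit 0) (XT.nd (nat_lit 94) (nat_lit 0) (nat_lit 0) (XT.lf (nat_lit 0) (nat_lit 1577177652) (nat_lit 504) (nat_lit 6814362500) (nat_lit 84) (nat_lit 13180637360) (nat_lit 40) (nat_lit 5) (nat_lit 46) (nat_lit 5) (nat_lit 41) (nat_lit 5) (nat_lit 365) (nat_lit 326) (nat_lit 197)) (XT.lf (nat_lit 0) (nat_lit 3058881825) (nat_lit 504) (nat_lit 468640433) (nat_lit 84) (nat_lit 18511567032) (nat_lit 40) (nat_lit 5) (nat_lit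 46) (nat_lit 5) (nat_lit 41) (nat_lit 5) (nat_lit 366) (nat_lit 326) (nat_lit 196))) (XT.nd (nat_lit 94) (nat_lit 0) (nat_lit 0) (XT.lf (nat_lit 0) (nat_lit 4656993514) (nat_lit 420) (nat_lit 16342578259) (nat_lit 84) (nat_lit 1518757812) (nat_lit 36) (nat_lit 5) (nat_lit 41) (nat_lit 5) (nat_lit 37) (nat_lit 5) (nat_lit 367) (nat_lit 326) (nat_lit 195)) (XT.lf (nat_lit 0) (nat_lit 6339459035) (nat_lit 420) (nat_lit 10019443897) (nat_lit 84) (nat_lit 6652482009) (nat_lit 36) (nat_lit 5) (nat_lit 41) (nat_lit 5) (nat_lit 37) (nat_lit 5) (nat_lit 368) (nat_lit 326) (nat_lit 194))))) (XT.nd (nat_lit 51794) (nat_lit 0) (nat_lit 4116) (XT.nd (nat_lit 188) (nat_lit 0) (nat_lit 0) (XT.nd (nat_lit 94) (nat_lit 336) (nat_lit 0) (XT.lf (nat_lit 0) (nat_lit 8068060077) (nat_lit 420) (nat_lit 3507174122) (nat_lit 84) (nat_lit 11944714123) (nat_lit 36) (nat_lit 5) (nat_lit 41) (nat_lit 5) (nat_lit 37)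 (nat_lit 5) (nat_lit 369) (nat_lit 326) (nat_lit 193)) (XT.lf (nat_lit 0) (nat_lit 3266105940) (nat_lit 336) (nat_lit 6610702111) (nat_lit 420) (nat_lit 14166681305) (nat_lit 32) (nat_lit 5) (nat_lit 36) (nat_lit 5) (nat_lit 37) (nat_lit 5) (nat_lit 370) (nat_lit 326) (nat_lit 192))) (XT.nd (nat_lit 94) (nat_lit 0) (nat_lit 0) (XT.lf (nat_lit 0) (nat_lit 10317100679) (nat_lit 336) (nat_lit 1455404412) (nat_lit 420) (nat_lit 12809832344) (nat_lit 32) (nat_lit 5) (nat_lit 36) (nat_lit 5) (nat_lit 37) (nat_lit 5) (nat_lit 371) (nat_lit 326) (nat_lit 191)) (XT.lf (nat_lit 0) (nat_lit 13759691531) (nat_lit 420) (nat_lit 7596108209) (nat_lit 84) (nat_lit 3781109110) (nat_lit 32) (nat_lit 5) (nat_lit 37) (nat_lit 5) (nat_lit 33) (nat_lit 5) (nat_lit 372) (nat_lit 326) (nat_lit 190)))) (XT.nd (nat_lit 188) (nat_lit 0) (nat_lit 0) (XT.nd (nat_lit 94) (nat_lit 924) (nat_lit 0) (XT.lf (nat_lit 0)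 (nat_lit 5404378912) (nat_lit 924) (nat_lit 77025221) (nat_lit 924) (nat_lit 77025221) (nat_lit 92) (nat_lit 3) (nat_lit 103) (nat_lit 3) (nat_lit 103) (nat_lit 5) (nat_lit 327) (nat_lit 327) (nat_lit 234)) (XT.lf (nat_lit 0) (nat_lit 160492705) (nat_lit 924) (nat_lit 7719379340) (nat_lit 1008) (nat_lit 3391734365) (nat_lit 81) (nat_lit 5) (nat_lit 92) (nat_lit 3) (nat_lit 93) (nat_lit 5) (nat_lit 328) (nat_lit 327) (nat_lit 233))) (XT.nd (nat_lit 94) (nat_lit 0) (nat_lit 0) (XT.lf (nat_lit 0) (nat_lit 621360900) (nat_lit 924) (nat_lit 4067145488) (nat_lit 1008) (nat_lit 6743166797) (nat_lit 81) (nat_lit 5) (nat_lit 92) (nat_lit 3) (nat_lit 93) (nat_lit 5) (nat_lit 329) (nat_lit 327) (nat_lit 232)) (XT.nd (nat_lit 94) (nat_lit 0) (nat_lit 84) (XT.lf (nat_lit 0) (nat_lit 1079565249) (nat_lit 924) (nat_lit 310946920) (nat_lit 1008) (nat_lit 10206839651) (nat_lit 81) (nat_lit 5) (nat_lit 92)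 (nat_lit 3) (nat_lit 93) (nat_lit 5) (nat_lit 330) (nat_lit 327) (nat_lit 231)) (XT.lf (nat_lit 0) (nat_lit 1591879513) (nat_lit 924) (nat_lit 8162291637) (nat_lit 1008) (nat_lit 2012878850) (nat_lit 82) (nat_lit 5) (nat_lit 93) (nat_lit 5) (nat_lit 94) (nat_lit 5) (nat_lit 331) (nat_lit 327) (nat_lit 230))))))))
noncomputable def xc103 : XT := (XT.nd (nat_lit 1598) (nat_lit 2940) (nat_lit 0) (XT.nd (nat_lit 752) (nat_lit 588) (nat_lit 0) (XT.nd (nat_lit 376) (nat_lit 0) (nat_lit 84) (XT.nd (nat_lit 188) (nat_lit 0) (nat_lit 84) (XT.nd (nat_lit 94) (nat_lit 0) (nat_lit 0) (XT.lf (nat_lit 0) (nat_lit 2121612074) (nat_lit 924) (nat_lit 4317291003) (nat_lit 1008) (nat_lit 5503175069) (nat_lit 82) (nat_lit 5) (nat_lit 93) (nat_lit 5) (nat_lit 94) (nat_lit 5) (nat_lit 332) (nat_lit 327) (nat_lit 229)) (XT.lf (nat_lit 0) (nat_lit 2652282389) (nat_lit 924) (nat_lit 362377942) (nat_lit 1008) (nat_lit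 9108465274) (nat_lit 82) (nat_lit 5) (nat_lit 93) (nat_lit 5) (nat_lit 94) (nat_lit 5) (nat_lit 333) (nat_lit 327) (nat_lit 228))) (XT.nd (nat_lit 94) (nat_lit 0) (nat_lit 0) (XT.lf (nat_lit 0) (nat_lit 3227465945) (nat_lit 924) (nat_lit 8532417886) (nat_lit 1008) (nat_lit 549141794) (nat_lit 83) (nat_lit 5) (nat_lit 94) (nat_lit 5) (nat_lit 95) (nat_lit 5) (nat_lit 334) (nat_lit 327) (nat_lit 227)) (XT.lf (nat_lit 0) (nat_lit 3840535988) (nat_lit 924) (nat_lit 4489388993) (nat_lit 1008) (nat_lit 4170248555) (nat_lit 83) (nat_lit 5) (nat_lit 94) (nat_lit 5) (nat_lit 95) (nat_lit 5) (nat_lit 335) (nat_lit 327) (nat_lit 226)))) (XT.nd (nat_lit 188) (nat_lit 0) (nat_lit 84) (XT.nd (nat_lit 94) (nat_lit 0) (nat_lit 0) (XT.lf (nat_lit 0) (nat_lit 4458451886) (nat_lit 924) (nat_lit 330269980) (nat_lit 1008) (nat_lit 7909067613) (nat_lit 83) (nat_lit 5) (nat_lit 94) (nat_lit 5) (nat_lit 95) (nat_lit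 5) (nat_lit 336) (nat_lit 327) (nat_lit 225)) (XT.lf (nat_lit 84) (nat_lit 4030011638) (nat_lit 0) (nat_lit 1091756178) (nat_lit 1008) (nat_lit 7779050515) (nat_lit 84) (nat_lit 5) (nat_lit 83) (nat_lit 5) (nat_lit 95) (nat_lit 5) (nat_lit 337) (nat_lit 327) (nat_lit 224))) (XT.nd (nat_lit 94) (nat_lit 0) (nat_lit 0) (XT.lf (nat_lit 0) (nat_lit 5822746344) (nat_lit 924) (nat_lit 4614019924) (nat_lit 1008) (nat_lit 2672942096) (nat_lit 84) (nat_lit 5) (nat_lit 95) (nat_lit 5) (nat_lit 96) (nat_lit 5) (nat_lit 338) (nat_lit 327) (nat_lit 223)) (XT.lf (nat_lit 0) (nat_lit 6543659417) (nat_lit 924) (nat_lit 245588315) (nat_lit 1008) (nat_lit 6535976374) (nat_lit 84) (nat_lit 5) (nat_lit 95) (nat_lit 5) (nat_lit 96) (nat_lit 5) (nat_lit 339) (nat_lit 327) (nat_lit 222))))) (XT.nd (nat_lit 376) (nat_lit 756) (nat_lit 0) (XT.nd (nat_lit 188) (nat_lit 0) (nat_lit 84) (XT.nd (nat_lit 94) (nat_lit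 0) (nat_lit 84) (XT.lf (nat_lit 84) (nat_lit 4336766505) (nat_lit 0) (nat_lit 2980603404) (nat_lit 1008) (nat_lit 6229198618) (nat_lit 85) (nat_lit 5) (nat_lit 84) (nat_lit 5) (nat_lit 96) (nat_lit 5) (nat_lit 340) (nat_lit 327) (nat_lit 221)) (XT.lf (nat_lit 0) (nat_lit 8114794014) (nat_lit 924) (nat_lit 4727014992) (nat_lit 1008) (nat_lit 933062886) (nat_lit 85) (nat_lit 5) (nat_lit 96) (nat_lit 5) (nat_lit 97) (nat_lit 5) (nat_lit 341) (nat_lit 327) (nat_lit 220))) (XT.nd (nat_lit 94) (nat_lit 0) (nat_lit 0) (XT.lf (nat_lit 0) (nat_lit 8955544472) (nat_lit 924) (nat_lit 144755601) (nat_lit 1008) (nat_lit 4909461984) (nat_lit 85) (nat_lit 5) (nat_lit 96) (nat_lit 5) (nat_lit 97) (nat_lit 5) (nat_lit 342) (nat_lit 327) (nat_lit 219)) (XT.lf (nat_lit 84) (nat_lit 4664800589) (nat_lit 0) (nat_lit 5192311806) (nat_lit 1008) (nat_lit 4393827634) (nat_lit 86) (nat_lit 5) (nat_lit 85) (nat_lit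 5) (nat_lit 97) (nat_lit 5) (nat_lit 343) (nat_lit 327) (nat_lit 218)))) (XT.nd (nat_lit 188) (nat_lit 840) (nat_lit 0) (XT.nd (nat_lit 94) (nat_lit 0) (nat_lit 84) (XT.lf (nat_lit 84) (nat_lit 9617871656) (nat_lit 0) (nat_lit 1159007628) (nat_lit 1008) (nat_lit 3723098553) (nat_lit 86) (nat_lit 5) (nat_lit 85) (nat_lit 5) (nat_lit 97) (nat_lit 5) (nat_lit 344) (nat_lit 327) (nat_lit 217)) (XT.lf (nat_lit 0) (nat_lit 11744015771) (nat_lit 924) (nat_lit 70833965) (nat_lit 84) (nat_lit 2941380160) (nat_lit 86) (nat_lit 5) (nat_lit 97) (nat_lit 5) (nat_lit 87) (nat_lit 5) (nat_lit 345) (nat_lit 327) (nat_lit 216))) (XT.nd (nat_lit 94) (nat_lit 0) (nat_lit 0) (XT.lf (nat_lit 0) (nat_lit 4969287037) (nat_lit 924) (nat_lit 7822427071) (nat_lit 1008) (nat_lit 2227219941) (nat_lit 75) (nat_lit 5) (nat_lit 86) (nat_lit 5) (nat_lit 87) (nat_lit 5) (nat_lit 346) (nat_lit 327) (nat_lit 215)) (XT.nd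 (nat_lit 94) (nat_lit 0) (nat_lit 0) (XT.lf (nat_lit 0) (nat_lit 10158673376) (nat_lit 924) (nat_lit 3703621507) (nat_lit 1008) (nat_lit 1427858614) (nat_lit 75) (nat_lit 5) (nat_lit 86) (nat_lit 5) (nat_lit 87) (nat_lit 5) (nat_lit 347) (nat_lit 327) (nat_lit 214)) (XT.lf (nat_lit 0) (nat_lit 14961442020) (nat_lit 1008) (nat_lit 74860826) (nat_lit 84) (nat_lit 533692931) (nat_lit 75) (nat_lit 5) (nat_lit 87) (nat_lit 5) (nat_lit 76) (nat_lit 5) (nat_lit 348) (nat_lit 327) (nat_lit 213))))))) (XT.nd (nat_lit 846) (nat_lit 1260) (nat_lit 0) (XT.nd (nat_lit 376) (nat_lit 420) (nat_lit 0) (XT.nd (nat_lit 188) (nat_lit 504) (nat_lit 0) (XT.nd (nat_lit 94) (nat_lit 0) (nat_lit 0) (XT.lf (nat_lit 0) (nat_lit 311866807) (nat_lit 756) (nat_lit 10662292880) (nat_lit 84) (nat_lit 4881853639) (nat_lit 66) (nat_lit 5) (nat_lit 75) (nat_lit 5) (nat_lit 67) (nat_lit 5) (nat_lit 349) (nat_lit 327) (nat_lit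 212)) (XT.lf (nat_lit 0) (nat_lit 1239309053) (nat_lit 756) (nat_lit 5538436027) (nat_lit 84) (nat_lit 9373299850) (nat_lit 66) (nat_lit 5) (nat_lit 75) (nat_lit 5) (nat_lit 67) (nat_lit 5) (nat_lit 350) (nat_lit 327) (nat_lit 211))) (XT.nd (nat_lit 94) (nat_lit 504) (nat_lit 0) (XT.lf (nat_lit 0) (nat_lit 2186132806) (nat_lit 756) (nat_lit 264028180) (nat_lit 84) (nat_lit 14005415482) (nat_lit 66) (nat_lit 5) (nat_lit 75) (nat_lit 5) (nat_lit 67) (nat_lit 5) (nat_lit 351) (nat_lit 327) (nat_lit 210)) (XT.lf (nat_lit 0) (nat_lit 3226020570) (nat_lit 588) (nat_lit 11516703548) (nat_lit 84) (nat_lit 2024910881) (nat_lit 60) (nat_lit 5) (nat_lit 67) (nat_lit 5) (nat_lit 61) (nat_lit 5) (nat_lit 352) (nat_lit 327) (nat_lit 209)))) (XT.nd (nat_lit 188) (nat_lit 420) (nat_lit 0) (XT.nd (nat_lit 94) (nat_lit 0) (nat_lit 0) (XT.lf (nat_lit 0) (nat_lit 4317104421) (nat_lit 588) (nat_lit 6180220063)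 (nat_lit 84) (nat_lit 6591514862) (nat_lit 60) (nat_lit 5) (nat_lit 67) (nat_lit 5) (nat_lit 61) (nat_lit 5) (nat_lit 353) (nat_lit 327) (nat_lit 208)) (XT.lf (nat_lit 0) (nat_lit 5433395077) (nat_lit 588) (nat_lit 686358619) (nat_lit 84) (nat_lit 11300572405) (nat_lit 60) (nat_lit 5) (nat_lit 67) (nat_lit 5) (nat_lit 61) (nat_lit 5) (nat_lit 354) (nat_lit 327) (nat_lit 207))) (XT.nd (nat_lit 94) (nat_lit 0) (nat_lit 0) (XT.lf (nat_lit 0) (nat_lit 5072195064) (nat_lit 420) (nat_lit 1554054776) (nat_lit 504) (nat_lit 11134594582) (nat_lit 55) (nat_lit 5) (nat_lit 60) (nat_lit 5) (nat_lit 61) (nat_lit 5) (nat_lit 355) (nat_lit 327) (nat_lit 206)) (XT.nd (nat_lit 94) (nat_lit 0) (nat_lit 0) (XT.lf (nat_lit 0) (nat_lit 7886421863) (nat_lit 504) (nat_lit 7127280071) (nat_lit 84) (nat_lit 3097330895) (nat_lit 55) (nat_lit 5) (nat_lit 61) (nat_lit 5) (nat_lit 56) (nat_lit 5) (nat_lit 356) (nat_lit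 327) (nat_lit 205)) (XT.lf (nat_lit 0) (nat_lit 9193620827) (nat_lit 504) (nat_lit 1417205264) (nat_lit 84) (nat_lit 7861057056) (nat_lit 55) (nat_lit 5) (nat_lit 61) (nat_lit 5) (nat_lit 56) (nat_lit 5) (nat_lit 357) (nat_lit 327) (nat_lit 204)))))) (XT.nd (nat_lit 376) (nat_lit 504) (nat_lit 0) (XT.nd (nat_lit 188) (nat_lit 336) (nat_lit 0) (XT.nd (nat_lit 94) (nat_lit 0) (nat_lit 0) (XT.lf (nat_lit 0) (nat_lit 4554068188) (nat_lit 420) (nat_lit 6024757493) (nat_lit 504) (nat_lit 8263983468) (nat_lit 50) (nat_lit 5) (nat_lit 55) (nat_lit 5) (nat_lit 56) (nat_lit 5) (nat_lit 358) (nat_lit 327) (nat_lit 203)) (XT.lf (nat_lit 0) (nat_lit 10733003748) (nat_lit 420) (nat_lit 1281223692) (nat_lit 504) (nat_lit 7210831245) (nat_lit 50) (nat_lit 5) (nat_lit 55) (nat_lit 5) (nat_lit 56) (nat_lit 5) (nat_lit 359) (nat_lit 327) (nat_lit 202))) (XT.nd (nat_lit 94) (nat_lit 336) (nat_lit 0) (XT.lf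 (nat_lit 0) (nat_lit 13522621851) (nat_lit 504) (nat_lit 2559018388) (nat_lit 84) (nat_lit 3536682617) (nat_lit 50) (nat_lit 5) (nat_lit 56) (nat_lit 5) (nat_lit 51) (nat_lit 5) (nat_lit 360) (nat_lit 327) (nat_lit 201)) (XT.lf (nat_lit 0) (nat_lit 3610262440) (nat_lit 336) (nat_lit 11509341905) (nat_lit 420) (nat_lit 4902924008) (nat_lit 46) (nat_lit 5) (nat_lit 50) (nat_lit 5) (nat_lit 51) (nat_lit 5) (nat_lit 361) (nat_lit 327) (nat_lit 200)))) (XT.nd (nat_lit 188) (nat_lit 504) (nat_lit 0) (XT.nd (nat_lit 94) (nat_lit 0) (nat_lit 0) (XT.lf (nat_lit 0) (nat_lit 10017800182) (nat_lit 336) (nat_lit 6768055084) (nat_lit 420) (nat_lit 3652841729) (nat_lit 46) (nat_lit 5) (nat_lit 50) (nat_lit 5) (nat_lit 51) (nat_lit 5) (nat_lit 362) (nat_lit 327) (nat_lit 199)) (XT.lf (nat_lit 0) (nat_lit 16616948669) (nat_lit 336) (nat_lit 1880071303) (nat_lit 420) (nat_lit 2370999863) (nat_lit 46) (nat_lit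 5) (nat_lit 50) (nat_lit 5) (nat_lit 51) (nat_lit 5) (nat_lit 363) (nat_lit 327) (nat_lit 198))) (XT.nd (nat_lit 94) (nat_lit 84) (nat_lit 0) (XT.lf (nat_lit 0) (nat_lit 2114219448) (nat_lit 420) (nat_lit 18192786628) (nat_lit 504) (nat_lit 1002269276) (nat_lit 41) (nat_lit 5) (nat_lit 46) (nat_lit 5) (nat_lit 47) (nat_lit 5) (nat_lit 364) (nat_lit 327) (nat_lit 197)) (XT.nd (nat_lit 94) (nat_lit 0) (nat_lit 0) (XT.lf (nat_lit 0) (nat_lit 458189834) (nat_lit 504) (nat_lit 13026775689) (nat_lit 84) (nat_lit 8277375079) (nat_lit 40) (nat_lit 5) (nat_lit 46) (nat_lit 5) (nat_lit 41) (nat_lit 5) (nat_lit 365) (nat_lit 327) (nat_lit 196)) (XT.lf (nat_lit 0) (nat_lit 1936780836) (nat_lit 504) (nat_lit 6684471641) (nat_lit 84) (nat_lit 13608115598) (nat_lit 40) (nat_lit 5) (nat_lit 46) (nat_lit 5) (nat_lit 41) (nat_lit 5) (nat_lit 366) (nat_lit 327) (nat_lit 195))))))))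
noncomputable def xc104 : XT := (XT.nd (nat_lit 53110) (nat_lit 0) (nat_lit 2352) (XT.nd (nat_lit 52264) (nat_lit 0) (nat_lit 4116) (XT.nd (nat_lit 376) (nat_lit 336) (nat_lit 0) (XT.nd (nat_lit 188) (nat_lit 0) (nat_lit 0) (XT.nd (nat_lit 94) (nat_lit 336) (nat_lit 0) (XT.lf (nat_lit 0) (nat_lit 3455075422) (nat_lit 504) (nat_lit 152289434) (nat_lit 84) (nat_lit 19103736453) (nat_lit 40) (nat_lit 5) (nat_lit 46) (nat_lit 5) (nat_lit 41) (nat_lit 5) (nat_lit 367) (nat_lit 327) (nat_lit 194)) (XT.lf (nat_lit 0) (nat_lit 5097233369) (nat_lit 420) (nat_lit 16511022643) (nat_lit 84) (nat_lit 1597168238) (nat_lit 36) (nat_lit 5) (nat_lit 41) (nat_lit 5) (nat_lit 37) (nat_lit 5) (nat_lit 368) (nat_lit 327) (nat_lit 193))) (XT.nd (nat_lit 94) (nat_lit 0) (nat_lit 0) (XT.lf (nat_lit 0) (nat_lit 6822959042) (nat_lit 420) (nat_lit 10002039343) (nat_lit 84) (nat_lit 6889095890) (nat_lit 36) (nat_lit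 5) (nat_lit 41) (nat_lit 5) (nat_lit 37) (nat_lit 5) (nat_lit 369) (nat_lit 327) (nat_lit 192)) (XT.lf (nat_lit 0) (nat_lit 8596517929) (nat_lit 420) (nat_lit 3297751694) (nat_lit 84) (nat_lit 12344473529) (nat_lit 36) (nat_lit 5) (nat_lit 41) (nat_lit 5) (nat_lit 37) (nat_lit 5) (nat_lit 370) (nat_lit 327) (nat_lit 191)))) (XT.nd (nat_lit 51700) (nat_lit 0) (nat_lit 4116) (XT.nd (nat_lit 94) (nat_lit 0) (nat_lit 0) (XT.lf (nat_lit 0) (nat_lit 3682279120) (nat_lit 336) (nat_lit 6773812716) (nat_lit 420) (nat_lit 14322635683) (nat_lit 32) (nat_lit 5) (nat_lit 36) (nat_lit 5) (nat_lit 37) (nat_lit 5) (nat_lit 371) (nat_lit 327) (nat_lit 190)) (XT.lf (nat_lit 0) (nat_lit 10942385597) (nat_lit 336) (nat_lit 1459958263) (nat_lit 420) (nat_lit 12932240016) (nat_lit 32) (nat_lit 5) (nat_lit 36) (nat_lit 5) (nat_lit 37) (nat_lit 5) (nat_lit 372) (nat_lit 327) (nat_lit 189))) (XT.nd (nat_lit 94)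 (nat_lit 0) (nat_lit 0) (XT.lf (nat_lit 0) (nat_lit 137160721) (nat_lit 0) (nat_lit 137160721) (nat_lit 924) (nat_lit 5439990449) (nat_lit 81) (nat_lit 5) (nat_lit 81) (nat_lit 3) (nat_lit 92) (nat_lit 3) (nat_lit 328) (nat_lit 328) (nat_lit 232)) (XT.lf (nat_lit 0) (nat_lit 998443762) (nat_lit 924) (nat_lit 7503903826) (nat_lit 1008) (nat_lit 3086747268) (nat_lit 81) (nat_lit 5) (nat_lit 92) (nat_lit 3) (nat_lit 93) (nat_lit 5) (nat_lit 329) (nat_lit 328) (nat_lit 231))))) (XT.nd (nat_lit 376) (nat_lit 0) (nat_lit 84) (XT.nd (nat_lit 188) (nat_lit 0) (nat_lit 84) (XT.nd (nat_lit 94) (nat_lit 0) (nat_lit 0) (XT.lf (nat_lit 0) (nat_lit 1448553042) (nat_lit 924) (nat_lit 3752124889) (nat_lit 1008) (nat_lit 6554405877) (nat_lit 81) (nat_lit 5) (nat_lit 92) (nat_lit 3) (nat_lit 93) (nat_lit 5) (nat_lit 330) (nat_lit 328) (nat_lit 230)) (XT.lf (nat_lit 84) (nat_lit 109458159) (nat_lit 0) (nat_lit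 1788296652) (nat_lit 1008) (nat_lit 10029041249) (nat_lit 82) (nat_lit 5) (nat_lit 81) (nat_lit 5) (nat_lit 93) (nat_lit 5) (nat_lit 331) (nat_lit 328) (nat_lit 229))) (XT.nd (nat_lit 94) (nat_lit 0) (nat_lit 0) (XT.lf (nat_lit 0) (nat_lit 2402123440) (nat_lit 924) (nat_lit 7959167598) (nat_lit 1008) (nat_lit 1741375303) (nat_lit 82) (nat_lit 5) (nat_lit 93) (nat_lit 5) (nat_lit 94) (nat_lit 5) (nat_lit 332) (nat_lit 328) (nat_lit 228)) (XT.lf (nat_lit 0) (nat_lit 2925399179) (nat_lit 924) (nat_lit 4008687567) (nat_lit 1008) (nat_lit 5349910459) (nat_lit 82) (nat_lit 5) (nat_lit 93) (nat_lit 5) (nat_lit 94) (nat_lit 5) (nat_lit 333) (nat_lit 328) (nat_lit 227)))) (XT.nd (nat_lit 188) (nat_lit 0) (nat_lit 84) (XT.nd (nat_lit 94) (nat_lit 0) (nat_lit 84) (XT.lf (nat_lit 84) (nat_lit 56666274) (nat_lit 0) (nat_lit 3394225514) (nat_lit 1008) (nat_lit 9020598401) (nat_lit 83) (nat_lit 5) (nat_lit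 82) (nat_lit 5) (nat_lit 94) (nat_lit 5) (nat_lit 334) (nat_lit 328) (nat_lit 226)) (XT.lf (nat_lit 0) (nat_lit 4023319096) (nat_lit 924) (nat_lit 8342675228) (nat_lit 1008) (nat_lit 297954665) (nat_lit 83) (nat_lit 5) (nat_lit 94) (nat_lit 5) (nat_lit 95) (nat_lit 5) (nat_lit 335) (nat_lit 328) (nat_lit 225))) (XT.nd (nat_lit 94) (nat_lit 0) (nat_lit 0) (XT.lf (nat_lit 0) (nat_lit 4634473018) (nat_lit 924) (nat_lit 4187970709) (nat_lit 1008) (nat_lit 4039380261) (nat_lit 83) (nat_lit 5) (nat_lit 94) (nat_lit 5) (nat_lit 95) (nat_lit 5) (nat_lit 336) (nat_lit 328) (nat_lit 224)) (XT.nd (nat_lit 94) (nat_lit 0) (nat_lit 0) (XT.lf (nat_lit 84) (nat_lit 88618870) (nat_lit 0) (nat_lit 5163512315) (nat_lit 1008) (nat_lit 7814184992) (nat_lit 84) (nat_lit 5) (nat_lit 83) (nat_lit 5) (nat_lit 95) (nat_lit 5) (nat_lit 337) (nat_lit 328) (nat_lit 223)) (XT.lf (nat_lit 84) (nat_lit 4577957296) (nat_lit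 0) (nat_lit 1341687779) (nat_lit 1008) (nat_lit 7356645042) (nat_lit 84) (nat_lit 5) (nat_lit 83) (nat_lit 5) (nat_lit 95) (nat_lit 5) (nat_lit 338) (nat_lit 328) (nat_lit 222))))))) (XT.nd (nat_lit 752) (nat_lit 1260) (nat_lit 0) (XT.nd (nat_lit 376) (nat_lit 756) (nat_lit 0) (XT.nd (nat_lit 188) (nat_lit 0) (nat_lit 0) (XT.nd (nat_lit 94) (nat_lit 0) (nat_lit 0) (XT.lf (nat_lit 0) (nat_lit 6621058313) (nat_lit 924) (nat_lit 4320960952) (nat_lit 1008) (nat_lit 2550436196) (nat_lit 84) (nat_lit 5) (nat_lit 95) (nat_lit 5) (nat_lit 96) (nat_lit 5) (nat_lit 339) (nat_lit 328) (nat_lit 221)) (XT.lf (nat_lit 84) (nat_lit 173270637) (nat_lit 0) (nat_lit 7174191770) (nat_lit 1008) (nat_lit 6367847723) (nat_lit 85) (nat_lit 5) (nat_lit 84) (nat_lit 5) (nat_lit 96) (nat_lit 5) (nat_lit 340) (nat_lit 328) (nat_lit 220))) (XT.nd (nat_lit 94) (nat_lit 0) (nat_lit 84) (XT.lf (nat_lit 84) (nat_lit 4889905135)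 (nat_lit 0) (nat_lit 3239669862) (nat_lit 1008) (nat_lit 5814555592) (nat_lit 85) (nat_lit 5) (nat_lit 84) (nat_lit 5) (nat_lit 96) (nat_lit 5) (nat_lit 341) (nat_lit 328) (nat_lit 219)) (XT.lf (nat_lit 0) (nat_lit 8932514856) (nat_lit 924) (nat_lit 4444130735) (nat_lit 1008) (nat_lit 803588448) (nat_lit 85) (nat_lit 5) (nat_lit 96) (nat_lit 5) (nat_lit 97) (nat_lit 5) (nat_lit 342) (nat_lit 328) (nat_lit 218)))) (XT.nd (nat_lit 188) (nat_lit 840) (nat_lit 0) (XT.nd (nat_lit 94) (nat_lit 0) (nat_lit 0) (XT.lf (nat_lit 84) (nat_lit 272762445) (nat_lit 0) (nat_lit 9512248664) (nat_lit 1008) (nat_lit 4637962046) (nat_lit 86) (nat_lit 5) (nat_lit 85) (nat_lit 5) (nat_lit 97) (nat_lit 5) (nat_lit 343) (nat_lit 328) (nat_lit 217)) (XT.lf (nat_lit 84) (nat_lit 5221702533) (nat_lit 0) (nat_lit 5477697814) (nat_lit 1008) (nat_lit 3972816043) (nat_lit 86) (nat_lit 5) (nat_lit 85) (nat_lit 5) (nat_lit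 97) (nat_lit 5) (nat_lit 344) (nat_lit 328) (nat_lit 216))) (XT.nd (nat_lit 94) (nat_lit 840) (nat_lit 0) (XT.lf (nat_lit 84) (nat_lit 10315922016) (nat_lit 0) (nat_lit 1315620029) (nat_lit 1008) (nat_lit 3298048800) (nat_lit 86) (nat_lit 5) (nat_lit 85) (nat_lit 5) (nat_lit 97) (nat_lit 5) (nat_lit 345) (nat_lit 328) (nat_lit 215)) (XT.lf (nat_lit 0) (nat_lit 342186330) (nat_lit 924) (nat_lit 12273054038) (nat_lit 1008) (nat_lit 2579075057) (nat_lit 75) (nat_lit 5) (nat_lit 86) (nat_lit 5) (nat_lit 87) (nat_lit 5) (nat_lit 346) (nat_lit 328) (nat_lit 214))))) (XT.nd (nat_lit 376) (nat_lit 504) (nat_lit 0) (XT.nd (nat_lit 188) (nat_lit 756) (nat_lit 0) (XT.nd (nat_lit 94) (nat_lit 0) (nat_lit 0) (XT.lf (nat_lit 0) (nat_lit 5527522900) (nat_lit 924) (nat_lit 8153362347) (nat_lit 1008) (nat_lit 1784837969) (nat_lit 75) (nat_lit 5) (nat_lit 86) (nat_lit 5) (nat_lit 87) (nat_lit 5) (nat_lit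 347) (nat_lit 328) (nat_lit 213)) (XT.lf (nat_lit 0) (nat_lit 10865627135) (nat_lit 924) (nat_lit 3904214605) (nat_lit 1008) (nat_lit 976073938) (nat_lit 75) (nat_lit 5) (nat_lit 86) (nat_lit 5) (nat_lit 87) (nat_lit 5) (nat_lit 348) (nat_lit 328) (nat_lit 212))) (XT.nd (nat_lit 94) (nat_lit 84) (nat_lit 0) (XT.lf (nat_lit 0) (nat_lit 328187690) (nat_lit 672) (nat_lit 15562938127) (nat_lit 756) (nat_lit 143780128) (nat_lit 67) (nat_lit 5) (nat_lit 75) (nat_lit 5) (nat_lit 76) (nat_lit 5) (nat_lit 349) (nat_lit 328) (nat_lit 211)) (XT.lf (nat_lit 0) (nat_lit 781945868) (nat_lit 756) (nat_lit 10585516114) (nat_lit 84) (nat_lit 4962694059) (nat_lit 66) (nat_lit 5) (nat_lit 75) (nat_lit 5) (nat_lit 67) (nat_lit 5) (nat_lit 350) (nat_lit 328) (nat_lit 210)))) (XT.nd (nat_lit 188) (nat_lit 0) (nat_lit 0) (XT.nd (nat_lit 94) (nat_lit 504) (nat_lit 0) (XT.lf (nat_lit 0) (nat_lit 1724295229) (nat_lit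 756) (nat_lit 5315066588) (nat_lit 84) (nat_lit 9595494800) (nat_lit 66) (nat_lit 5) (nat_lit 75) (nat_lit 5) (nat_lit 67) (nat_lit 5) (nat_lit 351) (nat_lit 328) (nat_lit 209)) (XT.lf (nat_lit 0) (nat_lit 113251005) (nat_lit 504) (nat_lit 2574915629) (nat_lit 588) (nat_lit 14261134438) (nat_lit 60) (nat_lit 5) (nat_lit 66) (nat_lit 5) (nat_lit 67) (nat_lit 5) (nat_lit 352) (nat_lit 328) (nat_lit 208))) (XT.nd (nat_lit 94) (nat_lit 0) (nat_lit 0) (XT.lf (nat_lit 0) (nat_lit 3749464368) (nat_lit 588) (nat_lit 11477988157) (nat_lit 84) (nat_lit 2044004798) (nat_lit 60) (nat_lit 5) (nat_lit 67) (nat_lit 5) (nat_lit 61) (nat_lit 5) (nat_lit 353) (nat_lit 328) (nat_lit 207)) (XT.nd (nat_lit 94) (nat_lit 0) (nat_lit 0) (XT.lf (nat_lit 0) (nat_lit 4861639954) (nat_lit 588) (nat_lit 5987972549) (nat_lit 84) (nat_lit 6753486818) (nat_lit 60) (nat_lit 5) (nat_lit 67) (nat_lit 5) (nat_lit 61) (nat_lit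 5) (nat_lit 354) (nat_lit 328) (nat_lit 206)) (XT.lf (nat_lit 0) (nat_lit 6000186576) (nat_lit 588) (nat_lit 335342491) (nat_lit 84) (nat_lit 11609798970) (nat_lit 60) (nat_lit 5) (nat_lit 67) (nat_lit 5) (nat_lit 61) (nat_lit 5) (nat_lit 355) (nat_lit 328) (nat_lit 205))))))))
noncomputable def xc105 : XT := (XT.nd (nat_lit 53204) (nat_lit 0) (nat_lit 4116) (XT.nd (nat_lit 752) (nat_lit 1176) (nat_lit 0) (XT.nd (nat_lit 376) (nat_lit 336) (nat_lit 0) (XT.nd (nat_lit 188) (nat_lit 420) (nat_lit 0) (XT.nd (nat_lit 94) (nat_lit 0) (nat_lit 0) (XT.lf (nat_lit 0) (nat_lit 5597957222) (nat_lit 420) (nat_lit 1623740685) (nat_lit 504) (nat_lit 11075043055) (nat_lit 55) (nat_lit 5) (nat_lit 60) (nat_lit 5) (nat_lit 61) (nat_lit 5) (nat_lit 356) (nat_lit 328) (nat_lit 204)) (XT.lf (nat_lit 0) (nat_lit 8509000784) (nat_lit 504) (nat_lit 6976327467) (nat_lit 84) (nat_lit 3172905060) (nat_lit 55) (nat_lit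 5) (nat_lit 61) (nat_lit 5) (nat_lit 56) (nat_lit 5) (nat_lit 357) (nat_lit 328) (nat_lit 203))) (XT.nd (nat_lit 94) (nat_lit 420) (nat_lit 0) (XT.lf (nat_lit 0) (nat_lit 9845354249) (nat_lit 504) (nat_lit 1100422540) (nat_lit 84) (nat_lit 8084921412) (nat_lit 55) (nat_lit 5) (nat_lit 61) (nat_lit 5) (nat_lit 56) (nat_lit 5) (nat_lit 358) (nat_lit 328) (nat_lit 202)) (XT.lf (nat_lit 0) (nat_lit 5052308463) (nat_lit 420) (nat_lit 6213707278) (nat_lit 504) (nat_lit 8147412702) (nat_lit 50) (nat_lit 5) (nat_lit 55) (nat_lit 5) (nat_lit 56) (nat_lit 5) (nat_lit 359) (nat_lit 328) (nat_lit 201)))) (XT.nd (nat_lit 188) (nat_lit 336) (nat_lit 0) (XT.nd (nat_lit 94) (nat_lit 0) (nat_lit 0) (XT.lf (nat_lit 0) (nat_lit 11412054857) (nat_lit 420) (nat_lit 1323058312) (nat_lit 504) (nat_lit 7072820696) (nat_lit 50) (nat_lit 5) (nat_lit 55) (nat_lit 5) (nat_lit 56) (nat_lit 5) (nat_lit 360) (nat_lit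 328) (nat_lit 200)) (XT.lf (nat_lit 0) (nat_lit 14279770442) (nat_lit 504) (nat_lit 2289705252) (nat_lit 84) (nat_lit 3644308101) (nat_lit 50) (nat_lit 5) (nat_lit 56) (nat_lit 5) (nat_lit 51) (nat_lit 5) (nat_lit 361) (nat_lit 328) (nat_lit 199))) (XT.nd (nat_lit 94) (nat_lit 0) (nat_lit 0) (XT.lf (nat_lit 0) (nat_lit 4067293587) (nat_lit 336) (nat_lit 11852228006) (nat_lit 420) (nat_lit 4711274015) (nat_lit 46) (nat_lit 5) (nat_lit 50) (nat_lit 5) (nat_lit 51) (nat_lit 5) (nat_lit 362) (nat_lit 328) (nat_lit 198)) (XT.lf (nat_lit 0) (nat_lit 10663088178) (nat_lit 336) (nat_lit 6964379342) (nat_lit 420) (nat_lit 3432771736) (nat_lit 46) (nat_lit 5) (nat_lit 50) (nat_lit 5) (nat_lit 51) (nat_lit 5) (nat_lit 363) (nat_lit 328) (nat_lit 197))))) (XT.nd (nat_lit 376) (nat_lit 672) (nat_lit 0) (XT.nd (nat_lit 188) (nat_lit 84) (nat_lit 0) (XT.nd (nat_lit 94) (nat_lit 420) (nat_lit 0) (XT.lf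 (nat_lit 0) (nat_lit 17456745454) (nat_lit 336) (nat_lit 1925273543) (nat_lit 420) (nat_lit 2121214644) (nat_lit 46) (nat_lit 5) (nat_lit 50) (nat_lit 5) (nat_lit 51) (nat_lit 5) (nat_lit 364) (nat_lit 328) (nat_lit 196)) (XT.lf (nat_lit 0) (nat_lit 2512592589) (nat_lit 420) (nat_lit 18729580776) (nat_lit 504) (nat_lit 716240098) (nat_lit 41) (nat_lit 5) (nat_lit 46) (nat_lit 5) (nat_lit 47) (nat_lit 5) (nat_lit 365) (nat_lit 328) (nat_lit 195))) (XT.nd (nat_lit 94) (nat_lit 0) (nat_lit 0) (XT.lf (nat_lit 0) (nat_lit 773761979) (nat_lit 504) (nat_lit 13099726883) (nat_lit 84) (nat_lit 8552284550) (nat_lit 40) (nat_lit 5) (nat_lit 46) (nat_lit 5) (nat_lit 41) (nat_lit 5) (nat_lit 366) (nat_lit 328) (nat_lit 194)) (XT.lf (nat_lit 0) (nat_lit 2289127793) (nat_lit 504) (nat_lit 6570760241) (nat_lit 84) (nat_lit 14047727456) (nat_lit 40) (nat_lit 5) (nat_lit 46) (nat_lit 5) (nat_lit 41) (nat_lit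 5) (nat_lit 367) (nat_lit 328) (nat_lit 193)))) (XT.nd (nat_lit 188) (nat_lit 336) (nat_lit 0) (XT.nd (nat_lit 94) (nat_lit 0) (nat_lit 0) (XT.lf (nat_lit 0) (nat_lit 157442029) (nat_lit 336) (nat_lit 3689820277) (nat_lit 420) (nat_lit 19557298358) (nat_lit 36) (nat_lit 5) (nat_lit 40) (nat_lit 5) (nat_lit 41) (nat_lit 5) (nat_lit 368) (nat_lit 328) (nat_lit 192)) (XT.lf (nat_lit 0) (nat_lit 5533595593) (nat_lit 420) (nat_lit 16704719520) (nat_lit 84) (nat_lit 1676153722) (nat_lit 36) (nat_lit 5) (nat_lit 41) (nat_lit 5) (nat_lit 37) (nat_lit 5) (nat_lit 369) (nat_lit 328) (nat_lit 191))) (XT.nd (nat_lit 94) (nat_lit 336) (nat_lit 0) (XT.lf (nat_lit 0) (nat_lit 7304449423) (nat_lit 420) (nat_lit 10003523682) (nat_lit 84) (nat_lit 7131244932) (nat_lit 36) (nat_lit 5) (nat_lit 41) (nat_lit 5) (nat_lit 37) (nat_lit 5) (nat_lit 370) (nat_lit 328) (nat_lit 190)) (XT.nd (nat_lit 94) (nat_lit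 336) (nat_lit 0) (XT.lf (nat_lit 0) (nat_lit 9124870946) (nat_lit 420) (nat_lit 3100681434) (nat_lit 84) (nat_lit 12754879724) (nat_lit 36) (nat_lit 5) (nat_lit 41) (nat_lit 5) (nat_lit 37) (nat_lit 5) (nat_lit 371) (nat_lit 328) (nat_lit 189)) (XT.lf (nat_lit 0) (nat_lit 4092700186) (nat_lit 336) (nat_lit 6944456889) (nat_lit 420) (nat_lit 14500199822) (nat_lit 32) (nat_lit 5) (nat_lit 36) (nat_lit 5) (nat_lit 37) (nat_lit 5) (nat_lit 372) (nat_lit 328) (nat_lit 188))))))) (XT.nd (nat_lit 752) (nat_lit 0) (nat_lit 168) (XT.nd (nat_lit 376) (nat_lit 0) (nat_lit 84) (XT.nd (nat_lit 188) (nat_lit 0) (nat_lit 0) (XT.nd (nat_lit 94) (nat_lit 0) (nat_lit 0) (XT.lf (nat_lit 0) (nat_lit 344402032) (nat_lit 0) (nat_lit 344402032) (nat_lit 924) (nat_lit 5187103450) (nat_lit 81) (nat_lit 5) (nat_lit 81) (nat_lit 3) (nat_lit 92) (nat_lit 3) (nat_lit 329) (nat_lit 329) (nat_lit 230)) (XT.lf (nat_lit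 0) (nat_lit 1813032720) (nat_lit 924) (nat_lit 7308685748) (nat_lit 1008) (nat_lit 2796598323) (nat_lit 81) (nat_lit 5) (nat_lit 92) (nat_lit 3) (nat_lit 93) (nat_lit 5) (nat_lit 330) (nat_lit 329) (nat_lit 229))) (XT.nd (nat_lit 94) (nat_lit 0) (nat_lit 0) (XT.lf (nat_lit 0) (nat_lit 2253533066) (nat_lit 924) (nat_lit 3453465885) (nat_lit 1008) (nat_lit 6383355689) (nat_lit 81) (nat_lit 5) (nat_lit 92) (nat_lit 3) (nat_lit 93) (nat_lit 5) (nat_lit 331) (nat_lit 329) (nat_lit 228)) (XT.lf (nat_lit 84) (nat_lit 523624990) (nat_lit 0) (nat_lit 2174256174) (nat_lit 1008) (nat_lit 9570258567) (nat_lit 82) (nat_lit 5) (nat_lit 81) (nat_lit 5) (nat_lit 93) (nat_lit 5) (nat_lit 332) (nat_lit 329) (nat_lit 227)))) (XT.nd (nat_lit 188) (nat_lit 0) (nat_lit 0) (XT.nd (nat_lit 94) (nat_lit 0) (nat_lit 0) (XT.lf (nat_lit 0) (nat_lit 3192415776) (nat_lit 924) (nat_lit 7776765560) (nat_lit 1008) (nat_lit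 1481232780) (nat_lit 82) (nat_lit 5) (nat_lit 93) (nat_lit 5) (nat_lit 94) (nat_lit 5) (nat_lit 333) (nat_lit 329) (nat_lit 226)) (XT.lf (nat_lit 0) (nat_lit 3710389666) (nat_lit 924) (nat_lit 3716723871) (nat_lit 1008) (nat_lit 5211077608) (nat_lit 82) (nat_lit 5) (nat_lit 93) (nat_lit 5) (nat_lit 94) (nat_lit 5) (nat_lit 334) (nat_lit 329) (nat_lit 225))) (XT.nd (nat_lit 94) (nat_lit 0) (nat_lit 84) (XT.lf (nat_lit 84) (nat_lit 470441954) (nat_lit 0) (nat_lit 3764941640) (nat_lit 1008) (nat_lit 8596786220) (nat_lit 83) (nat_lit 5) (nat_lit 82) (nat_lit 5) (nat_lit 94) (nat_lit 5) (nat_lit 335) (nat_lit 329) (nat_lit 224)) (XT.lf (nat_lit 0) (nat_lit 4802630169) (nat_lit 924) (nat_lit 8173956412) (nat_lit 1008) (nat_lit 54867303) (nat_lit 83) (nat_lit 5) (nat_lit 94) (nat_lit 5) (nat_lit 95) (nat_lit 5) (nat_lit 336) (nat_lit 329) (nat_lit 223))))) (XT.nd (nat_lit 376) (nat_lit 0) (nat_lit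 84) (XT.nd (nat_lit 188) (nat_lit 0) (nat_lit 0) (XT.nd (nat_lit 94) (nat_lit 0) (nat_lit 0) (XT.lf (nat_lit 0) (nat_lit 5413047774) (nat_lit 924) (nat_lit 3903305320) (nat_lit 1008) (nat_lit 3919863943) (nat_lit 83) (nat_lit 5) (nat_lit 94) (nat_lit 5) (nat_lit 95) (nat_lit 5) (nat_lit 337) (nat_lit 329) (nat_lit 222)) (XT.lf (nat_lit 84) (nat_lit 501662172) (nat_lit 0) (nat_lit 5533171070) (nat_lit 1008) (nat_lit 7412820421) (nat_lit 84) (nat_lit 5) (nat_lit 83) (nat_lit 5) (nat_lit 95) (nat_lit 5) (nat_lit 338) (nat_lit 329) (nat_lit 221))) (XT.nd (nat_lit 94) (nat_lit 0) (nat_lit 84) (XT.lf (nat_lit 84) (nat_lit 5117833348) (nat_lit 0) (nat_lit 1586568048) (nat_lit 1008) (nat_lit 6960448560) (nat_lit 84) (nat_lit 5) (nat_lit 83) (nat_lit 5) (nat_lit 95) (nat_lit 5) (nat_lit 339) (nat_lit 329) (nat_lit 220)) (XT.lf (nat_lit 0) (nat_lit 7407524198) (nat_lit 924) (nat_lit 4044647722) (nat_lit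 1008) (nat_lit 2436296859) (nat_lit 84) (nat_lit 5) (nat_lit 95) (nat_lit 5) (nat_lit 96) (nat_lit 5) (nat_lit 340) (nat_lit 329) (nat_lit 219)))) (XT.nd (nat_lit 188) (nat_lit 0) (nat_lit 84) (XT.nd (nat_lit 94) (nat_lit 0) (nat_lit 0) (XT.lf (nat_lit 84) (nat_lit 584751501) (nat_lit 0) (nat_lit 7558248120) (nat_lit 1008) (nat_lit 5975776528) (nat_lit 85) (nat_lit 5) (nat_lit 84) (nat_lit 5) (nat_lit 96) (nat_lit 5) (nat_lit 341) (nat_lit 329) (nat_lit 218)) (XT.lf (nat_lit 84) (nat_lit 5435390812) (nat_lit 0) (nat_lit 3496895364) (nat_lit 1008) (nat_lit 5423056597) (nat_lit 85) (nat_lit 5) (nat_lit 84) (nat_lit 5) (nat_lit 96) (nat_lit 5) (nat_lit 342) (nat_lit 329) (nat_lit 217))) (XT.nd (nat_lit 94) (nat_lit 0) (nat_lit 0) (XT.lf (nat_lit 0) (nat_lit 9742050286) (nat_lit 924) (nat_lit 4177912450) (nat_lit 1008) (nat_lit 679482569) (nat_lit 85) (nat_lit 5) (nat_lit 96) (nat_lit 5) (nat_lit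 97) (nat_lit 5) (nat_lit 343) (nat_lit 329) (nat_lit 216)) (XT.nd (nat_lit 94) (nat_lit 0) (nat_lit 0) (XT.lf (nat_lit 84) (nat_lit 681114419) (nat_lit 0) (nat_lit 9927811537) (nat_lit 1008) (nat_lit 4241273061) (nat_lit 86) (nat_lit 5) (nat_lit 85) (nat_lit 5) (nat_lit 97) (nat_lit 5) (nat_lit 344) (nat_lit 329) (nat_lit 215)) (XT.lf (nat_lit 84) (nat_lit 5771447609) (nat_lit 0) (nat_lit 5764560922) (nat_lit 1008) (nat_lit 3571758202) (nat_lit 86) (nat_lit 5) (nat_lit 85) (nat_lit 5) (nat_lit 97) (nat_lit 5) (nat_lit 345) (nat_lit 329) (nat_lit 214))))))))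
noncomputable def xc106 : XT := (XT.nd (nat_lit 1598) (nat_lit 1176) (nat_lit 0) (XT.nd (nat_lit 752) (nat_lit 840) (nat_lit 0) (XT.nd (nat_lit 376) (nat_lit 1260) (nat_lit 0) (XT.nd (nat_lit 188) (nat_lit 0) (nat_lit 0) (XT.nd (nat_lit 94) (nat_lit 840) (nat_lit 0) (XT.lf (nat_lit 84) (nat_lit 11011925393) (nat_lit 0) (nat_lit 1469939144) (nat_lit 1008) (nat_lit 2891835221) (nat_lit 86) (nat_lit 5) (nat_lit 85) (nat_lit 5) (nat_lit 97) (nat_lit 5) (nat_lit 346) (nat_lit 329) (nat_lit 213)) (XT.lf (nat_lit 0) (nat_lit 744828991) (nat_lit 924) (nat_lit 12739299545) (nat_lit 1008) (nat_lit 2162978091) (nat_lit 75) (nat_lit 5) (nat_lit 86) (nat_lit 5) (nat_lit 87) (nat_lit 5) (nat_lit 347) (nat_lit 329) (nat_lit 212))) (XT.nd (nat_lit 94) (nat_lit 0) (nat_lit 0) (XT.lf (nat_lit 0) (nat_lit 6079123331) (nat_lit 924) (nat_lit 8489318163) (nat_lit 1008) (nat_lit 1359034782) (nat_lit 75) (nat_lit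 5) (nat_lit 86) (nat_lit 5) (nat_lit 87) (nat_lit 5) (nat_lit 348) (nat_lit 329) (nat_lit 211)) (XT.lf (nat_lit 0) (nat_lit 11571275562) (nat_lit 924) (nat_lit 4105945144) (nat_lit 1008) (nat_lit 539665727) (nat_lit 75) (nat_lit 5) (nat_lit 86) (nat_lit 5) (nat_lit 87) (nat_lit 5) (nat_lit 349) (nat_lit 329) (nat_lit 210)))) (XT.nd (nat_lit 188) (nat_lit 504) (nat_lit 0) (XT.nd (nat_lit 94) (nat_lit 0) (nat_lit 0) (XT.lf (nat_lit 0) (nat_lit 301316934) (nat_lit 756) (nat_lit 15797095033) (nat_lit 84) (nat_lit 416750943) (nat_lit 66) (nat_lit 5) (nat_lit 75) (nat_lit 5) (nat_lit 67) (nat_lit 5) (nat_lit 350) (nat_lit 329) (nat_lit 209)) (XT.lf (nat_lit 0) (nat_lit 1239326438) (nat_lit 756) (nat_lit 10530484809) (nat_lit 84) (nat_lit 5050216192) (nat_lit 66) (nat_lit 5) (nat_lit 75) (nat_lit 5) (nat_lit 67) (nat_lit 5) (nat_lit 351) (nat_lit 329) (nat_lit 208))) (XT.nd (nat_lit 94) (nat_lit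 504) (nat_lit 0) (XT.lf (nat_lit 0) (nat_lit 2197865013) (nat_lit 756) (nat_lit 5108172833) (nat_lit 84) (nat_lit 9828627900) (nat_lit 66) (nat_lit 5) (nat_lit 75) (nat_lit 5) (nat_lit 67) (nat_lit 5) (nat_lit 352) (nat_lit 329) (nat_lit 207)) (XT.lf (nat_lit 0) (nat_lit 484659873) (nat_lit 504) (nat_lit 2697974130) (nat_lit 588) (nat_lit 14276588060) (nat_lit 60) (nat_lit 5) (nat_lit 66) (nat_lit 5) (nat_lit 67) (nat_lit 5) (nat_lit 353) (nat_lit 329) (nat_lit 206))))) (XT.nd (nat_lit 376) (nat_lit 420) (nat_lit 0) (XT.nd (nat_lit 188) (nat_lit 420) (nat_lit 0) (XT.nd (nat_lit 94) (nat_lit 0) (nat_lit 0) (XT.lf (nat_lit 0) (nat_lit 4264054015) (nat_lit 588) (nat_lit 11461512544) (nat_lit 84) (nat_lit 2066277768) (nat_lit 60) (nat_lit 5) (nat_lit 67) (nat_lit 5) (nat_lit 61) (nat_lit 5) (nat_lit 354) (nat_lit 329) (nat_lit 205)) (XT.lf (nat_lit 0) (nat_lit 5398729311) (nat_lit 588) (nat_lit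 5812500526) (nat_lit 84) (nat_lit 6922989256) (nat_lit 60) (nat_lit 5) (nat_lit 67) (nat_lit 5) (nat_lit 61) (nat_lit 5) (nat_lit 355) (nat_lit 329) (nat_lit 204))) (XT.nd (nat_lit 94) (nat_lit 0) (nat_lit 0) (XT.lf (nat_lit 0) (nat_lit 4596174) (nat_lit 420) (nat_lit 6556402710) (nat_lit 504) (nat_lit 11926494881) (nat_lit 55) (nat_lit 5) (nat_lit 60) (nat_lit 5) (nat_lit 61) (nat_lit 5) (nat_lit 356) (nat_lit 329) (nat_lit 203)) (XT.lf (nat_lit 0) (nat_lit 6118189693) (nat_lit 420) (nat_lit 1694312772) (nat_lit 504) (nat_lit 11037617922) (nat_lit 55) (nat_lit 5) (nat_lit 60) (nat_lit 5) (nat_lit 61) (nat_lit 5) (nat_lit 357) (nat_lit 329) (nat_lit 202)))) (XT.nd (nat_lit 188) (nat_lit 420) (nat_lit 0) (XT.nd (nat_lit 94) (nat_lit 0) (nat_lit 0) (XT.lf (nat_lit 0) (nat_lit 9128484151) (nat_lit 504) (nat_lit 6842723505) (nat_lit 84) (nat_lit 3252032904) (nat_lit 55) (nat_lit 5) (nat_lit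 61) (nat_lit 5) (nat_lit 56) (nat_lit 5) (nat_lit 358) (nat_lit 329) (nat_lit 201)) (XT.lf (nat_lit 0) (nat_lit 10495569293) (nat_lit 504) (nat_lit 795185384) (nat_lit 84) (nat_lit 8316900035) (nat_lit 55) (nat_lit 5) (nat_lit 61) (nat_lit 5) (nat_lit 56) (nat_lit 5) (nat_lit 359) (nat_lit 329) (nat_lit 200))) (XT.nd (nat_lit 94) (nat_lit 0) (nat_lit 0) (XT.lf (nat_lit 0) (nat_lit 5544844664) (nat_lit 420) (nat_lit 6408385245) (nat_lit 504) (nat_lit 8049307116) (nat_lit 50) (nat_lit 5) (nat_lit 55) (nat_lit 5) (nat_lit 56) (nat_lit 5) (nat_lit 360) (nat_lit 329) (nat_lit 199)) (XT.nd (nat_lit 94) (nat_lit 0) (nat_lit 0) (XT.lf (nat_lit 0) (nat_lit 12091642950) (nat_lit 420) (nat_lit 1366064430) (nat_lit 504) (nat_lit 6951946828) (nat_lit 50) (nat_lit 5) (nat_lit 55) (nat_lit 5) (nat_lit 56) (nat_lit 5) (nat_lit 361) (nat_lit 329) (nat_lit 198)) (XT.lf (nat_lit 0) (nat_lit 15040373442) (nat_lit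 504) (nat_lit 2032694113) (nat_lit 84) (nat_lit 3755389130) (nat_lit 50) (nat_lit 5) (nat_lit 56) (nat_lit 5) (nat_lit 51) (nat_lit 5) (nat_lit 362) (nat_lit 329) (nat_lit 197))))))) (XT.nd (nat_lit 752) (nat_lit 0) (nat_lit 0) (XT.nd (nat_lit 376) (nat_lit 420) (nat_lit 0) (XT.nd (nat_lit 188) (nat_lit 420) (nat_lit 0) (XT.nd (nat_lit 94) (nat_lit 0) (nat_lit 0) (XT.lf (nat_lit 0) (nat_lit 4518051065) (nat_lit 336) (nat_lit 12206567104) (nat_lit 420) (nat_lit 4534037295) (nat_lit 46) (nat_lit 5) (nat_lit 50) (nat_lit 5) (nat_lit 51) (nat_lit 5) (nat_lit 363) (nat_lit 329) (nat_lit 196)) (XT.lf (nat_lit 0) (nat_lit 11308553103) (nat_lit 336) (nat_lit 7167588419) (nat_lit 420) (nat_lit 3225621981) (nat_lit 46) (nat_lit 5) (nat_lit 50) (nat_lit 5) (nat_lit 51) (nat_lit 5) (nat_lit 364) (nat_lit 329) (nat_lit 195))) (XT.nd (nat_lit 94) (nat_lit 420) (nat_lit 0) (XT.lf (nat_lit 0) (nat_lit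 18303345099) (nat_lit 336) (nat_lit 1972651801) (nat_lit 420) (nat_lit 1882834880) (nat_lit 46) (nat_lit 5) (nat_lit 50) (nat_lit 5) (nat_lit 51) (nat_lit 5) (nat_lit 365) (nat_lit 329) (nat_lit 194)) (XT.lf (nat_lit 0) (nat_lit 2903601068) (nat_lit 420) (nat_lit 19284625592) (nat_lit 504) (nat_lit 440126364) (nat_lit 41) (nat_lit 5) (nat_lit 46) (nat_lit 5) (nat_lit 47) (nat_lit 5) (nat_lit 366) (nat_lit 329) (nat_lit 193)))) (XT.nd (nat_lit 188) (nat_lit 336) (nat_lit 0) (XT.nd (nat_lit 94) (nat_lit 0) (nat_lit 0) (XT.lf (nat_lit 0) (nat_lit 1081266303) (nat_lit 504) (nat_lit 13194538086) (nat_lit 84) (nat_lit 8834631631) (nat_lit 40) (nat_lit 5) (nat_lit 46) (nat_lit 5) (nat_lit 41) (nat_lit 5) (nat_lit 367) (nat_lit 329) (nat_lit 192)) (XT.lf (nat_lit 0) (nat_lit 2635083676) (nat_lit 504) (nat_lit 6472533022) (nat_lit 84) (nat_lit 14499915310) (nat_lit 40) (nat_lit 5) (nat_lit 46) (nat_lit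 5) (nat_lit 41) (nat_lit 5) (nat_lit 368) (nat_lit 329) (nat_lit 191))) (XT.nd (nat_lit 94) (nat_lit 0) (nat_lit 0) (XT.lf (nat_lit 0) (nat_lit 461186842) (nat_lit 336) (nat_lit 3775029828) (nat_lit 420) (nat_lit 19883881186) (nat_lit 36) (nat_lit 5) (nat_lit 40) (nat_lit 5) (nat_lit 41) (nat_lit 5) (nat_lit 369) (nat_lit 329) (nat_lit 190)) (XT.lf (nat_lit 0) (nat_lit 5966998017) (nat_lit 420) (nat_lit 16923265262) (nat_lit 84) (nat_lit 1755842003) (nat_lit 36) (nat_lit 5) (nat_lit 41) (nat_lit 5) (nat_lit 37) (nat_lit 5) (nat_lit 370) (nat_lit 329) (nat_lit 189))))) (XT.nd (nat_lit 52076) (nat_lit 0) (nat_lit 3780) (XT.nd (nat_lit 51888) (nat_lit 0) (nat_lit 3780) (XT.nd (nat_lit 94) (nat_lit 0) (nat_lit 0) (XT.lf (nat_lit 0) (nat_lit 7784874708) (nat_lit 420) (nat_lit 10023331692) (nat_lit 84) (nat_lit 7379207332) (nat_lit 36) (nat_lit 5) (nat_lit 41) (nat_lit 5) (nat_lit 37) (nat_lit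 5) (nat_lit 371) (nat_lit 329) (nat_lit 188)) (XT.lf (nat_lit 0) (nat_lit 9654092433) (nat_lit 420) (nat_lit 2915230080) (nat_lit 84) (nat_lit 13176366163) (nat_lit 36) (nat_lit 5) (nat_lit 41) (nat_lit 5) (nat_lit 37) (nat_lit 5) (nat_lit 372) (nat_lit 329) (nat_lit 187))) (XT.nd (nat_lit 94) (nat_lit 0) (nat_lit 0) (XT.lf (nat_lit 0) (nat_lit 546044418) (nat_lit 0) (nat_lit 546044418) (nat_lit 924) (nat_lit 4951344702) (nat_lit 81) (nat_lit 5) (nat_lit 81) (nat_lit 3) (nat_lit 92) (nat_lit 3) (nat_lit 330) (nat_lit 330) (nat_lit 228)) (XT.lf (nat_lit 0) (nat_lit 2606457762) (nat_lit 924) (nat_lit 7132757552) (nat_lit 1008) (nat_lit 2520308613) (nat_lit 81) (nat_lit 5) (nat_lit 92) (nat_lit 3) (nat_lit 93) (nat_lit 5) (nat_lit 331) (nat_lit 330) (nat_lit 227)))) (XT.nd (nat_lit 188) (nat_lit 0) (nat_lit 84) (XT.nd (nat_lit 94) (nat_lit 0) (nat_lit 0) (XT.lf (nat_lit 0) (nat_lit 3038446935)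 (nat_lit 924) (nat_lit 3170128125) (nat_lit 1008) (nat_lit 6229169630) (nat_lit 81) (nat_lit 5) (nat_lit 92) (nat_lit 3) (nat_lit 93) (nat_lit 5) (nat_lit 332) (nat_lit 330) (nat_lit 226)) (XT.lf (nat_lit 84) (nat_lit 926300166) (nat_lit 0) (nat_lit 2552603038) (nat_lit 1008) (nat_lit 9142843262) (nat_lit 82) (nat_lit 5) (nat_lit 81) (nat_lit 5) (nat_lit 93) (nat_lit 5) (nat_lit 333) (nat_lit 330) (nat_lit 225))) (XT.nd (nat_lit 94) (nat_lit 0) (nat_lit 0) (XT.lf (nat_lit 0) (nat_lit 3964807544) (nat_lit 924) (nat_lit 7614127532) (nat_lit 1008) (nat_lit 1231632009) (nat_lit 82) (nat_lit 5) (nat_lit 93) (nat_lit 5) (nat_lit 94) (nat_lit 5) (nat_lit 334) (nat_lit 330) (nat_lit 224)) (XT.nd (nat_lit 94) (nat_lit 0) (nat_lit 0) (XT.lf (nat_lit 0) (nat_lit 4478590097) (nat_lit 924) (nat_lit 3440363495) (nat_lit 1008) (nat_lit 5085987661) (nat_lit 82) (nat_lit 5) (nat_lit 93) (nat_lit 5) (nat_lit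 94) (nat_lit 5) (nat_lit 335) (nat_lit 330) (nat_lit 223)) (XT.lf (nat_lit 84) (nat_lit 872640087) (nat_lit 0) (nat_lit 4131424233) (nat_lit 1008) (nat_lit 8201502452) (nat_lit 83) (nat_lit 5) (nat_lit 82) (nat_lit 5) (nat_lit 94) (nat_lit 5) (nat_lit 336) (nat_lit 330) (nat_lit 222))))))))
noncomputable def xc107 : XT := (XT.nd (nat_lit 1598) (nat_lit 2520) (nat_lit 0) (XT.nd (nat_lit 752) (nat_lit 1344) (nat_lit 0) (XT.nd (nat_lit 376) (nat_lit 0) (nat_lit 168) (XT.nd (nat_lit 188) (nat_lit 0) (nat_lit 84) (XT.nd (nat_lit 94) (nat_lit 0) (nat_lit 84) (XT.lf (nat_lit 84) (nat_lit 5384630033) (nat_lit 0) (nat_lit 184528014) (nat_lit 1008) (nat_lit 7842622023) (nat_lit 83) (nat_lit 5) (nat_lit 82) (nat_lit 5) (nat_lit 94) (nat_lit 5) (nat_lit 337) (nat_lit 330) (nat_lit 221)) (XT.lf (nat_lit 0) (nat_lit 6178151772) (nat_lit 924) (nat_lit 3634366403) (nat_lit 1008) (nat_lit 3811138817) (nat_lit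 83) (nat_lit 5) (nat_lit 94) (nat_lit 5) (nat_lit 95) (nat_lit 5) (nat_lit 338) (nat_lit 330) (nat_lit 220))) (XT.nd (nat_lit 94) (nat_lit 0) (nat_lit 0) (XT.lf (nat_lit 84) (nat_lit 903207275) (nat_lit 0) (nat_lit 5901874880) (nat_lit 1008) (nat_lit 7037135334) (nat_lit 84) (nat_lit 5) (nat_lit 83) (nat_lit 5) (nat_lit 95) (nat_lit 5) (nat_lit 339) (nat_lit 330) (nat_lit 219)) (XT.lf (nat_lit 84) (nat_lit 5650873743) (nat_lit 0) (nat_lit 1826998511) (nat_lit 1008) (nat_lit 6588945530) (nat_lit 84) (nat_lit 5) (nat_lit 83) (nat_lit 5) (nat_lit 95) (nat_lit 5) (nat_lit 340) (nat_lit 330) (nat_lit 218)))) (XT.nd (nat_lit 188) (nat_lit 0) (nat_lit 0) (XT.nd (nat_lit 94) (nat_lit 0) (nat_lit 0) (XT.lf (nat_lit 0) (nat_lit 8183944279) (nat_lit 924) (nat_lit 3784069364) (nat_lit 1008) (nat_lit 2330062939) (nat_lit 84) (nat_lit 5) (nat_lit 95) (nat_lit 5) (nat_lit 96) (nat_lit 5) (nat_lit 341)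 (nat_lit 330) (nat_lit 217)) (XT.lf (nat_lit 84) (nat_lit 984933713) (nat_lit 0) (nat_lit 7944635030) (nat_lit 1008) (nat_lit 5606466708) (nat_lit 85) (nat_lit 5) (nat_lit 84) (nat_lit 5) (nat_lit 96) (nat_lit 5) (nat_lit 342) (nat_lit 330) (nat_lit 216))) (XT.nd (nat_lit 94) (nat_lit 0) (nat_lit 84) (XT.lf (nat_lit 84) (nat_lit 5974455255) (nat_lit 0) (nat_lit 3752807577) (nat_lit 1008) (nat_lit 5053286879) (nat_lit 85) (nat_lit 5) (nat_lit 84) (nat_lit 5) (nat_lit 96) (nat_lit 5) (nat_lit 343) (nat_lit 330) (nat_lit 215)) (XT.lf (nat_lit 0) (nat_lit 10545132877) (nat_lit 924) (nat_lit 3927370201) (nat_lit 1008) (nat_lit 560355947) (nat_lit 85) (nat_lit 5) (nat_lit 96) (nat_lit 5) (nat_lit 97) (nat_lit 5) (nat_lit 344) (nat_lit 330) (nat_lit 214))))) (XT.nd (nat_lit 376) (nat_lit 756) (nat_lit 0) (XT.nd (nat_lit 188) (nat_lit 840) (nat_lit 0) (XT.nd (nat_lit 94) (nat_lit 0) (nat_lit 0)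 (XT.lf (nat_lit 84) (nat_lit 1078438761) (nat_lit 0) (nat_lit 10349108589) (nat_lit 1008) (nat_lit 3864299434) (nat_lit 86) (nat_lit 5) (nat_lit 85) (nat_lit 5) (nat_lit 97) (nat_lit 5) (nat_lit 345) (nat_lit 330) (nat_lit 213)) (XT.lf (nat_lit 84) (nat_lit 6315260443) (nat_lit 0) (nat_lit 6053383450) (nat_lit 1008) (nat_lit 3189317728) (nat_lit 86) (nat_lit 5) (nat_lit 85) (nat_lit 5) (nat_lit 97) (nat_lit 5) (nat_lit 346) (nat_lit 330) (nat_lit 212))) (XT.nd (nat_lit 94) (nat_lit 840) (nat_lit 0) (XT.lf (nat_lit 84) (nat_lit 11707221324) (nat_lit 0) (nat_lit 1622317285) (nat_lit 1008) (nat_lit 2503145567) (nat_lit 86) (nat_lit 5) (nat_lit 85) (nat_lit 5) (nat_lit 97) (nat_lit 5) (nat_lit 347) (nat_lit 330) (nat_lit 211)) (XT.lf (nat_lit 0) (nat_lit 1136732676) (nat_lit 924) (nat_lit 13214917717) (nat_lit 1008) (nat_lit 1763363909) (nat_lit 75) (nat_lit 5) (nat_lit 86) (nat_lit 5) (nat_lit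 87) (nat_lit 5) (nat_lit 348) (nat_lit 330) (nat_lit 210)))) (XT.nd (nat_lit 188) (nat_lit 756) (nat_lit 0) (XT.nd (nat_lit 94) (nat_lit 0) (nat_lit 0) (XT.lf (nat_lit 0) (nat_lit 6625300680) (nat_lit 924) (nat_lit 8830760436) (nat_lit 1008) (nat_lit 948530037) (nat_lit 75) (nat_lit 5) (nat_lit 86) (nat_lit 5) (nat_lit 87) (nat_lit 5) (nat_lit 349) (nat_lit 330) (nat_lit 209)) (XT.lf (nat_lit 0) (nat_lit 12276953608) (nat_lit 924) (nat_lit 4309149337) (nat_lit 1008) (nat_lit 117370318) (nat_lit 75) (nat_lit 5) (nat_lit 86) (nat_lit 5) (nat_lit 87) (nat_lit 5) (nat_lit 350) (nat_lit 330) (nat_lit 208))) (XT.nd (nat_lit 94) (nat_lit 0) (nat_lit 0) (XT.lf (nat_lit 0) (nat_lit 730774391) (nat_lit 756) (nat_lit 15915144160) (nat_lit 84) (nat_lit 365342984) (nat_lit 66) (nat_lit 5) (nat_lit 75) (nat_lit 5) (nat_lit 67) (nat_lit 5) (nat_lit 351) (nat_lit 330) (nat_lit 207)) (XT.nd (nat_lit 94)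 (nat_lit 0) (nat_lit 0) (XT.lf (nat_lit 0) (nat_lit 1685230166) (nat_lit 756) (nat_lit 10496444078) (nat_lit 84) (nat_lit 5144379841) (nat_lit 66) (nat_lit 5) (nat_lit 75) (nat_lit 5) (nat_lit 67) (nat_lit 5) (nat_lit 352) (nat_lit 330) (nat_lit 206)) (XT.lf (nat_lit 0) (nat_lit 2661231233) (nat_lit 756) (nat_lit 4916879479) (nat_lit 84) (nat_lit 10072798340) (nat_lit 66) (nat_lit 5) (nat_lit 75) (nat_lit 5) (nat_lit 67) (nat_lit 5) (nat_lit 353) (nat_lit 330) (nat_lit 205))))))) (XT.nd (nat_lit 846) (nat_lit 1176) (nat_lit 0) (XT.nd (nat_lit 376) (nat_lit 420) (nat_lit 0) (XT.nd (nat_lit 188) (nat_lit 420) (nat_lit 0) (XT.nd (nat_lit 94) (nat_lit 0) (nat_lit 0) (XT.lf (nat_lit 0) (nat_lit 845791183) (nat_lit 504) (nat_lit 2822286496) (nat_lit 588) (nat_lit 14317791454) (nat_lit 60) (nat_lit 5) (nat_lit 66) (nat_lit 5) (nat_lit 67) (nat_lit 5) (nat_lit 354) (nat_lit 330) (nat_lit 204))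 (XT.lf (nat_lit 0) (nat_lit 4771000619) (nat_lit 588) (nat_lit 11466577753) (nat_lit 84) (nat_lit 2091675101) (nat_lit 60) (nat_lit 5) (nat_lit 67) (nat_lit 5) (nat_lit 61) (nat_lit 5) (nat_lit 355) (nat_lit 330) (nat_lit 203))) (XT.nd (nat_lit 94) (nat_lit 420) (nat_lit 0) (XT.lf (nat_lit 0) (nat_lit 5929582576) (nat_lit 588) (nat_lit 5652977393) (nat_lit 84) (nat_lit 7100106988) (nat_lit 60) (nat_lit 5) (nat_lit 67) (nat_lit 5) (nat_lit 61) (nat_lit 5) (nat_lit 356) (nat_lit 330) (nat_lit 202)) (XT.lf (nat_lit 0) (nat_lit 341010039) (nat_lit 420) (nat_lit 6779278861) (nat_lit 504) (nat_lit 11926913151) (nat_lit 55) (nat_lit 5) (nat_lit 60) (nat_lit 5) (nat_lit 61) (nat_lit 5) (nat_lit 357) (nat_lit 330) (nat_lit 201)))) (XT.nd (nat_lit 188) (nat_lit 420) (nat_lit 0) (XT.nd (nat_lit 94) (nat_lit 0) (nat_lit 0) (XT.lf (nat_lit 0) (nat_lit 6634013985) (nat_lit 420) (nat_lit 1765873972) (nat_lit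 504) (nat_lit 11021585172) (nat_lit 55) (nat_lit 5) (nat_lit 60) (nat_lit 5) (nat_lit 61) (nat_lit 5) (nat_lit 358) (nat_lit 330) (nat_lit 200)) (XT.lf (nat_lit 0) (nat_lit 9746102526) (nat_lit 504) (nat_lit 6725701226) (nat_lit 84) (nat_lit 3334752867) (nat_lit 55) (nat_lit 5) (nat_lit 61) (nat_lit 5) (nat_lit 56) (nat_lit 5) (nat_lit 359) (nat_lit 330) (nat_lit 199))) (XT.nd (nat_lit 94) (nat_lit 420) (nat_lit 0) (XT.lf (nat_lit 0) (nat_lit 11145505525) (nat_lit 504) (nat_lit 500586172) (nat_lit 84) (nat_lit 8557174900) (nat_lit 55) (nat_lit 5) (nat_lit 61) (nat_lit 5) (nat_lit 56) (nat_lit 5) (nat_lit 360) (nat_lit 330) (nat_lit 198)) (XT.nd (nat_lit 94) (nat_lit 0) (nat_lit 0) (XT.lf (nat_lit 0) (nat_lit 6032752688) (nat_lit 420) (nat_lit 6608976624) (nat_lit 504) (nat_lit 7968931359) (nat_lit 50) (nat_lit 5) (nat_lit 55) (nat_lit 5) (nat_lit 56) (nat_lit 5) (nat_lit 361) (nat_lit 330)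 (nat_lit 197)) (XT.lf (nat_lit 0) (nat_lit 12772999730) (nat_lit 420) (nat_lit 1410285789) (nat_lit 504) (nat_lit 6847472429) (nat_lit 50) (nat_lit 5) (nat_lit 55) (nat_lit 5) (nat_lit 56) (nat_lit 5) (nat_lit 362) (nat_lit 330) (nat_lit 196)))))) (XT.nd (nat_lit 376) (nat_lit 840) (nat_lit 0) (XT.nd (nat_lit 188) (nat_lit 0) (nat_lit 0) (XT.nd (nat_lit 94) (nat_lit 336) (nat_lit 0) (XT.lf (nat_lit 0) (nat_lit 15805723589) (nat_lit 504) (nat_lit 1787143157) (nat_lit 84) (nat_lit 3870025769) (nat_lit 50) (nat_lit 5) (nat_lit 56) (nat_lit 5) (nat_lit 51) (nat_lit 5) (nat_lit 363) (nat_lit 330) (nat_lit 195)) (XT.lf (nat_lit 0) (nat_lit 4963551184) (nat_lit 336) (nat_lit 12572665463) (nat_lit 420) (nat_lit 4370455032) (nat_lit 46) (nat_lit 5) (nat_lit 50) (nat_lit 5) (nat_lit 51) (nat_lit 5) (nat_lit 364) (nat_lit 330) (nat_lit 194))) (XT.nd (nat_lit 94) (nat_lit 0) (nat_lit 0) (XT.lf (nat_lit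 0) (nat_lit 11955374831) (nat_lit 336) (nat_lit 7377848431) (nat_lit 420) (nat_lit 3030623616) (nat_lit 46) (nat_lit 5) (nat_lit 50) (nat_lit 5) (nat_lit 51) (nat_lit 5) (nat_lit 365) (nat_lit 330) (nat_lit 193)) (XT.lf (nat_lit 0) (nat_lit 19158097566) (nat_lit 336) (nat_lit 2022227645) (nat_lit 420) (nat_lit 1655079923) (nat_lit 46) (nat_lit 5) (nat_lit 50) (nat_lit 5) (nat_lit 51) (nat_lit 5) (nat_lit 366) (nat_lit 330) (nat_lit 192)))) (XT.nd (nat_lit 188) (nat_lit 336) (nat_lit 0) (XT.nd (nat_lit 94) (nat_lit 84) (nat_lit 0) (XT.lf (nat_lit 0) (nat_lit 3288184288) (nat_lit 420) (nat_lit 19858391483) (nat_lit 504) (nat_lit 173122941) (nat_lit 41) (nat_lit 5) (nat_lit 46) (nat_lit 5) (nat_lit 47) (nat_lit 5) (nat_lit 367) (nat_lit 330) (nat_lit 191)) (XT.lf (nat_lit 0) (nat_lit 1381510022) (nat_lit 504) (nat_lit 13310726102) (nat_lit 84) (nat_lit 9124711132) (nat_lit 40) (nat_lit 5)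 (nat_lit 46) (nat_lit 5) (nat_lit 41) (nat_lit 5) (nat_lit 368) (nat_lit 330) (nat_lit 190))) (XT.nd (nat_lit 94) (nat_lit 336) (nat_lit 0) (XT.lf (nat_lit 0) (nat_lit 2975475890) (nat_lit 504) (nat_lit 6389144044) (nat_lit 84) (nat_lit 14965131326) (nat_lit 40) (nat_lit 5) (nat_lit 46) (nat_lit 5) (nat_lit 41) (nat_lit 5) (nat_lit 369) (nat_lit 330) (nat_lit 189)) (XT.nd (nat_lit 94) (nat_lit 0) (nat_lit 0) (XT.lf (nat_lit 0) (nat_lit 756645511) (nat_lit 336) (nat_lit 3864608953) (nat_lit 420) (nat_lit 20237154802) (nat_lit 36) (nat_lit 5) (nat_lit 40) (nat_lit 5) (nat_lit 41) (nat_lit 5) (nat_lit 370) (nat_lit 330) (nat_lit 188)) (XT.lf (nat_lit 0) (nat_lit 6398325444) (nat_lit 420) (nat_lit 17166314007) (nat_lit 84) (nat_lit 1836358272) (nat_lit 36) (nat_lit 5) (nat_lit 41) (nat_lit 5) (nat_lit 37) (nat_lit 5) (nat_lit 371) (nat_lit 330) (nat_lit 187))))))))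
noncomputable def xc108 : XT := (XT.nd (nat_lit 53392) (nat_lit 0) (nat_lit 1176) (XT.nd (nat_lit 52546) (nat_lit 0) (nat_lit 3864) (XT.nd (nat_lit 52170) (nat_lit 0) (nat_lit 3780) (XT.nd (nat_lit 51982) (nat_lit 0) (nat_lit 3780) (XT.nd (nat_lit 51888) (nat_lit 0) (nat_lit 3780) (XT.lf (nat_lit 0) (nat_lit 8265149072) (nat_lit 420) (nat_lit 10060948788) (nat_lit 84) (nat_lit 7633263601) (nat_lit 36) (nat_lit 5) (nat_lit 41) (nat_lit 5) (nat_lit 37) (nat_lit 5) (nat_lit 372) (nat_lit 330) (nat_lit 186)) (XT.lf (nat_lit 0) (nat_lit 742626479) (nat_lit 0) (nat_lit 742626479) (nat_lit 924) (nat_lit 4731766299) (nat_lit 81) (nat_lit 5) (nat_lit 81) (nat_lit 3) (nat_lit 92) (nat_lit 3) (nat_lit 331) (nat_lit 331) (nat_lit 226))) (XT.nd (nat_lit 94) (nat_lit 0) (nat_lit 0) (XT.lf (nat_lit 0) (nat_lit 3380812117) (nat_lit 924) (nat_lit 6975216195) (nat_lit 1008) (nat_lit 2256954101) (nat_lit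 81) (nat_lit 5) (nat_lit 92) (nat_lit 3) (nat_lit 93) (nat_lit 5) (nat_lit 332) (nat_lit 331) (nat_lit 225)) (XT.lf (nat_lit 0) (nat_lit 3805339241) (nat_lit 924) (nat_lit 2901130670) (nat_lit 1008) (nat_lit 6091057517) (nat_lit 81) (nat_lit 5) (nat_lit 92) (nat_lit 3) (nat_lit 93) (nat_lit 5) (nat_lit 333) (nat_lit 331) (nat_lit 224)))) (XT.nd (nat_lit 188) (nat_lit 0) (nat_lit 84) (XT.nd (nat_lit 94) (nat_lit 0) (nat_lit 84) (XT.lf (nat_lit 84) (nat_lit 1318568605) (nat_lit 0) (nat_lit 2924260855) (nat_lit 1008) (nat_lit 8745067370) (nat_lit 82) (nat_lit 5) (nat_lit 81) (nat_lit 5) (nat_lit 93) (nat_lit 5) (nat_lit 334) (nat_lit 331) (nat_lit 223)) (XT.lf (nat_lit 0) (nat_lit 4721255231) (nat_lit 924) (nat_lit 7470360620) (nat_lit 1008) (nat_lit 991797710) (nat_lit 82) (nat_lit 5) (nat_lit 93) (nat_lit 5) (nat_lit 94) (nat_lit 5) (nat_lit 335) (nat_lit 331) (nat_lit 222))) (XT.nd (nat_lit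 94) (nat_lit 0) (nat_lit 0) (XT.lf (nat_lit 0) (nat_lit 5231915868) (nat_lit 924) (nat_lit 3178629830) (nat_lit 1008) (nat_lit 4973997710) (nat_lit 82) (nat_lit 5) (nat_lit 93) (nat_lit 5) (nat_lit 94) (nat_lit 5) (nat_lit 336) (nat_lit 331) (nat_lit 221)) (XT.lf (nat_lit 84) (nat_lit 1264347296) (nat_lit 0) (nat_lit 4494473518) (nat_lit 1008) (nat_lit 7833163495) (nat_lit 83) (nat_lit 5) (nat_lit 82) (nat_lit 5) (nat_lit 94) (nat_lit 5) (nat_lit 337) (nat_lit 331) (nat_lit 220))))) (XT.nd (nat_lit 376) (nat_lit 0) (nat_lit 168) (XT.nd (nat_lit 188) (nat_lit 0) (nat_lit 84) (XT.nd (nat_lit 94) (nat_lit 0) (nat_lit 84) (XT.lf (nat_lit 84) (nat_lit 5905244511) (nat_lit 0) (nat_lit 418158308) (nat_lit 1008) (nat_lit 7481877609) (nat_lit 83) (nat_lit 5) (nat_lit 82) (nat_lit 5) (nat_lit 94) (nat_lit 5) (nat_lit 338) (nat_lit 331) (nat_lit 219)) (XT.lf (nat_lit 0) (nat_lit 6931594921) (nat_lit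 924) (nat_lit 3380187275) (nat_lit 1008) (nat_lit 3712680775) (nat_lit 83) (nat_lit 5) (nat_lit 94) (nat_lit 5) (nat_lit 95) (nat_lit 5) (nat_lit 339) (nat_lit 331) (nat_lit 218))) (XT.nd (nat_lit 94) (nat_lit 0) (nat_lit 0) (XT.lf (nat_lit 84) (nat_lit 1294337216) (nat_lit 0) (nat_lit 6270329465) (nat_lit 1008) (nat_lit 6685667776) (nat_lit 84) (nat_lit 5) (nat_lit 83) (nat_lit 5) (nat_lit 95) (nat_lit 5) (nat_lit 340) (nat_lit 331) (nat_lit 217)) (XT.lf (nat_lit 84) (nat_lit 6178262774) (nat_lit 0) (nat_lit 2063554440) (nat_lit 1008) (nat_lit 6240711325) (nat_lit 84) (nat_lit 5) (nat_lit 83) (nat_lit 5) (nat_lit 95) (nat_lit 5) (nat_lit 341) (nat_lit 331) (nat_lit 216)))) (XT.nd (nat_lit 188) (nat_lit 0) (nat_lit 0) (XT.nd (nat_lit 94) (nat_lit 0) (nat_lit 0) (XT.lf (nat_lit 0) (nat_lit 8952046262) (nat_lit 924) (nat_lit 3538274292) (nat_lit 1008) (nat_lit 2231301670) (nat_lit 84) (nat_lit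 5) (nat_lit 95) (nat_lit 5) (nat_lit 96) (nat_lit 5) (nat_lit 342) (nat_lit 331) (nat_lit 215)) (XT.lf (nat_lit 84) (nat_lit 1374891806) (nat_lit 0) (nat_lit 8333991904) (nat_lit 1008) (nat_lit 5258555757) (nat_lit 85) (nat_lit 5) (nat_lit 84) (nat_lit 5) (nat_lit 96) (nat_lit 5) (nat_lit 343) (nat_lit 331) (nat_lit 214))) (XT.nd (nat_lit 94) (nat_lit 0) (nat_lit 84) (XT.lf (nat_lit 84) (nat_lit 6508281358) (nat_lit 0) (nat_lit 4007915890) (nat_lit 1008) (nat_lit 4703914117) (nat_lit 85) (nat_lit 5) (nat_lit 84) (nat_lit 5) (nat_lit 96) (nat_lit 5) (nat_lit 344) (nat_lit 331) (nat_lit 213)) (XT.nd (nat_lit 94) (nat_lit 0) (nat_lit 0) (XT.lf (nat_lit 0) (nat_lit 11343431260) (nat_lit 924) (nat_lit 3691572600) (nat_lit 1008) (nat_lit 445840127) (nat_lit 85) (nat_lit 5) (nat_lit 96) (nat_lit 5) (nat_lit 97) (nat_lit 5) (nat_lit 345) (nat_lit 331) (nat_lit 212)) (XT.lf (nat_lit 84) (nat_lit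 1465796606) (nat_lit 0) (nat_lit 10776740983) (nat_lit 1008) (nat_lit 3505756171) (nat_lit 86) (nat_lit 5) (nat_lit 85) (nat_lit 5) (nat_lit 97) (nat_lit 5) (nat_lit 346) (nat_lit 331) (nat_lit 211))))))) (XT.nd (nat_lit 752) (nat_lit 1344) (nat_lit 0) (XT.nd (nat_lit 376) (nat_lit 756) (nat_lit 0) (XT.nd (nat_lit 188) (nat_lit 840) (nat_lit 0) (XT.nd (nat_lit 94) (nat_lit 0) (nat_lit 0) (XT.lf (nat_lit 84) (nat_lit 6854317943) (nat_lit 0) (nat_lit 6344636812) (nat_lit 1008) (nat_lit 2824232606) (nat_lit 86) (nat_lit 5) (nat_lit 85) (nat_lit 5) (nat_lit 97) (nat_lit 5) (nat_lit 347) (nat_lit 331) (nat_lit 210)) (XT.lf (nat_lit 84) (nat_lit 12403107772) (nat_lit 0) (nat_lit 1773092608) (nat_lit 1008) (nat_lit 2130739227) (nat_lit 86) (nat_lit 5) (nat_lit 85) (nat_lit 5) (nat_lit 97) (nat_lit 5) (nat_lit 348) (nat_lit 331) (nat_lit 209))) (XT.nd (nat_lit 94) (nat_lit 0) (nat_lit 0) (XT.lf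 (nat_lit 0) (nat_lit 1518939892) (nat_lit 924) (nat_lit 13700500060) (nat_lit 1008) (nat_lit 1379003143) (nat_lit 75) (nat_lit 5) (nat_lit 86) (nat_lit 5) (nat_lit 87) (nat_lit 5) (nat_lit 349) (nat_lit 331) (nat_lit 208)) (XT.lf (nat_lit 0) (nat_lit 7167220891) (nat_lit 924) (nat_lit 9178151151) (nat_lit 1008) (nat_lit 552109980) (nat_lit 75) (nat_lit 5) (nat_lit 86) (nat_lit 5) (nat_lit 87) (nat_lit 5) (nat_lit 350) (nat_lit 331) (nat_lit 207)))) (XT.nd (nat_lit 188) (nat_lit 0) (nat_lit 0) (XT.nd (nat_lit 94) (nat_lit 672) (nat_lit 0) (XT.lf (nat_lit 0) (nat_lit 286128651) (nat_lit 1008) (nat_lit 4225040746) (nat_lit 84) (nat_lit 12694840886) (nat_lit 74) (nat_lit 5) (nat_lit 86) (nat_lit 5) (nat_lit 75) (nat_lit 5) (nat_lit 351) (nat_lit 331) (nat_lit 206)) (XT.lf (nat_lit 0) (nat_lit 1148660801) (nat_lit 756) (nat_lit 16058866917) (nat_lit 84) (nat_lit 316151591) (nat_lit 66) (nat_lit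 5) (nat_lit 75) (nat_lit 5) (nat_lit 67) (nat_lit 5) (nat_lit 352) (nat_lit 331) (nat_lit 205))) (XT.nd (nat_lit 94) (nat_lit 0) (nat_lit 0) (XT.lf (nat_lit 0) (nat_lit 2120820899) (nat_lit 756) (nat_lit 10482700273) (nat_lit 84) (nat_lit 5245158210) (nat_lit 66) (nat_lit 5) (nat_lit 75) (nat_lit 5) (nat_lit 67) (nat_lit 5) (nat_lit 353) (nat_lit 331) (nat_lit 204)) (XT.lf (nat_lit 0) (nat_lit 3115551514) (nat_lit 756) (nat_lit 4740366204) (nat_lit 84) (nat_lit 10328122590) (nat_lit 66) (nat_lit 5) (nat_lit 75) (nat_lit 5) (nat_lit 67) (nat_lit 5) (nat_lit 354) (nat_lit 331) (nat_lit 203))))) (XT.nd (nat_lit 376) (nat_lit 420) (nat_lit 0) (XT.nd (nat_lit 188) (nat_lit 420) (nat_lit 0) (XT.nd (nat_lit 94) (nat_lit 0) (nat_lit 0) (XT.lf (nat_lit 0) (nat_lit 1197617061) (nat_lit 504) (nat_lit 2948043285) (nat_lit 588) (nat_lit 14384046034) (nat_lit 60) (nat_lit 5) (nat_lit 66) (nat_lit 5)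 (nat_lit 67) (nat_lit 5) (nat_lit 355) (nat_lit 331) (nat_lit 202)) (XT.lf (nat_lit 0) (nat_lit 5271464836) (nat_lit 588) (nat_lit 11492545398) (nat_lit 84) (nat_lit 2120149488) (nat_lit 60) (nat_lit 5) (nat_lit 67) (nat_lit 5) (nat_lit 61) (nat_lit 5) (nat_lit 356) (nat_lit 331) (nat_lit 201))) (XT.nd (nat_lit 94) (nat_lit 420) (nat_lit 0) (XT.lf (nat_lit 0) (nat_lit 6455362001) (nat_lit 588) (nat_lit 5508630686) (nat_lit 84) (nat_lit 7284936259) (nat_lit 60) (nat_lit 5) (nat_lit 67) (nat_lit 5) (nat_lit 61) (nat_lit 5) (nat_lit 357) (nat_lit 331) (nat_lit 200)) (XT.lf (nat_lit 0) (nat_lit 667934805) (nat_lit 420) (nat_lit 7007901593) (nat_lit 504) (nat_lit 11949218840) (nat_lit 55) (nat_lit 5) (nat_lit 60) (nat_lit 5) (nat_lit 61) (nat_lit 5) (nat_lit 358) (nat_lit 331) (nat_lit 199)))) (XT.nd (nat_lit 188) (nat_lit 420) (nat_lit 0) (XT.nd (nat_lit 94) (nat_lit 0) (nat_lit 0) (XT.lf (nat_lit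 0) (nat_lit 7146509791) (nat_lit 420) (nat_lit 1838525946) (nat_lit 504) (nat_lit 11026272142) (nat_lit 55) (nat_lit 5) (nat_lit 60) (nat_lit 5) (nat_lit 61) (nat_lit 5) (nat_lit 359) (nat_lit 331) (nat_lit 198)) (XT.lf (nat_lit 0) (nat_lit 10363046044) (nat_lit 504) (nat_lit 6624547180) (nat_lit 84) (nat_lit 3421108832) (nat_lit 55) (nat_lit 5) (nat_lit 61) (nat_lit 5) (nat_lit 56) (nat_lit 5) (nat_lit 360) (nat_lit 331) (nat_lit 197))) (XT.nd (nat_lit 94) (nat_lit 420) (nat_lit 0) (XT.lf (nat_lit 0) (nat_lit 11796364732) (nat_lit 504) (nat_lit 215764106) (nat_lit 84) (nat_lit 8805937745) (nat_lit 55) (nat_lit 5) (nat_lit 61) (nat_lit 5) (nat_lit 56) (nat_lit 5) (nat_lit 361) (nat_lit 331) (nat_lit 196)) (XT.nd (nat_lit 94) (nat_lit 0) (nat_lit 0) (XT.lf (nat_lit 0) (nat_lit 6517067584) (nat_lit 420) (nat_lit 6815671933) (nat_lit 504) (nat_lit 7905604749) (nat_lit 50) (nat_lit 5) (nat_lit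 55) (nat_lit 5) (nat_lit 56) (nat_lit 5) (nat_lit 362) (nat_lit 331) (nat_lit 195)) (XT.lf (nat_lit 0) (nat_lit 13457323111) (nat_lit 420) (nat_lit 1455767048) (nat_lit 504) (nat_lit 6758712569) (nat_lit 50) (nat_lit 5) (nat_lit 55) (nat_lit 5) (nat_lit 56) (nat_lit 5) (nat_lit 363) (nat_lit 331) (nat_lit 194))))))))
noncomputable def xc109 : XT := (XT.nd (nat_lit 53580) (nat_lit 0) (nat_lit 2016) (XT.nd (nat_lit 52734) (nat_lit 0) (nat_lit 3780) (XT.nd (nat_lit 376) (nat_lit 840) (nat_lit 0) (XT.nd (nat_lit 188) (nat_lit 0) (nat_lit 0) (XT.nd (nat_lit 94) (nat_lit 336) (nat_lit 0) (XT.lf (nat_lit 0) (nat_lit 16577083470) (nat_lit 504) (nat_lit 1552256924) (nat_lit 84) (nat_lit 3988321601) (nat_lit 50) (nat_lit 5) (nat_lit 56) (nat_lit 5) (nat_lit 51) (nat_lit 5) (nat_lit 364) (nat_lit 331) (nat_lit 193)) (XT.lf (nat_lit 0) (nat_lit 5404770040) (nat_lit 336) (nat_lit 12950841731) (nat_lit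 420) (nat_lit 4219816300) (nat_lit 46) (nat_lit 5) (nat_lit 50) (nat_lit 5) (nat_lit 51) (nat_lit 5) (nat_lit 365) (nat_lit 331) (nat_lit 192))) (XT.nd (nat_lit 94) (nat_lit 0) (nat_lit 0) (XT.lf (nat_lit 0) (nat_lit 12604700247) (nat_lit 336) (nat_lit 7595333447) (nat_lit 420) (nat_lit 2847053221) (nat_lit 46) (nat_lit 5) (nat_lit 50) (nat_lit 5) (nat_lit 51) (nat_lit 5) (nat_lit 366) (nat_lit 331) (nat_lit 191)) (XT.lf (nat_lit 0) (nat_lit 20022327201) (nat_lit 336) (nat_lit 2074026028) (nat_lit 420) (nat_lit 1437212107) (nat_lit 46) (nat_lit 5) (nat_lit 50) (nat_lit 5) (nat_lit 51) (nat_lit 5) (nat_lit 367) (nat_lit 331) (nat_lit 190)))) (XT.nd (nat_lit 188) (nat_lit 336) (nat_lit 0) (XT.nd (nat_lit 94) (nat_lit 0) (nat_lit 0) (XT.lf (nat_lit 0) (nat_lit 83811038) (nat_lit 504) (nat_lit 20366683230) (nat_lit 84) (nat_lit 3582555755) (nat_lit 40) (nat_lit 5) (nat_lit 46) (nat_lit 5) (nat_lit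 41) (nat_lit 5) (nat_lit 368) (nat_lit 331) (nat_lit 189)) (XT.lf (nat_lit 0) (nat_lit 1675262749) (nat_lit 504) (nat_lit 13447861520) (nat_lit 84) (nat_lit 9422823192) (nat_lit 40) (nat_lit 5) (nat_lit 46) (nat_lit 5) (nat_lit 41) (nat_lit 5) (nat_lit 369) (nat_lit 331) (nat_lit 188))) (XT.nd (nat_lit 94) (nat_lit 336) (nat_lit 0) (XT.lf (nat_lit 0) (nat_lit 3311096745) (nat_lit 504) (nat_lit 6319994035) (nat_lit 84) (nat_lit 15443837997) (nat_lit 40) (nat_lit 5) (nat_lit 46) (nat_lit 5) (nat_lit 41) (nat_lit 5) (nat_lit 370) (nat_lit 331) (nat_lit 187)) (XT.lf (nat_lit 0) (nat_lit 1044609699) (nat_lit 336) (nat_lit 3958590752) (nat_lit 420) (nat_lit 20616965345) (nat_lit 36) (nat_lit 5) (nat_lit 40) (nat_lit 5) (nat_lit 41) (nat_lit 5) (nat_lit 371) (nat_lit 331) (nat_lit 186))))) (XT.nd (nat_lit 376) (nat_lit 0) (nat_lit 84) (XT.nd (nat_lit 188) (nat_lit 0) (nat_lit 0) (XT.nd (nat_lit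 94) (nat_lit 0) (nat_lit 0) (XT.lf (nat_lit 0) (nat_lit 934661329) (nat_lit 0) (nat_lit 934661329) (nat_lit 924) (nat_lit 4527478545) (nat_lit 81) (nat_lit 5) (nat_lit 81) (nat_lit 3) (nat_lit 92) (nat_lit 3) (nat_lit 332) (nat_lit 332) (nat_lit 224)) (XT.lf (nat_lit 0) (nat_lit 4138091057) (nat_lit 924) (nat_lit 6835219549) (nat_lit 1008) (nat_lit 2005662286) (nat_lit 81) (nat_lit 5) (nat_lit 92) (nat_lit 3) (nat_lit 93) (nat_lit 5) (nat_lit 333) (nat_lit 332) (nat_lit 223))) (XT.nd (nat_lit 94) (nat_lit 0) (nat_lit 0) (XT.lf (nat_lit 0) (nat_lit 4556160008) (nat_lit 924) (nat_lit 2645548409) (nat_lit 1008) (nat_lit 5968282441) (nat_lit 81) (nat_lit 5) (nat_lit 92) (nat_lit 3) (nat_lit 93) (nat_lit 5) (nat_lit 334) (nat_lit 332) (nat_lit 222)) (XT.lf (nat_lit 84) (nat_lit 1701463491) (nat_lit 0) (nat_lit 3290113182) (nat_lit 1008) (nat_lit 8375309306) (nat_lit 82) (nat_lit 5) (nat_lit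 81) (nat_lit 5) (nat_lit 93) (nat_lit 5) (nat_lit 335) (nat_lit 332) (nat_lit 221)))) (XT.nd (nat_lit 188) (nat_lit 0) (nat_lit 0) (XT.nd (nat_lit 94) (nat_lit 0) (nat_lit 0) (XT.lf (nat_lit 0) (nat_lit 5463627216) (nat_lit 924) (nat_lit 7344633426) (nat_lit 1008) (nat_lit 760995846) (nat_lit 82) (nat_lit 5) (nat_lit 93) (nat_lit 5) (nat_lit 94) (nat_lit 5) (nat_lit 336) (nat_lit 332) (nat_lit 220)) (XT.lf (nat_lit 0) (nat_lit 5972197475) (nat_lit 924) (nat_lit 2930602493) (nat_lit 1008) (nat_lit 4874508231) (nat_lit 82) (nat_lit 5) (nat_lit 93) (nat_lit 5) (nat_lit 94) (nat_lit 5) (nat_lit 337) (nat_lit 332) (nat_lit 219))) (XT.nd (nat_lit 94) (nat_lit 0) (nat_lit 0) (XT.lf (nat_lit 84) (nat_lit 1646598266) (nat_lit 0) (nat_lit 4854859351) (nat_lit 1008) (nat_lit 7490282837) (nat_lit 83) (nat_lit 5) (nat_lit 82) (nat_lit 5) (nat_lit 94) (nat_lit 5) (nat_lit 338) (nat_lit 332) (nat_lit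 218)) (XT.nd (nat_lit 94) (nat_lit 0) (nat_lit 84) (XT.lf (nat_lit 84) (nat_lit 6421048318) (nat_lit 0) (nat_lit 645531646) (nat_lit 1008) (nat_lit 7145718118) (nat_lit 83) (nat_lit 5) (nat_lit 82) (nat_lit 5) (nat_lit 94) (nat_lit 5) (nat_lit 339) (nat_lit 332) (nat_lit 217)) (XT.lf (nat_lit 0) (nat_lit 7675111298) (nat_lit 924) (nat_lit 3139857422) (nat_lit 1008) (nat_lit 3624000321) (nat_lit 83) (nat_lit 5) (nat_lit 94) (nat_lit 5) (nat_lit 95) (nat_lit 5) (nat_lit 340) (nat_lit 332) (nat_lit 216))))))) (XT.nd (nat_lit 846) (nat_lit 1932) (nat_lit 0) (XT.nd (nat_lit 376) (nat_lit 0) (nat_lit 84) (XT.nd (nat_lit 188) (nat_lit 0) (nat_lit 84) (XT.nd (nat_lit 94) (nat_lit 0) (nat_lit 0) (XT.lf (nat_lit 84) (nat_lit 1676083343) (nat_lit 0) (nat_lit 6639218869) (nat_lit 1008) (nat_lit 6357044217) (nat_lit 84) (nat_lit 5) (nat_lit 83) (nat_lit 5) (nat_lit 95) (nat_lit 5) (nat_lit 341) (nat_lit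 332) (nat_lit 215)) (XT.lf (nat_lit 84) (nat_lit 6701138749) (nat_lit 0) (nat_lit 2296786694) (nat_lit 1008) (nat_lit 5914406878) (nat_lit 84) (nat_lit 5) (nat_lit 83) (nat_lit 5) (nat_lit 95) (nat_lit 5) (nat_lit 342) (nat_lit 332) (nat_lit 214))) (XT.nd (nat_lit 94) (nat_lit 0) (nat_lit 0) (XT.lf (nat_lit 0) (nat_lit 9713490631) (nat_lit 924) (nat_lit 3306366680) (nat_lit 1008) (nat_lit 2139607024) (nat_lit 84) (nat_lit 5) (nat_lit 95) (nat_lit 5) (nat_lit 96) (nat_lit 5) (nat_lit 343) (nat_lit 332) (nat_lit 213)) (XT.lf (nat_lit 84) (nat_lit 1755649234) (nat_lit 0) (nat_lit 8726944370) (nat_lit 1008) (nat_lit 4930761427) (nat_lit 85) (nat_lit 5) (nat_lit 84) (nat_lit 5) (nat_lit 96) (nat_lit 5) (nat_lit 344) (nat_lit 332) (nat_lit 212)))) (XT.nd (nat_lit 188) (nat_lit 0) (nat_lit 84) (XT.nd (nat_lit 94) (nat_lit 0) (nat_lit 84) (XT.lf (nat_lit 84) (nat_lit 7038006831) (nat_lit 0) (nat_lit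 4262712900) (nat_lit 1008) (nat_lit 4373683506) (nat_lit 85) (nat_lit 5) (nat_lit 84) (nat_lit 5) (nat_lit 96) (nat_lit 5) (nat_lit 345) (nat_lit 332) (nat_lit 211)) (XT.lf (nat_lit 0) (nat_lit 12138555107) (nat_lit 924) (nat_lit 3469643340) (nat_lit 1008) (nat_lit 335586202) (nat_lit 85) (nat_lit 5) (nat_lit 96) (nat_lit 5) (nat_lit 97) (nat_lit 5) (nat_lit 346) (nat_lit 332) (nat_lit 210))) (XT.nd (nat_lit 94) (nat_lit 0) (nat_lit 0) (XT.lf (nat_lit 84) (nat_lit 1844198888) (nat_lit 0) (nat_lit 11211303440) (nat_lit 1008) (nat_lit 3164430760) (nat_lit 86) (nat_lit 5) (nat_lit 85) (nat_lit 5) (nat_lit 97) (nat_lit 5) (nat_lit 347) (nat_lit 332) (nat_lit 209)) (XT.nd (nat_lit 94) (nat_lit 0) (nat_lit 0) (XT.lf (nat_lit 84) (nat_lit 7389752902) (nat_lit 0) (nat_lit 6638782713) (nat_lit 1008) (nat_lit 2475310632) (nat_lit 86) (nat_lit 5) (nat_lit 85) (nat_lit 5) (nat_lit 97) (nat_lit 5) (nat_lit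 348) (nat_lit 332) (nat_lit 208)) (XT.lf (nat_lit 84) (nat_lit 13100844755) (nat_lit 0) (nat_lit 1922590157) (nat_lit 1008) (nat_lit 1773442789) (nat_lit 86) (nat_lit 5) (nat_lit 85) (nat_lit 5) (nat_lit 97) (nat_lit 5) (nat_lit 349) (nat_lit 332) (nat_lit 207)))))) (XT.nd (nat_lit 376) (nat_lit 504) (nat_lit 0) (XT.nd (nat_lit 188) (nat_lit 756) (nat_lit 0) (XT.nd (nat_lit 94) (nat_lit 0) (nat_lit 0) (XT.lf (nat_lit 0) (nat_lit 1892443992) (nat_lit 924) (nat_lit 14196638590) (nat_lit 1008) (nat_lit 1008731399) (nat_lit 75) (nat_lit 5) (nat_lit 86) (nat_lit 5) (nat_lit 87) (nat_lit 5) (nat_lit 350) (nat_lit 332) (nat_lit 206)) (XT.lf (nat_lit 0) (nat_lit 7706007032) (nat_lit 924) (nat_lit 9531949325) (nat_lit 1008) (nat_lit 168623215) (nat_lit 75) (nat_lit 5) (nat_lit 86) (nat_lit 5) (nat_lit 87) (nat_lit 5) (nat_lit 351) (nat_lit 332) (nat_lit 205))) (XT.nd (nat_lit 94) (nat_lit 672) (nat_lit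 0) (XT.lf (nat_lit 0) (nat_lit 675726994) (nat_lit 1008) (nat_lit 4038507152) (nat_lit 84) (nat_lit 13010761304) (nat_lit 74) (nat_lit 5) (nat_lit 86) (nat_lit 5) (nat_lit 75) (nat_lit 5) (nat_lit 352) (nat_lit 332) (nat_lit 204)) (XT.lf (nat_lit 0) (nat_lit 1556091399) (nat_lit 756) (nat_lit 16227755252) (nat_lit 84) (nat_lit 269019792) (nat_lit 66) (nat_lit 5) (nat_lit 75) (nat_lit 5) (nat_lit 67) (nat_lit 5) (nat_lit 353) (nat_lit 332) (nat_lit 203)))) (XT.nd (nat_lit 188) (nat_lit 504) (nat_lit 0) (XT.nd (nat_lit 94) (nat_lit 0) (nat_lit 0) (XT.lf (nat_lit 0) (nat_lit 2547208551) (nat_lit 756) (nat_lit 10488617872) (nat_lit 84) (nat_lit 5352537456) (nat_lit 66) (nat_lit 5) (nat_lit 75) (nat_lit 5) (nat_lit 67) (nat_lit 5) (nat_lit 354) (nat_lit 332) (nat_lit 202)) (XT.lf (nat_lit 0) (nat_lit 3561932063) (nat_lit 756) (nat_lit 4577864491) (nat_lit 84) (nat_lit 10594734101) (nat_lit 66)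 (nat_lit 5) (nat_lit 75) (nat_lit 5) (nat_lit 67) (nat_lit 5) (nat_lit 355) (nat_lit 332) (nat_lit 201))) (XT.nd (nat_lit 94) (nat_lit 0) (nat_lit 0) (XT.lf (nat_lit 0) (nat_lit 1541063320) (nat_lit 504) (nat_lit 3075431979) (nat_lit 588) (nat_lit 14474720220) (nat_lit 60) (nat_lit 5) (nat_lit 66) (nat_lit 5) (nat_lit 67) (nat_lit 5) (nat_lit 356) (nat_lit 332) (nat_lit 200)) (XT.nd (nat_lit 94) (nat_lit 0) (nat_lit 0) (XT.lf (nat_lit 0) (nat_lit 5766560522) (nat_lit 588) (nat_lit 11538834668) (nat_lit 84) (nat_lit 2151660693) (nat_lit 60) (nat_lit 5) (nat_lit 67) (nat_lit 5) (nat_lit 61) (nat_lit 5) (nat_lit 357) (nat_lit 332) (nat_lit 199)) (XT.lf (nat_lit 0) (nat_lit 6977185571) (nat_lit 588) (nat_lit 5378739035) (nat_lit 84) (nat_lit 7477584579) (nat_lit 60) (nat_lit 5) (nat_lit 67) (nat_lit 5) (nat_lit 61) (nat_lit 5) (nat_lit 358) (nat_lit 332) (nat_lit 198))))))))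
noncomputable def xc110 : XT := (XT.nd (nat_lit 53674) (nat_lit 0) (nat_lit 2856) (XT.nd (nat_lit 752) (nat_lit 504) (nat_lit 0) (XT.nd (nat_lit 376) (nat_lit 336) (nat_lit 0) (XT.nd (nat_lit 188) (nat_lit 420) (nat_lit 0) (XT.nd (nat_lit 94) (nat_lit 0) (nat_lit 0) (XT.lf (nat_lit 0) (nat_lit 986256082) (nat_lit 420) (nat_lit 7242517910) (nat_lit 504) (nat_lit 11992794798) (nat_lit 55) (nat_lit 5) (nat_lit 60) (nat_lit 5) (nat_lit 61) (nat_lit 5) (nat_lit 359) (nat_lit 332) (nat_lit 197)) (XT.lf (nat_lit 0) (nat_lit 7656718227) (nat_lit 420) (nat_lit 1912369298) (nat_lit 504) (nat_lit 11051064438) (nat_lit 55) (nat_lit 5) (nat_lit 60) (nat_lit 5) (nat_lit 61) (nat_lit 5) (nat_lit 360) (nat_lit 332) (nat_lit 196))) (XT.nd (nat_lit 94) (nat_lit 420) (nat_lit 0) (XT.lf (nat_lit 0) (nat_lit 10980467818) (nat_lit 504) (nat_lit 6538598504) (nat_lit 84) (nat_lit 3511150038) (nat_lit 55) (nat_lit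 5) (nat_lit 61) (nat_lit 5) (nat_lit 56) (nat_lit 5) (nat_lit 361) (nat_lit 332) (nat_lit 195)) (XT.lf (nat_lit 0) (nat_lit 61333510) (nat_lit 420) (nat_lit 12388589183) (nat_lit 504) (nat_lit 9002665054) (nat_lit 50) (nat_lit 5) (nat_lit 55) (nat_lit 5) (nat_lit 56) (nat_lit 5) (nat_lit 362) (nat_lit 332) (nat_lit 194)))) (XT.nd (nat_lit 188) (nat_lit 336) (nat_lit 0) (XT.nd (nat_lit 94) (nat_lit 0) (nat_lit 0) (XT.lf (nat_lit 0) (nat_lit 6998786679) (nat_lit 420) (nat_lit 7028667171) (nat_lit 504) (nat_lit 7858698374) (nat_lit 50) (nat_lit 5) (nat_lit 55) (nat_lit 5) (nat_lit 56) (nat_lit 5) (nat_lit 363) (nat_lit 332) (nat_lit 193)) (XT.lf (nat_lit 0) (nat_lit 14145780438) (nat_lit 420) (nat_lit 1502553836) (nat_lit 504) (nat_lit 6685031765) (nat_lit 50) (nat_lit 5) (nat_lit 55) (nat_lit 5) (nat_lit 56) (nat_lit 5) (nat_lit 364) (nat_lit 332) (nat_lit 192))) (XT.nd (nat_lit 94) (nat_lit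 336) (nat_lit 0) (XT.lf (nat_lit 0) (nat_lit 17355688744) (nat_lit 504) (nat_lit 1327283453) (nat_lit 84) (nat_lit 4110383814) (nat_lit 50) (nat_lit 5) (nat_lit 56) (nat_lit 5) (nat_lit 51) (nat_lit 5) (nat_lit 365) (nat_lit 332) (nat_lit 191)) (XT.lf (nat_lit 0) (nat_lit 5842646521) (nat_lit 336) (nat_lit 13341427150) (nat_lit 420) (nat_lit 4081455312) (nat_lit 46) (nat_lit 5) (nat_lit 50) (nat_lit 5) (nat_lit 51) (nat_lit 5) (nat_lit 366) (nat_lit 332) (nat_lit 190))))) (XT.nd (nat_lit 376) (nat_lit 0) (nat_lit 0) (XT.nd (nat_lit 188) (nat_lit 504) (nat_lit 0) (XT.nd (nat_lit 94) (nat_lit 0) (nat_lit 0) (XT.lf (nat_lit 0) (nat_lit 13257646353) (nat_lit 336) (nat_lit 7820225569) (nat_lit 420) (nat_lit 2674230113) (nat_lit 46) (nat_lit 5) (nat_lit 50) (nat_lit 5) (nat_lit 51) (nat_lit 5) (nat_lit 367) (nat_lit 332) (nat_lit 189)) (XT.lf (nat_lit 0) (nat_lit 20897335927) (nat_lit 336) (nat_lit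 2128075234) (nat_lit 420) (nat_lit 1228534103) (nat_lit 46) (nat_lit 5) (nat_lit 50) (nat_lit 5) (nat_lit 51) (nat_lit 5) (nat_lit 368) (nat_lit 332) (nat_lit 188))) (XT.nd (nat_lit 94) (nat_lit 0) (nat_lit 0) (XT.lf (nat_lit 0) (nat_lit 329790283) (nat_lit 504) (nat_lit 20730836936) (nat_lit 84) (nat_lit 3708402583) (nat_lit 40) (nat_lit 5) (nat_lit 46) (nat_lit 5) (nat_lit 41) (nat_lit 5) (nat_lit 369) (nat_lit 332) (nat_lit 187)) (XT.lf (nat_lit 0) (nat_lit 1963259040) (nat_lit 504) (nat_lit 13605566299) (nat_lit 84) (nat_lit 9729273679) (nat_lit 40) (nat_lit 5) (nat_lit 46) (nat_lit 5) (nat_lit 41) (nat_lit 5) (nat_lit 370) (nat_lit 332) (nat_lit 186)))) (XT.nd (nat_lit 52264) (nat_lit 0) (nat_lit 3444) (XT.nd (nat_lit 52170) (nat_lit 0) (nat_lit 3444) (XT.lf (nat_lit 0) (nat_lit 3642705968) (nat_lit 504) (nat_lit 6264527888) (nat_lit 84) (nat_lit 15936508680) (nat_lit 40) (nat_lit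 5) (nat_lit 46) (nat_lit 5) (nat_lit 41) (nat_lit 5) (nat_lit 371) (nat_lit 332) (nat_lit 185)) (XT.lf (nat_lit 0) (nat_lit 1122638305) (nat_lit 0) (nat_lit 1122638305) (nat_lit 924) (nat_lit 4337646574) (nat_lit 81) (nat_lit 5) (nat_lit 81) (nat_lit 3) (nat_lit 92) (nat_lit 3) (nat_lit 333) (nat_lit 333) (nat_lit 222))) (XT.nd (nat_lit 94) (nat_lit 0) (nat_lit 0) (XT.lf (nat_lit 0) (nat_lit 4880198505) (nat_lit 924) (nat_lit 6711983022) (nat_lit 1008) (nat_lit 1765609050) (nat_lit 81) (nat_lit 5) (nat_lit 92) (nat_lit 3) (nat_lit 93) (nat_lit 5) (nat_lit 334) (nat_lit 333) (nat_lit 221)) (XT.nd (nat_lit 94) (nat_lit 0) (nat_lit 0) (XT.lf (nat_lit 0) (nat_lit 5292771119) (nat_lit 924) (nat_lit 2402508681) (nat_lit 1008) (nat_lit 5860157813) (nat_lit 81) (nat_lit 5) (nat_lit 92) (nat_lit 3) (nat_lit 93) (nat_lit 5) (nat_lit 335) (nat_lit 333) (nat_lit 220)) (XT.lf (nat_lit 84) (nat_lit 2075969732)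 (nat_lit 0) (nat_lit 3651006349) (nat_lit 1008) (nat_lit 8032047690) (nat_lit 82) (nat_lit 5) (nat_lit 81) (nat_lit 5) (nat_lit 93) (nat_lit 5) (nat_lit 336) (nat_lit 333) (nat_lit 219))))))) (XT.nd (nat_lit 752) (nat_lit 672) (nat_lit 0) (XT.nd (nat_lit 376) (nat_lit 0) (nat_lit 84) (XT.nd (nat_lit 188) (nat_lit 0) (nat_lit 0) (XT.nd (nat_lit 94) (nat_lit 0) (nat_lit 0) (XT.lf (nat_lit 0) (nat_lit 6193709858) (nat_lit 924) (nat_lit 7236172676) (nat_lit 1008) (nat_lit 538531036) (nat_lit 82) (nat_lit 5) (nat_lit 93) (nat_lit 5) (nat_lit 94) (nat_lit 5) (nat_lit 337) (nat_lit 333) (nat_lit 218)) (XT.lf (nat_lit 0) (nat_lit 6701186419) (nat_lit 924) (nat_lit 2695413938) (nat_lit 1008) (nat_lit 4786960682) (nat_lit 82) (nat_lit 5) (nat_lit 93) (nat_lit 5) (nat_lit 94) (nat_lit 5) (nat_lit 338) (nat_lit 333) (nat_lit 217))) (XT.nd (nat_lit 94) (nat_lit 0) (nat_lit 0) (XT.lf (nat_lit 84) (nat_lit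 2020379211) (nat_lit 0) (nat_lit 5213323551) (nat_lit 1008) (nat_lit 7171465410) (nat_lit 83) (nat_lit 5) (nat_lit 82) (nat_lit 5) (nat_lit 94) (nat_lit 5) (nat_lit 339) (nat_lit 333) (nat_lit 216)) (XT.lf (nat_lit 84) (nat_lit 6933133209) (nat_lit 0) (nat_lit 867253661) (nat_lit 1008) (nat_lit 6832787081) (nat_lit 83) (nat_lit 5) (nat_lit 82) (nat_lit 5) (nat_lit 94) (nat_lit 5) (nat_lit 340) (nat_lit 333) (nat_lit 215)))) (XT.nd (nat_lit 188) (nat_lit 0) (nat_lit 0) (XT.nd (nat_lit 94) (nat_lit 0) (nat_lit 0) (XT.lf (nat_lit 0) (nat_lit 8410364611) (nat_lit 924) (nat_lit 2912519134) (nat_lit 1008) (nat_lit 3544640630) (nat_lit 83) (nat_lit 5) (nat_lit 94) (nat_lit 5) (nat_lit 95) (nat_lit 5) (nat_lit 341) (nat_lit 333) (nat_lit 214)) (XT.lf (nat_lit 84) (nat_lit 2049428763) (nat_lit 0) (nat_lit 7009207366) (nat_lit 1008) (nat_lit 6049974374) (nat_lit 84) (nat_lit 5) (nat_lit 83) (nat_lit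 5) (nat_lit 95) (nat_lit 5) (nat_lit 342) (nat_lit 333) (nat_lit 213))) (XT.nd (nat_lit 94) (nat_lit 0) (nat_lit 84) (XT.lf (nat_lit 84) (nat_lit 7220597461) (nat_lit 0) (nat_lit 2527223466) (nat_lit 1008) (nat_lit 5608773652) (nat_lit 84) (nat_lit 5) (nat_lit 83) (nat_lit 5) (nat_lit 95) (nat_lit 5) (nat_lit 343) (nat_lit 333) (nat_lit 212)) (XT.lf (nat_lit 0) (nat_lit 10469875718) (nat_lit 924) (nat_lit 3087503136) (nat_lit 1008) (nat_lit 2054598153) (nat_lit 84) (nat_lit 5) (nat_lit 95) (nat_lit 5) (nat_lit 96) (nat_lit 5) (nat_lit 344) (nat_lit 333) (nat_lit 211))))) (XT.nd (nat_lit 376) (nat_lit 840) (nat_lit 0) (XT.nd (nat_lit 188) (nat_lit 0) (nat_lit 84) (XT.nd (nat_lit 94) (nat_lit 0) (nat_lit 0) (XT.lf (nat_lit 84) (nat_lit 2128181780) (nat_lit 0) (nat_lit 9124105851) (nat_lit 1008) (nat_lit 4621876963) (nat_lit 85) (nat_lit 5) (nat_lit 84) (nat_lit 5) (nat_lit 96) (nat_lit 5)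 (nat_lit 345) (nat_lit 333) (nat_lit 210)) (XT.lf (nat_lit 84) (nat_lit 7564727642) (nat_lit 0) (nat_lit 4517675822) (nat_lit 1008) (nat_lit 4061413118) (nat_lit 85) (nat_lit 5) (nat_lit 84) (nat_lit 5) (nat_lit 96) (nat_lit 5) (nat_lit 346) (nat_lit 333) (nat_lit 209))) (XT.nd (nat_lit 94) (nat_lit 0) (nat_lit 0) (XT.lf (nat_lit 0) (nat_lit 12932059862) (nat_lit 924) (nat_lit 3260757926) (nat_lit 1008) (nat_lit 229263578) (nat_lit 85) (nat_lit 5) (nat_lit 96) (nat_lit 5) (nat_lit 97) (nat_lit 5) (nat_lit 347) (nat_lit 333) (nat_lit 208)) (XT.lf (nat_lit 84) (nat_lit 2214609695) (nat_lit 0) (nat_lit 11653385525) (nat_lit 1008) (nat_lit 2839178759) (nat_lit 86) (nat_lit 5) (nat_lit 85) (nat_lit 5) (nat_lit 97) (nat_lit 5) (nat_lit 348) (nat_lit 333) (nat_lit 207)))) (XT.nd (nat_lit 188) (nat_lit 924) (nat_lit 0) (XT.nd (nat_lit 94) (nat_lit 0) (nat_lit 0) (XT.lf (nat_lit 84) (nat_lit 7922657397)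 (nat_lit 0) (nat_lit 6936274286) (nat_lit 1008) (nat_lit 2141425132) (nat_lit 86) (nat_lit 5) (nat_lit 85) (nat_lit 5) (nat_lit 97) (nat_lit 5) (nat_lit 349) (nat_lit 333) (nat_lit 206)) (XT.lf (nat_lit 84) (nat_lit 13801657805) (nat_lit 0) (nat_lit 2071122857) (nat_lit 1008) (nat_lit 1430145869) (nat_lit 86) (nat_lit 5) (nat_lit 85) (nat_lit 5) (nat_lit 97) (nat_lit 5) (nat_lit 350) (nat_lit 333) (nat_lit 205))) (XT.nd (nat_lit 94) (nat_lit 84) (nat_lit 0) (XT.lf (nat_lit 0) (nat_lit 2258192485) (nat_lit 924) (nat_lit 14703926906) (nat_lit 1008) (nat_lit 651445162) (nat_lit 75) (nat_lit 5) (nat_lit 86) (nat_lit 5) (nat_lit 87) (nat_lit 5) (nat_lit 351) (nat_lit 333) (nat_lit 204)) (XT.nd (nat_lit 94) (nat_lit 0) (nat_lit 0) (XT.lf (nat_lit 0) (nat_lit 198932819) (nat_lit 1008) (nat_lit 9691602667) (nat_lit 84) (nat_lit 8041733377) (nat_lit 74) (nat_lit 5) (nat_lit 86) (nat_lit 5) (nat_lit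 75) (nat_lit 5) (nat_lit 352) (nat_lit 333) (nat_lit 203)) (XT.lf (nat_lit 0) (nat_lit 1054851693) (nat_lit 1008) (nat_lit 3864997668) (nat_lit 84) (nat_lit 13341072801) (nat_lit 74) (nat_lit 5) (nat_lit 86) (nat_lit 5) (nat_lit 75) (nat_lit 5) (nat_lit 353) (nat_lit 333) (nat_lit 202))))))))
noncomputable def xc111 : XT := (XT.nd (nat_lit 1598) (nat_lit 0) (nat_lit 0) (XT.nd (nat_lit 752) (nat_lit 1260) (nat_lit 0) (XT.nd (nat_lit 376) (nat_lit 420) (nat_lit 0) (XT.nd (nat_lit 188) (nat_lit 504) (nat_lit 0) (XT.nd (nat_lit 94) (nat_lit 0) (nat_lit 0) (XT.lf (nat_lit 0) (nat_lit 1954128684) (nat_lit 756) (nat_lit 16421362600) (nat_lit 84) (nat_lit 223799116) (nat_lit 66) (nat_lit 5) (nat_lit 75) (nat_lit 5) (nat_lit 67) (nat_lit 5) (nat_lit 354) (nat_lit 333) (nat_lit 201)) (XT.lf (nat_lit 0) (nat_lit 2965452766) (nat_lit 756) (nat_lit 10513616563) (nat_lit 84) (nat_lit 5466516273) (nat_lit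 66) (nat_lit 5) (nat_lit 75) (nat_lit 5) (nat_lit 67) (nat_lit 5) (nat_lit 355) (nat_lit 333) (nat_lit 200))) (XT.nd (nat_lit 94) (nat_lit 504) (nat_lit 0) (XT.lf (nat_lit 0) (nat_lit 4001431247) (nat_lit 756) (nat_lit 4428654661) (nat_lit 84) (nat_lit 10872783036) (nat_lit 66) (nat_lit 5) (nat_lit 75) (nat_lit 5) (nat_lit 67) (nat_lit 5) (nat_lit 356) (nat_lit 333) (nat_lit 199)) (XT.lf (nat_lit 0) (nat_lit 1877012547) (nat_lit 504) (nat_lit 3204637419) (nat_lit 588) (nat_lit 14589246261) (nat_lit 60) (nat_lit 5) (nat_lit 66) (nat_lit 5) (nat_lit 67) (nat_lit 5) (nat_lit 357) (nat_lit 333) (nat_lit 198)))) (XT.nd (nat_lit 188) (nat_lit 420) (nat_lit 0) (XT.nd (nat_lit 94) (nat_lit 0) (nat_lit 0) (XT.lf (nat_lit 0) (nat_lit 6257358183) (nat_lit 588) (nat_lit 11604919530) (nat_lit 84) (nat_lit 2186175265) (nat_lit 60) (nat_lit 5) (nat_lit 67) (nat_lit 5) (nat_lit 61) (nat_lit 5) (nat_lit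 358) (nat_lit 333) (nat_lit 197)) (XT.lf (nat_lit 0) (nat_lit 7496130394) (nat_lit 588) (nat_lit 5262629302) (nat_lit 84) (nat_lit 7678170584) (nat_lit 60) (nat_lit 5) (nat_lit 67) (nat_lit 5) (nat_lit 61) (nat_lit 5) (nat_lit 359) (nat_lit 333) (nat_lit 196))) (XT.nd (nat_lit 94) (nat_lit 0) (nat_lit 0) (XT.lf (nat_lit 0) (nat_lit 1296817055) (nat_lit 420) (nat_lit 7483378398) (nat_lit 504) (nat_lit 12057081485) (nat_lit 55) (nat_lit 5) (nat_lit 60) (nat_lit 5) (nat_lit 61) (nat_lit 5) (nat_lit 360) (nat_lit 333) (nat_lit 195)) (XT.lf (nat_lit 0) (nat_lit 8165644905) (nat_lit 420) (nat_lit 1987503796) (nat_lit 504) (nat_lit 11095403059) (nat_lit 55) (nat_lit 5) (nat_lit 60) (nat_lit 5) (nat_lit 61) (nat_lit 5) (nat_lit 361) (nat_lit 333) (nat_lit 194))))) (XT.nd (nat_lit 376) (nat_lit 840) (nat_lit 0) (XT.nd (nat_lit 188) (nat_lit 0) (nat_lit 0) (XT.nd (nat_lit 94) (nat_lit 420) (nat_lit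 0) (XT.lf (nat_lit 0) (nat_lit 11599487169) (nat_lit 504) (nat_lit 6467240188) (nat_lit 84) (nat_lit 3604931007) (nat_lit 55) (nat_lit 5) (nat_lit 61) (nat_lit 5) (nat_lit 56) (nat_lit 5) (nat_lit 362) (nat_lit 333) (nat_lit 193)) (XT.lf (nat_lit 0) (nat_lit 334515159) (nat_lit 420) (nat_lit 12774293457) (nat_lit 504) (nat_lit 8998546777) (nat_lit 50) (nat_lit 5) (nat_lit 55) (nat_lit 5) (nat_lit 56) (nat_lit 5) (nat_lit 363) (nat_lit 333) (nat_lit 192))) (XT.nd (nat_lit 94) (nat_lit 0) (nat_lit 0) (XT.lf (nat_lit 0) (nat_lit 7478872548) (nat_lit 420) (nat_lit 7248164010) (nat_lit 504) (nat_lit 7827632385) (nat_lit 50) (nat_lit 5) (nat_lit 55) (nat_lit 5) (nat_lit 56) (nat_lit 5) (nat_lit 364) (nat_lit 333) (nat_lit 191)) (XT.lf (nat_lit 0) (nat_lit 14839511545) (nat_lit 420) (nat_lit 1550692808) (nat_lit 504) (nat_lit 6625841329) (nat_lit 50) (nat_lit 5) (nat_lit 55) (nat_lit 5) (nat_lit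 56) (nat_lit 5) (nat_lit 365) (nat_lit 333) (nat_lit 190)))) (XT.nd (nat_lit 188) (nat_lit 504) (nat_lit 0) (XT.nd (nat_lit 94) (nat_lit 336) (nat_lit 0) (XT.lf (nat_lit 0) (nat_lit 18142751218) (nat_lit 504) (nat_lit 1111511596) (nat_lit 84) (nat_lit 4236323291) (nat_lit 50) (nat_lit 5) (nat_lit 56) (nat_lit 5) (nat_lit 51) (nat_lit 5) (nat_lit 366) (nat_lit 333) (nat_lit 189)) (XT.lf (nat_lit 0) (nat_lit 6278085147) (nat_lit 336) (nat_lit 13744765791) (nat_lit 420) (nat_lit 3954748848) (nat_lit 46) (nat_lit 5) (nat_lit 50) (nat_lit 5) (nat_lit 51) (nat_lit 5) (nat_lit 367) (nat_lit 333) (nat_lit 188))) (XT.nd (nat_lit 94) (nat_lit 504) (nat_lit 0) (XT.lf (nat_lit 0) (nat_lit 13915303209) (nat_lit 336) (nat_lit 8052715025) (nat_lit 420) (nat_lit 2511513807) (nat_lit 46) (nat_lit 5) (nat_lit 50) (nat_lit 5) (nat_lit 51) (nat_lit 5) (nat_lit 368) (nat_lit 333) (nat_lit 187)) (XT.nd (nat_lit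 94) (nat_lit 504) (nat_lit 0) (XT.lf (nat_lit 0) (nat_lit 21784406318) (nat_lit 336) (nat_lit 2184406830) (nat_lit 420) (nat_lit 1028386421) (nat_lit 46) (nat_lit 5) (nat_lit 50) (nat_lit 5) (nat_lit 51) (nat_lit 5) (nat_lit 369) (nat_lit 333) (nat_lit 186)) (XT.lf (nat_lit 0) (nat_lit 568979004) (nat_lit 504) (nat_lit 21122106918) (nat_lit 84) (nat_lit 3837274768) (nat_lit 40) (nat_lit 5) (nat_lit 46) (nat_lit 5) (nat_lit 41) (nat_lit 5) (nat_lit 370) (nat_lit 333) (nat_lit 185))))))) (XT.nd (nat_lit 53016) (nat_lit 0) (nat_lit 3612) (XT.nd (nat_lit 52546) (nat_lit 0) (nat_lit 3444) (XT.nd (nat_lit 52358) (nat_lit 0) (nat_lit 3444) (XT.nd (nat_lit 52264) (nat_lit 0) (nat_lit 3444) (XT.lf (nat_lit 0) (nat_lit 2246200791) (nat_lit 504) (nat_lit 13783511539) (nat_lit 84) (nat_lit 10044374572) (nat_lit 40) (nat_lit 5) (nat_lit 46) (nat_lit 5) (nat_lit 41) (nat_lit 5) (nat_lit 371) (nat_lit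 333) (nat_lit 184)) (XT.lf (nat_lit 0) (nat_lit 1307024579) (nat_lit 0) (nat_lit 1307024579) (nat_lit 924) (nat_lit 4161487163) (nat_lit 81) (nat_lit 5) (nat_lit 81) (nat_lit 3) (nat_lit 92) (nat_lit 3) (nat_lit 334) (nat_lit 334) (nat_lit 220))) (XT.nd (nat_lit 94) (nat_lit 0) (nat_lit 0) (XT.lf (nat_lit 0) (nat_lit 5608953282) (nat_lit 924) (nat_lit 6604776388) (nat_lit 1008) (nat_lit 1536015691) (nat_lit 81) (nat_lit 5) (nat_lit 92) (nat_lit 3) (nat_lit 93) (nat_lit 5) (nat_lit 335) (nat_lit 334) (nat_lit 219)) (XT.lf (nat_lit 0) (nat_lit 6016952381) (nat_lit 924) (nat_lit 2171188091) (nat_lit 1008) (nat_lit 5766044587) (nat_lit 81) (nat_lit 5) (nat_lit 92) (nat_lit 3) (nat_lit 93) (nat_lit 5) (nat_lit 336) (nat_lit 334) (nat_lit 218)))) (XT.nd (nat_lit 188) (nat_lit 0) (nat_lit 84) (XT.nd (nat_lit 94) (nat_lit 0) (nat_lit 84) (XT.lf (nat_lit 84) (nat_lit 2443027218) (nat_lit 0) (nat_lit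 4007752135) (nat_lit 1008) (nat_lit 7713855538) (nat_lit 82) (nat_lit 5) (nat_lit 81) (nat_lit 5) (nat_lit 93) (nat_lit 5) (nat_lit 337) (nat_lit 334) (nat_lit 217)) (XT.lf (nat_lit 0) (nat_lit 6913213237) (nat_lit 924) (nat_lit 7144260050) (nat_lit 1008) (nat_lit 323744116) (nat_lit 82) (nat_lit 5) (nat_lit 93) (nat_lit 5) (nat_lit 94) (nat_lit 5) (nat_lit 338) (nat_lit 334) (nat_lit 216))) (XT.nd (nat_lit 94) (nat_lit 0) (nat_lit 0) (XT.lf (nat_lit 0) (nat_lit 7420560806) (nat_lit 924) (nat_lit 2472246281) (nat_lit 1008) (nat_lit 4710835238) (nat_lit 82) (nat_lit 5) (nat_lit 93) (nat_lit 5) (nat_lit 94) (nat_lit 5) (nat_lit 339) (nat_lit 334) (nat_lit 215)) (XT.nd (nat_lit 94) (nat_lit 0) (nat_lit 0) (XT.lf (nat_lit 84) (nat_lit 2386631135) (nat_lit 0) (nat_lit 5570582104) (nat_lit 1008) (nat_lit 6875402275) (nat_lit 83) (nat_lit 5) (nat_lit 82) (nat_lit 5) (nat_lit 94) (nat_lit 5) (nat_lit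 340) (nat_lit 334) (nat_lit 214)) (XT.lf (nat_lit 84) (nat_lit 7442551288) (nat_lit 0) (nat_lit 1083901398) (nat_lit 1008) (nat_lit 6541811471) (nat_lit 83) (nat_lit 5) (nat_lit 82) (nat_lit 5) (nat_lit 94) (nat_lit 5) (nat_lit 341) (nat_lit 334) (nat_lit 213)))))) (XT.nd (nat_lit 376) (nat_lit 0) (nat_lit 84) (XT.nd (nat_lit 188) (nat_lit 0) (nat_lit 0) (XT.nd (nat_lit 94) (nat_lit 0) (nat_lit 0) (XT.lf (nat_lit 0) (nat_lit 9138953375) (nat_lit 924) (nat_lit 2697364348) (nat_lit 1008) (nat_lit 3474175727) (nat_lit 83) (nat_lit 5) (nat_lit 94) (nat_lit 5) (nat_lit 95) (nat_lit 5) (nat_lit 342) (nat_lit 334) (nat_lit 212)) (XT.lf (nat_lit 84) (nat_lit 2415311598) (nat_lit 0) (nat_lit 7380941276) (nat_lit 1008) (nat_lit 5763246335) (nat_lit 84) (nat_lit 5) (nat_lit 83) (nat_lit 5) (nat_lit 95) (nat_lit 5) (nat_lit 343) (nat_lit 334) (nat_lit 211))) (XT.nd (nat_lit 94) (nat_lit 0) (nat_lit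 84) (XT.lf (nat_lit 84) (nat_lit 7737695481) (nat_lit 0) (nat_lit 2755371934) (nat_lit 1008) (nat_lit 5322628910) (nat_lit 84) (nat_lit 5) (nat_lit 83) (nat_lit 5) (nat_lit 95) (nat_lit 5) (nat_lit 344) (nat_lit 334) (nat_lit 210)) (XT.lf (nat_lit 0) (nat_lit 11222742506) (nat_lit 924) (nat_lit 2880889579) (nat_lit 1008) (nat_lit 1975917939) (nat_lit 84) (nat_lit 5) (nat_lit 95) (nat_lit 5) (nat_lit 96) (nat_lit 5) (nat_lit 345) (nat_lit 334) (nat_lit 209)))) (XT.nd (nat_lit 188) (nat_lit 0) (nat_lit 84) (XT.nd (nat_lit 94) (nat_lit 0) (nat_lit 0) (XT.lf (nat_lit 84) (nat_lit 2493420788) (nat_lit 0) (nat_lit 9526079051) (nat_lit 1008) (nat_lit 4330766617) (nat_lit 85) (nat_lit 5) (nat_lit 84) (nat_lit 5) (nat_lit 96) (nat_lit 5) (nat_lit 346) (nat_lit 334) (nat_lit 208)) (XT.lf (nat_lit 84) (nat_lit 8089501292) (nat_lit 0) (nat_lit 4773267825) (nat_lit 1008) (nat_lit 3765989542) (nat_lit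 85) (nat_lit 5) (nat_lit 84) (nat_lit 5) (nat_lit 96) (nat_lit 5) (nat_lit 347) (nat_lit 334) (nat_lit 207))) (XT.nd (nat_lit 94) (nat_lit 0) (nat_lit 0) (XT.lf (nat_lit 0) (nat_lit 13725451230) (nat_lit 924) (nat_lit 3064140606) (nat_lit 1008) (nat_lit 126558821) (nat_lit 85) (nat_lit 5) (nat_lit 96) (nat_lit 5) (nat_lit 97) (nat_lit 5) (nat_lit 348) (nat_lit 334) (nat_lit 206)) (XT.nd (nat_lit 94) (nat_lit 0) (nat_lit 0) (XT.lf (nat_lit 84) (nat_lit 2577949459) (nat_lit 0) (nat_lit 12103572881) (nat_lit 1008) (nat_lit 2528919654) (nat_lit 86) (nat_lit 5) (nat_lit 85) (nat_lit 5) (nat_lit 97) (nat_lit 5) (nat_lit 349) (nat_lit 334) (nat_lit 205)) (XT.lf (nat_lit 84) (nat_lit 8454086026) (nat_lit 0) (nat_lit 7237557184) (nat_lit 1008) (nat_lit 1821510914) (nat_lit 86) (nat_lit 5) (nat_lit 85) (nat_lit 5) (nat_lit 97) (nat_lit 5) (nat_lit 350) (nat_lit 334) (nat_lit 204))))))))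
noncomputable def xc112 : XT := (XT.nd (nat_lit 1598) (nat_lit 840) (nat_lit 0) (XT.nd (nat_lit 752) (nat_lit 840) (nat_lit 0) (XT.nd (nat_lit 376) (nat_lit 1176) (nat_lit 0) (XT.nd (nat_lit 188) (nat_lit 84) (nat_lit 0) (XT.nd (nat_lit 94) (nat_lit 840) (nat_lit 0) (XT.lf (nat_lit 84) (nat_lit 14506741253) (nat_lit 0) (nat_lit 2218992452) (nat_lit 1008) (nat_lit 1099797174) (nat_lit 86) (nat_lit 5) (nat_lit 85) (nat_lit 5) (nat_lit 97) (nat_lit 5) (nat_lit 351) (nat_lit 334) (nat_lit 203)) (XT.lf (nat_lit 0) (nat_lit 2617090145) (nat_lit 924) (nat_lit 15222961232) (nat_lit 1008) (nat_lit 306097943) (nat_lit 75) (nat_lit 5) (nat_lit 86) (nat_lit 5) (nat_lit 87) (nat_lit 5) (nat_lit 352) (nat_lit 334) (nat_lit 202))) (XT.nd (nat_lit 94) (nat_lit 0) (nat_lit 0) (XT.lf (nat_lit 0) (nat_lit 552507265) (nat_lit 1008) (nat_lit 9702320521) (nat_lit 84) (nat_lit 8220200629) (nat_lit 74) (nat_lit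 5) (nat_lit 86) (nat_lit 5) (nat_lit 75) (nat_lit 5) (nat_lit 353) (nat_lit 334) (nat_lit 201)) (XT.lf (nat_lit 0) (nat_lit 1424513810) (nat_lit 1008) (nat_lit 3703802093) (nat_lit 84) (nat_lit 13685949177) (nat_lit 74) (nat_lit 5) (nat_lit 86) (nat_lit 5) (nat_lit 75) (nat_lit 5) (nat_lit 354) (nat_lit 334) (nat_lit 200)))) (XT.nd (nat_lit 188) (nat_lit 504) (nat_lit 0) (XT.nd (nat_lit 94) (nat_lit 0) (nat_lit 0) (XT.lf (nat_lit 0) (nat_lit 2343785964) (nat_lit 756) (nat_lit 16639301211) (nat_lit 84) (nat_lit 180349067) (nat_lit 66) (nat_lit 5) (nat_lit 75) (nat_lit 5) (nat_lit 67) (nat_lit 5) (nat_lit 355) (nat_lit 334) (nat_lit 199)) (XT.lf (nat_lit 0) (nat_lit 3376566370) (nat_lit 756) (nat_lit 10557168522) (nat_lit 84) (nat_lit 5587105512) (nat_lit 66) (nat_lit 5) (nat_lit 75) (nat_lit 5) (nat_lit 67) (nat_lit 5) (nat_lit 356) (nat_lit 334) (nat_lit 198))) (XT.nd (nat_lit 94) (nat_lit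 504) (nat_lit 0) (XT.lf (nat_lit 0) (nat_lit 4435062977) (nat_lit 756) (nat_lit 4292063077) (nat_lit 84) (nat_lit 11162436046) (nat_lit 66) (nat_lit 5) (nat_lit 75) (nat_lit 5) (nat_lit 67) (nat_lit 5) (nat_lit 357) (nat_lit 334) (nat_lit 197)) (XT.lf (nat_lit 0) (nat_lit 2206307027) (nat_lit 504) (nat_lit 3335842225) (nat_lit 588) (nat_lit 14727117272) (nat_lit 60) (nat_lit 5) (nat_lit 66) (nat_lit 5) (nat_lit 67) (nat_lit 5) (nat_lit 358) (nat_lit 334) (nat_lit 196))))) (XT.nd (nat_lit 376) (nat_lit 420) (nat_lit 0) (XT.nd (nat_lit 188) (nat_lit 420) (nat_lit 0) (XT.nd (nat_lit 94) (nat_lit 0) (nat_lit 0) (XT.lf (nat_lit 0) (nat_lit 6744888247) (nat_lit 588) (nat_lit 11690326116) (nat_lit 84) (nat_lit 2223666275) (nat_lit 60) (nat_lit 5) (nat_lit 67) (nat_lit 5) (nat_lit 61) (nat_lit 5) (nat_lit 359) (nat_lit 334) (nat_lit 195)) (XT.lf (nat_lit 0) (nat_lit 8013235907) (nat_lit 588) (nat_lit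 5159673895) (nat_lit 84) (nat_lit 7886823917) (nat_lit 60) (nat_lit 5) (nat_lit 67) (nat_lit 5) (nat_lit 61) (nat_lit 5) (nat_lit 360) (nat_lit 334) (nat_lit 194))) (XT.nd (nat_lit 94) (nat_lit 0) (nat_lit 0) (XT.lf (nat_lit 0) (nat_lit 1600421306) (nat_lit 420) (nat_lit 7730737570) (nat_lit 504) (nat_lit 12141574215) (nat_lit 55) (nat_lit 5) (nat_lit 60) (nat_lit 5) (nat_lit 61) (nat_lit 5) (nat_lit 361) (nat_lit 334) (nat_lit 193)) (XT.lf (nat_lit 0) (nat_lit 8674262848) (nat_lit 420) (nat_lit 2064028578) (nat_lit 504) (nat_lit 11158781703) (nat_lit 55) (nat_lit 5) (nat_lit 60) (nat_lit 5) (nat_lit 61) (nat_lit 5) (nat_lit 362) (nat_lit 334) (nat_lit 192)))) (XT.nd (nat_lit 188) (nat_lit 0) (nat_lit 0) (XT.nd (nat_lit 94) (nat_lit 420) (nat_lit 0) (XT.lf (nat_lit 0) (nat_lit 12221192693) (nat_lit 504) (nat_lit 6409902503) (nat_lit 84) (nat_lit 3702511494) (nat_lit 55) (nat_lit 5) (nat_lit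 61) (nat_lit 5) (nat_lit 56) (nat_lit 5) (nat_lit 363) (nat_lit 334) (nat_lit 191)) (XT.lf (nat_lit 0) (nat_lit 600097042) (nat_lit 420) (nat_lit 13171856357) (nat_lit 504) (nat_lit 9011075306) (nat_lit 50) (nat_lit 5) (nat_lit 55) (nat_lit 5) (nat_lit 56) (nat_lit 5) (nat_lit 364) (nat_lit 334) (nat_lit 190))) (XT.nd (nat_lit 94) (nat_lit 0) (nat_lit 0) (XT.lf (nat_lit 0) (nat_lit 7958255825) (nat_lit 420) (nat_lit 7474369997) (nat_lit 504) (nat_lit 7811873450) (nat_lit 50) (nat_lit 5) (nat_lit 55) (nat_lit 5) (nat_lit 56) (nat_lit 5) (nat_lit 365) (nat_lit 334) (nat_lit 189)) (XT.nd (nat_lit 94) (nat_lit 0) (nat_lit 0) (XT.lf (nat_lit 0) (nat_lit 15539631677) (nat_lit 420) (nat_lit 1600231698) (nat_lit 504) (nat_lit 6580596883) (nat_lit 50) (nat_lit 5) (nat_lit 55) (nat_lit 5) (nat_lit 56) (nat_lit 5) (nat_lit 366) (nat_lit 334) (nat_lit 188)) (XT.lf (nat_lit 0) (nat_lit 18939461792)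 (nat_lit 504) (nat_lit 904268484) (nat_lit 84) (nat_lit 4366254699) (nat_lit 50) (nat_lit 5) (nat_lit 56) (nat_lit 5) (nat_lit 51) (nat_lit 5) (nat_lit 367) (nat_lit 334) (nat_lit 187))))))) (XT.nd (nat_lit 53016) (nat_lit 0) (nat_lit 3528) (XT.nd (nat_lit 52640) (nat_lit 0) (nat_lit 3444) (XT.nd (nat_lit 188) (nat_lit 504) (nat_lit 0) (XT.nd (nat_lit 94) (nat_lit 0) (nat_lit 0) (XT.lf (nat_lit 0) (nat_lit 6711958763) (nat_lit 336) (nat_lit 14161214794) (nat_lit 420) (nat_lit 3839113823) (nat_lit 46) (nat_lit 5) (nat_lit 50) (nat_lit 5) (nat_lit 51) (nat_lit 5) (nat_lit 368) (nat_lit 334) (nat_lit 186)) (XT.lf (nat_lit 0) (nat_lit 14578736751) (nat_lit 336) (nat_lit 8293000271) (nat_lit 420) (nat_lit 2358301638) (nat_lit 46) (nat_lit 5) (nat_lit 50) (nat_lit 5) (nat_lit 51) (nat_lit 5) (nat_lit 369) (nat_lit 334) (nat_lit 185))) (XT.nd (nat_lit 94) (nat_lit 504) (nat_lit 0) (XT.lf (nat_lit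 0) (nat_lit 22684804527) (nat_lit 336) (nat_lit 2243055624) (nat_lit 420) (nat_lit 836145064) (nat_lit 46) (nat_lit 5) (nat_lit 50) (nat_lit 5) (nat_lit 51) (nat_lit 5) (nat_lit 370) (nat_lit 334) (nat_lit 184)) (XT.lf (nat_lit 0) (nat_lit 802020575) (nat_lit 504) (nat_lit 21540396292) (nat_lit 84) (nat_lit 3969317977) (nat_lit 40) (nat_lit 5) (nat_lit 46) (nat_lit 5) (nat_lit 41) (nat_lit 5) (nat_lit 371) (nat_lit 334) (nat_lit 183)))) (XT.nd (nat_lit 188) (nat_lit 0) (nat_lit 0) (XT.nd (nat_lit 94) (nat_lit 0) (nat_lit 0) (XT.lf (nat_lit 0) (nat_lit 1488266682) (nat_lit 0) (nat_lit 1488266682) (nat_lit 924) (nat_lit 3998265748) (nat_lit 81) (nat_lit 5) (nat_lit 81) (nat_lit 3) (nat_lit 92) (nat_lit 3) (nat_lit 335) (nat_lit 335) (nat_lit 218)) (XT.lf (nat_lit 0) (nat_lit 6326095002) (nat_lit 924) (nat_lit 6512920810) (nat_lit 1008) (nat_lit 1316146127) (nat_lit 81) (nat_lit 5) (nat_lit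 92) (nat_lit 3) (nat_lit 93) (nat_lit 5) (nat_lit 336) (nat_lit 335) (nat_lit 217))) (XT.nd (nat_lit 94) (nat_lit 0) (nat_lit 0) (XT.lf (nat_lit 0) (nat_lit 6730407263) (nat_lit 924) (nat_lit 1950809523) (nat_lit 1008) (nat_lit 5685348661) (nat_lit 81) (nat_lit 5) (nat_lit 92) (nat_lit 3) (nat_lit 93) (nat_lit 5) (nat_lit 337) (nat_lit 335) (nat_lit 216)) (XT.lf (nat_lit 84) (nat_lit 2803533904) (nat_lit 0) (nat_lit 4361130292) (nat_lit 1008) (nat_lit 7419394806) (nat_lit 82) (nat_lit 5) (nat_lit 81) (nat_lit 5) (nat_lit 93) (nat_lit 5) (nat_lit 338) (nat_lit 335) (nat_lit 215))))) (XT.nd (nat_lit 376) (nat_lit 0) (nat_lit 84) (XT.nd (nat_lit 188) (nat_lit 0) (nat_lit 0) (XT.nd (nat_lit 94) (nat_lit 0) (nat_lit 0) (XT.lf (nat_lit 0) (nat_lit 7623776589) (nat_lit 924) (nat_lit 7068229213) (nat_lit 1008) (nat_lit 116009840) (nat_lit 82) (nat_lit 5) (nat_lit 93) (nat_lit 5) (nat_lit 94) (nat_lit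 5) (nat_lit 339) (nat_lit 335) (nat_lit 214)) (XT.lf (nat_lit 0) (nat_lit 8131930627) (nat_lit 924) (nat_lit 2260328303) (nat_lit 1008) (nat_lit 4645648683) (nat_lit 82) (nat_lit 5) (nat_lit 93) (nat_lit 5) (nat_lit 94) (nat_lit 5) (nat_lit 340) (nat_lit 335) (nat_lit 213))) (XT.nd (nat_lit 94) (nat_lit 0) (nat_lit 0) (XT.lf (nat_lit 84) (nat_lit 2746252926) (nat_lit 0) (nat_lit 5927327253) (nat_lit 1008) (nat_lit 6600865633) (nat_lit 83) (nat_lit 5) (nat_lit 82) (nat_lit 5) (nat_lit 94) (nat_lit 5) (nat_lit 341) (nat_lit 335) (nat_lit 212)) (XT.lf (nat_lit 84) (nat_lit 7950318124) (nat_lit 0) (nat_lit 1296025235) (nat_lit 1008) (nat_lit 6271596848) (nat_lit 83) (nat_lit 5) (nat_lit 82) (nat_lit 5) (nat_lit 94) (nat_lit 5) (nat_lit 342) (nat_lit 335) (nat_lit 211)))) (XT.nd (nat_lit 188) (nat_lit 0) (nat_lit 0) (XT.nd (nat_lit 94) (nat_lit 0) (nat_lit 0) (XT.lf (nat_lit 0) (nat_lit 9862415799)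 (nat_lit 924) (nat_lit 2493631669) (nat_lit 1008) (nat_lit 3412208777) (nat_lit 83) (nat_lit 5) (nat_lit 94) (nat_lit 5) (nat_lit 95) (nat_lit 5) (nat_lit 343) (nat_lit 335) (nat_lit 210)) (XT.lf (nat_lit 84) (nat_lit 2774628061) (nat_lit 0) (nat_lit 7755050689) (nat_lit 1008) (nat_lit 5495721981) (nat_lit 84) (nat_lit 5) (nat_lit 83) (nat_lit 5) (nat_lit 95) (nat_lit 5) (nat_lit 344) (nat_lit 335) (nat_lit 209))) (XT.nd (nat_lit 94) (nat_lit 0) (nat_lit 84) (XT.lf (nat_lit 84) (nat_lit 8253453278) (nat_lit 0) (nat_lit 2981719825) (nat_lit 1008) (nat_lit 5054861259) (nat_lit 84) (nat_lit 5) (nat_lit 83) (nat_lit 5) (nat_lit 95) (nat_lit 5) (nat_lit 345) (nat_lit 335) (nat_lit 208)) (XT.nd (nat_lit 94) (nat_lit 0) (nat_lit 0) (XT.lf (nat_lit 0) (nat_lit 11973579184) (nat_lit 924) (nat_lit 2685778298) (nat_lit 1008) (nat_lit 1903231619) (nat_lit 84) (nat_lit 5) (nat_lit 95) (nat_lit 5) (nat_lit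 96) (nat_lit 5) (nat_lit 346) (nat_lit 335) (nat_lit 207)) (XT.lf (nat_lit 84) (nat_lit 2852256205) (nat_lit 0) (nat_lit 9933457388) (nat_lit 1008) (nat_lit 4056361427) (nat_lit 85) (nat_lit 5) (nat_lit 84) (nat_lit 5) (nat_lit 96) (nat_lit 5) (nat_lit 347) (nat_lit 335) (nat_lit 206))))))))
noncomputable def xc113 : XT := (XT.nd (nat_lit 1598) (nat_lit 756) (nat_lit 0) (XT.nd (nat_lit 752) (nat_lit 1596) (nat_lit 0) (XT.nd (nat_lit 376) (nat_lit 840) (nat_lit 0) (XT.nd (nat_lit 188) (nat_lit 0) (nat_lit 84) (XT.nd (nat_lit 94) (nat_lit 0) (nat_lit 84) (XT.lf (nat_lit 84) (nat_lit 8613349908) (nat_lit 0) (nat_lit 5029939308) (nat_lit 1008) (nat_lit 3486363777) (nat_lit 85) (nat_lit 5) (nat_lit 84) (nat_lit 5) (nat_lit 96) (nat_lit 5) (nat_lit 348) (nat_lit 335) (nat_lit 205)) (XT.lf (nat_lit 0) (nat_lit 14520189430) (nat_lit 924) (nat_lit 2879061478) (nat_lit 1008) (nat_lit 27174565) (nat_lit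 85) (nat_lit 5) (nat_lit 96) (nat_lit 5) (nat_lit 97) (nat_lit 5) (nat_lit 349) (nat_lit 335) (nat_lit 204))) (XT.nd (nat_lit 94) (nat_lit 0) (nat_lit 0) (XT.lf (nat_lit 84) (nat_lit 2935097948) (nat_lit 0) (nat_lit 12562448427) (nat_lit 1008) (nat_lit 2232632946) (nat_lit 86) (nat_lit 5) (nat_lit 85) (nat_lit 5) (nat_lit 97) (nat_lit 5) (nat_lit 350) (nat_lit 335) (nat_lit 203)) (XT.lf (nat_lit 84) (nat_lit 8985058963) (nat_lit 0) (nat_lit 7543070619) (nat_lit 1008) (nat_lit 1514560472) (nat_lit 86) (nat_lit 5) (nat_lit 85) (nat_lit 5) (nat_lit 97) (nat_lit 5) (nat_lit 351) (nat_lit 335) (nat_lit 202)))) (XT.nd (nat_lit 188) (nat_lit 0) (nat_lit 0) (XT.nd (nat_lit 94) (nat_lit 924) (nat_lit 0) (XT.lf (nat_lit 84) (nat_lit 15217261358) (nat_lit 0) (nat_lit 2366490395) (nat_lit 1008) (nat_lit 781400797) (nat_lit 86) (nat_lit 5) (nat_lit 85) (nat_lit 5) (nat_lit 97) (nat_lit 5) (nat_lit 352)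 (nat_lit 335) (nat_lit 201)) (XT.lf (nat_lit 0) (nat_lit 27733110) (nat_lit 1008) (nat_lit 15726318845) (nat_lit 84) (nat_lit 2941979377) (nat_lit 74) (nat_lit 5) (nat_lit 86) (nat_lit 5) (nat_lit 75) (nat_lit 5) (nat_lit 353) (nat_lit 335) (nat_lit 200))) (XT.nd (nat_lit 94) (nat_lit 0) (nat_lit 0) (XT.lf (nat_lit 0) (nat_lit 896464976) (nat_lit 1008) (nat_lit 9730531349) (nat_lit 84) (nat_lit 8408395539) (nat_lit 74) (nat_lit 5) (nat_lit 86) (nat_lit 5) (nat_lit 75) (nat_lit 5) (nat_lit 354) (nat_lit 335) (nat_lit 199)) (XT.lf (nat_lit 0) (nat_lit 1785676635) (nat_lit 1008) (nat_lit 3554254189) (nat_lit 84) (nat_lit 14045585756) (nat_lit 74) (nat_lit 5) (nat_lit 86) (nat_lit 5) (nat_lit 75) (nat_lit 5) (nat_lit 355) (nat_lit 335) (nat_lit 198))))) (XT.nd (nat_lit 376) (nat_lit 420) (nat_lit 0) (XT.nd (nat_lit 188) (nat_lit 504) (nat_lit 0) (XT.nd (nat_lit 94) (nat_lit 0) (nat_lit 0) (XT.lf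 (nat_lit 0) (nat_lit 2726030690) (nat_lit 756) (nat_lit 16881239670) (nat_lit 84) (nat_lit 138536624) (nat_lit 66) (nat_lit 5) (nat_lit 75) (nat_lit 5) (nat_lit 67) (nat_lit 5) (nat_lit 356) (nat_lit 335) (nat_lit 197)) (XT.lf (nat_lit 0) (nat_lit 3781518649) (nat_lit 756) (nat_lit 10618795859) (nat_lit 84) (nat_lit 5714327835) (nat_lit 66) (nat_lit 5) (nat_lit 75) (nat_lit 5) (nat_lit 67) (nat_lit 5) (nat_lit 357) (nat_lit 335) (nat_lit 196))) (XT.nd (nat_lit 94) (nat_lit 504) (nat_lit 0) (XT.lf (nat_lit 0) (nat_lit 4863799901) (nat_lit 756) (nat_lit 4167459528) (nat_lit 84) (nat_lit 11463876075) (nat_lit 66) (nat_lit 5) (nat_lit 75) (nat_lit 5) (nat_lit 67) (nat_lit 5) (nat_lit 358) (nat_lit 335) (nat_lit 195)) (XT.lf (nat_lit 0) (nat_lit 2529751499) (nat_lit 504) (nat_lit 3469227196) (nat_lit 588) (nat_lit 14887884476) (nat_lit 60) (nat_lit 5) (nat_lit 66) (nat_lit 5) (nat_lit 67) (nat_lit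 5) (nat_lit 359) (nat_lit 335) (nat_lit 194)))) (XT.nd (nat_lit 188) (nat_lit 420) (nat_lit 0) (XT.nd (nat_lit 94) (nat_lit 0) (nat_lit 0) (XT.lf (nat_lit 0) (nat_lit 7230144158) (nat_lit 588) (nat_lit 11794630285) (nat_lit 84) (nat_lit 2264113067) (nat_lit 60) (nat_lit 5) (nat_lit 67) (nat_lit 5) (nat_lit 61) (nat_lit 5) (nat_lit 360) (nat_lit 335) (nat_lit 193)) (XT.lf (nat_lit 0) (nat_lit 8529506914) (nat_lit 588) (nat_lit 5069288247) (nat_lit 84) (nat_lit 8103685137) (nat_lit 60) (nat_lit 5) (nat_lit 67) (nat_lit 5) (nat_lit 61) (nat_lit 5) (nat_lit 361) (nat_lit 335) (nat_lit 192))) (XT.nd (nat_lit 94) (nat_lit 0) (nat_lit 0) (XT.lf (nat_lit 0) (nat_lit 1897835483) (nat_lit 420) (nat_lit 7984854222) (nat_lit 504) (nat_lit 12245820581) (nat_lit 55) (nat_lit 5) (nat_lit 60) (nat_lit 5) (nat_lit 61) (nat_lit 5) (nat_lit 362) (nat_lit 335) (nat_lit 191)) (XT.nd (nat_lit 94) (nat_lit 0)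 (nat_lit 0) (XT.lf (nat_lit 0) (nat_lit 9183515255) (nat_lit 420) (nat_lit 2142042356) (nat_lit 504) (nat_lit 11240744251) (nat_lit 55) (nat_lit 5) (nat_lit 60) (nat_lit 5) (nat_lit 61) (nat_lit 5) (nat_lit 363) (nat_lit 335) (nat_lit 190)) (XT.lf (nat_lit 0) (nat_lit 12846645187) (nat_lit 504) (nat_lit 6366058596) (nat_lit 84) (nat_lit 3803956430) (nat_lit 55) (nat_lit 5) (nat_lit 61) (nat_lit 5) (nat_lit 56) (nat_lit 5) (nat_lit 364) (nat_lit 335) (nat_lit 189))))))) (XT.nd (nat_lit 53110) (nat_lit 0) (nat_lit 2940) (XT.nd (nat_lit 376) (nat_lit 336) (nat_lit 0) (XT.nd (nat_lit 188) (nat_lit 0) (nat_lit 0) (XT.nd (nat_lit 94) (nat_lit 0) (nat_lit 0) (XT.lf (nat_lit 0) (nat_lit 858795325) (nat_lit 420) (nat_lit 13581651317) (nat_lit 504) (nat_lit 9039773114) (nat_lit 50) (nat_lit 5) (nat_lit 55) (nat_lit 5) (nat_lit 56) (nat_lit 5) (nat_lit 365) (nat_lit 335) (nat_lit 188)) (XT.lf (nat_lit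 0) (nat_lit 8437837871) (nat_lit 420) (nat_lit 7707498758) (nat_lit 504) (nat_lit 7810932383) (nat_lit 50) (nat_lit 5) (nat_lit 55) (nat_lit 5) (nat_lit 56) (nat_lit 5) (nat_lit 366) (nat_lit 335) (nat_lit 187))) (XT.nd (nat_lit 94) (nat_lit 0) (nat_lit 0) (XT.lf (nat_lit 0) (nat_lit 16247234280) (nat_lit 420) (nat_lit 1651219376) (nat_lit 504) (nat_lit 6548796023) (nat_lit 50) (nat_lit 5) (nat_lit 55) (nat_lit 5) (nat_lit 56) (nat_lit 5) (nat_lit 367) (nat_lit 335) (nat_lit 186)) (XT.lf (nat_lit 0) (nat_lit 19746993276) (nat_lit 504) (nat_lit 704917138) (nat_lit 84) (nat_lit 4500296585) (nat_lit 50) (nat_lit 5) (nat_lit 56) (nat_lit 5) (nat_lit 51) (nat_lit 5) (nat_lit 368) (nat_lit 335) (nat_lit 185)))) (XT.nd (nat_lit 188) (nat_lit 0) (nat_lit 0) (XT.nd (nat_lit 94) (nat_lit 0) (nat_lit 0) (XT.lf (nat_lit 0) (nat_lit 7145111098) (nat_lit 336) (nat_lit 14591144635) (nat_lit 420) (nat_lit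 3734005015) (nat_lit 46) (nat_lit 5) (nat_lit 50) (nat_lit 5) (nat_lit 51) (nat_lit 5) (nat_lit 369) (nat_lit 335) (nat_lit 184)) (XT.lf (nat_lit 0) (nat_lit 15248991474) (nat_lit 336) (nat_lit 8541288112) (nat_lit 420) (nat_lit 2214026510) (nat_lit 46) (nat_lit 5) (nat_lit 50) (nat_lit 5) (nat_lit 51) (nat_lit 5) (nat_lit 370) (nat_lit 335) (nat_lit 183))) (XT.nd (nat_lit 52452) (nat_lit 0) (nat_lit 2940) (XT.lf (nat_lit 0) (nat_lit 23599783112) (nat_lit 336) (nat_lit 2304059633) (nat_lit 420) (nat_lit 651219316) (nat_lit 46) (nat_lit 5) (nat_lit 50) (nat_lit 5) (nat_lit 51) (nat_lit 5) (nat_lit 371) (nat_lit 335) (nat_lit 182)) (XT.lf (nat_lit 0) (nat_lit 1666791946) (nat_lit 0) (nat_lit 1666791946) (nat_lit 924) (nat_lit 3847293605) (nat_lit 81) (nat_lit 5) (nat_lit 81) (nat_lit 3) (nat_lit 92) (nat_lit 3) (nat_lit 336) (nat_lit 336) (nat_lit 216))))) (XT.nd (nat_lit 376) (nat_lit 0)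 (nat_lit 84) (XT.nd (nat_lit 188) (nat_lit 0) (nat_lit 0) (XT.nd (nat_lit 94) (nat_lit 0) (nat_lit 0) (XT.lf (nat_lit 0) (nat_lit 7033289649) (nat_lit 924) (nat_lit 6435786051) (nat_lit 1008) (nat_lit 1105304263) (nat_lit 81) (nat_lit 5) (nat_lit 92) (nat_lit 3) (nat_lit 93) (nat_lit 5) (nat_lit 337) (nat_lit 336) (nat_lit 215)) (XT.lf (nat_lit 0) (nat_lit 7434768319) (nat_lit 924) (nat_lit 1740639318) (nat_lit 1008) (nat_lit 5617518433) (nat_lit 81) (nat_lit 5) (nat_lit 92) (nat_lit 3) (nat_lit 93) (nat_lit 5) (nat_lit 338) (nat_lit 336) (nat_lit 214))) (XT.nd (nat_lit 94) (nat_lit 0) (nat_lit 0) (XT.lf (nat_lit 84) (nat_lit 3158348715) (nat_lit 0) (nat_lit 4711890945) (nat_lit 1008) (nat_lit 7147411255) (nat_lit 82) (nat_lit 5) (nat_lit 81) (nat_lit 5) (nat_lit 93) (nat_lit 5) (nat_lit 339) (nat_lit 336) (nat_lit 213)) (XT.lf (nat_lit 84) (nat_lit 8240818164) (nat_lit 0) (nat_lit 87018516)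 (nat_lit 1008) (nat_lit 6921307743) (nat_lit 82) (nat_lit 5) (nat_lit 81) (nat_lit 5) (nat_lit 93) (nat_lit 5) (nat_lit 340) (nat_lit 336) (nat_lit 212)))) (XT.nd (nat_lit 188) (nat_lit 0) (nat_lit 0) (XT.nd (nat_lit 94) (nat_lit 0) (nat_lit 0) (XT.lf (nat_lit 0) (nat_lit 8836842768) (nat_lit 924) (nat_lit 2058932629) (nat_lit 1008) (nat_lit 4590952412) (nat_lit 82) (nat_lit 5) (nat_lit 93) (nat_lit 5) (nat_lit 94) (nat_lit 5) (nat_lit 341) (nat_lit 336) (nat_lit 211)) (XT.lf (nat_lit 84) (nat_lit 3100104270) (nat_lit 0) (nat_lit 6284229483) (nat_lit 1008) (nat_lit 6346704128) (nat_lit 83) (nat_lit 5) (nat_lit 82) (nat_lit 5) (nat_lit 94) (nat_lit 5) (nat_lit 342) (nat_lit 336) (nat_lit 210))) (XT.nd (nat_lit 94) (nat_lit 0) (nat_lit 84) (XT.lf (nat_lit 84) (nat_lit 8457415720) (nat_lit 0) (nat_lit 1504150694) (nat_lit 1008) (nat_lit 6021022810) (nat_lit 83) (nat_lit 5) (nat_lit 82) (nat_lit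 5) (nat_lit 94) (nat_lit 5) (nat_lit 343) (nat_lit 336) (nat_lit 209)) (XT.nd (nat_lit 94) (nat_lit 0) (nat_lit 0) (XT.lf (nat_lit 0) (nat_lit 10582234432) (nat_lit 924) (nat_lit 2300603567) (nat_lit 1008) (nat_lit 3358370484) (nat_lit 83) (nat_lit 5) (nat_lit 94) (nat_lit 5) (nat_lit 95) (nat_lit 5) (nat_lit 344) (nat_lit 336) (nat_lit 208)) (XT.lf (nat_lit 84) (nat_lit 3128235360) (nat_lit 0) (nat_lit 8132151112) (nat_lit 1008) (nat_lit 5246332672) (nat_lit 84) (nat_lit 5) (nat_lit 83) (nat_lit 5) (nat_lit 95) (nat_lit 5) (nat_lit 345) (nat_lit 336) (nat_lit 207))))))))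
noncomputable def xc114 : XT := (XT.nd (nat_lit 1598) (nat_lit 1176) (nat_lit 0) (XT.nd (nat_lit 752) (nat_lit 1932) (nat_lit 0) (XT.nd (nat_lit 376) (nat_lit 0) (nat_lit 84) (XT.nd (nat_lit 188) (nat_lit 0) (nat_lit 84) (XT.nd (nat_lit 94) (nat_lit 0) (nat_lit 84) (XT.lf (nat_lit 84) (nat_lit 8768858175) (nat_lit 0) (nat_lit 3206736895) (nat_lit 1008) (nat_lit 4804426468) (nat_lit 84) (nat_lit 5) (nat_lit 83) (nat_lit 5) (nat_lit 95) (nat_lit 5) (nat_lit 346) (nat_lit 336) (nat_lit 206)) (XT.lf (nat_lit 0) (nat_lit 12723825467) (nat_lit 924) (nat_lit 2501465184) (nat_lit 1008) (nat_lit 1836225506) (nat_lit 84) (nat_lit 5) (nat_lit 95) (nat_lit 5) (nat_lit 96) (nat_lit 5) (nat_lit 347) (nat_lit 336) (nat_lit 205))) (XT.nd (nat_lit 94) (nat_lit 0) (nat_lit 0) (XT.lf (nat_lit 84) (nat_lit 3205539461) (nat_lit 0) (nat_lit 10346826362) (nat_lit 1008) (nat_lit 3797655245) (nat_lit 85) (nat_lit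 5) (nat_lit 84) (nat_lit 5) (nat_lit 96) (nat_lit 5) (nat_lit 348) (nat_lit 336) (nat_lit 204)) (XT.lf (nat_lit 84) (nat_lit 9137263186) (nat_lit 0) (nat_lit 5288129110) (nat_lit 1008) (nat_lit 3221547373) (nat_lit 85) (nat_lit 5) (nat_lit 84) (nat_lit 5) (nat_lit 96) (nat_lit 5) (nat_lit 349) (nat_lit 336) (nat_lit 203)))) (XT.nd (nat_lit 188) (nat_lit 0) (nat_lit 84) (XT.nd (nat_lit 94) (nat_lit 0) (nat_lit 84) (XT.lf (nat_lit 84) (nat_lit 15247799725) (nat_lit 0) (nat_lit 70593825) (nat_lit 1008) (nat_lit 2634940247) (nat_lit 85) (nat_lit 5) (nat_lit 84) (nat_lit 5) (nat_lit 96) (nat_lit 5) (nat_lit 350) (nat_lit 336) (nat_lit 202)) (XT.lf (nat_lit 84) (nat_lit 3286897110) (nat_lit 0) (nat_lit 13030593506) (nat_lit 1008) (nat_lit 1949354479) (nat_lit 86) (nat_lit 5) (nat_lit 85) (nat_lit 5) (nat_lit 97) (nat_lit 5) (nat_lit 351) (nat_lit 336) (nat_lit 201))) (XT.nd (nat_lit 94) (nat_lit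 0) (nat_lit 0) (XT.lf (nat_lit 84) (nat_lit 9516564876) (nat_lit 0) (nat_lit 7853248367) (nat_lit 1008) (nat_lit 1219620393) (nat_lit 86) (nat_lit 5) (nat_lit 85) (nat_lit 5) (nat_lit 97) (nat_lit 5) (nat_lit 352) (nat_lit 336) (nat_lit 200)) (XT.lf (nat_lit 84) (nat_lit 15934359296) (nat_lit 0) (nat_lit 2513898696) (nat_lit 1008) (nat_lit 474012725) (nat_lit 86) (nat_lit 5) (nat_lit 85) (nat_lit 5) (nat_lit 97) (nat_lit 5) (nat_lit 353) (nat_lit 336) (nat_lit 199))))) (XT.nd (nat_lit 376) (nat_lit 504) (nat_lit 0) (XT.nd (nat_lit 188) (nat_lit 672) (nat_lit 0) (XT.nd (nat_lit 94) (nat_lit 0) (nat_lit 0) (XT.lf (nat_lit 0) (nat_lit 345595732) (nat_lit 1008) (nat_lit 15949468960) (nat_lit 84) (nat_lit 2968552891) (nat_lit 74) (nat_lit 5) (nat_lit 86) (nat_lit 5) (nat_lit 75) (nat_lit 5) (nat_lit 354) (nat_lit 336) (nat_lit 198)) (XT.lf (nat_lit 0) (nat_lit 1231726677) (nat_lit 1008) (nat_lit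 9775760973) (nat_lit 84) (nat_lit 8606371178) (nat_lit 74) (nat_lit 5) (nat_lit 86) (nat_lit 5) (nat_lit 75) (nat_lit 5) (nat_lit 355) (nat_lit 336) (nat_lit 197))) (XT.nd (nat_lit 94) (nat_lit 672) (nat_lit 0) (XT.lf (nat_lit 0) (nat_lit 2139258882) (nat_lit 1008) (nat_lit 3415729136) (nat_lit 84) (nat_lit 14420199086) (nat_lit 74) (nat_lit 5) (nat_lit 86) (nat_lit 5) (nat_lit 75) (nat_lit 5) (nat_lit 356) (nat_lit 336) (nat_lit 196)) (XT.lf (nat_lit 0) (nat_lit 3101787613) (nat_lit 756) (nat_lit 17146900596) (nat_lit 84) (nat_lit 98235771) (nat_lit 66) (nat_lit 5) (nat_lit 75) (nat_lit 5) (nat_lit 67) (nat_lit 5) (nat_lit 357) (nat_lit 336) (nat_lit 195)))) (XT.nd (nat_lit 188) (nat_lit 504) (nat_lit 0) (XT.nd (nat_lit 94) (nat_lit 0) (nat_lit 0) (XT.lf (nat_lit 0) (nat_lit 4181238425) (nat_lit 756) (nat_lit 10698068245) (nat_lit 84) (nat_lit 5848217402) (nat_lit 66) (nat_lit 5) (nat_lit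 75) (nat_lit 5) (nat_lit 67) (nat_lit 5) (nat_lit 358) (nat_lit 336) (nat_lit 194)) (XT.lf (nat_lit 0) (nat_lit 5288576435) (nat_lit 756) (nat_lit 4054254764) (nat_lit 84) (nat_lit 11777302213) (nat_lit 66) (nat_lit 5) (nat_lit 75) (nat_lit 5) (nat_lit 67) (nat_lit 5) (nat_lit 359) (nat_lit 336) (nat_lit 193))) (XT.nd (nat_lit 94) (nat_lit 0) (nat_lit 0) (XT.lf (nat_lit 0) (nat_lit 2848115763) (nat_lit 504) (nat_lit 3604971697) (nat_lit 588) (nat_lit 15071154629) (nat_lit 60) (nat_lit 5) (nat_lit 66) (nat_lit 5) (nat_lit 67) (nat_lit 5) (nat_lit 360) (nat_lit 336) (nat_lit 192)) (XT.nd (nat_lit 94) (nat_lit 0) (nat_lit 0) (XT.lf (nat_lit 0) (nat_lit 7714085313) (nat_lit 588) (nat_lit 11917455347) (nat_lit 84) (nat_lit 2307501036) (nat_lit 60) (nat_lit 5) (nat_lit 67) (nat_lit 5) (nat_lit 61) (nat_lit 5) (nat_lit 361) (nat_lit 336) (nat_lit 191)) (XT.lf (nat_lit 0) (nat_lit 9045916475) (nat_lit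 588) (nat_lit 4990928446) (nat_lit 84) (nat_lit 8328905645) (nat_lit 60) (nat_lit 5) (nat_lit 67) (nat_lit 5) (nat_lit 61) (nat_lit 5) (nat_lit 362) (nat_lit 336) (nat_lit 190))))))) (XT.nd (nat_lit 752) (nat_lit 0) (nat_lit 0) (XT.nd (nat_lit 376) (nat_lit 336) (nat_lit 0) (XT.nd (nat_lit 188) (nat_lit 420) (nat_lit 0) (XT.nd (nat_lit 94) (nat_lit 0) (nat_lit 0) (XT.lf (nat_lit 0) (nat_lit 2189791815) (nat_lit 420) (nat_lit 8245991776) (nat_lit 504) (nat_lit 12369418046) (nat_lit 55) (nat_lit 5) (nat_lit 60) (nat_lit 5) (nat_lit 61) (nat_lit 5) (nat_lit 363) (nat_lit 336) (nat_lit 189)) (XT.lf (nat_lit 0) (nat_lit 9694318129) (nat_lit 420) (nat_lit 2221643605) (nat_lit 504) (nat_lit 11340882421) (nat_lit 55) (nat_lit 5) (nat_lit 60) (nat_lit 5) (nat_lit 61) (nat_lit 5) (nat_lit 364) (nat_lit 336) (nat_lit 188))) (XT.nd (nat_lit 94) (nat_lit 420) (nat_lit 0) (XT.lf (nat_lit 0) (nat_lit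 13476880434) (nat_lit 504) (nat_lit 6335222233) (nat_lit 84) (nat_lit 3909335891) (nat_lit 55) (nat_lit 5) (nat_lit 61) (nat_lit 5) (nat_lit 56) (nat_lit 5) (nat_lit 365) (nat_lit 336) (nat_lit 187)) (XT.lf (nat_lit 0) (nat_lit 1111292000) (nat_lit 420) (nat_lit 14004063003) (nat_lit 504) (nat_lit 9084206717) (nat_lit 50) (nat_lit 5) (nat_lit 55) (nat_lit 5) (nat_lit 56) (nat_lit 5) (nat_lit 366) (nat_lit 336) (nat_lit 186)))) (XT.nd (nat_lit 188) (nat_lit 336) (nat_lit 0) (XT.nd (nat_lit 94) (nat_lit 0) (nat_lit 0) (XT.lf (nat_lit 0) (nat_lit 8918493309) (nat_lit 420) (nat_lit 7947770206) (nat_lit 504) (nat_lit 7824361914) (nat_lit 50) (nat_lit 5) (nat_lit 55) (nat_lit 5) (nat_lit 56) (nat_lit 5) (nat_lit 367) (nat_lit 336) (nat_lit 185)) (XT.lf (nat_lit 0) (nat_lit 16963393658) (nat_lit 420) (nat_lit 1703705904) (nat_lit 504) (nat_lit 6529976136) (nat_lit 50) (nat_lit 5) (nat_lit 55)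 (nat_lit 5) (nat_lit 56) (nat_lit 5) (nat_lit 368) (nat_lit 336) (nat_lit 184))) (XT.nd (nat_lit 94) (nat_lit 336) (nat_lit 0) (XT.lf (nat_lit 0) (nat_lit 20566503082) (nat_lit 504) (nat_lit 512854224) (nat_lit 84) (nat_lit 4638571482) (nat_lit 50) (nat_lit 5) (nat_lit 56) (nat_lit 5) (nat_lit 51) (nat_lit 5) (nat_lit 369) (nat_lit 336) (nat_lit 183)) (XT.lf (nat_lit 0) (nat_lit 7578359186) (nat_lit 336) (nat_lit 15034939403) (nat_lit 420) (nat_lit 3638912925) (nat_lit 46) (nat_lit 5) (nat_lit 50) (nat_lit 5) (nat_lit 51) (nat_lit 5) (nat_lit 370) (nat_lit 336) (nat_lit 182))))) (XT.nd (nat_lit 52828) (nat_lit 0) (nat_lit 2940) (XT.nd (nat_lit 52640) (nat_lit 0) (nat_lit 2940) (XT.nd (nat_lit 52546) (nat_lit 0) (nat_lit 2940) (XT.lf (nat_lit 0) (nat_lit 15927092987) (nat_lit 336) (nat_lit 8797793828) (nat_lit 420) (nat_lit 2078154789) (nat_lit 46) (nat_lit 5) (nat_lit 50) (nat_lit 5) (nat_lit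 51) (nat_lit 5) (nat_lit 371) (nat_lit 336) (nat_lit 181)) (XT.lf (nat_lit 0) (nat_lit 1843009866) (nat_lit 0) (nat_lit 1843009866) (nat_lit 924) (nat_lit 3707925212) (nat_lit 81) (nat_lit 5) (nat_lit 81) (nat_lit 3) (nat_lit 92) (nat_lit 3) (nat_lit 337) (nat_lit 337) (nat_lit 214))) (XT.nd (nat_lit 94) (nat_lit 0) (nat_lit 0) (XT.lf (nat_lit 0) (nat_lit 7732134848) (nat_lit 924) (nat_lit 6372787853) (nat_lit 1008) (nat_lit 902831512) (nat_lit 81) (nat_lit 5) (nat_lit 92) (nat_lit 3) (nat_lit 93) (nat_lit 5) (nat_lit 338) (nat_lit 337) (nat_lit 213)) (XT.lf (nat_lit 0) (nat_lit 8131602315) (nat_lit 924) (nat_lit 1539984622) (nat_lit 1008) (nat_lit 5562042510) (nat_lit 81) (nat_lit 5) (nat_lit 92) (nat_lit 3) (nat_lit 93) (nat_lit 5) (nat_lit 339) (nat_lit 337) (nat_lit 212)))) (XT.nd (nat_lit 188) (nat_lit 0) (nat_lit 84) (XT.nd (nat_lit 94) (nat_lit 0) (nat_lit 0) (XT.lf (nat_lit 84)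 (nat_lit 3508294297) (nat_lit 0) (nat_lit 5060756859) (nat_lit 1008) (nat_lit 6896729633) (nat_lit 82) (nat_lit 5) (nat_lit 81) (nat_lit 5) (nat_lit 93) (nat_lit 5) (nat_lit 340) (nat_lit 337) (nat_lit 211)) (XT.lf (nat_lit 84) (nat_lit 8740742084) (nat_lit 0) (nat_lit 286415696) (nat_lit 1008) (nat_lit 6677816517) (nat_lit 82) (nat_lit 5) (nat_lit 81) (nat_lit 5) (nat_lit 93) (nat_lit 5) (nat_lit 341) (nat_lit 337) (nat_lit 210))) (XT.nd (nat_lit 94) (nat_lit 0) (nat_lit 0) (XT.lf (nat_lit 0) (nat_lit 9536785746) (nat_lit 924) (nat_lit 1867373076) (nat_lit 1008) (nat_lit 4546330572) (nat_lit 82) (nat_lit 5) (nat_lit 93) (nat_lit 5) (nat_lit 94) (nat_lit 5) (nat_lit 342) (nat_lit 337) (nat_lit 209)) (XT.nd (nat_lit 94) (nat_lit 0) (nat_lit 0) (XT.lf (nat_lit 84) (nat_lit 3449008408) (nat_lit 0) (nat_lit 6641939411) (nat_lit 1008) (nat_lit 6111838435) (nat_lit 83) (nat_lit 5) (nat_lit 82)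 (nat_lit 5) (nat_lit 94) (nat_lit 5) (nat_lit 343) (nat_lit 337) (nat_lit 208)) (XT.lf (nat_lit 84) (nat_lit 8964795321) (nat_lit 0) (nat_lit 1708780155) (nat_lit 1008) (nat_lit 5789038706) (nat_lit 83) (nat_lit 5) (nat_lit 82) (nat_lit 5) (nat_lit 94) (nat_lit 5) (nat_lit 344) (nat_lit 337) (nat_lit 207))))))))
noncomputable def xc115 : XT := (XT.nd (nat_lit 1598) (nat_lit 840) (nat_lit 0) (XT.nd (nat_lit 752) (nat_lit 1932) (nat_lit 0) (XT.nd (nat_lit 376) (nat_lit 0) (nat_lit 84) (XT.nd (nat_lit 188) (nat_lit 0) (nat_lit 0) (XT.nd (nat_lit 94) (nat_lit 0) (nat_lit 0) (XT.lf (nat_lit 0) (nat_lit 11299840553) (nat_lit 924) (nat_lit 2117603743) (nat_lit 1008) (nat_lit 3312317577) (nat_lit 83) (nat_lit 5) (nat_lit 94) (nat_lit 5) (nat_lit 95) (nat_lit 5) (nat_lit 345) (nat_lit 337) (nat_lit 206)) (XT.lf (nat_lit 84) (nat_lit 3476954444) (nat_lit 0) (nat_lit 8512845037) (nat_lit 1008) (nat_lit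 5014075203) (nat_lit 84) (nat_lit 5) (nat_lit 83) (nat_lit 5) (nat_lit 95) (nat_lit 5) (nat_lit 346) (nat_lit 337) (nat_lit 205))) (XT.nd (nat_lit 94) (nat_lit 0) (nat_lit 84) (XT.lf (nat_lit 84) (nat_lit 9284867161) (nat_lit 0) (nat_lit 3430876332) (nat_lit 1008) (nat_lit 4570343531) (nat_lit 84) (nat_lit 5) (nat_lit 83) (nat_lit 5) (nat_lit 95) (nat_lit 5) (nat_lit 347) (nat_lit 337) (nat_lit 204)) (XT.lf (nat_lit 0) (nat_lit 13474876696) (nat_lit 924) (nat_lit 2327287124) (nat_lit 1008) (nat_lit 1774605772) (nat_lit 84) (nat_lit 5) (nat_lit 95) (nat_lit 5) (nat_lit 96) (nat_lit 5) (nat_lit 348) (nat_lit 337) (nat_lit 203)))) (XT.nd (nat_lit 188) (nat_lit 0) (nat_lit 0) (XT.nd (nat_lit 94) (nat_lit 0) (nat_lit 0) (XT.lf (nat_lit 84) (nat_lit 3554086190) (nat_lit 0) (nat_lit 10766764868) (nat_lit 1008) (nat_lit 3553701004) (nat_lit 85) (nat_lit 5) (nat_lit 84) (nat_lit 5) (nat_lit 96)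 (nat_lit 5) (nat_lit 349) (nat_lit 337) (nat_lit 202)) (XT.lf (nat_lit 84) (nat_lit 9662201183) (nat_lit 0) (nat_lit 5548265660) (nat_lit 1008) (nat_lit 2970608791) (nat_lit 85) (nat_lit 5) (nat_lit 84) (nat_lit 5) (nat_lit 96) (nat_lit 5) (nat_lit 350) (nat_lit 337) (nat_lit 201))) (XT.nd (nat_lit 94) (nat_lit 0) (nat_lit 84) (XT.lf (nat_lit 84) (nat_lit 15954897460) (nat_lit 0) (nat_lit 166094114) (nat_lit 1008) (nat_lit 2376364859) (nat_lit 85) (nat_lit 5) (nat_lit 84) (nat_lit 5) (nat_lit 96) (nat_lit 5) (nat_lit 351) (nat_lit 337) (nat_lit 200)) (XT.lf (nat_lit 84) (nat_lit 3634153757) (nat_lit 0) (nat_lit 13508589003) (nat_lit 1008) (nat_lit 1678172971) (nat_lit 86) (nat_lit 5) (nat_lit 85) (nat_lit 5) (nat_lit 97) (nat_lit 5) (nat_lit 352) (nat_lit 337) (nat_lit 199))))) (XT.nd (nat_lit 376) (nat_lit 1176) (nat_lit 0) (XT.nd (nat_lit 188) (nat_lit 924) (nat_lit 0) (XT.nd (nat_lit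 94) (nat_lit 0) (nat_lit 0) (XT.lf (nat_lit 84) (nat_lit 10049563679) (nat_lit 0) (nat_lit 8168519724) (nat_lit 1008) (nat_lit 935787988) (nat_lit 86) (nat_lit 5) (nat_lit 85) (nat_lit 5) (nat_lit 97) (nat_lit 5) (nat_lit 353) (nat_lit 337) (nat_lit 198)) (XT.lf (nat_lit 84) (nat_lit 16659154010) (nat_lit 0) (nat_lit 2661490717) (nat_lit 1008) (nat_lit 176737539) (nat_lit 86) (nat_lit 5) (nat_lit 85) (nat_lit 5) (nat_lit 97) (nat_lit 5) (nat_lit 354) (nat_lit 337) (nat_lit 197))) (XT.nd (nat_lit 94) (nat_lit 0) (nat_lit 0) (XT.lf (nat_lit 0) (nat_lit 654535472) (nat_lit 1008) (nat_lit 16195195565) (nat_lit 84) (nat_lit 2999778203) (nat_lit 74) (nat_lit 5) (nat_lit 86) (nat_lit 5) (nat_lit 75) (nat_lit 5) (nat_lit 355) (nat_lit 337) (nat_lit 196)) (XT.lf (nat_lit 0) (nat_lit 1559169439) (nat_lit 1008) (nat_lit 9837580725) (nat_lit 84) (nat_lit 8814196979) (nat_lit 74) (nat_lit 5) (nat_lit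 86) (nat_lit 5) (nat_lit 75) (nat_lit 5) (nat_lit 356) (nat_lit 337) (nat_lit 195)))) (XT.nd (nat_lit 188) (nat_lit 504) (nat_lit 0) (XT.nd (nat_lit 94) (nat_lit 672) (nat_lit 0) (XT.lf (nat_lit 0) (nat_lit 2486137727) (nat_lit 1008) (nat_lit 3287641145) (nat_lit 84) (nat_lit 14810026708) (nat_lit 74) (nat_lit 5) (nat_lit 86) (nat_lit 5) (nat_lit 75) (nat_lit 5) (nat_lit 357) (nat_lit 337) (nat_lit 194)) (XT.lf (nat_lit 0) (nat_lit 3471941766) (nat_lit 756) (nat_lit 17436058505) (nat_lit 84) (nat_lit 59327059) (nat_lit 66) (nat_lit 5) (nat_lit 75) (nat_lit 5) (nat_lit 67) (nat_lit 5) (nat_lit 358) (nat_lit 337) (nat_lit 193))) (XT.nd (nat_lit 94) (nat_lit 504) (nat_lit 0) (XT.lf (nat_lit 0) (nat_lit 4576616988) (nat_lit 756) (nat_lit 10794600689) (nat_lit 84) (nat_lit 5988819590) (nat_lit 66) (nat_lit 5) (nat_lit 75) (nat_lit 5) (nat_lit 67) (nat_lit 5) (nat_lit 359) (nat_lit 337) (nat_lit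 192)) (XT.nd (nat_lit 94) (nat_lit 504) (nat_lit 0) (XT.lf (nat_lit 0) (nat_lit 5710291627) (nat_lit 756) (nat_lit 3951898183) (nat_lit 84) (nat_lit 12102929569) (nat_lit 66) (nat_lit 5) (nat_lit 75) (nat_lit 5) (nat_lit 67) (nat_lit 5) (nat_lit 360) (nat_lit 337) (nat_lit 191)) (XT.lf (nat_lit 0) (nat_lit 3162137145) (nat_lit 504) (nat_lit 3743254035) (nat_lit 588) (nat_lit 15276587634) (nat_lit 60) (nat_lit 5) (nat_lit 66) (nat_lit 5) (nat_lit 67) (nat_lit 5) (nat_lit 361) (nat_lit 337) (nat_lit 190))))))) (XT.nd (nat_lit 53486) (nat_lit 0) (nat_lit 2604) (XT.nd (nat_lit 376) (nat_lit 420) (nat_lit 0) (XT.nd (nat_lit 188) (nat_lit 420) (nat_lit 0) (XT.nd (nat_lit 94) (nat_lit 0) (nat_lit 0) (XT.lf (nat_lit 0) (nat_lit 8197639849) (nat_lit 588) (nat_lit 12058469949) (nat_lit 84) (nat_lit 2353821414) (nat_lit 60) (nat_lit 5) (nat_lit 67) (nat_lit 5) (nat_lit 61) (nat_lit 5) (nat_lit 362)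 (nat_lit 337) (nat_lit 189)) (XT.lf (nat_lit 0) (nat_lit 9563408645) (nat_lit 588) (nat_lit 4924089018) (nat_lit 84) (nat_lit 8562647642) (nat_lit 60) (nat_lit 5) (nat_lit 67) (nat_lit 5) (nat_lit 61) (nat_lit 5) (nat_lit 363) (nat_lit 337) (nat_lit 188))) (XT.nd (nat_lit 94) (nat_lit 0) (nat_lit 0) (XT.lf (nat_lit 0) (nat_lit 2476990494) (nat_lit 420) (nat_lit 8514418623) (nat_lit 504) (nat_lit 12512011711) (nat_lit 55) (nat_lit 5) (nat_lit 60) (nat_lit 5) (nat_lit 61) (nat_lit 5) (nat_lit 364) (nat_lit 337) (nat_lit 187)) (XT.lf (nat_lit 0) (nat_lit 10207562779) (nat_lit 420) (nat_lit 2302930757) (nat_lit 504) (nat_lit 11458833584) (nat_lit 55) (nat_lit 5) (nat_lit 60) (nat_lit 5) (nat_lit 61) (nat_lit 5) (nat_lit 365) (nat_lit 337) (nat_lit 186)))) (XT.nd (nat_lit 188) (nat_lit 0) (nat_lit 0) (XT.nd (nat_lit 94) (nat_lit 420) (nat_lit 0) (XT.lf (nat_lit 0) (nat_lit 14112911853) (nat_lit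 504) (nat_lit 6316945682) (nat_lit 84) (nat_lit 4018725069) (nat_lit 55) (nat_lit 5) (nat_lit 61) (nat_lit 5) (nat_lit 56) (nat_lit 5) (nat_lit 366) (nat_lit 337) (nat_lit 185)) (XT.lf (nat_lit 0) (nat_lit 1358237168) (nat_lit 420) (nat_lit 14439487683) (nat_lit 504) (nat_lit 9143984562) (nat_lit 50) (nat_lit 5) (nat_lit 55) (nat_lit 5) (nat_lit 56) (nat_lit 5) (nat_lit 367) (nat_lit 337) (nat_lit 184))) (XT.nd (nat_lit 94) (nat_lit 0) (nat_lit 0) (XT.lf (nat_lit 0) (nat_lit 9401072436) (nat_lit 420) (nat_lit 8195410759) (nat_lit 504) (nat_lit 7851754609) (nat_lit 50) (nat_lit 5) (nat_lit 55) (nat_lit 5) (nat_lit 56) (nat_lit 5) (nat_lit 368) (nat_lit 337) (nat_lit 183)) (XT.nd (nat_lit 94) (nat_lit 0) (nat_lit 0) (XT.lf (nat_lit 0) (nat_lit 17689167527) (nat_lit 420) (nat_lit 1757742587) (nat_lit 504) (nat_lit 6523712356) (nat_lit 50) (nat_lit 5) (nat_lit 55) (nat_lit 5) (nat_lit 56) (nat_lit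 5) (nat_lit 369) (nat_lit 337) (nat_lit 182)) (XT.lf (nat_lit 0) (nat_lit 21399135818) (nat_lit 504) (nat_lit 327507933) (nat_lit 84) (nat_lit 4781206011) (nat_lit 50) (nat_lit 5) (nat_lit 56) (nat_lit 5) (nat_lit 51) (nat_lit 5) (nat_lit 370) (nat_lit 337) (nat_lit 181)))))) (XT.nd (nat_lit 376) (nat_lit 0) (nat_lit 0) (XT.nd (nat_lit 188) (nat_lit 0) (nat_lit 0) (XT.nd (nat_lit 94) (nat_lit 0) (nat_lit 0) (XT.lf (nat_lit 0) (nat_lit 2017313389) (nat_lit 0) (nat_lit 2017313389) (nat_lit 924) (nat_lit 3579555763) (nat_lit 81) (nat_lit 5) (nat_lit 81) (nat_lit 3) (nat_lit 92) (nat_lit 3) (nat_lit 338) (nat_lit 338) (nat_lit 212)) (XT.lf (nat_lit 0) (nat_lit 8424164859) (nat_lit 924) (nat_lit 6323385484) (nat_lit 1008) (nat_lit 708104453) (nat_lit 81) (nat_lit 5) (nat_lit 92) (nat_lit 3) (nat_lit 93) (nat_lit 5) (nat_lit 339) (nat_lit 338) (nat_lit 211))) (XT.nd (nat_lit 94) (nat_lit 0) (nat_lit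 0) (XT.lf (nat_lit 0) (nat_lit 8822415091) (nat_lit 924) (nat_lit 1348190884) (nat_lit 1008) (nat_lit 5518447559) (nat_lit 81) (nat_lit 5) (nat_lit 92) (nat_lit 3) (nat_lit 93) (nat_lit 5) (nat_lit 340) (nat_lit 338) (nat_lit 210)) (XT.lf (nat_lit 84) (nat_lit 3854159623) (nat_lit 0) (nat_lit 5408425584) (nat_lit 1008) (nat_lit 6666249138) (nat_lit 82) (nat_lit 5) (nat_lit 81) (nat_lit 5) (nat_lit 93) (nat_lit 5) (nat_lit 341) (nat_lit 338) (nat_lit 209)))) (XT.nd (nat_lit 188) (nat_lit 0) (nat_lit 84) (XT.nd (nat_lit 94) (nat_lit 0) (nat_lit 84) (XT.lf (nat_lit 84) (nat_lit 9241683946) (nat_lit 0) (nat_lit 480343335) (nat_lit 1008) (nat_lit 6453908253) (nat_lit 82) (nat_lit 5) (nat_lit 81) (nat_lit 5) (nat_lit 93) (nat_lit 5) (nat_lit 342) (nat_lit 338) (nat_lit 208)) (XT.lf (nat_lit 0) (nat_lit 10233194196) (nat_lit 924) (nat_lit 1685002155) (nat_lit 1008) (nat_lit 4511398311) (nat_lit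 82) (nat_lit 5) (nat_lit 93) (nat_lit 5) (nat_lit 94) (nat_lit 5) (nat_lit 343) (nat_lit 338) (nat_lit 207))) (XT.nd (nat_lit 94) (nat_lit 0) (nat_lit 0) (XT.lf (nat_lit 84) (nat_lit 3793754744) (nat_lit 0) (nat_lit 7001089571) (nat_lit 1008) (nat_lit 5895257113) (nat_lit 83) (nat_lit 5) (nat_lit 82) (nat_lit 5) (nat_lit 94) (nat_lit 5) (nat_lit 344) (nat_lit 338) (nat_lit 206)) (XT.nd (nat_lit 94) (nat_lit 0) (nat_lit 84) (XT.lf (nat_lit 84) (nat_lit 9473380092) (nat_lit 0) (nat_lit 1910394472) (nat_lit 1008) (nat_lit 5574659611) (nat_lit 83) (nat_lit 5) (nat_lit 82) (nat_lit 5) (nat_lit 94) (nat_lit 5) (nat_lit 345) (nat_lit 338) (nat_lit 205)) (XT.lf (nat_lit 0) (nat_lit 12016618344) (nat_lit 924) (nat_lit 1943994647) (nat_lit 1008) (nat_lit 3273731407) (nat_lit 83) (nat_lit 5) (nat_lit 94) (nat_lit 5) (nat_lit 95) (nat_lit 5) (nat_lit 346) (nat_lit 338) (nat_lit 204))))))))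
noncomputable def xc116 : XT := (XT.nd (nat_lit 1598) (nat_lit 840) (nat_lit 0) (XT.nd (nat_lit 752) (nat_lit 1932) (nat_lit 0) (XT.nd (nat_lit 376) (nat_lit 0) (nat_lit 84) (XT.nd (nat_lit 188) (nat_lit 0) (nat_lit 84) (XT.nd (nat_lit 94) (nat_lit 0) (nat_lit 0) (XT.lf (nat_lit 84) (nat_lit 3821572604) (nat_lit 0) (nat_lit 8897723440) (nat_lit 1008) (nat_lit 4798007986) (nat_lit 84) (nat_lit 5) (nat_lit 83) (nat_lit 5) (nat_lit 95) (nat_lit 5) (nat_lit 347) (nat_lit 338) (nat_lit 203)) (XT.lf (nat_lit 84) (nat_lit 9802409558) (nat_lit 0) (nat_lit 3654576084) (nat_lit 1008) (nat_lit 4351690962) (nat_lit 84) (nat_lit 5) (nat_lit 83) (nat_lit 5) (nat_lit 95) (nat_lit 5) (nat_lit 348) (nat_lit 338) (nat_lit 202))) (XT.nd (nat_lit 94) (nat_lit 0) (nat_lit 0) (XT.lf (nat_lit 0) (nat_lit 14228087736) (nat_lit 924) (nat_lit 2162619558) (nat_lit 1008) (nat_lit 1718097315) (nat_lit 84) (nat_lit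 5) (nat_lit 95) (nat_lit 5) (nat_lit 96) (nat_lit 5) (nat_lit 349) (nat_lit 338) (nat_lit 201)) (XT.lf (nat_lit 84) (nat_lit 3898678806) (nat_lit 0) (nat_lit 11193846459) (nat_lit 1008) (nat_lit 3323607200) (nat_lit 85) (nat_lit 5) (nat_lit 84) (nat_lit 5) (nat_lit 96) (nat_lit 5) (nat_lit 350) (nat_lit 338) (nat_lit 200)))) (XT.nd (nat_lit 188) (nat_lit 0) (nat_lit 84) (XT.nd (nat_lit 94) (nat_lit 0) (nat_lit 0) (XT.lf (nat_lit 84) (nat_lit 10189096970) (nat_lit 0) (nat_lit 5810768084) (nat_lit 1008) (nat_lit 2732669986) (nat_lit 85) (nat_lit 5) (nat_lit 84) (nat_lit 5) (nat_lit 96) (nat_lit 5) (nat_lit 351) (nat_lit 338) (nat_lit 199)) (XT.lf (nat_lit 84) (nat_lit 16670030368) (nat_lit 0) (nat_lit 259027889) (nat_lit 1008) (nat_lit 2129927729) (nat_lit 85) (nat_lit 5) (nat_lit 84) (nat_lit 5) (nat_lit 96) (nat_lit 5) (nat_lit 352) (nat_lit 338) (nat_lit 198))) (XT.nd (nat_lit 94) (nat_lit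 0) (nat_lit 0) (XT.lf (nat_lit 84) (nat_lit 3977642099) (nat_lit 0) (nat_lit 13997016424) (nat_lit 1008) (nat_lit 1418226753) (nat_lit 86) (nat_lit 5) (nat_lit 85) (nat_lit 5) (nat_lit 97) (nat_lit 5) (nat_lit 353) (nat_lit 338) (nat_lit 197)) (XT.lf (nat_lit 84) (nat_lit 10584989170) (nat_lit 0) (nat_lit 8489310433) (nat_lit 1008) (nat_lit 662208104) (nat_lit 86) (nat_lit 5) (nat_lit 85) (nat_lit 5) (nat_lit 97) (nat_lit 5) (nat_lit 354) (nat_lit 338) (nat_lit 196))))) (XT.nd (nat_lit 376) (nat_lit 1092) (nat_lit 0) (XT.nd (nat_lit 188) (nat_lit 0) (nat_lit 84) (XT.nd (nat_lit 94) (nat_lit 0) (nat_lit 84) (XT.lf (nat_lit 0) (nat_lit 109032747) (nat_lit 1008) (nat_lit 2699361116) (nat_lit 1092) (nat_lit 17282574104) (nat_lit 73) (nat_lit 5) (nat_lit 85) (nat_lit 5) (nat_lit 86) (nat_lit 5) (nat_lit 355) (nat_lit 338) (nat_lit 195)) (XT.lf (nat_lit 0) (nat_lit 955387891) (nat_lit 1008) (nat_lit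 16463271033) (nat_lit 84) (nat_lit 3035572777) (nat_lit 74) (nat_lit 5) (nat_lit 86) (nat_lit 5) (nat_lit 75) (nat_lit 5) (nat_lit 356) (nat_lit 338) (nat_lit 194))) (XT.nd (nat_lit 94) (nat_lit 0) (nat_lit 0) (XT.lf (nat_lit 0) (nat_lit 1879629607) (nat_lit 1008) (nat_lit 9915605286) (nat_lit 84) (nat_lit 9031958375) (nat_lit 74) (nat_lit 5) (nat_lit 86) (nat_lit 5) (nat_lit 75) (nat_lit 5) (nat_lit 357) (nat_lit 338) (nat_lit 193)) (XT.lf (nat_lit 0) (nat_lit 2827151658) (nat_lit 1008) (nat_lit 3169441200) (nat_lit 84) (nat_lit 15215326953) (nat_lit 74) (nat_lit 5) (nat_lit 86) (nat_lit 5) (nat_lit 75) (nat_lit 5) (nat_lit 358) (nat_lit 338) (nat_lit 192)))) (XT.nd (nat_lit 188) (nat_lit 504) (nat_lit 0) (XT.nd (nat_lit 94) (nat_lit 0) (nat_lit 0) (XT.lf (nat_lit 0) (nat_lit 3837341284) (nat_lit 756) (nat_lit 17748537840) (nat_lit 84) (nat_lit 21697185) (nat_lit 66) (nat_lit 5) (nat_lit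 75) (nat_lit 5) (nat_lit 67) (nat_lit 5) (nat_lit 359) (nat_lit 338) (nat_lit 191)) (XT.lf (nat_lit 0) (nat_lit 4968510856) (nat_lit 756) (nat_lit 10908051469) (nat_lit 84) (nat_lit 6136190735) (nat_lit 66) (nat_lit 5) (nat_lit 75) (nat_lit 5) (nat_lit 67) (nat_lit 5) (nat_lit 360) (nat_lit 338) (nat_lit 190))) (XT.nd (nat_lit 94) (nat_lit 504) (nat_lit 0) (XT.lf (nat_lit 0) (nat_lit 6129811872) (nat_lit 756) (nat_lit 3859875658) (nat_lit 84) (nat_lit 12440989190) (nat_lit 66) (nat_lit 5) (nat_lit 75) (nat_lit 5) (nat_lit 67) (nat_lit 5) (nat_lit 361) (nat_lit 338) (nat_lit 189)) (XT.nd (nat_lit 94) (nat_lit 0) (nat_lit 0) (XT.lf (nat_lit 0) (nat_lit 3472522828) (nat_lit 504) (nat_lit 3884251814) (nat_lit 588) (nat_lit 15503894313) (nat_lit 60) (nat_lit 5) (nat_lit 66) (nat_lit 5) (nat_lit 67) (nat_lit 5) (nat_lit 362) (nat_lit 338) (nat_lit 188)) (XT.lf (nat_lit 0) (nat_lit 8681707286)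 (nat_lit 588) (nat_lit 12217386096) (nat_lit 84) (nat_lit 2403071082) (nat_lit 60) (nat_lit 5) (nat_lit 67) (nat_lit 5) (nat_lit 61) (nat_lit 5) (nat_lit 363) (nat_lit 338) (nat_lit 187))))))) (XT.nd (nat_lit 53486) (nat_lit 0) (nat_lit 2604) (XT.nd (nat_lit 376) (nat_lit 420) (nat_lit 0) (XT.nd (nat_lit 188) (nat_lit 0) (nat_lit 0) (XT.nd (nat_lit 94) (nat_lit 420) (nat_lit 0) (XT.lf (nat_lit 0) (nat_lit 10082901085) (nat_lit 588) (nat_lit 4868300840) (nat_lit 84) (nat_lit 8805084098) (nat_lit 60) (nat_lit 5) (nat_lit 67) (nat_lit 5) (nat_lit 61) (nat_lit 5) (nat_lit 364) (nat_lit 338) (nat_lit 186)) (XT.lf (nat_lit 0) (nat_lit 2760101920) (nat_lit 420) (nat_lit 8790408471) (nat_lit 504) (nat_lit 12673292229) (nat_lit 55) (nat_lit 5) (nat_lit 60) (nat_lit 5) (nat_lit 61) (nat_lit 5) (nat_lit 365) (nat_lit 338) (nat_lit 185))) (XT.nd (nat_lit 94) (nat_lit 0) (nat_lit 0) (XT.lf (nat_lit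 0) (nat_lit 10724118196) (nat_lit 420) (nat_lit 2386002378) (nat_lit 504) (nat_lit 11594278721) (nat_lit 55) (nat_lit 5) (nat_lit 60) (nat_lit 5) (nat_lit 61) (nat_lit 5) (nat_lit 366) (nat_lit 338) (nat_lit 184)) (XT.lf (nat_lit 0) (nat_lit 14755733036) (nat_lit 504) (nat_lit 6310817737) (nat_lit 84) (nat_lit 4132204261) (nat_lit 55) (nat_lit 5) (nat_lit 61) (nat_lit 5) (nat_lit 56) (nat_lit 5) (nat_lit 367) (nat_lit 338) (nat_lit 183)))) (XT.nd (nat_lit 188) (nat_lit 0) (nat_lit 0) (XT.nd (nat_lit 94) (nat_lit 0) (nat_lit 0) (XT.lf (nat_lit 0) (nat_lit 1600251186) (nat_lit 420) (nat_lit 14888333602) (nat_lit 504) (nat_lit 9218755042) (nat_lit 50) (nat_lit 5) (nat_lit 55) (nat_lit 5) (nat_lit 56) (nat_lit 5) (nat_lit 368) (nat_lit 338) (nat_lit 182)) (XT.lf (nat_lit 0) (nat_lit 9886403514) (nat_lit 420) (nat_lit 8450653556) (nat_lit 504) (nat_lit 7892740921) (nat_lit 50) (nat_lit 5) (nat_lit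 55) (nat_lit 5) (nat_lit 56) (nat_lit 5) (nat_lit 369) (nat_lit 338) (nat_lit 181))) (XT.nd (nat_lit 52828) (nat_lit 0) (nat_lit 2604) (XT.lf (nat_lit 0) (nat_lit 18425599453) (nat_lit 420) (nat_lit 1813382039) (nat_lit 504) (nat_lit 6529615644) (nat_lit 50) (nat_lit 5) (nat_lit 55) (nat_lit 5) (nat_lit 56) (nat_lit 5) (nat_lit 370) (nat_lit 338) (nat_lit 180)) (XT.lf (nat_lit 0) (nat_lit 2190080127) (nat_lit 0) (nat_lit 2190080127) (nat_lit 924) (nat_lit 3461618832) (nat_lit 81) (nat_lit 5) (nat_lit 81) (nat_lit 3) (nat_lit 92) (nat_lit 3) (nat_lit 339) (nat_lit 339) (nat_lit 210))))) (XT.nd (nat_lit 376) (nat_lit 0) (nat_lit 84) (XT.nd (nat_lit 188) (nat_lit 0) (nat_lit 0) (XT.nd (nat_lit 94) (nat_lit 0) (nat_lit 0) (XT.lf (nat_lit 0) (nat_lit 9110855292) (nat_lit 924) (nat_lit 6287079433) (nat_lit 1008) (nat_lit 520532637) (nat_lit 81) (nat_lit 5) (nat_lit 92) (nat_lit 3) (nat_lit 93)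 (nat_lit 5) (nat_lit 340) (nat_lit 339) (nat_lit 209)) (XT.lf (nat_lit 0) (nat_lit 9508656150) (nat_lit 924) (nat_lit 1164639505) (nat_lit 1008) (nat_lit 5486296297) (nat_lit 81) (nat_lit 5) (nat_lit 92) (nat_lit 3) (nat_lit 93) (nat_lit 5) (nat_lit 341) (nat_lit 339) (nat_lit 208))) (XT.nd (nat_lit 94) (nat_lit 0) (nat_lit 0) (XT.lf (nat_lit 84) (nat_lit 4196702449) (nat_lit 0) (nat_lit 5755571503) (nat_lit 1008) (nat_lit 6454939160) (nat_lit 82) (nat_lit 5) (nat_lit 81) (nat_lit 5) (nat_lit 93) (nat_lit 5) (nat_lit 342) (nat_lit 339) (nat_lit 207)) (XT.lf (nat_lit 84) (nat_lit 9744532965) (nat_lit 0) (nat_lit 669321975) (nat_lit 1008) (nat_lit 6248582996) (nat_lit 82) (nat_lit 5) (nat_lit 81) (nat_lit 5) (nat_lit 93) (nat_lit 5) (nat_lit 343) (nat_lit 339) (nat_lit 206)))) (XT.nd (nat_lit 188) (nat_lit 0) (nat_lit 0) (XT.nd (nat_lit 94) (nat_lit 0) (nat_lit 0) (XT.lf (nat_lit 0) (nat_lit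 10927453128) (nat_lit 924) (nat_lit 1511208716) (nat_lit 1008) (nat_lit 4485800144) (nat_lit 82) (nat_lit 5) (nat_lit 93) (nat_lit 5) (nat_lit 94) (nat_lit 5) (nat_lit 344) (nat_lit 339) (nat_lit 205)) (XT.lf (nat_lit 84) (nat_lit 4135101312) (nat_lit 0) (nat_lit 7362296123) (nat_lit 1008) (nat_lit 5696012707) (nat_lit 83) (nat_lit 5) (nat_lit 82) (nat_lit 5) (nat_lit 94) (nat_lit 5) (nat_lit 345) (nat_lit 339) (nat_lit 204))) (XT.nd (nat_lit 94) (nat_lit 0) (nat_lit 84) (XT.lf (nat_lit 84) (nat_lit 9984067649) (nat_lit 0) (nat_lit 2109454505) (nat_lit 1008) (nat_lit 5376962539) (nat_lit 83) (nat_lit 5) (nat_lit 82) (nat_lit 5) (nat_lit 94) (nat_lit 5) (nat_lit 346) (nat_lit 339) (nat_lit 203)) (XT.nd (nat_lit 94) (nat_lit 0) (nat_lit 0) (XT.lf (nat_lit 0) (nat_lit 12733908848) (nat_lit 924) (nat_lit 1779175141) (nat_lit 1008) (nat_lit 3242316611) (nat_lit 83) (nat_lit 5) (nat_lit 94) (nat_lit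 5) (nat_lit 95) (nat_lit 5) (nat_lit 347) (nat_lit 339) (nat_lit 202)) (XT.lf (nat_lit 84) (nat_lit 4162845928) (nat_lit 0) (nat_lit 9287367208) (nat_lit 1008) (nat_lit 4597247477) (nat_lit 84) (nat_lit 5) (nat_lit 83) (nat_lit 5) (nat_lit 95) (nat_lit 5) (nat_lit 348) (nat_lit 339) (nat_lit 201))))))))
noncomputable def xc117 : XT := (XT.nd (nat_lit 1598) (nat_lit 840) (nat_lit 0) (XT.nd (nat_lit 752) (nat_lit 1092) (nat_lit 0) (XT.nd (nat_lit 376) (nat_lit 840) (nat_lit 0) (XT.nd (nat_lit 188) (nat_lit 0) (nat_lit 84) (XT.nd (nat_lit 94) (nat_lit 0) (nat_lit 84) (XT.lf (nat_lit 84) (nat_lit 10322389563) (nat_lit 0) (nat_lit 3878260126) (nat_lit 1008) (nat_lit 4147603318) (nat_lit 84) (nat_lit 5) (nat_lit 83) (nat_lit 5) (nat_lit 95) (nat_lit 5) (nat_lit 349) (nat_lit 339) (nat_lit 200)) (XT.lf (nat_lit 0) (nat_lit 14984776680) (nat_lit 924) (nat_lit 2006874164) (nat_lit 1008) (nat_lit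 1666442690) (nat_lit 84) (nat_lit 5) (nat_lit 95) (nat_lit 5) (nat_lit 96) (nat_lit 5) (nat_lit 350) (nat_lit 339) (nat_lit 199))) (XT.nd (nat_lit 94) (nat_lit 0) (nat_lit 0) (XT.lf (nat_lit 84) (nat_lit 4240068935) (nat_lit 0) (nat_lit 11628640557) (nat_lit 1008) (nat_lit 3106534583) (nat_lit 85) (nat_lit 5) (nat_lit 84) (nat_lit 5) (nat_lit 96) (nat_lit 5) (nat_lit 351) (nat_lit 339) (nat_lit 198)) (XT.lf (nat_lit 84) (nat_lit 10718859156) (nat_lit 0) (nat_lit 6076047246) (nat_lit 1008) (nat_lit 2506903182) (nat_lit 85) (nat_lit 5) (nat_lit 84) (nat_lit 5) (nat_lit 96) (nat_lit 5) (nat_lit 352) (nat_lit 339) (nat_lit 197)))) (XT.nd (nat_lit 188) (nat_lit 924) (nat_lit 0) (XT.nd (nat_lit 94) (nat_lit 0) (nat_lit 84) (XT.lf (nat_lit 84) (nat_lit 17394269961) (nat_lit 0) (nat_lit 349642964) (nat_lit 1008) (nat_lit 1894811383) (nat_lit 85) (nat_lit 5) (nat_lit 84) (nat_lit 5) (nat_lit 96)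 (nat_lit 5) (nat_lit 353) (nat_lit 339) (nat_lit 196)) (XT.lf (nat_lit 84) (nat_lit 4318106149) (nat_lit 0) (nat_lit 14496458945) (nat_lit 1008) (nat_lit 1168700694) (nat_lit 86) (nat_lit 5) (nat_lit 85) (nat_lit 5) (nat_lit 97) (nat_lit 5) (nat_lit 354) (nat_lit 339) (nat_lit 195))) (XT.nd (nat_lit 94) (nat_lit 1008) (nat_lit 0) (XT.lf (nat_lit 84) (nat_lit 11123751520) (nat_lit 0) (nat_lit 8816043568) (nat_lit 1008) (nat_lit 398070126) (nat_lit 86) (nat_lit 5) (nat_lit 85) (nat_lit 5) (nat_lit 97) (nat_lit 5) (nat_lit 355) (nat_lit 339) (nat_lit 194)) (XT.lf (nat_lit 0) (nat_lit 382956927) (nat_lit 1008) (nat_lit 2571326480) (nat_lit 1092) (nat_lit 17749260364) (nat_lit 73) (nat_lit 5) (nat_lit 85) (nat_lit 5) (nat_lit 86) (nat_lit 5) (nat_lit 356) (nat_lit 339) (nat_lit 193))))) (XT.nd (nat_lit 376) (nat_lit 504) (nat_lit 0) (XT.nd (nat_lit 188) (nat_lit 672) (nat_lit 0) (XT.nd (nat_lit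 94) (nat_lit 0) (nat_lit 0) (XT.lf (nat_lit 0) (nat_lit 1248948577) (nat_lit 1008) (nat_lit 16753515615) (nat_lit 84) (nat_lit 3075864951) (nat_lit 74) (nat_lit 5) (nat_lit 86) (nat_lit 5) (nat_lit 75) (nat_lit 5) (nat_lit 357) (nat_lit 339) (nat_lit 192)) (XT.lf (nat_lit 0) (nat_lit 2193905557) (nat_lit 1008) (nat_lit 10009490680) (nat_lit 84) (nat_lit 9259756474) (nat_lit 74) (nat_lit 5) (nat_lit 86) (nat_lit 5) (nat_lit 75) (nat_lit 5) (nat_lit 358) (nat_lit 339) (nat_lit 191))) (XT.nd (nat_lit 94) (nat_lit 672) (nat_lit 0) (XT.lf (nat_lit 0) (nat_lit 3163103187) (nat_lit 1008) (nat_lit 3060614954) (nat_lit 84) (nat_lit 15636378800) (nat_lit 74) (nat_lit 5) (nat_lit 86) (nat_lit 5) (nat_lit 75) (nat_lit 5) (nat_lit 359) (nat_lit 339) (nat_lit 190)) (XT.lf (nat_lit 0) (nat_lit 4183884593) (nat_lit 672) (nat_lit 15064921) (nat_lit 756) (nat_lit 18069295668) (nat_lit 66) (nat_lit 5) (nat_lit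 74) (nat_lit 5) (nat_lit 75) (nat_lit 5) (nat_lit 360) (nat_lit 339) (nat_lit 189)))) (XT.nd (nat_lit 188) (nat_lit 504) (nat_lit 0) (XT.nd (nat_lit 94) (nat_lit 0) (nat_lit 0) (XT.lf (nat_lit 0) (nat_lit 5357744396) (nat_lit 756) (nat_lit 11038120202) (nat_lit 84) (nat_lit 6290397909) (nat_lit 66) (nat_lit 5) (nat_lit 75) (nat_lit 5) (nat_lit 67) (nat_lit 5) (nat_lit 361) (nat_lit 339) (nat_lit 188)) (XT.lf (nat_lit 0) (nat_lit 6547973483) (nat_lit 756) (nat_lit 3777707494) (nat_lit 84) (nat_lit 12791728004) (nat_lit 66) (nat_lit 5) (nat_lit 75) (nat_lit 5) (nat_lit 67) (nat_lit 5) (nat_lit 362) (nat_lit 339) (nat_lit 187))) (XT.nd (nat_lit 94) (nat_lit 0) (nat_lit 0) (XT.lf (nat_lit 0) (nat_lit 3779952055) (nat_lit 504) (nat_lit 4028142284) (nat_lit 588) (nat_lit 15752834346) (nat_lit 60) (nat_lit 5) (nat_lit 66) (nat_lit 5) (nat_lit 67) (nat_lit 5) (nat_lit 363) (nat_lit 339) (nat_lit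 186)) (XT.nd (nat_lit 94) (nat_lit 0) (nat_lit 0) (XT.lf (nat_lit 0) (nat_lit 9167161038) (nat_lit 588) (nat_lit 12393957327) (nat_lit 84) (nat_lit 2455252396) (nat_lit 60) (nat_lit 5) (nat_lit 67) (nat_lit 5) (nat_lit 61) (nat_lit 5) (nat_lit 364) (nat_lit 339) (nat_lit 185)) (XT.lf (nat_lit 0) (nat_lit 10605287532) (nat_lit 588) (nat_lit 4823129186) (nat_lit 84) (nat_lit 9056398747) (nat_lit 60) (nat_lit 5) (nat_lit 67) (nat_lit 5) (nat_lit 61) (nat_lit 5) (nat_lit 365) (nat_lit 339) (nat_lit 184))))))) (XT.nd (nat_lit 53674) (nat_lit 0) (nat_lit 2604) (XT.nd (nat_lit 376) (nat_lit 0) (nat_lit 0) (XT.nd (nat_lit 188) (nat_lit 420) (nat_lit 0) (XT.nd (nat_lit 94) (nat_lit 0) (nat_lit 0) (XT.lf (nat_lit 0) (nat_lit 3039768835) (nat_lit 420) (nat_lit 9074240685) (nat_lit 504) (nat_lit 12852993866) (nat_lit 55) (nat_lit 5) (nat_lit 60) (nat_lit 5) (nat_lit 61) (nat_lit 5) (nat_lit 366) (nat_lit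 339) (nat_lit 183)) (XT.lf (nat_lit 0) (nat_lit 11244833324) (nat_lit 420) (nat_lit 2470957348) (nat_lit 504) (nat_lit 11746940525) (nat_lit 55) (nat_lit 5) (nat_lit 60) (nat_lit 5) (nat_lit 61) (nat_lit 5) (nat_lit 367) (nat_lit 339) (nat_lit 182))) (XT.nd (nat_lit 94) (nat_lit 420) (nat_lit 0) (XT.lf (nat_lit 0) (nat_lit 15406320167) (nat_lit 504) (nat_lit 6316461863) (nat_lit 84) (nat_lit 4249858855) (nat_lit 55) (nat_lit 5) (nat_lit 61) (nat_lit 5) (nat_lit 56) (nat_lit 5) (nat_lit 368) (nat_lit 339) (nat_lit 181)) (XT.lf (nat_lit 0) (nat_lit 1837926706) (nat_lit 420) (nat_lit 15351021375) (nat_lit 504) (nat_lit 9308204654) (nat_lit 50) (nat_lit 5) (nat_lit 55) (nat_lit 5) (nat_lit 56) (nat_lit 5) (nat_lit 369) (nat_lit 339) (nat_lit 180)))) (XT.nd (nat_lit 53016) (nat_lit 0) (nat_lit 2604) (XT.nd (nat_lit 52922) (nat_lit 0) (nat_lit 2604) (XT.lf (nat_lit 0) (nat_lit 10375294955) (nat_lit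 420) (nat_lit 8713738687) (nat_lit 504) (nat_lit 7946987379) (nat_lit 50) (nat_lit 5) (nat_lit 55) (nat_lit 5) (nat_lit 56) (nat_lit 5) (nat_lit 370) (nat_lit 339) (nat_lit 179)) (XT.lf (nat_lit 0) (nat_lit 2361673522) (nat_lit 0) (nat_lit 2361673522) (nat_lit 924) (nat_lit 3353584183) (nat_lit 81) (nat_lit 5) (nat_lit 81) (nat_lit 3) (nat_lit 92) (nat_lit 3) (nat_lit 340) (nat_lit 340) (nat_lit 208))) (XT.nd (nat_lit 94) (nat_lit 0) (nat_lit 0) (XT.lf (nat_lit 0) (nat_lit 9793627588) (nat_lit 924) (nat_lit 6263409258) (nat_lit 1008) (nat_lit 339556504) (nat_lit 81) (nat_lit 5) (nat_lit 92) (nat_lit 3) (nat_lit 93) (nat_lit 5) (nat_lit 341) (nat_lit 340) (nat_lit 207)) (XT.nd (nat_lit 94) (nat_lit 0) (nat_lit 0) (XT.lf (nat_lit 0) (nat_lit 10191723018) (nat_lit 924) (nat_lit 988745621) (nat_lit 1008) (nat_lit 5465185599) (nat_lit 81) (nat_lit 5) (nat_lit 92) (nat_lit 3) (nat_lit 93) (nat_lit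 5) (nat_lit 342) (nat_lit 340) (nat_lit 206)) (XT.lf (nat_lit 84) (nat_lit 4536651647) (nat_lit 0) (nat_lit 6102847757) (nat_lit 1008) (nat_lit 6261835278) (nat_lit 82) (nat_lit 5) (nat_lit 81) (nat_lit 5) (nat_lit 93) (nat_lit 5) (nat_lit 343) (nat_lit 340) (nat_lit 205)))))) (XT.nd (nat_lit 376) (nat_lit 0) (nat_lit 168) (XT.nd (nat_lit 188) (nat_lit 0) (nat_lit 84) (XT.nd (nat_lit 94) (nat_lit 0) (nat_lit 84) (XT.lf (nat_lit 84) (nat_lit 10250155119) (nat_lit 0) (nat_lit 853847424) (nat_lit 1008) (nat_lit 6060904980) (nat_lit 82) (nat_lit 5) (nat_lit 81) (nat_lit 5) (nat_lit 93) (nat_lit 5) (nat_lit 344) (nat_lit 340) (nat_lit 204)) (XT.lf (nat_lit 0) (nat_lit 11620901960) (nat_lit 924) (nat_lit 1345415735) (nat_lit 1008) (nat_lit 4469208410) (nat_lit 82) (nat_lit 5) (nat_lit 93) (nat_lit 5) (nat_lit 94) (nat_lit 5) (nat_lit 345) (nat_lit 340) (nat_lit 203))) (XT.nd (nat_lit 94) (nat_lit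 0) (nat_lit 0) (XT.lf (nat_lit 84) (nat_lit 4473777109) (nat_lit 0) (nat_lit 7726160479) (nat_lit 1008) (nat_lit 5513218083) (nat_lit 83) (nat_lit 5) (nat_lit 82) (nat_lit 5) (nat_lit 94) (nat_lit 5) (nat_lit 346) (nat_lit 340) (nat_lit 202)) (XT.lf (nat_lit 84) (nat_lit 10497732482) (nat_lit 0) (nat_lit 2306402566) (nat_lit 1008) (nat_lit 5195082890) (nat_lit 83) (nat_lit 5) (nat_lit 82) (nat_lit 5) (nat_lit 94) (nat_lit 5) (nat_lit 347) (nat_lit 340) (nat_lit 201)))) (XT.nd (nat_lit 188) (nat_lit 0) (nat_lit 0) (XT.nd (nat_lit 94) (nat_lit 0) (nat_lit 0) (XT.lf (nat_lit 0) (nat_lit 13453013723) (nat_lit 924) (nat_lit 1622578302) (nat_lit 1008) (nat_lit 3217799879) (nat_lit 83) (nat_lit 5) (nat_lit 94) (nat_lit 5) (nat_lit 95) (nat_lit 5) (nat_lit 348) (nat_lit 340) (nat_lit 200)) (XT.lf (nat_lit 84) (nat_lit 4501501629) (nat_lit 0) (nat_lit 9682348515) (nat_lit 1008) (nat_lit 4410964802)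 (nat_lit 84) (nat_lit 5) (nat_lit 83) (nat_lit 5) (nat_lit 95) (nat_lit 5) (nat_lit 349) (nat_lit 340) (nat_lit 199))) (XT.nd (nat_lit 94) (nat_lit 0) (nat_lit 84) (XT.lf (nat_lit 84) (nat_lit 10845688661) (nat_lit 0) (nat_lit 4102339656) (nat_lit 1008) (nat_lit 3957267918) (nat_lit 84) (nat_lit 5) (nat_lit 83) (nat_lit 5) (nat_lit 95) (nat_lit 5) (nat_lit 350) (nat_lit 340) (nat_lit 198)) (XT.nd (nat_lit 94) (nat_lit 0) (nat_lit 0) (XT.lf (nat_lit 0) (nat_lit 15746228373) (nat_lit 924) (nat_lit 1859496694) (nat_lit 1008) (nat_lit 1619401104) (nat_lit 84) (nat_lit 5) (nat_lit 95) (nat_lit 5) (nat_lit 96) (nat_lit 5) (nat_lit 351) (nat_lit 340) (nat_lit 197)) (XT.lf (nat_lit 84) (nat_lit 4578979724) (nat_lit 0) (nat_lit 12071713624) (nat_lit 1008) (nat_lit 2901693049) (nat_lit 85) (nat_lit 5) (nat_lit 84) (nat_lit 5) (nat_lit 96) (nat_lit 5) (nat_lit 352) (nat_lit 340) (nat_lit 196))))))))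
noncomputable def xc118 : XT := (XT.nd (nat_lit 1598) (nat_lit 420) (nat_lit 0) (XT.nd (nat_lit 752) (nat_lit 1512) (nat_lit 0) (XT.nd (nat_lit 376) (nat_lit 924) (nat_lit 0) (XT.nd (nat_lit 188) (nat_lit 0) (nat_lit 84) (XT.nd (nat_lit 94) (nat_lit 0) (nat_lit 0) (XT.lf (nat_lit 84) (nat_lit 11252374296) (nat_lit 0) (nat_lit 6344506758) (nat_lit 1008) (nat_lit 2292527844) (nat_lit 85) (nat_lit 5) (nat_lit 84) (nat_lit 5) (nat_lit 96) (nat_lit 5) (nat_lit 353) (nat_lit 340) (nat_lit 195)) (XT.lf (nat_lit 84) (nat_lit 18128672259) (nat_lit 0) (nat_lit 438175442) (nat_lit 1008) (nat_lit 1670243711) (nat_lit 85) (nat_lit 5) (nat_lit 84) (nat_lit 5) (nat_lit 96) (nat_lit 5) (nat_lit 354) (nat_lit 340) (nat_lit 194))) (XT.nd (nat_lit 94) (nat_lit 0) (nat_lit 0) (XT.lf (nat_lit 84) (nat_lit 4656261995) (nat_lit 0) (nat_lit 15007502434) (nat_lit 1008) (nat_lit 928823308) (nat_lit 86) (nat_lit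 5) (nat_lit 85) (nat_lit 5) (nat_lit 97) (nat_lit 5) (nat_lit 355) (nat_lit 340) (nat_lit 193)) (XT.lf (nat_lit 84) (nat_lit 11666739665) (nat_lit 0) (nat_lit 9149140396) (nat_lit 1008) (nat_lit 142605152) (nat_lit 86) (nat_lit 5) (nat_lit 85) (nat_lit 5) (nat_lit 97) (nat_lit 5) (nat_lit 356) (nat_lit 340) (nat_lit 192)))) (XT.nd (nat_lit 188) (nat_lit 0) (nat_lit 84) (XT.nd (nat_lit 94) (nat_lit 0) (nat_lit 84) (XT.lf (nat_lit 0) (nat_lit 649347963) (nat_lit 1008) (nat_lit 2451863003) (nat_lit 1092) (nat_lit 18234505243) (nat_lit 73) (nat_lit 5) (nat_lit 85) (nat_lit 5) (nat_lit 86) (nat_lit 5) (nat_lit 357) (nat_lit 340) (nat_lit 191)) (XT.lf (nat_lit 0) (nat_lit 1535975810) (nat_lit 1008) (nat_lit 17065795675) (nat_lit 84) (nat_lit 3120593475) (nat_lit 74) (nat_lit 5) (nat_lit 86) (nat_lit 5) (nat_lit 75) (nat_lit 5) (nat_lit 358) (nat_lit 340) (nat_lit 190))) (XT.nd (nat_lit 94) (nat_lit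 0) (nat_lit 0) (XT.lf (nat_lit 0) (nat_lit 2502760303) (nat_lit 1008) (nat_lit 10118932394) (nat_lit 84) (nat_lit 9497707771) (nat_lit 74) (nat_lit 5) (nat_lit 86) (nat_lit 5) (nat_lit 75) (nat_lit 5) (nat_lit 359) (nat_lit 340) (nat_lit 189)) (XT.lf (nat_lit 0) (nat_lit 3494761397) (nat_lit 1008) (nat_lit 2960680733) (nat_lit 84) (nat_lit 16073481757) (nat_lit 74) (nat_lit 5) (nat_lit 86) (nat_lit 5) (nat_lit 75) (nat_lit 5) (nat_lit 360) (nat_lit 340) (nat_lit 188))))) (XT.nd (nat_lit 376) (nat_lit 420) (nat_lit 0) (XT.nd (nat_lit 188) (nat_lit 504) (nat_lit 0) (XT.nd (nat_lit 94) (nat_lit 0) (nat_lit 0) (XT.lf (nat_lit 0) (nat_lit 4506425990) (nat_lit 672) (nat_lit 51182055) (nat_lit 756) (nat_lit 18392323057) (nat_lit 66) (nat_lit 5) (nat_lit 74) (nat_lit 5) (nat_lit 75) (nat_lit 5) (nat_lit 361) (nat_lit 340) (nat_lit 187)) (XT.lf (nat_lit 0) (nat_lit 5745112303) (nat_lit 756) (nat_lit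 11184546052) (nat_lit 84) (nat_lit 6451518720) (nat_lit 66) (nat_lit 5) (nat_lit 75) (nat_lit 5) (nat_lit 67) (nat_lit 5) (nat_lit 362) (nat_lit 340) (nat_lit 186))) (XT.nd (nat_lit 94) (nat_lit 504) (nat_lit 0) (XT.lf (nat_lit 0) (nat_lit 6965585133) (nat_lit 756) (nat_lit 3704946517) (nat_lit 84) (nat_lit 13155408795) (nat_lit 66) (nat_lit 5) (nat_lit 75) (nat_lit 5) (nat_lit 67) (nat_lit 5) (nat_lit 363) (nat_lit 340) (nat_lit 185)) (XT.lf (nat_lit 0) (nat_lit 4085078216) (nat_lit 504) (nat_lit 4175102677) (nat_lit 588) (nat_lit 16023214364) (nat_lit 60) (nat_lit 5) (nat_lit 66) (nat_lit 5) (nat_lit 67) (nat_lit 5) (nat_lit 364) (nat_lit 340) (nat_lit 184)))) (XT.nd (nat_lit 188) (nat_lit 420) (nat_lit 0) (XT.nd (nat_lit 94) (nat_lit 0) (nat_lit 0) (XT.lf (nat_lit 0) (nat_lit 9654850803) (nat_lit 588) (nat_lit 12587977007) (nat_lit 84) (nat_lit 2510373019) (nat_lit 60) (nat_lit 5) (nat_lit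 67) (nat_lit 5) (nat_lit 61) (nat_lit 5) (nat_lit 365) (nat_lit 340) (nat_lit 183)) (XT.lf (nat_lit 0) (nat_lit 11131440168) (nat_lit 588) (nat_lit 4788171897) (nat_lit 84) (nat_lit 9316786099) (nat_lit 60) (nat_lit 5) (nat_lit 67) (nat_lit 5) (nat_lit 61) (nat_lit 5) (nat_lit 366) (nat_lit 340) (nat_lit 182))) (XT.nd (nat_lit 94) (nat_lit 0) (nat_lit 0) (XT.lf (nat_lit 0) (nat_lit 3316608326) (nat_lit 420) (nat_lit 9366200629) (nat_lit 504) (nat_lit 13050892703) (nat_lit 55) (nat_lit 5) (nat_lit 60) (nat_lit 5) (nat_lit 61) (nat_lit 5) (nat_lit 367) (nat_lit 340) (nat_lit 181)) (XT.nd (nat_lit 94) (nat_lit 0) (nat_lit 0) (XT.lf (nat_lit 0) (nat_lit 11770539216) (nat_lit 420) (nat_lit 2557895030) (nat_lit 504) (nat_lit 11916581643) (nat_lit 55) (nat_lit 5) (nat_lit 60) (nat_lit 5) (nat_lit 61) (nat_lit 5) (nat_lit 368) (nat_lit 340) (nat_lit 180)) (XT.lf (nat_lit 0) (nat_lit 16065634336)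 (nat_lit 504) (nat_lit 6333534462) (nat_lit 84) (nat_lit 4371779342) (nat_lit 55) (nat_lit 5) (nat_lit 61) (nat_lit 5) (nat_lit 56) (nat_lit 5) (nat_lit 369) (nat_lit 340) (nat_lit 179))))))) (XT.nd (nat_lit 53674) (nat_lit 0) (nat_lit 2688) (XT.nd (nat_lit 53298) (nat_lit 0) (nat_lit 2604) (XT.nd (nat_lit 53110) (nat_lit 0) (nat_lit 2604) (XT.nd (nat_lit 53016) (nat_lit 0) (nat_lit 2604) (XT.lf (nat_lit 0) (nat_lit 2071830593) (nat_lit 420) (nat_lit 15827984386) (nat_lit 504) (nat_lit 9412056272) (nat_lit 50) (nat_lit 5) (nat_lit 55) (nat_lit 5) (nat_lit 56) (nat_lit 5) (nat_lit 370) (nat_lit 340) (nat_lit 178)) (XT.lf (nat_lit 0) (nat_lit 2532443929) (nat_lit 0) (nat_lit 2532443929) (nat_lit 924) (nat_lit 3254955703) (nat_lit 81) (nat_lit 5) (nat_lit 81) (nat_lit 3) (nat_lit 92) (nat_lit 3) (nat_lit 341) (nat_lit 341) (nat_lit 206))) (XT.nd (nat_lit 94) (nat_lit 0) (nat_lit 0) (XT.lf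 (nat_lit 0) (nat_lit 10473853251) (nat_lit 924) (nat_lit 6251951561) (nat_lit 1008) (nat_lit 164645431) (nat_lit 81) (nat_lit 5) (nat_lit 92) (nat_lit 3) (nat_lit 93) (nat_lit 5) (nat_lit 342) (nat_lit 341) (nat_lit 205)) (XT.lf (nat_lit 0) (nat_lit 10872965372) (nat_lit 924) (nat_lit 819956013) (nat_lit 1008) (nat_lit 5454744738) (nat_lit 81) (nat_lit 5) (nat_lit 92) (nat_lit 3) (nat_lit 93) (nat_lit 5) (nat_lit 343) (nat_lit 341) (nat_lit 204)))) (XT.nd (nat_lit 188) (nat_lit 0) (nat_lit 84) (XT.nd (nat_lit 94) (nat_lit 0) (nat_lit 0) (XT.lf (nat_lit 84) (nat_lit 4874709411) (nat_lit 0) (nat_lit 6450888091) (nat_lit 1008) (nat_lit 6086035500) (nat_lit 82) (nat_lit 5) (nat_lit 81) (nat_lit 5) (nat_lit 93) (nat_lit 5) (nat_lit 344) (nat_lit 341) (nat_lit 203)) (XT.lf (nat_lit 84) (nat_lit 10759395440) (nat_lit 0) (nat_lit 1034392401) (nat_lit 1008) (nat_lit 5889998978) (nat_lit 82) (nat_lit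 5) (nat_lit 81) (nat_lit 5) (nat_lit 93) (nat_lit 5) (nat_lit 345) (nat_lit 341) (nat_lit 202))) (XT.nd (nat_lit 94) (nat_lit 0) (nat_lit 0) (XT.lf (nat_lit 0) (nat_lit 12314838349) (nat_lit 924) (nat_lit 1187078231) (nat_lit 1008) (nat_lit 4461321839) (nat_lit 82) (nat_lit 5) (nat_lit 93) (nat_lit 5) (nat_lit 94) (nat_lit 5) (nat_lit 346) (nat_lit 341) (nat_lit 201)) (XT.lf (nat_lit 84) (nat_lit 4810484312) (nat_lit 0) (nat_lit 8093270844) (nat_lit 1008) (nat_lit 5346042987) (nat_lit 83) (nat_lit 5) (nat_lit 82) (nat_lit 5) (nat_lit 94) (nat_lit 5) (nat_lit 347) (nat_lit 341) (nat_lit 200))))) (XT.nd (nat_lit 376) (nat_lit 0) (nat_lit 168) (XT.nd (nat_lit 188) (nat_lit 0) (nat_lit 84) (XT.nd (nat_lit 94) (nat_lit 0) (nat_lit 84) (XT.lf (nat_lit 84) (nat_lit 11015228254) (nat_lit 0) (nat_lit 2501663790) (nat_lit 1008) (nat_lit 5028211103) (nat_lit 83) (nat_lit 5) (nat_lit 82) (nat_lit 5)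 (nat_lit 94) (nat_lit 5) (nat_lit 348) (nat_lit 341) (nat_lit 199)) (XT.lf (nat_lit 0) (nat_lit 14175198825) (nat_lit 924) (nat_lit 1473669351) (nat_lit 1008) (nat_lit 3199928783) (nat_lit 83) (nat_lit 5) (nat_lit 94) (nat_lit 5) (nat_lit 95) (nat_lit 5) (nat_lit 349) (nat_lit 341) (nat_lit 198))) (XT.nd (nat_lit 94) (nat_lit 0) (nat_lit 0) (XT.lf (nat_lit 84) (nat_lit 4838240247) (nat_lit 0) (nat_lit 10083232129) (nat_lit 1008) (nat_lit 4238382594) (nat_lit 84) (nat_lit 5) (nat_lit 83) (nat_lit 5) (nat_lit 95) (nat_lit 5) (nat_lit 350) (nat_lit 341) (nat_lit 197)) (XT.lf (nat_lit 84) (nat_lit 11373167926) (nat_lit 0) (nat_lit 4327214233) (nat_lit 1008) (nat_lit 3779921772) (nat_lit 84) (nat_lit 5) (nat_lit 83) (nat_lit 5) (nat_lit 95) (nat_lit 5) (nat_lit 351) (nat_lit 341) (nat_lit 196)))) (XT.nd (nat_lit 188) (nat_lit 0) (nat_lit 0) (XT.nd (nat_lit 94) (nat_lit 0) (nat_lit 0) (XT.lf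 (nat_lit 0) (nat_lit 16513697774) (nat_lit 924) (nat_lit 1719964932) (nat_lit 1008) (nat_lit 1576747477) (nat_lit 84) (nat_lit 5) (nat_lit 95) (nat_lit 5) (nat_lit 96) (nat_lit 5) (nat_lit 352) (nat_lit 341) (nat_lit 195)) (XT.lf (nat_lit 84) (nat_lit 4916108024) (nat_lit 0) (nat_lit 12523630294) (nat_lit 1008) (nat_lit 2708338708) (nat_lit 85) (nat_lit 5) (nat_lit 84) (nat_lit 5) (nat_lit 96) (nat_lit 5) (nat_lit 353) (nat_lit 341) (nat_lit 194))) (XT.nd (nat_lit 94) (nat_lit 0) (nat_lit 0) (XT.lf (nat_lit 84) (nat_lit 11790509179) (nat_lit 0) (nat_lit 6616543933) (nat_lit 1008) (nat_lit 2088807822) (nat_lit 85) (nat_lit 5) (nat_lit 84) (nat_lit 5) (nat_lit 96) (nat_lit 5) (nat_lit 354) (nat_lit 341) (nat_lit 193)) (XT.nd (nat_lit 94) (nat_lit 0) (nat_lit 84) (XT.lf (nat_lit 84) (nat_lit 18874280186) (nat_lit 0) (nat_lit 524850506) (nat_lit 1008) (nat_lit 1455495189) (nat_lit 85) (nat_lit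 5) (nat_lit 84) (nat_lit 5) (nat_lit 96) (nat_lit 5) (nat_lit 355) (nat_lit 341) (nat_lit 192)) (XT.lf (nat_lit 84) (nat_lit 4992799956) (nat_lit 0) (nat_lit 15530736442) (nat_lit 1008) (nat_lit 697864019) (nat_lit 86) (nat_lit 5) (nat_lit 85) (nat_lit 5) (nat_lit 97) (nat_lit 5) (nat_lit 356) (nat_lit 341) (nat_lit 191))))))))
noncomputable def xc119 : XT := (XT.nd (nat_lit 54708) (nat_lit 0) (nat_lit 924) (XT.nd (nat_lit 752) (nat_lit 924) (nat_lit 0) (XT.nd (nat_lit 376) (nat_lit 588) (nat_lit 0) (XT.nd (nat_lit 188) (nat_lit 0) (nat_lit 84) (XT.nd (nat_lit 94) (nat_lit 0) (nat_lit 0) (XT.lf (nat_lit 0) (nat_lit 102802841) (nat_lit 1008) (nat_lit 9385145308) (nat_lit 1092) (nat_lit 12110947677) (nat_lit 73) (nat_lit 5) (nat_lit 85) (nat_lit 5) (nat_lit 86) (nat_lit 5) (nat_lit 357) (nat_lit 341) (nat_lit 190)) (XT.lf (nat_lit 0) (nat_lit 908921503) (nat_lit 1008) (nat_lit 2340493610)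 (nat_lit 1092) (nat_lit 18738641720) (nat_lit 73) (nat_lit 5) (nat_lit 85) (nat_lit 5) (nat_lit 86) (nat_lit 5) (nat_lit 358) (nat_lit 341) (nat_lit 189))) (XT.nd (nat_lit 94) (nat_lit 0) (nat_lit 0) (XT.lf (nat_lit 0) (nat_lit 1817193072) (nat_lit 1008) (nat_lit 17400022057) (nat_lit 84) (nat_lit 3169707088) (nat_lit 74) (nat_lit 5) (nat_lit 86) (nat_lit 5) (nat_lit 75) (nat_lit 5) (nat_lit 359) (nat_lit 341) (nat_lit 188)) (XT.lf (nat_lit 0) (nat_lit 2806923962) (nat_lit 1008) (nat_lit 10243663640) (nat_lit 84) (nat_lit 9745943904) (nat_lit 74) (nat_lit 5) (nat_lit 86) (nat_lit 5) (nat_lit 75) (nat_lit 5) (nat_lit 360) (nat_lit 341) (nat_lit 187)))) (XT.nd (nat_lit 188) (nat_lit 0) (nat_lit 0) (XT.nd (nat_lit 94) (nat_lit 672) (nat_lit 0) (XT.lf (nat_lit 0) (nat_lit 3822864364) (nat_lit 1008) (nat_lit 2869187675) (nat_lit 84) (nat_lit 16526955804) (nat_lit 74) (nat_lit 5) (nat_lit 86)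 (nat_lit 5) (nat_lit 75) (nat_lit 5) (nat_lit 361) (nat_lit 341) (nat_lit 186)) (XT.lf (nat_lit 0) (nat_lit 4827543870) (nat_lit 672) (nat_lit 86307202) (nat_lit 756) (nat_lit 18739409365) (nat_lit 66) (nat_lit 5) (nat_lit 74) (nat_lit 5) (nat_lit 75) (nat_lit 5) (nat_lit 362) (nat_lit 341) (nat_lit 185))) (XT.nd (nat_lit 94) (nat_lit 0) (nat_lit 0) (XT.lf (nat_lit 0) (nat_lit 6131381950) (nat_lit 756) (nat_lit 11347106059) (nat_lit 84) (nat_lit 6619641138) (nat_lit 66) (nat_lit 5) (nat_lit 75) (nat_lit 5) (nat_lit 67) (nat_lit 5) (nat_lit 363) (nat_lit 341) (nat_lit 184)) (XT.lf (nat_lit 0) (nat_lit 7383430168) (nat_lit 756) (nat_lit 3641176269) (nat_lit 84) (nat_lit 13532310208) (nat_lit 66) (nat_lit 5) (nat_lit 75) (nat_lit 5) (nat_lit 67) (nat_lit 5) (nat_lit 364) (nat_lit 341) (nat_lit 183))))) (XT.nd (nat_lit 376) (nat_lit 0) (nat_lit 0) (XT.nd (nat_lit 188) (nat_lit 420) (nat_lit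 0) (XT.nd (nat_lit 94) (nat_lit 0) (nat_lit 0) (XT.lf (nat_lit 0) (nat_lit 4388530827) (nat_lit 504) (nat_lit 4325310533) (nat_lit 588) (nat_lit 16314886180) (nat_lit 60) (nat_lit 5) (nat_lit 66) (nat_lit 5) (nat_lit 67) (nat_lit 5) (nat_lit 365) (nat_lit 341) (nat_lit 182)) (XT.lf (nat_lit 0) (nat_lit 10145604836) (nat_lit 588) (nat_lit 12799276755) (nat_lit 84) (nat_lit 2568445787) (nat_lit 60) (nat_lit 5) (nat_lit 67) (nat_lit 5) (nat_lit 61) (nat_lit 5) (nat_lit 366) (nat_lit 341) (nat_lit 181))) (XT.nd (nat_lit 94) (nat_lit 420) (nat_lit 0) (XT.lf (nat_lit 0) (nat_lit 11662211864) (nat_lit 588) (nat_lit 4763057660) (nat_lit 84) (nat_lit 9586451476) (nat_lit 60) (nat_lit 5) (nat_lit 67) (nat_lit 5) (nat_lit 61) (nat_lit 5) (nat_lit 367) (nat_lit 341) (nat_lit 180)) (XT.lf (nat_lit 0) (nat_lit 3591213736) (nat_lit 420) (nat_lit 9666580011) (nat_lit 504) (nat_lit 13266804967) (nat_lit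 55) (nat_lit 5) (nat_lit 60) (nat_lit 5) (nat_lit 61) (nat_lit 5) (nat_lit 368) (nat_lit 341) (nat_lit 179)))) (XT.nd (nat_lit 53298) (nat_lit 0) (nat_lit 2184) (XT.nd (nat_lit 53204) (nat_lit 0) (nat_lit 2184) (XT.lf (nat_lit 0) (nat_lit 12302051104) (nat_lit 420) (nat_lit 2646915442) (nat_lit 504) (nat_lit 12103003036) (nat_lit 55) (nat_lit 5) (nat_lit 60) (nat_lit 5) (nat_lit 61) (nat_lit 5) (nat_lit 369) (nat_lit 341) (nat_lit 178)) (XT.lf (nat_lit 0) (nat_lit 2702729661) (nat_lit 0) (nat_lit 2702729661) (nat_lit 924) (nat_lit 3165269468) (nat_lit 81) (nat_lit 5) (nat_lit 81) (nat_lit 3) (nat_lit 92) (nat_lit 3) (nat_lit 342) (nat_lit 342) (nat_lit 204))) (XT.nd (nat_lit 94) (nat_lit 0) (nat_lit 0) (XT.lf (nat_lit 0) (nat_lit 11148104655) (nat_lit 0) (nat_lit 4800841) (nat_lit 924) (nat_lit 6247564884) (nat_lit 81) (nat_lit 5) (nat_lit 81) (nat_lit 3) (nat_lit 92) (nat_lit 3) (nat_lit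 343) (nat_lit 342) (nat_lit 203)) (XT.nd (nat_lit 94) (nat_lit 0) (nat_lit 0) (XT.lf (nat_lit 0) (nat_lit 11553688957) (nat_lit 924) (nat_lit 657747144) (nat_lit 1008) (nat_lit 5454633721) (nat_lit 81) (nat_lit 5) (nat_lit 92) (nat_lit 3) (nat_lit 93) (nat_lit 5) (nat_lit 344) (nat_lit 342) (nat_lit 202)) (XT.lf (nat_lit 84) (nat_lit 5211553349) (nat_lit 0) (nat_lit 6800308596) (nat_lit 1008) (nat_lit 5926696726) (nat_lit 82) (nat_lit 5) (nat_lit 81) (nat_lit 5) (nat_lit 93) (nat_lit 5) (nat_lit 345) (nat_lit 342) (nat_lit 201))))))) (XT.nd (nat_lit 846) (nat_lit 1260) (nat_lit 0) (XT.nd (nat_lit 376) (nat_lit 0) (nat_lit 168) (XT.nd (nat_lit 188) (nat_lit 0) (nat_lit 84) (XT.nd (nat_lit 94) (nat_lit 0) (nat_lit 84) (XT.lf (nat_lit 84) (nat_lit 11273080196) (nat_lit 0) (nat_lit 1211408104) (nat_lit 1008) (nat_lit 5735046877) (nat_lit 82) (nat_lit 5) (nat_lit 81) (nat_lit 5) (nat_lit 93)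 (nat_lit 5) (nat_lit 346) (nat_lit 342) (nat_lit 200)) (XT.lf (nat_lit 0) (nat_lit 13010521828) (nat_lit 924) (nat_lit 1035681294) (nat_lit 1008) (nat_lit 4461864204) (nat_lit 82) (nat_lit 5) (nat_lit 93) (nat_lit 5) (nat_lit 94) (nat_lit 5) (nat_lit 347) (nat_lit 342) (nat_lit 199))) (XT.nd (nat_lit 94) (nat_lit 0) (nat_lit 0) (XT.lf (nat_lit 84) (nat_lit 5145900368) (nat_lit 0) (nat_lit 8464203700) (nat_lit 1008) (nat_lit 5193710807) (nat_lit 83) (nat_lit 5) (nat_lit 82) (nat_lit 5) (nat_lit 94) (nat_lit 5) (nat_lit 348) (nat_lit 342) (nat_lit 198)) (XT.lf (nat_lit 84) (nat_lit 11537389993) (nat_lit 0) (nat_lit 2695647434) (nat_lit 1008) (nat_lit 4875589515) (nat_lit 83) (nat_lit 5) (nat_lit 82) (nat_lit 5) (nat_lit 94) (nat_lit 5) (nat_lit 349) (nat_lit 342) (nat_lit 197)))) (XT.nd (nat_lit 188) (nat_lit 0) (nat_lit 0) (XT.nd (nat_lit 94) (nat_lit 0) (nat_lit 0) (XT.lf (nat_lit 0) (nat_lit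 14901697601) (nat_lit 924) (nat_lit 1331943705) (nat_lit 1008) (nat_lit 3188470688) (nat_lit 83) (nat_lit 5) (nat_lit 94) (nat_lit 5) (nat_lit 95) (nat_lit 5) (nat_lit 350) (nat_lit 342) (nat_lit 196)) (XT.lf (nat_lit 84) (nat_lit 5173737738) (nat_lit 0) (nat_lit 10490576677) (nat_lit 1008) (nat_lit 4078772017) (nat_lit 84) (nat_lit 5) (nat_lit 83) (nat_lit 5) (nat_lit 95) (nat_lit 5) (nat_lit 351) (nat_lit 342) (nat_lit 195))) (XT.nd (nat_lit 94) (nat_lit 0) (nat_lit 84) (XT.lf (nat_lit 84) (nat_lit 11905670219) (nat_lit 0) (nat_lit 4553272861) (nat_lit 1008) (nat_lit 3614848679) (nat_lit 84) (nat_lit 5) (nat_lit 83) (nat_lit 5) (nat_lit 95) (nat_lit 5) (nat_lit 352) (nat_lit 342) (nat_lit 194)) (XT.nd (nat_lit 94) (nat_lit 0) (nat_lit 0) (XT.lf (nat_lit 0) (nat_lit 17288413158) (nat_lit 924) (nat_lit 1587786766) (nat_lit 1008) (nat_lit 1538271551) (nat_lit 84) (nat_lit 5) (nat_lit 95)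 (nat_lit 5) (nat_lit 96) (nat_lit 5) (nat_lit 353) (nat_lit 342) (nat_lit 193)) (XT.lf (nat_lit 84) (nat_lit 5252126460) (nat_lit 0) (nat_lit 12984954458) (nat_lit 1008) (nat_lit 2525771131) (nat_lit 85) (nat_lit 5) (nat_lit 84) (nat_lit 5) (nat_lit 96) (nat_lit 5) (nat_lit 354) (nat_lit 342) (nat_lit 192)))))) (XT.nd (nat_lit 376) (nat_lit 588) (nat_lit 0) (XT.nd (nat_lit 188) (nat_lit 924) (nat_lit 0) (XT.nd (nat_lit 94) (nat_lit 0) (nat_lit 0) (XT.lf (nat_lit 84) (nat_lit 12334113011) (nat_lit 0) (nat_lit 6892550708) (nat_lit 1008) (nat_lit 1895048666) (nat_lit 85) (nat_lit 5) (nat_lit 84) (nat_lit 5) (nat_lit 96) (nat_lit 5) (nat_lit 355) (nat_lit 342) (nat_lit 191)) (XT.lf (nat_lit 84) (nat_lit 19632125886) (nat_lit 0) (nat_lit 609883154) (nat_lit 1008) (nat_lit 1249876259) (nat_lit 85) (nat_lit 5) (nat_lit 84) (nat_lit 5) (nat_lit 96) (nat_lit 5) (nat_lit 356) (nat_lit 342) (nat_lit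 190))) (XT.nd (nat_lit 94) (nat_lit 1008) (nat_lit 0) (XT.lf (nat_lit 84) (nat_lit 5328386623) (nat_lit 0) (nat_lit 16066755180) (nat_lit 1008) (nat_lit 475130596) (nat_lit 86) (nat_lit 5) (nat_lit 85) (nat_lit 5) (nat_lit 97) (nat_lit 5) (nat_lit 357) (nat_lit 342) (nat_lit 189)) (XT.lf (nat_lit 0) (nat_lit 338233913) (nat_lit 1008) (nat_lit 9494341703) (nat_lit 1092) (nat_lit 12427092015) (nat_lit 73) (nat_lit 5) (nat_lit 85) (nat_lit 5) (nat_lit 86) (nat_lit 5) (nat_lit 358) (nat_lit 342) (nat_lit 188)))) (XT.nd (nat_lit 188) (nat_lit 588) (nat_lit 0) (XT.nd (nat_lit 94) (nat_lit 0) (nat_lit 84) (XT.lf (nat_lit 0) (nat_lit 1162359159) (nat_lit 1008) (nat_lit 2236770435) (nat_lit 1092) (nat_lit 19262027450) (nat_lit 73) (nat_lit 5) (nat_lit 85) (nat_lit 5) (nat_lit 86) (nat_lit 5) (nat_lit 359) (nat_lit 342) (nat_lit 187)) (XT.lf (nat_lit 0) (nat_lit 2093291421) (nat_lit 1008) (nat_lit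 17756148580) (nat_lit 84) (nat_lit 3223164120) (nat_lit 74) (nat_lit 5) (nat_lit 86) (nat_lit 5) (nat_lit 75) (nat_lit 5) (nat_lit 360) (nat_lit 342) (nat_lit 186))) (XT.nd (nat_lit 94) (nat_lit 672) (nat_lit 0) (XT.lf (nat_lit 0) (nat_lit 3107096087) (nat_lit 1008) (nat_lit 10383453721) (nat_lit 84) (nat_lit 10004611436) (nat_lit 74) (nat_lit 5) (nat_lit 86) (nat_lit 5) (nat_lit 75) (nat_lit 5) (nat_lit 361) (nat_lit 342) (nat_lit 185)) (XT.nd (nat_lit 94) (nat_lit 672) (nat_lit 0) (XT.lf (nat_lit 0) (nat_lit 4148121444) (nat_lit 1008) (nat_lit 2785713976) (nat_lit 84) (nat_lit 16997141358) (nat_lit 74) (nat_lit 5) (nat_lit 86) (nat_lit 5) (nat_lit 75) (nat_lit 5) (nat_lit 362) (nat_lit 342) (nat_lit 184)) (XT.lf (nat_lit 0) (nat_lit 5147870665) (nat_lit 672) (nat_lit 120534686) (nat_lit 756) (nat_lit 19110468504) (nat_lit 66) (nat_lit 5) (nat_lit 74) (nat_lit 5) (nat_lit 75) (nat_lit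 5) (nat_lit 363) (nat_lit 342) (nat_lit 183))))))))
noncomputable def xc120 : XT := (XT.nd (nat_lit 54802) (nat_lit 0) (nat_lit 420) (XT.nd (nat_lit 53956) (nat_lit 0) (nat_lit 2184) (XT.nd (nat_lit 376) (nat_lit 420) (nat_lit 0) (XT.nd (nat_lit 188) (nat_lit 504) (nat_lit 0) (XT.nd (nat_lit 94) (nat_lit 0) (nat_lit 0) (XT.lf (nat_lit 0) (nat_lit 6517295621) (nat_lit 756) (nat_lit 11525613592) (nat_lit 84) (nat_lit 6794863341) (nat_lit 66) (nat_lit 5) (nat_lit 75) (nat_lit 5) (nat_lit 67) (nat_lit 5) (nat_lit 364) (nat_lit 342) (nat_lit 182)) (XT.lf (nat_lit 0) (nat_lit 7802268813) (nat_lit 756) (nat_lit 3586009325) (nat_lit 84) (nat_lit 13922726788) (nat_lit 66) (nat_lit 5) (nat_lit 75) (nat_lit 5) (nat_lit 67) (nat_lit 5) (nat_lit 365) (nat_lit 342) (nat_lit 181))) (XT.nd (nat_lit 94) (nat_lit 0) (nat_lit 0) (XT.lf (nat_lit 0) (nat_lit 4690917402) (nat_lit 504) (nat_lit 4478944017) (nat_lit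 588) (nat_lit 16627745155) (nat_lit 60) (nat_lit 5) (nat_lit 66) (nat_lit 5) (nat_lit 67) (nat_lit 5) (nat_lit 366) (nat_lit 342) (nat_lit 180)) (XT.lf (nat_lit 0) (nat_lit 10640232117) (nat_lit 588) (nat_lit 13027724979) (nat_lit 84) (nat_lit 2629488565) (nat_lit 60) (nat_lit 5) (nat_lit 67) (nat_lit 5) (nat_lit 61) (nat_lit 5) (nat_lit 367) (nat_lit 342) (nat_lit 179)))) (XT.nd (nat_lit 53392) (nat_lit 0) (nat_lit 2184) (XT.nd (nat_lit 94) (nat_lit 420) (nat_lit 0) (XT.lf (nat_lit 0) (nat_lit 12198438328) (nat_lit 588) (nat_lit 4747444402) (nat_lit 84) (nat_lit 9865611063) (nat_lit 60) (nat_lit 5) (nat_lit 67) (nat_lit 5) (nat_lit 61) (nat_lit 5) (nat_lit 368) (nat_lit 342) (nat_lit 178)) (XT.lf (nat_lit 0) (nat_lit 3864156466) (nat_lit 420) (nat_lit 9975677228) (nat_lit 504) (nat_lit 13500585486) (nat_lit 55) (nat_lit 5) (nat_lit 60) (nat_lit 5) (nat_lit 61) (nat_lit 5) (nat_lit 369)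 (nat_lit 342) (nat_lit 177))) (XT.nd (nat_lit 94) (nat_lit 0) (nat_lit 0) (XT.lf (nat_lit 0) (nat_lit 2872857965) (nat_lit 0) (nat_lit 2872857965) (nat_lit 924) (nat_lit 3084091924) (nat_lit 81) (nat_lit 5) (nat_lit 81) (nat_lit 3) (nat_lit 92) (nat_lit 3) (nat_lit 343) (nat_lit 343) (nat_lit 202)) (XT.lf (nat_lit 0) (nat_lit 11661190923) (nat_lit 0) (nat_lit 172444691) (nat_lit 924) (nat_lit 6093420001) (nat_lit 81) (nat_lit 5) (nat_lit 81) (nat_lit 3) (nat_lit 92) (nat_lit 3) (nat_lit 344) (nat_lit 343) (nat_lit 201))))) (XT.nd (nat_lit 376) (nat_lit 0) (nat_lit 84) (XT.nd (nat_lit 188) (nat_lit 0) (nat_lit 0) (XT.nd (nat_lit 94) (nat_lit 0) (nat_lit 0) (XT.lf (nat_lit 0) (nat_lit 12235159305) (nat_lit 924) (nat_lit 501623298) (nat_lit 1008) (nat_lit 5464541748) (nat_lit 81) (nat_lit 5) (nat_lit 92) (nat_lit 3) (nat_lit 93) (nat_lit 5) (nat_lit 345) (nat_lit 343) (nat_lit 200)) (XT.lf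 (nat_lit 84) (nat_lit 5547838465) (nat_lit 0) (nat_lit 7151709374) (nat_lit 1008) (nat_lit 5783031434) (nat_lit 82) (nat_lit 5) (nat_lit 81) (nat_lit 5) (nat_lit 93) (nat_lit 5) (nat_lit 346) (nat_lit 343) (nat_lit 199))) (XT.nd (nat_lit 94) (nat_lit 0) (nat_lit 84) (XT.lf (nat_lit 84) (nat_lit 11792018972) (nat_lit 0) (nat_lit 1385325684) (nat_lit 1008) (nat_lit 5595284455) (nat_lit 82) (nat_lit 5) (nat_lit 81) (nat_lit 5) (nat_lit 93) (nat_lit 5) (nat_lit 347) (nat_lit 343) (nat_lit 198)) (XT.lf (nat_lit 0) (nat_lit 13709177270) (nat_lit 924) (nat_lit 890738246) (nat_lit 1008) (nat_lit 4470583062) (nat_lit 82) (nat_lit 5) (nat_lit 93) (nat_lit 5) (nat_lit 94) (nat_lit 5) (nat_lit 348) (nat_lit 343) (nat_lit 197)))) (XT.nd (nat_lit 188) (nat_lit 0) (nat_lit 84) (XT.nd (nat_lit 94) (nat_lit 0) (nat_lit 0) (XT.lf (nat_lit 84) (nat_lit 5480679985) (nat_lit 0) (nat_lit 8839525214) (nat_lit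 1008) (nat_lit 5055495540) (nat_lit 83) (nat_lit 5) (nat_lit 82) (nat_lit 5) (nat_lit 94) (nat_lit 5) (nat_lit 349) (nat_lit 343) (nat_lit 196)) (XT.lf (nat_lit 84) (nat_lit 12065036187) (nat_lit 0) (nat_lit 2888748100) (nat_lit 1008) (nat_lit 4736509412) (nat_lit 83) (nat_lit 5) (nat_lit 82) (nat_lit 5) (nat_lit 94) (nat_lit 5) (nat_lit 350) (nat_lit 343) (nat_lit 195))) (XT.nd (nat_lit 94) (nat_lit 0) (nat_lit 0) (XT.lf (nat_lit 0) (nat_lit 15633714332) (nat_lit 924) (nat_lit 1196925144) (nat_lit 1008) (nat_lit 3183211731) (nat_lit 83) (nat_lit 5) (nat_lit 94) (nat_lit 5) (nat_lit 95) (nat_lit 5) (nat_lit 351) (nat_lit 343) (nat_lit 194)) (XT.nd (nat_lit 94) (nat_lit 0) (nat_lit 0) (XT.lf (nat_lit 84) (nat_lit 5508647455) (nat_lit 0) (nat_lit 10904935852) (nat_lit 1008) (nat_lit 3931449965) (nat_lit 84) (nat_lit 5) (nat_lit 83) (nat_lit 5) (nat_lit 95) (nat_lit 5) (nat_lit 352) (nat_lit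 343) (nat_lit 193)) (XT.lf (nat_lit 84) (nat_lit 12444022279) (nat_lit 0) (nat_lit 4780895026) (nat_lit 1008) (nat_lit 3461376511) (nat_lit 84) (nat_lit 5) (nat_lit 83) (nat_lit 5) (nat_lit 95) (nat_lit 5) (nat_lit 353) (nat_lit 343) (nat_lit 192))))))) (XT.nd (nat_lit 752) (nat_lit 1092) (nat_lit 0) (XT.nd (nat_lit 376) (nat_lit 924) (nat_lit 0) (XT.nd (nat_lit 188) (nat_lit 0) (nat_lit 0) (XT.nd (nat_lit 94) (nat_lit 0) (nat_lit 0) (XT.lf (nat_lit 0) (nat_lit 18071579172) (nat_lit 924) (nat_lit 1462498387) (nat_lit 1008) (nat_lit 1503777064) (nat_lit 84) (nat_lit 5) (nat_lit 95) (nat_lit 5) (nat_lit 96) (nat_lit 5) (nat_lit 354) (nat_lit 343) (nat_lit 191)) (XT.lf (nat_lit 84) (nat_lit 5587685395) (nat_lit 0) (nat_lit 13456250329) (nat_lit 1008) (nat_lit 2353330756) (nat_lit 85) (nat_lit 5) (nat_lit 84) (nat_lit 5) (nat_lit 96) (nat_lit 5) (nat_lit 355) (nat_lit 343) (nat_lit 190))) (XT.nd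 (nat_lit 94) (nat_lit 0) (nat_lit 0) (XT.lf (nat_lit 84) (nat_lit 12884019510) (nat_lit 0) (nat_lit 7172914526) (nat_lit 1008) (nat_lit 1710595096) (nat_lit 85) (nat_lit 5) (nat_lit 84) (nat_lit 5) (nat_lit 96) (nat_lit 5) (nat_lit 356) (nat_lit 343) (nat_lit 189)) (XT.lf (nat_lit 84) (nat_lit 20403232939) (nat_lit 0) (nat_lit 693478907) (nat_lit 1008) (nat_lit 1052734859) (nat_lit 85) (nat_lit 5) (nat_lit 84) (nat_lit 5) (nat_lit 96) (nat_lit 5) (nat_lit 357) (nat_lit 343) (nat_lit 188)))) (XT.nd (nat_lit 188) (nat_lit 0) (nat_lit 0) (XT.nd (nat_lit 94) (nat_lit 1008) (nat_lit 0) (XT.lf (nat_lit 84) (nat_lit 5663666799) (nat_lit 0) (nat_lit 16616158468) (nat_lit 1008) (nat_lit 259966724) (nat_lit 86) (nat_lit 5) (nat_lit 85) (nat_lit 5) (nat_lit 97) (nat_lit 5) (nat_lit 358) (nat_lit 343) (nat_lit 187)) (XT.lf (nat_lit 0) (nat_lit 567207127) (nat_lit 1008) (nat_lit 9617688141) (nat_lit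 1092) (nat_lit 12756548975) (nat_lit 73) (nat_lit 5) (nat_lit 85) (nat_lit 5) (nat_lit 86) (nat_lit 5) (nat_lit 359) (nat_lit 343) (nat_lit 186))) (XT.nd (nat_lit 94) (nat_lit 0) (nat_lit 84) (XT.lf (nat_lit 0) (nat_lit 1410310783) (nat_lit 1008) (nat_lit 2140273117) (nat_lit 1092) (nat_lit 19805044682) (nat_lit 73) (nat_lit 5) (nat_lit 85) (nat_lit 5) (nat_lit 86) (nat_lit 5) (nat_lit 360) (nat_lit 343) (nat_lit 185)) (XT.lf (nat_lit 0) (nat_lit 2364931740) (nat_lit 1008) (nat_lit 18134170668) (nat_lit 84) (nat_lit 3280932131) (nat_lit 74) (nat_lit 5) (nat_lit 86) (nat_lit 5) (nat_lit 75) (nat_lit 5) (nat_lit 361) (nat_lit 343) (nat_lit 184))))) (XT.nd (nat_lit 376) (nat_lit 504) (nat_lit 0) (XT.nd (nat_lit 188) (nat_lit 672) (nat_lit 0) (XT.nd (nat_lit 94) (nat_lit 0) (nat_lit 0) (XT.lf (nat_lit 0) (nat_lit 3403947865) (nat_lit 1008) (nat_lit 10538106530) (nat_lit 84) (nat_lit 10273871678)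 (nat_lit 74) (nat_lit 5) (nat_lit 86) (nat_lit 5) (nat_lit 75) (nat_lit 5) (nat_lit 362) (nat_lit 343) (nat_lit 183)) (XT.lf (nat_lit 0) (nat_lit 4471215439) (nat_lit 1008) (nat_lit 2709865235) (nat_lit 84) (nat_lit 17484399284) (nat_lit 74) (nat_lit 5) (nat_lit 86) (nat_lit 5) (nat_lit 75) (nat_lit 5) (nat_lit 363) (nat_lit 343) (nat_lit 182))) (XT.nd (nat_lit 94) (nat_lit 0) (nat_lit 0) (XT.lf (nat_lit 0) (nat_lit 5468018341) (nat_lit 672) (nat_lit 153954346) (nat_lit 756) (nat_lit 19505460995) (nat_lit 66) (nat_lit 5) (nat_lit 74) (nat_lit 5) (nat_lit 75) (nat_lit 5) (nat_lit 364) (nat_lit 343) (nat_lit 181)) (XT.lf (nat_lit 0) (nat_lit 6903572628) (nat_lit 756) (nat_lit 11719916917) (nat_lit 84) (nat_lit 6977293594) (nat_lit 66) (nat_lit 5) (nat_lit 75) (nat_lit 5) (nat_lit 67) (nat_lit 5) (nat_lit 365) (nat_lit 343) (nat_lit 180)))) (XT.nd (nat_lit 188) (nat_lit 0) (nat_lit 0) (XT.nd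 (nat_lit 94) (nat_lit 504) (nat_lit 0) (XT.lf (nat_lit 0) (nat_lit 8222840255) (nat_lit 756) (nat_lit 3539085704) (nat_lit 84) (nat_lit 14326969039) (nat_lit 66) (nat_lit 5) (nat_lit 75) (nat_lit 5) (nat_lit 67) (nat_lit 5) (nat_lit 366) (nat_lit 343) (nat_lit 179)) (XT.lf (nat_lit 0) (nat_lit 4992825233) (nat_lit 504) (nat_lit 4636182227) (nat_lit 588) (nat_lit 16961728704) (nat_lit 60) (nat_lit 5) (nat_lit 66) (nat_lit 5) (nat_lit 67) (nat_lit 5) (nat_lit 367) (nat_lit 343) (nat_lit 178))) (XT.nd (nat_lit 94) (nat_lit 0) (nat_lit 0) (XT.lf (nat_lit 0) (nat_lit 11139524411) (nat_lit 588) (nat_lit 13273225534) (nat_lit 84) (nat_lit 2693524137) (nat_lit 60) (nat_lit 5) (nat_lit 67) (nat_lit 5) (nat_lit 61) (nat_lit 5) (nat_lit 368) (nat_lit 343) (nat_lit 177)) (XT.nd (nat_lit 53392) (nat_lit 0) (nat_lit 1764) (XT.lf (nat_lit 0) (nat_lit 12740940157) (nat_lit 588) (nat_lit 4741017778) (nat_lit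 84) (nat_lit 10154491977) (nat_lit 60) (nat_lit 5) (nat_lit 67) (nat_lit 5) (nat_lit 61) (nat_lit 5) (nat_lit 369) (nat_lit 343) (nat_lit 176)) (XT.lf (nat_lit 0) (nat_lit 3043145962) (nat_lit 0) (nat_lit 3043145962) (nat_lit 924) (nat_lit 3011018175) (nat_lit 81) (nat_lit 5) (nat_lit 81) (nat_lit 3) (nat_lit 92) (nat_lit 3) (nat_lit 344) (nat_lit 344) (nat_lit 200))))))))
noncomputable def xc121 : XT := (XT.nd (nat_lit 1598) (nat_lit 1092) (nat_lit 0) (XT.nd (nat_lit 752) (nat_lit 672) (nat_lit 0) (XT.nd (nat_lit 376) (nat_lit 0) (nat_lit 84) (XT.nd (nat_lit 188) (nat_lit 0) (nat_lit 0) (XT.nd (nat_lit 94) (nat_lit 0) (nat_lit 0) (XT.lf (nat_lit 0) (nat_lit 12180261848) (nat_lit 0) (nat_lit 335364483) (nat_lit 924) (nat_lit 5955098565) (nat_lit 81) (nat_lit 5) (nat_lit 81) (nat_lit 3) (nat_lit 92) (nat_lit 3) (nat_lit 345) (nat_lit 344) (nat_lit 199)) (XT.lf (nat_lit 0) (nat_lit 12918605267)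 (nat_lit 924) (nat_lit 351114839) (nat_lit 1008) (nat_lit 5484185761) (nat_lit 81) (nat_lit 5) (nat_lit 92) (nat_lit 3) (nat_lit 93) (nat_lit 5) (nat_lit 346) (nat_lit 344) (nat_lit 198))) (XT.nd (nat_lit 94) (nat_lit 0) (nat_lit 0) (XT.lf (nat_lit 84) (nat_lit 5884199042) (nat_lit 0) (nat_lit 7505676117) (nat_lit 1008) (nat_lit 5654304560) (nat_lit 82) (nat_lit 5) (nat_lit 81) (nat_lit 5) (nat_lit 93) (nat_lit 5) (nat_lit 347) (nat_lit 344) (nat_lit 197)) (XT.lf (nat_lit 84) (nat_lit 12317006657) (nat_lit 0) (nat_lit 1556557641) (nat_lit 1008) (nat_lit 5469998361) (nat_lit 82) (nat_lit 5) (nat_lit 81) (nat_lit 5) (nat_lit 93) (nat_lit 5) (nat_lit 348) (nat_lit 344) (nat_lit 196)))) (XT.nd (nat_lit 188) (nat_lit 0) (nat_lit 0) (XT.nd (nat_lit 94) (nat_lit 0) (nat_lit 0) (XT.lf (nat_lit 0) (nat_lit 14411998172) (nat_lit 924) (nat_lit 751788888) (nat_lit 1008) (nat_lit 4487248570) (nat_lit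 82) (nat_lit 5) (nat_lit 93) (nat_lit 5) (nat_lit 94) (nat_lit 5) (nat_lit 349) (nat_lit 344) (nat_lit 195)) (XT.lf (nat_lit 84) (nat_lit 5815457014) (nat_lit 0) (nat_lit 9219792586) (nat_lit 1008) (nat_lit 4930718929) (nat_lit 83) (nat_lit 5) (nat_lit 82) (nat_lit 5) (nat_lit 94) (nat_lit 5) (nat_lit 350) (nat_lit 344) (nat_lit 194))) (XT.nd (nat_lit 94) (nat_lit 0) (nat_lit 84) (XT.lf (nat_lit 84) (nat_lit 12598970786) (nat_lit 0) (nat_lit 3081346905) (nat_lit 1008) (nat_lit 4610308253) (nat_lit 83) (nat_lit 5) (nat_lit 82) (nat_lit 5) (nat_lit 94) (nat_lit 5) (nat_lit 351) (nat_lit 344) (nat_lit 193)) (XT.lf (nat_lit 0) (nat_lit 16372427223) (nat_lit 924) (nat_lit 1068164081) (nat_lit 1008) (nat_lit 3183955858) (nat_lit 83) (nat_lit 5) (nat_lit 94) (nat_lit 5) (nat_lit 95) (nat_lit 5) (nat_lit 352) (nat_lit 344) (nat_lit 192))))) (XT.nd (nat_lit 376) (nat_lit 840) (nat_lit 0) (XT.nd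 (nat_lit 188) (nat_lit 0) (nat_lit 84) (XT.nd (nat_lit 94) (nat_lit 0) (nat_lit 0) (XT.lf (nat_lit 84) (nat_lit 5843602028) (nat_lit 0) (nat_lit 11326859576) (nat_lit 1008) (nat_lit 3795776439) (nat_lit 84) (nat_lit 5) (nat_lit 83) (nat_lit 5) (nat_lit 95) (nat_lit 5) (nat_lit 353) (nat_lit 344) (nat_lit 191)) (XT.lf (nat_lit 84) (nat_lit 12989036728) (nat_lit 0) (nat_lit 5010451669) (nat_lit 1008) (nat_lit 3318874649) (nat_lit 84) (nat_lit 5) (nat_lit 83) (nat_lit 5) (nat_lit 95) (nat_lit 5) (nat_lit 354) (nat_lit 344) (nat_lit 190))) (XT.nd (nat_lit 94) (nat_lit 0) (nat_lit 0) (XT.lf (nat_lit 0) (nat_lit 18864379761) (nat_lit 924) (nat_lit 1343662580) (nat_lit 1008) (nat_lit 1473080963) (nat_lit 84) (nat_lit 5) (nat_lit 95) (nat_lit 5) (nat_lit 96) (nat_lit 5) (nat_lit 355) (nat_lit 344) (nat_lit 189)) (XT.lf (nat_lit 84) (nat_lit 5923414792) (nat_lit 0) (nat_lit 13938083464) (nat_lit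 1008) (nat_lit 2190396445) (nat_lit 85) (nat_lit 5) (nat_lit 84) (nat_lit 5) (nat_lit 96) (nat_lit 5) (nat_lit 356) (nat_lit 344) (nat_lit 188)))) (XT.nd (nat_lit 188) (nat_lit 924) (nat_lit 0) (XT.nd (nat_lit 94) (nat_lit 0) (nat_lit 0) (XT.lf (nat_lit 84) (nat_lit 13441048897) (nat_lit 0) (nat_lit 7458019178) (nat_lit 1008) (nat_lit 1534828623) (nat_lit 85) (nat_lit 5) (nat_lit 84) (nat_lit 5) (nat_lit 96) (nat_lit 5) (nat_lit 357) (nat_lit 344) (nat_lit 187)) (XT.lf (nat_lit 84) (nat_lit 21188618496) (nat_lit 0) (nat_lit 775834466) (nat_lit 1008) (nat_lit 863454100) (nat_lit 85) (nat_lit 5) (nat_lit 84) (nat_lit 5) (nat_lit 96) (nat_lit 5) (nat_lit 358) (nat_lit 344) (nat_lit 186))) (XT.nd (nat_lit 94) (nat_lit 1008) (nat_lit 0) (XT.lf (nat_lit 84) (nat_lit 5999265335) (nat_lit 0) (nat_lit 17179552663) (nat_lit 1008) (nat_lit 51749725) (nat_lit 86) (nat_lit 5) (nat_lit 85) (nat_lit 5)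 (nat_lit 97) (nat_lit 5) (nat_lit 359) (nat_lit 344) (nat_lit 185)) (XT.nd (nat_lit 94) (nat_lit 0) (nat_lit 0) (XT.lf (nat_lit 0) (nat_lit 790337095) (nat_lit 1008) (nat_lit 9754985648) (nat_lit 1092) (nat_lit 13099523216) (nat_lit 73) (nat_lit 5) (nat_lit 85) (nat_lit 5) (nat_lit 86) (nat_lit 5) (nat_lit 360) (nat_lit 344) (nat_lit 184)) (XT.lf (nat_lit 0) (nat_lit 1653396612) (nat_lit 1008) (nat_lit 2050607205) (nat_lit 1092) (nat_lit 20368100217) (nat_lit 73) (nat_lit 5) (nat_lit 85) (nat_lit 5) (nat_lit 86) (nat_lit 5) (nat_lit 361) (nat_lit 344) (nat_lit 183))))))) (XT.nd (nat_lit 54144) (nat_lit 0) (nat_lit 1764) (XT.nd (nat_lit 376) (nat_lit 504) (nat_lit 0) (XT.nd (nat_lit 188) (nat_lit 672) (nat_lit 0) (XT.nd (nat_lit 94) (nat_lit 0) (nat_lit 0) (XT.lf (nat_lit 0) (nat_lit 2632746854) (nat_lit 1008) (nat_lit 18534124085) (nat_lit 84) (nat_lit 3342987572) (nat_lit 74) (nat_lit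 5) (nat_lit 86) (nat_lit 5) (nat_lit 75) (nat_lit 5) (nat_lit 362) (nat_lit 344) (nat_lit 182)) (XT.lf (nat_lit 0) (nat_lit 3698124206) (nat_lit 1008) (nat_lit 10707459148) (nat_lit 84) (nat_lit 10553900541) (nat_lit 74) (nat_lit 5) (nat_lit 86) (nat_lit 5) (nat_lit 75) (nat_lit 5) (nat_lit 363) (nat_lit 344) (nat_lit 181))) (XT.nd (nat_lit 94) (nat_lit 672) (nat_lit 0) (XT.lf (nat_lit 0) (nat_lit 4792804648) (nat_lit 1008) (nat_lit 2641272915) (nat_lit 84) (nat_lit 17989110949) (nat_lit 74) (nat_lit 5) (nat_lit 86) (nat_lit 5) (nat_lit 75) (nat_lit 5) (nat_lit 364) (nat_lit 344) (nat_lit 180)) (XT.lf (nat_lit 0) (nat_lit 5788580132) (nat_lit 672) (nat_lit 186651835) (nat_lit 756) (nat_lit 19924392491) (nat_lit 66) (nat_lit 5) (nat_lit 74) (nat_lit 5) (nat_lit 75) (nat_lit 5) (nat_lit 365) (nat_lit 344) (nat_lit 179)))) (XT.nd (nat_lit 188) (nat_lit 504) (nat_lit 0) (XT.nd (nat_lit 94)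 (nat_lit 0) (nat_lit 0) (XT.lf (nat_lit 0) (nat_lit 7290911322) (nat_lit 756) (nat_lit 11929897862) (nat_lit 84) (nat_lit 7167050142) (nat_lit 66) (nat_lit 5) (nat_lit 75) (nat_lit 5) (nat_lit 67) (nat_lit 5) (nat_lit 366) (nat_lit 344) (nat_lit 178)) (XT.lf (nat_lit 0) (nat_lit 8645864639) (nat_lit 756) (nat_lit 3500071388) (nat_lit 84) (nat_lit 14745363515) (nat_lit 66) (nat_lit 5) (nat_lit 75) (nat_lit 5) (nat_lit 67) (nat_lit 5) (nat_lit 367) (nat_lit 344) (nat_lit 177))) (XT.nd (nat_lit 94) (nat_lit 0) (nat_lit 0) (XT.lf (nat_lit 0) (nat_lit 5294823072) (nat_lit 504) (nat_lit 4797205494) (nat_lit 588) (nat_lit 17316814910) (nat_lit 60) (nat_lit 5) (nat_lit 66) (nat_lit 5) (nat_lit 67) (nat_lit 5) (nat_lit 368) (nat_lit 344) (nat_lit 176)) (XT.lf (nat_lit 0) (nat_lit 11644258243) (nat_lit 588) (nat_lit 13535716476) (nat_lit 84) (nat_lit 2760580098) (nat_lit 60) (nat_lit 5) (nat_lit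 67) (nat_lit 5) (nat_lit 61) (nat_lit 5) (nat_lit 369) (nat_lit 344) (nat_lit 175))))) (XT.nd (nat_lit 376) (nat_lit 0) (nat_lit 0) (XT.nd (nat_lit 188) (nat_lit 0) (nat_lit 0) (XT.nd (nat_lit 94) (nat_lit 0) (nat_lit 0) (XT.lf (nat_lit 0) (nat_lit 3213901531) (nat_lit 0) (nat_lit 3213901531) (nat_lit 924) (nat_lit 2945670381) (nat_lit 81) (nat_lit 5) (nat_lit 81) (nat_lit 3) (nat_lit 92) (nat_lit 3) (nat_lit 345) (nat_lit 345) (nat_lit 198)) (XT.lf (nat_lit 0) (nat_lit 12706090594) (nat_lit 0) (nat_lit 494001411) (nat_lit 924) (nat_lit 5831870815) (nat_lit 81) (nat_lit 5) (nat_lit 81) (nat_lit 3) (nat_lit 92) (nat_lit 3) (nat_lit 346) (nat_lit 345) (nat_lit 197))) (XT.nd (nat_lit 94) (nat_lit 0) (nat_lit 0) (XT.lf (nat_lit 0) (nat_lit 13605222372) (nat_lit 924) (nat_lit 205776564) (nat_lit 1008) (nat_lit 5513309088) (nat_lit 81) (nat_lit 5) (nat_lit 92) (nat_lit 3) (nat_lit 93) (nat_lit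 5) (nat_lit 347) (nat_lit 345) (nat_lit 196)) (XT.lf (nat_lit 84) (nat_lit 6221250431) (nat_lit 0) (nat_lit 7862781621) (nat_lit 1008) (nat_lit 5539830570) (nat_lit 82) (nat_lit 5) (nat_lit 81) (nat_lit 5) (nat_lit 93) (nat_lit 5) (nat_lit 348) (nat_lit 345) (nat_lit 195)))) (XT.nd (nat_lit 188) (nat_lit 0) (nat_lit 84) (XT.nd (nat_lit 94) (nat_lit 0) (nat_lit 84) (XT.lf (nat_lit 84) (nat_lit 12848825346) (nat_lit 0) (nat_lit 1725499138) (nat_lit 1008) (nat_lit 5358523275) (nat_lit 82) (nat_lit 5) (nat_lit 81) (nat_lit 5) (nat_lit 93) (nat_lit 5) (nat_lit 349) (nat_lit 345) (nat_lit 194)) (XT.lf (nat_lit 0) (nat_lit 15120149796) (nat_lit 924) (nat_lit 618397867) (nat_lit 1008) (nat_lit 4511652392) (nat_lit 82) (nat_lit 5) (nat_lit 93) (nat_lit 5) (nat_lit 94) (nat_lit 5) (nat_lit 350) (nat_lit 345) (nat_lit 193))) (XT.nd (nat_lit 94) (nat_lit 0) (nat_lit 0) (XT.lf (nat_lit 84) (nat_lit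 6150846247) (nat_lit 0) (nat_lit 9605555346) (nat_lit 1008) (nat_lit 4818747792) (nat_lit 83) (nat_lit 5) (nat_lit 82) (nat_lit 5) (nat_lit 94) (nat_lit 5) (nat_lit 351) (nat_lit 345) (nat_lit 192)) (XT.nd (nat_lit 94) (nat_lit 0) (nat_lit 84) (XT.lf (nat_lit 84) (nat_lit 13139985113) (nat_lit 0) (nat_lit 3273812587) (nat_lit 1008) (nat_lit 4496367068) (nat_lit 83) (nat_lit 5) (nat_lit 82) (nat_lit 5) (nat_lit 94) (nat_lit 5) (nat_lit 352) (nat_lit 345) (nat_lit 191)) (XT.lf (nat_lit 0) (nat_lit 17118991346) (nat_lit 924) (nat_lit 945235936) (nat_lit 1008) (nat_lit 3190523937) (nat_lit 83) (nat_lit 5) (nat_lit 94) (nat_lit 5) (nat_lit 95) (nat_lit 5) (nat_lit 353) (nat_lit 345) (nat_lit 190))))))))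
noncomputable def xc122 : XT := (XT.nd (nat_lit 55178) (nat_lit 0) (nat_lit 588) (XT.nd (nat_lit 752) (nat_lit 588) (nat_lit 0) (XT.nd (nat_lit 376) (nat_lit 840) (nat_lit 0) (XT.nd (nat_lit 188) (nat_lit 0) (nat_lit 84) (XT.nd (nat_lit 94) (nat_lit 0) (nat_lit 0) (XT.lf (nat_lit 84) (nat_lit 6179215144) (nat_lit 0) (nat_lit 11756895131) (nat_lit 1008) (nat_lit 3671152071) (nat_lit 84) (nat_lit 5) (nat_lit 83) (nat_lit 5) (nat_lit 95) (nat_lit 5) (nat_lit 354) (nat_lit 345) (nat_lit 189)) (XT.lf (nat_lit 84) (nat_lit 13541513990) (nat_lit 0) (nat_lit 5242306134) (nat_lit 1008) (nat_lit 3186751579) (nat_lit 84) (nat_lit 5) (nat_lit 83) (nat_lit 5) (nat_lit 95) (nat_lit 5) (nat_lit 355) (nat_lit 345) (nat_lit 188))) (XT.nd (nat_lit 94) (nat_lit 0) (nat_lit 0) (XT.lf (nat_lit 0) (nat_lit 19667980960) (nat_lit 924) (nat_lit 1230867126) (nat_lit 1008) (nat_lit 1446012676) (nat_lit 84) (nat_lit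 5) (nat_lit 95) (nat_lit 5) (nat_lit 96) (nat_lit 5) (nat_lit 356) (nat_lit 345) (nat_lit 187)) (XT.lf (nat_lit 84) (nat_lit 6259925987) (nat_lit 0) (nat_lit 14431021764) (nat_lit 1008) (nat_lit 2036383195) (nat_lit 85) (nat_lit 5) (nat_lit 84) (nat_lit 5) (nat_lit 96) (nat_lit 5) (nat_lit 357) (nat_lit 345) (nat_lit 186)))) (XT.nd (nat_lit 188) (nat_lit 924) (nat_lit 0) (XT.nd (nat_lit 94) (nat_lit 0) (nat_lit 0) (XT.lf (nat_lit 84) (nat_lit 14006009808) (nat_lit 0) (nat_lit 7748245622) (nat_lit 1008) (nat_lit 1367165304) (nat_lit 85) (nat_lit 5) (nat_lit 84) (nat_lit 5) (nat_lit 96) (nat_lit 5) (nat_lit 358) (nat_lit 345) (nat_lit 185)) (XT.lf (nat_lit 84) (nat_lit 21989295346) (nat_lit 0) (nat_lit 857138341) (nat_lit 1008) (nat_lit 681450075) (nat_lit 85) (nat_lit 5) (nat_lit 84) (nat_lit 5) (nat_lit 96) (nat_lit 5) (nat_lit 359) (nat_lit 345) (nat_lit 184))) (XT.nd (nat_lit 94) (nat_lit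 0) (nat_lit 0) (XT.lf (nat_lit 0) (nat_lit 147087191) (nat_lit 1008) (nat_lit 17608929105) (nat_lit 1092) (nat_lit 6187166398) (nat_lit 73) (nat_lit 5) (nat_lit 85) (nat_lit 5) (nat_lit 86) (nat_lit 5) (nat_lit 360) (nat_lit 345) (nat_lit 183)) (XT.lf (nat_lit 0) (nat_lit 1008209217) (nat_lit 1008) (nat_lit 9906066848) (nat_lit 1092) (nat_lit 13456238067) (nat_lit 73) (nat_lit 5) (nat_lit 85) (nat_lit 5) (nat_lit 86) (nat_lit 5) (nat_lit 361) (nat_lit 345) (nat_lit 182))))) (XT.nd (nat_lit 376) (nat_lit 588) (nat_lit 0) (XT.nd (nat_lit 188) (nat_lit 0) (nat_lit 84) (XT.nd (nat_lit 94) (nat_lit 0) (nat_lit 84) (XT.lf (nat_lit 0) (nat_lit 1892209300) (nat_lit 1008) (nat_lit 1967402647) (nat_lit 1092) (nat_lit 20951625418) (nat_lit 73) (nat_lit 5) (nat_lit 85) (nat_lit 5) (nat_lit 86) (nat_lit 5) (nat_lit 362) (nat_lit 345) (nat_lit 181)) (XT.lf (nat_lit 0) (nat_lit 2897343537) (nat_lit 1008)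 (nat_lit 18956083790) (nat_lit 84) (nat_lit 3409315473) (nat_lit 74) (nat_lit 5) (nat_lit 86) (nat_lit 5) (nat_lit 75) (nat_lit 5) (nat_lit 363) (nat_lit 345) (nat_lit 180))) (XT.nd (nat_lit 94) (nat_lit 0) (nat_lit 0) (XT.lf (nat_lit 0) (nat_lit 3990245717) (nat_lit 1008) (nat_lit 10891380544) (nat_lit 84) (nat_lit 10844888418) (nat_lit 74) (nat_lit 5) (nat_lit 86) (nat_lit 5) (nat_lit 75) (nat_lit 5) (nat_lit 364) (nat_lit 345) (nat_lit 179)) (XT.lf (nat_lit 0) (nat_lit 5113524813) (nat_lit 1008) (nat_lit 2579592883) (nat_lit 84) (nat_lit 18511678297) (nat_lit 74) (nat_lit 5) (nat_lit 86) (nat_lit 5) (nat_lit 75) (nat_lit 5) (nat_lit 365) (nat_lit 345) (nat_lit 178)))) (XT.nd (nat_lit 188) (nat_lit 0) (nat_lit 0) (XT.nd (nat_lit 94) (nat_lit 0) (nat_lit 0) (XT.lf (nat_lit 0) (nat_lit 6110132198) (nat_lit 672) (nat_lit 218708906) (nat_lit 756) (nat_lit 20367312430) (nat_lit 66) (nat_lit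 5) (nat_lit 74) (nat_lit 5) (nat_lit 75) (nat_lit 5) (nat_lit 366) (nat_lit 345) (nat_lit 177)) (XT.lf (nat_lit 0) (nat_lit 7679991005) (nat_lit 756) (nat_lit 12155470599) (nat_lit 84) (nat_lit 7364261126) (nat_lit 66) (nat_lit 5) (nat_lit 75) (nat_lit 5) (nat_lit 67) (nat_lit 5) (nat_lit 367) (nat_lit 345) (nat_lit 176))) (XT.nd (nat_lit 53674) (nat_lit 0) (nat_lit 1260) (XT.lf (nat_lit 0) (nat_lit 9072044961) (nat_lit 756) (nat_lit 3468656921) (nat_lit 84) (nat_lit 15178252935) (nat_lit 66) (nat_lit 5) (nat_lit 75) (nat_lit 5) (nat_lit 67) (nat_lit 5) (nat_lit 368) (nat_lit 345) (nat_lit 175)) (XT.nd (nat_lit 94) (nat_lit 0) (nat_lit 0) (XT.lf (nat_lit 0) (nat_lit 3385424151) (nat_lit 0) (nat_lit 3385424151) (nat_lit 924) (nat_lit 2887696247) (nat_lit 81) (nat_lit 5) (nat_lit 81) (nat_lit 3) (nat_lit 92) (nat_lit 3) (nat_lit 346) (nat_lit 346) (nat_lit 196)) (XT.lf (nat_lit 0) (nat_lit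 13239439485) (nat_lit 0) (nat_lit 648775537) (nat_lit 924) (nat_lit 5723056646) (nat_lit 81) (nat_lit 5) (nat_lit 81) (nat_lit 3) (nat_lit 92) (nat_lit 3) (nat_lit 347) (nat_lit 346) (nat_lit 195))))))) (XT.nd (nat_lit 752) (nat_lit 672) (nat_lit 0) (XT.nd (nat_lit 376) (nat_lit 0) (nat_lit 84) (XT.nd (nat_lit 188) (nat_lit 0) (nat_lit 0) (XT.nd (nat_lit 94) (nat_lit 0) (nat_lit 0) (XT.lf (nat_lit 0) (nat_lit 14296176024) (nat_lit 924) (nat_lit 65186149) (nat_lit 1008) (nat_lit 5551680184) (nat_lit 81) (nat_lit 5) (nat_lit 92) (nat_lit 3) (nat_lit 93) (nat_lit 5) (nat_lit 348) (nat_lit 346) (nat_lit 194)) (XT.lf (nat_lit 84) (nat_lit 6559590749) (nat_lit 0) (nat_lit 8223587221) (nat_lit 1008) (nat_lit 5438970715) (nat_lit 82) (nat_lit 5) (nat_lit 81) (nat_lit 5) (nat_lit 93) (nat_lit 5) (nat_lit 349) (nat_lit 346) (nat_lit 193))) (XT.nd (nat_lit 94) (nat_lit 0) (nat_lit 84) (XT.lf (nat_lit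 84) (nat_lit 13388246162) (nat_lit 0) (nat_lit 1892529252) (nat_lit 1008) (nat_lit 5260239240) (nat_lit 82) (nat_lit 5) (nat_lit 81) (nat_lit 5) (nat_lit 93) (nat_lit 5) (nat_lit 350) (nat_lit 346) (nat_lit 192)) (XT.lf (nat_lit 0) (nat_lit 15834772154) (nat_lit 924) (nat_lit 490153125) (nat_lit 1008) (nat_lit 4543606662) (nat_lit 82) (nat_lit 5) (nat_lit 93) (nat_lit 5) (nat_lit 94) (nat_lit 5) (nat_lit 351) (nat_lit 346) (nat_lit 191)))) (XT.nd (nat_lit 188) (nat_lit 0) (nat_lit 84) (XT.nd (nat_lit 94) (nat_lit 0) (nat_lit 0) (XT.lf (nat_lit 84) (nat_lit 6487445112) (nat_lit 0) (nat_lit 9997356589) (nat_lit 1008) (nat_lit 4718991494) (nat_lit 83) (nat_lit 5) (nat_lit 82) (nat_lit 5) (nat_lit 94) (nat_lit 5) (nat_lit 352) (nat_lit 346) (nat_lit 190)) (XT.lf (nat_lit 84) (nat_lit 13688859696) (nat_lit 0) (nat_lit 3466502550) (nat_lit 1008) (nat_lit 4394108007) (nat_lit 83) (nat_lit 5) (nat_lit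 82) (nat_lit 5) (nat_lit 94) (nat_lit 5) (nat_lit 353) (nat_lit 346) (nat_lit 189))) (XT.nd (nat_lit 94) (nat_lit 0) (nat_lit 0) (XT.lf (nat_lit 0) (nat_lit 17874541459) (nat_lit 924) (nat_lit 827739608) (nat_lit 1008) (nat_lit 3202752914) (nat_lit 83) (nat_lit 5) (nat_lit 94) (nat_lit 5) (nat_lit 95) (nat_lit 5) (nat_lit 354) (nat_lit 346) (nat_lit 188)) (XT.lf (nat_lit 84) (nat_lit 6516083251) (nat_lit 0) (nat_lit 12195588233) (nat_lit 1008) (nat_lit 3557015803) (nat_lit 84) (nat_lit 5) (nat_lit 83) (nat_lit 5) (nat_lit 95) (nat_lit 5) (nat_lit 355) (nat_lit 346) (nat_lit 187))))) (XT.nd (nat_lit 376) (nat_lit 840) (nat_lit 0) (XT.nd (nat_lit 188) (nat_lit 0) (nat_lit 84) (XT.nd (nat_lit 94) (nat_lit 0) (nat_lit 84) (XT.lf (nat_lit 84) (nat_lit 14102244121) (nat_lit 0) (nat_lit 5476815057) (nat_lit 1008) (nat_lit 3064452631) (nat_lit 84) (nat_lit 5) (nat_lit 83) (nat_lit 5) (nat_lit 95)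 (nat_lit 5) (nat_lit 356) (nat_lit 346) (nat_lit 186)) (XT.lf (nat_lit 0) (nat_lit 20483533576) (nat_lit 924) (nat_lit 1123723292) (nat_lit 1008) (nat_lit 1422413419) (nat_lit 84) (nat_lit 5) (nat_lit 95) (nat_lit 5) (nat_lit 96) (nat_lit 5) (nat_lit 357) (nat_lit 346) (nat_lit 185))) (XT.nd (nat_lit 94) (nat_lit 0) (nat_lit 0) (XT.lf (nat_lit 84) (nat_lit 6597813369) (nat_lit 0) (nat_lit 14935636445) (nat_lit 1008) (nat_lit 1890739972) (nat_lit 85) (nat_lit 5) (nat_lit 84) (nat_lit 5) (nat_lit 96) (nat_lit 5) (nat_lit 358) (nat_lit 346) (nat_lit 184)) (XT.lf (nat_lit 84) (nat_lit 14579701133) (nat_lit 0) (nat_lit 8043972765) (nat_lit 1008) (nat_lit 1207053633) (nat_lit 85) (nat_lit 5) (nat_lit 84) (nat_lit 5) (nat_lit 96) (nat_lit 5) (nat_lit 359) (nat_lit 346) (nat_lit 183)))) (XT.nd (nat_lit 188) (nat_lit 0) (nat_lit 0) (XT.nd (nat_lit 94) (nat_lit 924) (nat_lit 0) (XT.lf (nat_lit 84)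 (nat_lit 22806273899) (nat_lit 0) (nat_lit 937571442) (nat_lit 1008) (nat_lit 506169795) (nat_lit 85) (nat_lit 5) (nat_lit 84) (nat_lit 5) (nat_lit 96) (nat_lit 5) (nat_lit 360) (nat_lit 346) (nat_lit 182)) (XT.lf (nat_lit 0) (nat_lit 339204288) (nat_lit 1008) (nat_lit 18008032526) (nat_lit 1092) (nat_lit 6331082651) (nat_lit 73) (nat_lit 5) (nat_lit 85) (nat_lit 5) (nat_lit 86) (nat_lit 5) (nat_lit 361) (nat_lit 346) (nat_lit 181))) (XT.nd (nat_lit 94) (nat_lit 0) (nat_lit 0) (XT.lf (nat_lit 0) (nat_lit 1221381641) (nat_lit 1008) (nat_lit 10070794706) (nat_lit 1092) (nat_lit 13826935369) (nat_lit 73) (nat_lit 5) (nat_lit 85) (nat_lit 5) (nat_lit 86) (nat_lit 5) (nat_lit 362) (nat_lit 346) (nat_lit 180)) (XT.nd (nat_lit 94) (nat_lit 0) (nat_lit 84) (XT.lf (nat_lit 0) (nat_lit 2127315837) (nat_lit 1008) (nat_lit 1890312387) (nat_lit 1092) (nat_lit 21556076264) (nat_lit 73) (nat_lit 5) (nat_lit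 85) (nat_lit 5) (nat_lit 86) (nat_lit 5) (nat_lit 363) (nat_lit 346) (nat_lit 179)) (XT.lf (nat_lit 0) (nat_lit 3159304407) (nat_lit 1008) (nat_lit 19400162894) (nat_lit 84) (nat_lit 3479909162) (nat_lit 74) (nat_lit 5) (nat_lit 86) (nat_lit 5) (nat_lit 75) (nat_lit 5) (nat_lit 364) (nat_lit 346) (nat_lit 178))))))))
noncomputable def xc123 : XT := (XT.nd (nat_lit 55272) (nat_lit 0) (nat_lit 0) (XT.nd (nat_lit 54426) (nat_lit 0) (nat_lit 1260) (XT.nd (nat_lit 54050) (nat_lit 0) (nat_lit 1260) (XT.nd (nat_lit 188) (nat_lit 672) (nat_lit 0) (XT.nd (nat_lit 94) (nat_lit 0) (nat_lit 0) (XT.lf (nat_lit 0) (nat_lit 4280910571) (nat_lit 1008) (nat_lit 11089770380) (nat_lit 84) (nat_lit 11147040103) (nat_lit 74) (nat_lit 5) (nat_lit 86) (nat_lit 5) (nat_lit 75) (nat_lit 5) (nat_lit 365) (nat_lit 346) (nat_lit 177)) (XT.lf (nat_lit 0) (nat_lit 5433990965) (nat_lit 1008) (nat_lit 2524504044) (nat_lit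 84) (nat_lit 19052523975) (nat_lit 74) (nat_lit 5) (nat_lit 86) (nat_lit 5) (nat_lit 75) (nat_lit 5) (nat_lit 366) (nat_lit 346) (nat_lit 176))) (XT.nd (nat_lit 94) (nat_lit 0) (nat_lit 0) (XT.lf (nat_lit 0) (nat_lit 6433235192) (nat_lit 672) (nat_lit 250203678) (nat_lit 756) (nat_lit 20834312813) (nat_lit 66) (nat_lit 5) (nat_lit 74) (nat_lit 5) (nat_lit 75) (nat_lit 5) (nat_lit 367) (nat_lit 346) (nat_lit 175)) (XT.lf (nat_lit 0) (nat_lit 8071473750) (nat_lit 756) (nat_lit 12396580508) (nat_lit 84) (nat_lit 7569064522) (nat_lit 66) (nat_lit 5) (nat_lit 75) (nat_lit 5) (nat_lit 67) (nat_lit 5) (nat_lit 368) (nat_lit 346) (nat_lit 174)))) (XT.nd (nat_lit 188) (nat_lit 0) (nat_lit 0) (XT.nd (nat_lit 94) (nat_lit 0) (nat_lit 0) (XT.lf (nat_lit 0) (nat_lit 3558005705) (nat_lit 0) (nat_lit 3558005705) (nat_lit 924) (nat_lit 2836767612) (nat_lit 81) (nat_lit 5) (nat_lit 81) (nat_lit 3) (nat_lit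 92) (nat_lit 3) (nat_lit 347) (nat_lit 347) (nat_lit 194)) (XT.lf (nat_lit 0) (nat_lit 13781061732) (nat_lit 0) (nat_lit 800087202) (nat_lit 924) (nat_lit 5628022870) (nat_lit 81) (nat_lit 5) (nat_lit 81) (nat_lit 3) (nat_lit 92) (nat_lit 3) (nat_lit 348) (nat_lit 347) (nat_lit 193))) (XT.nd (nat_lit 94) (nat_lit 0) (nat_lit 0) (XT.lf (nat_lit 84) (nat_lit 72518398) (nat_lit 0) (nat_lit 14920805544) (nat_lit 1008) (nat_lit 5527292435) (nat_lit 82) (nat_lit 5) (nat_lit 81) (nat_lit 5) (nat_lit 93) (nat_lit 5) (nat_lit 349) (nat_lit 347) (nat_lit 192)) (XT.lf (nat_lit 84) (nat_lit 6899802495) (nat_lit 0) (nat_lit 8588644168) (nat_lit 1008) (nat_lit 5351130450) (nat_lit 82) (nat_lit 5) (nat_lit 81) (nat_lit 5) (nat_lit 93) (nat_lit 5) (nat_lit 350) (nat_lit 347) (nat_lit 191))))) (XT.nd (nat_lit 376) (nat_lit 0) (nat_lit 168) (XT.nd (nat_lit 188) (nat_lit 0) (nat_lit 84) (XT.nd (nat_lit 94)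 (nat_lit 0) (nat_lit 84) (XT.lf (nat_lit 84) (nat_lit 13936031001) (nat_lit 0) (nat_lit 2058012152) (nat_lit 1008) (nat_lit 5174569162) (nat_lit 82) (nat_lit 5) (nat_lit 81) (nat_lit 5) (nat_lit 93) (nat_lit 5) (nat_lit 351) (nat_lit 347) (nat_lit 190)) (XT.lf (nat_lit 0) (nat_lit 16556982863) (nat_lit 924) (nat_lit 366664443) (nat_lit 1008) (nat_lit 4582943027) (nat_lit 82) (nat_lit 5) (nat_lit 93) (nat_lit 5) (nat_lit 94) (nat_lit 5) (nat_lit 352) (nat_lit 347) (nat_lit 189))) (XT.nd (nat_lit 94) (nat_lit 0) (nat_lit 0) (XT.lf (nat_lit 84) (nat_lit 6825835293) (nat_lit 0) (nat_lit 10395734171) (nat_lit 1008) (nat_lit 4630899591) (nat_lit 83) (nat_lit 5) (nat_lit 82) (nat_lit 5) (nat_lit 94) (nat_lit 5) (nat_lit 353) (nat_lit 347) (nat_lit 188)) (XT.lf (nat_lit 84) (nat_lit 14246366028) (nat_lit 0) (nat_lit 3659763865) (nat_lit 1008) (nat_lit 4302992048) (nat_lit 83) (nat_lit 5) (nat_lit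 82) (nat_lit 5) (nat_lit 94) (nat_lit 5) (nat_lit 354) (nat_lit 347) (nat_lit 187)))) (XT.nd (nat_lit 188) (nat_lit 0) (nat_lit 0) (XT.nd (nat_lit 94) (nat_lit 0) (nat_lit 0) (XT.lf (nat_lit 0) (nat_lit 18640194702) (nat_lit 924) (nat_lit 715296029) (nat_lit 1008) (nat_lit 3220495032) (nat_lit 83) (nat_lit 5) (nat_lit 94) (nat_lit 5) (nat_lit 95) (nat_lit 5) (nat_lit 355) (nat_lit 347) (nat_lit 186)) (XT.lf (nat_lit 84) (nat_lit 6854787165) (nat_lit 0) (nat_lit 12643484090) (nat_lit 1008) (nat_lit 3452842705) (nat_lit 84) (nat_lit 5) (nat_lit 83) (nat_lit 5) (nat_lit 95) (nat_lit 5) (nat_lit 356) (nat_lit 347) (nat_lit 185))) (XT.nd (nat_lit 94) (nat_lit 0) (nat_lit 84) (XT.lf (nat_lit 84) (nat_lit 14672008581) (nat_lit 0) (nat_lit 5714329225) (nat_lit 1008) (nat_lit 2951457852) (nat_lit 84) (nat_lit 5) (nat_lit 83) (nat_lit 5) (nat_lit 95) (nat_lit 5) (nat_lit 357) (nat_lit 347) (nat_lit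 184)) (XT.nd (nat_lit 94) (nat_lit 0) (nat_lit 0) (XT.lf (nat_lit 0) (nat_lit 21312175759) (nat_lit 924) (nat_lit 1021864409) (nat_lit 1008) (nat_lit 1402135554) (nat_lit 84) (nat_lit 5) (nat_lit 95) (nat_lit 5) (nat_lit 96) (nat_lit 5) (nat_lit 358) (nat_lit 347) (nat_lit 183)) (XT.lf (nat_lit 84) (nat_lit 6937655981) (nat_lit 0) (nat_lit 15452502987) (nat_lit 1008) (nat_lit 1752947679) (nat_lit 85) (nat_lit 5) (nat_lit 84) (nat_lit 5) (nat_lit 96) (nat_lit 5) (nat_lit 359) (nat_lit 347) (nat_lit 182))))))) (XT.nd (nat_lit 54614) (nat_lit 0) (nat_lit 1260) (XT.nd (nat_lit 376) (nat_lit 588) (nat_lit 0) (XT.nd (nat_lit 188) (nat_lit 924) (nat_lit 0) (XT.nd (nat_lit 94) (nat_lit 0) (nat_lit 0) (XT.lf (nat_lit 84) (nat_lit 15162913767) (nat_lit 0) (nat_lit 8345578222) (nat_lit 1008) (nat_lit 1053972556) (nat_lit 85) (nat_lit 5) (nat_lit 84) (nat_lit 5) (nat_lit 96) (nat_lit 5) (nat_lit 360)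 (nat_lit 347) (nat_lit 181)) (XT.lf (nat_lit 84) (nat_lit 23640564122) (nat_lit 0) (nat_lit 1017307642) (nat_lit 1008) (nat_lit 337089244) (nat_lit 85) (nat_lit 5) (nat_lit 84) (nat_lit 5) (nat_lit 96) (nat_lit 5) (nat_lit 361) (nat_lit 347) (nat_lit 180))) (XT.nd (nat_lit 94) (nat_lit 0) (nat_lit 0) (XT.lf (nat_lit 0) (nat_lit 526167669) (nat_lit 1008) (nat_lit 18428201793) (nat_lit 1092) (nat_lit 6482296671) (nat_lit 73) (nat_lit 5) (nat_lit 85) (nat_lit 5) (nat_lit 86) (nat_lit 5) (nat_lit 362) (nat_lit 347) (nat_lit 179)) (XT.lf (nat_lit 0) (nat_lit 1430387098) (nat_lit 1008) (nat_lit 10249061367) (nat_lit 1092) (nat_lit 14211875369) (nat_lit 73) (nat_lit 5) (nat_lit 85) (nat_lit 5) (nat_lit 86) (nat_lit 5) (nat_lit 363) (nat_lit 347) (nat_lit 178)))) (XT.nd (nat_lit 188) (nat_lit 588) (nat_lit 0) (XT.nd (nat_lit 94) (nat_lit 0) (nat_lit 84) (XT.lf (nat_lit 0) (nat_lit 2359259356) (nat_lit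 1008) (nat_lit 1819011029) (nat_lit 1092) (nat_lit 22181933448) (nat_lit 73) (nat_lit 5) (nat_lit 85) (nat_lit 5) (nat_lit 86) (nat_lit 5) (nat_lit 364) (nat_lit 347) (nat_lit 177)) (XT.lf (nat_lit 0) (nat_lit 3419189727) (nat_lit 1008) (nat_lit 19866511726) (nat_lit 84) (nat_lit 3554769997) (nat_lit 74) (nat_lit 5) (nat_lit 86) (nat_lit 5) (nat_lit 75) (nat_lit 5) (nat_lit 365) (nat_lit 347) (nat_lit 176))) (XT.nd (nat_lit 94) (nat_lit 672) (nat_lit 0) (XT.lf (nat_lit 0) (nat_lit 4570696280) (nat_lit 1008) (nat_lit 11302557900) (nat_lit 84) (nat_lit 11460574730) (nat_lit 74) (nat_lit 5) (nat_lit 86) (nat_lit 5) (nat_lit 75) (nat_lit 5) (nat_lit 366) (nat_lit 347) (nat_lit 175)) (XT.nd (nat_lit 94) (nat_lit 672) (nat_lit 0) (XT.lf (nat_lit 0) (nat_lit 5754799177) (nat_lit 1008) (nat_lit 2475707062) (nat_lit 84) (nat_lit 19612091484) (nat_lit 74) (nat_lit 5) (nat_lit 86) (nat_lit 5) (nat_lit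 75) (nat_lit 5) (nat_lit 367) (nat_lit 347) (nat_lit 174)) (XT.lf (nat_lit 0) (nat_lit 6758435756) (nat_lit 672) (nat_lit 281210889) (nat_lit 756) (nat_lit 21325527091) (nat_lit 66) (nat_lit 5) (nat_lit 74) (nat_lit 5) (nat_lit 75) (nat_lit 5) (nat_lit 368) (nat_lit 347) (nat_lit 173)))))) (XT.nd (nat_lit 376) (nat_lit 0) (nat_lit 0) (XT.nd (nat_lit 188) (nat_lit 0) (nat_lit 0) (XT.nd (nat_lit 94) (nat_lit 0) (nat_lit 0) (XT.lf (nat_lit 0) (nat_lit 3731931245) (nat_lit 0) (nat_lit 3731931245) (nat_lit 924) (nat_lit 2792579119) (nat_lit 81) (nat_lit 5) (nat_lit 81) (nat_lit 3) (nat_lit 92) (nat_lit 3) (nat_lit 348) (nat_lit 348) (nat_lit 192)) (XT.lf (nat_lit 0) (nat_lit 14331703090) (nat_lit 0) (nat_lit 948318349) (nat_lit 924) (nat_lit 5546180640) (nat_lit 81) (nat_lit 5) (nat_lit 81) (nat_lit 3) (nat_lit 92) (nat_lit 3) (nat_lit 349) (nat_lit 348) (nat_lit 191))) (XT.nd (nat_lit 94) (nat_lit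 0) (nat_lit 0) (XT.lf (nat_lit 84) (nat_lit 207515676) (nat_lit 0) (nat_lit 15490165009) (nat_lit 1008) (nat_lit 5449901006) (nat_lit 82) (nat_lit 5) (nat_lit 81) (nat_lit 5) (nat_lit 93) (nat_lit 5) (nat_lit 350) (nat_lit 348) (nat_lit 190)) (XT.lf (nat_lit 84) (nat_lit 7242454091) (nat_lit 0) (nat_lit 8958494943) (nat_lit 1008) (nat_lit 5275757011) (nat_lit 82) (nat_lit 5) (nat_lit 81) (nat_lit 5) (nat_lit 93) (nat_lit 5) (nat_lit 351) (nat_lit 348) (nat_lit 189)))) (XT.nd (nat_lit 188) (nat_lit 0) (nat_lit 84) (XT.nd (nat_lit 94) (nat_lit 0) (nat_lit 84) (XT.lf (nat_lit 84) (nat_lit 14492934207) (nat_lit 0) (nat_lit 2222298216) (nat_lit 1008) (nat_lit 5100976458) (nat_lit 82) (nat_lit 5) (nat_lit 81) (nat_lit 5) (nat_lit 93) (nat_lit 5) (nat_lit 352) (nat_lit 348) (nat_lit 188)) (XT.lf (nat_lit 0) (nat_lit 17287879868) (nat_lit 924) (nat_lit 247562070) (nat_lit 1008) (nat_lit 4629511754)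 (nat_lit 82) (nat_lit 5) (nat_lit 93) (nat_lit 5) (nat_lit 94) (nat_lit 5) (nat_lit 353) (nat_lit 348) (nat_lit 187))) (XT.nd (nat_lit 94) (nat_lit 0) (nat_lit 0) (XT.lf (nat_lit 84) (nat_lit 7166584278) (nat_lit 0) (nat_lit 10801221849) (nat_lit 1008) (nat_lit 4553959605) (nat_lit 83) (nat_lit 5) (nat_lit 82) (nat_lit 5) (nat_lit 94) (nat_lit 5) (nat_lit 354) (nat_lit 348) (nat_lit 186)) (XT.nd (nat_lit 94) (nat_lit 0) (nat_lit 84) (XT.lf (nat_lit 84) (nat_lit 14813268254) (nat_lit 0) (nat_lit 3853934216) (nat_lit 1008) (nat_lit 4222516835) (nat_lit 83) (nat_lit 5) (nat_lit 82) (nat_lit 5) (nat_lit 94) (nat_lit 5) (nat_lit 355) (nat_lit 348) (nat_lit 185)) (XT.lf (nat_lit 0) (nat_lit 19417053172) (nat_lit 924) (nat_lit 607546807) (nat_lit 1008) (nat_lit 3243617100) (nat_lit 83) (nat_lit 5) (nat_lit 94) (nat_lit 5) (nat_lit 95) (nat_lit 5) (nat_lit 356) (nat_lit 348) (nat_lit 184))))))))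
noncomputable def xc124 : XT := (XT.nd (nat_lit 55554) (nat_lit 0) (nat_lit 0) (XT.nd (nat_lit 752) (nat_lit 0) (nat_lit 0) (XT.nd (nat_lit 376) (nat_lit 840) (nat_lit 0) (XT.nd (nat_lit 188) (nat_lit 0) (nat_lit 84) (XT.nd (nat_lit 94) (nat_lit 0) (nat_lit 0) (XT.lf (nat_lit 84) (nat_lit 7195893609) (nat_lit 0) (nat_lit 13101128412) (nat_lit 1008) (nat_lit 3358141923) (nat_lit 84) (nat_lit 5) (nat_lit 83) (nat_lit 5) (nat_lit 95) (nat_lit 5) (nat_lit 357) (nat_lit 348) (nat_lit 183)) (XT.lf (nat_lit 84) (nat_lit 15251581915) (nat_lit 0) (nat_lit 5955194397) (nat_lit 1008) (nat_lit 2847280004) (nat_lit 84) (nat_lit 5) (nat_lit 83) (nat_lit 5) (nat_lit 95) (nat_lit 5) (nat_lit 358) (nat_lit 348) (nat_lit 182))) (XT.nd (nat_lit 94) (nat_lit 0) (nat_lit 0) (XT.lf (nat_lit 0) (nat_lit 22155035472) (nat_lit 924) (nat_lit 924944538) (nat_lit 1008) (nat_lit 1385041979) (nat_lit 84) (nat_lit 5)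 (nat_lit 95) (nat_lit 5) (nat_lit 96) (nat_lit 5) (nat_lit 359) (nat_lit 348) (nat_lit 181)) (XT.lf (nat_lit 84) (nat_lit 7280019048) (nat_lit 0) (nat_lit 15982202065) (nat_lit 1008) (nat_lit 1622517243) (nat_lit 85) (nat_lit 5) (nat_lit 84) (nat_lit 5) (nat_lit 96) (nat_lit 5) (nat_lit 360) (nat_lit 348) (nat_lit 180)))) (XT.nd (nat_lit 188) (nat_lit 924) (nat_lit 0) (XT.nd (nat_lit 94) (nat_lit 0) (nat_lit 0) (XT.lf (nat_lit 84) (nat_lit 15756432311) (nat_lit 0) (nat_lit 8653439047) (nat_lit 1008) (nat_lit 907429590) (nat_lit 85) (nat_lit 5) (nat_lit 84) (nat_lit 5) (nat_lit 96) (nat_lit 5) (nat_lit 361) (nat_lit 348) (nat_lit 179)) (XT.lf (nat_lit 84) (nat_lit 24493177397) (nat_lit 0) (nat_lit 1096514305) (nat_lit 1008) (nat_lit 173711547) (nat_lit 85) (nat_lit 5) (nat_lit 84) (nat_lit 5) (nat_lit 96) (nat_lit 5) (nat_lit 362) (nat_lit 348) (nat_lit 178))) (XT.nd (nat_lit 94) (nat_lit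 0) (nat_lit 0) (XT.lf (nat_lit 0) (nat_lit 708475594) (nat_lit 1008) (nat_lit 18869575006) (nat_lit 1092) (nat_lit 6640866688) (nat_lit 73) (nat_lit 5) (nat_lit 85) (nat_lit 5) (nat_lit 86) (nat_lit 5) (nat_lit 363) (nat_lit 348) (nat_lit 177)) (XT.lf (nat_lit 0) (nat_lit 1635734654) (nat_lit 1008) (nat_lit 10440787078) (nat_lit 1092) (nat_lit 14611336638) (nat_lit 73) (nat_lit 5) (nat_lit 85) (nat_lit 5) (nat_lit 86) (nat_lit 5) (nat_lit 364) (nat_lit 348) (nat_lit 176))))) (XT.nd (nat_lit 54332) (nat_lit 0) (nat_lit 672) (XT.nd (nat_lit 188) (nat_lit 0) (nat_lit 84) (XT.nd (nat_lit 94) (nat_lit 0) (nat_lit 84) (XT.lf (nat_lit 0) (nat_lit 2588560853) (nat_lit 1008) (nat_lit 1753193589) (nat_lit 1092) (nat_lit 22829702515) (nat_lit 73) (nat_lit 5) (nat_lit 85) (nat_lit 5) (nat_lit 86) (nat_lit 5) (nat_lit 365) (nat_lit 348) (nat_lit 175)) (XT.lf (nat_lit 0) (nat_lit 3677539100) (nat_lit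 1008) (nat_lit 20355316982) (nat_lit 84) (nat_lit 3633907132) (nat_lit 74) (nat_lit 5) (nat_lit 86) (nat_lit 5) (nat_lit 75) (nat_lit 5) (nat_lit 366) (nat_lit 348) (nat_lit 174))) (XT.nd (nat_lit 54050) (nat_lit 0) (nat_lit 588) (XT.lf (nat_lit 0) (nat_lit 4860161378) (nat_lit 1008) (nat_lit 11529700912) (nat_lit 84) (nat_lit 11785725743) (nat_lit 74) (nat_lit 5) (nat_lit 86) (nat_lit 5) (nat_lit 75) (nat_lit 5) (nat_lit 367) (nat_lit 348) (nat_lit 173)) (XT.lf (nat_lit 0) (nat_lit 3907479720) (nat_lit 0) (nat_lit 3907479720) (nat_lit 924) (nat_lit 2754846968) (nat_lit 81) (nat_lit 5) (nat_lit 81) (nat_lit 3) (nat_lit 92) (nat_lit 3) (nat_lit 349) (nat_lit 349) (nat_lit 190)))) (XT.nd (nat_lit 188) (nat_lit 0) (nat_lit 0) (XT.nd (nat_lit 94) (nat_lit 0) (nat_lit 0) (XT.lf (nat_lit 0) (nat_lit 14892103452) (nat_lit 0) (nat_lit 1093833785) (nat_lit 924) (nat_lit 5476983037) (nat_lit 81)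 (nat_lit 5) (nat_lit 81) (nat_lit 3) (nat_lit 92) (nat_lit 3) (nat_lit 350) (nat_lit 349) (nat_lit 189)) (XT.lf (nat_lit 84) (nat_lit 338834907) (nat_lit 0) (nat_lit 16070847812) (nat_lit 1008) (nat_lit 5384843590) (nat_lit 82) (nat_lit 5) (nat_lit 81) (nat_lit 5) (nat_lit 93) (nat_lit 5) (nat_lit 351) (nat_lit 349) (nat_lit 188))) (XT.nd (nat_lit 94) (nat_lit 0) (nat_lit 0) (XT.lf (nat_lit 84) (nat_lit 7588101346) (nat_lit 0) (nat_lit 9333674521) (nat_lit 1008) (nat_lit 5212337150) (nat_lit 82) (nat_lit 5) (nat_lit 81) (nat_lit 5) (nat_lit 93) (nat_lit 5) (nat_lit 352) (nat_lit 349) (nat_lit 187)) (XT.nd (nat_lit 94) (nat_lit 0) (nat_lit 84) (XT.lf (nat_lit 84) (nat_lit 15059704186) (nat_lit 0) (nat_lit 2385725091) (nat_lit 1008) (nat_lit 5038962859) (nat_lit 82) (nat_lit 5) (nat_lit 81) (nat_lit 5) (nat_lit 93) (nat_lit 5) (nat_lit 353) (nat_lit 349) (nat_lit 186)) (XT.lf (nat_lit 0)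 (nat_lit 18028544051) (nat_lit 924) (nat_lit 132495423) (nat_lit 1008) (nat_lit 4683180888) (nat_lit 82) (nat_lit 5) (nat_lit 93) (nat_lit 5) (nat_lit 94) (nat_lit 5) (nat_lit 354) (nat_lit 349) (nat_lit 185))))))) (XT.nd (nat_lit 752) (nat_lit 756) (nat_lit 0) (XT.nd (nat_lit 376) (nat_lit 0) (nat_lit 84) (XT.nd (nat_lit 188) (nat_lit 0) (nat_lit 84) (XT.nd (nat_lit 94) (nat_lit 0) (nat_lit 0) (XT.lf (nat_lit 84) (nat_lit 7510246819) (nat_lit 0) (nat_lit 11214350386) (nat_lit 1008) (nat_lit 4487694946) (nat_lit 83) (nat_lit 5) (nat_lit 82) (nat_lit 5) (nat_lit 94) (nat_lit 5) (nat_lit 355) (nat_lit 349) (nat_lit 184)) (XT.lf (nat_lit 84) (nat_lit 15390324796) (nat_lit 0) (nat_lit 4049342801) (nat_lit 1008) (nat_lit 4152214657) (nat_lit 83) (nat_lit 5) (nat_lit 82) (nat_lit 5) (nat_lit 94) (nat_lit 5) (nat_lit 356) (nat_lit 349) (nat_lit 183))) (XT.nd (nat_lit 94) (nat_lit 0) (nat_lit 0)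 (XT.lf (nat_lit 0) (nat_lit 20206206408) (nat_lit 924) (nat_lit 504152943) (nat_lit 1008) (nat_lit 3271999811) (nat_lit 83) (nat_lit 5) (nat_lit 94) (nat_lit 5) (nat_lit 95) (nat_lit 5) (nat_lit 357) (nat_lit 349) (nat_lit 182)) (XT.lf (nat_lit 84) (nat_lit 7539956678) (nat_lit 0) (nat_lit 13569068403) (nat_lit 1008) (nat_lit 3272454759) (nat_lit 84) (nat_lit 5) (nat_lit 83) (nat_lit 5) (nat_lit 95) (nat_lit 5) (nat_lit 358) (nat_lit 349) (nat_lit 181)))) (XT.nd (nat_lit 188) (nat_lit 0) (nat_lit 84) (XT.nd (nat_lit 94) (nat_lit 0) (nat_lit 84) (XT.lf (nat_lit 84) (nat_lit 15841733396) (nat_lit 0) (nat_lit 6199752087) (nat_lit 1008) (nat_lit 2751462692) (nat_lit 84) (nat_lit 5) (nat_lit 83) (nat_lit 5) (nat_lit 95) (nat_lit 5) (nat_lit 359) (nat_lit 349) (nat_lit 180)) (XT.lf (nat_lit 0) (nat_lit 23013232869) (nat_lit 924) (nat_lit 832637211) (nat_lit 1008) (nat_lit 1371005562) (nat_lit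 84) (nat_lit 5) (nat_lit 95) (nat_lit 5) (nat_lit 96) (nat_lit 5) (nat_lit 360) (nat_lit 349) (nat_lit 179))) (XT.nd (nat_lit 94) (nat_lit 0) (nat_lit 0) (XT.lf (nat_lit 84) (nat_lit 7625455426) (nat_lit 0) (nat_lit 16525320455) (nat_lit 1008) (nat_lit 1498987814) (nat_lit 85) (nat_lit 5) (nat_lit 84) (nat_lit 5) (nat_lit 96) (nat_lit 5) (nat_lit 361) (nat_lit 349) (nat_lit 178)) (XT.lf (nat_lit 84) (nat_lit 16361036695) (nat_lit 0) (nat_lit 8967932443) (nat_lit 1008) (nat_lit 766959070) (nat_lit 85) (nat_lit 5) (nat_lit 84) (nat_lit 5) (nat_lit 96) (nat_lit 5) (nat_lit 362) (nat_lit 349) (nat_lit 177))))) (XT.nd (nat_lit 376) (nat_lit 0) (nat_lit 84) (XT.nd (nat_lit 188) (nat_lit 0) (nat_lit 0) (XT.nd (nat_lit 94) (nat_lit 924) (nat_lit 0) (XT.lf (nat_lit 84) (nat_lit 25365128343) (nat_lit 0) (nat_lit 1175352792) (nat_lit 1008) (nat_lit 15565240) (nat_lit 85) (nat_lit 5) (nat_lit 84) (nat_lit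 5) (nat_lit 96) (nat_lit 5) (nat_lit 363) (nat_lit 349) (nat_lit 176)) (XT.lf (nat_lit 0) (nat_lit 886602795) (nat_lit 1008) (nat_lit 19332325049) (nat_lit 1092) (nat_lit 6806862685) (nat_lit 73) (nat_lit 5) (nat_lit 85) (nat_lit 5) (nat_lit 86) (nat_lit 5) (nat_lit 364) (nat_lit 349) (nat_lit 175))) (XT.nd (nat_lit 94) (nat_lit 0) (nat_lit 0) (XT.lf (nat_lit 0) (nat_lit 1837911349) (nat_lit 1008) (nat_lit 10645919197) (nat_lit 1092) (nat_lit 15025616037) (nat_lit 73) (nat_lit 5) (nat_lit 85) (nat_lit 5) (nat_lit 86) (nat_lit 5) (nat_lit 365) (nat_lit 349) (nat_lit 174)) (XT.lf (nat_lit 0) (nat_lit 2815720809) (nat_lit 1008) (nat_lit 1692574326) (nat_lit 1092) (nat_lit 23499914042) (nat_lit 73) (nat_lit 5) (nat_lit 85) (nat_lit 5) (nat_lit 86) (nat_lit 5) (nat_lit 366) (nat_lit 349) (nat_lit 173)))) (XT.nd (nat_lit 54238) (nat_lit 0) (nat_lit 588) (XT.nd (nat_lit 54144) (nat_lit 0) (nat_lit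 588) (XT.lf (nat_lit 0) (nat_lit 3934873087) (nat_lit 1008) (nat_lit 20866800981) (nat_lit 84) (nat_lit 3717337300) (nat_lit 74) (nat_lit 5) (nat_lit 86) (nat_lit 5) (nat_lit 75) (nat_lit 5) (nat_lit 367) (nat_lit 349) (nat_lit 172)) (XT.lf (nat_lit 0) (nat_lit 4084924669) (nat_lit 0) (nat_lit 4084924669) (nat_lit 924) (nat_lit 2723307746) (nat_lit 81) (nat_lit 5) (nat_lit 81) (nat_lit 3) (nat_lit 92) (nat_lit 3) (nat_lit 350) (nat_lit 350) (nat_lit 188))) (XT.nd (nat_lit 94) (nat_lit 0) (nat_lit 0) (XT.lf (nat_lit 0) (nat_lit 15462998384) (nat_lit 0) (nat_lit 1236982356) (nat_lit 924) (nat_lit 5419922804) (nat_lit 81) (nat_lit 5) (nat_lit 81) (nat_lit 3) (nat_lit 92) (nat_lit 3) (nat_lit 351) (nat_lit 350) (nat_lit 187)) (XT.nd (nat_lit 94) (nat_lit 0) (nat_lit 0) (XT.lf (nat_lit 84) (nat_lit 466827807) (nat_lit 0) (nat_lit 16663579725) (nat_lit 1008) (nat_lit 5331629872) (nat_lit 82)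 (nat_lit 5) (nat_lit 81) (nat_lit 5) (nat_lit 93) (nat_lit 5) (nat_lit 352) (nat_lit 350) (nat_lit 186)) (XT.lf (nat_lit 84) (nat_lit 7937288859) (nat_lit 0) (nat_lit 9714711574) (nat_lit 1008) (nat_lit 5160394995) (nat_lit 82) (nat_lit 5) (nat_lit 81) (nat_lit 5) (nat_lit 93) (nat_lit 5) (nat_lit 353) (nat_lit 350) (nat_lit 185))))))))
noncomputable def xc125 : XT := (XT.nd (nat_lit 55742) (nat_lit 0) (nat_lit 0) (XT.nd (nat_lit 752) (nat_lit 756) (nat_lit 0) (XT.nd (nat_lit 376) (nat_lit 0) (nat_lit 168) (XT.nd (nat_lit 188) (nat_lit 0) (nat_lit 84) (XT.nd (nat_lit 94) (nat_lit 0) (nat_lit 84) (XT.lf (nat_lit 84) (nat_lit 15637084959) (nat_lit 0) (nat_lit 2548618692) (nat_lit 1008) (nat_lit 4988066337) (nat_lit 82) (nat_lit 5) (nat_lit 81) (nat_lit 5) (nat_lit 93) (nat_lit 5) (nat_lit 354) (nat_lit 350) (nat_lit 184)) (XT.lf (nat_lit 0) (nat_lit 18780041728) (nat_lit 924) (nat_lit 21131874)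 (nat_lit 1008) (nat_lit 4743835482) (nat_lit 82) (nat_lit 5) (nat_lit 93) (nat_lit 5) (nat_lit 94) (nat_lit 5) (nat_lit 355) (nat_lit 350) (nat_lit 183))) (XT.nd (nat_lit 94) (nat_lit 0) (nat_lit 0) (XT.lf (nat_lit 84) (nat_lit 7857366338) (nat_lit 0) (nat_lit 11635648619) (nat_lit 1008) (nat_lit 4431662955) (nat_lit 83) (nat_lit 5) (nat_lit 82) (nat_lit 5) (nat_lit 94) (nat_lit 5) (nat_lit 356) (nat_lit 350) (nat_lit 182)) (XT.lf (nat_lit 84) (nat_lit 15978289916) (nat_lit 0) (nat_lit 4246311196) (nat_lit 1008) (nat_lit 4091650543) (nat_lit 83) (nat_lit 5) (nat_lit 82) (nat_lit 5) (nat_lit 94) (nat_lit 5) (nat_lit 357) (nat_lit 350) (nat_lit 181)))) (XT.nd (nat_lit 188) (nat_lit 0) (nat_lit 0) (XT.nd (nat_lit 94) (nat_lit 0) (nat_lit 0) (XT.lf (nat_lit 0) (nat_lit 21008733762) (nat_lit 924) (nat_lit 404793633) (nat_lit 1008) (nat_lit 3305537105) (nat_lit 83) (nat_lit 5) (nat_lit 94) (nat_lit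 5) (nat_lit 95) (nat_lit 5) (nat_lit 358) (nat_lit 350) (nat_lit 180)) (XT.lf (nat_lit 84) (nat_lit 7887519236) (nat_lit 0) (nat_lit 14047853718) (nat_lit 1008) (nat_lit 3195352852) (nat_lit 84) (nat_lit 5) (nat_lit 83) (nat_lit 5) (nat_lit 95) (nat_lit 5) (nat_lit 359) (nat_lit 350) (nat_lit 179))) (XT.nd (nat_lit 94) (nat_lit 0) (nat_lit 84) (XT.lf (nat_lit 84) (nat_lit 16443228587) (nat_lit 0) (nat_lit 6448340322) (nat_lit 1008) (nat_lit 2663578595) (nat_lit 84) (nat_lit 5) (nat_lit 83) (nat_lit 5) (nat_lit 95) (nat_lit 5) (nat_lit 360) (nat_lit 350) (nat_lit 178)) (XT.lf (nat_lit 0) (nat_lit 23887882585) (nat_lit 924) (nat_lit 744634246) (nat_lit 1008) (nat_lit 1359908608) (nat_lit 84) (nat_lit 5) (nat_lit 95) (nat_lit 5) (nat_lit 96) (nat_lit 5) (nat_lit 361) (nat_lit 350) (nat_lit 177))))) (XT.nd (nat_lit 376) (nat_lit 0) (nat_lit 84) (XT.nd (nat_lit 188) (nat_lit 1008) (nat_lit 0)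 (XT.nd (nat_lit 94) (nat_lit 0) (nat_lit 0) (XT.lf (nat_lit 84) (nat_lit 7974506991) (nat_lit 0) (nat_lit 17082451933) (nat_lit 1008) (nat_lit 1381925071) (nat_lit 85) (nat_lit 5) (nat_lit 84) (nat_lit 5) (nat_lit 96) (nat_lit 5) (nat_lit 362) (nat_lit 350) (nat_lit 176)) (XT.lf (nat_lit 84) (nat_lit 16977503757) (nat_lit 0) (nat_lit 9289436451) (nat_lit 1008) (nat_lit 632120480) (nat_lit 85) (nat_lit 5) (nat_lit 84) (nat_lit 5) (nat_lit 96) (nat_lit 5) (nat_lit 363) (nat_lit 350) (nat_lit 175))) (XT.nd (nat_lit 94) (nat_lit 0) (nat_lit 84) (XT.lf (nat_lit 0) (nat_lit 135021049) (nat_lit 1008) (nat_lit 1117548542) (nat_lit 1092) (nat_lit 26121006187) (nat_lit 72) (nat_lit 5) (nat_lit 84) (nat_lit 5) (nat_lit 85) (nat_lit 5) (nat_lit 364) (nat_lit 350) (nat_lit 174)) (XT.lf (nat_lit 0) (nat_lit 1061002051) (nat_lit 1008) (nat_lit 19816658862) (nat_lit 1092) (nat_lit 6980366178) (nat_lit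 73) (nat_lit 5) (nat_lit 85) (nat_lit 5) (nat_lit 86) (nat_lit 5) (nat_lit 365) (nat_lit 350) (nat_lit 173)))) (XT.nd (nat_lit 54332) (nat_lit 0) (nat_lit 672) (XT.nd (nat_lit 94) (nat_lit 0) (nat_lit 0) (XT.lf (nat_lit 0) (nat_lit 2037383758) (nat_lit 1008) (nat_lit 10864431281) (nat_lit 1092) (nat_lit 15455028708) (nat_lit 73) (nat_lit 5) (nat_lit 85) (nat_lit 5) (nat_lit 86) (nat_lit 5) (nat_lit 366) (nat_lit 350) (nat_lit 172)) (XT.lf (nat_lit 0) (nat_lit 3041220722) (nat_lit 1008) (nat_lit 1636885633) (nat_lit 1092) (nat_lit 24193123864) (nat_lit 73) (nat_lit 5) (nat_lit 85) (nat_lit 5) (nat_lit 86) (nat_lit 5) (nat_lit 367) (nat_lit 350) (nat_lit 171))) (XT.nd (nat_lit 94) (nat_lit 0) (nat_lit 0) (XT.lf (nat_lit 0) (nat_lit 4264534891) (nat_lit 0) (nat_lit 4264534891) (nat_lit 924) (nat_lit 2697717334) (nat_lit 81) (nat_lit 5) (nat_lit 81) (nat_lit 3) (nat_lit 92) (nat_lit 3) (nat_lit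 351) (nat_lit 351) (nat_lit 186)) (XT.nd (nat_lit 94) (nat_lit 0) (nat_lit 0) (XT.lf (nat_lit 0) (nat_lit 16045120602) (nat_lit 0) (nat_lit 1378098078) (nat_lit 924) (nat_lit 5374530222) (nat_lit 81) (nat_lit 5) (nat_lit 81) (nat_lit 3) (nat_lit 92) (nat_lit 3) (nat_lit 352) (nat_lit 351) (nat_lit 185)) (XT.lf (nat_lit 84) (nat_lit 591829413) (nat_lit 0) (nat_lit 17269086819) (nat_lit 1008) (nat_lit 5289806027) (nat_lit 82) (nat_lit 5) (nat_lit 81) (nat_lit 5) (nat_lit 93) (nat_lit 5) (nat_lit 353) (nat_lit 351) (nat_lit 184))))))) (XT.nd (nat_lit 846) (nat_lit 756) (nat_lit 0) (XT.nd (nat_lit 376) (nat_lit 0) (nat_lit 84) (XT.nd (nat_lit 188) (nat_lit 0) (nat_lit 84) (XT.nd (nat_lit 94) (nat_lit 0) (nat_lit 0) (XT.lf (nat_lit 84) (nat_lit 8290551354) (nat_lit 0) (nat_lit 10102129634) (nat_lit 1008) (nat_lit 5119490061) (nat_lit 82) (nat_lit 5) (nat_lit 81) (nat_lit 5) (nat_lit 93) (nat_lit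 5) (nat_lit 354) (nat_lit 351) (nat_lit 183)) (XT.lf (nat_lit 84) (nat_lit 16225817658) (nat_lit 0) (nat_lit 2711294156) (nat_lit 1008) (nat_lit 4947859169) (nat_lit 82) (nat_lit 5) (nat_lit 81) (nat_lit 5) (nat_lit 93) (nat_lit 5) (nat_lit 355) (nat_lit 351) (nat_lit 182))) (XT.nd (nat_lit 94) (nat_lit 0) (nat_lit 0) (XT.lf (nat_lit 84) (nat_lit 88630104) (nat_lit 0) (nat_lit 19455676163) (nat_lit 1008) (nat_lit 4723625987) (nat_lit 83) (nat_lit 5) (nat_lit 82) (nat_lit 5) (nat_lit 94) (nat_lit 5) (nat_lit 356) (nat_lit 351) (nat_lit 181)) (XT.lf (nat_lit 84) (nat_lit 8208476267) (nat_lit 0) (nat_lit 12065644481) (nat_lit 1008) (nat_lit 4385453073) (nat_lit 83) (nat_lit 5) (nat_lit 82) (nat_lit 5) (nat_lit 94) (nat_lit 5) (nat_lit 357) (nat_lit 351) (nat_lit 180)))) (XT.nd (nat_lit 188) (nat_lit 0) (nat_lit 84) (XT.nd (nat_lit 94) (nat_lit 0) (nat_lit 84) (XT.lf (nat_lit 84) (nat_lit 16577915228)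 (nat_lit 0) (nat_lit 4445154171) (nat_lit 1008) (nat_lit 4040420484) (nat_lit 83) (nat_lit 5) (nat_lit 82) (nat_lit 5) (nat_lit 94) (nat_lit 5) (nat_lit 358) (nat_lit 351) (nat_lit 179)) (XT.lf (nat_lit 0) (nat_lit 21825706689) (nat_lit 924) (nat_lit 309165123) (nat_lit 1008) (nat_lit 3344135574) (nat_lit 83) (nat_lit 5) (nat_lit 94) (nat_lit 5) (nat_lit 95) (nat_lit 5) (nat_lit 359) (nat_lit 351) (nat_lit 178))) (XT.nd (nat_lit 94) (nat_lit 0) (nat_lit 0) (XT.lf (nat_lit 84) (nat_lit 8239114249) (nat_lit 0) (nat_lit 14538037397) (nat_lit 1008) (nat_lit 3126436491) (nat_lit 84) (nat_lit 5) (nat_lit 83) (nat_lit 5) (nat_lit 95) (nat_lit 5) (nat_lit 360) (nat_lit 351) (nat_lit 177)) (XT.nd (nat_lit 94) (nat_lit 0) (nat_lit 84) (XT.lf (nat_lit 84) (nat_lit 17056830862) (nat_lit 0) (nat_lit 6701294365) (nat_lit 1008) (nat_lit 2583227805) (nat_lit 84) (nat_lit 5) (nat_lit 83) (nat_lit 5) (nat_lit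 95) (nat_lit 5) (nat_lit 361) (nat_lit 351) (nat_lit 176)) (XT.lf (nat_lit 0) (nat_lit 24780095950) (nat_lit 924) (nat_lit 660644630) (nat_lit 1008) (nat_lit 1351642357) (nat_lit 84) (nat_lit 5) (nat_lit 95) (nat_lit 5) (nat_lit 96) (nat_lit 5) (nat_lit 362) (nat_lit 351) (nat_lit 175)))))) (XT.nd (nat_lit 54708) (nat_lit 0) (nat_lit 756) (XT.nd (nat_lit 188) (nat_lit 1008) (nat_lit 0) (XT.nd (nat_lit 94) (nat_lit 0) (nat_lit 0) (XT.lf (nat_lit 84) (nat_lit 8327705965) (nat_lit 0) (nat_lit 17654198148) (nat_lit 1008) (nat_lit 1270919626) (nat_lit 85) (nat_lit 5) (nat_lit 84) (nat_lit 5) (nat_lit 96) (nat_lit 5) (nat_lit 363) (nat_lit 351) (nat_lit 174)) (XT.lf (nat_lit 84) (nat_lit 17606608757) (nat_lit 0) (nat_lit 9618330616) (nat_lit 1008) (nat_lit 502496892) (nat_lit 85) (nat_lit 5) (nat_lit 84) (nat_lit 5) (nat_lit 96) (nat_lit 5) (nat_lit 364) (nat_lit 351) (nat_lit 173))) (XT.nd (nat_lit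 94) (nat_lit 0) (nat_lit 84) (XT.lf (nat_lit 0) (nat_lit 281023274) (nat_lit 1008) (nat_lit 1048586907) (nat_lit 1092) (nat_lit 26887171864) (nat_lit 72) (nat_lit 5) (nat_lit 84) (nat_lit 5) (nat_lit 85) (nat_lit 5) (nat_lit 365) (nat_lit 351) (nat_lit 172)) (XT.lf (nat_lit 0) (nat_lit 1232105683) (nat_lit 1008) (nat_lit 20322816789) (nat_lit 1092) (nat_lit 7161470016) (nat_lit 73) (nat_lit 5) (nat_lit 85) (nat_lit 5) (nat_lit 86) (nat_lit 5) (nat_lit 366) (nat_lit 351) (nat_lit 171)))) (XT.nd (nat_lit 188) (nat_lit 0) (nat_lit 0) (XT.nd (nat_lit 94) (nat_lit 0) (nat_lit 0) (XT.lf (nat_lit 0) (nat_lit 4446575079) (nat_lit 0) (nat_lit 4446575079) (nat_lit 924) (nat_lit 2677849874) (nat_lit 81) (nat_lit 5) (nat_lit 81) (nat_lit 3) (nat_lit 92) (nat_lit 3) (nat_lit 352) (nat_lit 352) (nat_lit 184)) (XT.lf (nat_lit 0) (nat_lit 16639201409) (nat_lit 0) (nat_lit 1517501187) (nat_lit 924) (nat_lit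 5340371121) (nat_lit 81) (nat_lit 5) (nat_lit 81) (nat_lit 3) (nat_lit 92) (nat_lit 3) (nat_lit 353) (nat_lit 352) (nat_lit 183))) (XT.nd (nat_lit 94) (nat_lit 0) (nat_lit 0) (XT.lf (nat_lit 84) (nat_lit 714159190) (nat_lit 0) (nat_lit 17888096795) (nat_lit 1008) (nat_lit 5258952789) (nat_lit 82) (nat_lit 5) (nat_lit 81) (nat_lit 5) (nat_lit 93) (nat_lit 5) (nat_lit 354) (nat_lit 352) (nat_lit 182)) (XT.nd (nat_lit 94) (nat_lit 0) (nat_lit 0) (XT.lf (nat_lit 84) (nat_lit 8648414960) (nat_lit 0) (nat_lit 10496448207) (nat_lit 1008) (nat_lit 5089215374) (nat_lit 82) (nat_lit 5) (nat_lit 81) (nat_lit 5) (nat_lit 93) (nat_lit 5) (nat_lit 355) (nat_lit 352) (nat_lit 181)) (XT.lf (nat_lit 84) (nat_lit 16826641976) (nat_lit 0) (nat_lit 2874056743) (nat_lit 1008) (nat_lit 4917946121) (nat_lit 82) (nat_lit 5) (nat_lit 81) (nat_lit 5) (nat_lit 93) (nat_lit 5) (nat_lit 356) (nat_lit 352) (nat_lit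 180))))))))
noncomputable def xc126 : XT := (XT.nd (nat_lit 56024) (nat_lit 0) (nat_lit 756) (XT.nd (nat_lit 752) (nat_lit 840) (nat_lit 0) (XT.nd (nat_lit 376) (nat_lit 0) (nat_lit 84) (XT.nd (nat_lit 188) (nat_lit 0) (nat_lit 0) (XT.nd (nat_lit 94) (nat_lit 0) (nat_lit 0) (XT.lf (nat_lit 84) (nat_lit 195675962) (nat_lit 0) (nat_lit 20126009452) (nat_lit 1008) (nat_lit 4691987167) (nat_lit 83) (nat_lit 5) (nat_lit 82) (nat_lit 5) (nat_lit 94) (nat_lit 5) (nat_lit 357) (nat_lit 352) (nat_lit 179)) (XT.lf (nat_lit 84) (nat_lit 8564101325) (nat_lit 0) (nat_lit 12504866005) (nat_lit 1008) (nat_lit 4348685119) (nat_lit 83) (nat_lit 5) (nat_lit 82) (nat_lit 5) (nat_lit 94) (nat_lit 5) (nat_lit 358) (nat_lit 352) (nat_lit 178))) (XT.nd (nat_lit 94) (nat_lit 0) (nat_lit 84) (XT.lf (nat_lit 84) (nat_lit 17189951156) (nat_lit 0) (nat_lit 4646180473) (nat_lit 1008) (nat_lit 3998149757) (nat_lit 83)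 (nat_lit 5) (nat_lit 82) (nat_lit 5) (nat_lit 94) (nat_lit 5) (nat_lit 359) (nat_lit 352) (nat_lit 177)) (XT.lf (nat_lit 0) (nat_lit 22658190952) (nat_lit 924) (nat_lit 216979645) (nat_lit 1008) (nat_lit 3387713913) (nat_lit 83) (nat_lit 5) (nat_lit 94) (nat_lit 5) (nat_lit 95) (nat_lit 5) (nat_lit 360) (nat_lit 352) (nat_lit 176)))) (XT.nd (nat_lit 188) (nat_lit 0) (nat_lit 84) (XT.nd (nat_lit 94) (nat_lit 0) (nat_lit 0) (XT.lf (nat_lit 84) (nat_lit 8595266061) (nat_lit 0) (nat_lit 15040176782) (nat_lit 1008) (nat_lit 3065333010) (nat_lit 84) (nat_lit 5) (nat_lit 83) (nat_lit 5) (nat_lit 95) (nat_lit 5) (nat_lit 361) (nat_lit 352) (nat_lit 175)) (XT.lf (nat_lit 84) (nat_lit 17683302872) (nat_lit 0) (nat_lit 6958947416) (nat_lit 1008) (nat_lit 2510036274) (nat_lit 84) (nat_lit 5) (nat_lit 83) (nat_lit 5) (nat_lit 95) (nat_lit 5) (nat_lit 362) (nat_lit 352) (nat_lit 174))) (XT.nd (nat_lit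 94) (nat_lit 0) (nat_lit 0) (XT.lf (nat_lit 0) (nat_lit 25690983131) (nat_lit 924) (nat_lit 580393469) (nat_lit 1008) (nat_lit 1346106518) (nat_lit 84) (nat_lit 5) (nat_lit 95) (nat_lit 5) (nat_lit 96) (nat_lit 5) (nat_lit 363) (nat_lit 352) (nat_lit 173)) (XT.lf (nat_lit 84) (nat_lit 8685576183) (nat_lit 0) (nat_lit 18241169498) (nat_lit 1008) (nat_lit 1165585522) (nat_lit 85) (nat_lit 5) (nat_lit 84) (nat_lit 5) (nat_lit 96) (nat_lit 5) (nat_lit 364) (nat_lit 352) (nat_lit 172))))) (XT.nd (nat_lit 54802) (nat_lit 0) (nat_lit 756) (XT.nd (nat_lit 54614) (nat_lit 0) (nat_lit 756) (XT.nd (nat_lit 94) (nat_lit 1008) (nat_lit 0) (XT.lf (nat_lit 84) (nat_lit 18249126851) (nat_lit 0) (nat_lit 9954996642) (nat_lit 1008) (nat_lit 377693488) (nat_lit 85) (nat_lit 5) (nat_lit 84) (nat_lit 5) (nat_lit 96) (nat_lit 5) (nat_lit 365) (nat_lit 352) (nat_lit 171)) (XT.lf (nat_lit 0) (nat_lit 423151530)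 (nat_lit 1008) (nat_lit 983624201) (nat_lit 1092) (nat_lit 27679670322) (nat_lit 72) (nat_lit 5) (nat_lit 84) (nat_lit 5) (nat_lit 85) (nat_lit 5) (nat_lit 366) (nat_lit 352) (nat_lit 170))) (XT.nd (nat_lit 94) (nat_lit 0) (nat_lit 0) (XT.lf (nat_lit 0) (nat_lit 4631306428) (nat_lit 0) (nat_lit 4631306428) (nat_lit 924) (nat_lit 2663496810) (nat_lit 81) (nat_lit 5) (nat_lit 81) (nat_lit 3) (nat_lit 92) (nat_lit 3) (nat_lit 353) (nat_lit 353) (nat_lit 182)) (XT.lf (nat_lit 0) (nat_lit 17245972077) (nat_lit 0) (nat_lit 1655499147) (nat_lit 924) (nat_lit 5317045011) (nat_lit 81) (nat_lit 5) (nat_lit 81) (nat_lit 3) (nat_lit 92) (nat_lit 3) (nat_lit 354) (nat_lit 353) (nat_lit 181)))) (XT.nd (nat_lit 188) (nat_lit 0) (nat_lit 0) (XT.nd (nat_lit 94) (nat_lit 0) (nat_lit 0) (XT.lf (nat_lit 84) (nat_lit 834122095) (nat_lit 0) (nat_lit 18521340264) (nat_lit 1008) (nat_lit 5238683643) (nat_lit 82)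 (nat_lit 5) (nat_lit 81) (nat_lit 5) (nat_lit 93) (nat_lit 5) (nat_lit 355) (nat_lit 353) (nat_lit 180)) (XT.lf (nat_lit 84) (nat_lit 9011398433) (nat_lit 0) (nat_lit 10898183852) (nat_lit 1008) (nat_lit 5069195714) (nat_lit 82) (nat_lit 5) (nat_lit 81) (nat_lit 5) (nat_lit 93) (nat_lit 5) (nat_lit 356) (nat_lit 353) (nat_lit 179))) (XT.nd (nat_lit 94) (nat_lit 0) (nat_lit 84) (XT.lf (nat_lit 84) (nat_lit 17440297566) (nat_lit 0) (nat_lit 3037202696) (nat_lit 1008) (nat_lit 4897962745) (nat_lit 82) (nat_lit 5) (nat_lit 81) (nat_lit 5) (nat_lit 93) (nat_lit 5) (nat_lit 357) (nat_lit 353) (nat_lit 178)) (XT.nd (nat_lit 94) (nat_lit 0) (nat_lit 0) (XT.lf (nat_lit 84) (nat_lit 299862473) (nat_lit 0) (nat_lit 20813142268) (nat_lit 1008) (nat_lit 4669915007) (nat_lit 83) (nat_lit 5) (nat_lit 82) (nat_lit 5) (nat_lit 94) (nat_lit 5) (nat_lit 358) (nat_lit 353) (nat_lit 177)) (XT.lf (nat_lit 84)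 (nat_lit 8924758744) (nat_lit 0) (nat_lit 12953842285) (nat_lit 1008) (nat_lit 4321007683) (nat_lit 83) (nat_lit 5) (nat_lit 82) (nat_lit 5) (nat_lit 94) (nat_lit 5) (nat_lit 359) (nat_lit 353) (nat_lit 176))))))) (XT.nd (nat_lit 55366) (nat_lit 0) (nat_lit 0) (XT.nd (nat_lit 376) (nat_lit 84) (nat_lit 0) (XT.nd (nat_lit 188) (nat_lit 0) (nat_lit 84) (XT.nd (nat_lit 94) (nat_lit 0) (nat_lit 84) (XT.lf (nat_lit 84) (nat_lit 17815148350) (nat_lit 0) (nat_lit 4849693576) (nat_lit 1008) (nat_lit 3964491357) (nat_lit 83) (nat_lit 5) (nat_lit 82) (nat_lit 5) (nat_lit 94) (nat_lit 5) (nat_lit 360) (nat_lit 353) (nat_lit 175)) (XT.lf (nat_lit 0) (nat_lit 23507248753) (nat_lit 924) (nat_lit 127964405) (nat_lit 1008) (nat_lit 3436202406) (nat_lit 83) (nat_lit 5) (nat_lit 94) (nat_lit 5) (nat_lit 95) (nat_lit 5) (nat_lit 361) (nat_lit 353) (nat_lit 174))) (XT.nd (nat_lit 94) (nat_lit 0) (nat_lit 0)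 (XT.lf (nat_lit 84) (nat_lit 8956491621) (nat_lit 0) (nat_lit 15554834412) (nat_lit 1008) (nat_lit 3011695294) (nat_lit 84) (nat_lit 5) (nat_lit 83) (nat_lit 5) (nat_lit 95) (nat_lit 5) (nat_lit 362) (nat_lit 353) (nat_lit 173)) (XT.lf (nat_lit 84) (nat_lit 18323407969) (nat_lit 0) (nat_lit 7221631284) (nat_lit 1008) (nat_lit 2443654344) (nat_lit 84) (nat_lit 5) (nat_lit 83) (nat_lit 5) (nat_lit 95) (nat_lit 5) (nat_lit 363) (nat_lit 353) (nat_lit 172)))) (XT.nd (nat_lit 54802) (nat_lit 252) (nat_lit 0) (XT.nd (nat_lit 94) (nat_lit 0) (nat_lit 0) (XT.lf (nat_lit 0) (nat_lit 26621655200) (nat_lit 924) (nat_lit 503621000) (nat_lit 1008) (nat_lit 1343208828) (nat_lit 84) (nat_lit 5) (nat_lit 95) (nat_lit 5) (nat_lit 96) (nat_lit 5) (nat_lit 364) (nat_lit 353) (nat_lit 171)) (XT.lf (nat_lit 84) (nat_lit 9048634303) (nat_lit 0) (nat_lit 18843985982) (nat_lit 1008) (nat_lit 1065558821) (nat_lit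 85) (nat_lit 5) (nat_lit 84) (nat_lit 5) (nat_lit 96) (nat_lit 5) (nat_lit 365) (nat_lit 353) (nat_lit 170))) (XT.nd (nat_lit 94) (nat_lit 0) (nat_lit 0) (XT.lf (nat_lit 0) (nat_lit 4818987220) (nat_lit 0) (nat_lit 4818987220) (nat_lit 924) (nat_lit 2654465981) (nat_lit 81) (nat_lit 5) (nat_lit 81) (nat_lit 3) (nat_lit 92) (nat_lit 3) (nat_lit 354) (nat_lit 354) (nat_lit 180)) (XT.lf (nat_lit 0) (nat_lit 17866165190) (nat_lit 0) (nat_lit 1792387600) (nat_lit 924) (nat_lit 5304183337) (nat_lit 81) (nat_lit 5) (nat_lit 81) (nat_lit 3) (nat_lit 92) (nat_lit 3) (nat_lit 355) (nat_lit 354) (nat_lit 179))))) (XT.nd (nat_lit 376) (nat_lit 0) (nat_lit 84) (XT.nd (nat_lit 188) (nat_lit 0) (nat_lit 0) (XT.nd (nat_lit 94) (nat_lit 0) (nat_lit 0) (XT.lf (nat_lit 84) (nat_lit 952009569) (nat_lit 0) (nat_lit 19169552006) (nat_lit 1008) (nat_lit 5228643131) (nat_lit 82) (nat_lit 5) (nat_lit 81) (nat_lit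 5) (nat_lit 93) (nat_lit 5) (nat_lit 356) (nat_lit 354) (nat_lit 178)) (XT.lf (nat_lit 84) (nat_lit 9380014334) (nat_lit 0) (nat_lit 11307851212) (nat_lit 1008) (nat_lit 5059085974) (nat_lit 82) (nat_lit 5) (nat_lit 81) (nat_lit 5) (nat_lit 93) (nat_lit 5) (nat_lit 357) (nat_lit 354) (nat_lit 177))) (XT.nd (nat_lit 94) (nat_lit 0) (nat_lit 84) (XT.lf (nat_lit 84) (nat_lit 18067525404) (nat_lit 0) (nat_lit 3201020054) (nat_lit 1008) (nat_lit 4887573783) (nat_lit 82) (nat_lit 5) (nat_lit 81) (nat_lit 5) (nat_lit 93) (nat_lit 5) (nat_lit 358) (nat_lit 354) (nat_lit 176)) (XT.lf (nat_lit 84) (nat_lit 401466918) (nat_lit 0) (nat_lit 21517831186) (nat_lit 1008) (nat_lit 4657081329) (nat_lit 83) (nat_lit 5) (nat_lit 82) (nat_lit 5) (nat_lit 94) (nat_lit 5) (nat_lit 359) (nat_lit 354) (nat_lit 175)))) (XT.nd (nat_lit 188) (nat_lit 0) (nat_lit 84) (XT.nd (nat_lit 94) (nat_lit 0) (nat_lit 0) (XT.lf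 (nat_lit 84) (nat_lit 9290959444) (nat_lit 0) (nat_lit 13413104420) (nat_lit 1008) (nat_lit 4302096610) (nat_lit 83) (nat_lit 5) (nat_lit 82) (nat_lit 5) (nat_lit 94) (nat_lit 5) (nat_lit 360) (nat_lit 354) (nat_lit 174)) (XT.lf (nat_lit 84) (nat_lit 18454259053) (nat_lit 0) (nat_lit 5055992393) (nat_lit 1008) (nat_lit 3939124525) (nat_lit 83) (nat_lit 5) (nat_lit 82) (nat_lit 5) (nat_lit 94) (nat_lit 5) (nat_lit 361) (nat_lit 354) (nat_lit 173))) (XT.nd (nat_lit 94) (nat_lit 0) (nat_lit 0) (XT.lf (nat_lit 0) (nat_lit 24373940784) (nat_lit 924) (nat_lit 41860632) (nat_lit 1008) (nat_lit 3489542449) (nat_lit 83) (nat_lit 5) (nat_lit 94) (nat_lit 5) (nat_lit 95) (nat_lit 5) (nat_lit 362) (nat_lit 354) (nat_lit 172)) (XT.nd (nat_lit 94) (nat_lit 0) (nat_lit 0) (XT.lf (nat_lit 84) (nat_lit 9323301646) (nat_lit 0) (nat_lit 16082578893) (nat_lit 1008) (nat_lit 2965200375) (nat_lit 84) (nat_lit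 5) (nat_lit 83) (nat_lit 5) (nat_lit 95) (nat_lit 5) (nat_lit 363) (nat_lit 354) (nat_lit 171)) (XT.lf (nat_lit 84) (nat_lit 18977911584) (nat_lit 0) (nat_lit 7489677037) (nat_lit 1008) (nat_lit 2383755376) (nat_lit 84) (nat_lit 5) (nat_lit 83) (nat_lit 5) (nat_lit 95) (nat_lit 5) (nat_lit 364) (nat_lit 354) (nat_lit 170))))))))
noncomputable def xc127 : XT := (XT.nd (nat_lit 111202) (nat_lit 0) (nat_lit 0) (XT.nd (nat_lit 55460) (nat_lit 0) (nat_lit 0) (XT.nd (nat_lit 55084) (nat_lit 0) (nat_lit 0) (XT.nd (nat_lit 54896) (nat_lit 0) (nat_lit 0) (XT.nd (nat_lit 54802) (nat_lit 252) (nat_lit 0) (XT.lf (nat_lit 0) (nat_lit 27573226151) (nat_lit 924) (nat_lit 430081658) (nat_lit 1008) (nat_lit 1342864643) (nat_lit 84) (nat_lit 5) (nat_lit 95) (nat_lit 5) (nat_lit 96) (nat_lit 5) (nat_lit 365) (nat_lit 354) (nat_lit 169)) (XT.lf (nat_lit 0) (nat_lit 5009873389) (nat_lit 0) (nat_lit 5009873389)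 (nat_lit 924) (nat_lit 2650580774) (nat_lit 81) (nat_lit 5) (nat_lit 81) (nat_lit 3) (nat_lit 92) (nat_lit 3) (nat_lit 355) (nat_lit 355) (nat_lit 178))) (XT.nd (nat_lit 94) (nat_lit 0) (nat_lit 0) (XT.lf (nat_lit 0) (nat_lit 18500515951) (nat_lit 0) (nat_lit 1928451256) (nat_lit 924) (nat_lit 5301447837) (nat_lit 81) (nat_lit 5) (nat_lit 81) (nat_lit 3) (nat_lit 92) (nat_lit 3) (nat_lit 356) (nat_lit 355) (nat_lit 177)) (XT.lf (nat_lit 84) (nat_lit 1068100478) (nat_lit 0) (nat_lit 19833472193) (nat_lit 1008) (nat_lit 5228505261) (nat_lit 82) (nat_lit 5) (nat_lit 81) (nat_lit 5) (nat_lit 93) (nat_lit 5) (nat_lit 357) (nat_lit 355) (nat_lit 176)))) (XT.nd (nat_lit 188) (nat_lit 0) (nat_lit 84) (XT.nd (nat_lit 94) (nat_lit 0) (nat_lit 0) (XT.lf (nat_lit 84) (nat_lit 9754770155) (nat_lit 0) (nat_lit 11725964022) (nat_lit 1008) (nat_lit 5058569621) (nat_lit 82) (nat_lit 5) (nat_lit 81) (nat_lit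 5) (nat_lit 93) (nat_lit 5) (nat_lit 358) (nat_lit 355) (nat_lit 175)) (XT.lf (nat_lit 84) (nat_lit 18709069105) (nat_lit 0) (nat_lit 3365789428) (nat_lit 1008) (nat_lit 4886471676) (nat_lit 82) (nat_lit 5) (nat_lit 81) (nat_lit 5) (nat_lit 93) (nat_lit 5) (nat_lit 359) (nat_lit 355) (nat_lit 174))) (XT.nd (nat_lit 94) (nat_lit 0) (nat_lit 0) (XT.lf (nat_lit 84) (nat_lit 500753497) (nat_lit 0) (nat_lit 22240842268) (nat_lit 1008) (nat_lit 4653184787) (nat_lit 83) (nat_lit 5) (nat_lit 82) (nat_lit 5) (nat_lit 94) (nat_lit 5) (nat_lit 360) (nat_lit 355) (nat_lit 173)) (XT.lf (nat_lit 84) (nat_lit 9663209162) (nat_lit 0) (nat_lit 13883186424) (nat_lit 1008) (nat_lit 4291653590) (nat_lit 83) (nat_lit 5) (nat_lit 82) (nat_lit 5) (nat_lit 94) (nat_lit 5) (nat_lit 361) (nat_lit 355) (nat_lit 172))))) (XT.nd (nat_lit 55272) (nat_lit 0) (nat_lit 0) (XT.nd (nat_lit 188) (nat_lit 84) (nat_lit 0) (XT.nd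 (nat_lit 94) (nat_lit 0) (nat_lit 84) (XT.lf (nat_lit 84) (nat_lit 19108038442) (nat_lit 0) (nat_lit 5265371966) (nat_lit 1008) (nat_lit 3921753375) (nat_lit 83) (nat_lit 5) (nat_lit 82) (nat_lit 5) (nat_lit 94) (nat_lit 5) (nat_lit 362) (nat_lit 355) (nat_lit 171)) (XT.lf (nat_lit 84) (nat_lit 42432232) (nat_lit 0) (nat_lit 25217316929) (nat_lit 1008) (nat_lit 3505674809) (nat_lit 84) (nat_lit 5) (nat_lit 83) (nat_lit 5) (nat_lit 95) (nat_lit 5) (nat_lit 363) (nat_lit 355) (nat_lit 170))) (XT.nd (nat_lit 54990) (nat_lit 168) (nat_lit 0) (XT.lf (nat_lit 84) (nat_lit 9696201755) (nat_lit 0) (nat_lit 16623985768) (nat_lit 1008) (nat_lit 2925548112) (nat_lit 84) (nat_lit 5) (nat_lit 83) (nat_lit 5) (nat_lit 95) (nat_lit 5) (nat_lit 364) (nat_lit 355) (nat_lit 169)) (XT.lf (nat_lit 0) (nat_lit 5204219057) (nat_lit 0) (nat_lit 5204219057) (nat_lit 924) (nat_lit 2651679339) (nat_lit 81) (nat_lit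 5) (nat_lit 81) (nat_lit 3) (nat_lit 92) (nat_lit 3) (nat_lit 356) (nat_lit 356) (nat_lit 176)))) (XT.nd (nat_lit 188) (nat_lit 0) (nat_lit 0) (XT.nd (nat_lit 94) (nat_lit 0) (nat_lit 0) (XT.lf (nat_lit 0) (nat_lit 19149763455) (nat_lit 0) (nat_lit 2063964754) (nat_lit 924) (nat_lit 5308529017) (nat_lit 81) (nat_lit 5) (nat_lit 81) (nat_lit 3) (nat_lit 92) (nat_lit 3) (nat_lit 357) (nat_lit 356) (nat_lit 175)) (XT.lf (nat_lit 84) (nat_lit 1182662007) (nat_lit 0) (nat_lit 20513847582) (nat_lit 1008) (nat_lit 5237972030) (nat_lit 82) (nat_lit 5) (nat_lit 81) (nat_lit 5) (nat_lit 93) (nat_lit 5) (nat_lit 358) (nat_lit 356) (nat_lit 174))) (XT.nd (nat_lit 94) (nat_lit 0) (nat_lit 0) (XT.lf (nat_lit 84) (nat_lit 10136169401) (nat_lit 0) (nat_lit 12153036076) (nat_lit 1008) (nat_lit 5067357254) (nat_lit 82) (nat_lit 5) (nat_lit 81) (nat_lit 5) (nat_lit 93) (nat_lit 5) (nat_lit 359) (nat_lit 356)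 (nat_lit 173)) (XT.nd (nat_lit 94) (nat_lit 0) (nat_lit 84) (XT.lf (nat_lit 84) (nat_lit 19365676213) (nat_lit 0) (nat_lit 3531784739) (nat_lit 1008) (nat_lit 4894375164) (nat_lit 82) (nat_lit 5) (nat_lit 81) (nat_lit 5) (nat_lit 93) (nat_lit 5) (nat_lit 360) (nat_lit 356) (nat_lit 172)) (XT.lf (nat_lit 84) (nat_lit 597974213) (nat_lit 0) (nat_lit 22982952188) (nat_lit 1008) (nat_lit 4657949505) (nat_lit 83) (nat_lit 5) (nat_lit 82) (nat_lit 5) (nat_lit 94) (nat_lit 5) (nat_lit 361) (nat_lit 356) (nat_lit 171))))))) (XT.nd (nat_lit 55836) (nat_lit 0) (nat_lit 0) (XT.nd (nat_lit 55366) (nat_lit 0) (nat_lit 0) (XT.nd (nat_lit 188) (nat_lit 84) (nat_lit 0) (XT.nd (nat_lit 94) (nat_lit 0) (nat_lit 0) (XT.lf (nat_lit 84) (nat_lit 10042009537) (nat_lit 0) (nat_lit 14364626124) (nat_lit 1008) (nat_lit 4289404831) (nat_lit 83) (nat_lit 5) (nat_lit 82) (nat_lit 5) (nat_lit 94) (nat_lit 5) (nat_lit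 362) (nat_lit 356) (nat_lit 170)) (XT.lf (nat_lit 84) (nat_lit 19777245916) (nat_lit 0) (nat_lit 5478124123) (nat_lit 1008) (nat_lit 3912105596) (nat_lit 83) (nat_lit 5) (nat_lit 82) (nat_lit 5) (nat_lit 94) (nat_lit 5) (nat_lit 363) (nat_lit 356) (nat_lit 169))) (XT.nd (nat_lit 55084) (nat_lit 168) (nat_lit 0) (XT.lf (nat_lit 84) (nat_lit 125103362) (nat_lit 0) (nat_lit 26040612366) (nat_lit 1008) (nat_lit 3486733390) (nat_lit 84) (nat_lit 5) (nat_lit 83) (nat_lit 5) (nat_lit 95) (nat_lit 5) (nat_lit 364) (nat_lit 356) (nat_lit 168)) (XT.lf (nat_lit 0) (nat_lit 5402277058) (nat_lit 0) (nat_lit 5402277058) (nat_lit 924) (nat_lit 2657613842) (nat_lit 81) (nat_lit 5) (nat_lit 81) (nat_lit 3) (nat_lit 92) (nat_lit 3) (nat_lit 357) (nat_lit 357) (nat_lit 174)))) (XT.nd (nat_lit 188) (nat_lit 0) (nat_lit 0) (XT.nd (nat_lit 94) (nat_lit 0) (nat_lit 0) (XT.lf (nat_lit 0) (nat_lit 19814651925)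 (nat_lit 0) (nat_lit 2199193464) (nat_lit 924) (nat_lit 5325144713) (nat_lit 81) (nat_lit 5) (nat_lit 81) (nat_lit 3) (nat_lit 92) (nat_lit 3) (nat_lit 358) (nat_lit 357) (nat_lit 173)) (XT.lf (nat_lit 84) (nat_lit 1295950495) (nat_lit 0) (nat_lit 21211432696) (nat_lit 1008) (nat_lit 5256772028) (nat_lit 82) (nat_lit 5) (nat_lit 81) (nat_lit 5) (nat_lit 93) (nat_lit 5) (nat_lit 359) (nat_lit 357) (nat_lit 172))) (XT.nd (nat_lit 94) (nat_lit 0) (nat_lit 0) (XT.lf (nat_lit 84) (nat_lit 10524712636) (nat_lit 0) (nat_lit 12589582172) (nat_lit 1008) (nat_lit 5085185257) (nat_lit 82) (nat_lit 5) (nat_lit 81) (nat_lit 5) (nat_lit 93) (nat_lit 5) (nat_lit 360) (nat_lit 357) (nat_lit 171)) (XT.nd (nat_lit 94) (nat_lit 0) (nat_lit 84) (XT.lf (nat_lit 84) (nat_lit 20038099454) (nat_lit 0) (nat_lit 3699273923) (nat_lit 1008) (nat_lit 4911027979) (nat_lit 82) (nat_lit 5) (nat_lit 81) (nat_lit 5) (nat_lit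 93) (nat_lit 5) (nat_lit 361) (nat_lit 357) (nat_lit 170)) (XT.lf (nat_lit 84) (nat_lit 693369697) (nat_lit 0) (nat_lit 23744949332) (nat_lit 1008) (nat_lit 4671123806) (nat_lit 83) (nat_lit 5) (nat_lit 82) (nat_lit 5) (nat_lit 94) (nat_lit 5) (nat_lit 362) (nat_lit 357) (nat_lit 169)))))) (XT.nd (nat_lit 55554) (nat_lit 0) (nat_lit 0) (XT.nd (nat_lit 55366) (nat_lit 0) (nat_lit 0) (XT.nd (nat_lit 55272) (nat_lit 84) (nat_lit 0) (XT.lf (nat_lit 84) (nat_lit 10427859149) (nat_lit 0) (nat_lit 14857966029) (nat_lit 1008) (nat_lit 4295099821) (nat_lit 83) (nat_lit 5) (nat_lit 82) (nat_lit 5) (nat_lit 94) (nat_lit 5) (nat_lit 363) (nat_lit 357) (nat_lit 168)) (XT.lf (nat_lit 0) (nat_lit 5604299443) (nat_lit 0) (nat_lit 5604299443) (nat_lit 924) (nat_lit 2668249772) (nat_lit 81) (nat_lit 5) (nat_lit 81) (nat_lit 3) (nat_lit 92) (nat_lit 3) (nat_lit 358) (nat_lit 358) (nat_lit 172))) (XT.nd (nat_lit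 94) (nat_lit 0) (nat_lit 0) (XT.lf (nat_lit 0) (nat_lit 20495931926) (nat_lit 0) (nat_lit 2334394252) (nat_lit 924) (nat_lit 5351038749) (nat_lit 81) (nat_lit 5) (nat_lit 81) (nat_lit 3) (nat_lit 92) (nat_lit 3) (nat_lit 359) (nat_lit 358) (nat_lit 171)) (XT.lf (nat_lit 84) (nat_lit 1408212239) (nat_lit 0) (nat_lit 21926990968) (nat_lit 1008) (nat_lit 5284659146) (nat_lit 82) (nat_lit 5) (nat_lit 81) (nat_lit 5) (nat_lit 93) (nat_lit 5) (nat_lit 360) (nat_lit 358) (nat_lit 170)))) (XT.nd (nat_lit 55554) (nat_lit 0) (nat_lit 0) (XT.nd (nat_lit 94) (nat_lit 0) (nat_lit 0) (XT.lf (nat_lit 84) (nat_lit 10920898494) (nat_lit 0) (nat_lit 13036119023) (nat_lit 1008) (nat_lit 5111814540) (nat_lit 82) (nat_lit 5) (nat_lit 81) (nat_lit 5) (nat_lit 93) (nat_lit 5) (nat_lit 361) (nat_lit 358) (nat_lit 169)) (XT.lf (nat_lit 84) (nat_lit 20727097963) (nat_lit 0) (nat_lit 3868519605) (nat_lit 1008) (nat_lit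 4936197625) (nat_lit 82) (nat_lit 5) (nat_lit 81) (nat_lit 5) (nat_lit 93) (nat_lit 5) (nat_lit 362) (nat_lit 358) (nat_lit 168))) (XT.nd (nat_lit 94) (nat_lit 0) (nat_lit 0) (XT.lf (nat_lit 0) (nat_lit 5810537959) (nat_lit 0) (nat_lit 5810537959) (nat_lit 924) (nat_lit 2683465297) (nat_lit 81) (nat_lit 5) (nat_lit 81) (nat_lit 3) (nat_lit 92) (nat_lit 3) (nat_lit 359) (nat_lit 359) (nat_lit 170)) (XT.nd (nat_lit 94) (nat_lit 0) (nat_lit 0) (XT.lf (nat_lit 0) (nat_lit 21194361554) (nat_lit 0) (nat_lit 2469816213) (nat_lit 924) (nat_lit 5385979694) (nat_lit 81) (nat_lit 5) (nat_lit 81) (nat_lit 3) (nat_lit 92) (nat_lit 3) (nat_lit 360) (nat_lit 359) (nat_lit 169)) (XT.lf (nat_lit 84) (nat_lit 1519684244) (nat_lit 0) (nat_lit 22661295878) (nat_lit 1008) (nat_lit 5321411359) (nat_lit 82) (nat_lit 5) (nat_lit 81) (nat_lit 5) (nat_lit 93) (nat_lit 5) (nat_lit 361) (nat_lit 359) (nat_lit 168))))))))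

set_option maxRecDepth 10000000 in
noncomputable def Tp : PT := (PT.nd (nat_lit 2178450) (PT.nd (nat_lit 1676396) (PT.nd (nat_lit 1286108) (PT.nd (nat_lit 952126) pc0 pc1) (PT.nd (nat_lit 222592) pc2 pc3)) (PT.nd (nat_lit 279180) (PT.nd (nat_lit 166850) pc4 pc5) (PT.nd (nat_lit 164876) pc6 pc7))) (PT.nd (nat_lit 387656) (PT.nd (nat_lit 221088) (PT.nd (nat_lit 110826) pc8 pc9) (PT.nd (nat_lit 57246) pc10 pc11)) (PT.nd (nat_lit 113458) (PT.nd (nat_lit 56776) pc12 pc13) (PT.nd (nat_lit 108664) pc14 pc15))))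

set_option maxRecDepth 10000000 in
noncomputable def Tx : XT := (XT.nd (nat_lit 14360850) (nat_lit 0) (nat_lit 588) XT.nil (XT.nd (nat_lit 5684556) (nat_lit 0) (nat_lit 0) (XT.nd (nat_lit 2616114) (nat_lit 0) (nat_lit 672) (XT.nd (nat_lit 1781676) (nat_lit 0) (nat_lit 252) (XT.nd (nat_lit 1226230) (nat_lit 0) (nat_lit 168) (XT.nd (nat_lit 889052) (nat_lit 0) (nat_lit 168) (XT.nd (nat_lit 611564) (nat_lit 0) (nat_lit 0) (XT.nd (nat_lit 390006) (nat_lit 0) (nat_lit 0) (XT.nd (nat_lit 278146) (nat_lit 0) (nat_lit 0) xc0 xc1) (XT.nd (nat_lit 111108) (nat_lit 0) (nat_lit 0) xc2 xc3)) (XT.nd (nat_lit 112800) (nat_lit 0) (nat_lit 168) (XT.nd (nat_lit 56494) (nat_lit 0) (nat_lit 0) xc4 xc5) (XT.nd (nat_lit 56118) (nat_lit 0) (nat_lit 0) xc6 xc7))) (XT.nd (nat_lit 169388) (nat_lit 0) (nat_lit 0) (XT.nd (nat_lit 110920) (nat_lit 0) (nat_lit 0) (XT.nd (nat_lit 55554) (nat_lit 0) (nat_lit 0) xc8 xc9)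 (XT.nd (nat_lit 3196) (nat_lit 0) (nat_lit 0) xc10 xc11)) (XT.nd (nat_lit 109886) (nat_lit 0) (nat_lit 0) (XT.nd (nat_lit 54990) (nat_lit 0) (nat_lit 0) xc12 xc13) (XT.nd (nat_lit 54614) (nat_lit 0) (nat_lit 84) xc14 xc15)))) (XT.nd (nat_lit 330316) (nat_lit 0) (nat_lit 84) (XT.nd (nat_lit 166004) (nat_lit 0) (nat_lit 0) (XT.nd (nat_lit 108664) (nat_lit 0) (nat_lit 0) (XT.nd (nat_lit 54426) (nat_lit 0) (nat_lit 0) xc16 xc17) (XT.nd (nat_lit 54050) (nat_lit 0) (nat_lit 672) xc18 xc19)) (XT.nd (nat_lit 57058) (nat_lit 0) (nat_lit 0) (XT.nd (nat_lit 53862) (nat_lit 0) (nat_lit 84) xc20 xc21) (XT.nd (nat_lit 53674) (nat_lit 0) (nat_lit 84) xc22 xc23))) (XT.nd (nat_lit 112894) (nat_lit 0) (nat_lit 0) (XT.nd (nat_lit 56494) (nat_lit 0) (nat_lit 0) (XT.nd (nat_lit 3196) (nat_lit 420) (nat_lit 0) xc24 xc25) (XT.nd (nat_lit 3196) (nat_lit 168) (nat_lit 0) xc26 xc27)) (XT.nd (nat_lit 56212) (nat_lit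 0) (nat_lit 0) (XT.nd (nat_lit 52922) (nat_lit 0) (nat_lit 1428) xc28 xc29) (XT.nd (nat_lit 52734) (nat_lit 0) (nat_lit 1344) xc30 xc31))))) (XT.nd (nat_lit 441424) (nat_lit 0) (nat_lit 168) (XT.nd (nat_lit 222028) (nat_lit 0) (nat_lit 168) (XT.nd (nat_lit 111390) (nat_lit 0) (nat_lit 0) (XT.nd (nat_lit 55742) (nat_lit 0) (nat_lit 0) (XT.nd (nat_lit 52546) (nat_lit 0) (nat_lit 1344) xc32 xc33) (XT.nd (nat_lit 52358) (nat_lit 0) (nat_lit 1344) xc34 xc35)) (XT.nd (nat_lit 55366) (nat_lit 0) (nat_lit 0) (XT.nd (nat_lit 52170) (nat_lit 0) (nat_lit 1932) xc36 xc37) (XT.nd (nat_lit 51982) (nat_lit 0) (nat_lit 2352) xc38 xc39))) (XT.nd (nat_lit 109886) (nat_lit 0) (nat_lit 0) (XT.nd (nat_lit 54990) (nat_lit 0) (nat_lit 0) (XT.nd (nat_lit 51794) (nat_lit 0) (nat_lit 3780) xc40 xc41) (XT.nd (nat_lit 3196) (nat_lit 252) (nat_lit 0) xc42 xc43)) (XT.nd (nat_lit 54708) (nat_lit 0) (nat_lit 0) (XT.nd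 (nat_lit 3196) (nat_lit 924) (nat_lit 0) xc44 xc45) (XT.nd (nat_lit 3196) (nat_lit 1764) (nat_lit 0) xc46 xc47)))) (XT.nd (nat_lit 171456) (nat_lit 0) (nat_lit 168) (XT.nd (nat_lit 61288) (nat_lit 0) (nat_lit 0) (XT.nd (nat_lit 6392) (nat_lit 252) (nat_lit 0) (XT.nd (nat_lit 3196) (nat_lit 3024) (nat_lit 0) xc48 xc49) (XT.nd (nat_lit 51606) (nat_lit 0) (nat_lit 588) xc50 xc51)) (XT.nd (nat_lit 54990) (nat_lit 0) (nat_lit 168) (XT.nd (nat_lit 51794) (nat_lit 0) (nat_lit 1176) xc52 xc53) (XT.nd (nat_lit 51888) (nat_lit 0) (nat_lit 1596) xc54 xc55))) (XT.nd (nat_lit 110544) (nat_lit 0) (nat_lit 84) (XT.nd (nat_lit 55178) (nat_lit 0) (nat_lit 84) (XT.nd (nat_lit 51982) (nat_lit 0) (nat_lit 2772) xc56 xc57) (XT.nd (nat_lit 52076) (nat_lit 0) (nat_lit 3024) xc58 xc59)) (XT.nd (nat_lit 55460) (nat_lit 0) (nat_lit 0) (XT.nd (nat_lit 3196) (nat_lit 0) (nat_lit 0) xc60 xc61) (XT.nd (nat_lit 3196)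 (nat_lit 168) (nat_lit 0) xc62 xc63)))))) (XT.nd (nat_lit 1003356) (nat_lit 0) (nat_lit 1176) (XT.nd (nat_lit 447534) (nat_lit 0) (nat_lit 336) (XT.nd (nat_lit 222968) (nat_lit 0) (nat_lit 168) (XT.nd (nat_lit 111296) (nat_lit 0) (nat_lit 168) (XT.nd (nat_lit 55554) (nat_lit 0) (nat_lit 168) (XT.nd (nat_lit 3196) (nat_lit 336) (nat_lit 0) xc64 xc65) (XT.nd (nat_lit 3196) (nat_lit 420) (nat_lit 0) xc66 xc67)) (XT.nd (nat_lit 55742) (nat_lit 0) (nat_lit 0) (XT.nd (nat_lit 3196) (nat_lit 420) (nat_lit 0) xc68 xc69) (XT.nd (nat_lit 3196) (nat_lit 420) (nat_lit 0) xc70 xc71))) (XT.nd (nat_lit 112048) (nat_lit 0) (nat_lit 168) (XT.nd (nat_lit 55930) (nat_lit 0) (nat_lit 0) (XT.nd (nat_lit 3196) (nat_lit 420) (nat_lit 0) xc72 xc73) (XT.nd (nat_lit 3196) (nat_lit 420) (nat_lit 0) xc74 xc75)) (XT.nd (nat_lit 56212) (nat_lit 0) (nat_lit 0) (XT.nd (nat_lit 3196) (nat_lit 0) (nat_lit 0) xc76 xc77)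 (XT.nd (nat_lit 53016) (nat_lit 0) (nat_lit 2268) xc78 xc79)))) (XT.nd (nat_lit 276642) (nat_lit 0) (nat_lit 252) (XT.nd (nat_lit 112894) (nat_lit 0) (nat_lit 252) (XT.nd (nat_lit 56306) (nat_lit 0) (nat_lit 0) (XT.nd (nat_lit 53110) (nat_lit 0) (nat_lit 1428) xc80 xc81) (XT.nd (nat_lit 53298) (nat_lit 0) (nat_lit 840) xc82 xc83)) (XT.nd (nat_lit 106878) (nat_lit 0) (nat_lit 0) (XT.nd (nat_lit 53392) (nat_lit 0) (nat_lit 0) xc84 xc85) (XT.nd (nat_lit 3196) (nat_lit 2352) (nat_lit 0) xc86 xc87))) (XT.nd (nat_lit 113928) (nat_lit 0) (nat_lit 252) (XT.nd (nat_lit 56870) (nat_lit 0) (nat_lit 252) (XT.nd (nat_lit 3196) (nat_lit 840) (nat_lit 0) xc88 xc89) (XT.nd (nat_lit 53768) (nat_lit 0) (nat_lit 1764) xc90 xc91)) (XT.nd (nat_lit 57152) (nat_lit 0) (nat_lit 84) (XT.nd (nat_lit 53862) (nat_lit 0) (nat_lit 336) xc92 xc93) (XT.nd (nat_lit 53956) (nat_lit 0) (nat_lit 0) xc94 xc95))))) (XT.nd (nat_lit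 670502) (nat_lit 0) (nat_lit 924) (XT.nd (nat_lit 281812) (nat_lit 0) (nat_lit 252) (XT.nd (nat_lit 114962) (nat_lit 0) (nat_lit 0) (XT.nd (nat_lit 57340) (nat_lit 0) (nat_lit 0) (XT.nd (nat_lit 3196) (nat_lit 252) (nat_lit 0) xc96 xc97) (XT.nd (nat_lit 54332) (nat_lit 0) (nat_lit 252) xc98 xc99)) (XT.nd (nat_lit 108946) (nat_lit 0) (nat_lit 252) (XT.nd (nat_lit 54426) (nat_lit 0) (nat_lit 252) xc100 xc101) (XT.nd (nat_lit 54614) (nat_lit 0) (nat_lit 672) xc102 xc103))) (XT.nd (nat_lit 167696) (nat_lit 0) (nat_lit 336) (XT.nd (nat_lit 109510) (nat_lit 0) (nat_lit 336) (XT.nd (nat_lit 54708) (nat_lit 0) (nat_lit 0) xc104 xc105) (XT.nd (nat_lit 54896) (nat_lit 0) (nat_lit 0) xc106 xc107)) (XT.nd (nat_lit 110262) (nat_lit 0) (nat_lit 336) (XT.nd (nat_lit 54990) (nat_lit 0) (nat_lit 0) xc108 xc109) (XT.nd (nat_lit 55272) (nat_lit 0) (nat_lit 0) xc110 xc111)))) (XT.nd (nat_lit 447158) (nat_lit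 0) (nat_lit 1260) (XT.nd (nat_lit 222592) (nat_lit 0) (nat_lit 840) (XT.nd (nat_lit 111014) (nat_lit 0) (nat_lit 504) (XT.nd (nat_lit 55460) (nat_lit 0) (nat_lit 504) xc112 xc113) (XT.nd (nat_lit 55648) (nat_lit 0) (nat_lit 336) xc114 xc115)) (XT.nd (nat_lit 112048) (nat_lit 0) (nat_lit 0) (XT.nd (nat_lit 55930) (nat_lit 0) (nat_lit 0) xc116 xc117) (XT.nd (nat_lit 56118) (nat_lit 0) (nat_lit 420) xc118 xc119))) (XT.nd (nat_lit 333794) (nat_lit 0) (nat_lit 1428) (XT.nd (nat_lit 166286) (nat_lit 0) (nat_lit 924) (XT.nd (nat_lit 109698) (nat_lit 0) (nat_lit 420) xc120 xc121) (XT.nd (nat_lit 56776) (nat_lit 0) (nat_lit 0) xc122 xc123)) (XT.nd (nat_lit 222968) (nat_lit 0) (nat_lit 0) (XT.nd (nat_lit 111202) (nat_lit 84) (nat_lit 0) xc124 xc125) (XT.nd (nat_lit 112236) (nat_lit 0) (nat_lit 756) xc126 xc127))))))) XT.nil))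

set_option maxRecDepth 10000000 in
noncomputable def Te : XT := XT.nil

set_option maxRecDepth 10000000 in
noncomputable def Tz : ZL := (ZL.cons (nat_lit 84) (nat_lit 3) (nat_lit 68526811642110549295) (ZL.cons (nat_lit 168) (nat_lit 6) (nat_lit 135594663085367473174) (ZL.cons (nat_lit 588) (nat_lit 3) (nat_lit 65703393248201025839) (ZL.cons (nat_lit 756) (nat_lit 6) (nat_lit 130110846611445391166) (ZL.cons (nat_lit 840) (nat_lit 6) (nat_lit 128881821790966390762) (ZL.cons (nat_lit 924) (nat_lit 3) (nat_lit 64414547232038755060) (ZL.cons (nat_lit 1008) (nat_lit 6) (nat_lit 127718566455088735888) (ZL.cons (nat_lit 1092) (nat_lit 6) (nat_lit 127614697201052541340) (ZL.cons (nat_lit 1176) (nat_lit 6) (nat_lit 126619996327985289380) (ZL.cons (nat_lit 1260) (nat_lit 6) (nat_lit 126466522876909993076) (ZL.cons (nat_lit 1344) (nat_lit 3) (nat_lit 63207690474881339585) (ZL.cons (nat_lit 1428) (nat_lit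 6) (nat_lit 125383501272905441480) (ZL.cons (nat_lit 1512) (nat_lit 6) (nat_lit 125282755148719025818) (ZL.cons (nat_lit 1596) (nat_lit 6) (nat_lit 124364622899454552532) (ZL.cons (nat_lit 1680) (nat_lit 6) (nat_lit 124215764072029434876) (ZL.cons (nat_lit 1764) (nat_lit 3) (nat_lit 62083079937495166560) (ZL.cons (nat_lit 1848) (nat_lit 6) (nat_lit 123408938055183042714) (ZL.cons (nat_lit 1932) (nat_lit 6) (nat_lit 123213413172240270364) (ZL.cons (nat_lit 2016) (nat_lit 6) (nat_lit 123115696271962466614) (ZL.cons (nat_lit 2100) (nat_lit 6) (nat_lit 122515555941705514436) (ZL.cons (nat_lit 2184) (nat_lit 6) (nat_lit 122274768153313998440) (ZL.cons (nat_lit 2268) (nat_lit 6) (nat_lit 122130385197518539996) (ZL.cons (nat_lit 2352) (nat_lit 3) (nat_lit 61041136247139919001) (ZL.cons (nat_lit 2436) (nat_lit 6) (nat_lit 121398954099767410428) (ZL.cons (nat_lit 2520) (nat_lit 6) (nat_lit 121209308238523208338)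 (ZL.cons (nat_lit 2604) (nat_lit 6) (nat_lit 121114529479766851650) (ZL.cons (nat_lit 2688) (nat_lit 6) (nat_lit 120585154661158742726) (ZL.cons (nat_lit 2772) (nat_lit 6) (nat_lit 120351606854765419740) (ZL.cons (nat_lit 2856) (nat_lit 6) (nat_lit 120211565190560319406) (ZL.cons (nat_lit 2940) (nat_lit 3) (nat_lit 60082449567521332356) (ZL.cons (nat_lit 3024) (nat_lit 6) (nat_lit 119832611291163550208) (ZL.cons (nat_lit 3108) (nat_lit 6) (nat_lit 119556481578709004238) (ZL.cons (nat_lit 3192) (nat_lit 6) (nat_lit 119372537969354783008) (ZL.cons (nat_lit 3276) (nat_lit 6) (nat_lit 119280609008388384668) (ZL.cons (nat_lit 3360) (nat_lit 6) (nat_lit 119140622540530072074) (ZL.cons (nat_lit 3444) (nat_lit 6) (nat_lit 118823191270305183734) (ZL.cons (nat_lit 3528) (nat_lit 6) (nat_lit 118596665754889739520) (ZL.cons (nat_lit 3612) (nat_lit 6) (nat_lit 118460834848774220284) (ZL.cons (nat_lit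 3696) (nat_lit 3) (nat_lit 59207785971662738319) (ZL.cons (nat_lit 3864) (nat_lit 6) (nat_lit 118151052426172410150) (ZL.cons (nat_lit 3948) (nat_lit 6) (nat_lit 117883225352986623566) (ZL.cons (nat_lit 4032) (nat_lit 6) (nat_lit 117704812540809881346) (ZL.cons (nat_lit 4116) (nat_lit 6) (nat_lit 117615647690212016804) (ZL.cons (nat_lit 4200) (nat_lit 6) (nat_lit 117539438542499615010) (ZL.cons (nat_lit 4284) (nat_lit 6) (nat_lit 117231551762456076370) (ZL.cons (nat_lit 4368) (nat_lit 6) (nat_lit 117011837392508991780) (ZL.cons (nat_lit 4452) (nat_lit 6) (nat_lit 116880090635849904254) (ZL.cons (nat_lit 4536) (nat_lit 3) (nat_lit 58418094345350391679) (ZL.cons (nat_lit 4620) (nat_lit 6) (nat_lit 116987779531079029588) (ZL.cons (nat_lit 4704) (nat_lit 6) (nat_lit 116641037555247176636) (ZL.cons (nat_lit 4788) (nat_lit 6) (nat_lit 116381263478442339990) (ZL.cons (nat_lit 4872) (nat_lit 6)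 (nat_lit 116208215164012910094) (ZL.cons (nat_lit 4956) (nat_lit 6) (nat_lit 116121731312802566214) (ZL.cons (nat_lit 5040) (nat_lit 6) (nat_lit 116495561187924257010) (ZL.cons (nat_lit 5124) (nat_lit 6) (nat_lit 116111132310260867380) (ZL.cons (nat_lit 5208) (nat_lit 6) (nat_lit 115812503037667716422) (ZL.cons (nat_lit 5292) (nat_lit 6) (nat_lit 115599395016380534470) (ZL.cons (nat_lit 5376) (nat_lit 6) (nat_lit 115471609607399848220) (ZL.cons (nat_lit 5460) (nat_lit 3) (nat_lit 57714513850669312618) (ZL.cons (nat_lit 5544) (nat_lit 6) (nat_lit 116062324713978292678) (ZL.cons (nat_lit 5628) (nat_lit 6) (nat_lit 115641342100299833528) (ZL.cons (nat_lit 5712) (nat_lit 6) (nat_lit 115305025925875145892) (ZL.cons (nat_lit 5796) (nat_lit 6) (nat_lit 115053062708799649628) (ZL.cons (nat_lit 5880) (nat_lit 6) (nat_lit 114885217592961211322) (ZL.cons (nat_lit 5964) (nat_lit 6) (nat_lit 114801334129129645968)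 (ZL.cons (nat_lit 6048) (nat_lit 6) (nat_lit 115112740968500918560) (ZL.cons (nat_lit 6132) (nat_lit 6) (nat_lit 115371236687483627028) (ZL.cons (nat_lit 6216) (nat_lit 6) (nat_lit 115687666287464742730) (ZL.cons (nat_lit 6300) (nat_lit 6) (nat_lit 115231229031676613822) (ZL.cons (nat_lit 6384) (nat_lit 6) (nat_lit 114858359121236856666) (ZL.cons (nat_lit 6468) (nat_lit 6) (nat_lit 114568709002329823724) (ZL.cons (nat_lit 6552) (nat_lit 6) (nat_lit 114362008690703071106) (ZL.cons (nat_lit 6636) (nat_lit 6) (nat_lit 114238065520013753696) (ZL.cons (nat_lit 6720) (nat_lit 3) (nat_lit 57098381981121705663) (ZL.cons (nat_lit 6804) (nat_lit 6) (nat_lit 114006216757272925940) (ZL.cons (nat_lit 6888) (nat_lit 6) (nat_lit 114064369790507297936) (ZL.cons (nat_lit 6972) (nat_lit 6) (nat_lit 114180730061694701704) (ZL.cons (nat_lit 7056) (nat_lit 6) (nat_lit 114355406030796932684) (ZL.cons (nat_lit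 7140) (nat_lit 6) (nat_lit 114588560514114967832) (ZL.cons (nat_lit 7224) (nat_lit 6) (nat_lit 114880410836050813584) (ZL.cons (nat_lit 7308) (nat_lit 6) (nat_lit 114472086283501386670) (ZL.cons (nat_lit 7392) (nat_lit 6) (nat_lit 114145882428579284208) (ZL.cons (nat_lit 7476) (nat_lit 6) (nat_lit 113901495215120994912) (ZL.cons (nat_lit 7560) (nat_lit 6) (nat_lit 113738696848643363190) (ZL.cons (nat_lit 7644) (nat_lit 6) (nat_lit 113657335584015268764) (ZL.cons (nat_lit 7728) (nat_lit 3) (nat_lit 56703231287952021654) (ZL.cons (nat_lit 7812) (nat_lit 6) (nat_lit 113435982899520309940) (ZL.cons (nat_lit 7896) (nat_lit 6) (nat_lit 113524571386403052832) (ZL.cons (nat_lit 7980) (nat_lit 6) (nat_lit 113672310610301926994) (ZL.cons (nat_lit 8064) (nat_lit 6) (nat_lit 113879338279649683950) (ZL.cons (nat_lit 8148) (nat_lit 6) (nat_lit 114145847365920856382) (ZL.cons (nat_lit 8232) (nat_lit 6)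 (nat_lit 113784188868889084162) (ZL.cons (nat_lit 8316) (nat_lit 6) (nat_lit 113503247919415725346) (ZL.cons (nat_lit 8400) (nat_lit 6) (nat_lit 113302762651106556946) (ZL.cons (nat_lit 8484) (nat_lit 6) (nat_lit 113182546190690148208) (ZL.cons (nat_lit 8568) (nat_lit 3) (nat_lit 56571243241916198076) (ZL.cons (nat_lit 8652) (nat_lit 6) (nat_lit 112882894773669082002) (ZL.cons (nat_lit 8736) (nat_lit 6) (nat_lit 112942850550933719530) (ZL.cons (nat_lit 8820) (nat_lit 6) (nat_lit 113062817990527932816) (ZL.cons (nat_lit 8904) (nat_lit 6) (nat_lit 113242908914672332954) (ZL.cons (nat_lit 8988) (nat_lit 6) (nat_lit 113483291186973227194) (ZL.cons (nat_lit 9072) (nat_lit 6) (nat_lit 113166895595390198620) (ZL.cons (nat_lit 9156) (nat_lit 6) (nat_lit 112929856591065960700) (ZL.cons (nat_lit 9240) (nat_lit 6) (nat_lit 112771953228818015284) (ZL.cons (nat_lit 9324) (nat_lit 6) (nat_lit 112693038326171948916)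 (ZL.cons (nat_lit 9408) (nat_lit 3) (nat_lit 56202294938441432171) (ZL.cons (nat_lit 9492) (nat_lit 6) (nat_lit 112435025330531235238) (ZL.cons (nat_lit 9576) (nat_lit 6) (nat_lit 112526360060507343160) (ZL.cons (nat_lit 9660) (nat_lit 6) (nat_lit 112678679200347082422) (ZL.cons (nat_lit 9744) (nat_lit 6) (nat_lit 112892124727444619844) (ZL.cons (nat_lit 9828) (nat_lit 6) (nat_lit 112619631081010712166) (ZL.cons (nat_lit 9912) (nat_lit 6) (nat_lit 112425173982747697230) (ZL.cons (nat_lit 9996) (nat_lit 6) (nat_lit 112308572178270094184) (ZL.cons (nat_lit 10080) (nat_lit 3) (nat_lit 56134858491240889936) (ZL.cons (nat_lit 10164) (nat_lit 6) (nat_lit 112000622378894138474) (ZL.cons (nat_lit 10248) (nat_lit 6) (nat_lit 112062436785253979764) (ZL.cons (nat_lit 10332) (nat_lit 6) (nat_lit 112186123215475613662) (ZL.cons (nat_lit 10416) (nat_lit 6) (nat_lit 112371796958268490208) (ZL.cons (nat_lit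 10500) (nat_lit 6) (nat_lit 112141885217895805514) (ZL.cons (nat_lit 10584) (nat_lit 6) (nat_lit 111988729677403132948) (ZL.cons (nat_lit 10668) (nat_lit 6) (nat_lit 111912187579783281958) (ZL.cons (nat_lit 10752) (nat_lit 3) (nat_lit 55819618393483317795) (ZL.cons (nat_lit 10836) (nat_lit 6) (nat_lit 111670615739678105984) (ZL.cons (nat_lit 10920) (nat_lit 6) (nat_lit 111764781846283473250) (ZL.cons (nat_lit 11004) (nat_lit 6) (nat_lit 111921822879458244432) (ZL.cons (nat_lit 11088) (nat_lit 6) (nat_lit 111733212696855902108) (ZL.cons (nat_lit 11172) (nat_lit 6) (nat_lit 111620116863220981598) (ZL.cons (nat_lit 11256) (nat_lit 3) (nat_lit 55791214980694722460) (ZL.cons (nat_lit 11340) (nat_lit 6) (nat_lit 111350531705520945470) (ZL.cons (nat_lit 11424) (nat_lit 6) (nat_lit 111414262358477941840) (ZL.cons (nat_lit 11508) (nat_lit 6) (nat_lit 111541783068036446390) (ZL.cons (nat_lit 11592)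 (nat_lit 6) (nat_lit 111393232592291856122) (ZL.cons (nat_lit 11676) (nat_lit 6) (nat_lit 111318991954445249924) (ZL.cons (nat_lit 11760) (nat_lit 3) (nat_lit 55550943165466503703) (ZL.cons (nat_lit 11844) (nat_lit 6) (nat_lit 111134238031178533382) (ZL.cons (nat_lit 11928) (nat_lit 6) (nat_lit 111231323287088667036) (ZL.cons (nat_lit 12012) (nat_lit 6) (nat_lit 111121628007132391080) (ZL.cons (nat_lit 12096) (nat_lit 3) (nat_lit 55542537135558660780) (ZL.cons (nat_lit 12180) (nat_lit 6) (nat_lit 110924447852378909630) (ZL.cons (nat_lit 12264) (nat_lit 6) (nat_lit 110990154155577572890) (ZL.cons (nat_lit 12348) (nat_lit 6) (nat_lit 110918145777452833612) (ZL.cons (nat_lit 12432) (nat_lit 3) (nat_lit 55392348137828174266) (ZL.cons (nat_lit 12516) (nat_lit 6) (nat_lit 110818050878609485816) (ZL.cons (nat_lit 12600) (nat_lit 3) (nat_lit 55391298118249908029) (ZL.cons (nat_lit 12684) (nat_lit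 6) (nat_lit 110714853037901994238) (ZL.cons (nat_lit 12768) (nat_lit 1) (nat_lit 18446744073709551617) ZL.nil))))))))))))))))))))))))))))))))))))))))))))))))))))))))))))))))))))))))))))))))))))))))))))))))))))))))))))))))))))))))))))))))))))))))))))))))))

noncomputable def vl : XL := ⟨(nat_lit 0), (nat_lit 84), (nat_lit 378292931), (nat_lit 168), (nat_lit 247044482), (nat_lit 168), (nat_lit 247044482), (nat_lit 1), (nat_lit 4), (nat_lit 2), (nat_lit 5), (nat_lit 2), (nat_lit 4), (nat_lit 0), (nat_lit 0), (nat_lit 0)⟩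

noncomputable def cp0 : Nat := (nat_lit 81161033904596060603770787883235864876730676808542794226506213737441487187266708628663823686456876238990165043167892119608221062436263071527098870596724184398388943279871944264504204669650704346496901970490842124311670548485786142969282213052465406574149005510909251122780328879033888967394497268300685813049625655742210233220625632055866368102822081313720971634465048835694990032816023443724700075847450665203231727911214323591314975003296160845961410498005918225878530670442036885066559458630512110401600779034876558562660129911055652112103420223712744424027336941529633916430514115558240673395175311517180197514050784091976963204109790911536250344029609198682777388454960077694458386555198375415277566029153721964903020831185167720636592998826101743639883849806027329914777535284445887615485464347906803053556324236859113873413891726866458412019691759750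15113608802978123597335130558046417815451684870846157247355693510903793878479171850094641973079047003168356720988747029257065800470916330664924739980816476828908277149451840634725745507546932145134680493813446201225744508763005868386227675977376909502900169468722672136670566126218333614053132356017135406060675706744833543621649590518187939088866815738661330116697720859011254683307931587558871589481561195395055010289543331286211418422896581304484506200325450698550758464658709910464378503411980152754121367584838183658050622180684391626381080967787919105122510556144522387809111273957447038445632469017897079358898168271774046485275177763676953771872021863110099244132220209240305376499398476517292969982550694767747149799639749500976705641076530192391454499267616220345751414900612214090859350885364706554304004653733014379946249138924997633421323301885701731981284636159599791834813579273500506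72718938609730820040371480113265542529915874895699220719486701961108993606073697938999261619266167815582225931503830779582442136810107617085763609199302547352322434066508599452588799946955349891580459447700968854070881679019681876827837762381921198051293304996671860541006455744251139645504455132424829319010545928653759048840273441895421331817499266287127312443785940980942573366455475595731659142590069516172682922000426735993950189216518748804981872060001488824622906392991356481160526904274798053805508281055025298174046502408953639854496317506079437139161533792918326865471087187662427359206130286580645236532328057809089825557980940441894037297419840556980900049350506549988520246914795149587486958509221754696083368861090098414480683581704048591123646553857500498549723530117100774483511393480880391768354079106525704843850605255501357197685355575053009368221345649226877990926648512720913335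854155583476995405825781334324120157617075766805367244885834233162016817716176886239672136853993563343901560452155633797327051025079101921398423347384536638921620307744135724320593448256839556476381130365893075748191192388383021212952101558868917270863582547765448918580520452636296663350856712400119510828670150269637045030845521689993336938019193630200896470013123926747052311930023258598629809596138396207877295962592329615629024975016388673035969418534550100283975732226796143770457647103707441358818655271636578155300667022017420927540689793753257489007310423410737748040823561475037745484903921312618382513999847291008613609710365971515468231595812923042705886195334714533517873331977080781314666767581359359262001573560389766704895141299587351457846140192820056702505813049341415875656514850696077353005959885286815676739110802267397901178495860185063874712065347053446516741861751476425417457033423076857285322229876011350993208050794556268996860672156494959126660137556606741596253753114639616788206174031285505621443893214797773340498714223793300348944203382594860417086672661952006455840131342612826980000828722527442901297235630399091181661602510170018656856333107191792533901281865326040671322112)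

noncomputable def cp1 : Nat := (nat_lit 29754758779329622794794662343170499616333669424846421805718037061029639760132701143360612198497027438212443235376039944974918911594002576715645983632229279287134598007534290756076386207329607820880536795956327850439334333634639771747084690690207872403279786489605116245546164746307424201281375380833557471670221109756092924066011689722177422183563481389980398127729251410890725735505223120593189450490117989221287337434699634794340113471105980650971483139120021296178840418615539307897075368919737196309633575662304146195757629264713581790467618016927862919193280591410219672775776020430546588661598596130100586391083663309057164389069828936487417373564476161219318710126455872305729191865616294376424867052455309393381080117772168550233758725455582493545815827310735235112336571761390181529316631219524166687629164086616500135349932937842080026674836432016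59033870925958512351263286648163015763042321141856925969689920282407449757991744065225426864350117732555198735007379288817670529067227613427567396725050183674714553181658541216414465117831138454775142803465701098965390594487731973419146543156440484745992514880587916891850788092274226676180246602842374705973702085664460503443480704935167243391692910785788008190064217234697635906266932112264914256606474554238162142804040805423607546962199093660490682223343374394578831588018083096458452557001200805674766966246498121255298891370313250162435536540982691659586659338573450476291381817058296744831477996346568048956319779033211799505357454180463115340205523010373777551510682645722297019426191005025165770920795501849750654999784202803585554905826593496621414133010668191360070121982463580763055500486579628333224348286436017542263855078893718170362079973535177309174819187245129894744050706047234808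13515618384097824137126021380843461823348796927142957618718710640950349101962972980255340753432699451057567732181657007104608017471304813758958258987105212946966753212111534655585343239774875720261204517474253547737345596296664925738304086523071022772497478844467115765771024167086622183711238992682725517545363617235049003893930622811231991214248964224368107606280039756060551333277746198771199029097267028175833782789339679660964122394358504495518482533729202722102599810582403164383267803245459111474955535985523661539240245398068728354904127405529884793695864232088649252300049050771650034878003909761347893031765266095330398277400014480968807636082813030002509606481138246858093691381029543070538219440756995352974161055976622406424711147196091619004926651792590386769701404517905268042183261576981881963683626979357725033744675772248462534488628255660684968730606278520560836610690857292756968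4031584516494869995701399611718846498461340228479825267088554322929268090966473181936581922671412685005710501442782475252220669810367004537592355967837118501535337286832585629803502731560050004447273790754825442438334340837669172717202110946106248725450273059023926118822586303604410470127350017902091252564323347063801203467046279441264928258380819602905529066034256629358592192671501648916761024942953471931001380208974505130469374475446736356678240498973626219489213128995276682381336412930640269395497795012467670134049412318679836843319345873219240984995099736869517705519003372638719434173226210026100356692008777761276341177298692761327666185744554539482382213619850066486247657389324151963163053014910583737450293229415118047441985217044401381427559588997134831929208800595712869831209380038113761143898792268781024869828955860699086376658477194618530812025893018451979249079708192997071819804897902869335835283269785611221850429207886267688201473806449841954008336958172269178609771700535355780992682858776036837472420597600579953580811910523497605662852913473134542097338603546356593820940116714722227397995111276489713741334598492748008246614074311041961184385815414737749790604961259077098107043840)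

noncomputable def rc0 : Nat := (nat_lit 19523514224006504059712982889830478161343286720921419626298650367461592305057651670096734357719250226758348250390894601598186311778153109803181766010042813537415696260764122032379571037777377303530670367393050276434197607758823510328102347686873345852848422563906176102410839016487621784548784407422403300736568966580512662651364341364923270751963435109237826396343889285298921066180379526287481518225897831433951036898558823837654002187338834859643648582990138330327185171415010312550516318736540458201374081967566629806018222573126468348027181699123683837163364535871736102850606143838810019991034673249768686083458513294254987164097097790170421026549930149973182483749976445199504947846809052950483824433452650806429661121016492990668541325243820888366023501725511536521631334330177245804826438370699812507314974496429784090559674475804366606149847676373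16613637153168015818779061044131591006392793219923068948894475875852075257134116334096073643306913015767993056366554654367654413991991644316976323368851626957574370471350887106967592685950653947144741226701079087706304792691801535165803555246731569156938793417948181420407174768970502101423733485082223192793535403494643300483417156242297734828602560656868862946829610001909886682511677425480236470750199495178768246086357262003574871941226767777212281512754055201818458963387245438354543691981815470600404949281531400084323246103164970709425845311786005616959507452236751512652888531789044807515663462346725907590978765716066576565015552824818161510182709470288499833301447196390208695919719173007078436916958994354746516652214410090793644259688909353738112032811180165209107693655809833816876070825179270649416589162781939482744222835511227243404144233207981439483694488632464073161431351275995170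05138469956078337430376054109066850915145440550904550820342430065854888441572302322165021247233030128865168946467992341692667820843095559324324999052556389136446460068791293846537974669836341193873033190365649432599659640113124165489333653276795898885640798427349384699272152838044229542133981375121755049794978023987491973677839547496414589406484190803495504867104628727108190233742659889712717823644502517020187294589532523510560919772568180244261065535860757565802239639226741037068562098840781056824408234659399338418962858799807812156866143172295849302238544841754996256994306582474442007659308548380716295157538576210484171040154817109467486335669587366185612538535226070084617464667307435571925399169380980031979619958885011019860773010743785320227622899378911466781294325209671517768413133426450089587314482373483695832766214587160523226105333994182782052749259237815744917247942199358897640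6474013407382895827522540666585983003918178602866663661461027848824844349827962078358302218675499859601512911904868140534797772922392519845683645409972851558522310297232567633978869798010400252546407879216544005683736142129890910834122896404113044453469186579436797652714127613503117745609081847805219886572222919290275439540650055492041315279909658096871050178026246472406305872847368791700382017591302152385155727018728264288716686873206070544035954314313152833872647263431497139711459733322282589648847988430185779793323540309103224011467366759294140051912560138891921107968671234490697241910852850310854751830622833338381213955062439375082458924379161440835544450115033511014949477868505946453117812539785726074998123782036914416860728400910941128377086278092377853415386458107059717770855928129918356264999990985139579338255598868377044989563307254413580358754865318037268737077328225450048884223967550171947797341273144120511908135282495875541400344216468362356319417782070969119141236562815286187627893527603420627672293608304634643084132831920785246314459245434020905324080441942555771024091410666007709019909432324070375861238367089033926541070466805076762888208620904498330581292163708789555965460480)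

noncomputable def rc1 : Nat := (nat_lit 28695198732701213019157108253814419696419816301150753171446808247082665938603382919968427930615083242245484341143819242475862210035684493968449322057707406890937882532326956621969588659134238243793661120336492940838559260638881199203120483504653645840124360140669530548150531450456383899989882018385309517392252217200787304636516535383155450628640190089387025381976600957356738515976562598705621642645465765731664457743842928753387840072752835864109898224222294658481968550906785419383983215155739358521212934313197988784905140986639789483760215741632819995110042340066648781244274029173310012092213309603599395043726229666348453451463644441635227174098966771381777842069463557384396671496363964653210469984698200296725702321764693954566320126544629479325371878094460751644740694802189298664018219155954497705900493758210970278930857123672741041363112622948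34903629155171209614798611526887999053320949273555466515003262586458570496455535666819633392793188595108313272879800993172957874606880035573051638725186552937007604914537826622742502040831392792632018614822260531355317093518308077576313279736506892169437529185086841687831797419959030038651967380647811897146384575099919518654896566073016631665420138478520062607815239110563187389538921453390806674675689336598972488013957395107980016296300484139675468967744426650612003991152503928091002120260535493704603445094585662612884027787759083476588972153801676956669624434665573302561372257546339513558107751621798257517682375137955472996392985311418500838247942206549047251560205515523329948451679454771717407701334861842012576838640328432045959876127384130311667025810658283024344308225067682199417475611955999871123024485927873081601934505834970749921743613947573921870284938303389299851267658548754252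50600843639075497095629926007872198408033972763910292413787754550854913917261786398969757498151135617747380704161614859722310926035122983043100877530321380041050053342860520664503479324301147232285457652728176668726094040175574492013127296362367577788005950198030050978571718539635194519907208892997182416323802610613544740983612549089530082048311061735285636519651871698080351525867668306555031636271387818956088619369985702471202604596287224047373450922562208369535373636697417139157398159855027319413517940012337265066537759742466178876464466073463054069952684893046395811512918843112578027973102648625628175821558186876100052601046118699749437374345664819730571088764675745442851326897066497572854454343040788078800619008452721615030354991329898563207620668977738053442154061798367574522634538581625410710341829117093701188378101521784237621059936509595544882100674077070668267532033345081520740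3222577810741096245224834208469274686608091918989987543492589600544656876940043105723688558315336257106784794171227778239166467698237291617875165643135890458947873083809721758944175030880390776310425182993622450488439068330753089542844987390868372186000647923760044850108645339437033243429989962196309273684151317797101874222598179898109184931086629229863367680596409867129046769908149494869549405137930190945277181569208139027536112153432081669482120014444556714924046069695932536902256128935650962375700480649569665309476040571520202085214792322773460391455124809668607164813230498199294497161344887483528780209974797386474774181857574892544875748824944117884862867219407532115492645935341296051414941821672669516145274871937056062140423489587338088184303210862052179694864699813031283447617403739848334529294113658486796555732771655493366475613661356510508817575552427461855950869210397019394262189952493116188357064619664089587396219918360404109266467622761716424712562099816979811801185370746846420348270714719715989817995348216316534082877512730086669081094437486701474529951076510836918054728286667135201043419946029348246838669265721146494841282079516978643609495248599691234294535058668803803783888896)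

noncomputable def rc2 : Nat := (nat_lit 29754758779329622794794662343170499616333669424846421805718037061029639760132701143360612198497027438212443235376039944974918911594002576715645983632229279287134598007534290756076386207329607820880536795956327850439334333634639771747084690690207872403279786489605116245546164746307424201281375380833557471670221109756092924066011689722177422183563481389980398127729251410890725735505223120593189450490117989221287337434699634794340113471105980650971483139120021296178840418615539307897075368919737196309633575662304146195757629264713581790467618016927862919193280591410219672775776020430546588661598596130100586391083663309057164389069828936487417373564476161219318710126455872305729191865616294376424867052455309393381080117772168550233758725455582493545815827310735235112336571761390181529316631219524166687629164086616500135349932937842080026674836432016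59033870925958512351263286648163015763042321141856925969689920282407449757991744065225426864350117732555198735007379288817670529067227613427567396725050183674714553181658541216414465117831138454775142803465701098965390594487731973419146543156440484745992514880587916891850788092274226676180246602842374705973702085664460503443480704935167243391692910785788008190064217234697635906266932112264914256606474554238162142804040805423607546962199093660490682223343374394578831588018083096458452557001200805674766966246498121255298891370313250162435536540982691659586659338573450476291381817058296744831477996346568048956319779033211799505357454180463115340205523010373777551510682645722297019426191005025165770920795501849750654999784202803585554905826593496621414133010668191360070121982463580763055500486579628333224348286436017542263855078893718170362079973535177309174819187245129894744050706047234808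13515618384097824137126021380843461823348796927142957618718710640950349101962972980255340753432699451057567732181657007104608017471304813758958258987105212946966753212111534655585343239774875720261204517474253547737345596296664925738304086523071022772497478844467115765771024167086622183711238992682725517545363617235049003893930622811231991214248964224368107606280039756060551333277746198771199029097267028175833782789339679660964122394358504495518482533729202722102599810582403164383267803245459111474955535985523661539240245398068728354904127405529884793695864232088649252300049050771650034878003909761347893031765266095330398277400014480968807636082813030002509606481138246858093691381029543070538219440756995352974161055976622406424711147196091619004926651792590386769701404517905268042183261576981881963683626979357725033744675772248462534488628255660684968730606278520560836610690857292756968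4031584516494869995701399611718846498461340228479825267088554322929268090966473181936581922671412685005710501442782475252220669810367004537592355967837118501535337286832585629803502731560050004447273790754825442438334340837669172717202110946106248725450273059023926118822586303604410470127350017902091252564323347063801203467046279441264928258380819602905529066034256629358592192671501648916761024942953471931001380208974505130469374475446736356678240498973626219489213128995276682381336412930640269395497795012467670134049412318679836843319345873219240984995099736869517705519003372638719434173226210026100356692008777761276341177298692761327666185744554539482382213619850066486247657389324151963163053014910583737450293229415118047441985217044401381427559588997134831929208800595712869831209380038113761143898792268781024869828955860699086376658477194618530812025893018451979249079708192997071819804897902869335835283269785611221850429207886267688201473806449841954008336958172269178609771700535355780992682858776036837472420597600579953580811910523497605662852913473134542097338603546356593820940116714722227397995111276489713741334598492748008246614074311041961184385815414737749790604961259077098107043840)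

end Vale.Agent.Lib.P154.Chain.D8.S1
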