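import Vale.Agent.Lib.P154.Chain.D8.R1_2

set_option linter.all false

namespace Vale.Agent.Lib.P154.Chain.D8.S2

noncomputable def pc0 : PT := (PT.nd (nat_lit 1007774) (PT.nd (nat_lit 896384) (PT.nd (nat_lit 840548) (PT.nd (nat_lit 228044) (PT.nd (nat_lit 227950) (PT.nd (nat_lit 172302) PT.nil (PT.lf (nat_lit 84) (nat_lit 3) (nat_lit 1) (nat_lit 1) (nat_lit 54) (nat_lit 3) (nat_lit 54))) (PT.lf (nat_lit 168) (nat_lit 6) (nat_lit 2) (nat_lit 3) (nat_lit 53) (nat_lit 4) (nat_lit 54))) (PT.nd (nat_lit 556856) (PT.lf (nat_lit 168) (nat_lit 6) (nat_lit 2) (nat_lit 1) (nat_lit 54) (nat_lit 4) (nat_lit 53)) (PT.nd (nat_lit 94) (PT.lf (nat_lit 2016) (nat_lit 6) (nat_lit 24) (nat_lit 3) (nat_lit 48) (nat_lit 14) (nat_lit 49)) (PT.lf (nat_lit 2016) (nat_lit 6) (nat_lit 24) (nat_lit 1) (nat_lit 49) (nat_lit 14) (nat_lit 48))))) (PT.nd (nat_lit 188) (PT.nd (nat_lit 94) (PT.lf (nat_lit 2268) (nat_lit 6)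 (nat_lit 27) (nat_lit 3) (nat_lit 47) (nat_lit 15) (nat_lit 49)) (PT.lf (nat_lit 2352) (nat_lit 3) (nat_lit 28) (nat_lit 1) (nat_lit 48) (nat_lit 15) (nat_lit 48))) (PT.nd (nat_lit 55460) (PT.lf (nat_lit 2268) (nat_lit 6) (nat_lit 27) (nat_lit 1) (nat_lit 49) (nat_lit 15) (nat_lit 47)) (PT.nd (nat_lit 94) (PT.lf (nat_lit 2520) (nat_lit 6) (nat_lit 30) (nat_lit 3) (nat_lit 46) (nat_lit 16) (nat_lit 49)) (PT.lf (nat_lit 2604) (nat_lit 6) (nat_lit 31) (nat_lit 3) (nat_lit 47) (nat_lit 16) (nat_lit 48)))))) (PT.nd (nat_lit 55742) (PT.nd (nat_lit 55460) (PT.nd (nat_lit 94) (PT.lf (nat_lit 2604) (nat_lit 6) (nat_lit 31) (nat_lit 1) (nat_lit 48) (nat_lit 16) (nat_lit 47)) (PT.lf (nat_lit 2520) (nat_lit 6) (nat_lit 30) (nat_lit 1) (nat_lit 49) (nat_lit 16) (nat_lit 46))) (PT.nd (nat_lit 94) (PT.lf (nat_lit 2772) (nat_lit 6) (nat_lit 33) (nat_lit 3) (nat_lit 45) (nat_lit 17) (nat_lit 49)) (PT.nd (nat_lit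 94) (PT.lf (nat_lit 2856) (nat_lit 6) (nat_lit 34) (nat_lit 3) (nat_lit 46) (nat_lit 17) (nat_lit 48)) (PT.lf (nat_lit 2940) (nat_lit 3) (nat_lit 35) (nat_lit 1) (nat_lit 47) (nat_lit 17) (nat_lit 47))))) (PT.nd (nat_lit 55366) (PT.nd (nat_lit 94) (PT.lf (nat_lit 2856) (nat_lit 6) (nat_lit 34) (nat_lit 1) (nat_lit 48) (nat_lit 17) (nat_lit 46)) (PT.lf (nat_lit 2772) (nat_lit 6) (nat_lit 33) (nat_lit 1) (nat_lit 49) (nat_lit 17) (nat_lit 45))) (PT.nd (nat_lit 94) (PT.lf (nat_lit 3108) (nat_lit 6) (nat_lit 37) (nat_lit 3) (nat_lit 44) (nat_lit 18) (nat_lit 49)) (PT.nd (nat_lit 94) (PT.lf (nat_lit 3192) (nat_lit 6) (nat_lit 38) (nat_lit 3) (nat_lit 45) (nat_lit 18) (nat_lit 48)) (PT.lf (nat_lit 3276) (nat_lit 6) (nat_lit 39) (nat_lit 3) (nat_lit 46) (nat_lit 18) (nat_lit 47))))))) (PT.nd (nat_lit 111014) (PT.nd (nat_lit 55554) (PT.nd (nat_lit 188) (PT.nd (nat_lit 94) (PT.lf (nat_lit 3276) (nat_lit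 6) (nat_lit 39) (nat_lit 1) (nat_lit 47) (nat_lit 18) (nat_lit 46)) (PT.lf (nat_lit 3192) (nat_lit 6) (nat_lit 38) (nat_lit 1) (nat_lit 48) (nat_lit 18) (nat_lit 45))) (PT.nd (nat_lit 55178) (PT.lf (nat_lit 3108) (nat_lit 6) (nat_lit 37) (nat_lit 1) (nat_lit 49) (nat_lit 18) (nat_lit 44)) (PT.nd (nat_lit 94) (PT.lf (nat_lit 3444) (nat_lit 6) (nat_lit 41) (nat_lit 3) (nat_lit 43) (nat_lit 19) (nat_lit 49)) (PT.lf (nat_lit 3528) (nat_lit 6) (nat_lit 42) (nat_lit 3) (nat_lit 44) (nat_lit 19) (nat_lit 48))))) (PT.nd (nat_lit 188) (PT.nd (nat_lit 94) (PT.lf (nat_lit 3612) (nat_lit 6) (nat_lit 43) (nat_lit 3) (nat_lit 45) (nat_lit 19) (nat_lit 47)) (PT.lf (nat_lit 3696) (nat_lit 3) (nat_lit 44) (nat_lit 1) (nat_lit 46) (nat_lit 19) (nat_lit 46))) (PT.nd (nat_lit 94) (PT.lf (nat_lit 3612) (nat_lit 6) (nat_lit 43) (nat_lit 1) (nat_lit 47) (nat_lit 19) (nat_lit 45)) (PT.nd (nat_lit 94) (PT.lf (nat_lit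 3528) (nat_lit 6) (nat_lit 42) (nat_lit 1) (nat_lit 48) (nat_lit 19) (nat_lit 44)) (PT.lf (nat_lit 3444) (nat_lit 6) (nat_lit 41) (nat_lit 1) (nat_lit 49) (nat_lit 19) (nat_lit 43)))))) (PT.nd (nat_lit 470) (PT.nd (nat_lit 188) (PT.nd (nat_lit 94) (PT.lf (nat_lit 3864) (nat_lit 6) (nat_lit 46) (nat_lit 3) (nat_lit 42) (nat_lit 20) (nat_lit 49)) (PT.lf (nat_lit 3948) (nat_lit 6) (nat_lit 47) (nat_lit 3) (nat_lit 43) (nat_lit 20) (nat_lit 48))) (PT.nd (nat_lit 94) (PT.lf (nat_lit 4032) (nat_lit 6) (nat_lit 48) (nat_lit 3) (nat_lit 44) (nat_lit 20) (nat_lit 47)) (PT.nd (nat_lit 94) (PT.lf (nat_lit 4116) (nat_lit 6) (nat_lit 49) (nat_lit 3) (nat_lit 45) (nat_lit 20) (nat_lit 46)) (PT.lf (nat_lit 4116) (nat_lit 6) (nat_lit 49) (nat_lit 1) (nat_lit 46) (nat_lit 20) (nat_lit 45))))) (PT.nd (nat_lit 188) (PT.nd (nat_lit 94) (PT.lf (nat_lit 4032) (nat_lit 6) (nat_lit 48) (nat_lit 1) (nat_lit 47) (nat_lit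 20) (nat_lit 44)) (PT.lf (nat_lit 3948) (nat_lit 6) (nat_lit 47) (nat_lit 1) (nat_lit 48) (nat_lit 20) (nat_lit 43))) (PT.nd (nat_lit 54990) (PT.lf (nat_lit 3864) (nat_lit 6) (nat_lit 46) (nat_lit 1) (nat_lit 49) (nat_lit 20) (nat_lit 42)) (PT.nd (nat_lit 94) (PT.lf (nat_lit 4200) (nat_lit 6) (nat_lit 50) (nat_lit 3) (nat_lit 41) (nat_lit 21) (nat_lit 49)) (PT.lf (nat_lit 4284) (nat_lit 6) (nat_lit 51) (nat_lit 3) (nat_lit 42) (nat_lit 21) (nat_lit 48))))))))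
noncomputable def pc1 : PT := (PT.nd (nat_lit 111672) (PT.nd (nat_lit 55836) (PT.nd (nat_lit 470) (PT.nd (nat_lit 188) (PT.nd (nat_lit 94) (PT.lf (nat_lit 4368) (nat_lit 6) (nat_lit 52) (nat_lit 3) (nat_lit 43) (nat_lit 21) (nat_lit 47)) (PT.lf (nat_lit 4452) (nat_lit 6) (nat_lit 53) (nat_lit 3) (nat_lit 44) (nat_lit 21) (nat_lit 46))) (PT.nd (nat_lit 94) (PT.lf (nat_lit 4536) (nat_lit 3) (nat_lit 54) (nat_lit 1) (nat_lit 45) (nat_lit 21) (nat_lit 45)) (PT.nd (nat_lit 94) (PT.lf (nat_lit 4452) (nat_lit 6) (nat_lit 53) (nat_lit 1) (nat_lit 46) (nat_lit 21) (nat_lit 44)) (PT.lf (nat_lit 4368) (nat_lit 6) (nat_lit 52) (nat_lit 1) (nat_lit 47) (nat_lit 21) (nat_lit 43))))) (PT.nd (nat_lit 55084) (PT.nd (nat_lit 94) (PT.lf (nat_lit 4284) (nat_lit 6) (nat_lit 51) (nat_lit 1) (nat_lit 48) (nat_lit 21) (nat_lit 42)) (PT.lf (nat_lit 4200) (nat_lit 6) (nat_lit 50) (nat_lit 1) (nat_lit 49) (nat_lit 21)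 (nat_lit 41))) (PT.nd (nat_lit 94) (PT.lf (nat_lit 4704) (nat_lit 6) (nat_lit 56) (nat_lit 3) (nat_lit 41) (nat_lit 22) (nat_lit 48)) (PT.nd (nat_lit 94) (PT.lf (nat_lit 4788) (nat_lit 6) (nat_lit 57) (nat_lit 3) (nat_lit 42) (nat_lit 22) (nat_lit 47)) (PT.lf (nat_lit 4872) (nat_lit 6) (nat_lit 58) (nat_lit 3) (nat_lit 43) (nat_lit 22) (nat_lit 46)))))) (PT.nd (nat_lit 55366) (PT.nd (nat_lit 188) (PT.nd (nat_lit 94) (PT.lf (nat_lit 4956) (nat_lit 6) (nat_lit 59) (nat_lit 3) (nat_lit 44) (nat_lit 22) (nat_lit 45)) (PT.lf (nat_lit 4956) (nat_lit 6) (nat_lit 59) (nat_lit 1) (nat_lit 45) (nat_lit 22) (nat_lit 44))) (PT.nd (nat_lit 94) (PT.lf (nat_lit 4872) (nat_lit 6) (nat_lit 58) (nat_lit 1) (nat_lit 46) (nat_lit 22) (nat_lit 43)) (PT.nd (nat_lit 94) (PT.lf (nat_lit 4788) (nat_lit 6) (nat_lit 57) (nat_lit 1) (nat_lit 47) (nat_lit 22) (nat_lit 42)) (PT.lf (nat_lit 4704) (nat_lit 6) (nat_lit 56)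 (nat_lit 1) (nat_lit 48) (nat_lit 22) (nat_lit 41))))) (PT.nd (nat_lit 188) (PT.nd (nat_lit 94) (PT.lf (nat_lit 5124) (nat_lit 6) (nat_lit 61) (nat_lit 3) (nat_lit 40) (nat_lit 23) (nat_lit 48)) (PT.lf (nat_lit 5208) (nat_lit 6) (nat_lit 62) (nat_lit 3) (nat_lit 41) (nat_lit 23) (nat_lit 47))) (PT.nd (nat_lit 94) (PT.lf (nat_lit 5292) (nat_lit 6) (nat_lit 63) (nat_lit 3) (nat_lit 42) (nat_lit 23) (nat_lit 46)) (PT.nd (nat_lit 94) (PT.lf (nat_lit 5376) (nat_lit 6) (nat_lit 64) (nat_lit 3) (nat_lit 43) (nat_lit 23) (nat_lit 45)) (PT.lf (nat_lit 5460) (nat_lit 3) (nat_lit 65) (nat_lit 1) (nat_lit 44) (nat_lit 23) (nat_lit 44))))))) (PT.nd (nat_lit 55742) (PT.nd (nat_lit 55272) (PT.nd (nat_lit 188) (PT.nd (nat_lit 94) (PT.lf (nat_lit 5376) (nat_lit 6) (nat_lit 64) (nat_lit 1) (nat_lit 45) (nat_lit 23) (nat_lit 43)) (PT.lf (nat_lit 5292) (nat_lit 6) (nat_lit 63) (nat_lit 1) (nat_lit 46) (nat_lit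 23) (nat_lit 42))) (PT.nd (nat_lit 94) (PT.lf (nat_lit 5208) (nat_lit 6) (nat_lit 62) (nat_lit 1) (nat_lit 47) (nat_lit 23) (nat_lit 41)) (PT.nd (nat_lit 54896) (PT.lf (nat_lit 5124) (nat_lit 6) (nat_lit 61) (nat_lit 1) (nat_lit 48) (nat_lit 23) (nat_lit 40)) (PT.lf (nat_lit 5628) (nat_lit 6) (nat_lit 67) (nat_lit 3) (nat_lit 39) (nat_lit 24) (nat_lit 48))))) (PT.nd (nat_lit 188) (PT.nd (nat_lit 94) (PT.lf (nat_lit 5712) (nat_lit 6) (nat_lit 68) (nat_lit 3) (nat_lit 40) (nat_lit 24) (nat_lit 47)) (PT.lf (nat_lit 5796) (nat_lit 6) (nat_lit 69) (nat_lit 3) (nat_lit 41) (nat_lit 24) (nat_lit 46))) (PT.nd (nat_lit 94) (PT.lf (nat_lit 5880) (nat_lit 6) (nat_lit 70) (nat_lit 3) (nat_lit 42) (nat_lit 24) (nat_lit 45)) (PT.nd (nat_lit 94) (PT.lf (nat_lit 5964) (nat_lit 6) (nat_lit 71) (nat_lit 3) (nat_lit 43) (nat_lit 24) (nat_lit 44)) (PT.lf (nat_lit 5964) (nat_lit 6) (nat_lit 71) (nat_lit 1) (nat_lit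 44) (nat_lit 24) (nat_lit 43)))))) (PT.nd (nat_lit 55178) (PT.nd (nat_lit 188) (PT.nd (nat_lit 94) (PT.lf (nat_lit 5880) (nat_lit 6) (nat_lit 70) (nat_lit 1) (nat_lit 45) (nat_lit 24) (nat_lit 42)) (PT.lf (nat_lit 5796) (nat_lit 6) (nat_lit 69) (nat_lit 1) (nat_lit 46) (nat_lit 24) (nat_lit 41))) (PT.nd (nat_lit 94) (PT.lf (nat_lit 5712) (nat_lit 6) (nat_lit 68) (nat_lit 1) (nat_lit 47) (nat_lit 24) (nat_lit 40)) (PT.nd (nat_lit 54802) (PT.lf (nat_lit 5628) (nat_lit 6) (nat_lit 67) (nat_lit 1) (nat_lit 48) (nat_lit 24) (nat_lit 39)) (PT.lf (nat_lit 6300) (nat_lit 6) (nat_lit 75) (nat_lit 3) (nat_lit 38) (nat_lit 25) (nat_lit 48))))) (PT.nd (nat_lit 282) (PT.nd (nat_lit 94) (PT.lf (nat_lit 6384) (nat_lit 6) (nat_lit 76) (nat_lit 3) (nat_lit 39) (nat_lit 25) (nat_lit 47)) (PT.nd (nat_lit 94) (PT.lf (nat_lit 6468) (nat_lit 6) (nat_lit 77) (nat_lit 3) (nat_lit 40) (nat_lit 25) (nat_lit 46)) (PT.lf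 (nat_lit 6552) (nat_lit 6) (nat_lit 78) (nat_lit 3) (nat_lit 41) (nat_lit 25) (nat_lit 45)))) (PT.nd (nat_lit 94) (PT.lf (nat_lit 6636) (nat_lit 6) (nat_lit 79) (nat_lit 3) (nat_lit 42) (nat_lit 25) (nat_lit 44)) (PT.nd (nat_lit 94) (PT.lf (nat_lit 6720) (nat_lit 3) (nat_lit 80) (nat_lit 1) (nat_lit 43) (nat_lit 25) (nat_lit 43)) (PT.lf (nat_lit 6636) (nat_lit 6) (nat_lit 79) (nat_lit 1) (nat_lit 44) (nat_lit 25) (nat_lit 42))))))))
noncomputable def pc2 : PT := (PT.nd (nat_lit 111014) (PT.nd (nat_lit 55554) (PT.nd (nat_lit 55084) (PT.nd (nat_lit 188) (PT.nd (nat_lit 94) (PT.lf (nat_lit 6552) (nat_lit 6) (nat_lit 78) (nat_lit 1) (nat_lit 45) (nat_lit 25) (nat_lit 41)) (PT.lf (nat_lit 6468) (nat_lit 6) (nat_lit 77) (nat_lit 1) (nat_lit 46) (nat_lit 25) (nat_lit 40))) (PT.nd (nat_lit 94) (PT.lf (nat_lit 6384) (nat_lit 6) (nat_lit 76) (nat_lit 1) (nat_lit 47) (nat_lit 25) (nat_lit 39)) (PT.nd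 (nat_lit 54708) (PT.lf (nat_lit 6300) (nat_lit 6) (nat_lit 75) (nat_lit 1) (nat_lit 48) (nat_lit 25) (nat_lit 38)) (PT.lf (nat_lit 7224) (nat_lit 6) (nat_lit 86) (nat_lit 3) (nat_lit 37) (nat_lit 26) (nat_lit 48))))) (PT.nd (nat_lit 188) (PT.nd (nat_lit 94) (PT.lf (nat_lit 7308) (nat_lit 6) (nat_lit 87) (nat_lit 3) (nat_lit 38) (nat_lit 26) (nat_lit 47)) (PT.lf (nat_lit 7392) (nat_lit 6) (nat_lit 88) (nat_lit 3) (nat_lit 39) (nat_lit 26) (nat_lit 46))) (PT.nd (nat_lit 94) (PT.lf (nat_lit 7476) (nat_lit 6) (nat_lit 89) (nat_lit 3) (nat_lit 40) (nat_lit 26) (nat_lit 45)) (PT.nd (nat_lit 94) (PT.lf (nat_lit 7560) (nat_lit 6) (nat_lit 90) (nat_lit 3) (nat_lit 41) (nat_lit 26) (nat_lit 44)) (PT.lf (nat_lit 7644) (nat_lit 6) (nat_lit 91) (nat_lit 3) (nat_lit 42) (nat_lit 26) (nat_lit 43)))))) (PT.nd (nat_lit 470) (PT.nd (nat_lit 188) (PT.nd (nat_lit 94) (PT.lf (nat_lit 7644) (nat_lit 6) (nat_lit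 91) (nat_lit 1) (nat_lit 43) (nat_lit 26) (nat_lit 42)) (PT.lf (nat_lit 7560) (nat_lit 6) (nat_lit 90) (nat_lit 1) (nat_lit 44) (nat_lit 26) (nat_lit 41))) (PT.nd (nat_lit 94) (PT.lf (nat_lit 7476) (nat_lit 6) (nat_lit 89) (nat_lit 1) (nat_lit 45) (nat_lit 26) (nat_lit 40)) (PT.nd (nat_lit 94) (PT.lf (nat_lit 7392) (nat_lit 6) (nat_lit 88) (nat_lit 1) (nat_lit 46) (nat_lit 26) (nat_lit 39)) (PT.lf (nat_lit 7308) (nat_lit 6) (nat_lit 87) (nat_lit 1) (nat_lit 47) (nat_lit 26) (nat_lit 38))))) (PT.nd (nat_lit 54708) (PT.nd (nat_lit 54614) (PT.lf (nat_lit 7224) (nat_lit 6) (nat_lit 86) (nat_lit 1) (nat_lit 48) (nat_lit 26) (nat_lit 37)) (PT.lf (nat_lit 7140) (nat_lit 6) (nat_lit 85) (nat_lit 3) (nat_lit 36) (nat_lit 27) (nat_lit 48))) (PT.nd (nat_lit 94) (PT.lf (nat_lit 8148) (nat_lit 6) (nat_lit 97) (nat_lit 3) (nat_lit 37) (nat_lit 27) (nat_lit 47)) (PT.nd (nat_lit 94) (PT.lf (nat_lit 8232) (nat_lit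 6) (nat_lit 98) (nat_lit 3) (nat_lit 38) (nat_lit 27) (nat_lit 46)) (PT.lf (nat_lit 8316) (nat_lit 6) (nat_lit 99) (nat_lit 3) (nat_lit 39) (nat_lit 27) (nat_lit 45))))))) (PT.nd (nat_lit 55366) (PT.nd (nat_lit 470) (PT.nd (nat_lit 188) (PT.nd (nat_lit 94) (PT.lf (nat_lit 8400) (nat_lit 6) (nat_lit 100) (nat_lit 3) (nat_lit 40) (nat_lit 27) (nat_lit 44)) (PT.lf (nat_lit 8484) (nat_lit 6) (nat_lit 101) (nat_lit 3) (nat_lit 41) (nat_lit 27) (nat_lit 43))) (PT.nd (nat_lit 94) (PT.lf (nat_lit 8568) (nat_lit 3) (nat_lit 102) (nat_lit 1) (nat_lit 42) (nat_lit 27) (nat_lit 42)) (PT.nd (nat_lit 94) (PT.lf (nat_lit 8484) (nat_lit 6) (nat_lit 101) (nat_lit 1) (nat_lit 43) (nat_lit 27) (nat_lit 41)) (PT.lf (nat_lit 8400) (nat_lit 6) (nat_lit 100) (nat_lit 1) (nat_lit 44) (nat_lit 27) (nat_lit 40))))) (PT.nd (nat_lit 188) (PT.nd (nat_lit 94) (PT.lf (nat_lit 8316) (nat_lit 6) (nat_lit 99) (nat_lit 1) (nat_lit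 45) (nat_lit 27) (nat_lit 39)) (PT.lf (nat_lit 8232) (nat_lit 6) (nat_lit 98) (nat_lit 1) (nat_lit 46) (nat_lit 27) (nat_lit 38))) (PT.nd (nat_lit 94) (PT.lf (nat_lit 8148) (nat_lit 6) (nat_lit 97) (nat_lit 1) (nat_lit 47) (nat_lit 27) (nat_lit 37)) (PT.nd (nat_lit 54520) (PT.lf (nat_lit 7140) (nat_lit 6) (nat_lit 85) (nat_lit 1) (nat_lit 48) (nat_lit 27) (nat_lit 36)) (PT.lf (nat_lit 7056) (nat_lit 6) (nat_lit 84) (nat_lit 3) (nat_lit 35) (nat_lit 28) (nat_lit 48)))))) (PT.nd (nat_lit 470) (PT.nd (nat_lit 188) (PT.nd (nat_lit 94) (PT.lf (nat_lit 8064) (nat_lit 6) (nat_lit 96) (nat_lit 3) (nat_lit 36) (nat_lit 28) (nat_lit 47)) (PT.lf (nat_lit 8988) (nat_lit 6) (nat_lit 107) (nat_lit 3) (nat_lit 37) (nat_lit 28) (nat_lit 46))) (PT.nd (nat_lit 94) (PT.lf (nat_lit 9072) (nat_lit 6) (nat_lit 108) (nat_lit 3) (nat_lit 38) (nat_lit 28) (nat_lit 45)) (PT.nd (nat_lit 94) (PT.lf (nat_lit 9156) (nat_lit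 6) (nat_lit 109) (nat_lit 3) (nat_lit 39) (nat_lit 28) (nat_lit 44)) (PT.lf (nat_lit 9240) (nat_lit 6) (nat_lit 110) (nat_lit 3) (nat_lit 40) (nat_lit 28) (nat_lit 43))))) (PT.nd (nat_lit 282) (PT.nd (nat_lit 94) (PT.lf (nat_lit 9324) (nat_lit 6) (nat_lit 111) (nat_lit 3) (nat_lit 41) (nat_lit 28) (nat_lit 42)) (PT.nd (nat_lit 94) (PT.lf (nat_lit 9324) (nat_lit 6) (nat_lit 111) (nat_lit 1) (nat_lit 42) (nat_lit 28) (nat_lit 41)) (PT.lf (nat_lit 9240) (nat_lit 6) (nat_lit 110) (nat_lit 1) (nat_lit 43) (nat_lit 28) (nat_lit 40)))) (PT.nd (nat_lit 94) (PT.lf (nat_lit 9156) (nat_lit 6) (nat_lit 109) (nat_lit 1) (nat_lit 44) (nat_lit 28) (nat_lit 39)) (PT.nd (nat_lit 94) (PT.lf (nat_lit 9072) (nat_lit 6) (nat_lit 108) (nat_lit 1) (nat_lit 45) (nat_lit 28) (nat_lit 38)) (PT.lf (nat_lit 8988) (nat_lit 6) (nat_lit 107) (nat_lit 1) (nat_lit 46) (nat_lit 28) (nat_lit 37))))))))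
noncomputable def pc3 : PT := (PT.nd (nat_lit 110450) (PT.nd (nat_lit 55272) (PT.nd (nat_lit 54802) (PT.nd (nat_lit 54520) (PT.nd (nat_lit 94) (PT.lf (nat_lit 8064) (nat_lit 6) (nat_lit 96) (nat_lit 1) (nat_lit 47) (nat_lit 28) (nat_lit 36)) (PT.lf (nat_lit 7056) (nat_lit 6) (nat_lit 84) (nat_lit 1) (nat_lit 48) (nat_lit 28) (nat_lit 35))) (PT.nd (nat_lit 94) (PT.lf (nat_lit 6972) (nat_lit 6) (nat_lit 83) (nat_lit 3) (nat_lit 34) (nat_lit 29) (nat_lit 48)) (PT.nd (nat_lit 94) (PT.lf (nat_lit 7980) (nat_lit 6) (nat_lit 95) (nat_lit 3) (nat_lit 35) (nat_lit 29) (nat_lit 47)) (PT.lf (nat_lit 8904) (nat_lit 6) (nat_lit 106) (nat_lit 3) (nat_lit 36) (nat_lit 29) (nat_lit 46))))) (PT.nd (nat_lit 188) (PT.nd (nat_lit 94) (PT.lf (nat_lit 9744) (nat_lit 6) (nat_lit 116) (nat_lit 3) (nat_lit 37) (nat_lit 29) (nat_lit 45)) (PT.lf (nat_lit 9828) (nat_lit 6) (nat_lit 117) (nat_lit 3) (nat_lit 38) (nat_lit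 29) (nat_lit 44))) (PT.nd (nat_lit 94) (PT.lf (nat_lit 9912) (nat_lit 6) (nat_lit 118) (nat_lit 3) (nat_lit 39) (nat_lit 29) (nat_lit 43)) (PT.nd (nat_lit 94) (PT.lf (nat_lit 9996) (nat_lit 6) (nat_lit 119) (nat_lit 3) (nat_lit 40) (nat_lit 29) (nat_lit 42)) (PT.lf (nat_lit 10080) (nat_lit 3) (nat_lit 120) (nat_lit 1) (nat_lit 41) (nat_lit 29) (nat_lit 41)))))) (PT.nd (nat_lit 470) (PT.nd (nat_lit 188) (PT.nd (nat_lit 94) (PT.lf (nat_lit 9996) (nat_lit 6) (nat_lit 119) (nat_lit 1) (nat_lit 42) (nat_lit 29) (nat_lit 40)) (PT.lf (nat_lit 9912) (nat_lit 6) (nat_lit 118) (nat_lit 1) (nat_lit 43) (nat_lit 29) (nat_lit 39))) (PT.nd (nat_lit 94) (PT.lf (nat_lit 9828) (nat_lit 6) (nat_lit 117) (nat_lit 1) (nat_lit 44) (nat_lit 29) (nat_lit 38)) (PT.nd (nat_lit 94) (PT.lf (nat_lit 9744) (nat_lit 6) (nat_lit 116) (nat_lit 1) (nat_lit 45) (nat_lit 29) (nat_lit 37)) (PT.lf (nat_lit 8904) (nat_lit 6) (nat_lit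 106) (nat_lit 1) (nat_lit 46) (nat_lit 29) (nat_lit 36))))) (PT.nd (nat_lit 54426) (PT.nd (nat_lit 94) (PT.lf (nat_lit 7980) (nat_lit 6) (nat_lit 95) (nat_lit 1) (nat_lit 47) (nat_lit 29) (nat_lit 35)) (PT.lf (nat_lit 6972) (nat_lit 6) (nat_lit 83) (nat_lit 1) (nat_lit 48) (nat_lit 29) (nat_lit 34))) (PT.nd (nat_lit 94) (PT.lf (nat_lit 6888) (nat_lit 6) (nat_lit 82) (nat_lit 3) (nat_lit 33) (nat_lit 30) (nat_lit 48)) (PT.nd (nat_lit 94) (PT.lf (nat_lit 7896) (nat_lit 6) (nat_lit 94) (nat_lit 3) (nat_lit 34) (nat_lit 30) (nat_lit 47)) (PT.lf (nat_lit 8820) (nat_lit 6) (nat_lit 105) (nat_lit 3) (nat_lit 35) (nat_lit 30) (nat_lit 46))))))) (PT.nd (nat_lit 940) (PT.nd (nat_lit 470) (PT.nd (nat_lit 188) (PT.nd (nat_lit 94) (PT.lf (nat_lit 9660) (nat_lit 6) (nat_lit 115) (nat_lit 3) (nat_lit 36) (nat_lit 30) (nat_lit 45)) (PT.lf (nat_lit 10416) (nat_lit 6) (nat_lit 124) (nat_lit 3) (nat_lit 37) (nat_lit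 30) (nat_lit 44))) (PT.nd (nat_lit 94) (PT.lf (nat_lit 10500) (nat_lit 6) (nat_lit 125) (nat_lit 3) (nat_lit 38) (nat_lit 30) (nat_lit 43)) (PT.nd (nat_lit 94) (PT.lf (nat_lit 10584) (nat_lit 6) (nat_lit 126) (nat_lit 3) (nat_lit 39) (nat_lit 30) (nat_lit 42)) (PT.lf (nat_lit 10668) (nat_lit 6) (nat_lit 127) (nat_lit 3) (nat_lit 40) (nat_lit 30) (nat_lit 41))))) (PT.nd (nat_lit 188) (PT.nd (nat_lit 94) (PT.lf (nat_lit 10668) (nat_lit 6) (nat_lit 127) (nat_lit 1) (nat_lit 41) (nat_lit 30) (nat_lit 40)) (PT.lf (nat_lit 10584) (nat_lit 6) (nat_lit 126) (nat_lit 1) (nat_lit 42) (nat_lit 30) (nat_lit 39))) (PT.nd (nat_lit 94) (PT.lf (nat_lit 10500) (nat_lit 6) (nat_lit 125) (nat_lit 1) (nat_lit 43) (nat_lit 30) (nat_lit 38)) (PT.nd (nat_lit 94) (PT.lf (nat_lit 10416) (nat_lit 6) (nat_lit 124) (nat_lit 1) (nat_lit 44) (nat_lit 30) (nat_lit 37)) (PT.lf (nat_lit 9660) (nat_lit 6) (nat_lit 115) (nat_lit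 1) (nat_lit 45) (nat_lit 30) (nat_lit 36)))))) (PT.nd (nat_lit 54614) (PT.nd (nat_lit 188) (PT.nd (nat_lit 94) (PT.lf (nat_lit 8820) (nat_lit 6) (nat_lit 105) (nat_lit 1) (nat_lit 46) (nat_lit 30) (nat_lit 35)) (PT.lf (nat_lit 7896) (nat_lit 6) (nat_lit 94) (nat_lit 1) (nat_lit 47) (nat_lit 30) (nat_lit 34))) (PT.nd (nat_lit 54238) (PT.lf (nat_lit 6888) (nat_lit 6) (nat_lit 82) (nat_lit 1) (nat_lit 48) (nat_lit 30) (nat_lit 33)) (PT.nd (nat_lit 94) (PT.lf (nat_lit 6804) (nat_lit 6) (nat_lit 81) (nat_lit 3) (nat_lit 32) (nat_lit 31) (nat_lit 48)) (PT.lf (nat_lit 7812) (nat_lit 6) (nat_lit 93) (nat_lit 3) (nat_lit 33) (nat_lit 31) (nat_lit 47))))) (PT.nd (nat_lit 282) (PT.nd (nat_lit 94) (PT.lf (nat_lit 8736) (nat_lit 6) (nat_lit 104) (nat_lit 3) (nat_lit 34) (nat_lit 31) (nat_lit 46)) (PT.nd (nat_lit 94) (PT.lf (nat_lit 9576) (nat_lit 6) (nat_lit 114) (nat_lit 3) (nat_lit 35) (nat_lit 31) (nat_lit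 45)) (PT.lf (nat_lit 10332) (nat_lit 6) (nat_lit 123) (nat_lit 3) (nat_lit 36) (nat_lit 31) (nat_lit 44)))) (PT.nd (nat_lit 94) (PT.lf (nat_lit 11004) (nat_lit 6) (nat_lit 131) (nat_lit 3) (nat_lit 37) (nat_lit 31) (nat_lit 43)) (PT.nd (nat_lit 94) (PT.lf (nat_lit 11088) (nat_lit 6) (nat_lit 132) (nat_lit 3) (nat_lit 38) (nat_lit 31) (nat_lit 42)) (PT.lf (nat_lit 11172) (nat_lit 6) (nat_lit 133) (nat_lit 3) (nat_lit 39) (nat_lit 31) (nat_lit 41))))))))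
noncomputable def pc4 : PT := (PT.nd (nat_lit 55930) (PT.nd (nat_lit 54990) (PT.nd (nat_lit 470) (PT.nd (nat_lit 188) (PT.nd (nat_lit 94) (PT.lf (nat_lit 11256) (nat_lit 3) (nat_lit 134) (nat_lit 1) (nat_lit 40) (nat_lit 31) (nat_lit 40)) (PT.lf (nat_lit 11172) (nat_lit 6) (nat_lit 133) (nat_lit 1) (nat_lit 41) (nat_lit 31) (nat_lit 39))) (PT.nd (nat_lit 94) (PT.lf (nat_lit 11088) (nat_lit 6) (nat_lit 132) (nat_lit 1) (nat_lit 42) (nat_lit 31) (nat_lit 38)) (PT.nd (nat_lit 94) (PT.lf (nat_lit 11004) (nat_lit 6) (nat_lit 131) (nat_lit 1) (nat_lit 43) (nat_lit 31) (nat_lit 37)) (PT.lf (nat_lit 10332) (nat_lit 6) (nat_lit 123) (nat_lit 1) (nat_lit 44) (nat_lit 31) (nat_lit 36))))) (PT.nd (nat_lit 188) (PT.nd (nat_lit 94) (PT.lf (nat_lit 9576) (nat_lit 6) (nat_lit 114) (nat_lit 1) (nat_lit 45) (nat_lit 31) (nat_lit 35)) (PT.lf (nat_lit 8736) (nat_lit 6) (nat_lit 104) (nat_lit 1) (nat_lit 46) (nat_lit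 31) (nat_lit 34))) (PT.nd (nat_lit 94) (PT.lf (nat_lit 7812) (nat_lit 6) (nat_lit 93) (nat_lit 1) (nat_lit 47) (nat_lit 31) (nat_lit 33)) (PT.nd (nat_lit 54144) (PT.lf (nat_lit 6804) (nat_lit 6) (nat_lit 81) (nat_lit 1) (nat_lit 48) (nat_lit 31) (nat_lit 32)) (PT.lf (nat_lit 6804) (nat_lit 6) (nat_lit 81) (nat_lit 5) (nat_lit 31) (nat_lit 32) (nat_lit 48)))))) (PT.nd (nat_lit 470) (PT.nd (nat_lit 188) (PT.nd (nat_lit 94) (PT.lf (nat_lit 7728) (nat_lit 3) (nat_lit 92) (nat_lit 3) (nat_lit 32) (nat_lit 32) (nat_lit 47)) (PT.lf (nat_lit 8652) (nat_lit 6) (nat_lit 103) (nat_lit 3) (nat_lit 33) (nat_lit 32) (nat_lit 46))) (PT.nd (nat_lit 94) (PT.lf (nat_lit 9492) (nat_lit 6) (nat_lit 113) (nat_lit 3) (nat_lit 34) (nat_lit 32) (nat_lit 45)) (PT.nd (nat_lit 94) (PT.lf (nat_lit 10248) (nat_lit 6) (nat_lit 122) (nat_lit 3) (nat_lit 35) (nat_lit 32) (nat_lit 44)) (PT.lf (nat_lit 10920) (nat_lit 6) (nat_lit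 130) (nat_lit 3) (nat_lit 36) (nat_lit 32) (nat_lit 43))))) (PT.nd (nat_lit 188) (PT.nd (nat_lit 94) (PT.lf (nat_lit 11508) (nat_lit 6) (nat_lit 137) (nat_lit 3) (nat_lit 37) (nat_lit 32) (nat_lit 42)) (PT.lf (nat_lit 11592) (nat_lit 6) (nat_lit 138) (nat_lit 3) (nat_lit 38) (nat_lit 32) (nat_lit 41))) (PT.nd (nat_lit 94) (PT.lf (nat_lit 11676) (nat_lit 6) (nat_lit 139) (nat_lit 3) (nat_lit 39) (nat_lit 32) (nat_lit 40)) (PT.nd (nat_lit 94) (PT.lf (nat_lit 11676) (nat_lit 6) (nat_lit 139) (nat_lit 1) (nat_lit 40) (nat_lit 32) (nat_lit 39)) (PT.lf (nat_lit 11592) (nat_lit 6) (nat_lit 138) (nat_lit 1) (nat_lit 41) (nat_lit 32) (nat_lit 38))))))) (PT.nd (nat_lit 54896) (PT.nd (nat_lit 470) (PT.nd (nat_lit 188) (PT.nd (nat_lit 94) (PT.lf (nat_lit 11508) (nat_lit 6) (nat_lit 137) (nat_lit 1) (nat_lit 42) (nat_lit 32) (nat_lit 37)) (PT.lf (nat_lit 10920) (nat_lit 6) (nat_lit 130) (nat_lit 1) (nat_lit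 43) (nat_lit 32) (nat_lit 36))) (PT.nd (nat_lit 94) (PT.lf (nat_lit 10248) (nat_lit 6) (nat_lit 122) (nat_lit 1) (nat_lit 44) (nat_lit 32) (nat_lit 35)) (PT.nd (nat_lit 94) (PT.lf (nat_lit 9492) (nat_lit 6) (nat_lit 113) (nat_lit 1) (nat_lit 45) (nat_lit 32) (nat_lit 34)) (PT.lf (nat_lit 8652) (nat_lit 6) (nat_lit 103) (nat_lit 1) (nat_lit 46) (nat_lit 32) (nat_lit 33))))) (PT.nd (nat_lit 54144) (PT.nd (nat_lit 94) (PT.lf (nat_lit 7728) (nat_lit 3) (nat_lit 92) (nat_lit 0) (nat_lit 47) (nat_lit 32) (nat_lit 32)) (PT.lf (nat_lit 6804) (nat_lit 6) (nat_lit 81) (nat_lit 0) (nat_lit 48) (nat_lit 32) (nat_lit 31))) (PT.nd (nat_lit 94) (PT.lf (nat_lit 6888) (nat_lit 6) (nat_lit 82) (nat_lit 5) (nat_lit 30) (nat_lit 33) (nat_lit 48)) (PT.nd (nat_lit 94) (PT.lf (nat_lit 7812) (nat_lit 6) (nat_lit 93) (nat_lit 5) (nat_lit 31) (nat_lit 33) (nat_lit 47)) (PT.lf (nat_lit 8652) (nat_lit 6) (nat_lit 103)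 (nat_lit 5) (nat_lit 32) (nat_lit 33) (nat_lit 46)))))) (PT.nd (nat_lit 470) (PT.nd (nat_lit 188) (PT.nd (nat_lit 94) (PT.lf (nat_lit 9408) (nat_lit 3) (nat_lit 112) (nat_lit 3) (nat_lit 33) (nat_lit 33) (nat_lit 45)) (PT.lf (nat_lit 10164) (nat_lit 6) (nat_lit 121) (nat_lit 3) (nat_lit 34) (nat_lit 33) (nat_lit 44))) (PT.nd (nat_lit 94) (PT.lf (nat_lit 10836) (nat_lit 6) (nat_lit 129) (nat_lit 3) (nat_lit 35) (nat_lit 33) (nat_lit 43)) (PT.nd (nat_lit 94) (PT.lf (nat_lit 11424) (nat_lit 6) (nat_lit 136) (nat_lit 3) (nat_lit 36) (nat_lit 33) (nat_lit 42)) (PT.lf (nat_lit 11928) (nat_lit 6) (nat_lit 142) (nat_lit 3) (nat_lit 37) (nat_lit 33) (nat_lit 41))))) (PT.nd (nat_lit 188) (PT.nd (nat_lit 94) (PT.lf (nat_lit 12012) (nat_lit 6) (nat_lit 143) (nat_lit 3) (nat_lit 38) (nat_lit 33) (nat_lit 40)) (PT.lf (nat_lit 12096) (nat_lit 3) (nat_lit 144) (nat_lit 1) (nat_lit 39) (nat_lit 33) (nat_lit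 39))) (PT.nd (nat_lit 94) (PT.lf (nat_lit 12012) (nat_lit 6) (nat_lit 143) (nat_lit 1) (nat_lit 40) (nat_lit 33) (nat_lit 38)) (PT.nd (nat_lit 94) (PT.lf (nat_lit 11928) (nat_lit 6) (nat_lit 142) (nat_lit 1) (nat_lit 41) (nat_lit 33) (nat_lit 37)) (PT.lf (nat_lit 11424) (nat_lit 6) (nat_lit 136) (nat_lit 1) (nat_lit 42) (nat_lit 33) (nat_lit 36))))))))
noncomputable def pc5 : PT := (PT.nd (nat_lit 55742) (PT.nd (nat_lit 54802) (PT.nd (nat_lit 470) (PT.nd (nat_lit 188) (PT.nd (nat_lit 94) (PT.lf (nat_lit 10836) (nat_lit 6) (nat_lit 129) (nat_lit 1) (nat_lit 43) (nat_lit 33) (nat_lit 35)) (PT.lf (nat_lit 10164) (nat_lit 6) (nat_lit 121) (nat_lit 1) (nat_lit 44) (nat_lit 33) (nat_lit 34))) (PT.nd (nat_lit 94) (PT.lf (nat_lit 9408) (nat_lit 3) (nat_lit 112) (nat_lit 0) (nat_lit 45) (nat_lit 33) (nat_lit 33)) (PT.nd (nat_lit 94) (PT.lf (nat_lit 8652) (nat_lit 6) (nat_lit 103) (nat_lit 0) (nat_lit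 46) (nat_lit 33) (nat_lit 32)) (PT.lf (nat_lit 7812) (nat_lit 6) (nat_lit 93) (nat_lit 0) (nat_lit 47) (nat_lit 33) (nat_lit 31))))) (PT.nd (nat_lit 54050) (PT.nd (nat_lit 53956) (PT.lf (nat_lit 6888) (nat_lit 6) (nat_lit 82) (nat_lit 0) (nat_lit 48) (nat_lit 33) (nat_lit 30)) (PT.lf (nat_lit 6972) (nat_lit 6) (nat_lit 83) (nat_lit 5) (nat_lit 29) (nat_lit 34) (nat_lit 48))) (PT.nd (nat_lit 94) (PT.lf (nat_lit 7896) (nat_lit 6) (nat_lit 94) (nat_lit 5) (nat_lit 30) (nat_lit 34) (nat_lit 47)) (PT.nd (nat_lit 94) (PT.lf (nat_lit 8736) (nat_lit 6) (nat_lit 104) (nat_lit 5) (nat_lit 31) (nat_lit 34) (nat_lit 46)) (PT.lf (nat_lit 9492) (nat_lit 6) (nat_lit 113) (nat_lit 5) (nat_lit 32) (nat_lit 34) (nat_lit 45)))))) (PT.nd (nat_lit 470) (PT.nd (nat_lit 188) (PT.nd (nat_lit 94) (PT.lf (nat_lit 10164) (nat_lit 6) (nat_lit 121) (nat_lit 5) (nat_lit 33) (nat_lit 34) (nat_lit 44)) (PT.lf (nat_lit 10752)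 (nat_lit 3) (nat_lit 128) (nat_lit 3) (nat_lit 34) (nat_lit 34) (nat_lit 43))) (PT.nd (nat_lit 94) (PT.lf (nat_lit 11340) (nat_lit 6) (nat_lit 135) (nat_lit 3) (nat_lit 35) (nat_lit 34) (nat_lit 42)) (PT.nd (nat_lit 94) (PT.lf (nat_lit 11844) (nat_lit 6) (nat_lit 141) (nat_lit 3) (nat_lit 36) (nat_lit 34) (nat_lit 41)) (PT.lf (nat_lit 12264) (nat_lit 6) (nat_lit 146) (nat_lit 3) (nat_lit 37) (nat_lit 34) (nat_lit 40))))) (PT.nd (nat_lit 188) (PT.nd (nat_lit 94) (PT.lf (nat_lit 12348) (nat_lit 6) (nat_lit 147) (nat_lit 3) (nat_lit 38) (nat_lit 34) (nat_lit 39)) (PT.lf (nat_lit 12348) (nat_lit 6) (nat_lit 147) (nat_lit 1) (nat_lit 39) (nat_lit 34) (nat_lit 38))) (PT.nd (nat_lit 94) (PT.lf (nat_lit 12264) (nat_lit 6) (nat_lit 146) (nat_lit 1) (nat_lit 40) (nat_lit 34) (nat_lit 37)) (PT.nd (nat_lit 94) (PT.lf (nat_lit 11844) (nat_lit 6) (nat_lit 141) (nat_lit 1) (nat_lit 41) (nat_lit 34) (nat_lit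 36)) (PT.lf (nat_lit 11340) (nat_lit 6) (nat_lit 135) (nat_lit 1) (nat_lit 42) (nat_lit 34) (nat_lit 35))))))) (PT.nd (nat_lit 54708) (PT.nd (nat_lit 470) (PT.nd (nat_lit 188) (PT.nd (nat_lit 94) (PT.lf (nat_lit 10752) (nat_lit 3) (nat_lit 128) (nat_lit 0) (nat_lit 43) (nat_lit 34) (nat_lit 34)) (PT.lf (nat_lit 10164) (nat_lit 6) (nat_lit 121) (nat_lit 0) (nat_lit 44) (nat_lit 34) (nat_lit 33))) (PT.nd (nat_lit 94) (PT.lf (nat_lit 9492) (nat_lit 6) (nat_lit 113) (nat_lit 0) (nat_lit 45) (nat_lit 34) (nat_lit 32)) (PT.nd (nat_lit 94) (PT.lf (nat_lit 8736) (nat_lit 6) (nat_lit 104) (nat_lit 0) (nat_lit 46) (nat_lit 34) (nat_lit 31)) (PT.lf (nat_lit 7896) (nat_lit 6) (nat_lit 94) (nat_lit 0) (nat_lit 47) (nat_lit 34) (nat_lit 30))))) (PT.nd (nat_lit 53956) (PT.nd (nat_lit 53862) (PT.lf (nat_lit 6972) (nat_lit 6) (nat_lit 83) (nat_lit 0) (nat_lit 48) (nat_lit 34) (nat_lit 29)) (PT.lf (nat_lit 7056)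 (nat_lit 6) (nat_lit 84) (nat_lit 5) (nat_lit 28) (nat_lit 35) (nat_lit 48))) (PT.nd (nat_lit 94) (PT.lf (nat_lit 7980) (nat_lit 6) (nat_lit 95) (nat_lit 5) (nat_lit 29) (nat_lit 35) (nat_lit 47)) (PT.nd (nat_lit 94) (PT.lf (nat_lit 8820) (nat_lit 6) (nat_lit 105) (nat_lit 5) (nat_lit 30) (nat_lit 35) (nat_lit 46)) (PT.lf (nat_lit 9576) (nat_lit 6) (nat_lit 114) (nat_lit 5) (nat_lit 31) (nat_lit 35) (nat_lit 45)))))) (PT.nd (nat_lit 470) (PT.nd (nat_lit 188) (PT.nd (nat_lit 94) (PT.lf (nat_lit 10248) (nat_lit 6) (nat_lit 122) (nat_lit 5) (nat_lit 32) (nat_lit 35) (nat_lit 44)) (PT.lf (nat_lit 10836) (nat_lit 6) (nat_lit 129) (nat_lit 5) (nat_lit 33) (nat_lit 35) (nat_lit 43))) (PT.nd (nat_lit 94) (PT.lf (nat_lit 11340) (nat_lit 6) (nat_lit 135) (nat_lit 5) (nat_lit 34) (nat_lit 35) (nat_lit 42)) (PT.nd (nat_lit 94) (PT.lf (nat_lit 11760) (nat_lit 3) (nat_lit 140) (nat_lit 3) (nat_lit 35) (nat_lit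 35) (nat_lit 41)) (PT.lf (nat_lit 12180) (nat_lit 6) (nat_lit 145) (nat_lit 3) (nat_lit 36) (nat_lit 35) (nat_lit 40))))) (PT.nd (nat_lit 282) (PT.nd (nat_lit 94) (PT.lf (nat_lit 12516) (nat_lit 6) (nat_lit 149) (nat_lit 3) (nat_lit 37) (nat_lit 35) (nat_lit 39)) (PT.nd (nat_lit 94) (PT.lf (nat_lit 12600) (nat_lit 3) (nat_lit 150) (nat_lit 1) (nat_lit 38) (nat_lit 35) (nat_lit 38)) (PT.lf (nat_lit 12516) (nat_lit 6) (nat_lit 149) (nat_lit 1) (nat_lit 39) (nat_lit 35) (nat_lit 37)))) (PT.nd (nat_lit 94) (PT.lf (nat_lit 12180) (nat_lit 6) (nat_lit 145) (nat_lit 1) (nat_lit 40) (nat_lit 35) (nat_lit 36)) (PT.nd (nat_lit 94) (PT.lf (nat_lit 11760) (nat_lit 3) (nat_lit 140) (nat_lit 0) (nat_lit 41) (nat_lit 35) (nat_lit 35)) (PT.lf (nat_lit 11340) (nat_lit 6) (nat_lit 135) (nat_lit 0) (nat_lit 42) (nat_lit 35) (nat_lit 34))))))))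
noncomputable def pc6 : PT := (PT.nd (nat_lit 55554) (PT.nd (nat_lit 54614) (PT.nd (nat_lit 470) (PT.nd (nat_lit 188) (PT.nd (nat_lit 94) (PT.lf (nat_lit 10836) (nat_lit 6) (nat_lit 129) (nat_lit 0) (nat_lit 43) (nat_lit 35) (nat_lit 33)) (PT.lf (nat_lit 10248) (nat_lit 6) (nat_lit 122) (nat_lit 0) (nat_lit 44) (nat_lit 35) (nat_lit 32))) (PT.nd (nat_lit 94) (PT.lf (nat_lit 9576) (nat_lit 6) (nat_lit 114) (nat_lit 0) (nat_lit 45) (nat_lit 35) (nat_lit 31)) (PT.nd (nat_lit 94) (PT.lf (nat_lit 8820) (nat_lit 6) (nat_lit 105) (nat_lit 0) (nat_lit 46) (nat_lit 35) (nat_lit 30)) (PT.lf (nat_lit 7980) (nat_lit 6) (nat_lit 95) (nat_lit 0) (nat_lit 47) (nat_lit 35) (nat_lit 29))))) (PT.nd (nat_lit 53862) (PT.nd (nat_lit 53768) (PT.lf (nat_lit 7056) (nat_lit 6) (nat_lit 84) (nat_lit 0) (nat_lit 48) (nat_lit 35) (nat_lit 28)) (PT.lf (nat_lit 7140) (nat_lit 6) (nat_lit 85) (nat_lit 5) (nat_lit 27) (nat_lit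 36) (nat_lit 48))) (PT.nd (nat_lit 94) (PT.lf (nat_lit 8064) (nat_lit 6) (nat_lit 96) (nat_lit 5) (nat_lit 28) (nat_lit 36) (nat_lit 47)) (PT.nd (nat_lit 94) (PT.lf (nat_lit 8904) (nat_lit 6) (nat_lit 106) (nat_lit 5) (nat_lit 29) (nat_lit 36) (nat_lit 46)) (PT.lf (nat_lit 9660) (nat_lit 6) (nat_lit 115) (nat_lit 5) (nat_lit 30) (nat_lit 36) (nat_lit 45)))))) (PT.nd (nat_lit 470) (PT.nd (nat_lit 188) (PT.nd (nat_lit 94) (PT.lf (nat_lit 10332) (nat_lit 6) (nat_lit 123) (nat_lit 5) (nat_lit 31) (nat_lit 36) (nat_lit 44)) (PT.lf (nat_lit 10920) (nat_lit 6) (nat_lit 130) (nat_lit 5) (nat_lit 32) (nat_lit 36) (nat_lit 43))) (PT.nd (nat_lit 94) (PT.lf (nat_lit 11424) (nat_lit 6) (nat_lit 136) (nat_lit 5) (nat_lit 33) (nat_lit 36) (nat_lit 42)) (PT.nd (nat_lit 94) (PT.lf (nat_lit 11844) (nat_lit 6) (nat_lit 141) (nat_lit 5) (nat_lit 34) (nat_lit 36) (nat_lit 41)) (PT.lf (nat_lit 12180) (nat_lit 6)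 (nat_lit 145) (nat_lit 5) (nat_lit 35) (nat_lit 36) (nat_lit 40))))) (PT.nd (nat_lit 188) (PT.nd (nat_lit 94) (PT.lf (nat_lit 12432) (nat_lit 3) (nat_lit 148) (nat_lit 3) (nat_lit 36) (nat_lit 36) (nat_lit 39)) (PT.lf (nat_lit 12684) (nat_lit 6) (nat_lit 151) (nat_lit 3) (nat_lit 37) (nat_lit 36) (nat_lit 38))) (PT.nd (nat_lit 94) (PT.lf (nat_lit 12684) (nat_lit 6) (nat_lit 151) (nat_lit 1) (nat_lit 38) (nat_lit 36) (nat_lit 37)) (PT.nd (nat_lit 94) (PT.lf (nat_lit 12432) (nat_lit 3) (nat_lit 148) (nat_lit 0) (nat_lit 39) (nat_lit 36) (nat_lit 36)) (PT.lf (nat_lit 12180) (nat_lit 6) (nat_lit 145) (nat_lit 0) (nat_lit 40) (nat_lit 36) (nat_lit 35))))))) (PT.nd (nat_lit 54520) (PT.nd (nat_lit 470) (PT.nd (nat_lit 188) (PT.nd (nat_lit 94) (PT.lf (nat_lit 11844) (nat_lit 6) (nat_lit 141) (nat_lit 0) (nat_lit 41) (nat_lit 36) (nat_lit 34)) (PT.lf (nat_lit 11424) (nat_lit 6) (nat_lit 136) (nat_lit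 0) (nat_lit 42) (nat_lit 36) (nat_lit 33))) (PT.nd (nat_lit 94) (PT.lf (nat_lit 10920) (nat_lit 6) (nat_lit 130) (nat_lit 0) (nat_lit 43) (nat_lit 36) (nat_lit 32)) (PT.nd (nat_lit 94) (PT.lf (nat_lit 10332) (nat_lit 6) (nat_lit 123) (nat_lit 0) (nat_lit 44) (nat_lit 36) (nat_lit 31)) (PT.lf (nat_lit 9660) (nat_lit 6) (nat_lit 115) (nat_lit 0) (nat_lit 45) (nat_lit 36) (nat_lit 30))))) (PT.nd (nat_lit 188) (PT.nd (nat_lit 94) (PT.lf (nat_lit 8904) (nat_lit 6) (nat_lit 106) (nat_lit 0) (nat_lit 46) (nat_lit 36) (nat_lit 29)) (PT.lf (nat_lit 8064) (nat_lit 6) (nat_lit 96) (nat_lit 0) (nat_lit 47) (nat_lit 36) (nat_lit 28))) (PT.nd (nat_lit 53674) (PT.lf (nat_lit 7140) (nat_lit 6) (nat_lit 85) (nat_lit 0) (nat_lit 48) (nat_lit 36) (nat_lit 27)) (PT.nd (nat_lit 94) (PT.lf (nat_lit 7224) (nat_lit 6) (nat_lit 86) (nat_lit 5) (nat_lit 26) (nat_lit 37) (nat_lit 48)) (PT.lf (nat_lit 8148) (nat_lit 6)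 (nat_lit 97) (nat_lit 5) (nat_lit 27) (nat_lit 37) (nat_lit 47)))))) (PT.nd (nat_lit 470) (PT.nd (nat_lit 188) (PT.nd (nat_lit 94) (PT.lf (nat_lit 8988) (nat_lit 6) (nat_lit 107) (nat_lit 5) (nat_lit 28) (nat_lit 37) (nat_lit 46)) (PT.lf (nat_lit 9744) (nat_lit 6) (nat_lit 116) (nat_lit 5) (nat_lit 29) (nat_lit 37) (nat_lit 45))) (PT.nd (nat_lit 94) (PT.lf (nat_lit 10416) (nat_lit 6) (nat_lit 124) (nat_lit 5) (nat_lit 30) (nat_lit 37) (nat_lit 44)) (PT.nd (nat_lit 94) (PT.lf (nat_lit 11004) (nat_lit 6) (nat_lit 131) (nat_lit 5) (nat_lit 31) (nat_lit 37) (nat_lit 43)) (PT.lf (nat_lit 11508) (nat_lit 6) (nat_lit 137) (nat_lit 5) (nat_lit 32) (nat_lit 37) (nat_lit 42))))) (PT.nd (nat_lit 282) (PT.nd (nat_lit 94) (PT.lf (nat_lit 11928) (nat_lit 6) (nat_lit 142) (nat_lit 5) (nat_lit 33) (nat_lit 37) (nat_lit 41)) (PT.nd (nat_lit 94) (PT.lf (nat_lit 12264) (nat_lit 6) (nat_lit 146) (nat_lit 5) (nat_lit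 34) (nat_lit 37) (nat_lit 40)) (PT.lf (nat_lit 12516) (nat_lit 6) (nat_lit 149) (nat_lit 5) (nat_lit 35) (nat_lit 37) (nat_lit 39)))) (PT.nd (nat_lit 94) (PT.lf (nat_lit 12684) (nat_lit 6) (nat_lit 151) (nat_lit 5) (nat_lit 36) (nat_lit 37) (nat_lit 38)) (PT.nd (nat_lit 94) (PT.lf (nat_lit 12768) (nat_lit 1) (nat_lit 152) (nat_lit 0) (nat_lit 37) (nat_lit 37) (nat_lit 37)) (PT.lf (nat_lit 12684) (nat_lit 6) (nat_lit 151) (nat_lit 0) (nat_lit 38) (nat_lit 37) (nat_lit 36))))))))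
noncomputable def pc7 : PT := (PT.nd (nat_lit 55366) (PT.nd (nat_lit 54426) (PT.nd (nat_lit 470) (PT.nd (nat_lit 188) (PT.nd (nat_lit 94) (PT.lf (nat_lit 12516) (nat_lit 6) (nat_lit 149) (nat_lit 0) (nat_lit 39) (nat_lit 37) (nat_lit 35)) (PT.lf (nat_lit 12264) (nat_lit 6) (nat_lit 146) (nat_lit 0) (nat_lit 40) (nat_lit 37) (nat_lit 34))) (PT.nd (nat_lit 94) (PT.lf (nat_lit 11928) (nat_lit 6) (nat_lit 142) (nat_lit 0) (nat_lit 41) (nat_lit 37) (nat_lit 33)) (PT.nd (nat_lit 94) (PT.lf (nat_lit 11508) (nat_lit 6) (nat_lit 137) (nat_lit 0) (nat_lit 42) (nat_lit 37) (nat_lit 32)) (PT.lf (nat_lit 11004) (nat_lit 6) (nat_lit 131) (nat_lit 0) (nat_lit 43) (nat_lit 37) (nat_lit 31))))) (PT.nd (nat_lit 188) (PT.nd (nat_lit 94) (PT.lf (nat_lit 10416) (nat_lit 6) (nat_lit 124) (nat_lit 0) (nat_lit 44) (nat_lit 37) (nat_lit 30)) (PT.lf (nat_lit 9744) (nat_lit 6) (nat_lit 116) (nat_lit 0) (nat_lit 45) (nat_lit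 37) (nat_lit 29))) (PT.nd (nat_lit 94) (PT.lf (nat_lit 8988) (nat_lit 6) (nat_lit 107) (nat_lit 0) (nat_lit 46) (nat_lit 37) (nat_lit 28)) (PT.nd (nat_lit 94) (PT.lf (nat_lit 8148) (nat_lit 6) (nat_lit 97) (nat_lit 0) (nat_lit 47) (nat_lit 37) (nat_lit 27)) (PT.lf (nat_lit 7224) (nat_lit 6) (nat_lit 86) (nat_lit 0) (nat_lit 48) (nat_lit 37) (nat_lit 26)))))) (PT.nd (nat_lit 470) (PT.nd (nat_lit 188) (PT.nd (nat_lit 94) (PT.lf (nat_lit 6300) (nat_lit 6) (nat_lit 75) (nat_lit 5) (nat_lit 25) (nat_lit 38) (nat_lit 48)) (PT.lf (nat_lit 7308) (nat_lit 6) (nat_lit 87) (nat_lit 5) (nat_lit 26) (nat_lit 38) (nat_lit 47))) (PT.nd (nat_lit 94) (PT.lf (nat_lit 8232) (nat_lit 6) (nat_lit 98) (nat_lit 5) (nat_lit 27) (nat_lit 38) (nat_lit 46)) (PT.nd (nat_lit 94) (PT.lf (nat_lit 9072) (nat_lit 6) (nat_lit 108) (nat_lit 5) (nat_lit 28) (nat_lit 38) (nat_lit 45)) (PT.lf (nat_lit 9828) (nat_lit 6) (nat_lit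 117) (nat_lit 5) (nat_lit 29) (nat_lit 38) (nat_lit 44))))) (PT.nd (nat_lit 188) (PT.nd (nat_lit 94) (PT.lf (nat_lit 10500) (nat_lit 6) (nat_lit 125) (nat_lit 5) (nat_lit 30) (nat_lit 38) (nat_lit 43)) (PT.lf (nat_lit 11088) (nat_lit 6) (nat_lit 132) (nat_lit 5) (nat_lit 31) (nat_lit 38) (nat_lit 42))) (PT.nd (nat_lit 94) (PT.lf (nat_lit 11592) (nat_lit 6) (nat_lit 138) (nat_lit 5) (nat_lit 32) (nat_lit 38) (nat_lit 41)) (PT.nd (nat_lit 94) (PT.lf (nat_lit 12012) (nat_lit 6) (nat_lit 143) (nat_lit 5) (nat_lit 33) (nat_lit 38) (nat_lit 40)) (PT.lf (nat_lit 12348) (nat_lit 6) (nat_lit 147) (nat_lit 5) (nat_lit 34) (nat_lit 38) (nat_lit 39))))))) (PT.nd (nat_lit 940) (PT.nd (nat_lit 470) (PT.nd (nat_lit 188) (PT.nd (nat_lit 94) (PT.lf (nat_lit 12600) (nat_lit 3) (nat_lit 150) (nat_lit 4) (nat_lit 35) (nat_lit 38) (nat_lit 38)) (PT.lf (nat_lit 12684) (nat_lit 6) (nat_lit 151) (nat_lit 4) (nat_lit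 36) (nat_lit 38) (nat_lit 37))) (PT.nd (nat_lit 94) (PT.lf (nat_lit 12684) (nat_lit 6) (nat_lit 151) (nat_lit 2) (nat_lit 37) (nat_lit 38) (nat_lit 36)) (PT.nd (nat_lit 94) (PT.lf (nat_lit 12600) (nat_lit 3) (nat_lit 150) (nat_lit 0) (nat_lit 38) (nat_lit 38) (nat_lit 35)) (PT.lf (nat_lit 12348) (nat_lit 6) (nat_lit 147) (nat_lit 0) (nat_lit 39) (nat_lit 38) (nat_lit 34))))) (PT.nd (nat_lit 188) (PT.nd (nat_lit 94) (PT.lf (nat_lit 12012) (nat_lit 6) (nat_lit 143) (nat_lit 0) (nat_lit 40) (nat_lit 38) (nat_lit 33)) (PT.lf (nat_lit 11592) (nat_lit 6) (nat_lit 138) (nat_lit 0) (nat_lit 41) (nat_lit 38) (nat_lit 32))) (PT.nd (nat_lit 94) (PT.lf (nat_lit 11088) (nat_lit 6) (nat_lit 132) (nat_lit 0) (nat_lit 42) (nat_lit 38) (nat_lit 31)) (PT.nd (nat_lit 94) (PT.lf (nat_lit 10500) (nat_lit 6) (nat_lit 125) (nat_lit 0) (nat_lit 43) (nat_lit 38) (nat_lit 30)) (PT.lf (nat_lit 9828) (nat_lit 6) (nat_lit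 117) (nat_lit 0) (nat_lit 44) (nat_lit 38) (nat_lit 29)))))) (PT.nd (nat_lit 53862) (PT.nd (nat_lit 188) (PT.nd (nat_lit 94) (PT.lf (nat_lit 9072) (nat_lit 6) (nat_lit 108) (nat_lit 0) (nat_lit 45) (nat_lit 38) (nat_lit 28)) (PT.lf (nat_lit 8232) (nat_lit 6) (nat_lit 98) (nat_lit 0) (nat_lit 46) (nat_lit 38) (nat_lit 27))) (PT.nd (nat_lit 94) (PT.lf (nat_lit 7308) (nat_lit 6) (nat_lit 87) (nat_lit 0) (nat_lit 47) (nat_lit 38) (nat_lit 26)) (PT.nd (nat_lit 53486) (PT.lf (nat_lit 6300) (nat_lit 6) (nat_lit 75) (nat_lit 0) (nat_lit 48) (nat_lit 38) (nat_lit 25)) (PT.lf (nat_lit 5628) (nat_lit 6) (nat_lit 67) (nat_lit 5) (nat_lit 24) (nat_lit 39) (nat_lit 48))))) (PT.nd (nat_lit 282) (PT.nd (nat_lit 94) (PT.lf (nat_lit 6384) (nat_lit 6) (nat_lit 76) (nat_lit 5) (nat_lit 25) (nat_lit 39) (nat_lit 47)) (PT.nd (nat_lit 94) (PT.lf (nat_lit 7392) (nat_lit 6) (nat_lit 88) (nat_lit 5) (nat_lit 26) (nat_lit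 39) (nat_lit 46)) (PT.lf (nat_lit 8316) (nat_lit 6) (nat_lit 99) (nat_lit 5) (nat_lit 27) (nat_lit 39) (nat_lit 45)))) (PT.nd (nat_lit 94) (PT.lf (nat_lit 9156) (nat_lit 6) (nat_lit 109) (nat_lit 5) (nat_lit 28) (nat_lit 39) (nat_lit 44)) (PT.nd (nat_lit 94) (PT.lf (nat_lit 9912) (nat_lit 6) (nat_lit 118) (nat_lit 5) (nat_lit 29) (nat_lit 39) (nat_lit 43)) (PT.lf (nat_lit 10584) (nat_lit 6) (nat_lit 126) (nat_lit 5) (nat_lit 30) (nat_lit 39) (nat_lit 42))))))))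
noncomputable def pc8 : PT := (PT.nd (nat_lit 55178) (PT.nd (nat_lit 940) (PT.nd (nat_lit 470) (PT.nd (nat_lit 188) (PT.nd (nat_lit 94) (PT.lf (nat_lit 11172) (nat_lit 6) (nat_lit 133) (nat_lit 5) (nat_lit 31) (nat_lit 39) (nat_lit 41)) (PT.lf (nat_lit 11676) (nat_lit 6) (nat_lit 139) (nat_lit 5) (nat_lit 32) (nat_lit 39) (nat_lit 40))) (PT.nd (nat_lit 94) (PT.lf (nat_lit 12096) (nat_lit 3) (nat_lit 144) (nat_lit 4) (nat_lit 33) (nat_lit 39) (nat_lit 39)) (PT.nd (nat_lit 94) (PT.lf (nat_lit 12348) (nat_lit 6) (nat_lit 147) (nat_lit 4) (nat_lit 34) (nat_lit 39) (nat_lit 38)) (PT.lf (nat_lit 12516) (nat_lit 6) (nat_lit 149) (nat_lit 4) (nat_lit 35) (nat_lit 39) (nat_lit 37))))) (PT.nd (nat_lit 188) (PT.nd (nat_lit 94) (PT.lf (nat_lit 12432) (nat_lit 3) (nat_lit 148) (nat_lit 2) (nat_lit 36) (nat_lit 39) (nat_lit 36)) (PT.lf (nat_lit 12516) (nat_lit 6) (nat_lit 149) (nat_lit 2) (nat_lit 37) (nat_lit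 39) (nat_lit 35))) (PT.nd (nat_lit 94) (PT.lf (nat_lit 12348) (nat_lit 6) (nat_lit 147) (nat_lit 2) (nat_lit 38) (nat_lit 39) (nat_lit 34)) (PT.nd (nat_lit 94) (PT.lf (nat_lit 12096) (nat_lit 3) (nat_lit 144) (nat_lit 0) (nat_lit 39) (nat_lit 39) (nat_lit 33)) (PT.lf (nat_lit 11676) (nat_lit 6) (nat_lit 139) (nat_lit 0) (nat_lit 40) (nat_lit 39) (nat_lit 32)))))) (PT.nd (nat_lit 470) (PT.nd (nat_lit 188) (PT.nd (nat_lit 94) (PT.lf (nat_lit 11172) (nat_lit 6) (nat_lit 133) (nat_lit 0) (nat_lit 41) (nat_lit 39) (nat_lit 31)) (PT.lf (nat_lit 10584) (nat_lit 6) (nat_lit 126) (nat_lit 0) (nat_lit 42) (nat_lit 39) (nat_lit 30))) (PT.nd (nat_lit 94) (PT.lf (nat_lit 9912) (nat_lit 6) (nat_lit 118) (nat_lit 0) (nat_lit 43) (nat_lit 39) (nat_lit 29)) (PT.nd (nat_lit 94) (PT.lf (nat_lit 9156) (nat_lit 6) (nat_lit 109) (nat_lit 0) (nat_lit 44) (nat_lit 39) (nat_lit 28)) (PT.lf (nat_lit 8316) (nat_lit 6)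 (nat_lit 99) (nat_lit 0) (nat_lit 45) (nat_lit 39) (nat_lit 27))))) (PT.nd (nat_lit 188) (PT.nd (nat_lit 94) (PT.lf (nat_lit 7392) (nat_lit 6) (nat_lit 88) (nat_lit 0) (nat_lit 46) (nat_lit 39) (nat_lit 26)) (PT.lf (nat_lit 6384) (nat_lit 6) (nat_lit 76) (nat_lit 0) (nat_lit 47) (nat_lit 39) (nat_lit 25))) (PT.nd (nat_lit 53392) (PT.lf (nat_lit 5628) (nat_lit 6) (nat_lit 67) (nat_lit 0) (nat_lit 48) (nat_lit 39) (nat_lit 24)) (PT.nd (nat_lit 94) (PT.lf (nat_lit 5124) (nat_lit 6) (nat_lit 61) (nat_lit 5) (nat_lit 23) (nat_lit 40) (nat_lit 48)) (PT.lf (nat_lit 5712) (nat_lit 6) (nat_lit 68) (nat_lit 5) (nat_lit 24) (nat_lit 40) (nat_lit 47))))))) (PT.nd (nat_lit 940) (PT.nd (nat_lit 470) (PT.nd (nat_lit 188) (PT.nd (nat_lit 94) (PT.lf (nat_lit 6468) (nat_lit 6) (nat_lit 77) (nat_lit 5) (nat_lit 25) (nat_lit 40) (nat_lit 46)) (PT.lf (nat_lit 7476) (nat_lit 6) (nat_lit 89) (nat_lit 5) (nat_lit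 26) (nat_lit 40) (nat_lit 45))) (PT.nd (nat_lit 94) (PT.lf (nat_lit 8400) (nat_lit 6) (nat_lit 100) (nat_lit 5) (nat_lit 27) (nat_lit 40) (nat_lit 44)) (PT.nd (nat_lit 94) (PT.lf (nat_lit 9240) (nat_lit 6) (nat_lit 110) (nat_lit 5) (nat_lit 28) (nat_lit 40) (nat_lit 43)) (PT.lf (nat_lit 9996) (nat_lit 6) (nat_lit 119) (nat_lit 5) (nat_lit 29) (nat_lit 40) (nat_lit 42))))) (PT.nd (nat_lit 188) (PT.nd (nat_lit 94) (PT.lf (nat_lit 10668) (nat_lit 6) (nat_lit 127) (nat_lit 5) (nat_lit 30) (nat_lit 40) (nat_lit 41)) (PT.lf (nat_lit 11256) (nat_lit 3) (nat_lit 134) (nat_lit 4) (nat_lit 31) (nat_lit 40) (nat_lit 40))) (PT.nd (nat_lit 94) (PT.lf (nat_lit 11676) (nat_lit 6) (nat_lit 139) (nat_lit 4) (nat_lit 32) (nat_lit 40) (nat_lit 39)) (PT.nd (nat_lit 94) (PT.lf (nat_lit 12012) (nat_lit 6) (nat_lit 143) (nat_lit 4) (nat_lit 33) (nat_lit 40) (nat_lit 38)) (PT.lf (nat_lit 12264) (nat_lit 6) (nat_lit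 146) (nat_lit 4) (nat_lit 34) (nat_lit 40) (nat_lit 37)))))) (PT.nd (nat_lit 470) (PT.nd (nat_lit 188) (PT.nd (nat_lit 94) (PT.lf (nat_lit 12180) (nat_lit 6) (nat_lit 145) (nat_lit 4) (nat_lit 35) (nat_lit 40) (nat_lit 36)) (PT.lf (nat_lit 12180) (nat_lit 6) (nat_lit 145) (nat_lit 2) (nat_lit 36) (nat_lit 40) (nat_lit 35))) (PT.nd (nat_lit 94) (PT.lf (nat_lit 12264) (nat_lit 6) (nat_lit 146) (nat_lit 2) (nat_lit 37) (nat_lit 40) (nat_lit 34)) (PT.nd (nat_lit 94) (PT.lf (nat_lit 12012) (nat_lit 6) (nat_lit 143) (nat_lit 2) (nat_lit 38) (nat_lit 40) (nat_lit 33)) (PT.lf (nat_lit 11676) (nat_lit 6) (nat_lit 139) (nat_lit 2) (nat_lit 39) (nat_lit 40) (nat_lit 32))))) (PT.nd (nat_lit 188) (PT.nd (nat_lit 94) (PT.lf (nat_lit 11256) (nat_lit 3) (nat_lit 134) (nat_lit 0) (nat_lit 40) (nat_lit 40) (nat_lit 31)) (PT.lf (nat_lit 10668) (nat_lit 6) (nat_lit 127) (nat_lit 0) (nat_lit 41) (nat_lit 40) (nat_lit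 30))) (PT.nd (nat_lit 94) (PT.lf (nat_lit 9996) (nat_lit 6) (nat_lit 119) (nat_lit 0) (nat_lit 42) (nat_lit 40) (nat_lit 29)) (PT.nd (nat_lit 94) (PT.lf (nat_lit 9240) (nat_lit 6) (nat_lit 110) (nat_lit 0) (nat_lit 43) (nat_lit 40) (nat_lit 28)) (PT.lf (nat_lit 8400) (nat_lit 6) (nat_lit 100) (nat_lit 0) (nat_lit 44) (nat_lit 40) (nat_lit 27))))))))
noncomputable def pc9 : PT := (PT.nd (nat_lit 54990) (PT.nd (nat_lit 54050) (PT.nd (nat_lit 53580) (PT.nd (nat_lit 188) (PT.nd (nat_lit 94) (PT.lf (nat_lit 7476) (nat_lit 6) (nat_lit 89) (nat_lit 0) (nat_lit 45) (nat_lit 40) (nat_lit 26)) (PT.lf (nat_lit 6468) (nat_lit 6) (nat_lit 77) (nat_lit 0) (nat_lit 46) (nat_lit 40) (nat_lit 25))) (PT.nd (nat_lit 94) (PT.lf (nat_lit 5712) (nat_lit 6) (nat_lit 68) (nat_lit 0) (nat_lit 47) (nat_lit 40) (nat_lit 24)) (PT.nd (nat_lit 53204) (PT.lf (nat_lit 5124) (nat_lit 6) (nat_lit 61) (nat_lit 0) (nat_lit 48)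 (nat_lit 40) (nat_lit 23)) (PT.lf (nat_lit 4200) (nat_lit 6) (nat_lit 50) (nat_lit 5) (nat_lit 21) (nat_lit 41) (nat_lit 49))))) (PT.nd (nat_lit 188) (PT.nd (nat_lit 94) (PT.lf (nat_lit 4704) (nat_lit 6) (nat_lit 56) (nat_lit 5) (nat_lit 22) (nat_lit 41) (nat_lit 48)) (PT.lf (nat_lit 5208) (nat_lit 6) (nat_lit 62) (nat_lit 5) (nat_lit 23) (nat_lit 41) (nat_lit 47))) (PT.nd (nat_lit 94) (PT.lf (nat_lit 5796) (nat_lit 6) (nat_lit 69) (nat_lit 5) (nat_lit 24) (nat_lit 41) (nat_lit 46)) (PT.nd (nat_lit 94) (PT.lf (nat_lit 6552) (nat_lit 6) (nat_lit 78) (nat_lit 5) (nat_lit 25) (nat_lit 41) (nat_lit 45)) (PT.lf (nat_lit 7560) (nat_lit 6) (nat_lit 90) (nat_lit 5) (nat_lit 26) (nat_lit 41) (nat_lit 44)))))) (PT.nd (nat_lit 470) (PT.nd (nat_lit 188) (PT.nd (nat_lit 94) (PT.lf (nat_lit 8484) (nat_lit 6) (nat_lit 101) (nat_lit 5) (nat_lit 27) (nat_lit 41) (nat_lit 43)) (PT.lf (nat_lit 9324) (nat_lit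 6) (nat_lit 111) (nat_lit 5) (nat_lit 28) (nat_lit 41) (nat_lit 42))) (PT.nd (nat_lit 94) (PT.lf (nat_lit 10080) (nat_lit 3) (nat_lit 120) (nat_lit 4) (nat_lit 29) (nat_lit 41) (nat_lit 41)) (PT.nd (nat_lit 94) (PT.lf (nat_lit 10668) (nat_lit 6) (nat_lit 127) (nat_lit 4) (nat_lit 30) (nat_lit 41) (nat_lit 40)) (PT.lf (nat_lit 11172) (nat_lit 6) (nat_lit 133) (nat_lit 4) (nat_lit 31) (nat_lit 41) (nat_lit 39))))) (PT.nd (nat_lit 188) (PT.nd (nat_lit 94) (PT.lf (nat_lit 11592) (nat_lit 6) (nat_lit 138) (nat_lit 4) (nat_lit 32) (nat_lit 41) (nat_lit 38)) (PT.lf (nat_lit 11928) (nat_lit 6) (nat_lit 142) (nat_lit 4) (nat_lit 33) (nat_lit 41) (nat_lit 37))) (PT.nd (nat_lit 94) (PT.lf (nat_lit 11844) (nat_lit 6) (nat_lit 141) (nat_lit 4) (nat_lit 34) (nat_lit 41) (nat_lit 36)) (PT.nd (nat_lit 94) (PT.lf (nat_lit 11760) (nat_lit 3) (nat_lit 140) (nat_lit 2) (nat_lit 35) (nat_lit 41) (nat_lit 35)) (PT.lf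 (nat_lit 11844) (nat_lit 6) (nat_lit 141) (nat_lit 2) (nat_lit 36) (nat_lit 41) (nat_lit 34))))))) (PT.nd (nat_lit 940) (PT.nd (nat_lit 470) (PT.nd (nat_lit 188) (PT.nd (nat_lit 94) (PT.lf (nat_lit 11928) (nat_lit 6) (nat_lit 142) (nat_lit 2) (nat_lit 37) (nat_lit 41) (nat_lit 33)) (PT.lf (nat_lit 11592) (nat_lit 6) (nat_lit 138) (nat_lit 2) (nat_lit 38) (nat_lit 41) (nat_lit 32))) (PT.nd (nat_lit 94) (PT.lf (nat_lit 11172) (nat_lit 6) (nat_lit 133) (nat_lit 2) (nat_lit 39) (nat_lit 41) (nat_lit 31)) (PT.nd (nat_lit 94) (PT.lf (nat_lit 10668) (nat_lit 6) (nat_lit 127) (nat_lit 2) (nat_lit 40) (nat_lit 41) (nat_lit 30)) (PT.lf (nat_lit 10080) (nat_lit 3) (nat_lit 120) (nat_lit 0) (nat_lit 41) (nat_lit 41) (nat_lit 29))))) (PT.nd (nat_lit 188) (PT.nd (nat_lit 94) (PT.lf (nat_lit 9324) (nat_lit 6) (nat_lit 111) (nat_lit 0) (nat_lit 42) (nat_lit 41) (nat_lit 28)) (PT.lf (nat_lit 8484) (nat_lit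 6) (nat_lit 101) (nat_lit 0) (nat_lit 43) (nat_lit 41) (nat_lit 27))) (PT.nd (nat_lit 94) (PT.lf (nat_lit 7560) (nat_lit 6) (nat_lit 90) (nat_lit 0) (nat_lit 44) (nat_lit 41) (nat_lit 26)) (PT.nd (nat_lit 94) (PT.lf (nat_lit 6552) (nat_lit 6) (nat_lit 78) (nat_lit 0) (nat_lit 45) (nat_lit 41) (nat_lit 25)) (PT.lf (nat_lit 5796) (nat_lit 6) (nat_lit 69) (nat_lit 0) (nat_lit 46) (nat_lit 41) (nat_lit 24)))))) (PT.nd (nat_lit 53392) (PT.nd (nat_lit 188) (PT.nd (nat_lit 94) (PT.lf (nat_lit 5208) (nat_lit 6) (nat_lit 62) (nat_lit 0) (nat_lit 47) (nat_lit 41) (nat_lit 23)) (PT.lf (nat_lit 4704) (nat_lit 6) (nat_lit 56) (nat_lit 0) (nat_lit 48) (nat_lit 41) (nat_lit 22))) (PT.nd (nat_lit 53016) (PT.lf (nat_lit 4200) (nat_lit 6) (nat_lit 50) (nat_lit 0) (nat_lit 49) (nat_lit 41) (nat_lit 21)) (PT.nd (nat_lit 94) (PT.lf (nat_lit 3864) (nat_lit 6) (nat_lit 46) (nat_lit 5) (nat_lit 20) (nat_lit 42) (nat_lit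 49)) (PT.lf (nat_lit 4284) (nat_lit 6) (nat_lit 51) (nat_lit 5) (nat_lit 21) (nat_lit 42) (nat_lit 48))))) (PT.nd (nat_lit 282) (PT.nd (nat_lit 94) (PT.lf (nat_lit 4788) (nat_lit 6) (nat_lit 57) (nat_lit 5) (nat_lit 22) (nat_lit 42) (nat_lit 47)) (PT.nd (nat_lit 94) (PT.lf (nat_lit 5292) (nat_lit 6) (nat_lit 63) (nat_lit 5) (nat_lit 23) (nat_lit 42) (nat_lit 46)) (PT.lf (nat_lit 5880) (nat_lit 6) (nat_lit 70) (nat_lit 5) (nat_lit 24) (nat_lit 42) (nat_lit 45)))) (PT.nd (nat_lit 94) (PT.lf (nat_lit 6636) (nat_lit 6) (nat_lit 79) (nat_lit 5) (nat_lit 25) (nat_lit 42) (nat_lit 44)) (PT.nd (nat_lit 94) (PT.lf (nat_lit 7644) (nat_lit 6) (nat_lit 91) (nat_lit 5) (nat_lit 26) (nat_lit 42) (nat_lit 43)) (PT.lf (nat_lit 8568) (nat_lit 3) (nat_lit 102) (nat_lit 4) (nat_lit 27) (nat_lit 42) (nat_lit 42))))))))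
noncomputable def pc10 : PT := (PT.nd (nat_lit 1880) (PT.nd (nat_lit 940) (PT.nd (nat_lit 470) (PT.nd (nat_lit 188) (PT.nd (nat_lit 94) (PT.lf (nat_lit 9324) (nat_lit 6) (nat_lit 111) (nat_lit 4) (nat_lit 28) (nat_lit 42) (nat_lit 41)) (PT.lf (nat_lit 9996) (nat_lit 6) (nat_lit 119) (nat_lit 4) (nat_lit 29) (nat_lit 42) (nat_lit 40))) (PT.nd (nat_lit 94) (PT.lf (nat_lit 10584) (nat_lit 6) (nat_lit 126) (nat_lit 4) (nat_lit 30) (nat_lit 42) (nat_lit 39)) (PT.nd (nat_lit 94) (PT.lf (nat_lit 11088) (nat_lit 6) (nat_lit 132) (nat_lit 4) (nat_lit 31) (nat_lit 42) (nat_lit 38)) (PT.lf (nat_lit 11508) (nat_lit 6) (nat_lit 137) (nat_lit 4) (nat_lit 32) (nat_lit 42) (nat_lit 37))))) (PT.nd (nat_lit 188) (PT.nd (nat_lit 94) (PT.lf (nat_lit 11424) (nat_lit 6) (nat_lit 136) (nat_lit 4) (nat_lit 33) (nat_lit 42) (nat_lit 36)) (PT.lf (nat_lit 11340) (nat_lit 6) (nat_lit 135) (nat_lit 4) (nat_lit 34) (nat_lit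 42) (nat_lit 35))) (PT.nd (nat_lit 94) (PT.lf (nat_lit 11340) (nat_lit 6) (nat_lit 135) (nat_lit 2) (nat_lit 35) (nat_lit 42) (nat_lit 34)) (PT.nd (nat_lit 94) (PT.lf (nat_lit 11424) (nat_lit 6) (nat_lit 136) (nat_lit 2) (nat_lit 36) (nat_lit 42) (nat_lit 33)) (PT.lf (nat_lit 11508) (nat_lit 6) (nat_lit 137) (nat_lit 2) (nat_lit 37) (nat_lit 42) (nat_lit 32)))))) (PT.nd (nat_lit 470) (PT.nd (nat_lit 188) (PT.nd (nat_lit 94) (PT.lf (nat_lit 11088) (nat_lit 6) (nat_lit 132) (nat_lit 2) (nat_lit 38) (nat_lit 42) (nat_lit 31)) (PT.lf (nat_lit 10584) (nat_lit 6) (nat_lit 126) (nat_lit 2) (nat_lit 39) (nat_lit 42) (nat_lit 30))) (PT.nd (nat_lit 94) (PT.lf (nat_lit 9996) (nat_lit 6) (nat_lit 119) (nat_lit 2) (nat_lit 40) (nat_lit 42) (nat_lit 29)) (PT.nd (nat_lit 94) (PT.lf (nat_lit 9324) (nat_lit 6) (nat_lit 111) (nat_lit 2) (nat_lit 41) (nat_lit 42) (nat_lit 28)) (PT.lf (nat_lit 8568) (nat_lit 3)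 (nat_lit 102) (nat_lit 0) (nat_lit 42) (nat_lit 42) (nat_lit 27))))) (PT.nd (nat_lit 188) (PT.nd (nat_lit 94) (PT.lf (nat_lit 7644) (nat_lit 6) (nat_lit 91) (nat_lit 0) (nat_lit 43) (nat_lit 42) (nat_lit 26)) (PT.lf (nat_lit 6636) (nat_lit 6) (nat_lit 79) (nat_lit 0) (nat_lit 44) (nat_lit 42) (nat_lit 25))) (PT.nd (nat_lit 94) (PT.lf (nat_lit 5880) (nat_lit 6) (nat_lit 70) (nat_lit 0) (nat_lit 45) (nat_lit 42) (nat_lit 24)) (PT.nd (nat_lit 94) (PT.lf (nat_lit 5292) (nat_lit 6) (nat_lit 63) (nat_lit 0) (nat_lit 46) (nat_lit 42) (nat_lit 23)) (PT.lf (nat_lit 4788) (nat_lit 6) (nat_lit 57) (nat_lit 0) (nat_lit 47) (nat_lit 42) (nat_lit 22))))))) (PT.nd (nat_lit 53768) (PT.nd (nat_lit 53298) (PT.nd (nat_lit 53016) (PT.nd (nat_lit 94) (PT.lf (nat_lit 4284) (nat_lit 6) (nat_lit 51) (nat_lit 0) (nat_lit 48) (nat_lit 42) (nat_lit 21)) (PT.lf (nat_lit 3864) (nat_lit 6) (nat_lit 46) (nat_lit 0) (nat_lit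 49) (nat_lit 42) (nat_lit 20))) (PT.nd (nat_lit 94) (PT.lf (nat_lit 3444) (nat_lit 6) (nat_lit 41) (nat_lit 5) (nat_lit 19) (nat_lit 43) (nat_lit 49)) (PT.nd (nat_lit 94) (PT.lf (nat_lit 3948) (nat_lit 6) (nat_lit 47) (nat_lit 5) (nat_lit 20) (nat_lit 43) (nat_lit 48)) (PT.lf (nat_lit 4368) (nat_lit 6) (nat_lit 52) (nat_lit 5) (nat_lit 21) (nat_lit 43) (nat_lit 47))))) (PT.nd (nat_lit 188) (PT.nd (nat_lit 94) (PT.lf (nat_lit 4872) (nat_lit 6) (nat_lit 58) (nat_lit 5) (nat_lit 22) (nat_lit 43) (nat_lit 46)) (PT.lf (nat_lit 5376) (nat_lit 6) (nat_lit 64) (nat_lit 5) (nat_lit 23) (nat_lit 43) (nat_lit 45))) (PT.nd (nat_lit 94) (PT.lf (nat_lit 5964) (nat_lit 6) (nat_lit 71) (nat_lit 5) (nat_lit 24) (nat_lit 43) (nat_lit 44)) (PT.nd (nat_lit 94) (PT.lf (nat_lit 6720) (nat_lit 3) (nat_lit 80) (nat_lit 4) (nat_lit 25) (nat_lit 43) (nat_lit 43)) (PT.lf (nat_lit 7644) (nat_lit 6) (nat_lit 91) (nat_lit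 4) (nat_lit 26) (nat_lit 43) (nat_lit 42)))))) (PT.nd (nat_lit 470) (PT.nd (nat_lit 188) (PT.nd (nat_lit 94) (PT.lf (nat_lit 8484) (nat_lit 6) (nat_lit 101) (nat_lit 4) (nat_lit 27) (nat_lit 43) (nat_lit 41)) (PT.lf (nat_lit 9240) (nat_lit 6) (nat_lit 110) (nat_lit 4) (nat_lit 28) (nat_lit 43) (nat_lit 40))) (PT.nd (nat_lit 94) (PT.lf (nat_lit 9912) (nat_lit 6) (nat_lit 118) (nat_lit 4) (nat_lit 29) (nat_lit 43) (nat_lit 39)) (PT.nd (nat_lit 94) (PT.lf (nat_lit 10500) (nat_lit 6) (nat_lit 125) (nat_lit 4) (nat_lit 30) (nat_lit 43) (nat_lit 38)) (PT.lf (nat_lit 11004) (nat_lit 6) (nat_lit 131) (nat_lit 4) (nat_lit 31) (nat_lit 43) (nat_lit 37))))) (PT.nd (nat_lit 282) (PT.nd (nat_lit 94) (PT.lf (nat_lit 10920) (nat_lit 6) (nat_lit 130) (nat_lit 4) (nat_lit 32) (nat_lit 43) (nat_lit 36)) (PT.nd (nat_lit 94) (PT.lf (nat_lit 10836) (nat_lit 6) (nat_lit 129) (nat_lit 4) (nat_lit 33) (nat_lit 43)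 (nat_lit 35)) (PT.lf (nat_lit 10752) (nat_lit 3) (nat_lit 128) (nat_lit 2) (nat_lit 34) (nat_lit 43) (nat_lit 34)))) (PT.nd (nat_lit 94) (PT.lf (nat_lit 10836) (nat_lit 6) (nat_lit 129) (nat_lit 2) (nat_lit 35) (nat_lit 43) (nat_lit 33)) (PT.nd (nat_lit 94) (PT.lf (nat_lit 10920) (nat_lit 6) (nat_lit 130) (nat_lit 2) (nat_lit 36) (nat_lit 43) (nat_lit 32)) (PT.lf (nat_lit 11004) (nat_lit 6) (nat_lit 131) (nat_lit 2) (nat_lit 37) (nat_lit 43) (nat_lit 31))))))))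
noncomputable def pc11 : PT := (PT.nd (nat_lit 54614) (PT.nd (nat_lit 940) (PT.nd (nat_lit 470) (PT.nd (nat_lit 188) (PT.nd (nat_lit 94) (PT.lf (nat_lit 10500) (nat_lit 6) (nat_lit 125) (nat_lit 2) (nat_lit 38) (nat_lit 43) (nat_lit 30)) (PT.lf (nat_lit 9912) (nat_lit 6) (nat_lit 118) (nat_lit 2) (nat_lit 39) (nat_lit 43) (nat_lit 29))) (PT.nd (nat_lit 94) (PT.lf (nat_lit 9240) (nat_lit 6) (nat_lit 110) (nat_lit 2) (nat_lit 40) (nat_lit 43) (nat_lit 28)) (PT.nd (nat_lit 94) (PT.lf (nat_lit 8484) (nat_lit 6) (nat_lit 101) (nat_lit 2) (nat_lit 41) (nat_lit 43) (nat_lit 27)) (PT.lf (nat_lit 7644) (nat_lit 6) (nat_lit 91) (nat_lit 2) (nat_lit 42) (nat_lit 43) (nat_lit 26))))) (PT.nd (nat_lit 188) (PT.nd (nat_lit 94) (PT.lf (nat_lit 6720) (nat_lit 3) (nat_lit 80) (nat_lit 0) (nat_lit 43) (nat_lit 43) (nat_lit 25)) (PT.lf (nat_lit 5964) (nat_lit 6) (nat_lit 71) (nat_lit 0) (nat_lit 44) (nat_lit 43)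 (nat_lit 24))) (PT.nd (nat_lit 94) (PT.lf (nat_lit 5376) (nat_lit 6) (nat_lit 64) (nat_lit 0) (nat_lit 45) (nat_lit 43) (nat_lit 23)) (PT.nd (nat_lit 94) (PT.lf (nat_lit 4872) (nat_lit 6) (nat_lit 58) (nat_lit 0) (nat_lit 46) (nat_lit 43) (nat_lit 22)) (PT.lf (nat_lit 4368) (nat_lit 6) (nat_lit 52) (nat_lit 0) (nat_lit 47) (nat_lit 43) (nat_lit 21)))))) (PT.nd (nat_lit 53204) (PT.nd (nat_lit 52922) (PT.nd (nat_lit 94) (PT.lf (nat_lit 3948) (nat_lit 6) (nat_lit 47) (nat_lit 0) (nat_lit 48) (nat_lit 43) (nat_lit 20)) (PT.lf (nat_lit 3444) (nat_lit 6) (nat_lit 41) (nat_lit 0) (nat_lit 49) (nat_lit 43) (nat_lit 19))) (PT.nd (nat_lit 94) (PT.lf (nat_lit 3108) (nat_lit 6) (nat_lit 37) (nat_lit 5) (nat_lit 18) (nat_lit 44) (nat_lit 49)) (PT.nd (nat_lit 94) (PT.lf (nat_lit 3528) (nat_lit 6) (nat_lit 42) (nat_lit 5) (nat_lit 19) (nat_lit 44) (nat_lit 48)) (PT.lf (nat_lit 4032) (nat_lit 6) (nat_lit 48)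 (nat_lit 5) (nat_lit 20) (nat_lit 44) (nat_lit 47))))) (PT.nd (nat_lit 188) (PT.nd (nat_lit 94) (PT.lf (nat_lit 4452) (nat_lit 6) (nat_lit 53) (nat_lit 5) (nat_lit 21) (nat_lit 44) (nat_lit 46)) (PT.lf (nat_lit 4956) (nat_lit 6) (nat_lit 59) (nat_lit 5) (nat_lit 22) (nat_lit 44) (nat_lit 45))) (PT.nd (nat_lit 94) (PT.lf (nat_lit 5460) (nat_lit 3) (nat_lit 65) (nat_lit 4) (nat_lit 23) (nat_lit 44) (nat_lit 44)) (PT.nd (nat_lit 94) (PT.lf (nat_lit 5964) (nat_lit 6) (nat_lit 71) (nat_lit 4) (nat_lit 24) (nat_lit 44) (nat_lit 43)) (PT.lf (nat_lit 6636) (nat_lit 6) (nat_lit 79) (nat_lit 4) (nat_lit 25) (nat_lit 44) (nat_lit 42))))))) (PT.nd (nat_lit 940) (PT.nd (nat_lit 470) (PT.nd (nat_lit 188) (PT.nd (nat_lit 94) (PT.lf (nat_lit 7560) (nat_lit 6) (nat_lit 90) (nat_lit 4) (nat_lit 26) (nat_lit 44) (nat_lit 41)) (PT.lf (nat_lit 8400) (nat_lit 6) (nat_lit 100) (nat_lit 4) (nat_lit 27) (nat_lit 44)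 (nat_lit 40))) (PT.nd (nat_lit 94) (PT.lf (nat_lit 9156) (nat_lit 6) (nat_lit 109) (nat_lit 4) (nat_lit 28) (nat_lit 44) (nat_lit 39)) (PT.nd (nat_lit 94) (PT.lf (nat_lit 9828) (nat_lit 6) (nat_lit 117) (nat_lit 4) (nat_lit 29) (nat_lit 44) (nat_lit 38)) (PT.lf (nat_lit 10416) (nat_lit 6) (nat_lit 124) (nat_lit 4) (nat_lit 30) (nat_lit 44) (nat_lit 37))))) (PT.nd (nat_lit 188) (PT.nd (nat_lit 94) (PT.lf (nat_lit 10332) (nat_lit 6) (nat_lit 123) (nat_lit 4) (nat_lit 31) (nat_lit 44) (nat_lit 36)) (PT.lf (nat_lit 10248) (nat_lit 6) (nat_lit 122) (nat_lit 4) (nat_lit 32) (nat_lit 44) (nat_lit 35))) (PT.nd (nat_lit 94) (PT.lf (nat_lit 10164) (nat_lit 6) (nat_lit 121) (nat_lit 4) (nat_lit 33) (nat_lit 44) (nat_lit 34)) (PT.nd (nat_lit 94) (PT.lf (nat_lit 10164) (nat_lit 6) (nat_lit 121) (nat_lit 2) (nat_lit 34) (nat_lit 44) (nat_lit 33)) (PT.lf (nat_lit 10248) (nat_lit 6) (nat_lit 122) (nat_lit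 2) (nat_lit 35) (nat_lit 44) (nat_lit 32)))))) (PT.nd (nat_lit 470) (PT.nd (nat_lit 188) (PT.nd (nat_lit 94) (PT.lf (nat_lit 10332) (nat_lit 6) (nat_lit 123) (nat_lit 2) (nat_lit 36) (nat_lit 44) (nat_lit 31)) (PT.lf (nat_lit 10416) (nat_lit 6) (nat_lit 124) (nat_lit 2) (nat_lit 37) (nat_lit 44) (nat_lit 30))) (PT.nd (nat_lit 94) (PT.lf (nat_lit 9828) (nat_lit 6) (nat_lit 117) (nat_lit 2) (nat_lit 38) (nat_lit 44) (nat_lit 29)) (PT.nd (nat_lit 94) (PT.lf (nat_lit 9156) (nat_lit 6) (nat_lit 109) (nat_lit 2) (nat_lit 39) (nat_lit 44) (nat_lit 28)) (PT.lf (nat_lit 8400) (nat_lit 6) (nat_lit 100) (nat_lit 2) (nat_lit 40) (nat_lit 44) (nat_lit 27))))) (PT.nd (nat_lit 282) (PT.nd (nat_lit 94) (PT.lf (nat_lit 7560) (nat_lit 6) (nat_lit 90) (nat_lit 2) (nat_lit 41) (nat_lit 44) (nat_lit 26)) (PT.nd (nat_lit 94) (PT.lf (nat_lit 6636) (nat_lit 6) (nat_lit 79) (nat_lit 2) (nat_lit 42) (nat_lit 44) (nat_lit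 25)) (PT.lf (nat_lit 5964) (nat_lit 6) (nat_lit 71) (nat_lit 2) (nat_lit 43) (nat_lit 44) (nat_lit 24)))) (PT.nd (nat_lit 94) (PT.lf (nat_lit 5460) (nat_lit 3) (nat_lit 65) (nat_lit 0) (nat_lit 44) (nat_lit 44) (nat_lit 23)) (PT.nd (nat_lit 94) (PT.lf (nat_lit 4956) (nat_lit 6) (nat_lit 59) (nat_lit 0) (nat_lit 45) (nat_lit 44) (nat_lit 22)) (PT.lf (nat_lit 4452) (nat_lit 6) (nat_lit 53) (nat_lit 0) (nat_lit 46) (nat_lit 44) (nat_lit 21))))))))
noncomputable def pc12 : PT := (PT.nd (nat_lit 54520) (PT.nd (nat_lit 53580) (PT.nd (nat_lit 53110) (PT.nd (nat_lit 188) (PT.nd (nat_lit 94) (PT.lf (nat_lit 4032) (nat_lit 6) (nat_lit 48) (nat_lit 0) (nat_lit 47) (nat_lit 44) (nat_lit 20)) (PT.lf (nat_lit 3528) (nat_lit 6) (nat_lit 42) (nat_lit 0) (nat_lit 48) (nat_lit 44) (nat_lit 19))) (PT.nd (nat_lit 52734) (PT.lf (nat_lit 3108) (nat_lit 6) (nat_lit 37) (nat_lit 0) (nat_lit 49) (nat_lit 44) (nat_lit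 18)) (PT.nd (nat_lit 94) (PT.lf (nat_lit 2772) (nat_lit 6) (nat_lit 33) (nat_lit 5) (nat_lit 17) (nat_lit 45) (nat_lit 49)) (PT.lf (nat_lit 3192) (nat_lit 6) (nat_lit 38) (nat_lit 5) (nat_lit 18) (nat_lit 45) (nat_lit 48))))) (PT.nd (nat_lit 188) (PT.nd (nat_lit 94) (PT.lf (nat_lit 3612) (nat_lit 6) (nat_lit 43) (nat_lit 5) (nat_lit 19) (nat_lit 45) (nat_lit 47)) (PT.lf (nat_lit 4116) (nat_lit 6) (nat_lit 49) (nat_lit 5) (nat_lit 20) (nat_lit 45) (nat_lit 46))) (PT.nd (nat_lit 94) (PT.lf (nat_lit 4536) (nat_lit 3) (nat_lit 54) (nat_lit 4) (nat_lit 21) (nat_lit 45) (nat_lit 45)) (PT.nd (nat_lit 94) (PT.lf (nat_lit 4956) (nat_lit 6) (nat_lit 59) (nat_lit 4) (nat_lit 22) (nat_lit 45) (nat_lit 44)) (PT.lf (nat_lit 5376) (nat_lit 6) (nat_lit 64) (nat_lit 4) (nat_lit 23) (nat_lit 45) (nat_lit 43)))))) (PT.nd (nat_lit 470) (PT.nd (nat_lit 188) (PT.nd (nat_lit 94) (PT.lf (nat_lit 5880) (nat_lit 6)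 (nat_lit 70) (nat_lit 4) (nat_lit 24) (nat_lit 45) (nat_lit 42)) (PT.lf (nat_lit 6552) (nat_lit 6) (nat_lit 78) (nat_lit 4) (nat_lit 25) (nat_lit 45) (nat_lit 41))) (PT.nd (nat_lit 94) (PT.lf (nat_lit 7476) (nat_lit 6) (nat_lit 89) (nat_lit 4) (nat_lit 26) (nat_lit 45) (nat_lit 40)) (PT.nd (nat_lit 94) (PT.lf (nat_lit 8316) (nat_lit 6) (nat_lit 99) (nat_lit 4) (nat_lit 27) (nat_lit 45) (nat_lit 39)) (PT.lf (nat_lit 9072) (nat_lit 6) (nat_lit 108) (nat_lit 4) (nat_lit 28) (nat_lit 45) (nat_lit 38))))) (PT.nd (nat_lit 188) (PT.nd (nat_lit 94) (PT.lf (nat_lit 9744) (nat_lit 6) (nat_lit 116) (nat_lit 4) (nat_lit 29) (nat_lit 45) (nat_lit 37)) (PT.lf (nat_lit 9660) (nat_lit 6) (nat_lit 115) (nat_lit 4) (nat_lit 30) (nat_lit 45) (nat_lit 36))) (PT.nd (nat_lit 94) (PT.lf (nat_lit 9576) (nat_lit 6) (nat_lit 114) (nat_lit 4) (nat_lit 31) (nat_lit 45) (nat_lit 35)) (PT.nd (nat_lit 94) (PT.lf (nat_lit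 9492) (nat_lit 6) (nat_lit 113) (nat_lit 4) (nat_lit 32) (nat_lit 45) (nat_lit 34)) (PT.lf (nat_lit 9408) (nat_lit 3) (nat_lit 112) (nat_lit 2) (nat_lit 33) (nat_lit 45) (nat_lit 33))))))) (PT.nd (nat_lit 940) (PT.nd (nat_lit 470) (PT.nd (nat_lit 188) (PT.nd (nat_lit 94) (PT.lf (nat_lit 9492) (nat_lit 6) (nat_lit 113) (nat_lit 2) (nat_lit 34) (nat_lit 45) (nat_lit 32)) (PT.lf (nat_lit 9576) (nat_lit 6) (nat_lit 114) (nat_lit 2) (nat_lit 35) (nat_lit 45) (nat_lit 31))) (PT.nd (nat_lit 94) (PT.lf (nat_lit 9660) (nat_lit 6) (nat_lit 115) (nat_lit 2) (nat_lit 36) (nat_lit 45) (nat_lit 30)) (PT.nd (nat_lit 94) (PT.lf (nat_lit 9744) (nat_lit 6) (nat_lit 116) (nat_lit 2) (nat_lit 37) (nat_lit 45) (nat_lit 29)) (PT.lf (nat_lit 9072) (nat_lit 6) (nat_lit 108) (nat_lit 2) (nat_lit 38) (nat_lit 45) (nat_lit 28))))) (PT.nd (nat_lit 188) (PT.nd (nat_lit 94) (PT.lf (nat_lit 8316) (nat_lit 6) (nat_lit 99)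 (nat_lit 2) (nat_lit 39) (nat_lit 45) (nat_lit 27)) (PT.lf (nat_lit 7476) (nat_lit 6) (nat_lit 89) (nat_lit 2) (nat_lit 40) (nat_lit 45) (nat_lit 26))) (PT.nd (nat_lit 94) (PT.lf (nat_lit 6552) (nat_lit 6) (nat_lit 78) (nat_lit 2) (nat_lit 41) (nat_lit 45) (nat_lit 25)) (PT.nd (nat_lit 94) (PT.lf (nat_lit 5880) (nat_lit 6) (nat_lit 70) (nat_lit 2) (nat_lit 42) (nat_lit 45) (nat_lit 24)) (PT.lf (nat_lit 5376) (nat_lit 6) (nat_lit 64) (nat_lit 2) (nat_lit 43) (nat_lit 45) (nat_lit 23)))))) (PT.nd (nat_lit 470) (PT.nd (nat_lit 188) (PT.nd (nat_lit 94) (PT.lf (nat_lit 4956) (nat_lit 6) (nat_lit 59) (nat_lit 2) (nat_lit 44) (nat_lit 45) (nat_lit 22)) (PT.lf (nat_lit 4536) (nat_lit 3) (nat_lit 54) (nat_lit 0) (nat_lit 45) (nat_lit 45) (nat_lit 21))) (PT.nd (nat_lit 94) (PT.lf (nat_lit 4116) (nat_lit 6) (nat_lit 49) (nat_lit 0) (nat_lit 46) (nat_lit 45) (nat_lit 20)) (PT.nd (nat_lit 94) (PT.lf (nat_lit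 3612) (nat_lit 6) (nat_lit 43) (nat_lit 0) (nat_lit 47) (nat_lit 45) (nat_lit 19)) (PT.lf (nat_lit 3192) (nat_lit 6) (nat_lit 38) (nat_lit 0) (nat_lit 48) (nat_lit 45) (nat_lit 18))))) (PT.nd (nat_lit 52734) (PT.nd (nat_lit 52640) (PT.lf (nat_lit 2772) (nat_lit 6) (nat_lit 33) (nat_lit 0) (nat_lit 49) (nat_lit 45) (nat_lit 17)) (PT.lf (nat_lit 2520) (nat_lit 6) (nat_lit 30) (nat_lit 5) (nat_lit 16) (nat_lit 46) (nat_lit 49))) (PT.nd (nat_lit 94) (PT.lf (nat_lit 2856) (nat_lit 6) (nat_lit 34) (nat_lit 5) (nat_lit 17) (nat_lit 46) (nat_lit 48)) (PT.nd (nat_lit 94) (PT.lf (nat_lit 3276) (nat_lit 6) (nat_lit 39) (nat_lit 5) (nat_lit 18) (nat_lit 46) (nat_lit 47)) (PT.lf (nat_lit 3696) (nat_lit 3) (nat_lit 44) (nat_lit 4) (nat_lit 19) (nat_lit 46) (nat_lit 46))))))))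
noncomputable def pc13 : PT := (PT.nd (nat_lit 1880) (PT.nd (nat_lit 940) (PT.nd (nat_lit 470) (PT.nd (nat_lit 188) (PT.nd (nat_lit 94) (PT.lf (nat_lit 4116) (nat_lit 6) (nat_lit 49) (nat_lit 4) (nat_lit 20) (nat_lit 46) (nat_lit 45)) (PT.lf (nat_lit 4452) (nat_lit 6) (nat_lit 53) (nat_lit 4) (nat_lit 21) (nat_lit 46) (nat_lit 44))) (PT.nd (nat_lit 94) (PT.lf (nat_lit 4872) (nat_lit 6) (nat_lit 58) (nat_lit 4) (nat_lit 22) (nat_lit 46) (nat_lit 43)) (PT.nd (nat_lit 94) (PT.lf (nat_lit 5292) (nat_lit 6) (nat_lit 63) (nat_lit 4) (nat_lit 23) (nat_lit 46) (nat_lit 42)) (PT.lf (nat_lit 5796) (nat_lit 6) (nat_lit 69) (nat_lit 4) (nat_lit 24) (nat_lit 46) (nat_lit 41))))) (PT.nd (nat_lit 188) (PT.nd (nat_lit 94) (PT.lf (nat_lit 6468) (nat_lit 6) (nat_lit 77) (nat_lit 4) (nat_lit 25) (nat_lit 46) (nat_lit 40)) (PT.lf (nat_lit 7392) (nat_lit 6) (nat_lit 88) (nat_lit 4) (nat_lit 26) (nat_lit 46) (nat_lit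 39))) (PT.nd (nat_lit 94) (PT.lf (nat_lit 8232) (nat_lit 6) (nat_lit 98) (nat_lit 4) (nat_lit 27) (nat_lit 46) (nat_lit 38)) (PT.nd (nat_lit 94) (PT.lf (nat_lit 8988) (nat_lit 6) (nat_lit 107) (nat_lit 4) (nat_lit 28) (nat_lit 46) (nat_lit 37)) (PT.lf (nat_lit 8904) (nat_lit 6) (nat_lit 106) (nat_lit 4) (nat_lit 29) (nat_lit 46) (nat_lit 36)))))) (PT.nd (nat_lit 470) (PT.nd (nat_lit 188) (PT.nd (nat_lit 94) (PT.lf (nat_lit 8820) (nat_lit 6) (nat_lit 105) (nat_lit 4) (nat_lit 30) (nat_lit 46) (nat_lit 35)) (PT.lf (nat_lit 8736) (nat_lit 6) (nat_lit 104) (nat_lit 4) (nat_lit 31) (nat_lit 46) (nat_lit 34))) (PT.nd (nat_lit 94) (PT.lf (nat_lit 8652) (nat_lit 6) (nat_lit 103) (nat_lit 4) (nat_lit 32) (nat_lit 46) (nat_lit 33)) (PT.nd (nat_lit 94) (PT.lf (nat_lit 8652) (nat_lit 6) (nat_lit 103) (nat_lit 2) (nat_lit 33) (nat_lit 46) (nat_lit 32)) (PT.lf (nat_lit 8736) (nat_lit 6) (nat_lit 104) (nat_lit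 2) (nat_lit 34) (nat_lit 46) (nat_lit 31))))) (PT.nd (nat_lit 188) (PT.nd (nat_lit 94) (PT.lf (nat_lit 8820) (nat_lit 6) (nat_lit 105) (nat_lit 2) (nat_lit 35) (nat_lit 46) (nat_lit 30)) (PT.lf (nat_lit 8904) (nat_lit 6) (nat_lit 106) (nat_lit 2) (nat_lit 36) (nat_lit 46) (nat_lit 29))) (PT.nd (nat_lit 94) (PT.lf (nat_lit 8988) (nat_lit 6) (nat_lit 107) (nat_lit 2) (nat_lit 37) (nat_lit 46) (nat_lit 28)) (PT.nd (nat_lit 94) (PT.lf (nat_lit 8232) (nat_lit 6) (nat_lit 98) (nat_lit 2) (nat_lit 38) (nat_lit 46) (nat_lit 27)) (PT.lf (nat_lit 7392) (nat_lit 6) (nat_lit 88) (nat_lit 2) (nat_lit 39) (nat_lit 46) (nat_lit 26))))))) (PT.nd (nat_lit 53392) (PT.nd (nat_lit 470) (PT.nd (nat_lit 188) (PT.nd (nat_lit 94) (PT.lf (nat_lit 6468) (nat_lit 6) (nat_lit 77) (nat_lit 2) (nat_lit 40) (nat_lit 46) (nat_lit 25)) (PT.lf (nat_lit 5796) (nat_lit 6) (nat_lit 69) (nat_lit 2) (nat_lit 41) (nat_lit 46) (nat_lit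 24))) (PT.nd (nat_lit 94) (PT.lf (nat_lit 5292) (nat_lit 6) (nat_lit 63) (nat_lit 2) (nat_lit 42) (nat_lit 46) (nat_lit 23)) (PT.nd (nat_lit 94) (PT.lf (nat_lit 4872) (nat_lit 6) (nat_lit 58) (nat_lit 2) (nat_lit 43) (nat_lit 46) (nat_lit 22)) (PT.lf (nat_lit 4452) (nat_lit 6) (nat_lit 53) (nat_lit 2) (nat_lit 44) (nat_lit 46) (nat_lit 21))))) (PT.nd (nat_lit 188) (PT.nd (nat_lit 94) (PT.lf (nat_lit 4116) (nat_lit 6) (nat_lit 49) (nat_lit 2) (nat_lit 45) (nat_lit 46) (nat_lit 20)) (PT.lf (nat_lit 3696) (nat_lit 3) (nat_lit 44) (nat_lit 0) (nat_lit 46) (nat_lit 46) (nat_lit 19))) (PT.nd (nat_lit 94) (PT.lf (nat_lit 3276) (nat_lit 6) (nat_lit 39) (nat_lit 0) (nat_lit 47) (nat_lit 46) (nat_lit 18)) (PT.nd (nat_lit 94) (PT.lf (nat_lit 2856) (nat_lit 6) (nat_lit 34) (nat_lit 0) (nat_lit 48) (nat_lit 46) (nat_lit 17)) (PT.lf (nat_lit 2520) (nat_lit 6) (nat_lit 30) (nat_lit 0) (nat_lit 49) (nat_lit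 46) (nat_lit 16)))))) (PT.nd (nat_lit 470) (PT.nd (nat_lit 188) (PT.nd (nat_lit 94) (PT.lf (nat_lit 2268) (nat_lit 6) (nat_lit 27) (nat_lit 5) (nat_lit 15) (nat_lit 47) (nat_lit 49)) (PT.lf (nat_lit 2604) (nat_lit 6) (nat_lit 31) (nat_lit 5) (nat_lit 16) (nat_lit 47) (nat_lit 48))) (PT.nd (nat_lit 94) (PT.lf (nat_lit 2940) (nat_lit 3) (nat_lit 35) (nat_lit 4) (nat_lit 17) (nat_lit 47) (nat_lit 47)) (PT.nd (nat_lit 94) (PT.lf (nat_lit 3276) (nat_lit 6) (nat_lit 39) (nat_lit 4) (nat_lit 18) (nat_lit 47) (nat_lit 46)) (PT.lf (nat_lit 3612) (nat_lit 6) (nat_lit 43) (nat_lit 4) (nat_lit 19) (nat_lit 47) (nat_lit 45))))) (PT.nd (nat_lit 282) (PT.nd (nat_lit 94) (PT.lf (nat_lit 4032) (nat_lit 6) (nat_lit 48) (nat_lit 4) (nat_lit 20) (nat_lit 47) (nat_lit 44)) (PT.nd (nat_lit 94) (PT.lf (nat_lit 4368) (nat_lit 6) (nat_lit 52) (nat_lit 4) (nat_lit 21) (nat_lit 47) (nat_lit 43)) (PT.lf (nat_lit 4788)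 (nat_lit 6) (nat_lit 57) (nat_lit 4) (nat_lit 22) (nat_lit 47) (nat_lit 42)))) (PT.nd (nat_lit 94) (PT.lf (nat_lit 5208) (nat_lit 6) (nat_lit 62) (nat_lit 4) (nat_lit 23) (nat_lit 47) (nat_lit 41)) (PT.nd (nat_lit 94) (PT.lf (nat_lit 5712) (nat_lit 6) (nat_lit 68) (nat_lit 4) (nat_lit 24) (nat_lit 47) (nat_lit 40)) (PT.lf (nat_lit 6384) (nat_lit 6) (nat_lit 76) (nat_lit 4) (nat_lit 25) (nat_lit 47) (nat_lit 39))))))))
noncomputable def pc14 : PT := (PT.nd (nat_lit 1880) (PT.nd (nat_lit 940) (PT.nd (nat_lit 470) (PT.nd (nat_lit 188) (PT.nd (nat_lit 94) (PT.lf (nat_lit 7308) (nat_lit 6) (nat_lit 87) (nat_lit 4) (nat_lit 26) (nat_lit 47) (nat_lit 38)) (PT.lf (nat_lit 8148) (nat_lit 6) (nat_lit 97) (nat_lit 4) (nat_lit 27) (nat_lit 47) (nat_lit 37))) (PT.nd (nat_lit 94) (PT.lf (nat_lit 8064) (nat_lit 6) (nat_lit 96) (nat_lit 4) (nat_lit 28) (nat_lit 47) (nat_lit 36)) (PT.nd (nat_lit 94) (PT.lf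 (nat_lit 7980) (nat_lit 6) (nat_lit 95) (nat_lit 4) (nat_lit 29) (nat_lit 47) (nat_lit 35)) (PT.lf (nat_lit 7896) (nat_lit 6) (nat_lit 94) (nat_lit 4) (nat_lit 30) (nat_lit 47) (nat_lit 34))))) (PT.nd (nat_lit 188) (PT.nd (nat_lit 94) (PT.lf (nat_lit 7812) (nat_lit 6) (nat_lit 93) (nat_lit 4) (nat_lit 31) (nat_lit 47) (nat_lit 33)) (PT.lf (nat_lit 7728) (nat_lit 3) (nat_lit 92) (nat_lit 2) (nat_lit 32) (nat_lit 47) (nat_lit 32))) (PT.nd (nat_lit 94) (PT.lf (nat_lit 7812) (nat_lit 6) (nat_lit 93) (nat_lit 2) (nat_lit 33) (nat_lit 47) (nat_lit 31)) (PT.nd (nat_lit 94) (PT.lf (nat_lit 7896) (nat_lit 6) (nat_lit 94) (nat_lit 2) (nat_lit 34) (nat_lit 47) (nat_lit 30)) (PT.lf (nat_lit 7980) (nat_lit 6) (nat_lit 95) (nat_lit 2) (nat_lit 35) (nat_lit 47) (nat_lit 29)))))) (PT.nd (nat_lit 470) (PT.nd (nat_lit 188) (PT.nd (nat_lit 94) (PT.lf (nat_lit 8064) (nat_lit 6) (nat_lit 96) (nat_lit 2) (nat_lit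 36) (nat_lit 47) (nat_lit 28)) (PT.lf (nat_lit 8148) (nat_lit 6) (nat_lit 97) (nat_lit 2) (nat_lit 37) (nat_lit 47) (nat_lit 27))) (PT.nd (nat_lit 94) (PT.lf (nat_lit 7308) (nat_lit 6) (nat_lit 87) (nat_lit 2) (nat_lit 38) (nat_lit 47) (nat_lit 26)) (PT.nd (nat_lit 94) (PT.lf (nat_lit 6384) (nat_lit 6) (nat_lit 76) (nat_lit 2) (nat_lit 39) (nat_lit 47) (nat_lit 25)) (PT.lf (nat_lit 5712) (nat_lit 6) (nat_lit 68) (nat_lit 2) (nat_lit 40) (nat_lit 47) (nat_lit 24))))) (PT.nd (nat_lit 188) (PT.nd (nat_lit 94) (PT.lf (nat_lit 5208) (nat_lit 6) (nat_lit 62) (nat_lit 2) (nat_lit 41) (nat_lit 47) (nat_lit 23)) (PT.lf (nat_lit 4788) (nat_lit 6) (nat_lit 57) (nat_lit 2) (nat_lit 42) (nat_lit 47) (nat_lit 22))) (PT.nd (nat_lit 94) (PT.lf (nat_lit 4368) (nat_lit 6) (nat_lit 52) (nat_lit 2) (nat_lit 43) (nat_lit 47) (nat_lit 21)) (PT.nd (nat_lit 94) (PT.lf (nat_lit 4032) (nat_lit 6) (nat_lit 48) (nat_lit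 2) (nat_lit 44) (nat_lit 47) (nat_lit 20)) (PT.lf (nat_lit 3612) (nat_lit 6) (nat_lit 43) (nat_lit 2) (nat_lit 45) (nat_lit 47) (nat_lit 19))))))) (PT.nd (nat_lit 53298) (PT.nd (nat_lit 52828) (PT.nd (nat_lit 188) (PT.nd (nat_lit 94) (PT.lf (nat_lit 3276) (nat_lit 6) (nat_lit 39) (nat_lit 2) (nat_lit 46) (nat_lit 47) (nat_lit 18)) (PT.lf (nat_lit 2940) (nat_lit 3) (nat_lit 35) (nat_lit 0) (nat_lit 47) (nat_lit 47) (nat_lit 17))) (PT.nd (nat_lit 94) (PT.lf (nat_lit 2604) (nat_lit 6) (nat_lit 31) (nat_lit 0) (nat_lit 48) (nat_lit 47) (nat_lit 16)) (PT.nd (nat_lit 52452) (PT.lf (nat_lit 2268) (nat_lit 6) (nat_lit 27) (nat_lit 0) (nat_lit 49) (nat_lit 47) (nat_lit 15)) (PT.lf (nat_lit 2016) (nat_lit 6) (nat_lit 24) (nat_lit 5) (nat_lit 14) (nat_lit 48) (nat_lit 49))))) (PT.nd (nat_lit 188) (PT.nd (nat_lit 94) (PT.lf (nat_lit 2352) (nat_lit 3) (nat_lit 28) (nat_lit 4) (nat_lit 15) (nat_lit 48) (nat_lit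 48)) (PT.lf (nat_lit 2604) (nat_lit 6) (nat_lit 31) (nat_lit 4) (nat_lit 16) (nat_lit 48) (nat_lit 47))) (PT.nd (nat_lit 94) (PT.lf (nat_lit 2856) (nat_lit 6) (nat_lit 34) (nat_lit 4) (nat_lit 17) (nat_lit 48) (nat_lit 46)) (PT.nd (nat_lit 94) (PT.lf (nat_lit 3192) (nat_lit 6) (nat_lit 38) (nat_lit 4) (nat_lit 18) (nat_lit 48) (nat_lit 45)) (PT.lf (nat_lit 3528) (nat_lit 6) (nat_lit 42) (nat_lit 4) (nat_lit 19) (nat_lit 48) (nat_lit 44)))))) (PT.nd (nat_lit 470) (PT.nd (nat_lit 188) (PT.nd (nat_lit 94) (PT.lf (nat_lit 3948) (nat_lit 6) (nat_lit 47) (nat_lit 4) (nat_lit 20) (nat_lit 48) (nat_lit 43)) (PT.lf (nat_lit 4284) (nat_lit 6) (nat_lit 51) (nat_lit 4) (nat_lit 21) (nat_lit 48) (nat_lit 42))) (PT.nd (nat_lit 94) (PT.lf (nat_lit 4704) (nat_lit 6) (nat_lit 56) (nat_lit 4) (nat_lit 22) (nat_lit 48) (nat_lit 41)) (PT.nd (nat_lit 94) (PT.lf (nat_lit 5124) (nat_lit 6) (nat_lit 61) (nat_lit 4)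 (nat_lit 23) (nat_lit 48) (nat_lit 40)) (PT.lf (nat_lit 5628) (nat_lit 6) (nat_lit 67) (nat_lit 4) (nat_lit 24) (nat_lit 48) (nat_lit 39))))) (PT.nd (nat_lit 282) (PT.nd (nat_lit 94) (PT.lf (nat_lit 6300) (nat_lit 6) (nat_lit 75) (nat_lit 4) (nat_lit 25) (nat_lit 48) (nat_lit 38)) (PT.nd (nat_lit 94) (PT.lf (nat_lit 7224) (nat_lit 6) (nat_lit 86) (nat_lit 4) (nat_lit 26) (nat_lit 48) (nat_lit 37)) (PT.lf (nat_lit 7140) (nat_lit 6) (nat_lit 85) (nat_lit 4) (nat_lit 27) (nat_lit 48) (nat_lit 36)))) (PT.nd (nat_lit 94) (PT.lf (nat_lit 7056) (nat_lit 6) (nat_lit 84) (nat_lit 4) (nat_lit 28) (nat_lit 48) (nat_lit 35)) (PT.nd (nat_lit 94) (PT.lf (nat_lit 6972) (nat_lit 6) (nat_lit 83) (nat_lit 4) (nat_lit 29) (nat_lit 48) (nat_lit 34)) (PT.lf (nat_lit 6888) (nat_lit 6) (nat_lit 82) (nat_lit 4) (nat_lit 30) (nat_lit 48) (nat_lit 33))))))))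
noncomputable def pc15 : PT := (PT.nd (nat_lit 54238) (PT.nd (nat_lit 940) (PT.nd (nat_lit 470) (PT.nd (nat_lit 188) (PT.nd (nat_lit 94) (PT.lf (nat_lit 6804) (nat_lit 6) (nat_lit 81) (nat_lit 4) (nat_lit 31) (nat_lit 48) (nat_lit 32)) (PT.lf (nat_lit 6804) (nat_lit 6) (nat_lit 81) (nat_lit 2) (nat_lit 32) (nat_lit 48) (nat_lit 31))) (PT.nd (nat_lit 94) (PT.lf (nat_lit 6888) (nat_lit 6) (nat_lit 82) (nat_lit 2) (nat_lit 33) (nat_lit 48) (nat_lit 30)) (PT.nd (nat_lit 94) (PT.lf (nat_lit 6972) (nat_lit 6) (nat_lit 83) (nat_lit 2) (nat_lit 34) (nat_lit 48) (nat_lit 29)) (PT.lf (nat_lit 7056) (nat_lit 6) (nat_lit 84) (nat_lit 2) (nat_lit 35) (nat_lit 48) (nat_lit 28))))) (PT.nd (nat_lit 188) (PT.nd (nat_lit 94) (PT.lf (nat_lit 7140) (nat_lit 6) (nat_lit 85) (nat_lit 2) (nat_lit 36) (nat_lit 48) (nat_lit 27)) (PT.lf (nat_lit 7224) (nat_lit 6) (nat_lit 86) (nat_lit 2) (nat_lit 37) (nat_lit 48) (nat_lit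 26))) (PT.nd (nat_lit 94) (PT.lf (nat_lit 6300) (nat_lit 6) (nat_lit 75) (nat_lit 2) (nat_lit 38) (nat_lit 48) (nat_lit 25)) (PT.nd (nat_lit 94) (PT.lf (nat_lit 5628) (nat_lit 6) (nat_lit 67) (nat_lit 2) (nat_lit 39) (nat_lit 48) (nat_lit 24)) (PT.lf (nat_lit 5124) (nat_lit 6) (nat_lit 61) (nat_lit 2) (nat_lit 40) (nat_lit 48) (nat_lit 23)))))) (PT.nd (nat_lit 470) (PT.nd (nat_lit 188) (PT.nd (nat_lit 94) (PT.lf (nat_lit 4704) (nat_lit 6) (nat_lit 56) (nat_lit 2) (nat_lit 41) (nat_lit 48) (nat_lit 22)) (PT.lf (nat_lit 4284) (nat_lit 6) (nat_lit 51) (nat_lit 2) (nat_lit 42) (nat_lit 48) (nat_lit 21))) (PT.nd (nat_lit 94) (PT.lf (nat_lit 3948) (nat_lit 6) (nat_lit 47) (nat_lit 2) (nat_lit 43) (nat_lit 48) (nat_lit 20)) (PT.nd (nat_lit 94) (PT.lf (nat_lit 3528) (nat_lit 6) (nat_lit 42) (nat_lit 2) (nat_lit 44) (nat_lit 48) (nat_lit 19)) (PT.lf (nat_lit 3192) (nat_lit 6) (nat_lit 38) (nat_lit 2)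 (nat_lit 45) (nat_lit 48) (nat_lit 18))))) (PT.nd (nat_lit 188) (PT.nd (nat_lit 94) (PT.lf (nat_lit 2856) (nat_lit 6) (nat_lit 34) (nat_lit 2) (nat_lit 46) (nat_lit 48) (nat_lit 17)) (PT.lf (nat_lit 2604) (nat_lit 6) (nat_lit 31) (nat_lit 2) (nat_lit 47) (nat_lit 48) (nat_lit 16))) (PT.nd (nat_lit 94) (PT.lf (nat_lit 2352) (nat_lit 3) (nat_lit 28) (nat_lit 0) (nat_lit 48) (nat_lit 48) (nat_lit 15)) (PT.nd (nat_lit 52452) (PT.lf (nat_lit 2016) (nat_lit 6) (nat_lit 24) (nat_lit 0) (nat_lit 49) (nat_lit 48) (nat_lit 14)) (PT.lf (nat_lit 2016) (nat_lit 6) (nat_lit 24) (nat_lit 4) (nat_lit 14) (nat_lit 49) (nat_lit 48))))))) (PT.nd (nat_lit 2726) (PT.nd (nat_lit 470) (PT.nd (nat_lit 188) (PT.nd (nat_lit 94) (PT.lf (nat_lit 2268) (nat_lit 6) (nat_lit 27) (nat_lit 4) (nat_lit 15) (nat_lit 49) (nat_lit 47)) (PT.lf (nat_lit 2520) (nat_lit 6) (nat_lit 30) (nat_lit 4) (nat_lit 16) (nat_lit 49) (nat_lit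 46))) (PT.nd (nat_lit 94) (PT.lf (nat_lit 2772) (nat_lit 6) (nat_lit 33) (nat_lit 4) (nat_lit 17) (nat_lit 49) (nat_lit 45)) (PT.nd (nat_lit 94) (PT.lf (nat_lit 3108) (nat_lit 6) (nat_lit 37) (nat_lit 4) (nat_lit 18) (nat_lit 49) (nat_lit 44)) (PT.lf (nat_lit 3444) (nat_lit 6) (nat_lit 41) (nat_lit 4) (nat_lit 19) (nat_lit 49) (nat_lit 43))))) (PT.nd (nat_lit 1974) (PT.nd (nat_lit 94) (PT.lf (nat_lit 3864) (nat_lit 6) (nat_lit 46) (nat_lit 4) (nat_lit 20) (nat_lit 49) (nat_lit 42)) (PT.lf (nat_lit 4200) (nat_lit 6) (nat_lit 50) (nat_lit 4) (nat_lit 21) (nat_lit 49) (nat_lit 41))) (PT.nd (nat_lit 94) (PT.lf (nat_lit 4200) (nat_lit 6) (nat_lit 50) (nat_lit 2) (nat_lit 41) (nat_lit 49) (nat_lit 21)) (PT.nd (nat_lit 94) (PT.lf (nat_lit 3864) (nat_lit 6) (nat_lit 46) (nat_lit 2) (nat_lit 42) (nat_lit 49) (nat_lit 20)) (PT.lf (nat_lit 3444) (nat_lit 6) (nat_lit 41) (nat_lit 2) (nat_lit 43) (nat_lit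 49) (nat_lit 19)))))) (PT.nd (nat_lit 219208) (PT.nd (nat_lit 188) (PT.nd (nat_lit 94) (PT.lf (nat_lit 3108) (nat_lit 6) (nat_lit 37) (nat_lit 2) (nat_lit 44) (nat_lit 49) (nat_lit 18)) (PT.lf (nat_lit 2772) (nat_lit 6) (nat_lit 33) (nat_lit 2) (nat_lit 45) (nat_lit 49) (nat_lit 17))) (PT.nd (nat_lit 94) (PT.lf (nat_lit 2520) (nat_lit 6) (nat_lit 30) (nat_lit 2) (nat_lit 46) (nat_lit 49) (nat_lit 16)) (PT.nd (nat_lit 94) (PT.lf (nat_lit 2268) (nat_lit 6) (nat_lit 27) (nat_lit 2) (nat_lit 47) (nat_lit 49) (nat_lit 15)) (PT.lf (nat_lit 2016) (nat_lit 6) (nat_lit 24) (nat_lit 2) (nat_lit 48) (nat_lit 49) (nat_lit 14))))) (PT.nd (nat_lit 55742) (PT.nd (nat_lit 4700) (PT.lf (nat_lit 168) (nat_lit 6) (nat_lit 2) (nat_lit 5) (nat_lit 4) (nat_lit 53) (nat_lit 54)) (PT.nd (nat_lit 50948) (PT.lf (nat_lit 168) (nat_lit 6) (nat_lit 2) (nat_lit 0) (nat_lit 54) (nat_lit 53) (nat_lit 4)) (PT.lf (nat_lit 84)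 (nat_lit 3) (nat_lit 1) (nat_lit 4) (nat_lit 3) (nat_lit 54) (nat_lit 54)))) (PT.nd (nat_lit 4606) (PT.lf (nat_lit 168) (nat_lit 6) (nat_lit 2) (nat_lit 4) (nat_lit 4) (nat_lit 54) (nat_lit 53)) (PT.nd (nat_lit 94) (PT.lf (nat_lit 168) (nat_lit 6) (nat_lit 2) (nat_lit 2) (nat_lit 53) (nat_lit 54) (nat_lit 4)) (PT.lf (nat_lit 84) (nat_lit 3) (nat_lit 1) (nat_lit 0) (nat_lit 54) (nat_lit 54) (nat_lit 3))))))))
noncomputable def xc0 : XT := (XT.nd (nat_lit 277864) (nat_lit 0) (nat_lit 0) (XT.nd (nat_lit 167038) (nat_lit 0) (nat_lit 0) (XT.nd (nat_lit 111296) (nat_lit 0) (nat_lit 0) (XT.nd (nat_lit 55742) (nat_lit 0) (nat_lit 0) (XT.nd (nat_lit 55554) (nat_lit 0) (nat_lit 336) (XT.lf (nat_lit 0) (nat_lit 766404688) (nat_lit 336) (nat_lit 4096274268) (nat_lit 0) (nat_lit 766404688) (nat_lit 24) (nat_lit 5) (nat_lit 28) (nat_lit 4) (nat_lit 24) (nat_lit 4) (nat_lit 348) (nat_lit 270) (nat_lit 270))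 (XT.nd (nat_lit 94) (nat_lit 0) (nat_lit 0) (XT.lf (nat_lit 0) (nat_lit 2911574499) (nat_lit 252) (nat_lit 1247753456) (nat_lit 252) (nat_lit 1247753456) (nat_lit 28) (nat_lit 4) (nat_lit 31) (nat_lit 5) (nat_lit 31) (nat_lit 4) (nat_lit 346) (nat_lit 271) (nat_lit 271)) (XT.lf (nat_lit 0) (nat_lit 10014236726) (nat_lit 252) (nat_lit 888955151) (nat_lit 252) (nat_lit 129938285) (nat_lit 28) (nat_lit 4) (nat_lit 31) (nat_lit 5) (nat_lit 31) (nat_lit 4) (nat_lit 347) (nat_lit 271) (nat_lit 270)))) (XT.nd (nat_lit 55366) (nat_lit 0) (nat_lit 336) (XT.lf (nat_lit 0) (nat_lit 2237466898) (nat_lit 336) (nat_lit 8234654382) (nat_lit 0) (nat_lit 787213074) (nat_lit 24) (nat_lit 5) (nat_lit 28) (nat_lit 4) (nat_lit 24) (nat_lit 4) (nat_lit 348) (nat_lit 271) (nat_lit 269)) (XT.nd (nat_lit 94) (nat_lit 252) (nat_lit 0) (XT.lf (nat_lit 0) (nat_lit 2016467684) (nat_lit 336) (nat_lit 1167461761) (nat_lit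 0) (nat_lit 2016467684) (nat_lit 31) (nat_lit 5) (nat_lit 35) (nat_lit 4) (nat_lit 31) (nat_lit 4) (nat_lit 344) (nat_lit 272) (nat_lit 272)) (XT.lf (nat_lit 0) (nat_lit 1678092477) (nat_lit 252) (nat_lit 4854276093) (nat_lit 252) (nat_lit 4071729704) (nat_lit 28) (nat_lit 4) (nat_lit 31) (nat_lit 5) (nat_lit 31) (nat_lit 4) (nat_lit 345) (nat_lit 272) (nat_lit 271))))) (XT.nd (nat_lit 55366) (nat_lit 0) (nat_lit 336) (XT.nd (nat_lit 94) (nat_lit 336) (nat_lit 0) (XT.lf (nat_lit 0) (nat_lit 5782545578) (nat_lit 252) (nat_lit 3287178824) (nat_lit 252) (nat_lit 1745615569) (nat_lit 28) (nat_lit 4) (nat_lit 31) (nat_lit 5) (nat_lit 31) (nat_lit 4) (nat_lit 346) (nat_lit 272) (nat_lit 270)) (XT.nd (nat_lit 94) (nat_lit 252) (nat_lit 0) (XT.lf (nat_lit 0) (nat_lit 576427353) (nat_lit 336) (nat_lit 1107034126) (nat_lit 84) (nat_lit 9351806672) (nat_lit 27) (nat_lit 5) (nat_lit 31) (nat_lit 5) (nat_lit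 28) (nat_lit 4) (nat_lit 347) (nat_lit 272) (nat_lit 269)) (XT.lf (nat_lit 0) (nat_lit 2901825290) (nat_lit 252) (nat_lit 17333) (nat_lit 336) (nat_lit 8360994002) (nat_lit 24) (nat_lit 5) (nat_lit 27) (nat_lit 5) (nat_lit 28) (nat_lit 4) (nat_lit 348) (nat_lit 272) (nat_lit 268)))) (XT.nd (nat_lit 188) (nat_lit 252) (nat_lit 0) (XT.nd (nat_lit 94) (nat_lit 336) (nat_lit 0) (XT.lf (nat_lit 0) (nat_lit 4948694898) (nat_lit 336) (nat_lit 29937769) (nat_lit 336) (nat_lit 29937769) (nat_lit 35) (nat_lit 4) (nat_lit 39) (nat_lit 5) (nat_lit 39) (nat_lit 4) (nat_lit 342) (nat_lit 273) (nat_lit 273)) (XT.lf (nat_lit 0) (nat_lit 2368492995) (nat_lit 336) (nat_lit 6275287394) (nat_lit 0) (nat_lit 1561687668) (nat_lit 31) (nat_lit 5) (nat_lit 35) (nat_lit 4) (nat_lit 31) (nat_lit 4) (nat_lit 343) (nat_lit 273) (nat_lit 272))) (XT.nd (nat_lit 94) (nat_lit 252) (nat_lit 0) (XT.lf (nat_lit 0) (nat_lit 4807702260)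 (nat_lit 336) (nat_lit 2375942220) (nat_lit 0) (nat_lit 3218350544) (nat_lit 31) (nat_lit 5) (nat_lit 35) (nat_lit 4) (nat_lit 31) (nat_lit 4) (nat_lit 344) (nat_lit 273) (nat_lit 271)) (XT.lf (nat_lit 0) (nat_lit 1595626930) (nat_lit 252) (nat_lit 5679615355) (nat_lit 252) (nat_lit 3331246773) (nat_lit 28) (nat_lit 4) (nat_lit 31) (nat_lit 5) (nat_lit 31) (nat_lit 4) (nat_lit 345) (nat_lit 273) (nat_lit 270)))))) (XT.nd (nat_lit 55460) (nat_lit 0) (nat_lit 0) (XT.nd (nat_lit 55178) (nat_lit 0) (nat_lit 840) (XT.nd (nat_lit 94) (nat_lit 336) (nat_lit 0) (XT.lf (nat_lit 0) (nat_lit 5660697471) (nat_lit 252) (nat_lit 4121369223) (nat_lit 252) (nat_lit 1036805815) (nat_lit 28) (nat_lit 4) (nat_lit 31) (nat_lit 5) (nat_lit 31) (nat_lit 4) (nat_lit 346) (nat_lit 273) (nat_lit 269)) (XT.nd (nat_lit 94) (nat_lit 252) (nat_lit 0) (XT.lf (nat_lit 0) (nat_lit 1240854296) (nat_lit 336) (nat_lit 1278447330)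 (nat_lit 84) (nat_lit 8520397956) (nat_lit 27) (nat_lit 5) (nat_lit 31) (nat_lit 5) (nat_lit 28) (nat_lit 4) (nat_lit 347) (nat_lit 273) (nat_lit 268)) (XT.lf (nat_lit 0) (nat_lit 2688281252) (nat_lit 252) (nat_lit 846673156) (nat_lit 336) (nat_lit 7733462606) (nat_lit 24) (nat_lit 5) (nat_lit 27) (nat_lit 5) (nat_lit 28) (nat_lit 4) (nat_lit 348) (nat_lit 273) (nat_lit 267)))) (XT.nd (nat_lit 94) (nat_lit 84) (nat_lit 0) (XT.lf (nat_lit 0) (nat_lit 839157801) (nat_lit 336) (nat_lit 1995065998) (nat_lit 336) (nat_lit 1995065998) (nat_lit 35) (nat_lit 4) (nat_lit 39) (nat_lit 5) (nat_lit 39) (nat_lit 4) (nat_lit 340) (nat_lit 274) (nat_lit 274)) (XT.nd (nat_lit 94) (nat_lit 84) (nat_lit 0) (XT.lf (nat_lit 0) (nat_lit 5745140026) (nat_lit 336) (nat_lit 2473485406) (nat_lit 336) (nat_lit 1615882809) (nat_lit 35) (nat_lit 4) (nat_lit 39) (nat_lit 5) (nat_lit 39) (nat_lit 4) (nat_lit 341) (nat_lit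 274) (nat_lit 273)) (XT.lf (nat_lit 0) (nat_lit 749112285) (nat_lit 420) (nat_lit 167971837) (nat_lit 84) (nat_lit 9101034251) (nat_lit 34) (nat_lit 5) (nat_lit 39) (nat_lit 5) (nat_lit 35) (nat_lit 4) (nat_lit 342) (nat_lit 274) (nat_lit 272))))) (XT.nd (nat_lit 282) (nat_lit 336) (nat_lit 0) (XT.nd (nat_lit 94) (nat_lit 252) (nat_lit 0) (XT.lf (nat_lit 0) (nat_lit 3135239224) (nat_lit 336) (nat_lit 6358596369) (nat_lit 0) (nat_lit 714071216) (nat_lit 31) (nat_lit 5) (nat_lit 35) (nat_lit 4) (nat_lit 31) (nat_lit 4) (nat_lit 343) (nat_lit 274) (nat_lit 271)) (XT.nd (nat_lit 94) (nat_lit 252) (nat_lit 0) (XT.lf (nat_lit 0) (nat_lit 5543373382) (nat_lit 336) (nat_lit 2499036547) (nat_lit 0) (nat_lit 2363188508) (nat_lit 31) (nat_lit 5) (nat_lit 35) (nat_lit 4) (nat_lit 31) (nat_lit 4) (nat_lit 344) (nat_lit 274) (nat_lit 270)) (XT.lf (nat_lit 0) (nat_lit 1430618970) (nat_lit 252) (nat_lit 6548516794)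 (nat_lit 252) (nat_lit 2632137093) (nat_lit 28) (nat_lit 4) (nat_lit 31) (nat_lit 5) (nat_lit 31) (nat_lit 4) (nat_lit 345) (nat_lit 274) (nat_lit 269)))) (XT.nd (nat_lit 188) (nat_lit 252) (nat_lit 0) (XT.nd (nat_lit 94) (nat_lit 84) (nat_lit 0) (XT.lf (nat_lit 0) (nat_lit 5457491100) (nat_lit 252) (nat_lit 4998855664) (nat_lit 252) (nat_lit 368416966) (nat_lit 28) (nat_lit 4) (nat_lit 31) (nat_lit 5) (nat_lit 31) (nat_lit 4) (nat_lit 346) (nat_lit 274) (nat_lit 268)) (XT.lf (nat_lit 0) (nat_lit 1866579825) (nat_lit 336) (nat_lit 1532003819) (nat_lit 84) (nat_lit 7647884901) (nat_lit 27) (nat_lit 5) (nat_lit 31) (nat_lit 5) (nat_lit 28) (nat_lit 4) (nat_lit 347) (nat_lit 274) (nat_lit 267))) (XT.nd (nat_lit 54802) (nat_lit 0) (nat_lit 1260) (XT.lf (nat_lit 0) (nat_lit 2392065703) (nat_lit 252) (nat_lit 1737356851) (nat_lit 336) (nat_lit 7146905232) (nat_lit 24) (nat_lit 5) (nat_lit 27) (nat_lit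 5) (nat_lit 28) (nat_lit 4) (nat_lit 348) (nat_lit 274) (nat_lit 266)) (XT.lf (nat_lit 0) (nat_lit 790698447) (nat_lit 420) (nat_lit 3081903070) (nat_lit 0) (nat_lit 790698447) (nat_lit 39) (nat_lit 5) (nat_lit 44) (nat_lit 4) (nat_lit 39) (nat_lit 4) (nat_lit 338) (nat_lit 275) (nat_lit 275))))))) (XT.nd (nat_lit 55742) (nat_lit 0) (nat_lit 0) (XT.nd (nat_lit 564) (nat_lit 588) (nat_lit 0) (XT.nd (nat_lit 282) (nat_lit 336) (nat_lit 0) (XT.nd (nat_lit 94) (nat_lit 336) (nat_lit 0) (XT.lf (nat_lit 0) (nat_lit 4037422365) (nat_lit 420) (nat_lit 2299025564) (nat_lit 0) (nat_lit 3153234088) (nat_lit 39) (nat_lit 5) (nat_lit 44) (nat_lit 4) (nat_lit 39) (nat_lit 4) (nat_lit 339) (nat_lit 275) (nat_lit 274)) (XT.nd (nat_lit 94) (nat_lit 0) (nat_lit 0) (XT.lf (nat_lit 0) (nat_lit 1637669392) (nat_lit 336) (nat_lit 4881975639) (nat_lit 336) (nat_lit 3140184764) (nat_lit 35) (nat_lit 4) (nat_lit 39)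 (nat_lit 5) (nat_lit 39) (nat_lit 4) (nat_lit 340) (nat_lit 275) (nat_lit 273)) (XT.lf (nat_lit 0) (nat_lit 5665069751) (nat_lit 336) (nat_lit 3372754231) (nat_lit 336) (nat_lit 799147064) (nat_lit 35) (nat_lit 4) (nat_lit 39) (nat_lit 5) (nat_lit 39) (nat_lit 4) (nat_lit 341) (nat_lit 275) (nat_lit 272)))) (XT.nd (nat_lit 94) (nat_lit 252) (nat_lit 0) (XT.lf (nat_lit 0) (nat_lit 1517828754) (nat_lit 420) (nat_lit 297702293) (nat_lit 84) (nat_lit 8205985019) (nat_lit 34) (nat_lit 5) (nat_lit 39) (nat_lit 5) (nat_lit 35) (nat_lit 4) (nat_lit 342) (nat_lit 275) (nat_lit 271)) (XT.nd (nat_lit 94) (nat_lit 0) (nat_lit 0) (XT.lf (nat_lit 0) (nat_lit 3685666447) (nat_lit 252) (nat_lit 178747796) (nat_lit 336) (nat_lit 6348317376) (nat_lit 31) (nat_lit 5) (nat_lit 34) (nat_lit 5) (nat_lit 35) (nat_lit 4) (nat_lit 343) (nat_lit 275) (nat_lit 270)) (XT.lf (nat_lit 0) (nat_lit 6240634457) (nat_lit 336)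 (nat_lit 2704321241) (nat_lit 0) (nat_lit 1466652159) (nat_lit 31) (nat_lit 5) (nat_lit 35) (nat_lit 4) (nat_lit 31) (nat_lit 4) (nat_lit 344) (nat_lit 275) (nat_lit 269))))) (XT.nd (nat_lit 282) (nat_lit 252) (nat_lit 0) (XT.nd (nat_lit 94) (nat_lit 84) (nat_lit 0) (XT.lf (nat_lit 0) (nat_lit 1182914792) (nat_lit 252) (nat_lit 7461790316) (nat_lit 252) (nat_lit 1973749020) (nat_lit 28) (nat_lit 4) (nat_lit 31) (nat_lit 5) (nat_lit 31) (nat_lit 4) (nat_lit 345) (nat_lit 275) (nat_lit 268)) (XT.nd (nat_lit 94) (nat_lit 0) (nat_lit 0) (XT.lf (nat_lit 0) (nat_lit 254932060) (nat_lit 336) (nat_lit 5662863026) (nat_lit 84) (nat_lit 4915144028) (nat_lit 27) (nat_lit 5) (nat_lit 31) (nat_lit 5) (nat_lit 28) (nat_lit 4) (nat_lit 346) (nat_lit 275) (nat_lit 267)) (XT.lf (nat_lit 0) (nat_lit 2454187182) (nat_lit 336) (nat_lit 1867939934) (nat_lit 84) (nat_lit 6733454232) (nat_lit 27) (nat_lit 5) (nat_lit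 31) (nat_lit 5) (nat_lit 28) (nat_lit 4) (nat_lit 347) (nat_lit 275) (nat_lit 266)))) (XT.nd (nat_lit 54708) (nat_lit 0) (nat_lit 1260) (XT.nd (nat_lit 54614) (nat_lit 0) (nat_lit 1680) (XT.lf (nat_lit 0) (nat_lit 2012902538) (nat_lit 252) (nat_lit 2672898628) (nat_lit 336) (nat_lit 6600775148) (nat_lit 24) (nat_lit 5) (nat_lit 27) (nat_lit 5) (nat_lit 28) (nat_lit 4) (nat_lit 348) (nat_lit 275) (nat_lit 265)) (XT.lf (nat_lit 0) (nat_lit 2169369984) (nat_lit 420) (nat_lit 1169891050) (nat_lit 420) (nat_lit 1169891050) (nat_lit 44) (nat_lit 4) (nat_lit 49) (nat_lit 5) (nat_lit 49) (nat_lit 4) (nat_lit 336) (nat_lit 276) (nat_lit 276))) (XT.nd (nat_lit 94) (nat_lit 336) (nat_lit 0) (XT.lf (nat_lit 0) (nat_lit 61656270) (nat_lit 504) (nat_lit 814633771) (nat_lit 84) (nat_lit 8294117336) (nat_lit 43) (nat_lit 5) (nat_lit 49) (nat_lit 5) (nat_lit 44) (nat_lit 4) (nat_lit 337) (nat_lit 276) (nat_lit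 275)) (XT.lf (nat_lit 0) (nat_lit 2459397162) (nat_lit 420) (nat_lit 6204868065) (nat_lit 0) (nat_lit 663610770) (nat_lit 39) (nat_lit 5) (nat_lit 44) (nat_lit 4) (nat_lit 39) (nat_lit 4) (nat_lit 338) (nat_lit 276) (nat_lit 274)))))) (XT.nd (nat_lit 658) (nat_lit 336) (nat_lit 0) (XT.nd (nat_lit 282) (nat_lit 588) (nat_lit 0) (XT.nd (nat_lit 94) (nat_lit 336) (nat_lit 0) (XT.lf (nat_lit 0) (nat_lit 4882835002) (nat_lit 420) (nat_lit 2379914769) (nat_lit 0) (nat_lit 2229446012) (nat_lit 39) (nat_lit 5) (nat_lit 44) (nat_lit 4) (nat_lit 39) (nat_lit 4) (nat_lit 339) (nat_lit 276) (nat_lit 273)) (XT.nd (nat_lit 94) (nat_lit 0) (nat_lit 0) (XT.lf (nat_lit 0) (nat_lit 1515692874) (nat_lit 336) (nat_lit 5816546980) (nat_lit 336) (nat_lit 2331341699) (nat_lit 35) (nat_lit 4) (nat_lit 39) (nat_lit 5) (nat_lit 39) (nat_lit 4) (nat_lit 340) (nat_lit 276) (nat_lit 272)) (XT.lf (nat_lit 0) (nat_lit 5504854569)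 (nat_lit 336) (nat_lit 4314527497) (nat_lit 336) (nat_lit 22516888) (nat_lit 35) (nat_lit 4) (nat_lit 39) (nat_lit 5) (nat_lit 39) (nat_lit 4) (nat_lit 341) (nat_lit 276) (nat_lit 271)))) (XT.nd (nat_lit 188) (nat_lit 252) (nat_lit 0) (XT.nd (nat_lit 94) (nat_lit 252) (nat_lit 0) (XT.lf (nat_lit 0) (nat_lit 2248196751) (nat_lit 420) (nat_lit 508469395) (nat_lit 84) (nat_lit 7270689386) (nat_lit 34) (nat_lit 5) (nat_lit 39) (nat_lit 5) (nat_lit 35) (nat_lit 4) (nat_lit 342) (nat_lit 276) (nat_lit 270)) (XT.lf (nat_lit 0) (nat_lit 3433029700) (nat_lit 252) (nat_lit 1129552064) (nat_lit 336) (nat_lit 5657182815) (nat_lit 31) (nat_lit 5) (nat_lit 34) (nat_lit 5) (nat_lit 35) (nat_lit 4) (nat_lit 343) (nat_lit 276) (nat_lit 269))) (XT.nd (nat_lit 94) (nat_lit 252) (nat_lit 0) (XT.lf (nat_lit 0) (nat_lit 6900135406) (nat_lit 336) (nat_lit 2991987648) (nat_lit 0) (nat_lit 527905833) (nat_lit 31) (nat_lit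 5) (nat_lit 35) (nat_lit 4) (nat_lit 31) (nat_lit 4) (nat_lit 344) (nat_lit 276) (nat_lit 268)) (XT.lf (nat_lit 0) (nat_lit 852283509) (nat_lit 252) (nat_lit 8420287187) (nat_lit 252) (nat_lit 1355468868) (nat_lit 28) (nat_lit 4) (nat_lit 31) (nat_lit 5) (nat_lit 31) (nat_lit 4) (nat_lit 345) (nat_lit 276) (nat_lit 267))))) (XT.nd (nat_lit 54614) (nat_lit 0) (nat_lit 1596) (XT.nd (nat_lit 94) (nat_lit 252) (nat_lit 0) (XT.lf (nat_lit 0) (nat_lit 832436357) (nat_lit 336) (nat_lit 6045904138) (nat_lit 84) (nat_lit 3965044636) (nat_lit 27) (nat_lit 5) (nat_lit 31) (nat_lit 5) (nat_lit 28) (nat_lit 4) (nat_lit 346) (nat_lit 276) (nat_lit 266)) (XT.nd (nat_lit 94) (nat_lit 252) (nat_lit 0) (XT.lf (nat_lit 0) (nat_lit 3004224079) (nat_lit 336) (nat_lit 2286568804) (nat_lit 84) (nat_lit 5776253604) (nat_lit 27) (nat_lit 5) (nat_lit 31) (nat_lit 5) (nat_lit 28) (nat_lit 4) (nat_lit 347) (nat_lit 276)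 (nat_lit 265)) (XT.lf (nat_lit 0) (nat_lit 1550438337) (nat_lit 252) (nat_lit 3654170510) (nat_lit 336) (nat_lit 6094563303) (nat_lit 24) (nat_lit 5) (nat_lit 27) (nat_lit 5) (nat_lit 28) (nat_lit 4) (nat_lit 348) (nat_lit 276) (nat_lit 264)))) (XT.nd (nat_lit 188) (nat_lit 84) (nat_lit 0) (XT.nd (nat_lit 94) (nat_lit 420) (nat_lit 0) (XT.lf (nat_lit 0) (nat_lit 1318564549) (nat_lit 420) (nat_lit 1729298587) (nat_lit 0) (nat_lit 1318564549) (nat_lit 49) (nat_lit 5) (nat_lit 54) (nat_lit 4) (nat_lit 49) (nat_lit 4) (nat_lit 334) (nat_lit 277) (nat_lit 277)) (XT.lf (nat_lit 0) (nat_lit 364420597) (nat_lit 420) (nat_lit 4738934997) (nat_lit 420) (nat_lit 3769941754) (nat_lit 44) (nat_lit 4) (nat_lit 49) (nat_lit 5) (nat_lit 49) (nat_lit 4) (nat_lit 335) (nat_lit 277) (nat_lit 276))) (XT.nd (nat_lit 94) (nat_lit 84) (nat_lit 0) (XT.lf (nat_lit 0) (nat_lit 4299426296) (nat_lit 420) (nat_lit 3314509518)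 (nat_lit 420) (nat_lit 1405658619) (nat_lit 44) (nat_lit 4) (nat_lit 49) (nat_lit 5) (nat_lit 49) (nat_lit 4) (nat_lit 336) (nat_lit 277) (nat_lit 275)) (XT.lf (nat_lit 0) (nat_lit 943819366) (nat_lit 504) (nat_lit 903551879) (nat_lit 84) (nat_lit 7325301001) (nat_lit 43) (nat_lit 5) (nat_lit 49) (nat_lit 5) (nat_lit 44) (nat_lit 4) (nat_lit 337) (nat_lit 277) (nat_lit 274))))))))
noncomputable def xc1 : XT := (XT.nd (nat_lit 56682) (nat_lit 0) (nat_lit 0) (XT.nd (nat_lit 55366) (nat_lit 0) (nat_lit 252) (XT.nd (nat_lit 564) (nat_lit 588) (nat_lit 0) (XT.nd (nat_lit 282) (nat_lit 336) (nat_lit 0) (XT.nd (nat_lit 94) (nat_lit 336) (nat_lit 0) (XT.lf (nat_lit 0) (nat_lit 3000535991) (nat_lit 336) (nat_lit 300878721) (nat_lit 420) (nat_lit 6030198148) (nat_lit 39) (nat_lit 5) (nat_lit 43) (nat_lit 5) (nat_lit 44) (nat_lit 4) (nat_lit 338) (nat_lit 277) (nat_lit 273)) (XT.nd (nat_lit 94) (nat_lit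 336) (nat_lit 0) (XT.lf (nat_lit 0) (nat_lit 5690260009) (nat_lit 420) (nat_lit 2541768577) (nat_lit 0) (nat_lit 1265197072) (nat_lit 39) (nat_lit 5) (nat_lit 44) (nat_lit 4) (nat_lit 39) (nat_lit 4) (nat_lit 339) (nat_lit 277) (nat_lit 272)) (XT.lf (nat_lit 0) (nat_lit 1312272355) (nat_lit 336) (nat_lit 6794717141) (nat_lit 336) (nat_lit 1562848877) (nat_lit 35) (nat_lit 4) (nat_lit 39) (nat_lit 5) (nat_lit 39) (nat_lit 4) (nat_lit 340) (nat_lit 277) (nat_lit 271)))) (XT.nd (nat_lit 94) (nat_lit 252) (nat_lit 0) (XT.lf (nat_lit 0) (nat_lit 700331369) (nat_lit 420) (nat_lit 4592041642) (nat_lit 84) (nat_lit 4556703747) (nat_lit 34) (nat_lit 5) (nat_lit 39) (nat_lit 5) (nat_lit 35) (nat_lit 4) (nat_lit 341) (nat_lit 277) (nat_lit 270)) (XT.nd (nat_lit 94) (nat_lit 252) (nat_lit 0) (XT.lf (nat_lit 0) (nat_lit 2940897055) (nat_lit 420) (nat_lit 800469599) (nat_lit 84) (nat_lit 6294275559) (nat_lit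 34) (nat_lit 5) (nat_lit 39) (nat_lit 5) (nat_lit 35) (nat_lit 4) (nat_lit 342) (nat_lit 277) (nat_lit 269)) (XT.lf (nat_lit 0) (nat_lit 3098618155) (nat_lit 252) (nat_lit 2124545065) (nat_lit 336) (nat_lit 5006073130) (nat_lit 31) (nat_lit 5) (nat_lit 34) (nat_lit 5) (nat_lit 35) (nat_lit 4) (nat_lit 343) (nat_lit 277) (nat_lit 268))))) (XT.nd (nat_lit 282) (nat_lit 252) (nat_lit 0) (XT.nd (nat_lit 94) (nat_lit 336) (nat_lit 0) (XT.lf (nat_lit 0) (nat_lit 7063827419) (nat_lit 252) (nat_lit 463259120) (nat_lit 336) (nat_lit 2903640371) (nat_lit 31) (nat_lit 5) (nat_lit 34) (nat_lit 5) (nat_lit 35) (nat_lit 4) (nat_lit 344) (nat_lit 277) (nat_lit 267)) (XT.nd (nat_lit 94) (nat_lit 84) (nat_lit 0) (XT.lf (nat_lit 0) (nat_lit 438416939) (nat_lit 252) (nat_lit 9424900828) (nat_lit 252) (nat_lit 776720334) (nat_lit 28) (nat_lit 4) (nat_lit 31) (nat_lit 5) (nat_lit 31) (nat_lit 4) (nat_lit 345) (nat_lit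 277) (nat_lit 266)) (XT.lf (nat_lit 0) (nat_lit 1372056998) (nat_lit 336) (nat_lit 6513098259) (nat_lit 84) (nat_lit 2971069554) (nat_lit 27) (nat_lit 5) (nat_lit 31) (nat_lit 5) (nat_lit 28) (nat_lit 4) (nat_lit 346) (nat_lit 277) (nat_lit 265)))) (XT.nd (nat_lit 54332) (nat_lit 0) (nat_lit 2100) (XT.nd (nat_lit 94) (nat_lit 252) (nat_lit 0) (XT.lf (nat_lit 0) (nat_lit 3517203207) (nat_lit 336) (nat_lit 2788280633) (nat_lit 84) (nat_lit 4775390807) (nat_lit 27) (nat_lit 5) (nat_lit 31) (nat_lit 5) (nat_lit 28) (nat_lit 4) (nat_lit 347) (nat_lit 277) (nat_lit 264)) (XT.lf (nat_lit 0) (nat_lit 1004242036) (nat_lit 252) (nat_lit 4682087146) (nat_lit 336) (nat_lit 5627797855) (nat_lit 24) (nat_lit 5) (nat_lit 27) (nat_lit 5) (nat_lit 28) (nat_lit 4) (nat_lit 348) (nat_lit 277) (nat_lit 263))) (XT.nd (nat_lit 94) (nat_lit 420) (nat_lit 0) (XT.lf (nat_lit 0) (nat_lit 3010957181) (nat_lit 420) (nat_lit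 611821875) (nat_lit 420) (nat_lit 611821875) (nat_lit 54) (nat_lit 4) (nat_lit 59) (nat_lit 5) (nat_lit 59) (nat_lit 4) (nat_lit 332) (nat_lit 278) (nat_lit 278)) (XT.lf (nat_lit 0) (nat_lit 1180187399) (nat_lit 420) (nat_lit 7237780702) (nat_lit 0) (nat_lit 181155365) (nat_lit 49) (nat_lit 5) (nat_lit 54) (nat_lit 4) (nat_lit 49) (nat_lit 4) (nat_lit 333) (nat_lit 278) (nat_lit 277)))))) (XT.nd (nat_lit 658) (nat_lit 672) (nat_lit 0) (XT.nd (nat_lit 282) (nat_lit 756) (nat_lit 0) (XT.nd (nat_lit 94) (nat_lit 420) (nat_lit 0) (XT.lf (nat_lit 0) (nat_lit 3601942757) (nat_lit 420) (nat_lit 3498312934) (nat_lit 0) (nat_lit 1633917480) (nat_lit 49) (nat_lit 5) (nat_lit 54) (nat_lit 4) (nat_lit 49) (nat_lit 4) (nat_lit 334) (nat_lit 278) (nat_lit 276)) (XT.nd (nat_lit 94) (nat_lit 0) (nat_lit 0) (XT.lf (nat_lit 0) (nat_lit 284574529) (nat_lit 420) (nat_lit 5749613140) (nat_lit 420) (nat_lit 2841730207)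 (nat_lit 44) (nat_lit 4) (nat_lit 49) (nat_lit 5) (nat_lit 49) (nat_lit 4) (nat_lit 335) (nat_lit 278) (nat_lit 275)) (XT.lf (nat_lit 0) (nat_lit 4181448635) (nat_lit 420) (nat_lit 4330749421) (nat_lit 420) (nat_lit 511268374) (nat_lit 44) (nat_lit 4) (nat_lit 49) (nat_lit 5) (nat_lit 49) (nat_lit 4) (nat_lit 336) (nat_lit 278) (nat_lit 274)))) (XT.nd (nat_lit 188) (nat_lit 336) (nat_lit 0) (XT.nd (nat_lit 94) (nat_lit 336) (nat_lit 0) (XT.lf (nat_lit 0) (nat_lit 1788046209) (nat_lit 504) (nat_lit 1072147472) (nat_lit 84) (nat_lit 6317299444) (nat_lit 43) (nat_lit 5) (nat_lit 49) (nat_lit 5) (nat_lit 44) (nat_lit 4) (nat_lit 337) (nat_lit 278) (nat_lit 273)) (XT.lf (nat_lit 0) (nat_lit 2790983689) (nat_lit 336) (nat_lit 1321402135) (nat_lit 420) (nat_lit 5225299485) (nat_lit 39) (nat_lit 5) (nat_lit 43) (nat_lit 5) (nat_lit 44) (nat_lit 4) (nat_lit 338) (nat_lit 278) (nat_lit 272))) (XT.nd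 (nat_lit 94) (nat_lit 336) (nat_lit 0) (XT.lf (nat_lit 0) (nat_lit 6460449993) (nat_lit 420) (nat_lit 2784737851) (nat_lit 0) (nat_lit 259588486) (nat_lit 39) (nat_lit 5) (nat_lit 44) (nat_lit 4) (nat_lit 39) (nat_lit 4) (nat_lit 339) (nat_lit 278) (nat_lit 271)) (XT.lf (nat_lit 0) (nat_lit 1027218224) (nat_lit 336) (nat_lit 7817397877) (nat_lit 336) (nat_lit 833989981) (nat_lit 35) (nat_lit 4) (nat_lit 39) (nat_lit 5) (nat_lit 39) (nat_lit 4) (nat_lit 340) (nat_lit 278) (nat_lit 270))))) (XT.nd (nat_lit 282) (nat_lit 336) (nat_lit 0) (XT.nd (nat_lit 94) (nat_lit 252) (nat_lit 0) (XT.lf (nat_lit 0) (nat_lit 1384811093) (nat_lit 420) (nat_lit 4929873430) (nat_lit 84) (nat_lit 3544051604) (nat_lit 34) (nat_lit 5) (nat_lit 39) (nat_lit 5) (nat_lit 35) (nat_lit 4) (nat_lit 341) (nat_lit 278) (nat_lit 269)) (XT.nd (nat_lit 94) (nat_lit 252) (nat_lit 0) (XT.lf (nat_lit 0) (nat_lit 3596575335) (nat_lit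 420) (nat_lit 1173975081) (nat_lit 84) (nat_lit 5275833417) (nat_lit 34) (nat_lit 5) (nat_lit 39) (nat_lit 5) (nat_lit 35) (nat_lit 4) (nat_lit 342) (nat_lit 278) (nat_lit 268)) (XT.lf (nat_lit 0) (nat_lit 2682120106) (nat_lit 252) (nat_lit 3164654237) (nat_lit 336) (nat_lit 4394381421) (nat_lit 31) (nat_lit 5) (nat_lit 34) (nat_lit 5) (nat_lit 35) (nat_lit 4) (nat_lit 343) (nat_lit 278) (nat_lit 267)))) (XT.nd (nat_lit 188) (nat_lit 336) (nat_lit 0) (XT.nd (nat_lit 94) (nat_lit 0) (nat_lit 0) (XT.lf (nat_lit 0) (nat_lit 6613078614) (nat_lit 252) (nat_lit 1510183791) (nat_lit 336) (nat_lit 2320412599) (nat_lit 31) (nat_lit 5) (nat_lit 34) (nat_lit 5) (nat_lit 35) (nat_lit 4) (nat_lit 344) (nat_lit 278) (nat_lit 266)) (XT.lf (nat_lit 0) (nat_lit 10418082947) (nat_lit 336) (nat_lit 57880542) (nat_lit 0) (nat_lit 178479268) (nat_lit 31) (nat_lit 5) (nat_lit 35) (nat_lit 4) (nat_lit 31) (nat_lit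 4) (nat_lit 345) (nat_lit 278) (nat_lit 265))) (XT.nd (nat_lit 94) (nat_lit 0) (nat_lit 0) (XT.lf (nat_lit 0) (nat_lit 1874296966) (nat_lit 336) (nat_lit 7064880864) (nat_lit 84) (nat_lit 1932292295) (nat_lit 27) (nat_lit 5) (nat_lit 31) (nat_lit 5) (nat_lit 28) (nat_lit 4) (nat_lit 346) (nat_lit 278) (nat_lit 264)) (XT.lf (nat_lit 0) (nat_lit 3993602718) (nat_lit 336) (nat_lit 3373543070) (nat_lit 84) (nat_lit 3729932931) (nat_lit 27) (nat_lit 5) (nat_lit 31) (nat_lit 5) (nat_lit 28) (nat_lit 4) (nat_lit 347) (nat_lit 278) (nat_lit 263))))))) (XT.nd (nat_lit 55178) (nat_lit 0) (nat_lit 252) (XT.nd (nat_lit 54520) (nat_lit 0) (nat_lit 840) (XT.nd (nat_lit 54238) (nat_lit 0) (nat_lit 2100) (XT.nd (nat_lit 54050) (nat_lit 0) (nat_lit 2520) (XT.lf (nat_lit 0) (nat_lit 373804523) (nat_lit 252) (nat_lit 5757606662) (nat_lit 336) (nat_lit 5200043730) (nat_lit 24) (nat_lit 5) (nat_lit 27) (nat_lit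 5) (nat_lit 28) (nat_lit 4) (nat_lit 348) (nat_lit 278) (nat_lit 262)) (XT.nd (nat_lit 94) (nat_lit 420) (nat_lit 0) (XT.lf (nat_lit 0) (nat_lit 1648841935) (nat_lit 504) (nat_lit 814992379) (nat_lit 0) (nat_lit 1648841935) (nat_lit 59) (nat_lit 5) (nat_lit 65) (nat_lit 4) (nat_lit 59) (nat_lit 4) (nat_lit 330) (nat_lit 279) (nat_lit 279)) (XT.lf (nat_lit 0) (nat_lit 2139769589) (nat_lit 420) (nat_lit 3633580557) (nat_lit 420) (nat_lit 2571648467) (nat_lit 54) (nat_lit 4) (nat_lit 59) (nat_lit 5) (nat_lit 59) (nat_lit 4) (nat_lit 331) (nat_lit 279) (nat_lit 278)))) (XT.nd (nat_lit 94) (nat_lit 420) (nat_lit 0) (XT.lf (nat_lit 0) (nat_lit 5984061037) (nat_lit 420) (nat_lit 2289204560) (nat_lit 420) (nat_lit 197270443) (nat_lit 54) (nat_lit 4) (nat_lit 59) (nat_lit 5) (nat_lit 59) (nat_lit 4) (nat_lit 332) (nat_lit 279) (nat_lit 277)) (XT.nd (nat_lit 94) (nat_lit 0) (nat_lit 0) (XT.lf (nat_lit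 0) (nat_lit 1274407684) (nat_lit 336) (nat_lit 874963972) (nat_lit 420) (nat_lit 6452159186) (nat_lit 49) (nat_lit 5) (nat_lit 53) (nat_lit 5) (nat_lit 54) (nat_lit 4) (nat_lit 333) (nat_lit 279) (nat_lit 276)) (XT.lf (nat_lit 0) (nat_lit 4529257762) (nat_lit 420) (nat_lit 3617497229) (nat_lit 0) (nat_lit 591372803) (nat_lit 49) (nat_lit 5) (nat_lit 54) (nat_lit 4) (nat_lit 49) (nat_lit 4) (nat_lit 334) (nat_lit 279) (nat_lit 275))))) (XT.nd (nat_lit 282) (nat_lit 756) (nat_lit 0) (XT.nd (nat_lit 94) (nat_lit 84) (nat_lit 0) (XT.lf (nat_lit 0) (nat_lit 124807968) (nat_lit 420) (nat_lit 6802918240) (nat_lit 420) (nat_lit 1953435167) (nat_lit 44) (nat_lit 4) (nat_lit 49) (nat_lit 5) (nat_lit 49) (nat_lit 4) (nat_lit 335) (nat_lit 279) (nat_lit 274)) (XT.nd (nat_lit 94) (nat_lit 0) (nat_lit 0) (XT.lf (nat_lit 0) (nat_lit 337286987) (nat_lit 504) (nat_lit 5048641480) (nat_lit 84) (nat_lit 3643889446)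 (nat_lit 43) (nat_lit 5) (nat_lit 49) (nat_lit 5) (nat_lit 44) (nat_lit 4) (nat_lit 336) (nat_lit 279) (nat_lit 273)) (XT.lf (nat_lit 0) (nat_lit 2595123707) (nat_lit 504) (nat_lit 1320577699) (nat_lit 84) (nat_lit 5269173102) (nat_lit 43) (nat_lit 5) (nat_lit 49) (nat_lit 5) (nat_lit 44) (nat_lit 4) (nat_lit 337) (nat_lit 279) (nat_lit 272)))) (XT.nd (nat_lit 188) (nat_lit 420) (nat_lit 0) (XT.nd (nat_lit 94) (nat_lit 0) (nat_lit 0) (XT.lf (nat_lit 0) (nat_lit 2501082436) (nat_lit 336) (nat_lit 2385265509) (nat_lit 420) (nat_lit 4459959332) (nat_lit 39) (nat_lit 5) (nat_lit 43) (nat_lit 5) (nat_lit 44) (nat_lit 4) (nat_lit 338) (nat_lit 279) (nat_lit 271)) (XT.lf (nat_lit 0) (nat_lit 6397577358) (nat_lit 336) (nat_lit 804526494) (nat_lit 420) (nat_lit 2312503573) (nat_lit 39) (nat_lit 5) (nat_lit 43) (nat_lit 5) (nat_lit 44) (nat_lit 4) (nat_lit 339) (nat_lit 279) (nat_lit 270))) (XT.nd (nat_lit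 94) (nat_lit 84) (nat_lit 0) (XT.lf (nat_lit 0) (nat_lit 660264782) (nat_lit 336) (nat_lit 8885542434) (nat_lit 336) (nat_lit 144085639) (nat_lit 35) (nat_lit 4) (nat_lit 39) (nat_lit 5) (nat_lit 39) (nat_lit 4) (nat_lit 340) (nat_lit 279) (nat_lit 269)) (XT.lf (nat_lit 0) (nat_lit 2032013957) (nat_lit 420) (nat_lit 5350631275) (nat_lit 84) (nat_lit 2488247758) (nat_lit 34) (nat_lit 5) (nat_lit 39) (nat_lit 5) (nat_lit 35) (nat_lit 4) (nat_lit 341) (nat_lit 279) (nat_lit 268)))))) (XT.nd (nat_lit 54426) (nat_lit 0) (nat_lit 1848) (XT.nd (nat_lit 282) (nat_lit 336) (nat_lit 0) (XT.nd (nat_lit 94) (nat_lit 252) (nat_lit 0) (XT.lf (nat_lit 0) (nat_lit 4215842754) (nat_lit 420) (nat_lit 1629333986) (nat_lit 84) (nat_lit 4214413666) (nat_lit 34) (nat_lit 5) (nat_lit 39) (nat_lit 5) (nat_lit 35) (nat_lit 4) (nat_lit 342) (nat_lit 279) (nat_lit 267)) (XT.nd (nat_lit 94) (nat_lit 0) (nat_lit 0) (XT.lf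 (nat_lit 0) (nat_lit 2183147332) (nat_lit 252) (nat_lit 4250849072) (nat_lit 336) (nat_lit 3821537526) (nat_lit 31) (nat_lit 5) (nat_lit 34) (nat_lit 5) (nat_lit 35) (nat_lit 4) (nat_lit 343) (nat_lit 279) (nat_lit 266)) (XT.lf (nat_lit 0) (nat_lit 6080884933) (nat_lit 252) (nat_lit 2602989197) (nat_lit 336) (nat_lit 1775176791) (nat_lit 31) (nat_lit 5) (nat_lit 34) (nat_lit 5) (nat_lit 35) (nat_lit 4) (nat_lit 344) (nat_lit 279) (nat_lit 265)))) (XT.nd (nat_lit 188) (nat_lit 0) (nat_lit 0) (XT.nd (nat_lit 94) (nat_lit 252) (nat_lit 0) (XT.lf (nat_lit 0) (nat_lit 274588957) (nat_lit 336) (nat_lit 639612939) (nat_lit 84) (nat_lit 9756554364) (nat_lit 30) (nat_lit 5) (nat_lit 34) (nat_lit 5) (nat_lit 31) (nat_lit 5) (nat_lit 345) (nat_lit 279) (nat_lit 264)) (XT.lf (nat_lit 0) (nat_lit 2339624403) (nat_lit 336) (nat_lit 7701766270) (nat_lit 84) (nat_lit 847744608) (nat_lit 27) (nat_lit 5) (nat_lit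 31) (nat_lit 5) (nat_lit 28) (nat_lit 4) (nat_lit 346) (nat_lit 279) (nat_lit 263))) (XT.nd (nat_lit 94) (nat_lit 0) (nat_lit 0) (XT.lf (nat_lit 0) (nat_lit 4433866664) (nat_lit 336) (nat_lit 4042901642) (nat_lit 84) (nat_lit 2638905500) (nat_lit 27) (nat_lit 5) (nat_lit 31) (nat_lit 5) (nat_lit 28) (nat_lit 4) (nat_lit 347) (nat_lit 279) (nat_lit 262)) (XT.lf (nat_lit 0) (nat_lit 6543657061) (nat_lit 336) (nat_lit 334582141) (nat_lit 84) (nat_lit 4472827724) (nat_lit 27) (nat_lit 5) (nat_lit 31) (nat_lit 5) (nat_lit 28) (nat_lit 4) (nat_lit 348) (nat_lit 279) (nat_lit 261))))) (XT.nd (nat_lit 282) (nat_lit 840) (nat_lit 0) (XT.nd (nat_lit 94) (nat_lit 504) (nat_lit 0) (XT.lf (nat_lit 0) (nat_lit 3538025975) (nat_lit 504) (nat_lit 231378054) (nat_lit 504) (nat_lit 231378054) (nat_lit 65) (nat_lit 4) (nat_lit 71) (nat_lit 5) (nat_lit 71) (nat_lit 4) (nat_lit 328) (nat_lit 280) (nat_lit 280))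 (XT.nd (nat_lit 94) (nat_lit 0) (nat_lit 0) (XT.lf (nat_lit 0) (nat_lit 1943148671) (nat_lit 504) (nat_lit 5319906357) (nat_lit 0) (nat_lit 848296687) (nat_lit 59) (nat_lit 5) (nat_lit 65) (nat_lit 4) (nat_lit 59) (nat_lit 4) (nat_lit 329) (nat_lit 280) (nat_lit 279)) (XT.lf (nat_lit 0) (nat_lit 4357637436) (nat_lit 504) (nat_lit 1668225235) (nat_lit 0) (nat_lit 2200853362) (nat_lit 59) (nat_lit 5) (nat_lit 65) (nat_lit 4) (nat_lit 59) (nat_lit 4) (nat_lit 330) (nat_lit 280) (nat_lit 278)))) (XT.nd (nat_lit 188) (nat_lit 336) (nat_lit 0) (XT.nd (nat_lit 94) (nat_lit 84) (nat_lit 0) (XT.lf (nat_lit 0) (nat_lit 2062889483) (nat_lit 420) (nat_lit 4735802470) (nat_lit 420) (nat_lit 1549016369) (nat_lit 54) (nat_lit 4) (nat_lit 59) (nat_lit 5) (nat_lit 59) (nat_lit 4) (nat_lit 331) (nat_lit 280) (nat_lit 277)) (XT.lf (nat_lit 0) (nat_lit 774937740) (nat_lit 504) (nat_lit 2611919582) (nat_lit 84)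 (nat_lit 5087439272) (nat_lit 53) (nat_lit 5) (nat_lit 59) (nat_lit 5) (nat_lit 54) (nat_lit 4) (nat_lit 332) (nat_lit 280) (nat_lit 276))) (XT.nd (nat_lit 94) (nat_lit 0) (nat_lit 0) (XT.lf (nat_lit 0) (nat_lit 1107100793) (nat_lit 336) (nat_lit 1976066203) (nat_lit 420) (nat_lit 5523380622) (nat_lit 49) (nat_lit 5) (nat_lit 53) (nat_lit 5) (nat_lit 54) (nat_lit 4) (nat_lit 333) (nat_lit 280) (nat_lit 275)) (XT.lf (nat_lit 0) (nat_lit 4923331768) (nat_lit 336) (nat_lit 501582461) (nat_lit 420) (nat_lit 3319654451) (nat_lit 49) (nat_lit 5) (nat_lit 53) (nat_lit 5) (nat_lit 54) (nat_lit 4) (nat_lit 334) (nat_lit 280) (nat_lit 274))))))))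
noncomputable def xc2 : XT := (XT.nd (nat_lit 56024) (nat_lit 0) (nat_lit 0) (XT.nd (nat_lit 1222) (nat_lit 0) (nat_lit 0) (XT.nd (nat_lit 564) (nat_lit 588) (nat_lit 0) (XT.nd (nat_lit 282) (nat_lit 756) (nat_lit 0) (XT.nd (nat_lit 94) (nat_lit 504) (nat_lit 0) (XT.lf (nat_lit 0) (nat_lit 7785945176) (nat_lit 420) (nat_lit 112710447) (nat_lit 0) (nat_lit 990341735) (nat_lit 49) (nat_lit 5) (nat_lit 54) (nat_lit 4) (nat_lit 49) (nat_lit 4) (nat_lit 335) (nat_lit 280) (nat_lit 273)) (XT.nd (nat_lit 94) (nat_lit 0) (nat_lit 0) (XT.lf (nat_lit 0) (nat_lit 1138206940) (nat_lit 504) (nat_lit 5341507741) (nat_lit 84) (nat_lit 2558900564) (nat_lit 43) (nat_lit 5) (nat_lit 49) (nat_lit 5) (nat_lit 44) (nat_lit 4) (nat_lit 336) (nat_lit 280) (nat_lit 272)) (XT.lf (nat_lit 0) (nat_lit 3365804139) (nat_lit 504) (nat_lit 1649074122) (nat_lit 84) (nat_lit 4179945012) (nat_lit 43) (nat_lit 5) (nat_lit 49)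 (nat_lit 5) (nat_lit 44) (nat_lit 4) (nat_lit 337) (nat_lit 280) (nat_lit 271)))) (XT.nd (nat_lit 94) (nat_lit 420) (nat_lit 0) (XT.lf (nat_lit 0) (nat_lit 2130562013) (nat_lit 336) (nat_lit 3493460473) (nat_lit 420) (nat_lit 3733464312) (nat_lit 39) (nat_lit 5) (nat_lit 43) (nat_lit 5) (nat_lit 44) (nat_lit 4) (nat_lit 338) (nat_lit 280) (nat_lit 270)) (XT.nd (nat_lit 94) (nat_lit 420) (nat_lit 0) (XT.lf (nat_lit 0) (nat_lit 5992847975) (nat_lit 336) (nat_lit 1918142680) (nat_lit 420) (nat_lit 1615890044) (nat_lit 39) (nat_lit 5) (nat_lit 43) (nat_lit 5) (nat_lit 44) (nat_lit 4) (nat_lit 339) (nat_lit 280) (nat_lit 269)) (XT.lf (nat_lit 0) (nat_lit 202837739) (nat_lit 336) (nat_lit 297394525) (nat_lit 420) (nat_lit 9203229422) (nat_lit 34) (nat_lit 5) (nat_lit 38) (nat_lit 5) (nat_lit 39) (nat_lit 5) (nat_lit 340) (nat_lit 280) (nat_lit 268))))) (XT.nd (nat_lit 282) (nat_lit 336) (nat_lit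 0) (XT.nd (nat_lit 94) (nat_lit 252) (nat_lit 0) (XT.lf (nat_lit 0) (nat_lit 2642543220) (nat_lit 420) (nat_lit 5854707366) (nat_lit 84) (nat_lit 1388308090) (nat_lit 34) (nat_lit 5) (nat_lit 39) (nat_lit 5) (nat_lit 35) (nat_lit 4) (nat_lit 341) (nat_lit 280) (nat_lit 267)) (XT.nd (nat_lit 94) (nat_lit 252) (nat_lit 0) (XT.lf (nat_lit 0) (nat_lit 4799276531) (nat_lit 420) (nat_lit 2166970756) (nat_lit 84) (nat_lit 3109026953) (nat_lit 34) (nat_lit 5) (nat_lit 39) (nat_lit 5) (nat_lit 35) (nat_lit 4) (nat_lit 342) (nat_lit 280) (nat_lit 266)) (XT.lf (nat_lit 0) (nat_lit 1601234739) (nat_lit 252) (nat_lit 5384142017) (nat_lit 336) (nat_lit 3287007495) (nat_lit 31) (nat_lit 5) (nat_lit 34) (nat_lit 5) (nat_lit 35) (nat_lit 4) (nat_lit 343) (nat_lit 280) (nat_lit 265)))) (XT.nd (nat_lit 188) (nat_lit 252) (nat_lit 0) (XT.nd (nat_lit 94) (nat_lit 84) (nat_lit 0) (XT.lf (nat_lit 0) (nat_lit 5466750316)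 (nat_lit 252) (nat_lit 3742693947) (nat_lit 336) (nat_lit 1267424729) (nat_lit 31) (nat_lit 5) (nat_lit 34) (nat_lit 5) (nat_lit 35) (nat_lit 4) (nat_lit 344) (nat_lit 280) (nat_lit 264)) (XT.lf (nat_lit 0) (nat_lit 746661428) (nat_lit 336) (nat_lit 1308536765) (nat_lit 84) (nat_lit 8634166631) (nat_lit 30) (nat_lit 5) (nat_lit 34) (nat_lit 5) (nat_lit 31) (nat_lit 5) (nat_lit 345) (nat_lit 280) (nat_lit 263))) (XT.nd (nat_lit 94) (nat_lit 0) (nat_lit 0) (XT.lf (nat_lit 0) (nat_lit 2481928585) (nat_lit 252) (nat_lit 289415494) (nat_lit 336) (nat_lit 8137803665) (nat_lit 27) (nat_lit 5) (nat_lit 30) (nat_lit 5) (nat_lit 31) (nat_lit 5) (nat_lit 346) (nat_lit 280) (nat_lit 262)) (XT.lf (nat_lit 0) (nat_lit 4838405419) (nat_lit 336) (nat_lit 4796980259) (nat_lit 84) (nat_lit 1501291562) (nat_lit 27) (nat_lit 5) (nat_lit 31) (nat_lit 5) (nat_lit 28) (nat_lit 4) (nat_lit 347) (nat_lit 280) (nat_lit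 261)))))) (XT.nd (nat_lit 54144) (nat_lit 0) (nat_lit 1344) (XT.nd (nat_lit 53862) (nat_lit 0) (nat_lit 2688) (XT.nd (nat_lit 53674) (nat_lit 0) (nat_lit 3192) (XT.lf (nat_lit 0) (nat_lit 6924616879) (nat_lit 336) (nat_lit 1119210482) (nat_lit 84) (nat_lit 3329117848) (nat_lit 27) (nat_lit 5) (nat_lit 31) (nat_lit 5) (nat_lit 28) (nat_lit 4) (nat_lit 348) (nat_lit 280) (nat_lit 260)) (XT.nd (nat_lit 94) (nat_lit 504) (nat_lit 0) (XT.lf (nat_lit 0) (nat_lit 1860118758) (nat_lit 756) (nat_lit 177327823) (nat_lit 0) (nat_lit 1860118758) (nat_lit 71) (nat_lit 5) (nat_lit 80) (nat_lit 4) (nat_lit 71) (nat_lit 4) (nat_lit 326) (nat_lit 281) (nat_lit 281)) (XT.lf (nat_lit 0) (nat_lit 3318690409) (nat_lit 504) (nat_lit 2870610670) (nat_lit 504) (nat_lit 1706825710) (nat_lit 65) (nat_lit 4) (nat_lit 71) (nat_lit 5) (nat_lit 71) (nat_lit 4) (nat_lit 327) (nat_lit 281) (nat_lit 280)))) (XT.nd (nat_lit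 94) (nat_lit 420) (nat_lit 0) (XT.lf (nat_lit 0) (nat_lit 651322438) (nat_lit 588) (nat_lit 969741483) (nat_lit 84) (nat_lit 6381678127) (nat_lit 64) (nat_lit 5) (nat_lit 71) (nat_lit 5) (nat_lit 65) (nat_lit 4) (nat_lit 328) (nat_lit 281) (nat_lit 279)) (XT.nd (nat_lit 94) (nat_lit 0) (nat_lit 0) (XT.lf (nat_lit 0) (nat_lit 2713578539) (nat_lit 420) (nat_lit 290364286) (nat_lit 504) (nat_lit 5110088930) (nat_lit 59) (nat_lit 5) (nat_lit 64) (nat_lit 5) (nat_lit 65) (nat_lit 4) (nat_lit 329) (nat_lit 281) (nat_lit 278)) (XT.lf (nat_lit 0) (nat_lit 5381702043) (nat_lit 504) (nat_lit 1782982311) (nat_lit 0) (nat_lit 1066123546) (nat_lit 59) (nat_lit 5) (nat_lit 65) (nat_lit 4) (nat_lit 59) (nat_lit 4) (nat_lit 330) (nat_lit 281) (nat_lit 277))))) (XT.nd (nat_lit 282) (nat_lit 504) (nat_lit 0) (XT.nd (nat_lit 94) (nat_lit 420) (nat_lit 0) (XT.lf (nat_lit 0) (nat_lit 1909057610) (nat_lit 420) (nat_lit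 5879341592) (nat_lit 420) (nat_lit 564731062) (nat_lit 54) (nat_lit 4) (nat_lit 59) (nat_lit 5) (nat_lit 59) (nat_lit 4) (nat_lit 331) (nat_lit 281) (nat_lit 276)) (XT.nd (nat_lit 94) (nat_lit 336) (nat_lit 0) (XT.lf (nat_lit 0) (nat_lit 1706613313) (nat_lit 504) (nat_lit 2817472134) (nat_lit 84) (nat_lit 3956595835) (nat_lit 53) (nat_lit 5) (nat_lit 59) (nat_lit 5) (nat_lit 54) (nat_lit 4) (nat_lit 332) (nat_lit 281) (nat_lit 275)) (XT.lf (nat_lit 0) (nat_lit 861157033) (nat_lit 336) (nat_lit 3119452746) (nat_lit 420) (nat_lit 4633625548) (nat_lit 49) (nat_lit 5) (nat_lit 53) (nat_lit 5) (nat_lit 54) (nat_lit 4) (nat_lit 333) (nat_lit 281) (nat_lit 274)))) (XT.nd (nat_lit 188) (nat_lit 504) (nat_lit 0) (XT.nd (nat_lit 94) (nat_lit 0) (nat_lit 0) (XT.lf (nat_lit 0) (nat_lit 4642310778) (nat_lit 336) (nat_lit 1648861216) (nat_lit 420) (nat_lit 2462285664) (nat_lit 49) (nat_lit 5) (nat_lit 53)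 (nat_lit 5) (nat_lit 54) (nat_lit 4) (nat_lit 334) (nat_lit 281) (nat_lit 273)) (XT.lf (nat_lit 0) (nat_lit 8471580524) (nat_lit 336) (nat_lit 140348744) (nat_lit 420) (nat_lit 287433032) (nat_lit 49) (nat_lit 5) (nat_lit 53) (nat_lit 5) (nat_lit 54) (nat_lit 4) (nat_lit 335) (nat_lit 281) (nat_lit 272))) (XT.nd (nat_lit 94) (nat_lit 0) (nat_lit 0) (XT.lf (nat_lit 0) (nat_lit 1902538945) (nat_lit 504) (nat_lit 5715817715) (nat_lit 84) (nat_lit 1431667195) (nat_lit 43) (nat_lit 5) (nat_lit 49) (nat_lit 5) (nat_lit 44) (nat_lit 4) (nat_lit 336) (nat_lit 281) (nat_lit 271)) (XT.lf (nat_lit 0) (nat_lit 4100805862) (nat_lit 504) (nat_lit 2057942935) (nat_lit 84) (nat_lit 3048599899) (nat_lit 43) (nat_lit 5) (nat_lit 49) (nat_lit 5) (nat_lit 44) (nat_lit 4) (nat_lit 337) (nat_lit 281) (nat_lit 270))))))) (XT.nd (nat_lit 54614) (nat_lit 0) (nat_lit 1008) (XT.nd (nat_lit 564) (nat_lit 336) (nat_lit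 0) (XT.nd (nat_lit 282) (nat_lit 588) (nat_lit 0) (XT.nd (nat_lit 94) (nat_lit 84) (nat_lit 0) (XT.lf (nat_lit 0) (nat_lit 1679077058) (nat_lit 336) (nat_lit 4647019981) (nat_lit 420) (nat_lit 3045137255) (nat_lit 39) (nat_lit 5) (nat_lit 43) (nat_lit 5) (nat_lit 44) (nat_lit 4) (nat_lit 338) (nat_lit 281) (nat_lit 269)) (XT.nd (nat_lit 94) (nat_lit 84) (nat_lit 0) (XT.lf (nat_lit 0) (nat_lit 5508182650) (nat_lit 336) (nat_lit 3076960405) (nat_lit 420) (nat_lit 956546005) (nat_lit 39) (nat_lit 5) (nat_lit 43) (nat_lit 5) (nat_lit 44) (nat_lit 4) (nat_lit 339) (nat_lit 281) (nat_lit 268)) (XT.lf (nat_lit 0) (nat_lit 1116734640) (nat_lit 420) (nat_lit 340196252) (nat_lit 84) (nat_lit 8262236380) (nat_lit 38) (nat_lit 5) (nat_lit 43) (nat_lit 5) (nat_lit 39) (nat_lit 5) (nat_lit 340) (nat_lit 281) (nat_lit 267)))) (XT.nd (nat_lit 94) (nat_lit 252) (nat_lit 0) (XT.lf (nat_lit 0) (nat_lit 3216967959)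 (nat_lit 420) (nat_lit 6442571556) (nat_lit 84) (nat_lit 243207342) (nat_lit 34) (nat_lit 5) (nat_lit 39) (nat_lit 5) (nat_lit 35) (nat_lit 4) (nat_lit 341) (nat_lit 281) (nat_lit 266)) (XT.nd (nat_lit 94) (nat_lit 252) (nat_lit 0) (XT.lf (nat_lit 0) (nat_lit 5347420490) (nat_lit 420) (nat_lit 2787386526) (nat_lit 84) (nat_lit 1958642939) (nat_lit 34) (nat_lit 5) (nat_lit 39) (nat_lit 5) (nat_lit 35) (nat_lit 4) (nat_lit 342) (nat_lit 281) (nat_lit 265)) (XT.lf (nat_lit 0) (nat_lit 935839924) (nat_lit 252) (nat_lit 6565589418) (nat_lit 336) (nat_lit 2790293089) (nat_lit 31) (nat_lit 5) (nat_lit 34) (nat_lit 5) (nat_lit 35) (nat_lit 4) (nat_lit 343) (nat_lit 281) (nat_lit 264))))) (XT.nd (nat_lit 282) (nat_lit 0) (nat_lit 0) (XT.nd (nat_lit 94) (nat_lit 336) (nat_lit 0) (XT.lf (nat_lit 0) (nat_lit 4770102324) (nat_lit 252) (nat_lit 4930360364) (nat_lit 336) (nat_lit 796683137) (nat_lit 31) (nat_lit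 5) (nat_lit 34) (nat_lit 5) (nat_lit 35) (nat_lit 4) (nat_lit 344) (nat_lit 281) (nat_lit 263)) (XT.nd (nat_lit 94) (nat_lit 252) (nat_lit 0) (XT.lf (nat_lit 0) (nat_lit 1183234322) (nat_lit 336) (nat_lit 2061105386) (nat_lit 84) (nat_lit 7466075361) (nat_lit 30) (nat_lit 5) (nat_lit 34) (nat_lit 5) (nat_lit 31) (nat_lit 5) (nat_lit 345) (nat_lit 281) (nat_lit 262)) (XT.lf (nat_lit 0) (nat_lit 1683225213) (nat_lit 252) (nat_lit 1492826424) (nat_lit 336) (nat_lit 7755282540) (nat_lit 27) (nat_lit 5) (nat_lit 30) (nat_lit 5) (nat_lit 31) (nat_lit 5) (nat_lit 346) (nat_lit 281) (nat_lit 261)))) (XT.nd (nat_lit 53580) (nat_lit 0) (nat_lit 3696) (XT.nd (nat_lit 94) (nat_lit 0) (nat_lit 0) (XT.lf (nat_lit 0) (nat_lit 5207596055) (nat_lit 336) (nat_lit 5636481803) (nat_lit 84) (nat_lit 316030742) (nat_lit 27) (nat_lit 5) (nat_lit 31) (nat_lit 5) (nat_lit 28) (nat_lit 4) (nat_lit 347) (nat_lit 281)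 (nat_lit 260)) (XT.lf (nat_lit 0) (nat_lit 7270937547) (nat_lit 336) (nat_lit 1988343184) (nat_lit 84) (nat_lit 2137944381) (nat_lit 27) (nat_lit 5) (nat_lit 31) (nat_lit 5) (nat_lit 28) (nat_lit 4) (nat_lit 348) (nat_lit 281) (nat_lit 259))) (XT.nd (nat_lit 94) (nat_lit 0) (nat_lit 0) (XT.lf (nat_lit 0) (nat_lit 45699537) (nat_lit 756) (nat_lit 3712154361) (nat_lit 0) (nat_lit 45699537) (nat_lit 71) (nat_lit 5) (nat_lit 80) (nat_lit 4) (nat_lit 71) (nat_lit 4) (nat_lit 324) (nat_lit 282) (nat_lit 282)) (XT.lf (nat_lit 0) (nat_lit 2486992073) (nat_lit 756) (nat_lit 3924844365) (nat_lit 0) (nat_lit 1287129780) (nat_lit 71) (nat_lit 5) (nat_lit 80) (nat_lit 4) (nat_lit 71) (nat_lit 4) (nat_lit 325) (nat_lit 282) (nat_lit 281)))))) (XT.nd (nat_lit 658) (nat_lit 1176) (nat_lit 0) (XT.nd (nat_lit 282) (nat_lit 924) (nat_lit 0) (XT.nd (nat_lit 94) (nat_lit 588) (nat_lit 0) (XT.lf (nat_lit 0) (nat_lit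 4884456121) (nat_lit 756) (nat_lit 391279343) (nat_lit 0) (nat_lit 2520808867) (nat_lit 71) (nat_lit 5) (nat_lit 80) (nat_lit 4) (nat_lit 71) (nat_lit 4) (nat_lit 326) (nat_lit 282) (nat_lit 280)) (XT.nd (nat_lit 94) (nat_lit 84) (nat_lit 0) (XT.lf (nat_lit 0) (nat_lit 3245060738) (nat_lit 504) (nat_lit 4073156572) (nat_lit 504) (nat_lit 580716922) (nat_lit 65) (nat_lit 4) (nat_lit 71) (nat_lit 5) (nat_lit 71) (nat_lit 4) (nat_lit 327) (nat_lit 282) (nat_lit 279)) (XT.lf (nat_lit 0) (nat_lit 1720230283) (nat_lit 588) (nat_lit 1093503927) (nat_lit 84) (nat_lit 5192820538) (nat_lit 64) (nat_lit 5) (nat_lit 71) (nat_lit 5) (nat_lit 65) (nat_lit 4) (nat_lit 328) (nat_lit 282) (nat_lit 278)))) (XT.nd (nat_lit 188) (nat_lit 504) (nat_lit 0) (XT.nd (nat_lit 94) (nat_lit 0) (nat_lit 0) (XT.lf (nat_lit 0) (nat_lit 2551483122) (nat_lit 420) (nat_lit 1486284896) (nat_lit 504) (nat_lit 4081437212) (nat_lit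 59) (nat_lit 5) (nat_lit 64) (nat_lit 5) (nat_lit 65) (nat_lit 4) (nat_lit 329) (nat_lit 282) (nat_lit 277)) (XT.lf (nat_lit 0) (nat_lit 6262146227) (nat_lit 420) (nat_lit 109774982) (nat_lit 504) (nat_lit 1865676949) (nat_lit 59) (nat_lit 5) (nat_lit 64) (nat_lit 5) (nat_lit 65) (nat_lit 4) (nat_lit 330) (nat_lit 282) (nat_lit 276))) (XT.nd (nat_lit 94) (nat_lit 0) (nat_lit 0) (XT.lf (nat_lit 0) (nat_lit 374425945) (nat_lit 504) (nat_lit 6686929638) (nat_lit 84) (nat_lit 1299796398) (nat_lit 53) (nat_lit 5) (nat_lit 59) (nat_lit 5) (nat_lit 54) (nat_lit 4) (nat_lit 331) (nat_lit 282) (nat_lit 275)) (XT.lf (nat_lit 0) (nat_lit 2602599252) (nat_lit 504) (nat_lit 3101367308) (nat_lit 84) (nat_lit 2785790158) (nat_lit 53) (nat_lit 5) (nat_lit 59) (nat_lit 5) (nat_lit 54) (nat_lit 4) (nat_lit 332) (nat_lit 282) (nat_lit 274))))) (XT.nd (nat_lit 282) (nat_lit 756) (nat_lit 0) (XT.nd (nat_lit 94)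 (nat_lit 84) (nat_lit 0) (XT.lf (nat_lit 0) (nat_lit 536347161) (nat_lit 336) (nat_lit 4306189355) (nat_lit 420) (nat_lit 3782064617) (nat_lit 49) (nat_lit 5) (nat_lit 53) (nat_lit 5) (nat_lit 54) (nat_lit 4) (nat_lit 333) (nat_lit 282) (nat_lit 273)) (XT.nd (nat_lit 94) (nat_lit 84) (nat_lit 0) (XT.lf (nat_lit 0) (nat_lit 4283478372) (nat_lit 336) (nat_lit 2839373007) (nat_lit 420) (nat_lit 1642137233) (nat_lit 49) (nat_lit 5) (nat_lit 53) (nat_lit 5) (nat_lit 54) (nat_lit 4) (nat_lit 334) (nat_lit 282) (nat_lit 272)) (XT.lf (nat_lit 0) (nat_lit 492128238) (nat_lit 420) (nat_lit 837257157) (nat_lit 84) (nat_lit 7582483523) (nat_lit 48) (nat_lit 5) (nat_lit 53) (nat_lit 5) (nat_lit 49) (nat_lit 5) (nat_lit 335) (nat_lit 282) (nat_lit 271)))) (XT.nd (nat_lit 188) (nat_lit 336) (nat_lit 0) (XT.nd (nat_lit 94) (nat_lit 0) (nat_lit 0) (XT.lf (nat_lit 0) (nat_lit 2630995439) (nat_lit 504) (nat_lit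 6171920300) (nat_lit 84) (nat_lit 261138639) (nat_lit 43) (nat_lit 5) (nat_lit 49) (nat_lit 5) (nat_lit 44) (nat_lit 4) (nat_lit 336) (nat_lit 282) (nat_lit 270)) (XT.lf (nat_lit 0) (nat_lit 4800813973) (nat_lit 504) (nat_lit 2547565247) (nat_lit 84) (nat_lit 1874083230) (nat_lit 43) (nat_lit 5) (nat_lit 49) (nat_lit 5) (nat_lit 44) (nat_lit 4) (nat_lit 337) (nat_lit 282) (nat_lit 269))) (XT.nd (nat_lit 94) (nat_lit 0) (nat_lit 0) (XT.lf (nat_lit 0) (nat_lit 1146206738) (nat_lit 336) (nat_lit 5847019273) (nat_lit 420) (nat_lit 2394336568) (nat_lit 39) (nat_lit 5) (nat_lit 43) (nat_lit 5) (nat_lit 44) (nat_lit 4) (nat_lit 338) (nat_lit 282) (nat_lit 268)) (XT.lf (nat_lit 0) (nat_lit 4943129624) (nat_lit 336) (nat_lit 4282059810) (nat_lit 420) (nat_lit 333856878) (nat_lit 39) (nat_lit 5) (nat_lit 43) (nat_lit 5) (nat_lit 44) (nat_lit 4) (nat_lit 339) (nat_lit 282) (nat_lit 267))))))))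
noncomputable def xc3 : XT := (XT.nd (nat_lit 55742) (nat_lit 0) (nat_lit 0) (XT.nd (nat_lit 54426) (nat_lit 0) (nat_lit 924) (XT.nd (nat_lit 564) (nat_lit 252) (nat_lit 0) (XT.nd (nat_lit 282) (nat_lit 336) (nat_lit 0) (XT.nd (nat_lit 94) (nat_lit 336) (nat_lit 0) (XT.lf (nat_lit 0) (nat_lit 1700161020) (nat_lit 420) (nat_lit 960726266) (nat_lit 84) (nat_lit 7076452159) (nat_lit 38) (nat_lit 5) (nat_lit 43) (nat_lit 5) (nat_lit 39) (nat_lit 5) (nat_lit 340) (nat_lit 282) (nat_lit 266)) (XT.nd (nat_lit 94) (nat_lit 0) (nat_lit 0) (XT.lf (nat_lit 0) (nat_lit 2797805312) (nat_lit 336) (nat_lit 967617170) (nat_lit 420) (nat_lit 6156753507) (nat_lit 34) (nat_lit 5) (nat_lit 38) (nat_lit 5) (nat_lit 39) (nat_lit 5) (nat_lit 341) (nat_lit 282) (nat_lit 265)) (XT.lf (nat_lit 0) (nat_lit 5860785557) (nat_lit 420) (nat_lit 3491159588) (nat_lit 84) (nat_lit 762189348) (nat_lit 34) (nat_lit 5) (nat_lit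 39) (nat_lit 5) (nat_lit 35) (nat_lit 4) (nat_lit 342) (nat_lit 282) (nat_lit 264)))) (XT.nd (nat_lit 94) (nat_lit 84) (nat_lit 0) (XT.lf (nat_lit 0) (nat_lit 186342669) (nat_lit 252) (nat_lit 7796292510) (nat_lit 336) (nat_lit 2330931319) (nat_lit 31) (nat_lit 5) (nat_lit 34) (nat_lit 5) (nat_lit 35) (nat_lit 4) (nat_lit 343) (nat_lit 282) (nat_lit 263)) (XT.nd (nat_lit 94) (nat_lit 84) (nat_lit 0) (XT.lf (nat_lit 0) (nat_lit 3990291609) (nat_lit 252) (nat_lit 6167095479) (nat_lit 336) (nat_lit 362513232) (nat_lit 31) (nat_lit 5) (nat_lit 34) (nat_lit 5) (nat_lit 35) (nat_lit 4) (nat_lit 344) (nat_lit 282) (nat_lit 262)) (XT.lf (nat_lit 0) (nat_lit 1584714571) (nat_lit 336) (nat_lit 2898020274) (nat_lit 84) (nat_lit 6251191770) (nat_lit 30) (nat_lit 5) (nat_lit 34) (nat_lit 5) (nat_lit 31) (nat_lit 5) (nat_lit 345) (nat_lit 282) (nat_lit 261))))) (XT.nd (nat_lit 53486) (nat_lit 0) (nat_lit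 3696) (XT.nd (nat_lit 94) (nat_lit 0) (nat_lit 0) (XT.lf (nat_lit 0) (nat_lit 799363134) (nat_lit 252) (nat_lit 2746178519) (nat_lit 336) (nat_lit 7410439668) (nat_lit 27) (nat_lit 5) (nat_lit 30) (nat_lit 5) (nat_lit 31) (nat_lit 5) (nat_lit 346) (nat_lit 282) (nat_lit 260)) (XT.nd (nat_lit 94) (nat_lit 0) (nat_lit 0) (XT.lf (nat_lit 0) (nat_lit 4614219102) (nat_lit 252) (nat_lit 936857334) (nat_lit 336) (nat_lit 5634625183) (nat_lit 27) (nat_lit 5) (nat_lit 30) (nat_lit 5) (nat_lit 31) (nat_lit 5) (nat_lit 347) (nat_lit 282) (nat_lit 259)) (XT.lf (nat_lit 0) (nat_lit 7582941872) (nat_lit 336) (nat_lit 2942790369) (nat_lit 84) (nat_lit 898197027) (nat_lit 27) (nat_lit 5) (nat_lit 31) (nat_lit 5) (nat_lit 28) (nat_lit 4) (nat_lit 348) (nat_lit 282) (nat_lit 258)))) (XT.nd (nat_lit 188) (nat_lit 756) (nat_lit 0) (XT.nd (nat_lit 94) (nat_lit 0) (nat_lit 0) (XT.lf (nat_lit 0) (nat_lit 323779843)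 (nat_lit 924) (nat_lit 1696726482) (nat_lit 924) (nat_lit 1696726482) (nat_lit 80) (nat_lit 4) (nat_lit 91) (nat_lit 5) (nat_lit 91) (nat_lit 4) (nat_lit 322) (nat_lit 283) (nat_lit 283)) (XT.lf (nat_lit 0) (nat_lit 4180881283) (nat_lit 924) (nat_lit 2306660708) (nat_lit 924) (nat_lit 1031253884) (nat_lit 80) (nat_lit 4) (nat_lit 91) (nat_lit 5) (nat_lit 91) (nat_lit 4) (nat_lit 323) (nat_lit 283) (nat_lit 282))) (XT.nd (nat_lit 94) (nat_lit 0) (nat_lit 0) (XT.lf (nat_lit 0) (nat_lit 134542932) (nat_lit 672) (nat_lit 1168759766) (nat_lit 756) (nat_lit 6304902229) (nat_lit 71) (nat_lit 5) (nat_lit 79) (nat_lit 5) (nat_lit 80) (nat_lit 4) (nat_lit 324) (nat_lit 283) (nat_lit 281)) (XT.lf (nat_lit 0) (nat_lit 3651657765) (nat_lit 756) (nat_lit 3999227095) (nat_lit 0) (nat_lit 50952486) (nat_lit 71) (nat_lit 5) (nat_lit 80) (nat_lit 4) (nat_lit 71) (nat_lit 4) (nat_lit 325) (nat_lit 283) (nat_lit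 280)))))) (XT.nd (nat_lit 658) (nat_lit 1260) (nat_lit 0) (XT.nd (nat_lit 282) (nat_lit 924) (nat_lit 0) (XT.nd (nat_lit 94) (nat_lit 588) (nat_lit 0) (XT.lf (nat_lit 0) (nat_lit 6014549854) (nat_lit 756) (nat_lit 501184572) (nat_lit 0) (nat_lit 1285052179) (nat_lit 71) (nat_lit 5) (nat_lit 80) (nat_lit 4) (nat_lit 71) (nat_lit 4) (nat_lit 326) (nat_lit 283) (nat_lit 279)) (XT.nd (nat_lit 94) (nat_lit 0) (nat_lit 0) (XT.lf (nat_lit 0) (nat_lit 498514858) (nat_lit 588) (nat_lit 4811865982) (nat_lit 84) (nat_lit 2594014435) (nat_lit 64) (nat_lit 5) (nat_lit 71) (nat_lit 5) (nat_lit 65) (nat_lit 4) (nat_lit 327) (nat_lit 283) (nat_lit 278)) (XT.lf (nat_lit 0) (nat_lit 2754287266) (nat_lit 588) (nat_lit 1292324311) (nat_lit 84) (nat_lit 3966536557) (nat_lit 64) (nat_lit 5) (nat_lit 71) (nat_lit 5) (nat_lit 65) (nat_lit 4) (nat_lit 328) (nat_lit 283) (nat_lit 277)))) (XT.nd (nat_lit 188) (nat_lit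 504) (nat_lit 0) (XT.nd (nat_lit 94) (nat_lit 0) (nat_lit 0) (XT.lf (nat_lit 0) (nat_lit 2313862494) (nat_lit 420) (nat_lit 2723137145) (nat_lit 504) (nat_lit 3090143557) (nat_lit 59) (nat_lit 5) (nat_lit 64) (nat_lit 5) (nat_lit 65) (nat_lit 4) (nat_lit 329) (nat_lit 283) (nat_lit 276)) (XT.lf (nat_lit 0) (nat_lit 5990857230) (nat_lit 420) (nat_lit 1348469721) (nat_lit 504) (nat_lit 907452805) (nat_lit 59) (nat_lit 5) (nat_lit 64) (nat_lit 5) (nat_lit 65) (nat_lit 4) (nat_lit 330) (nat_lit 283) (nat_lit 275))) (XT.nd (nat_lit 94) (nat_lit 0) (nat_lit 0) (XT.lf (nat_lit 0) (nat_lit 1266394451) (nat_lit 504) (nat_lit 7015061551) (nat_lit 84) (nat_lit 90280141) (nat_lit 53) (nat_lit 5) (nat_lit 59) (nat_lit 5) (nat_lit 54) (nat_lit 4) (nat_lit 331) (nat_lit 283) (nat_lit 274)) (XT.lf (nat_lit 0) (nat_lit 3463730710) (nat_lit 504) (nat_lit 3463869725) (nat_lit 84) (nat_lit 1573930928) (nat_lit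 53) (nat_lit 5) (nat_lit 59) (nat_lit 5) (nat_lit 54) (nat_lit 4) (nat_lit 332) (nat_lit 283) (nat_lit 273))))) (XT.nd (nat_lit 282) (nat_lit 840) (nat_lit 0) (XT.nd (nat_lit 94) (nat_lit 84) (nat_lit 0) (XT.lf (nat_lit 0) (nat_lit 132368418) (nat_lit 336) (nat_lit 5537382193) (nat_lit 420) (nat_lit 2967904085) (nat_lit 49) (nat_lit 5) (nat_lit 53) (nat_lit 5) (nat_lit 54) (nat_lit 4) (nat_lit 333) (nat_lit 283) (nat_lit 272)) (XT.nd (nat_lit 94) (nat_lit 84) (nat_lit 0) (XT.lf (nat_lit 0) (nat_lit 3846500083) (nat_lit 336) (nat_lit 4074227516) (nat_lit 420) (nat_lit 858444695) (nat_lit 49) (nat_lit 5) (nat_lit 53) (nat_lit 5) (nat_lit 54) (nat_lit 4) (nat_lit 334) (nat_lit 283) (nat_lit 271)) (XT.lf (nat_lit 0) (nat_lit 1231074638) (nat_lit 420) (nat_lit 1329003753) (nat_lit 84) (nat_lit 6366838429) (nat_lit 48) (nat_lit 5) (nat_lit 53) (nat_lit 5) (nat_lit 49) (nat_lit 5) (nat_lit 335) (nat_lit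 283) (nat_lit 270)))) (XT.nd (nat_lit 188) (nat_lit 420) (nat_lit 0) (XT.nd (nat_lit 94) (nat_lit 0) (nat_lit 0) (XT.lf (nat_lit 0) (nat_lit 2360523793) (nat_lit 420) (nat_lit 973387752) (nat_lit 504) (nat_lit 5746509004) (nat_lit 43) (nat_lit 5) (nat_lit 48) (nat_lit 5) (nat_lit 49) (nat_lit 5) (nat_lit 336) (nat_lit 283) (nat_lit 269)) (XT.lf (nat_lit 0) (nat_lit 5466480953) (nat_lit 504) (nat_lit 3118397436) (nat_lit 84) (nat_lit 655300234) (nat_lit 43) (nat_lit 5) (nat_lit 49) (nat_lit 5) (nat_lit 44) (nat_lit 4) (nat_lit 337) (nat_lit 283) (nat_lit 268))) (XT.nd (nat_lit 94) (nat_lit 84) (nat_lit 0) (XT.lf (nat_lit 0) (nat_lit 531454363) (nat_lit 336) (nat_lit 7094576873) (nat_lit 420) (nat_lit 1780455637) (nat_lit 39) (nat_lit 5) (nat_lit 43) (nat_lit 5) (nat_lit 44) (nat_lit 4) (nat_lit 338) (nat_lit 283) (nat_lit 267)) (XT.lf (nat_lit 0) (nat_lit 247665242) (nat_lit 420) (nat_lit 5284313814)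 (nat_lit 84) (nat_lit 4046911849) (nat_lit 38) (nat_lit 5) (nat_lit 43) (nat_lit 5) (nat_lit 39) (nat_lit 5) (nat_lit 339) (nat_lit 283) (nat_lit 266))))))) (XT.nd (nat_lit 54238) (nat_lit 0) (nat_lit 1344) (XT.nd (nat_lit 564) (nat_lit 252) (nat_lit 0) (XT.nd (nat_lit 282) (nat_lit 336) (nat_lit 0) (XT.nd (nat_lit 94) (nat_lit 336) (nat_lit 0) (XT.lf (nat_lit 0) (nat_lit 2249043043) (nat_lit 420) (nat_lit 1663417429) (nat_lit 84) (nat_lit 5845597050) (nat_lit 38) (nat_lit 5) (nat_lit 43) (nat_lit 5) (nat_lit 39) (nat_lit 5) (nat_lit 340) (nat_lit 283) (nat_lit 265)) (XT.nd (nat_lit 94) (nat_lit 0) (nat_lit 0) (XT.lf (nat_lit 0) (nat_lit 2049996908) (nat_lit 336) (nat_lit 2231754787) (nat_lit 420) (nat_lit 5662319141) (nat_lit 34) (nat_lit 5) (nat_lit 38) (nat_lit 5) (nat_lit 39) (nat_lit 5) (nat_lit 341) (nat_lit 283) (nat_lit 264)) (XT.lf (nat_lit 0) (nat_lit 5853375861) (nat_lit 336) (nat_lit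 491348621) (nat_lit 420) (nat_lit 3792471550) (nat_lit 34) (nat_lit 5) (nat_lit 38) (nat_lit 5) (nat_lit 39) (nat_lit 5) (nat_lit 342) (nat_lit 283) (nat_lit 263)))) (XT.nd (nat_lit 94) (nat_lit 336) (nat_lit 0) (XT.lf (nat_lit 0) (nat_lit 8435870600) (nat_lit 420) (nat_lit 634900774) (nat_lit 84) (nat_lit 1266966176) (nat_lit 34) (nat_lit 5) (nat_lit 39) (nat_lit 5) (nat_lit 35) (nat_lit 4) (nat_lit 343) (nat_lit 283) (nat_lit 262)) (XT.nd (nat_lit 94) (nat_lit 0) (nat_lit 0) (XT.lf (nat_lit 0) (nat_lit 34774638) (nat_lit 336) (nat_lit 7418914443) (nat_lit 84) (nat_lit 3091453692) (nat_lit 30) (nat_lit 5) (nat_lit 34) (nat_lit 5) (nat_lit 31) (nat_lit 5) (nat_lit 344) (nat_lit 283) (nat_lit 261)) (XT.lf (nat_lit 0) (nat_lit 1951476397) (nat_lit 336) (nat_lit 3820061521) (nat_lit 84) (nat_lit 4988383459) (nat_lit 30) (nat_lit 5) (nat_lit 34) (nat_lit 5) (nat_lit 31) (nat_lit 5) (nat_lit 345)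 (nat_lit 283) (nat_lit 260))))) (XT.nd (nat_lit 53298) (nat_lit 0) (nat_lit 4368) (XT.nd (nat_lit 94) (nat_lit 252) (nat_lit 0) (XT.lf (nat_lit 0) (nat_lit 3881849731) (nat_lit 336) (nat_lit 167046679) (nat_lit 84) (nat_lit 6934163317) (nat_lit 30) (nat_lit 5) (nat_lit 34) (nat_lit 5) (nat_lit 31) (nat_lit 5) (nat_lit 346) (nat_lit 283) (nat_lit 259)) (XT.nd (nat_lit 94) (nat_lit 0) (nat_lit 0) (XT.lf (nat_lit 0) (nat_lit 3616397424) (nat_lit 252) (nat_lit 2247171635) (nat_lit 336) (nat_lit 5350084622) (nat_lit 27) (nat_lit 5) (nat_lit 30) (nat_lit 5) (nat_lit 31) (nat_lit 5) (nat_lit 347) (nat_lit 283) (nat_lit 258)) (XT.lf (nat_lit 0) (nat_lit 7465556725) (nat_lit 252) (nat_lit 399325305) (nat_lit 336) (nat_lit 3588077733) (nat_lit 27) (nat_lit 5) (nat_lit 30) (nat_lit 5) (nat_lit 31) (nat_lit 5) (nat_lit 348) (nat_lit 283) (nat_lit 257)))) (XT.nd (nat_lit 188) (nat_lit 1008) (nat_lit 0)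 (XT.nd (nat_lit 94) (nat_lit 0) (nat_lit 0) (XT.lf (nat_lit 0) (nat_lit 281985287) (nat_lit 924) (nat_lit 3075342607) (nat_lit 0) (nat_lit 281985287) (nat_lit 91) (nat_lit 5) (nat_lit 102) (nat_lit 4) (nat_lit 91) (nat_lit 4) (nat_lit 320) (nat_lit 284) (nat_lit 284)) (XT.lf (nat_lit 0) (nat_lit 2938738351) (nat_lit 924) (nat_lit 2792176956) (nat_lit 0) (nat_lit 1623793915) (nat_lit 91) (nat_lit 5) (nat_lit 102) (nat_lit 4) (nat_lit 91) (nat_lit 4) (nat_lit 321) (nat_lit 284) (nat_lit 283))) (XT.nd (nat_lit 94) (nat_lit 84) (nat_lit 0) (XT.lf (nat_lit 0) (nat_lit 611991214) (nat_lit 924) (nat_lit 4707152589) (nat_lit 924) (nat_lit 2116801330) (nat_lit 80) (nat_lit 4) (nat_lit 91) (nat_lit 5) (nat_lit 91) (nat_lit 4) (nat_lit 322) (nat_lit 284) (nat_lit 282)) (XT.lf (nat_lit 0) (nat_lit 204060431) (nat_lit 1008) (nat_lit 3412962547) (nat_lit 84) (nat_lit 3904623402) (nat_lit 79) (nat_lit 5)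 (nat_lit 91) (nat_lit 5) (nat_lit 80) (nat_lit 4) (nat_lit 323) (nat_lit 284) (nat_lit 281)))))) (XT.nd (nat_lit 658) (nat_lit 1260) (nat_lit 0) (XT.nd (nat_lit 282) (nat_lit 1092) (nat_lit 0) (XT.nd (nat_lit 94) (nat_lit 0) (nat_lit 0) (XT.lf (nat_lit 0) (nat_lit 12305799) (nat_lit 672) (nat_lit 2469022303) (nat_lit 756) (nat_lit 5130850748) (nat_lit 71) (nat_lit 5) (nat_lit 79) (nat_lit 5) (nat_lit 80) (nat_lit 4) (nat_lit 324) (nat_lit 284) (nat_lit 280)) (XT.nd (nat_lit 94) (nat_lit 0) (nat_lit 0) (XT.lf (nat_lit 0) (nat_lit 3546757995) (nat_lit 672) (nat_lit 1247833108) (nat_lit 756) (nat_lit 2912607436) (nat_lit 71) (nat_lit 5) (nat_lit 79) (nat_lit 5) (nat_lit 80) (nat_lit 4) (nat_lit 325) (nat_lit 284) (nat_lit 279)) (XT.lf (nat_lit 0) (nat_lit 7111572082) (nat_lit 756) (nat_lit 684473776) (nat_lit 0) (nat_lit 11815599) (nat_lit 71) (nat_lit 5) (nat_lit 80) (nat_lit 4) (nat_lit 71)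 (nat_lit 4) (nat_lit 326) (nat_lit 284) (nat_lit 278)))) (XT.nd (nat_lit 188) (nat_lit 504) (nat_lit 0) (XT.nd (nat_lit 94) (nat_lit 0) (nat_lit 0) (XT.lf (nat_lit 0) (nat_lit 1531152960) (nat_lit 588) (nat_lit 5051916910) (nat_lit 84) (nat_lit 1329434110) (nat_lit 64) (nat_lit 5) (nat_lit 71) (nat_lit 5) (nat_lit 65) (nat_lit 4) (nat_lit 327) (nat_lit 284) (nat_lit 277)) (XT.lf (nat_lit 0) (nat_lit 3754457234) (nat_lit 588) (nat_lit 1566387956) (nat_lit 84) (nat_lit 2701683157) (nat_lit 64) (nat_lit 5) (nat_lit 71) (nat_lit 5) (nat_lit 65) (nat_lit 4) (nat_lit 328) (nat_lit 284) (nat_lit 276))) (XT.nd (nat_lit 94) (nat_lit 84) (nat_lit 0) (XT.lf (nat_lit 0) (nat_lit 2000495169) (nat_lit 420) (nat_lit 4002073911) (nat_lit 504) (nat_lit 2135283976) (nat_lit 59) (nat_lit 5) (nat_lit 64) (nat_lit 5) (nat_lit 65) (nat_lit 4) (nat_lit 329) (nat_lit 284) (nat_lit 275)) (XT.lf (nat_lit 0) (nat_lit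 15022697) (nat_lit 504) (nat_lit 2614014073) (nat_lit 84) (nat_lit 5629654368) (nat_lit 58) (nat_lit 5) (nat_lit 64) (nat_lit 5) (nat_lit 59) (nat_lit 5) (nat_lit 330) (nat_lit 284) (nat_lit 274))))) (XT.nd (nat_lit 282) (nat_lit 840) (nat_lit 0) (XT.nd (nat_lit 94) (nat_lit 0) (nat_lit 0) (XT.lf (nat_lit 0) (nat_lit 949770668) (nat_lit 420) (nat_lit 1185372308) (nat_lit 504) (nat_lit 6249558778) (nat_lit 53) (nat_lit 5) (nat_lit 58) (nat_lit 5) (nat_lit 59) (nat_lit 5) (nat_lit 331) (nat_lit 284) (nat_lit 273)) (XT.nd (nat_lit 94) (nat_lit 0) (nat_lit 0) (XT.lf (nat_lit 0) (nat_lit 4290810352) (nat_lit 504) (nat_lit 3905317274) (nat_lit 84) (nat_lit 319888565) (nat_lit 53) (nat_lit 5) (nat_lit 59) (nat_lit 5) (nat_lit 54) (nat_lit 4) (nat_lit 332) (nat_lit 284) (nat_lit 272)) (XT.lf (nat_lit 0) (nat_lit 6466506626) (nat_lit 504) (nat_lit 344080739) (nat_lit 84) (nat_lit 1842712835) (nat_lit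 53) (nat_lit 5) (nat_lit 59) (nat_lit 5) (nat_lit 54) (nat_lit 4) (nat_lit 333) (nat_lit 284) (nat_lit 271)))) (XT.nd (nat_lit 188) (nat_lit 420) (nat_lit 0) (XT.nd (nat_lit 94) (nat_lit 84) (nat_lit 0) (XT.lf (nat_lit 0) (nat_lit 3330968599) (nat_lit 336) (nat_lit 5354575757) (nat_lit 420) (nat_lit 110477566) (nat_lit 49) (nat_lit 5) (nat_lit 53) (nat_lit 5) (nat_lit 54) (nat_lit 4) (nat_lit 334) (nat_lit 284) (nat_lit 270)) (XT.lf (nat_lit 0) (nat_lit 1935886078) (nat_lit 420) (nat_lit 1900628551) (nat_lit 84) (nat_lit 5108093793) (nat_lit 48) (nat_lit 5) (nat_lit 53) (nat_lit 5) (nat_lit 49) (nat_lit 5) (nat_lit 335) (nat_lit 284) (nat_lit 269))) (XT.nd (nat_lit 94) (nat_lit 0) (nat_lit 0) (XT.lf (nat_lit 0) (nat_lit 1745643642) (nat_lit 420) (nat_lit 2259738317) (nat_lit 504) (nat_lit 5093959042) (nat_lit 43) (nat_lit 5) (nat_lit 48) (nat_lit 5) (nat_lit 49) (nat_lit 5) (nat_lit 336) (nat_lit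 284) (nat_lit 268)) (XT.lf (nat_lit 0) (nat_lit 5483186639) (nat_lit 420) (nat_lit 621405050) (nat_lit 504) (nat_lit 3155730942) (nat_lit 43) (nat_lit 5) (nat_lit 48) (nat_lit 5) (nat_lit 49) (nat_lit 5) (nat_lit 337) (nat_lit 284) (nat_lit 267))))))))
noncomputable def xc4 : XT := (XT.nd (nat_lit 55272) (nat_lit 0) (nat_lit 0) (XT.nd (nat_lit 54050) (nat_lit 0) (nat_lit 2184) (XT.nd (nat_lit 564) (nat_lit 588) (nat_lit 0) (XT.nd (nat_lit 282) (nat_lit 336) (nat_lit 0) (XT.nd (nat_lit 94) (nat_lit 420) (nat_lit 0) (XT.lf (nat_lit 0) (nat_lit 8226746846) (nat_lit 504) (nat_lit 162413525) (nat_lit 84) (nat_lit 1038813471) (nat_lit 43) (nat_lit 5) (nat_lit 49) (nat_lit 5) (nat_lit 44) (nat_lit 4) (nat_lit 338) (nat_lit 284) (nat_lit 266)) (XT.nd (nat_lit 94) (nat_lit 0) (nat_lit 0) (XT.lf (nat_lit 0) (nat_lit 787648982) (nat_lit 420) (nat_lit 6039770539) (nat_lit 84) (nat_lit 2773807874) (nat_lit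 38) (nat_lit 5) (nat_lit 43) (nat_lit 5) (nat_lit 39) (nat_lit 5) (nat_lit 339) (nat_lit 284) (nat_lit 265)) (XT.lf (nat_lit 0) (nat_lit 2763892325) (nat_lit 420) (nat_lit 2448924722) (nat_lit 84) (nat_lit 4568523766) (nat_lit 38) (nat_lit 5) (nat_lit 43) (nat_lit 5) (nat_lit 39) (nat_lit 5) (nat_lit 340) (nat_lit 284) (nat_lit 264)))) (XT.nd (nat_lit 94) (nat_lit 0) (nat_lit 0) (XT.lf (nat_lit 0) (nat_lit 1218591639) (nat_lit 336) (nat_lit 3545382975) (nat_lit 420) (nat_lit 5204553521) (nat_lit 34) (nat_lit 5) (nat_lit 38) (nat_lit 5) (nat_lit 39) (nat_lit 5) (nat_lit 341) (nat_lit 284) (nat_lit 263)) (XT.nd (nat_lit 94) (nat_lit 0) (nat_lit 0) (XT.lf (nat_lit 0) (nat_lit 4993118669) (nat_lit 336) (nat_lit 1809896817) (nat_lit 420) (nat_lit 3359537440) (nat_lit 34) (nat_lit 5) (nat_lit 38) (nat_lit 5) (nat_lit 39) (nat_lit 5) (nat_lit 342) (nat_lit 284) (nat_lit 262)) (XT.lf (nat_lit 0) (nat_lit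 8827819705) (nat_lit 336) (nat_lit 30302671) (nat_lit 420) (nat_lit 1506242247) (nat_lit 34) (nat_lit 5) (nat_lit 38) (nat_lit 5) (nat_lit 39) (nat_lit 5) (nat_lit 343) (nat_lit 284) (nat_lit 261))))) (XT.nd (nat_lit 282) (nat_lit 252) (nat_lit 0) (XT.nd (nat_lit 94) (nat_lit 0) (nat_lit 0) (XT.lf (nat_lit 0) (nat_lit 389683869) (nat_lit 336) (nat_lit 8398678309) (nat_lit 84) (nat_lit 1784444986) (nat_lit 30) (nat_lit 5) (nat_lit 34) (nat_lit 5) (nat_lit 31) (nat_lit 5) (nat_lit 344) (nat_lit 284) (nat_lit 260)) (XT.nd (nat_lit 94) (nat_lit 0) (nat_lit 0) (XT.lf (nat_lit 0) (nat_lit 2283861660) (nat_lit 336) (nat_lit 4828088568) (nat_lit 84) (nat_lit 3676473358) (nat_lit 30) (nat_lit 5) (nat_lit 34) (nat_lit 5) (nat_lit 31) (nat_lit 5) (nat_lit 345) (nat_lit 284) (nat_lit 259)) (XT.lf (nat_lit 0) (nat_lit 4192388274) (nat_lit 336) (nat_lit 1202487092) (nat_lit 84) (nat_lit 5617499197) (nat_lit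 30) (nat_lit 5) (nat_lit 34) (nat_lit 5) (nat_lit 31) (nat_lit 5) (nat_lit 346) (nat_lit 284) (nat_lit 258)))) (XT.nd (nat_lit 53016) (nat_lit 0) (nat_lit 6300) (XT.nd (nat_lit 94) (nat_lit 0) (nat_lit 0) (XT.lf (nat_lit 0) (nat_lit 2532530402) (nat_lit 252) (nat_lit 3609635270) (nat_lit 336) (nat_lit 5101924352) (nat_lit 27) (nat_lit 5) (nat_lit 30) (nat_lit 5) (nat_lit 31) (nat_lit 5) (nat_lit 347) (nat_lit 284) (nat_lit 257)) (XT.lf (nat_lit 0) (nat_lit 6355369790) (nat_lit 252) (nat_lit 1767295056) (nat_lit 336) (nat_lit 3361503849) (nat_lit 27) (nat_lit 5) (nat_lit 30) (nat_lit 5) (nat_lit 31) (nat_lit 5) (nat_lit 348) (nat_lit 284) (nat_lit 256))) (XT.nd (nat_lit 94) (nat_lit 0) (nat_lit 0) (XT.lf (nat_lit 0) (nat_lit 795692733) (nat_lit 756) (nat_lit 1386448836) (nat_lit 756) (nat_lit 1386448836) (nat_lit 102) (nat_lit 4) (nat_lit 111) (nat_lit 5) (nat_lit 111) (nat_lit 4) (nat_lit 318)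 (nat_lit 285) (nat_lit 285)) (XT.lf (nat_lit 0) (nat_lit 4958222871) (nat_lit 756) (nat_lit 1822960724) (nat_lit 756) (nat_lit 425226072) (nat_lit 102) (nat_lit 4) (nat_lit 111) (nat_lit 5) (nat_lit 111) (nat_lit 4) (nat_lit 319) (nat_lit 285) (nat_lit 284)))))) (XT.nd (nat_lit 564) (nat_lit 1512) (nat_lit 0) (XT.nd (nat_lit 282) (nat_lit 756) (nat_lit 0) (XT.nd (nat_lit 94) (nat_lit 924) (nat_lit 0) (XT.lf (nat_lit 0) (nat_lit 1085292003) (nat_lit 840) (nat_lit 804779078) (nat_lit 924) (nat_lit 5389821899) (nat_lit 91) (nat_lit 5) (nat_lit 101) (nat_lit 5) (nat_lit 102) (nat_lit 4) (nat_lit 320) (nat_lit 285) (nat_lit 283)) (XT.nd (nat_lit 94) (nat_lit 924) (nat_lit 0) (XT.lf (nat_lit 0) (nat_lit 4220394910) (nat_lit 924) (nat_lit 2862961059) (nat_lit 0) (nat_lit 274335938) (nat_lit 91) (nat_lit 5) (nat_lit 102) (nat_lit 4) (nat_lit 91) (nat_lit 4) (nat_lit 321) (nat_lit 285) (nat_lit 282))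 (XT.lf (nat_lit 0) (nat_lit 505252641) (nat_lit 924) (nat_lit 6059124710) (nat_lit 924) (nat_lit 876007714) (nat_lit 80) (nat_lit 4) (nat_lit 91) (nat_lit 5) (nat_lit 91) (nat_lit 4) (nat_lit 322) (nat_lit 285) (nat_lit 281)))) (XT.nd (nat_lit 94) (nat_lit 672) (nat_lit 0) (XT.lf (nat_lit 0) (nat_lit 1384555985) (nat_lit 1008) (nat_lit 3570946084) (nat_lit 84) (nat_lit 2571605631) (nat_lit 79) (nat_lit 5) (nat_lit 91) (nat_lit 5) (nat_lit 80) (nat_lit 4) (nat_lit 323) (nat_lit 285) (nat_lit 280)) (XT.nd (nat_lit 94) (nat_lit 672) (nat_lit 0) (XT.lf (nat_lit 0) (nat_lit 3627464106) (nat_lit 1008) (nat_lit 179384650) (nat_lit 84) (nat_lit 3812155977) (nat_lit 79) (nat_lit 5) (nat_lit 91) (nat_lit 5) (nat_lit 80) (nat_lit 4) (nat_lit 324) (nat_lit 285) (nat_lit 279)) (XT.lf (nat_lit 0) (nat_lit 3318258794) (nat_lit 672) (nat_lit 2587115622) (nat_lit 756) (nat_lit 1810036352) (nat_lit 71) (nat_lit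 5) (nat_lit 79) (nat_lit 5) (nat_lit 80) (nat_lit 4) (nat_lit 325) (nat_lit 285) (nat_lit 278))))) (XT.nd (nat_lit 282) (nat_lit 924) (nat_lit 0) (XT.nd (nat_lit 94) (nat_lit 504) (nat_lit 0) (XT.lf (nat_lit 0) (nat_lit 364838288) (nat_lit 756) (nat_lit 958173680) (nat_lit 84) (nat_lit 6494240979) (nat_lit 70) (nat_lit 5) (nat_lit 79) (nat_lit 5) (nat_lit 71) (nat_lit 5) (nat_lit 326) (nat_lit 285) (nat_lit 277)) (XT.nd (nat_lit 94) (nat_lit 0) (nat_lit 0) (XT.lf (nat_lit 0) (nat_lit 2529860063) (nat_lit 588) (nat_lit 5368489246) (nat_lit 84) (nat_lit 25097181) (nat_lit 64) (nat_lit 5) (nat_lit 71) (nat_lit 5) (nat_lit 65) (nat_lit 4) (nat_lit 327) (nat_lit 285) (nat_lit 276)) (XT.lf (nat_lit 0) (nat_lit 4721672451) (nat_lit 588) (nat_lit 1915950319) (nat_lit 84) (nat_lit 1397081363) (nat_lit 64) (nat_lit 5) (nat_lit 71) (nat_lit 5) (nat_lit 65) (nat_lit 4) (nat_lit 328) (nat_lit 285) (nat_lit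 275)))) (XT.nd (nat_lit 188) (nat_lit 420) (nat_lit 0) (XT.nd (nat_lit 94) (nat_lit 84) (nat_lit 0) (XT.lf (nat_lit 0) (nat_lit 1611089054) (nat_lit 420) (nat_lit 5324287294) (nat_lit 504) (nat_lit 1215968440) (nat_lit 59) (nat_lit 5) (nat_lit 64) (nat_lit 5) (nat_lit 65) (nat_lit 4) (nat_lit 329) (nat_lit 285) (nat_lit 274)) (XT.lf (nat_lit 0) (nat_lit 885332138) (nat_lit 504) (nat_lit 3058567125) (nat_lit 84) (nat_lit 4329180432) (nat_lit 58) (nat_lit 5) (nat_lit 64) (nat_lit 5) (nat_lit 59) (nat_lit 5) (nat_lit 330) (nat_lit 285) (nat_lit 273))) (XT.nd (nat_lit 94) (nat_lit 0) (nat_lit 0) (XT.lf (nat_lit 0) (nat_lit 463870606) (nat_lit 420) (nat_lit 2507194276) (nat_lit 504) (nat_lit 5429318926) (nat_lit 53) (nat_lit 5) (nat_lit 58) (nat_lit 5) (nat_lit 59) (nat_lit 5) (nat_lit 331) (nat_lit 285) (nat_lit 272)) (XT.lf (nat_lit 0) (nat_lit 4096900116) (nat_lit 420) (nat_lit 997605354) (nat_lit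 504) (nat_lit 3438412446) (nat_lit 53) (nat_lit 5) (nat_lit 58) (nat_lit 5) (nat_lit 59) (nat_lit 5) (nat_lit 332) (nat_lit 285) (nat_lit 271))))))) (XT.nd (nat_lit 1222) (nat_lit 252) (nat_lit 0) (XT.nd (nat_lit 564) (nat_lit 1092) (nat_lit 0) (XT.nd (nat_lit 282) (nat_lit 420) (nat_lit 0) (XT.nd (nat_lit 94) (nat_lit 420) (nat_lit 0) (XT.lf (nat_lit 0) (nat_lit 7232167145) (nat_lit 504) (nat_lit 896247340) (nat_lit 84) (nat_lit 543180521) (nat_lit 53) (nat_lit 5) (nat_lit 59) (nat_lit 5) (nat_lit 54) (nat_lit 4) (nat_lit 333) (nat_lit 285) (nat_lit 270)) (XT.nd (nat_lit 94) (nat_lit 0) (nat_lit 0) (XT.lf (nat_lit 0) (nat_lit 590323085) (nat_lit 420) (nat_lit 6085126300) (nat_lit 84) (nat_lit 2139918546) (nat_lit 48) (nat_lit 5) (nat_lit 53) (nat_lit 5) (nat_lit 49) (nat_lit 5) (nat_lit 334) (nat_lit 285) (nat_lit 269)) (XT.lf (nat_lit 0) (nat_lit 2607219514) (nat_lit 420) (nat_lit 2552664367)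 (nat_lit 84) (nat_lit 3805076334) (nat_lit 48) (nat_lit 5) (nat_lit 53) (nat_lit 5) (nat_lit 49) (nat_lit 5) (nat_lit 335) (nat_lit 285) (nat_lit 268)))) (XT.nd (nat_lit 94) (nat_lit 0) (nat_lit 0) (XT.lf (nat_lit 0) (nat_lit 1049646245) (nat_lit 420) (nat_lit 3593742523) (nat_lit 504) (nat_lit 4477526559) (nat_lit 43) (nat_lit 5) (nat_lit 48) (nat_lit 5) (nat_lit 49) (nat_lit 5) (nat_lit 336) (nat_lit 285) (nat_lit 267)) (XT.nd (nat_lit 94) (nat_lit 0) (nat_lit 0) (XT.lf (nat_lit 0) (nat_lit 4757553560) (nat_lit 420) (nat_lit 1959123160) (nat_lit 504) (nat_lit 2566207523) (nat_lit 43) (nat_lit 5) (nat_lit 48) (nat_lit 5) (nat_lit 49) (nat_lit 5) (nat_lit 337) (nat_lit 285) (nat_lit 266)) (XT.lf (nat_lit 0) (nat_lit 8522025721) (nat_lit 420) (nat_lit 281146739) (nat_lit 504) (nat_lit 648646624) (nat_lit 43) (nat_lit 5) (nat_lit 48) (nat_lit 5) (nat_lit 49) (nat_lit 5) (nat_lit 338) (nat_lit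 285) (nat_lit 265))))) (XT.nd (nat_lit 282) (nat_lit 336) (nat_lit 0) (XT.nd (nat_lit 94) (nat_lit 336) (nat_lit 0) (XT.lf (nat_lit 0) (nat_lit 1293324133) (nat_lit 420) (nat_lit 6879679127) (nat_lit 84) (nat_lit 1453176009) (nat_lit 38) (nat_lit 5) (nat_lit 43) (nat_lit 5) (nat_lit 39) (nat_lit 5) (nat_lit 339) (nat_lit 285) (nat_lit 264)) (XT.nd (nat_lit 94) (nat_lit 336) (nat_lit 0) (XT.lf (nat_lit 0) (nat_lit 3245188757) (nat_lit 420) (nat_lit 3317980322) (nat_lit 84) (nat_lit 3244041941) (nat_lit 38) (nat_lit 5) (nat_lit 43) (nat_lit 5) (nat_lit 39) (nat_lit 5) (nat_lit 340) (nat_lit 285) (nat_lit 263)) (XT.lf (nat_lit 0) (nat_lit 302814550) (nat_lit 336) (nat_lit 4909726174) (nat_lit 420) (nat_lit 4783029963) (nat_lit 34) (nat_lit 5) (nat_lit 38) (nat_lit 5) (nat_lit 39) (nat_lit 5) (nat_lit 341) (nat_lit 285) (nat_lit 262)))) (XT.nd (nat_lit 188) (nat_lit 336) (nat_lit 0) (XT.nd (nat_lit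 94) (nat_lit 0) (nat_lit 0) (XT.lf (nat_lit 0) (nat_lit 4049357172) (nat_lit 336) (nat_lit 3179012090) (nat_lit 420) (nat_lit 2962098760) (nat_lit 34) (nat_lit 5) (nat_lit 38) (nat_lit 5) (nat_lit 39) (nat_lit 5) (nat_lit 342) (nat_lit 285) (nat_lit 261)) (XT.lf (nat_lit 0) (nat_lit 7856915233) (nat_lit 336) (nat_lit 1404046531) (nat_lit 420) (nat_lit 1132164264) (nat_lit 34) (nat_lit 5) (nat_lit 38) (nat_lit 5) (nat_lit 39) (nat_lit 5) (nat_lit 343) (nat_lit 285) (nat_lit 260))) (XT.nd (nat_lit 94) (nat_lit 0) (nat_lit 0) (XT.lf (nat_lit 0) (nat_lit 709849107) (nat_lit 336) (nat_lit 9466217375) (nat_lit 84) (nat_lit 426964278) (nat_lit 30) (nat_lit 5) (nat_lit 34) (nat_lit 5) (nat_lit 31) (nat_lit 5) (nat_lit 344) (nat_lit 285) (nat_lit 259)) (XT.lf (nat_lit 0) (nat_lit 2582180178) (nat_lit 336) (nat_lit 5923041000) (nat_lit 84) (nat_lit 2314238631) (nat_lit 30) (nat_lit 5) (nat_lit 34) (nat_lit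 5) (nat_lit 31) (nat_lit 5) (nat_lit 345) (nat_lit 285) (nat_lit 258)))))) (XT.nd (nat_lit 53298) (nat_lit 0) (nat_lit 3612) (XT.nd (nat_lit 52922) (nat_lit 0) (nat_lit 6216) (XT.nd (nat_lit 94) (nat_lit 252) (nat_lit 0) (XT.lf (nat_lit 0) (nat_lit 4469516957) (nat_lit 336) (nat_lit 2324028628) (nat_lit 84) (nat_lit 4250653393) (nat_lit 30) (nat_lit 5) (nat_lit 34) (nat_lit 5) (nat_lit 31) (nat_lit 5) (nat_lit 346) (nat_lit 285) (nat_lit 257)) (XT.nd (nat_lit 94) (nat_lit 0) (nat_lit 0) (XT.lf (nat_lit 0) (nat_lit 1361607758) (nat_lit 252) (nat_lit 5025518198) (nat_lit 336) (nat_lit 4889913064) (nat_lit 27) (nat_lit 5) (nat_lit 30) (nat_lit 5) (nat_lit 31) (nat_lit 5) (nat_lit 347) (nat_lit 285) (nat_lit 256)) (XT.lf (nat_lit 0) (nat_lit 5158918617) (nat_lit 252) (nat_lit 3188518541) (nat_lit 336) (nat_lit 3170429889) (nat_lit 27) (nat_lit 5) (nat_lit 30) (nat_lit 5) (nat_lit 31) (nat_lit 5)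 (nat_lit 348) (nat_lit 285) (nat_lit 255)))) (XT.nd (nat_lit 188) (nat_lit 840) (nat_lit 0) (XT.nd (nat_lit 94) (nat_lit 0) (nat_lit 0) (XT.lf (nat_lit 0) (nat_lit 526542953) (nat_lit 756) (nat_lit 2452352934) (nat_lit 0) (nat_lit 526542953) (nat_lit 111) (nat_lit 5) (nat_lit 120) (nat_lit 4) (nat_lit 111) (nat_lit 4) (nat_lit 316) (nat_lit 286) (nat_lit 286)) (XT.lf (nat_lit 0) (nat_lit 3404138819) (nat_lit 756) (nat_lit 1705317029) (nat_lit 0) (nat_lit 1963074393) (nat_lit 111) (nat_lit 5) (nat_lit 120) (nat_lit 4) (nat_lit 111) (nat_lit 4) (nat_lit 317) (nat_lit 286) (nat_lit 285))) (XT.nd (nat_lit 94) (nat_lit 84) (nat_lit 0) (XT.lf (nat_lit 0) (nat_lit 1557798714) (nat_lit 756) (nat_lit 4209860139) (nat_lit 756) (nat_lit 1371061061) (nat_lit 102) (nat_lit 4) (nat_lit 111) (nat_lit 5) (nat_lit 111) (nat_lit 4) (nat_lit 318) (nat_lit 286) (nat_lit 284)) (XT.lf (nat_lit 0) (nat_lit 919652283)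 (nat_lit 840) (nat_lit 2326693003) (nat_lit 84) (nat_lit 3962807681) (nat_lit 101) (nat_lit 5) (nat_lit 111) (nat_lit 5) (nat_lit 102) (nat_lit 4) (nat_lit 319) (nat_lit 286) (nat_lit 283))))) (XT.nd (nat_lit 282) (nat_lit 756) (nat_lit 0) (XT.nd (nat_lit 94) (nat_lit 1008) (nat_lit 0) (XT.lf (nat_lit 0) (nat_lit 967515366) (nat_lit 840) (nat_lit 2221537608) (nat_lit 924) (nat_lit 4094948047) (nat_lit 91) (nat_lit 5) (nat_lit 101) (nat_lit 5) (nat_lit 102) (nat_lit 4) (nat_lit 320) (nat_lit 286) (nat_lit 282)) (XT.nd (nat_lit 94) (nat_lit 1008) (nat_lit 0) (XT.lf (nat_lit 0) (nat_lit 4347469367) (nat_lit 840) (nat_lit 1133735663) (nat_lit 924) (nat_lit 1882106377) (nat_lit 91) (nat_lit 5) (nat_lit 101) (nat_lit 5) (nat_lit 102) (nat_lit 4) (nat_lit 321) (nat_lit 286) (nat_lit 281)) (XT.lf (nat_lit 0) (nat_lit 323433968) (nat_lit 1008) (nat_lit 7123819552) (nat_lit 84) (nat_lit 434521) (nat_lit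 79) (nat_lit 5) (nat_lit 91) (nat_lit 5) (nat_lit 80) (nat_lit 4) (nat_lit 322) (nat_lit 286) (nat_lit 280)))) (XT.nd (nat_lit 188) (nat_lit 756) (nat_lit 0) (XT.nd (nat_lit 94) (nat_lit 0) (nat_lit 0) (XT.lf (nat_lit 0) (nat_lit 2532110589) (nat_lit 1008) (nat_lit 3801782295) (nat_lit 84) (nat_lit 1201609177) (nat_lit 79) (nat_lit 5) (nat_lit 91) (nat_lit 5) (nat_lit 80) (nat_lit 4) (nat_lit 323) (nat_lit 286) (nat_lit 279)) (XT.lf (nat_lit 0) (nat_lit 4741810685) (nat_lit 1008) (nat_lit 442673797) (nat_lit 84) (nat_lit 2444234474) (nat_lit 79) (nat_lit 5) (nat_lit 91) (nat_lit 5) (nat_lit 80) (nat_lit 4) (nat_lit 324) (nat_lit 286) (nat_lit 278))) (XT.nd (nat_lit 94) (nat_lit 84) (nat_lit 0) (XT.lf (nat_lit 0) (nat_lit 3017431502) (nat_lit 672) (nat_lit 3967095718) (nat_lit 756) (nat_lit 741970460) (nat_lit 71) (nat_lit 5) (nat_lit 79) (nat_lit 5) (nat_lit 80) (nat_lit 4) (nat_lit 325) (nat_lit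 286) (nat_lit 277)) (XT.lf (nat_lit 0) (nat_lit 1379244489) (nat_lit 756) (nat_lit 1312767568) (nat_lit 84) (nat_lit 5137260699) (nat_lit 70) (nat_lit 5) (nat_lit 79) (nat_lit 5) (nat_lit 71) (nat_lit 5) (nat_lit 326) (nat_lit 286) (nat_lit 276))))))))
noncomputable def xc5 : XT := (XT.nd (nat_lit 54990) (nat_lit 0) (nat_lit 252) (XT.nd (nat_lit 1222) (nat_lit 924) (nat_lit 0) (XT.nd (nat_lit 564) (nat_lit 1260) (nat_lit 0) (XT.nd (nat_lit 282) (nat_lit 504) (nat_lit 0) (XT.nd (nat_lit 94) (nat_lit 420) (nat_lit 0) (XT.lf (nat_lit 0) (nat_lit 2161574627) (nat_lit 504) (nat_lit 1347358401) (nat_lit 588) (nat_lit 4427885630) (nat_lit 64) (nat_lit 5) (nat_lit 70) (nat_lit 5) (nat_lit 71) (nat_lit 5) (nat_lit 327) (nat_lit 286) (nat_lit 275)) (XT.nd (nat_lit 94) (nat_lit 420) (nat_lit 0) (XT.lf (nat_lit 0) (nat_lit 5656834463) (nat_lit 588) (nat_lit 2341337228) (nat_lit 84) (nat_lit 51515150) (nat_lit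 64) (nat_lit 5) (nat_lit 71) (nat_lit 5) (nat_lit 65) (nat_lit 4) (nat_lit 328) (nat_lit 286) (nat_lit 274)) (XT.lf (nat_lit 0) (nat_lit 1145281184) (nat_lit 420) (nat_lit 6691009738) (nat_lit 504) (nat_lit 331340050) (nat_lit 59) (nat_lit 5) (nat_lit 64) (nat_lit 5) (nat_lit 65) (nat_lit 4) (nat_lit 329) (nat_lit 286) (nat_lit 273)))) (XT.nd (nat_lit 94) (nat_lit 420) (nat_lit 0) (XT.lf (nat_lit 0) (nat_lit 1722569890) (nat_lit 504) (nat_lit 3580994009) (nat_lit 84) (nat_lit 2986674005) (nat_lit 58) (nat_lit 5) (nat_lit 64) (nat_lit 5) (nat_lit 59) (nat_lit 5) (nat_lit 330) (nat_lit 286) (nat_lit 272)) (XT.nd (nat_lit 94) (nat_lit 420) (nat_lit 0) (XT.lf (nat_lit 0) (nat_lit 3775022661) (nat_lit 504) (nat_lit 98510584) (nat_lit 84) (nat_lit 4545261092) (nat_lit 58) (nat_lit 5) (nat_lit 64) (nat_lit 5) (nat_lit 59) (nat_lit 5) (nat_lit 331) (nat_lit 286) (nat_lit 271)) (XT.lf (nat_lit 0) (nat_lit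 3502194879) (nat_lit 420) (nat_lit 2367154452) (nat_lit 504) (nat_lit 2683095655) (nat_lit 53) (nat_lit 5) (nat_lit 58) (nat_lit 5) (nat_lit 59) (nat_lit 5) (nat_lit 332) (nat_lit 286) (nat_lit 270))))) (XT.nd (nat_lit 282) (nat_lit 840) (nat_lit 0) (XT.nd (nat_lit 94) (nat_lit 420) (nat_lit 0) (XT.lf (nat_lit 0) (nat_lit 7156924665) (nat_lit 420) (nat_lit 817315944) (nat_lit 504) (nat_lit 718104921) (nat_lit 53) (nat_lit 5) (nat_lit 58) (nat_lit 5) (nat_lit 59) (nat_lit 5) (nat_lit 333) (nat_lit 286) (nat_lit 269)) (XT.nd (nat_lit 94) (nat_lit 0) (nat_lit 0) (XT.lf (nat_lit 0) (nat_lit 1255226520) (nat_lit 420) (nat_lit 6788242114) (nat_lit 84) (nat_lit 793921756) (nat_lit 48) (nat_lit 5) (nat_lit 53) (nat_lit 5) (nat_lit 49) (nat_lit 5) (nat_lit 334) (nat_lit 286) (nat_lit 268)) (XT.lf (nat_lit 0) (nat_lit 3245700701) (nat_lit 420) (nat_lit 3285718966) (nat_lit 84) (nat_lit 2456571504) (nat_lit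 48) (nat_lit 5) (nat_lit 53) (nat_lit 5) (nat_lit 49) (nat_lit 5) (nat_lit 335) (nat_lit 286) (nat_lit 267)))) (XT.nd (nat_lit 188) (nat_lit 420) (nat_lit 0) (XT.nd (nat_lit 94) (nat_lit 0) (nat_lit 0) (XT.lf (nat_lit 0) (nat_lit 271882858) (nat_lit 420) (nat_lit 4976643800) (nat_lit 504) (nat_lit 3896636977) (nat_lit 43) (nat_lit 5) (nat_lit 48) (nat_lit 5) (nat_lit 49) (nat_lit 5) (nat_lit 336) (nat_lit 286) (nat_lit 266)) (XT.lf (nat_lit 0) (nat_lit 3951045574) (nat_lit 420) (nat_lit 3345626674) (nat_lit 504) (nat_lit 2011417905) (nat_lit 43) (nat_lit 5) (nat_lit 48) (nat_lit 5) (nat_lit 49) (nat_lit 5) (nat_lit 337) (nat_lit 286) (nat_lit 265))) (XT.nd (nat_lit 94) (nat_lit 420) (nat_lit 0) (XT.lf (nat_lit 0) (nat_lit 7687637425) (nat_lit 420) (nat_lit 1671144177) (nat_lit 504) (nat_lit 119172199) (nat_lit 43) (nat_lit 5) (nat_lit 48) (nat_lit 5) (nat_lit 49) (nat_lit 5) (nat_lit 338) (nat_lit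 286) (nat_lit 264)) (XT.lf (nat_lit 0) (nat_lit 1765162037) (nat_lit 420) (nat_lit 7804822462) (nat_lit 84) (nat_lit 83785287) (nat_lit 38) (nat_lit 5) (nat_lit 43) (nat_lit 5) (nat_lit 39) (nat_lit 5) (nat_lit 339) (nat_lit 286) (nat_lit 263)))))) (XT.nd (nat_lit 658) (nat_lit 252) (nat_lit 0) (XT.nd (nat_lit 282) (nat_lit 336) (nat_lit 0) (XT.nd (nat_lit 94) (nat_lit 336) (nat_lit 0) (XT.lf (nat_lit 0) (nat_lit 3693380961) (nat_lit 420) (nat_lit 4271394279) (nat_lit 84) (nat_lit 1870917019) (nat_lit 38) (nat_lit 5) (nat_lit 43) (nat_lit 5) (nat_lit 39) (nat_lit 5) (nat_lit 340) (nat_lit 286) (nat_lit 262)) (XT.nd (nat_lit 94) (nat_lit 336) (nat_lit 0) (XT.lf (nat_lit 0) (nat_lit 5634794245) (nat_lit 420) (nat_lit 684121028) (nat_lit 84) (nat_lit 3706093714) (nat_lit 38) (nat_lit 5) (nat_lit 43) (nat_lit 5) (nat_lit 39) (nat_lit 5) (nat_lit 341) (nat_lit 286) (nat_lit 261)) (XT.lf (nat_lit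 0) (nat_lit 3021211687) (nat_lit 336) (nat_lit 4599970598) (nat_lit 420) (nat_lit 2599785056) (nat_lit 34) (nat_lit 5) (nat_lit 38) (nat_lit 5) (nat_lit 39) (nat_lit 5) (nat_lit 342) (nat_lit 286) (nat_lit 260)))) (XT.nd (nat_lit 188) (nat_lit 0) (nat_lit 0) (XT.nd (nat_lit 94) (nat_lit 336) (nat_lit 0) (XT.lf (nat_lit 0) (nat_lit 6802442905) (nat_lit 336) (nat_lit 2829494455) (nat_lit 420) (nat_lit 792508849) (nat_lit 34) (nat_lit 5) (nat_lit 38) (nat_lit 5) (nat_lit 39) (nat_lit 5) (nat_lit 343) (nat_lit 286) (nat_lit 259)) (XT.lf (nat_lit 0) (nat_lit 3062320) (nat_lit 252) (nat_lit 1002450896) (nat_lit 336) (nat_lit 9630020239) (nat_lit 30) (nat_lit 5) (nat_lit 33) (nat_lit 5) (nat_lit 34) (nat_lit 5) (nat_lit 344) (nat_lit 286) (nat_lit 258))) (XT.nd (nat_lit 94) (nat_lit 0) (nat_lit 0) (XT.lf (nat_lit 0) (nat_lit 2846710015) (nat_lit 336) (nat_lit 7105939428) (nat_lit 84) (nat_lit 900409531)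 (nat_lit 30) (nat_lit 5) (nat_lit 34) (nat_lit 5) (nat_lit 31) (nat_lit 5) (nat_lit 345) (nat_lit 286) (nat_lit 257)) (XT.lf (nat_lit 0) (nat_lit 4713494093) (nat_lit 336) (nat_lit 3532716682) (nat_lit 84) (nat_lit 2832351862) (nat_lit 30) (nat_lit 5) (nat_lit 34) (nat_lit 5) (nat_lit 31) (nat_lit 5) (nat_lit 346) (nat_lit 286) (nat_lit 256))))) (XT.nd (nat_lit 52734) (nat_lit 0) (nat_lit 6300) (XT.nd (nat_lit 94) (nat_lit 0) (nat_lit 0) (XT.lf (nat_lit 0) (nat_lit 102538070) (nat_lit 252) (nat_lit 6496140170) (nat_lit 336) (nat_lit 4713853140) (nat_lit 27) (nat_lit 5) (nat_lit 30) (nat_lit 5) (nat_lit 31) (nat_lit 5) (nat_lit 347) (nat_lit 286) (nat_lit 255)) (XT.nd (nat_lit 52546) (nat_lit 0) (nat_lit 7812) (XT.lf (nat_lit 0) (nat_lit 3875087990) (nat_lit 252) (nat_lit 4664320492) (nat_lit 336) (nat_lit 3014677752) (nat_lit 27) (nat_lit 5) (nat_lit 30) (nat_lit 5) (nat_lit 31) (nat_lit 5)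 (nat_lit 348) (nat_lit 286) (nat_lit 254)) (XT.lf (nat_lit 0) (nat_lit 1329435441) (nat_lit 588) (nat_lit 1059813040) (nat_lit 588) (nat_lit 1059813040) (nat_lit 120) (nat_lit 4) (nat_lit 127) (nat_lit 5) (nat_lit 127) (nat_lit 4) (nat_lit 314) (nat_lit 287) (nat_lit 287)))) (XT.nd (nat_lit 188) (nat_lit 756) (nat_lit 0) (XT.nd (nat_lit 94) (nat_lit 672) (nat_lit 0) (XT.lf (nat_lit 0) (nat_lit 207036678) (nat_lit 672) (nat_lit 1111303789) (nat_lit 84) (nat_lit 5635085588) (nat_lit 119) (nat_lit 5) (nat_lit 127) (nat_lit 5) (nat_lit 120) (nat_lit 4) (nat_lit 315) (nat_lit 287) (nat_lit 286)) (XT.lf (nat_lit 0) (nat_lit 2069366010) (nat_lit 672) (nat_lit 435261619) (nat_lit 756) (nat_lit 4507692364) (nat_lit 111) (nat_lit 5) (nat_lit 119) (nat_lit 5) (nat_lit 120) (nat_lit 4) (nat_lit 316) (nat_lit 287) (nat_lit 285))) (XT.nd (nat_lit 94) (nat_lit 756) (nat_lit 0) (XT.lf (nat_lit 0) (nat_lit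 4814007167) (nat_lit 756) (nat_lit 1772157351) (nat_lit 0) (nat_lit 489470666) (nat_lit 111) (nat_lit 5) (nat_lit 120) (nat_lit 4) (nat_lit 111) (nat_lit 4) (nat_lit 317) (nat_lit 287) (nat_lit 284)) (XT.lf (nat_lit 0) (nat_lit 1457007148) (nat_lit 756) (nat_lit 5683287863) (nat_lit 756) (nat_lit 3043649) (nat_lit 102) (nat_lit 4) (nat_lit 111) (nat_lit 5) (nat_lit 111) (nat_lit 4) (nat_lit 318) (nat_lit 287) (nat_lit 283))))))) (XT.nd (nat_lit 1222) (nat_lit 2352) (nat_lit 0) (XT.nd (nat_lit 564) (nat_lit 1764) (nat_lit 0) (XT.nd (nat_lit 282) (nat_lit 1008) (nat_lit 0) (XT.nd (nat_lit 94) (nat_lit 840) (nat_lit 0) (XT.lf (nat_lit 0) (nat_lit 2223946447) (nat_lit 840) (nat_lit 2478353415) (nat_lit 84) (nat_lit 2512510443) (nat_lit 101) (nat_lit 5) (nat_lit 111) (nat_lit 5) (nat_lit 102) (nat_lit 4) (nat_lit 319) (nat_lit 287) (nat_lit 282)) (XT.nd (nat_lit 94) (nat_lit 0) (nat_lit 0) (XT.lf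 (nat_lit 0) (nat_lit 780388156) (nat_lit 840) (nat_lit 3676029189) (nat_lit 924) (nat_lit 2834713971) (nat_lit 91) (nat_lit 5) (nat_lit 101) (nat_lit 5) (nat_lit 102) (nat_lit 4) (nat_lit 320) (nat_lit 287) (nat_lit 281)) (XT.lf (nat_lit 0) (nat_lit 4128966454) (nat_lit 840) (nat_lit 2585272813) (nat_lit 924) (nat_lit 657584937) (nat_lit 91) (nat_lit 5) (nat_lit 101) (nat_lit 5) (nat_lit 102) (nat_lit 4) (nat_lit 321) (nat_lit 287) (nat_lit 280)))) (XT.nd (nat_lit 94) (nat_lit 0) (nat_lit 0) (XT.lf (nat_lit 0) (nat_lit 47716357) (nat_lit 924) (nat_lit 1438882829) (nat_lit 1008) (nat_lit 5970661730) (nat_lit 79) (nat_lit 5) (nat_lit 90) (nat_lit 5) (nat_lit 91) (nat_lit 5) (nat_lit 322) (nat_lit 287) (nat_lit 279)) (XT.nd (nat_lit 94) (nat_lit 0) (nat_lit 0) (XT.lf (nat_lit 0) (nat_lit 3438994017) (nat_lit 924) (nat_lit 210891942) (nat_lit 1008) (nat_lit 3896886474) (nat_lit 79) (nat_lit 5)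 (nat_lit 90) (nat_lit 5) (nat_lit 91) (nat_lit 5) (nat_lit 323) (nat_lit 287) (nat_lit 278)) (XT.lf (nat_lit 0) (nat_lit 5825284450) (nat_lit 1008) (nat_lit 778054989) (nat_lit 84) (nat_lit 1037994919) (nat_lit 79) (nat_lit 5) (nat_lit 91) (nat_lit 5) (nat_lit 80) (nat_lit 4) (nat_lit 324) (nat_lit 287) (nat_lit 277))))) (XT.nd (nat_lit 282) (nat_lit 504) (nat_lit 0) (XT.nd (nat_lit 94) (nat_lit 504) (nat_lit 0) (XT.lf (nat_lit 0) (nat_lit 286690839) (nat_lit 756) (nat_lit 5099376377) (nat_lit 84) (nat_lit 2354312414) (nat_lit 70) (nat_lit 5) (nat_lit 79) (nat_lit 5) (nat_lit 71) (nat_lit 5) (nat_lit 325) (nat_lit 287) (nat_lit 276)) (XT.nd (nat_lit 94) (nat_lit 504) (nat_lit 0) (XT.lf (nat_lit 0) (nat_lit 2361782591) (nat_lit 756) (nat_lit 1741557837) (nat_lit 84) (nat_lit 3740809531) (nat_lit 70) (nat_lit 5) (nat_lit 79) (nat_lit 5) (nat_lit 71) (nat_lit 5) (nat_lit 326) (nat_lit 287) (nat_lit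 275)) (XT.lf (nat_lit 0) (nat_lit 1693162978) (nat_lit 504) (nat_lit 2763424646) (nat_lit 588) (nat_lit 3496438927) (nat_lit 64) (nat_lit 5) (nat_lit 70) (nat_lit 5) (nat_lit 71) (nat_lit 5) (nat_lit 327) (nat_lit 287) (nat_lit 274)))) (XT.nd (nat_lit 188) (nat_lit 0) (nat_lit 0) (XT.nd (nat_lit 94) (nat_lit 504) (nat_lit 0) (XT.lf (nat_lit 0) (nat_lit 5210597333) (nat_lit 504) (nat_lit 1363746136) (nat_lit 588) (nat_lit 1492727583) (nat_lit 64) (nat_lit 5) (nat_lit 70) (nat_lit 5) (nat_lit 71) (nat_lit 5) (nat_lit 328) (nat_lit 287) (nat_lit 273)) (XT.lf (nat_lit 0) (nat_lit 508960487) (nat_lit 504) (nat_lit 7589242179) (nat_lit 84) (nat_lit 88364383) (nat_lit 58) (nat_lit 5) (nat_lit 64) (nat_lit 5) (nat_lit 59) (nat_lit 5) (nat_lit 329) (nat_lit 287) (nat_lit 272))) (XT.nd (nat_lit 94) (nat_lit 0) (nat_lit 0) (XT.lf (nat_lit 0) (nat_lit 2527516346) (nat_lit 504) (nat_lit 4181781682) (nat_lit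 84) (nat_lit 1600883729) (nat_lit 58) (nat_lit 5) (nat_lit 64) (nat_lit 5) (nat_lit 59) (nat_lit 5) (nat_lit 330) (nat_lit 287) (nat_lit 271)) (XT.lf (nat_lit 0) (nat_lit 4552153093) (nat_lit 504) (nat_lit 728986277) (nat_lit 84) (nat_lit 3158675124) (nat_lit 58) (nat_lit 5) (nat_lit 64) (nat_lit 5) (nat_lit 59) (nat_lit 5) (nat_lit 331) (nat_lit 287) (nat_lit 270)))))) (XT.nd (nat_lit 658) (nat_lit 1008) (nat_lit 0) (XT.nd (nat_lit 282) (nat_lit 504) (nat_lit 0) (XT.nd (nat_lit 94) (nat_lit 420) (nat_lit 0) (XT.lf (nat_lit 0) (nat_lit 2829367858) (nat_lit 420) (nat_lit 3783457724) (nat_lit 504) (nat_lit 1961890413) (nat_lit 53) (nat_lit 5) (nat_lit 58) (nat_lit 5) (nat_lit 59) (nat_lit 5) (nat_lit 332) (nat_lit 287) (nat_lit 269)) (XT.nd (nat_lit 94) (nat_lit 420) (nat_lit 0) (XT.lf (nat_lit 0) (nat_lit 6455593808) (nat_lit 420) (nat_lit 2235671860) (nat_lit 504) (nat_lit 24372192) (nat_lit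 53) (nat_lit 5) (nat_lit 58) (nat_lit 5) (nat_lit 59) (nat_lit 5) (nat_lit 333) (nat_lit 287) (nat_lit 268)) (XT.lf (nat_lit 0) (nat_lit 1281932377) (nat_lit 336) (nat_lit 611209269) (nat_lit 420) (nat_lit 6968814192) (nat_lit 48) (nat_lit 5) (nat_lit 52) (nat_lit 5) (nat_lit 53) (nat_lit 5) (nat_lit 334) (nat_lit 287) (nat_lit 267)))) (XT.nd (nat_lit 188) (nat_lit 504) (nat_lit 0) (XT.nd (nat_lit 94) (nat_lit 0) (nat_lit 0) (XT.lf (nat_lit 0) (nat_lit 3851924770) (nat_lit 420) (nat_lit 4100475631) (nat_lit 84) (nat_lit 1061322354) (nat_lit 48) (nat_lit 5) (nat_lit 53) (nat_lit 5) (nat_lit 49) (nat_lit 5) (nat_lit 335) (nat_lit 287) (nat_lit 266)) (XT.lf (nat_lit 0) (nat_lit 5827196403) (nat_lit 420) (nat_lit 576517100) (nat_lit 84) (nat_lit 2768214089) (nat_lit 48) (nat_lit 5) (nat_lit 53) (nat_lit 5) (nat_lit 49) (nat_lit 5) (nat_lit 336) (nat_lit 287) (nat_lit 265))) (XT.nd (nat_lit 94)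 (nat_lit 84) (nat_lit 0) (XT.lf (nat_lit 0) (nat_lit 3062910932) (nat_lit 420) (nat_lit 4782207957) (nat_lit 504) (nat_lit 1490844966) (nat_lit 43) (nat_lit 5) (nat_lit 48) (nat_lit 5) (nat_lit 49) (nat_lit 5) (nat_lit 337) (nat_lit 287) (nat_lit 264)) (XT.lf (nat_lit 0) (nat_lit 369254099) (nat_lit 504) (nat_lit 2738005975) (nat_lit 84) (nat_lit 6399352421) (nat_lit 42) (nat_lit 5) (nat_lit 48) (nat_lit 5) (nat_lit 43) (nat_lit 5) (nat_lit 338) (nat_lit 287) (nat_lit 263))))) (XT.nd (nat_lit 282) (nat_lit 672) (nat_lit 0) (XT.nd (nat_lit 94) (nat_lit 0) (nat_lit 0) (XT.lf (nat_lit 0) (nat_lit 854020441) (nat_lit 336) (nat_lit 1363104219) (nat_lit 420) (nat_lit 7466480817) (nat_lit 38) (nat_lit 5) (nat_lit 42) (nat_lit 5) (nat_lit 43) (nat_lit 5) (nat_lit 339) (nat_lit 287) (nat_lit 262)) (XT.nd (nat_lit 94) (nat_lit 0) (nat_lit 0) (XT.lf (nat_lit 0) (nat_lit 4108886696) (nat_lit 420) (nat_lit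 5310055274) (nat_lit 84) (nat_lit 447869104) (nat_lit 38) (nat_lit 5) (nat_lit 43) (nat_lit 5) (nat_lit 39) (nat_lit 5) (nat_lit 340) (nat_lit 287) (nat_lit 261)) (XT.lf (nat_lit 0) (nat_lit 6028054855) (nat_lit 420) (nat_lit 1749378128) (nat_lit 84) (nat_lit 2279532782) (nat_lit 38) (nat_lit 5) (nat_lit 43) (nat_lit 5) (nat_lit 39) (nat_lit 5) (nat_lit 341) (nat_lit 287) (nat_lit 260)))) (XT.nd (nat_lit 188) (nat_lit 336) (nat_lit 0) (XT.nd (nat_lit 94) (nat_lit 0) (nat_lit 0) (XT.lf (nat_lit 0) (nat_lit 1907723873) (nat_lit 336) (nat_lit 6074096823) (nat_lit 420) (nat_lit 2272258612) (nat_lit 34) (nat_lit 5) (nat_lit 38) (nat_lit 5) (nat_lit 39) (nat_lit 5) (nat_lit 342) (nat_lit 287) (nat_lit 259)) (XT.lf (nat_lit 0) (nat_lit 5663419841) (nat_lit 336) (nat_lit 4307975108) (nat_lit 420) (nat_lit 486959408) (nat_lit 34) (nat_lit 5) (nat_lit 38) (nat_lit 5) (nat_lit 39) (nat_lit 5) (nat_lit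 343) (nat_lit 287) (nat_lit 258))) (XT.nd (nat_lit 94) (nat_lit 252) (nat_lit 0) (XT.lf (nat_lit 0) (nat_lit 1283989412) (nat_lit 420) (nat_lit 1198289920) (nat_lit 84) (nat_lit 8187848046) (nat_lit 33) (nat_lit 5) (nat_lit 38) (nat_lit 5) (nat_lit 34) (nat_lit 5) (nat_lit 344) (nat_lit 287) (nat_lit 257)) (XT.lf (nat_lit 0) (nat_lit 2505454621) (nat_lit 252) (nat_lit 577976720) (nat_lit 336) (nat_lit 7805643317) (nat_lit 30) (nat_lit 5) (nat_lit 33) (nat_lit 5) (nat_lit 34) (nat_lit 5) (nat_lit 345) (nat_lit 287) (nat_lit 256))))))))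
noncomputable def xc6 : XT := (XT.nd (nat_lit 54802) (nat_lit 0) (nat_lit 0) (XT.nd (nat_lit 53486) (nat_lit 0) (nat_lit 1764) (XT.nd (nat_lit 52828) (nat_lit 0) (nat_lit 5292) (XT.nd (nat_lit 52546) (nat_lit 0) (nat_lit 7812) (XT.nd (nat_lit 94) (nat_lit 252) (nat_lit 0) (XT.lf (nat_lit 0) (nat_lit 4924547093) (nat_lit 336) (nat_lit 4829677877) (nat_lit 84) (nat_lit 1361272598) (nat_lit 30) (nat_lit 5) (nat_lit 34) (nat_lit 5) (nat_lit 31) (nat_lit 5) (nat_lit 346) (nat_lit 287) (nat_lit 255)) (XT.nd (nat_lit 94) (nat_lit 252) (nat_lit 0) (XT.lf (nat_lit 0) (nat_lit 6789378722) (nat_lit 336) (nat_lit 1220751099) (nat_lit 84) (nat_lit 3340087235) (nat_lit 30) (nat_lit 5) (nat_lit 34) (nat_lit 5) (nat_lit 31) (nat_lit 5) (nat_lit 347) (nat_lit 287) (nat_lit 254)) (XT.lf (nat_lit 0) (nat_lit 2502681242) (nat_lit 252) (nat_lit 6196076509) (nat_lit 336) (nat_lit 2894102260) (nat_lit 27) (nat_lit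 5) (nat_lit 30) (nat_lit 5) (nat_lit 31) (nat_lit 5) (nat_lit 348) (nat_lit 287) (nat_lit 253)))) (XT.nd (nat_lit 94) (nat_lit 588) (nat_lit 0) (XT.lf (nat_lit 0) (nat_lit 822595890) (nat_lit 588) (nat_lit 1754338582) (nat_lit 0) (nat_lit 822595890) (nat_lit 127) (nat_lit 5) (nat_lit 134) (nat_lit 4) (nat_lit 127) (nat_lit 4) (nat_lit 312) (nat_lit 288) (nat_lit 288)) (XT.nd (nat_lit 94) (nat_lit 588) (nat_lit 0) (XT.lf (nat_lit 0) (nat_lit 3971993694) (nat_lit 588) (nat_lit 482722469) (nat_lit 0) (nat_lit 2392712757) (nat_lit 127) (nat_lit 5) (nat_lit 134) (nat_lit 4) (nat_lit 127) (nat_lit 4) (nat_lit 313) (nat_lit 288) (nat_lit 287)) (XT.lf (nat_lit 0) (nat_lit 2627455921) (nat_lit 588) (nat_lit 3691673874) (nat_lit 588) (nat_lit 580597653) (nat_lit 120) (nat_lit 4) (nat_lit 127) (nat_lit 5) (nat_lit 127) (nat_lit 4) (nat_lit 314) (nat_lit 288) (nat_lit 286))))) (XT.nd (nat_lit 282) (nat_lit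 1764) (nat_lit 0) (XT.nd (nat_lit 94) (nat_lit 672) (nat_lit 0) (XT.lf (nat_lit 0) (nat_lit 1676801524) (nat_lit 672) (nat_lit 1191229748) (nat_lit 84) (nat_lit 4088094072) (nat_lit 119) (nat_lit 5) (nat_lit 127) (nat_lit 5) (nat_lit 120) (nat_lit 4) (nat_lit 315) (nat_lit 288) (nat_lit 285)) (XT.nd (nat_lit 94) (nat_lit 0) (nat_lit 0) (XT.lf (nat_lit 0) (nat_lit 1956477690) (nat_lit 672) (nat_lit 1979689596) (nat_lit 756) (nat_lit 3080407730) (nat_lit 111) (nat_lit 5) (nat_lit 119) (nat_lit 5) (nat_lit 120) (nat_lit 4) (nat_lit 316) (nat_lit 288) (nat_lit 284)) (XT.lf (nat_lit 0) (nat_lit 5165321356) (nat_lit 672) (nat_lit 1038979026) (nat_lit 756) (nat_lit 877228069) (nat_lit 111) (nat_lit 5) (nat_lit 119) (nat_lit 5) (nat_lit 120) (nat_lit 4) (nat_lit 317) (nat_lit 288) (nat_lit 283)))) (XT.nd (nat_lit 188) (nat_lit 924) (nat_lit 0) (XT.nd (nat_lit 94) (nat_lit 0) (nat_lit 0) (XT.lf (nat_lit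 0) (nat_lit 1274972982) (nat_lit 756) (nat_lit 30917937) (nat_lit 840) (nat_lit 5844731173) (nat_lit 101) (nat_lit 5) (nat_lit 110) (nat_lit 5) (nat_lit 111) (nat_lit 5) (nat_lit 318) (nat_lit 288) (nat_lit 282)) (XT.lf (nat_lit 0) (nat_lit 3497439516) (nat_lit 840) (nat_lit 2699091099) (nat_lit 84) (nat_lit 1026987105) (nat_lit 101) (nat_lit 5) (nat_lit 111) (nat_lit 5) (nat_lit 102) (nat_lit 4) (nat_lit 319) (nat_lit 288) (nat_lit 281))) (XT.nd (nat_lit 94) (nat_lit 84) (nat_lit 0) (XT.lf (nat_lit 0) (nat_lit 523735949) (nat_lit 840) (nat_lit 5169609560) (nat_lit 924) (nat_lit 1607945002) (nat_lit 91) (nat_lit 5) (nat_lit 101) (nat_lit 5) (nat_lit 102) (nat_lit 4) (nat_lit 320) (nat_lit 288) (nat_lit 280)) (XT.lf (nat_lit 0) (nat_lit 523775305) (nat_lit 924) (nat_lit 3546745141) (nat_lit 84) (nat_lit 3312639500) (nat_lit 90) (nat_lit 5) (nat_lit 101) (nat_lit 5) (nat_lit 91) (nat_lit 5) (nat_lit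 321) (nat_lit 288) (nat_lit 279)))))) (XT.nd (nat_lit 658) (nat_lit 1344) (nat_lit 0) (XT.nd (nat_lit 282) (nat_lit 1260) (nat_lit 0) (XT.nd (nat_lit 94) (nat_lit 924) (nat_lit 0) (XT.lf (nat_lit 0) (nat_lit 2621316802) (nat_lit 924) (nat_lit 294140326) (nat_lit 84) (nat_lit 4554262926) (nat_lit 90) (nat_lit 5) (nat_lit 101) (nat_lit 5) (nat_lit 91) (nat_lit 5) (nat_lit 322) (nat_lit 288) (nat_lit 278)) (XT.nd (nat_lit 94) (nat_lit 0) (nat_lit 0) (XT.lf (nat_lit 0) (nat_lit 3060913244) (nat_lit 924) (nat_lit 1688482519) (nat_lit 1008) (nat_lit 2811208933) (nat_lit 79) (nat_lit 5) (nat_lit 90) (nat_lit 5) (nat_lit 91) (nat_lit 5) (nat_lit 323) (nat_lit 288) (nat_lit 277)) (XT.lf (nat_lit 0) (nat_lit 6466764500) (nat_lit 924) (nat_lit 416260166) (nat_lit 1008) (nat_lit 773710023) (nat_lit 79) (nat_lit 5) (nat_lit 90) (nat_lit 5) (nat_lit 91) (nat_lit 5) (nat_lit 324) (nat_lit 288) (nat_lit 276))))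 (XT.nd (nat_lit 188) (nat_lit 504) (nat_lit 0) (XT.nd (nat_lit 94) (nat_lit 0) (nat_lit 0) (XT.lf (nat_lit 0) (nat_lit 1268513477) (nat_lit 756) (nat_lit 5572578776) (nat_lit 84) (nat_lit 915849202) (nat_lit 70) (nat_lit 5) (nat_lit 79) (nat_lit 5) (nat_lit 71) (nat_lit 5) (nat_lit 325) (nat_lit 288) (nat_lit 275)) (XT.lf (nat_lit 0) (nat_lit 3313368424) (nat_lit 756) (nat_lit 2244944165) (nat_lit 84) (nat_lit 2303585837) (nat_lit 70) (nat_lit 5) (nat_lit 79) (nat_lit 5) (nat_lit 71) (nat_lit 5) (nat_lit 326) (nat_lit 288) (nat_lit 274))) (XT.nd (nat_lit 94) (nat_lit 0) (nat_lit 0) (XT.lf (nat_lit 0) (nat_lit 1149547651) (nat_lit 504) (nat_lit 4223905426) (nat_lit 588) (nat_lit 2598640075) (nat_lit 64) (nat_lit 5) (nat_lit 70) (nat_lit 5) (nat_lit 71) (nat_lit 5) (nat_lit 327) (nat_lit 288) (nat_lit 273)) (XT.lf (nat_lit 0) (nat_lit 4638002042) (nat_lit 504) (nat_lit 2824473569) (nat_lit 588)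 (nat_lit 624787310) (nat_lit 64) (nat_lit 5) (nat_lit 70) (nat_lit 5) (nat_lit 71) (nat_lit 5) (nat_lit 328) (nat_lit 288) (nat_lit 272))))) (XT.nd (nat_lit 282) (nat_lit 840) (nat_lit 0) (XT.nd (nat_lit 94) (nat_lit 420) (nat_lit 0) (XT.lf (nat_lit 0) (nat_lit 1324207103) (nat_lit 588) (nat_lit 44116104) (nat_lit 84) (nat_lit 6839480846) (nat_lit 63) (nat_lit 5) (nat_lit 70) (nat_lit 5) (nat_lit 64) (nat_lit 5) (nat_lit 329) (nat_lit 288) (nat_lit 271)) (XT.nd (nat_lit 94) (nat_lit 0) (nat_lit 0) (XT.lf (nat_lit 0) (nat_lit 3300921799) (nat_lit 504) (nat_lit 4861490140) (nat_lit 84) (nat_lit 170517904) (nat_lit 58) (nat_lit 5) (nat_lit 64) (nat_lit 5) (nat_lit 59) (nat_lit 5) (nat_lit 330) (nat_lit 288) (nat_lit 270)) (XT.lf (nat_lit 0) (nat_lit 5298578893) (nat_lit 504) (nat_lit 1437490099) (nat_lit 84) (nat_lit 1727537532) (nat_lit 58) (nat_lit 5) (nat_lit 64) (nat_lit 5) (nat_lit 59) (nat_lit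 5) (nat_lit 331) (nat_lit 288) (nat_lit 269)))) (XT.nd (nat_lit 188) (nat_lit 336) (nat_lit 0) (XT.nd (nat_lit 94) (nat_lit 84) (nat_lit 0) (XT.lf (nat_lit 0) (nat_lit 2077791908) (nat_lit 420) (nat_lit 5247835315) (nat_lit 504) (nat_lit 1274124482) (nat_lit 53) (nat_lit 5) (nat_lit 58) (nat_lit 5) (nat_lit 59) (nat_lit 5) (nat_lit 332) (nat_lit 288) (nat_lit 268)) (XT.lf (nat_lit 0) (nat_lit 623918228) (nat_lit 504) (nat_lit 3071609719) (nat_lit 84) (nat_lit 5045940417) (nat_lit 52) (nat_lit 5) (nat_lit 58) (nat_lit 5) (nat_lit 53) (nat_lit 5) (nat_lit 333) (nat_lit 288) (nat_lit 267))) (XT.nd (nat_lit 94) (nat_lit 0) (nat_lit 0) (XT.lf (nat_lit 0) (nat_lit 425346701) (nat_lit 336) (nat_lit 2081772341) (nat_lit 420) (nat_lit 6381891999) (nat_lit 48) (nat_lit 5) (nat_lit 52) (nat_lit 5) (nat_lit 53) (nat_lit 5) (nat_lit 334) (nat_lit 288) (nat_lit 266)) (XT.lf (nat_lit 0) (nat_lit 4040498150)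 (nat_lit 336) (nat_lit 389825754) (nat_lit 420) (nat_lit 4611735167) (nat_lit 48) (nat_lit 5) (nat_lit 52) (nat_lit 5) (nat_lit 53) (nat_lit 5) (nat_lit 335) (nat_lit 288) (nat_lit 265))))))) (XT.nd (nat_lit 53298) (nat_lit 0) (nat_lit 4368) (XT.nd (nat_lit 564) (nat_lit 924) (nat_lit 0) (XT.nd (nat_lit 282) (nat_lit 336) (nat_lit 0) (XT.nd (nat_lit 94) (nat_lit 504) (nat_lit 0) (XT.lf (nat_lit 0) (nat_lit 6377618608) (nat_lit 420) (nat_lit 1501053854) (nat_lit 84) (nat_lit 1322631561) (nat_lit 48) (nat_lit 5) (nat_lit 53) (nat_lit 5) (nat_lit 49) (nat_lit 5) (nat_lit 336) (nat_lit 288) (nat_lit 264)) (XT.nd (nat_lit 94) (nat_lit 84) (nat_lit 0) (XT.lf (nat_lit 0) (nat_lit 2092321798) (nat_lit 420) (nat_lit 6270206054) (nat_lit 504) (nat_lit 1004003478) (nat_lit 43) (nat_lit 5) (nat_lit 48) (nat_lit 5) (nat_lit 49) (nat_lit 5) (nat_lit 337) (nat_lit 288) (nat_lit 263)) (XT.lf (nat_lit 0) (nat_lit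 822950918) (nat_lit 504) (nat_lit 3770858561) (nat_lit 84) (nat_lit 4944101892) (nat_lit 42) (nat_lit 5) (nat_lit 48) (nat_lit 5) (nat_lit 43) (nat_lit 5) (nat_lit 338) (nat_lit 288) (nat_lit 262)))) (XT.nd (nat_lit 94) (nat_lit 336) (nat_lit 0) (XT.lf (nat_lit 0) (nat_lit 2639715256) (nat_lit 504) (nat_lit 222097384) (nat_lit 84) (nat_lit 6854208968) (nat_lit 42) (nat_lit 5) (nat_lit 48) (nat_lit 5) (nat_lit 43) (nat_lit 5) (nat_lit 339) (nat_lit 288) (nat_lit 261)) (XT.nd (nat_lit 94) (nat_lit 0) (nat_lit 0) (XT.lf (nat_lit 0) (nat_lit 3454951220) (nat_lit 336) (nat_lit 1047533703) (nat_lit 420) (nat_lit 5397789410) (nat_lit 38) (nat_lit 5) (nat_lit 42) (nat_lit 5) (nat_lit 43) (nat_lit 5) (nat_lit 340) (nat_lit 288) (nat_lit 260)) (XT.lf (nat_lit 0) (nat_lit 6389685157) (nat_lit 420) (nat_lit 2900050718) (nat_lit 84) (nat_lit 801828056) (nat_lit 38) (nat_lit 5) (nat_lit 43) (nat_lit 5) (nat_lit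 39) (nat_lit 5) (nat_lit 341) (nat_lit 288) (nat_lit 259))))) (XT.nd (nat_lit 282) (nat_lit 504) (nat_lit 0) (XT.nd (nat_lit 94) (nat_lit 84) (nat_lit 0) (XT.lf (nat_lit 0) (nat_lit 707855844) (nat_lit 336) (nat_lit 7602764805) (nat_lit 420) (nat_lit 1979214142) (nat_lit 34) (nat_lit 5) (nat_lit 38) (nat_lit 5) (nat_lit 39) (nat_lit 5) (nat_lit 342) (nat_lit 288) (nat_lit 258)) (XT.nd (nat_lit 94) (nat_lit 84) (nat_lit 0) (XT.lf (nat_lit 0) (nat_lit 4438784353) (nat_lit 336) (nat_lit 5840866590) (nat_lit 420) (nat_lit 215231138) (nat_lit 34) (nat_lit 5) (nat_lit 38) (nat_lit 5) (nat_lit 39) (nat_lit 5) (nat_lit 343) (nat_lit 288) (nat_lit 257)) (XT.lf (nat_lit 0) (nat_lit 1529984257) (nat_lit 420) (nat_lit 2486715384) (nat_lit 84) (nat_lit 6690627277) (nat_lit 33) (nat_lit 5) (nat_lit 38) (nat_lit 5) (nat_lit 34) (nat_lit 5) (nat_lit 344) (nat_lit 288) (nat_lit 256)))) (XT.nd (nat_lit 188)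 (nat_lit 252) (nat_lit 0) (XT.nd (nat_lit 94) (nat_lit 0) (nat_lit 0) (XT.lf (nat_lit 0) (nat_lit 1166218529) (nat_lit 252) (nat_lit 2130272700) (nat_lit 336) (nat_lit 7630927484) (nat_lit 30) (nat_lit 5) (nat_lit 33) (nat_lit 5) (nat_lit 34) (nat_lit 5) (nat_lit 345) (nat_lit 288) (nat_lit 255)) (XT.lf (nat_lit 0) (nat_lit 4937205726) (nat_lit 252) (nat_lit 167326860) (nat_lit 336) (nat_lit 6050454160) (nat_lit 30) (nat_lit 5) (nat_lit 33) (nat_lit 5) (nat_lit 34) (nat_lit 5) (nat_lit 346) (nat_lit 288) (nat_lit 254))) (XT.nd (nat_lit 94) (nat_lit 252) (nat_lit 0) (XT.lf (nat_lit 0) (nat_lit 6948950354) (nat_lit 336) (nat_lit 2630726892) (nat_lit 84) (nat_lit 1810778029) (nat_lit 30) (nat_lit 5) (nat_lit 34) (nat_lit 5) (nat_lit 31) (nat_lit 5) (nat_lit 347) (nat_lit 288) (nat_lit 253)) (XT.lf (nat_lit 0) (nat_lit 1040419148) (nat_lit 252) (nat_lit 7785214350) (nat_lit 336) (nat_lit 2808591025)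 (nat_lit 27) (nat_lit 5) (nat_lit 30) (nat_lit 5) (nat_lit 31) (nat_lit 5) (nat_lit 348) (nat_lit 288) (nat_lit 252)))))) (XT.nd (nat_lit 658) (nat_lit 2688) (nat_lit 0) (XT.nd (nat_lit 282) (nat_lit 1344) (nat_lit 0) (XT.nd (nat_lit 94) (nat_lit 588) (nat_lit 0) (XT.lf (nat_lit 0) (nat_lit 2005015039) (nat_lit 420) (nat_lit 675737488) (nat_lit 420) (nat_lit 675737488) (nat_lit 134) (nat_lit 4) (nat_lit 139) (nat_lit 5) (nat_lit 139) (nat_lit 4) (nat_lit 310) (nat_lit 289) (nat_lit 289)) (XT.nd (nat_lit 94) (nat_lit 0) (nat_lit 0) (XT.lf (nat_lit 0) (nat_lit 242022671) (nat_lit 504) (nat_lit 703687183) (nat_lit 588) (nat_lit 5809459533) (nat_lit 127) (nat_lit 5) (nat_lit 133) (nat_lit 5) (nat_lit 134) (nat_lit 4) (nat_lit 311) (nat_lit 289) (nat_lit 288)) (XT.lf (nat_lit 0) (nat_lit 3233905532) (nat_lit 588) (nat_lit 3540413427) (nat_lit 0) (nat_lit 26385949) (nat_lit 127) (nat_lit 5) (nat_lit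 134) (nat_lit 4) (nat_lit 127) (nat_lit 4) (nat_lit 312) (nat_lit 289) (nat_lit 287)))) (XT.nd (nat_lit 188) (nat_lit 672) (nat_lit 0) (XT.nd (nat_lit 94) (nat_lit 672) (nat_lit 0) (XT.lf (nat_lit 0) (nat_lit 5522370981) (nat_lit 588) (nat_lit 545240750) (nat_lit 0) (nat_lit 783056114) (nat_lit 127) (nat_lit 5) (nat_lit 134) (nat_lit 4) (nat_lit 127) (nat_lit 4) (nat_lit 313) (nat_lit 289) (nat_lit 286)) (XT.lf (nat_lit 0) (nat_lit 908172062) (nat_lit 672) (nat_lit 4380554830) (nat_lit 84) (nat_lit 1615530240) (nat_lit 119) (nat_lit 5) (nat_lit 127) (nat_lit 5) (nat_lit 120) (nat_lit 4) (nat_lit 314) (nat_lit 289) (nat_lit 285))) (XT.nd (nat_lit 94) (nat_lit 672) (nat_lit 0) (XT.lf (nat_lit 0) (nat_lit 3116768168) (nat_lit 672) (nat_lit 1335960565) (nat_lit 84) (nat_lit 2509268765) (nat_lit 119) (nat_lit 5) (nat_lit 127) (nat_lit 5) (nat_lit 120) (nat_lit 4) (nat_lit 315) (nat_lit 289) (nat_lit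 284)) (XT.lf (nat_lit 0) (nat_lit 1778393683) (nat_lit 672) (nat_lit 3559983988) (nat_lit 756) (nat_lit 1685599550) (nat_lit 111) (nat_lit 5) (nat_lit 119) (nat_lit 5) (nat_lit 120) (nat_lit 4) (nat_lit 316) (nat_lit 289) (nat_lit 283))))) (XT.nd (nat_lit 282) (nat_lit 1848) (nat_lit 0) (XT.nd (nat_lit 94) (nat_lit 756) (nat_lit 0) (XT.lf (nat_lit 0) (nat_lit 471250450) (nat_lit 756) (nat_lit 2137368130) (nat_lit 84) (nat_lit 4481604163) (nat_lit 110) (nat_lit 5) (nat_lit 119) (nat_lit 5) (nat_lit 111) (nat_lit 5) (nat_lit 317) (nat_lit 289) (nat_lit 282)) (XT.nd (nat_lit 94) (nat_lit 0) (nat_lit 0) (XT.lf (nat_lit 0) (nat_lit 1010152108) (nat_lit 756) (nat_lit 1589093996) (nat_lit 840) (nat_lit 4561289569) (nat_lit 101) (nat_lit 5) (nat_lit 110) (nat_lit 5) (nat_lit 111) (nat_lit 5) (nat_lit 318) (nat_lit 289) (nat_lit 281)) (XT.lf (nat_lit 0) (nat_lit 4241003204) (nat_lit 756) (nat_lit 505328233)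 (nat_lit 840) (nat_lit 2488796492) (nat_lit 101) (nat_lit 5) (nat_lit 110) (nat_lit 5) (nat_lit 111) (nat_lit 5) (nat_lit 319) (nat_lit 289) (nat_lit 280)))) (XT.nd (nat_lit 188) (nat_lit 924) (nat_lit 0) (XT.nd (nat_lit 94) (nat_lit 84) (nat_lit 0) (XT.lf (nat_lit 0) (nat_lit 197319519) (nat_lit 840) (nat_lit 6703670895) (nat_lit 924) (nat_lit 413497662) (nat_lit 91) (nat_lit 5) (nat_lit 101) (nat_lit 5) (nat_lit 102) (nat_lit 4) (nat_lit 320) (nat_lit 289) (nat_lit 279)) (XT.lf (nat_lit 0) (nat_lit 1661236789) (nat_lit 924) (nat_lit 3928692792) (nat_lit 84) (nat_lit 1807371555) (nat_lit 90) (nat_lit 5) (nat_lit 101) (nat_lit 5) (nat_lit 91) (nat_lit 5) (nat_lit 321) (nat_lit 289) (nat_lit 278))) (XT.nd (nat_lit 94) (nat_lit 924) (nat_lit 0) (XT.lf (nat_lit 0) (nat_lit 3726847729) (nat_lit 924) (nat_lit 705655960) (nat_lit 84) (nat_lit 3052629083) (nat_lit 90) (nat_lit 5) (nat_lit 101) (nat_lit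 5) (nat_lit 91) (nat_lit 5) (nat_lit 322) (nat_lit 289) (nat_lit 277)) (XT.lf (nat_lit 0) (nat_lit 2611667371) (nat_lit 924) (nat_lit 3207832272) (nat_lit 1008) (nat_lit 1757889220) (nat_lit 79) (nat_lit 5) (nat_lit 90) (nat_lit 5) (nat_lit 91) (nat_lit 5) (nat_lit 323) (nat_lit 289) (nat_lit 276))))))))
noncomputable def xc7 : XT := (XT.nd (nat_lit 54426) (nat_lit 0) (nat_lit 1512) (XT.nd (nat_lit 1222) (nat_lit 1512) (nat_lit 0) (XT.nd (nat_lit 564) (nat_lit 1260) (nat_lit 0) (XT.nd (nat_lit 282) (nat_lit 588) (nat_lit 0) (XT.nd (nat_lit 94) (nat_lit 672) (nat_lit 0) (XT.lf (nat_lit 0) (nat_lit 243085535) (nat_lit 1008) (nat_lit 1688054784) (nat_lit 84) (nat_lit 5743507190) (nat_lit 78) (nat_lit 5) (nat_lit 90) (nat_lit 5) (nat_lit 79) (nat_lit 5) (nat_lit 324) (nat_lit 289) (nat_lit 275)) (XT.nd (nat_lit 94) (nat_lit 0) (nat_lit 0) (XT.lf (nat_lit 0) (nat_lit 1648778563) (nat_lit 672) (nat_lit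 576300070) (nat_lit 756) (nat_lit 5551170906) (nat_lit 70) (nat_lit 5) (nat_lit 78) (nat_lit 5) (nat_lit 79) (nat_lit 5) (nat_lit 325) (nat_lit 289) (nat_lit 274)) (XT.lf (nat_lit 0) (nat_lit 4234888965) (nat_lit 756) (nat_lit 2823395759) (nat_lit 84) (nat_lit 824249973) (nat_lit 70) (nat_lit 5) (nat_lit 79) (nat_lit 5) (nat_lit 71) (nat_lit 5) (nat_lit 326) (nat_lit 289) (nat_lit 273)))) (XT.nd (nat_lit 94) (nat_lit 84) (nat_lit 0) (XT.lf (nat_lit 0) (nat_lit 530221941) (nat_lit 504) (nat_lit 5730162063) (nat_lit 588) (nat_lit 1733652232) (nat_lit 64) (nat_lit 5) (nat_lit 70) (nat_lit 5) (nat_lit 71) (nat_lit 5) (nat_lit 327) (nat_lit 289) (nat_lit 272)) (XT.nd (nat_lit 94) (nat_lit 0) (nat_lit 0) (XT.lf (nat_lit 0) (nat_lit 206983728) (nat_lit 588) (nat_lit 4121825228) (nat_lit 84) (nat_lit 3781423519) (nat_lit 63) (nat_lit 5) (nat_lit 70) (nat_lit 5) (nat_lit 64) (nat_lit 5) (nat_lit 328)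 (nat_lit 289) (nat_lit 271)) (XT.lf (nat_lit 0) (nat_lit 2115866017) (nat_lit 588) (nat_lit 750921811) (nat_lit 84) (nat_lit 5364860895) (nat_lit 63) (nat_lit 5) (nat_lit 70) (nat_lit 5) (nat_lit 64) (nat_lit 5) (nat_lit 329) (nat_lit 289) (nat_lit 270))))) (XT.nd (nat_lit 282) (nat_lit 420) (nat_lit 0) (XT.nd (nat_lit 94) (nat_lit 420) (nat_lit 0) (XT.lf (nat_lit 0) (nat_lit 2724121002) (nat_lit 420) (nat_lit 1332605756) (nat_lit 504) (nat_lit 4301366802) (nat_lit 58) (nat_lit 5) (nat_lit 63) (nat_lit 5) (nat_lit 64) (nat_lit 5) (nat_lit 330) (nat_lit 289) (nat_lit 269)) (XT.nd (nat_lit 94) (nat_lit 420) (nat_lit 0) (XT.lf (nat_lit 0) (nat_lit 6014995807) (nat_lit 504) (nat_lit 2224682450) (nat_lit 84) (nat_lit 250514344) (nat_lit 58) (nat_lit 5) (nat_lit 64) (nat_lit 5) (nat_lit 59) (nat_lit 5) (nat_lit 331) (nat_lit 289) (nat_lit 268)) (XT.lf (nat_lit 0) (nat_lit 1246766482) (nat_lit 420)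 (nat_lit 6761652178) (nat_lit 504) (nat_lit 619156791) (nat_lit 53) (nat_lit 5) (nat_lit 58) (nat_lit 5) (nat_lit 59) (nat_lit 5) (nat_lit 332) (nat_lit 289) (nat_lit 267)))) (XT.nd (nat_lit 188) (nat_lit 336) (nat_lit 0) (XT.nd (nat_lit 94) (nat_lit 0) (nat_lit 0) (XT.lf (nat_lit 0) (nat_lit 1240365235) (nat_lit 504) (nat_lit 3964476193) (nat_lit 84) (nat_lit 3565218036) (nat_lit 52) (nat_lit 5) (nat_lit 58) (nat_lit 5) (nat_lit 53) (nat_lit 5) (nat_lit 333) (nat_lit 289) (nat_lit 266)) (XT.lf (nat_lit 0) (nat_lit 3094783470) (nat_lit 504) (nat_lit 502782034) (nat_lit 84) (nat_lit 5321107085) (nat_lit 52) (nat_lit 5) (nat_lit 58) (nat_lit 5) (nat_lit 53) (nat_lit 5) (nat_lit 334) (nat_lit 289) (nat_lit 265))) (XT.nd (nat_lit 94) (nat_lit 0) (nat_lit 0) (XT.lf (nat_lit 0) (nat_lit 3075608947) (nat_lit 336) (nat_lit 1913202528) (nat_lit 420) (nat_lit 4083986457) (nat_lit 48) (nat_lit 5) (nat_lit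 52) (nat_lit 5) (nat_lit 53) (nat_lit 5) (nat_lit 335) (nat_lit 289) (nat_lit 264)) (XT.lf (nat_lit 0) (nat_lit 6723538750) (nat_lit 336) (nat_lit 175814566) (nat_lit 420) (nat_lit 2333996538) (nat_lit 48) (nat_lit 5) (nat_lit 52) (nat_lit 5) (nat_lit 53) (nat_lit 5) (nat_lit 336) (nat_lit 289) (nat_lit 263)))))) (XT.nd (nat_lit 658) (nat_lit 252) (nat_lit 0) (XT.nd (nat_lit 282) (nat_lit 756) (nat_lit 0) (XT.nd (nat_lit 94) (nat_lit 84) (nat_lit 0) (XT.lf (nat_lit 0) (nat_lit 1038373483) (nat_lit 420) (nat_lit 7811007934) (nat_lit 504) (nat_lit 550439654) (nat_lit 43) (nat_lit 5) (nat_lit 48) (nat_lit 5) (nat_lit 49) (nat_lit 5) (nat_lit 337) (nat_lit 289) (nat_lit 262)) (XT.nd (nat_lit 94) (nat_lit 0) (nat_lit 0) (XT.lf (nat_lit 0) (nat_lit 1244742207) (nat_lit 504) (nat_lit 4888654658) (nat_lit 84) (nat_lit 3438519389) (nat_lit 42) (nat_lit 5) (nat_lit 48) (nat_lit 5) (nat_lit 43) (nat_lit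 5) (nat_lit 338) (nat_lit 289) (nat_lit 261)) (XT.lf (nat_lit 0) (nat_lit 3039552872) (nat_lit 504) (nat_lit 1365168585) (nat_lit 84) (nat_lit 5346133960) (nat_lit 42) (nat_lit 5) (nat_lit 48) (nat_lit 5) (nat_lit 43) (nat_lit 5) (nat_lit 339) (nat_lit 289) (nat_lit 260)))) (XT.nd (nat_lit 188) (nat_lit 420) (nat_lit 0) (XT.nd (nat_lit 94) (nat_lit 0) (nat_lit 0) (XT.lf (nat_lit 0) (nat_lit 2263356916) (nat_lit 336) (nat_lit 2605851289) (nat_lit 420) (nat_lit 5067070383) (nat_lit 38) (nat_lit 5) (nat_lit 42) (nat_lit 5) (nat_lit 43) (nat_lit 5) (nat_lit 340) (nat_lit 289) (nat_lit 259)) (XT.lf (nat_lit 0) (nat_lit 5984021409) (nat_lit 336) (nat_lit 743375191) (nat_lit 420) (nat_lit 3401210529) (nat_lit 38) (nat_lit 5) (nat_lit 42) (nat_lit 5) (nat_lit 43) (nat_lit 5) (nat_lit 341) (nat_lit 289) (nat_lit 258))) (XT.nd (nat_lit 94) (nat_lit 420) (nat_lit 0) (XT.lf (nat_lit 0) (nat_lit 8613637439)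 (nat_lit 420) (nat_lit 567834951) (nat_lit 84) (nat_lit 1146616511) (nat_lit 38) (nat_lit 5) (nat_lit 43) (nat_lit 5) (nat_lit 39) (nat_lit 5) (nat_lit 342) (nat_lit 289) (nat_lit 257)) (XT.lf (nat_lit 0) (nat_lit 22467268) (nat_lit 420) (nat_lit 7406895936) (nat_lit 84) (nat_lit 3104693171) (nat_lit 33) (nat_lit 5) (nat_lit 38) (nat_lit 5) (nat_lit 34) (nat_lit 5) (nat_lit 343) (nat_lit 289) (nat_lit 256))))) (XT.nd (nat_lit 282) (nat_lit 0) (nat_lit 0) (XT.nd (nat_lit 94) (nat_lit 252) (nat_lit 0) (XT.lf (nat_lit 0) (nat_lit 1743696666) (nat_lit 420) (nat_lit 3863476717) (nat_lit 84) (nat_lit 5139994308) (nat_lit 33) (nat_lit 5) (nat_lit 38) (nat_lit 5) (nat_lit 34) (nat_lit 5) (nat_lit 344) (nat_lit 289) (nat_lit 255)) (XT.nd (nat_lit 94) (nat_lit 252) (nat_lit 0) (XT.lf (nat_lit 0) (nat_lit 3479575857) (nat_lit 420) (nat_lit 257151055) (nat_lit 84) (nat_lit 7231601849) (nat_lit 33) (nat_lit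 5) (nat_lit 38) (nat_lit 5) (nat_lit 34) (nat_lit 5) (nat_lit 345) (nat_lit 289) (nat_lit 254)) (XT.lf (nat_lit 0) (nat_lit 3485671023) (nat_lit 252) (nat_lit 1780630127) (nat_lit 336) (nat_lit 5930372657) (nat_lit 30) (nat_lit 5) (nat_lit 33) (nat_lit 5) (nat_lit 34) (nat_lit 5) (nat_lit 346) (nat_lit 289) (nat_lit 253)))) (XT.nd (nat_lit 52076) (nat_lit 0) (nat_lit 8736) (XT.nd (nat_lit 94) (nat_lit 0) (nat_lit 0) (XT.lf (nat_lit 0) (nat_lit 7076524686) (nat_lit 336) (nat_lit 4130769467) (nat_lit 84) (nat_lit 226020925) (nat_lit 30) (nat_lit 5) (nat_lit 34) (nat_lit 5) (nat_lit 31) (nat_lit 5) (nat_lit 347) (nat_lit 289) (nat_lit 252)) (XT.lf (nat_lit 0) (nat_lit 8925243615) (nat_lit 336) (nat_lit 502724232) (nat_lit 84) (nat_lit 2250092698) (nat_lit 30) (nat_lit 5) (nat_lit 34) (nat_lit 5) (nat_lit 31) (nat_lit 5) (nat_lit 348) (nat_lit 289) (nat_lit 251))) (XT.nd (nat_lit 94) (nat_lit 420)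 (nat_lit 0) (XT.lf (nat_lit 0) (nat_lit 1206908688) (nat_lit 420) (nat_lit 905818699) (nat_lit 0) (nat_lit 1206908688) (nat_lit 139) (nat_lit 5) (nat_lit 144) (nat_lit 4) (nat_lit 139) (nat_lit 4) (nat_lit 308) (nat_lit 290) (nat_lit 290)) (XT.lf (nat_lit 0) (nat_lit 1050596310) (nat_lit 420) (nat_lit 3677579649) (nat_lit 420) (nat_lit 1946825469) (nat_lit 134) (nat_lit 4) (nat_lit 139) (nat_lit 5) (nat_lit 139) (nat_lit 4) (nat_lit 309) (nat_lit 290) (nat_lit 289))))))) (XT.nd (nat_lit 1222) (nat_lit 3528) (nat_lit 0) (XT.nd (nat_lit 564) (nat_lit 2436) (nat_lit 0) (XT.nd (nat_lit 282) (nat_lit 672) (nat_lit 0) (XT.nd (nat_lit 94) (nat_lit 504) (nat_lit 0) (XT.lf (nat_lit 0) (nat_lit 331095709) (nat_lit 504) (nat_lit 2737012837) (nat_lit 84) (nat_lit 3646443543) (nat_lit 133) (nat_lit 5) (nat_lit 139) (nat_lit 5) (nat_lit 134) (nat_lit 4) (nat_lit 310) (nat_lit 290) (nat_lit 288)) (XT.nd (nat_lit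 94) (nat_lit 0) (nat_lit 0) (XT.lf (nat_lit 0) (nat_lit 163583295) (nat_lit 504) (nat_lit 2397367057) (nat_lit 588) (nat_lit 4197037522) (nat_lit 127) (nat_lit 5) (nat_lit 133) (nat_lit 5) (nat_lit 134) (nat_lit 4) (nat_lit 311) (nat_lit 290) (nat_lit 287)) (XT.lf (nat_lit 0) (nat_lit 3153035744) (nat_lit 504) (nat_lit 1657414059) (nat_lit 588) (nat_lit 1994679487) (nat_lit 127) (nat_lit 5) (nat_lit 133) (nat_lit 5) (nat_lit 134) (nat_lit 4) (nat_lit 312) (nat_lit 290) (nat_lit 286)))) (XT.nd (nat_lit 94) (nat_lit 588) (nat_lit 0) (XT.lf (nat_lit 0) (nat_lit 193130588) (nat_lit 588) (nat_lit 680982165) (nat_lit 84) (nat_lit 5982705919) (nat_lit 126) (nat_lit 5) (nat_lit 133) (nat_lit 5) (nat_lit 127) (nat_lit 5) (nat_lit 313) (nat_lit 290) (nat_lit 285)) (XT.nd (nat_lit 94) (nat_lit 0) (nat_lit 0) (XT.lf (nat_lit 0) (nat_lit 2351327241) (nat_lit 588) (nat_lit 4388644) (nat_lit 672) (nat_lit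 4556115108) (nat_lit 119) (nat_lit 5) (nat_lit 126) (nat_lit 5) (nat_lit 127) (nat_lit 5) (nat_lit 314) (nat_lit 290) (nat_lit 284)) (XT.lf (nat_lit 0) (nat_lit 4528278812) (nat_lit 672) (nat_lit 1545631145) (nat_lit 84) (nat_lit 897138037) (nat_lit 119) (nat_lit 5) (nat_lit 127) (nat_lit 5) (nat_lit 120) (nat_lit 4) (nat_lit 315) (nat_lit 290) (nat_lit 283))))) (XT.nd (nat_lit 282) (nat_lit 924) (nat_lit 0) (XT.nd (nat_lit 94) (nat_lit 840) (nat_lit 0) (XT.lf (nat_lit 0) (nat_lit 1534947999) (nat_lit 672) (nat_lit 5177617793) (nat_lit 756) (nat_lit 321967717) (nat_lit 111) (nat_lit 5) (nat_lit 119) (nat_lit 5) (nat_lit 120) (nat_lit 4) (nat_lit 316) (nat_lit 290) (nat_lit 282)) (XT.nd (nat_lit 94) (nat_lit 756) (nat_lit 0) (XT.lf (nat_lit 0) (nat_lit 1772586052) (nat_lit 756) (nat_lit 2434519578) (nat_lit 84) (nat_lit 2894661671) (nat_lit 110) (nat_lit 5) (nat_lit 119) (nat_lit 5) (nat_lit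 111) (nat_lit 5) (nat_lit 317) (nat_lit 290) (nat_lit 281)) (XT.lf (nat_lit 0) (nat_lit 677568435) (nat_lit 756) (nat_lit 3185938938) (nat_lit 840) (nat_lit 3310040429) (nat_lit 101) (nat_lit 5) (nat_lit 110) (nat_lit 5) (nat_lit 111) (nat_lit 5) (nat_lit 318) (nat_lit 290) (nat_lit 280)))) (XT.nd (nat_lit 188) (nat_lit 840) (nat_lit 0) (XT.nd (nat_lit 94) (nat_lit 84) (nat_lit 0) (XT.lf (nat_lit 0) (nat_lit 3879979005) (nat_lit 756) (nat_lit 2097572050) (nat_lit 840) (nat_lit 1271921992) (nat_lit 101) (nat_lit 5) (nat_lit 110) (nat_lit 5) (nat_lit 111) (nat_lit 5) (nat_lit 319) (nat_lit 290) (nat_lit 279)) (XT.lf (nat_lit 0) (nat_lit 746316609) (nat_lit 840) (nat_lit 212295260) (nat_lit 84) (nat_lit 6371531773) (nat_lit 100) (nat_lit 5) (nat_lit 110) (nat_lit 5) (nat_lit 101) (nat_lit 5) (nat_lit 320) (nat_lit 290) (nat_lit 278))) (XT.nd (nat_lit 94) (nat_lit 0) (nat_lit 0) (XT.lf (nat_lit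 0) (nat_lit 2769108619) (nat_lit 924) (nat_lit 4382533393) (nat_lit 84) (nat_lit 262821164) (nat_lit 90) (nat_lit 5) (nat_lit 101) (nat_lit 5) (nat_lit 91) (nat_lit 5) (nat_lit 321) (nat_lit 290) (nat_lit 277)) (XT.lf (nat_lit 0) (nat_lit 4803749087) (nat_lit 924) (nat_lit 1188175497) (nat_lit 84) (nat_lit 1511603524) (nat_lit 90) (nat_lit 5) (nat_lit 101) (nat_lit 5) (nat_lit 91) (nat_lit 5) (nat_lit 322) (nat_lit 290) (nat_lit 276)))))) (XT.nd (nat_lit 658) (nat_lit 1260) (nat_lit 0) (XT.nd (nat_lit 282) (nat_lit 588) (nat_lit 0) (XT.nd (nat_lit 94) (nat_lit 756) (nat_lit 0) (XT.lf (nat_lit 0) (nat_lit 2090837654) (nat_lit 924) (nat_lit 4770357396) (nat_lit 1008) (nat_lit 735945531) (nat_lit 79) (nat_lit 5) (nat_lit 90) (nat_lit 5) (nat_lit 91) (nat_lit 5) (nat_lit 323) (nat_lit 290) (nat_lit 275)) (XT.nd (nat_lit 94) (nat_lit 672) (nat_lit 0) (XT.lf (nat_lit 0) (nat_lit 1214477511) (nat_lit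 1008) (nat_lit 2267174406) (nat_lit 84) (nat_lit 4213611155) (nat_lit 78) (nat_lit 5) (nat_lit 90) (nat_lit 5) (nat_lit 79) (nat_lit 5) (nat_lit 324) (nat_lit 290) (nat_lit 274)) (XT.lf (nat_lit 0) (nat_lit 1029638203) (nat_lit 672) (nat_lit 2131629521) (nat_lit 756) (nat_lit 4636930471) (nat_lit 70) (nat_lit 5) (nat_lit 78) (nat_lit 5) (nat_lit 79) (nat_lit 5) (nat_lit 325) (nat_lit 290) (nat_lit 273)))) (XT.nd (nat_lit 188) (nat_lit 588) (nat_lit 0) (XT.nd (nat_lit 94) (nat_lit 0) (nat_lit 0) (XT.lf (nat_lit 0) (nat_lit 4421334501) (nat_lit 672) (nat_lit 712941131) (nat_lit 756) (nat_lit 2771583131) (nat_lit 70) (nat_lit 5) (nat_lit 78) (nat_lit 5) (nat_lit 79) (nat_lit 5) (nat_lit 326) (nat_lit 290) (nat_lit 272)) (XT.lf (nat_lit 0) (nat_lit 7119847818) (nat_lit 756) (nat_lit 162059161) (nat_lit 84) (nat_lit 736918413) (nat_lit 70) (nat_lit 5) (nat_lit 79) (nat_lit 5) (nat_lit 71) (nat_lit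 5) (nat_lit 327) (nat_lit 290) (nat_lit 271))) (XT.nd (nat_lit 94) (nat_lit 0) (nat_lit 0) (XT.lf (nat_lit 0) (nat_lit 995660015) (nat_lit 588) (nat_lit 4878585303) (nat_lit 84) (nat_lit 2261638266) (nat_lit 63) (nat_lit 5) (nat_lit 70) (nat_lit 5) (nat_lit 64) (nat_lit 5) (nat_lit 328) (nat_lit 290) (nat_lit 270)) (XT.lf (nat_lit 0) (nat_lit 2877845841) (nat_lit 588) (nat_lit 1534882071) (nat_lit 84) (nat_lit 3845607083) (nat_lit 63) (nat_lit 5) (nat_lit 70) (nat_lit 5) (nat_lit 64) (nat_lit 5) (nat_lit 329) (nat_lit 290) (nat_lit 269))))) (XT.nd (nat_lit 282) (nat_lit 336) (nat_lit 0) (XT.nd (nat_lit 94) (nat_lit 504) (nat_lit 0) (XT.lf (nat_lit 0) (nat_lit 1897116104) (nat_lit 420) (nat_lit 2887492732) (nat_lit 504) (nat_lit 3601429359) (nat_lit 58) (nat_lit 5) (nat_lit 63) (nat_lit 5) (nat_lit 64) (nat_lit 5) (nat_lit 330) (nat_lit 290) (nat_lit 268)) (XT.nd (nat_lit 94) (nat_lit 504) (nat_lit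 0) (XT.lf (nat_lit 0) (nat_lit 5415004874) (nat_lit 420) (nat_lit 1299962525) (nat_lit 504) (nat_lit 1804230340) (nat_lit 58) (nat_lit 5) (nat_lit 63) (nat_lit 5) (nat_lit 64) (nat_lit 5) (nat_lit 331) (nat_lit 290) (nat_lit 267)) (XT.lf (nat_lit 0) (nat_lit 3550158) (nat_lit 504) (nat_lit 8322732133) (nat_lit 84) (nat_lit 331929762) (nat_lit 52) (nat_lit 5) (nat_lit 58) (nat_lit 5) (nat_lit 53) (nat_lit 5) (nat_lit 332) (nat_lit 290) (nat_lit 266)))) (XT.nd (nat_lit 188) (nat_lit 336) (nat_lit 0) (XT.nd (nat_lit 94) (nat_lit 0) (nat_lit 0) (XT.lf (nat_lit 0) (nat_lit 1826034467) (nat_lit 504) (nat_lit 4939233943) (nat_lit 84) (nat_lit 2036176893) (nat_lit 52) (nat_lit 5) (nat_lit 58) (nat_lit 5) (nat_lit 53) (nat_lit 5) (nat_lit 333) (nat_lit 290) (nat_lit 265)) (XT.lf (nat_lit 0) (nat_lit 3656628174) (nat_lit 504) (nat_lit 1503429672) (nat_lit 84) (nat_lit 3790911972) (nat_lit 52) (nat_lit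 5) (nat_lit 58) (nat_lit 5) (nat_lit 53) (nat_lit 5) (nat_lit 334) (nat_lit 290) (nat_lit 264))) (XT.nd (nat_lit 94) (nat_lit 0) (nat_lit 0) (XT.lf (nat_lit 0) (nat_lit 2028758165) (nat_lit 336) (nat_lit 3488404951) (nat_lit 420) (nat_lit 3589137964) (nat_lit 48) (nat_lit 5) (nat_lit 52) (nat_lit 5) (nat_lit 53) (nat_lit 5) (nat_lit 335) (nat_lit 290) (nat_lit 263)) (XT.lf (nat_lit 0) (nat_lit 5651830766) (nat_lit 336) (nat_lit 1753214245) (nat_lit 420) (nat_lit 1862673044) (nat_lit 48) (nat_lit 5) (nat_lit 52) (nat_lit 5) (nat_lit 53) (nat_lit 5) (nat_lit 336) (nat_lit 290) (nat_lit 262))))))))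
noncomputable def xc8 : XT := (XT.nd (nat_lit 54238) (nat_lit 0) (nat_lit 0) (XT.nd (nat_lit 53016) (nat_lit 0) (nat_lit 5880) (XT.nd (nat_lit 564) (nat_lit 672) (nat_lit 0) (XT.nd (nat_lit 282) (nat_lit 336) (nat_lit 0) (XT.nd (nat_lit 94) (nat_lit 504) (nat_lit 0) (XT.lf (nat_lit 0) (nat_lit 9307124566) (nat_lit 420) (nat_lit 97903311) (nat_lit 84) (nat_lit 30805502) (nat_lit 48) (nat_lit 5) (nat_lit 53) (nat_lit 5) (nat_lit 49) (nat_lit 5) (nat_lit 337) (nat_lit 290) (nat_lit 261)) (XT.nd (nat_lit 94) (nat_lit 0) (nat_lit 0) (XT.lf (nat_lit 0) (nat_lit 1635021118) (nat_lit 504) (nat_lit 6092436169) (nat_lit 84) (nat_lit 1881201551) (nat_lit 42) (nat_lit 5) (nat_lit 48) (nat_lit 5) (nat_lit 43) (nat_lit 5) (nat_lit 338) (nat_lit 290) (nat_lit 260)) (XT.lf (nat_lit 0) (nat_lit 3408538212) (nat_lit 504) (nat_lit 2593465230) (nat_lit 84) (nat_lit 3786398563) (nat_lit 42) (nat_lit 5) (nat_lit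 48) (nat_lit 5) (nat_lit 43) (nat_lit 5) (nat_lit 339) (nat_lit 290) (nat_lit 259)))) (XT.nd (nat_lit 94) (nat_lit 0) (nat_lit 0) (XT.lf (nat_lit 0) (nat_lit 985537032) (nat_lit 336) (nat_lit 4219327063) (nat_lit 420) (nat_lit 4770133868) (nat_lit 38) (nat_lit 5) (nat_lit 42) (nat_lit 5) (nat_lit 43) (nat_lit 5) (nat_lit 340) (nat_lit 290) (nat_lit 258)) (XT.nd (nat_lit 94) (nat_lit 0) (nat_lit 0) (XT.lf (nat_lit 0) (nat_lit 4682664240) (nat_lit 336) (nat_lit 2360122440) (nat_lit 420) (nat_lit 3125303442) (nat_lit 38) (nat_lit 5) (nat_lit 42) (nat_lit 5) (nat_lit 43) (nat_lit 5) (nat_lit 341) (nat_lit 290) (nat_lit 257)) (XT.lf (nat_lit 0) (nat_lit 8448035539) (nat_lit 336) (nat_lit 449727059) (nat_lit 420) (nat_lit 1470909818) (nat_lit 38) (nat_lit 5) (nat_lit 42) (nat_lit 5) (nat_lit 43) (nat_lit 5) (nat_lit 342) (nat_lit 290) (nat_lit 256))))) (XT.nd (nat_lit 282) (nat_lit 252) (nat_lit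 0) (XT.nd (nat_lit 94) (nat_lit 0) (nat_lit 0) (XT.lf (nat_lit 0) (nat_lit 223155192) (nat_lit 420) (nat_lit 8850164876) (nat_lit 84) (nat_lit 1502544811) (nat_lit 33) (nat_lit 5) (nat_lit 38) (nat_lit 5) (nat_lit 34) (nat_lit 5) (nat_lit 343) (nat_lit 290) (nat_lit 255)) (XT.nd (nat_lit 94) (nat_lit 0) (nat_lit 0) (XT.lf (nat_lit 0) (nat_lit 1925325842) (nat_lit 420) (nat_lit 5329857204) (nat_lit 84) (nat_lit 3534503786) (nat_lit 33) (nat_lit 5) (nat_lit 38) (nat_lit 5) (nat_lit 34) (nat_lit 5) (nat_lit 344) (nat_lit 290) (nat_lit 254)) (XT.lf (nat_lit 0) (nat_lit 3642719341) (nat_lit 420) (nat_lit 1745948175) (nat_lit 84) (nat_lit 5622869657) (nat_lit 33) (nat_lit 5) (nat_lit 38) (nat_lit 5) (nat_lit 34) (nat_lit 5) (nat_lit 345) (nat_lit 290) (nat_lit 253)))) (XT.nd (nat_lit 51982) (nat_lit 0) (nat_lit 9156) (XT.nd (nat_lit 94) (nat_lit 0) (nat_lit 0) (XT.lf (nat_lit 0) (nat_lit 1944071497)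 (nat_lit 252) (nat_lit 3452150412) (nat_lit 336) (nat_lit 5844802932) (nat_lit 30) (nat_lit 5) (nat_lit 33) (nat_lit 5) (nat_lit 34) (nat_lit 5) (nat_lit 346) (nat_lit 290) (nat_lit 252)) (XT.lf (nat_lit 0) (nat_lit 5741782794) (nat_lit 252) (nat_lit 1444770133) (nat_lit 336) (nat_lit 4291839184) (nat_lit 30) (nat_lit 5) (nat_lit 33) (nat_lit 5) (nat_lit 34) (nat_lit 5) (nat_lit 347) (nat_lit 290) (nat_lit 251))) (XT.nd (nat_lit 94) (nat_lit 420) (nat_lit 0) (XT.lf (nat_lit 0) (nat_lit 2890987705) (nat_lit 252) (nat_lit 199075641) (nat_lit 252) (nat_lit 199075641) (nat_lit 144) (nat_lit 4) (nat_lit 147) (nat_lit 5) (nat_lit 147) (nat_lit 4) (nat_lit 306) (nat_lit 291) (nat_lit 291)) (XT.lf (nat_lit 0) (nat_lit 1883518192) (nat_lit 420) (nat_lit 4625060745) (nat_lit 0) (nat_lit 99110633) (nat_lit 139) (nat_lit 5) (nat_lit 144) (nat_lit 4) (nat_lit 139) (nat_lit 4) (nat_lit 307) (nat_lit 291)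 (nat_lit 290)))))) (XT.nd (nat_lit 564) (nat_lit 2184) (nat_lit 0) (XT.nd (nat_lit 282) (nat_lit 588) (nat_lit 0) (XT.nd (nat_lit 94) (nat_lit 504) (nat_lit 0) (XT.lf (nat_lit 0) (nat_lit 4157591694) (nat_lit 420) (nat_lit 1840969222) (nat_lit 0) (nat_lit 642429955) (nat_lit 139) (nat_lit 5) (nat_lit 144) (nat_lit 4) (nat_lit 139) (nat_lit 4) (nat_lit 308) (nat_lit 291) (nat_lit 289)) (XT.nd (nat_lit 94) (nat_lit 84) (nat_lit 0) (XT.lf (nat_lit 0) (nat_lit 991626498) (nat_lit 420) (nat_lit 5440327304) (nat_lit 420) (nat_lit 246451521) (nat_lit 134) (nat_lit 4) (nat_lit 139) (nat_lit 5) (nat_lit 139) (nat_lit 4) (nat_lit 309) (nat_lit 291) (nat_lit 288)) (XT.lf (nat_lit 0) (nat_lit 1957888058) (nat_lit 504) (nat_lit 2845643781) (nat_lit 84) (nat_lit 1915539157) (nat_lit 133) (nat_lit 5) (nat_lit 139) (nat_lit 5) (nat_lit 134) (nat_lit 4) (nat_lit 310) (nat_lit 291) (nat_lit 287)))) (XT.nd (nat_lit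 94) (nat_lit 84) (nat_lit 0) (XT.lf (nat_lit 0) (nat_lit 23626899) (nat_lit 504) (nat_lit 4124586919) (nat_lit 588) (nat_lit 2615924671) (nat_lit 127) (nat_lit 5) (nat_lit 133) (nat_lit 5) (nat_lit 134) (nat_lit 4) (nat_lit 311) (nat_lit 291) (nat_lit 286)) (XT.nd (nat_lit 94) (nat_lit 84) (nat_lit 0) (XT.lf (nat_lit 0) (nat_lit 2984862301) (nat_lit 504) (nat_lit 3375577359) (nat_lit 588) (nat_lit 452389825) (nat_lit 127) (nat_lit 5) (nat_lit 133) (nat_lit 5) (nat_lit 134) (nat_lit 4) (nat_lit 312) (nat_lit 291) (nat_lit 285)) (XT.lf (nat_lit 0) (nat_lit 1667449375) (nat_lit 588) (nat_lit 900653564) (nat_lit 84) (nat_lit 4297456204) (nat_lit 126) (nat_lit 5) (nat_lit 133) (nat_lit 5) (nat_lit 127) (nat_lit 5) (nat_lit 313) (nat_lit 291) (nat_lit 284))))) (XT.nd (nat_lit 282) (nat_lit 840) (nat_lit 0) (XT.nd (nat_lit 94) (nat_lit 756) (nat_lit 0) (XT.lf (nat_lit 0) (nat_lit 2098929409) (nat_lit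 588) (nat_lit 1692813690) (nat_lit 672) (nat_lit 3130375009) (nat_lit 119) (nat_lit 5) (nat_lit 126) (nat_lit 5) (nat_lit 127) (nat_lit 5) (nat_lit 314) (nat_lit 291) (nat_lit 283)) (XT.nd (nat_lit 94) (nat_lit 756) (nat_lit 0) (XT.lf (nat_lit 0) (nat_lit 5155021961) (nat_lit 588) (nat_lit 765218226) (nat_lit 672) (nat_lit 1062809756) (nat_lit 119) (nat_lit 5) (nat_lit 126) (nat_lit 5) (nat_lit 127) (nat_lit 5) (nat_lit 315) (nat_lit 291) (nat_lit 282)) (XT.lf (nat_lit 0) (nat_lit 991374130) (nat_lit 756) (nat_lit 5832376772) (nat_lit 84) (nat_lit 224191675) (nat_lit 110) (nat_lit 5) (nat_lit 119) (nat_lit 5) (nat_lit 111) (nat_lit 5) (nat_lit 316) (nat_lit 291) (nat_lit 281)))) (XT.nd (nat_lit 188) (nat_lit 84) (nat_lit 0) (XT.nd (nat_lit 94) (nat_lit 756) (nat_lit 0) (XT.lf (nat_lit 0) (nat_lit 3045665906) (nat_lit 756) (nat_lit 2799236205) (nat_lit 84) (nat_lit 1271540540) (nat_lit 110)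 (nat_lit 5) (nat_lit 119) (nat_lit 5) (nat_lit 111) (nat_lit 5) (nat_lit 317) (nat_lit 291) (nat_lit 280)) (XT.lf (nat_lit 0) (nat_lit 276911960) (nat_lit 756) (nat_lit 4822941188) (nat_lit 840) (nat_lit 2089817458) (nat_lit 101) (nat_lit 5) (nat_lit 110) (nat_lit 5) (nat_lit 111) (nat_lit 5) (nat_lit 318) (nat_lit 291) (nat_lit 279))) (XT.nd (nat_lit 94) (nat_lit 84) (nat_lit 0) (XT.lf (nat_lit 0) (nat_lit 3451737151) (nat_lit 756) (nat_lit 3730111521) (nat_lit 840) (nat_lit 85040088) (nat_lit 101) (nat_lit 5) (nat_lit 110) (nat_lit 5) (nat_lit 111) (nat_lit 5) (nat_lit 319) (nat_lit 291) (nat_lit 278)) (XT.lf (nat_lit 0) (nat_lit 1877598467) (nat_lit 840) (nat_lit 697416019) (nat_lit 84) (nat_lit 4773443854) (nat_lit 100) (nat_lit 5) (nat_lit 110) (nat_lit 5) (nat_lit 101) (nat_lit 5) (nat_lit 320) (nat_lit 291) (nat_lit 277))))))) (XT.nd (nat_lit 1222) (nat_lit 1848) (nat_lit 0) (XT.nd (nat_lit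 564) (nat_lit 1512) (nat_lit 0) (XT.nd (nat_lit 282) (nat_lit 672) (nat_lit 0) (XT.nd (nat_lit 94) (nat_lit 1008) (nat_lit 0) (XT.lf (nat_lit 0) (nat_lit 2512168412) (nat_lit 840) (nat_lit 1349643666) (nat_lit 924) (nat_lit 3572434938) (nat_lit 90) (nat_lit 5) (nat_lit 100) (nat_lit 5) (nat_lit 101) (nat_lit 5) (nat_lit 321) (nat_lit 291) (nat_lit 276)) (XT.nd (nat_lit 94) (nat_lit 1008) (nat_lit 0) (XT.lf (nat_lit 0) (nat_lit 5782041245) (nat_lit 840) (nat_lit 71694633) (nat_lit 924) (nat_lit 1671165284) (nat_lit 90) (nat_lit 5) (nat_lit 100) (nat_lit 5) (nat_lit 101) (nat_lit 5) (nat_lit 322) (nat_lit 291) (nat_lit 275)) (XT.lf (nat_lit 0) (nat_lit 250425432) (nat_lit 1008) (nat_lit 6124474966) (nat_lit 84) (nat_lit 1244899265) (nat_lit 78) (nat_lit 5) (nat_lit 90) (nat_lit 5) (nat_lit 79) (nat_lit 5) (nat_lit 323) (nat_lit 291) (nat_lit 274)))) (XT.nd (nat_lit 94) (nat_lit 672) (nat_lit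 0) (XT.lf (nat_lit 0) (nat_lit 2156959876) (nat_lit 1008) (nat_lit 2920193555) (nat_lit 84) (nat_lit 2641685096) (nat_lit 78) (nat_lit 5) (nat_lit 90) (nat_lit 5) (nat_lit 79) (nat_lit 5) (nat_lit 324) (nat_lit 291) (nat_lit 273)) (XT.nd (nat_lit 94) (nat_lit 0) (nat_lit 0) (XT.lf (nat_lit 0) (nat_lit 335924083) (nat_lit 672) (nat_lit 3732757140) (nat_lit 756) (nat_lit 3754414096) (nat_lit 70) (nat_lit 5) (nat_lit 78) (nat_lit 5) (nat_lit 79) (nat_lit 5) (nat_lit 325) (nat_lit 291) (nat_lit 272)) (XT.lf (nat_lit 0) (nat_lit 3701172703) (nat_lit 672) (nat_lit 2312914457) (nat_lit 756) (nat_lit 1917751870) (nat_lit 70) (nat_lit 5) (nat_lit 78) (nat_lit 5) (nat_lit 79) (nat_lit 5) (nat_lit 326) (nat_lit 291) (nat_lit 271))))) (XT.nd (nat_lit 282) (nat_lit 924) (nat_lit 0) (XT.nd (nat_lit 94) (nat_lit 588) (nat_lit 0) (XT.lf (nat_lit 0) (nat_lit 7118643897) (nat_lit 672) (nat_lit 846782773) (nat_lit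 756) (nat_lit 80660844) (nat_lit 70) (nat_lit 5) (nat_lit 78) (nat_lit 5) (nat_lit 79) (nat_lit 5) (nat_lit 327) (nat_lit 291) (nat_lit 270)) (XT.nd (nat_lit 94) (nat_lit 0) (nat_lit 0) (XT.lf (nat_lit 0) (nat_lit 1754564751) (nat_lit 588) (nat_lit 5714048516) (nat_lit 84) (nat_lit 695819027) (nat_lit 63) (nat_lit 5) (nat_lit 70) (nat_lit 5) (nat_lit 64) (nat_lit 5) (nat_lit 328) (nat_lit 291) (nat_lit 269)) (XT.lf (nat_lit 0) (nat_lit 3610856822) (nat_lit 588) (nat_lit 2396727617) (nat_lit 84) (nat_lit 2280303306) (nat_lit 63) (nat_lit 5) (nat_lit 70) (nat_lit 5) (nat_lit 64) (nat_lit 5) (nat_lit 329) (nat_lit 291) (nat_lit 268)))) (XT.nd (nat_lit 188) (nat_lit 504) (nat_lit 0) (XT.nd (nat_lit 94) (nat_lit 0) (nat_lit 0) (XT.lf (nat_lit 0) (nat_lit 991434011) (nat_lit 420) (nat_lit 4492086142) (nat_lit 504) (nat_lit 2933323159) (nat_lit 58) (nat_lit 5) (nat_lit 63) (nat_lit 5) (nat_lit 64)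 (nat_lit 5) (nat_lit 330) (nat_lit 291) (nat_lit 267)) (XT.lf (nat_lit 0) (nat_lit 4483992775) (nat_lit 420) (nat_lit 2905274639) (nat_lit 504) (nat_lit 1161687798) (nat_lit 58) (nat_lit 5) (nat_lit 63) (nat_lit 5) (nat_lit 64) (nat_lit 5) (nat_lit 331) (nat_lit 291) (nat_lit 266))) (XT.nd (nat_lit 94) (nat_lit 420) (nat_lit 0) (XT.lf (nat_lit 0) (nat_lit 602128588) (nat_lit 504) (nat_lit 662274201) (nat_lit 84) (nat_lit 7426508895) (nat_lit 57) (nat_lit 5) (nat_lit 63) (nat_lit 5) (nat_lit 58) (nat_lit 5) (nat_lit 332) (nat_lit 291) (nat_lit 265)) (XT.lf (nat_lit 0) (nat_lit 2381471830) (nat_lit 504) (nat_lit 5996791546) (nat_lit 84) (nat_lit 457391762) (nat_lit 52) (nat_lit 5) (nat_lit 58) (nat_lit 5) (nat_lit 53) (nat_lit 5) (nat_lit 333) (nat_lit 291) (nat_lit 264)))))) (XT.nd (nat_lit 658) (nat_lit 1008) (nat_lit 0) (XT.nd (nat_lit 282) (nat_lit 504) (nat_lit 0) (XT.nd (nat_lit 94) (nat_lit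 336) (nat_lit 0) (XT.lf (nat_lit 0) (nat_lit 4188957362) (nat_lit 504) (nat_lit 2586098709) (nat_lit 84) (nat_lit 2211007569) (nat_lit 52) (nat_lit 5) (nat_lit 58) (nat_lit 5) (nat_lit 53) (nat_lit 5) (nat_lit 334) (nat_lit 291) (nat_lit 263)) (XT.nd (nat_lit 94) (nat_lit 0) (nat_lit 0) (XT.lf (nat_lit 0) (nat_lit 898970029) (nat_lit 336) (nat_lit 5116901275) (nat_lit 420) (nat_lit 3126728440) (nat_lit 48) (nat_lit 5) (nat_lit 52) (nat_lit 5) (nat_lit 53) (nat_lit 5) (nat_lit 335) (nat_lit 291) (nat_lit 262)) (XT.lf (nat_lit 0) (nat_lit 4497932831) (nat_lit 336) (nat_lit 3383841759) (nat_lit 420) (nat_lit 1423081171) (nat_lit 48) (nat_lit 5) (nat_lit 52) (nat_lit 5) (nat_lit 53) (nat_lit 5) (nat_lit 336) (nat_lit 291) (nat_lit 261)))) (XT.nd (nat_lit 188) (nat_lit 0) (nat_lit 0) (XT.nd (nat_lit 94) (nat_lit 420) (nat_lit 0) (XT.lf (nat_lit 0) (nat_lit 282618720) (nat_lit 420) (nat_lit 1315687015)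 (nat_lit 84) (nat_lit 7875400133) (nat_lit 47) (nat_lit 5) (nat_lit 52) (nat_lit 5) (nat_lit 48) (nat_lit 5) (nat_lit 337) (nat_lit 291) (nat_lit 260)) (XT.lf (nat_lit 0) (nat_lit 1994151432) (nat_lit 504) (nat_lit 7383325144) (nat_lit 84) (nat_lit 270696796) (nat_lit 42) (nat_lit 5) (nat_lit 48) (nat_lit 5) (nat_lit 43) (nat_lit 5) (nat_lit 338) (nat_lit 291) (nat_lit 259))) (XT.nd (nat_lit 94) (nat_lit 0) (nat_lit 0) (XT.lf (nat_lit 0) (nat_lit 3747015208) (nat_lit 504) (nat_lit 3908132221) (nat_lit 84) (nat_lit 2173548938) (nat_lit 42) (nat_lit 5) (nat_lit 48) (nat_lit 5) (nat_lit 43) (nat_lit 5) (nat_lit 339) (nat_lit 291) (nat_lit 258)) (XT.lf (nat_lit 0) (nat_lit 5513532125) (nat_lit 504) (nat_lit 372049394) (nat_lit 84) (nat_lit 4130770263) (nat_lit 42) (nat_lit 5) (nat_lit 48) (nat_lit 5) (nat_lit 43) (nat_lit 5) (nat_lit 340) (nat_lit 291) (nat_lit 257))))) (XT.nd (nat_lit 282) (nat_lit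 252) (nat_lit 0) (XT.nd (nat_lit 94) (nat_lit 420) (nat_lit 0) (XT.lf (nat_lit 0) (nat_lit 3294598146) (nat_lit 336) (nat_lit 4033433439) (nat_lit 420) (nat_lit 2882269781) (nat_lit 38) (nat_lit 5) (nat_lit 42) (nat_lit 5) (nat_lit 43) (nat_lit 5) (nat_lit 341) (nat_lit 291) (nat_lit 256)) (XT.nd (nat_lit 94) (nat_lit 420) (nat_lit 0) (XT.lf (nat_lit 0) (nat_lit 7037826314) (nat_lit 336) (nat_lit 2126115758) (nat_lit 420) (nat_lit 1247659975) (nat_lit 38) (nat_lit 5) (nat_lit 42) (nat_lit 5) (nat_lit 43) (nat_lit 5) (nat_lit 342) (nat_lit 291) (nat_lit 255)) (XT.lf (nat_lit 0) (nat_lit 233669118) (nat_lit 336) (nat_lit 159266953) (nat_lit 420) (nat_lit 10227427701) (nat_lit 33) (nat_lit 5) (nat_lit 37) (nat_lit 5) (nat_lit 38) (nat_lit 5) (nat_lit 343) (nat_lit 291) (nat_lit 254)))) (XT.nd (nat_lit 188) (nat_lit 252) (nat_lit 0) (XT.nd (nat_lit 94) (nat_lit 0) (nat_lit 0) (XT.lf (nat_lit 0)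 (nat_lit 2075041081) (nat_lit 420) (nat_lit 6887223667) (nat_lit 84) (nat_lit 1872659225) (nat_lit 33) (nat_lit 5) (nat_lit 38) (nat_lit 5) (nat_lit 34) (nat_lit 5) (nat_lit 344) (nat_lit 291) (nat_lit 253)) (XT.lf (nat_lit 0) (nat_lit 3774504714) (nat_lit 420) (nat_lit 3325057250) (nat_lit 84) (nat_lit 3957880896) (nat_lit 33) (nat_lit 5) (nat_lit 38) (nat_lit 5) (nat_lit 34) (nat_lit 5) (nat_lit 345) (nat_lit 291) (nat_lit 252))) (XT.nd (nat_lit 94) (nat_lit 0) (nat_lit 0) (XT.lf (nat_lit 0) (nat_lit 310970215) (nat_lit 252) (nat_lit 5183445748) (nat_lit 336) (nat_lit 5793665226) (nat_lit 30) (nat_lit 5) (nat_lit 33) (nat_lit 5) (nat_lit 34) (nat_lit 5) (nat_lit 346) (nat_lit 291) (nat_lit 251)) (XT.lf (nat_lit 0) (nat_lit 4087806160) (nat_lit 252) (nat_lit 3179865884) (nat_lit 336) (nat_lit 4258411779) (nat_lit 30) (nat_lit 5) (nat_lit 33) (nat_lit 5) (nat_lit 34) (nat_lit 5) (nat_lit 347)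 (nat_lit 291) (nat_lit 250))))))))
noncomputable def xc9 : XT := (XT.nd (nat_lit 2538) (nat_lit 2352) (nat_lit 0) (XT.nd (nat_lit 1222) (nat_lit 4368) (nat_lit 0) (XT.nd (nat_lit 564) (nat_lit 1932) (nat_lit 0) (XT.nd (nat_lit 282) (nat_lit 840) (nat_lit 0) (XT.nd (nat_lit 94) (nat_lit 84) (nat_lit 0) (XT.lf (nat_lit 0) (nat_lit 161552754) (nat_lit 252) (nat_lit 1551299049) (nat_lit 252) (nat_lit 1551299049) (nat_lit 144) (nat_lit 4) (nat_lit 147) (nat_lit 5) (nat_lit 147) (nat_lit 4) (nat_lit 304) (nat_lit 292) (nat_lit 292)) (XT.nd (nat_lit 94) (nat_lit 84) (nat_lit 0) (XT.lf (nat_lit 0) (nat_lit 3024294879) (nat_lit 252) (nat_lit 2712239306) (nat_lit 252) (nat_lit 815483663) (nat_lit 144) (nat_lit 4) (nat_lit 147) (nat_lit 5) (nat_lit 147) (nat_lit 4) (nat_lit 305) (nat_lit 292) (nat_lit 291)) (XT.lf (nat_lit 0) (nat_lit 1426663073) (nat_lit 336) (nat_lit 838927134) (nat_lit 84) (nat_lit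 4313994410) (nat_lit 143) (nat_lit 5) (nat_lit 147) (nat_lit 5) (nat_lit 144) (nat_lit 4) (nat_lit 306) (nat_lit 292) (nat_lit 290)))) (XT.nd (nat_lit 94) (nat_lit 504) (nat_lit 0) (XT.lf (nat_lit 0) (nat_lit 1908654193) (nat_lit 336) (nat_lit 1749416505) (nat_lit 420) (nat_lit 2952571603) (nat_lit 139) (nat_lit 5) (nat_lit 143) (nat_lit 5) (nat_lit 144) (nat_lit 4) (nat_lit 307) (nat_lit 292) (nat_lit 289)) (XT.nd (nat_lit 94) (nat_lit 504) (nat_lit 0) (XT.lf (nat_lit 0) (nat_lit 4705067135) (nat_lit 336) (nat_lit 1182037104) (nat_lit 420) (nat_lit 758680886) (nat_lit 139) (nat_lit 5) (nat_lit 143) (nat_lit 5) (nat_lit 144) (nat_lit 4) (nat_lit 308) (nat_lit 292) (nat_lit 288)) (XT.lf (nat_lit 0) (nat_lit 853447295) (nat_lit 420) (nat_lit 548406956) (nat_lit 504) (nat_lit 5282755124) (nat_lit 133) (nat_lit 5) (nat_lit 138) (nat_lit 5) (nat_lit 139) (nat_lit 5) (nat_lit 309) (nat_lit 292) (nat_lit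 287))))) (XT.nd (nat_lit 282) (nat_lit 1344) (nat_lit 0) (XT.nd (nat_lit 94) (nat_lit 588) (nat_lit 0) (XT.lf (nat_lit 0) (nat_lit 3557647620) (nat_lit 504) (nat_lit 3015537243) (nat_lit 84) (nat_lit 153771714) (nat_lit 133) (nat_lit 5) (nat_lit 139) (nat_lit 5) (nat_lit 134) (nat_lit 4) (nat_lit 310) (nat_lit 292) (nat_lit 286)) (XT.nd (nat_lit 94) (nat_lit 588) (nat_lit 0) (XT.lf (nat_lit 0) (nat_lit 5710745305) (nat_lit 504) (nat_lit 174391128) (nat_lit 84) (nat_lit 888435804) (nat_lit 133) (nat_lit 5) (nat_lit 139) (nat_lit 5) (nat_lit 134) (nat_lit 4) (nat_lit 311) (nat_lit 292) (nat_lit 285)) (XT.lf (nat_lit 0) (nat_lit 1039850315) (nat_lit 588) (nat_lit 4078458690) (nat_lit 84) (nat_lit 1705185593) (nat_lit 126) (nat_lit 5) (nat_lit 133) (nat_lit 5) (nat_lit 127) (nat_lit 5) (nat_lit 312) (nat_lit 292) (nat_lit 284)))) (XT.nd (nat_lit 188) (nat_lit 756) (nat_lit 0) (XT.nd (nat_lit 94)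 (nat_lit 588) (nat_lit 0) (XT.lf (nat_lit 0) (nat_lit 3114787114) (nat_lit 588) (nat_lit 1183274011) (nat_lit 84) (nat_lit 2579493035) (nat_lit 126) (nat_lit 5) (nat_lit 133) (nat_lit 5) (nat_lit 127) (nat_lit 5) (nat_lit 313) (nat_lit 292) (nat_lit 283)) (XT.lf (nat_lit 0) (nat_lit 1783136368) (nat_lit 588) (nat_lit 3418100071) (nat_lit 672) (nat_lit 1734398656) (nat_lit 119) (nat_lit 5) (nat_lit 126) (nat_lit 5) (nat_lit 127) (nat_lit 5) (nat_lit 314) (nat_lit 292) (nat_lit 282))) (XT.nd (nat_lit 94) (nat_lit 672) (nat_lit 0) (XT.lf (nat_lit 0) (nat_lit 291844253) (nat_lit 672) (nat_lit 2188221486) (nat_lit 84) (nat_lit 4517799772) (nat_lit 118) (nat_lit 5) (nat_lit 126) (nat_lit 5) (nat_lit 119) (nat_lit 5) (nat_lit 315) (nat_lit 292) (nat_lit 281)) (XT.lf (nat_lit 0) (nat_lit 812246877) (nat_lit 672) (nat_lit 1472504952) (nat_lit 756) (nat_lit 4779233499) (nat_lit 110) (nat_lit 5) (nat_lit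 118) (nat_lit 5) (nat_lit 119) (nat_lit 5) (nat_lit 316) (nat_lit 292) (nat_lit 280)))))) (XT.nd (nat_lit 658) (nat_lit 1680) (nat_lit 0) (XT.nd (nat_lit 282) (nat_lit 1848) (nat_lit 0) (XT.nd (nat_lit 94) (nat_lit 840) (nat_lit 0) (XT.lf (nat_lit 0) (nat_lit 3898341307) (nat_lit 672) (nat_lit 397276380) (nat_lit 756) (nat_lit 2838522616) (nat_lit 110) (nat_lit 5) (nat_lit 118) (nat_lit 5) (nat_lit 119) (nat_lit 5) (nat_lit 317) (nat_lit 292) (nat_lit 279)) (XT.nd (nat_lit 94) (nat_lit 840) (nat_lit 0) (XT.lf (nat_lit 0) (nat_lit 6311342392) (nat_lit 756) (nat_lit 188318554) (nat_lit 84) (nat_lit 709199069) (nat_lit 110) (nat_lit 5) (nat_lit 119) (nat_lit 5) (nat_lit 111) (nat_lit 5) (nat_lit 318) (nat_lit 292) (nat_lit 278)) (XT.lf (nat_lit 0) (nat_lit 1051337854) (nat_lit 840) (nat_lit 4342156681) (nat_lit 84) (nat_lit 1893566810) (nat_lit 100) (nat_lit 5) (nat_lit 110) (nat_lit 5) (nat_lit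 101) (nat_lit 5) (nat_lit 319) (nat_lit 292) (nat_lit 277)))) (XT.nd (nat_lit 188) (nat_lit 1008) (nat_lit 0) (XT.nd (nat_lit 94) (nat_lit 840) (nat_lit 0) (XT.lf (nat_lit 0) (nat_lit 2981528783) (nat_lit 840) (nat_lit 1252121319) (nat_lit 84) (nat_lit 3136180645) (nat_lit 100) (nat_lit 5) (nat_lit 110) (nat_lit 5) (nat_lit 101) (nat_lit 5) (nat_lit 320) (nat_lit 292) (nat_lit 276)) (XT.lf (nat_lit 0) (nat_lit 1919472512) (nat_lit 840) (nat_lit 3010580121) (nat_lit 924) (nat_lit 2526938168) (nat_lit 90) (nat_lit 5) (nat_lit 100) (nat_lit 5) (nat_lit 101) (nat_lit 5) (nat_lit 321) (nat_lit 292) (nat_lit 275))) (XT.nd (nat_lit 94) (nat_lit 1008) (nat_lit 0) (XT.lf (nat_lit 0) (nat_lit 5163559970) (nat_lit 840) (nat_lit 1729246853) (nat_lit 924) (nat_lit 655999411) (nat_lit 90) (nat_lit 5) (nat_lit 100) (nat_lit 5) (nat_lit 101) (nat_lit 5) (nat_lit 322) (nat_lit 292) (nat_lit 274)) (XT.lf (nat_lit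 0) (nat_lit 816070112) (nat_lit 924) (nat_lit 380770997) (nat_lit 1008) (nat_lit 6448290446) (nat_lit 78) (nat_lit 5) (nat_lit 89) (nat_lit 5) (nat_lit 90) (nat_lit 5) (nat_lit 323) (nat_lit 292) (nat_lit 273))))) (XT.nd (nat_lit 282) (nat_lit 1008) (nat_lit 0) (XT.nd (nat_lit 94) (nat_lit 672) (nat_lit 0) (XT.lf (nat_lit 0) (nat_lit 3071411122) (nat_lit 1008) (nat_lit 3647720914) (nat_lit 84) (nat_lit 1026263813) (nat_lit 78) (nat_lit 5) (nat_lit 90) (nat_lit 5) (nat_lit 79) (nat_lit 5) (nat_lit 324) (nat_lit 292) (nat_lit 272)) (XT.nd (nat_lit 94) (nat_lit 672) (nat_lit 0) (XT.lf (nat_lit 0) (nat_lit 4952460454) (nat_lit 1008) (nat_lit 424286214) (nat_lit 84) (nat_lit 2474084289) (nat_lit 78) (nat_lit 5) (nat_lit 90) (nat_lit 5) (nat_lit 79) (nat_lit 5) (nat_lit 325) (nat_lit 292) (nat_lit 271)) (XT.lf (nat_lit 0) (nat_lit 2906585757) (nat_lit 672) (nat_lit 3960213078) (nat_lit 756) (nat_lit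 1093959569) (nat_lit 70) (nat_lit 5) (nat_lit 78) (nat_lit 5) (nat_lit 79) (nat_lit 5) (nat_lit 326) (nat_lit 292) (nat_lit 270)))) (XT.nd (nat_lit 188) (nat_lit 420) (nat_lit 0) (XT.nd (nat_lit 94) (nat_lit 504) (nat_lit 0) (XT.lf (nat_lit 0) (nat_lit 701716675) (nat_lit 756) (nat_lit 1783954313) (nat_lit 84) (nat_lit 5590134655) (nat_lit 69) (nat_lit 5) (nat_lit 78) (nat_lit 5) (nat_lit 70) (nat_lit 5) (nat_lit 327) (nat_lit 292) (nat_lit 269)) (XT.lf (nat_lit 0) (nat_lit 1557334858) (nat_lit 504) (nat_lit 936359257) (nat_lit 588) (nat_lit 5701923149) (nat_lit 63) (nat_lit 5) (nat_lit 69) (nat_lit 5) (nat_lit 70) (nat_lit 5) (nat_lit 328) (nat_lit 292) (nat_lit 268))) (XT.nd (nat_lit 94) (nat_lit 420) (nat_lit 0) (XT.lf (nat_lit 0) (nat_lit 4315582201) (nat_lit 588) (nat_lit 3337261779) (nat_lit 84) (nat_lit 667490536) (nat_lit 63) (nat_lit 5) (nat_lit 70) (nat_lit 5) (nat_lit 64) (nat_lit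 5) (nat_lit 329) (nat_lit 292) (nat_lit 267)) (XT.lf (nat_lit 0) (nat_lit 6230532) (nat_lit 420) (nat_lit 6147881634) (nat_lit 504) (nat_lit 2296425457) (nat_lit 58) (nat_lit 5) (nat_lit 63) (nat_lit 5) (nat_lit 64) (nat_lit 5) (nat_lit 330) (nat_lit 292) (nat_lit 266))))))) (XT.nd (nat_lit 1222) (nat_lit 588) (nat_lit 0) (XT.nd (nat_lit 564) (nat_lit 924) (nat_lit 0) (XT.nd (nat_lit 282) (nat_lit 336) (nat_lit 0) (XT.nd (nat_lit 94) (nat_lit 504) (nat_lit 0) (XT.lf (nat_lit 0) (nat_lit 3474220911) (nat_lit 420) (nat_lit 4561767225) (nat_lit 504) (nat_lit 549585109) (nat_lit 58) (nat_lit 5) (nat_lit 63) (nat_lit 5) (nat_lit 64) (nat_lit 5) (nat_lit 331) (nat_lit 292) (nat_lit 265)) (XT.nd (nat_lit 94) (nat_lit 420) (nat_lit 0) (XT.lf (nat_lit 0) (nat_lit 1178333836) (nat_lit 504) (nat_lit 1737223272) (nat_lit 84) (nat_lit 5810687716) (nat_lit 57) (nat_lit 5) (nat_lit 63) (nat_lit 5) (nat_lit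 58) (nat_lit 5) (nat_lit 332) (nat_lit 292) (nat_lit 264)) (XT.lf (nat_lit 0) (nat_lit 1722346466) (nat_lit 420) (nat_lit 1196720194) (nat_lit 504) (nat_lit 5953286175) (nat_lit 52) (nat_lit 5) (nat_lit 57) (nat_lit 5) (nat_lit 58) (nat_lit 5) (nat_lit 333) (nat_lit 292) (nat_lit 263)))) (XT.nd (nat_lit 94) (nat_lit 336) (nat_lit 0) (XT.lf (nat_lit 0) (nat_lit 4692267220) (nat_lit 504) (nat_lit 3751798304) (nat_lit 84) (nat_lit 579921239) (nat_lit 52) (nat_lit 5) (nat_lit 58) (nat_lit 5) (nat_lit 53) (nat_lit 5) (nat_lit 334) (nat_lit 292) (nat_lit 262)) (XT.nd (nat_lit 94) (nat_lit 336) (nat_lit 0) (XT.lf (nat_lit 0) (nat_lit 6488523832) (nat_lit 504) (nat_lit 308465848) (nat_lit 84) (nat_lit 2384641270) (nat_lit 52) (nat_lit 5) (nat_lit 58) (nat_lit 5) (nat_lit 53) (nat_lit 5) (nat_lit 335) (nat_lit 292) (nat_lit 261)) (XT.lf (nat_lit 0) (nat_lit 3260769394) (nat_lit 336) (nat_lit 5069217023)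 (nat_lit 420) (nat_lit 1014811172) (nat_lit 48) (nat_lit 5) (nat_lit 52) (nat_lit 5) (nat_lit 53) (nat_lit 5) (nat_lit 336) (nat_lit 292) (nat_lit 260))))) (XT.nd (nat_lit 282) (nat_lit 420) (nat_lit 0) (XT.nd (nat_lit 94) (nat_lit 420) (nat_lit 0) (XT.lf (nat_lit 0) (nat_lit 661629359) (nat_lit 420) (nat_lit 2620100501) (nat_lit 84) (nat_lit 6232588227) (nat_lit 47) (nat_lit 5) (nat_lit 52) (nat_lit 5) (nat_lit 48) (nat_lit 5) (nat_lit 337) (nat_lit 292) (nat_lit 259)) (XT.nd (nat_lit 94) (nat_lit 0) (nat_lit 0) (XT.lf (nat_lit 0) (nat_lit 913416181) (nat_lit 420) (nat_lit 1423169734) (nat_lit 504) (nat_lit 7353473113) (nat_lit 42) (nat_lit 5) (nat_lit 47) (nat_lit 5) (nat_lit 48) (nat_lit 5) (nat_lit 338) (nat_lit 292) (nat_lit 258)) (XT.lf (nat_lit 0) (nat_lit 4055299355) (nat_lit 504) (nat_lit 5310394966) (nat_lit 84) (nat_lit 506081741) (nat_lit 42) (nat_lit 5) (nat_lit 48) (nat_lit 5)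 (nat_lit 43) (nat_lit 5) (nat_lit 339) (nat_lit 292) (nat_lit 257)))) (XT.nd (nat_lit 188) (nat_lit 84) (nat_lit 0) (XT.nd (nat_lit 94) (nat_lit 336) (nat_lit 0) (XT.lf (nat_lit 0) (nat_lit 5802386286) (nat_lit 504) (nat_lit 1796681742) (nat_lit 84) (nat_lit 2461097088) (nat_lit 42) (nat_lit 5) (nat_lit 48) (nat_lit 5) (nat_lit 43) (nat_lit 5) (nat_lit 340) (nat_lit 292) (nat_lit 256)) (XT.lf (nat_lit 0) (nat_lit 1818529304) (nat_lit 336) (nat_lit 5764867888) (nat_lit 420) (nat_lit 2671883012) (nat_lit 38) (nat_lit 5) (nat_lit 42) (nat_lit 5) (nat_lit 43) (nat_lit 5) (nat_lit 341) (nat_lit 292) (nat_lit 255))) (XT.nd (nat_lit 94) (nat_lit 84) (nat_lit 0) (XT.lf (nat_lit 0) (nat_lit 5540280138) (nat_lit 336) (nat_lit 3860535367) (nat_lit 420) (nat_lit 1056462168) (nat_lit 38) (nat_lit 5) (nat_lit 42) (nat_lit 5) (nat_lit 43) (nat_lit 5) (nat_lit 342) (nat_lit 292) (nat_lit 254)) (XT.lf (nat_lit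 0) (nat_lit 559726643) (nat_lit 420) (nat_lit 1337480060) (nat_lit 84) (nat_lit 8769527316) (nat_lit 37) (nat_lit 5) (nat_lit 42) (nat_lit 5) (nat_lit 38) (nat_lit 5) (nat_lit 343) (nat_lit 292) (nat_lit 253)))))) (XT.nd (nat_lit 52076) (nat_lit 0) (nat_lit 8568) (XT.nd (nat_lit 282) (nat_lit 252) (nat_lit 0) (XT.nd (nat_lit 94) (nat_lit 0) (nat_lit 0) (XT.lf (nat_lit 0) (nat_lit 2192981934) (nat_lit 420) (nat_lit 8537027734) (nat_lit 84) (nat_lit 152911613) (nat_lit 33) (nat_lit 5) (nat_lit 38) (nat_lit 5) (nat_lit 34) (nat_lit 5) (nat_lit 344) (nat_lit 292) (nat_lit 252)) (XT.nd (nat_lit 94) (nat_lit 0) (nat_lit 0) (XT.lf (nat_lit 0) (nat_lit 3875054814) (nat_lit 420) (nat_lit 4995950173) (nat_lit 84) (nat_lit 2235083623) (nat_lit 33) (nat_lit 5) (nat_lit 38) (nat_lit 5) (nat_lit 34) (nat_lit 5) (nat_lit 345) (nat_lit 292) (nat_lit 251)) (XT.lf (nat_lit 0) (nat_lit 5575013351) (nat_lit 420)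 (nat_lit 1386642824) (nat_lit 84) (nat_lit 4375795342) (nat_lit 33) (nat_lit 5) (nat_lit 38) (nat_lit 5) (nat_lit 34) (nat_lit 5) (nat_lit 346) (nat_lit 292) (nat_lit 250)))) (XT.nd (nat_lit 51606) (nat_lit 0) (nat_lit 9576) (XT.nd (nat_lit 51512) (nat_lit 0) (nat_lit 9828) (XT.lf (nat_lit 0) (nat_lit 2341433227) (nat_lit 252) (nat_lit 4976236164) (nat_lit 336) (nat_lit 4258836216) (nat_lit 30) (nat_lit 5) (nat_lit 33) (nat_lit 5) (nat_lit 34) (nat_lit 5) (nat_lit 347) (nat_lit 292) (nat_lit 249)) (XT.lf (nat_lit 0) (nat_lit 404851862) (nat_lit 252) (nat_lit 2435439559) (nat_lit 0) (nat_lit 404851862) (nat_lit 147) (nat_lit 5) (nat_lit 150) (nat_lit 4) (nat_lit 147) (nat_lit 4) (nat_lit 302) (nat_lit 293) (nat_lit 293))) (XT.nd (nat_lit 94) (nat_lit 252) (nat_lit 0) (XT.lf (nat_lit 0) (nat_lit 3080257583) (nat_lit 252) (nat_lit 2303178900) (nat_lit 0) (nat_lit 1124702514) (nat_lit 147) (nat_lit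 5) (nat_lit 150) (nat_lit 4) (nat_lit 147) (nat_lit 4) (nat_lit 303) (nat_lit 293) (nat_lit 292)) (XT.lf (nat_lit 0) (nat_lit 295859798) (nat_lit 252) (nat_lit 5043280703) (nat_lit 252) (nat_lit 1190969991) (nat_lit 144) (nat_lit 4) (nat_lit 147) (nat_lit 5) (nat_lit 147) (nat_lit 4) (nat_lit 304) (nat_lit 293) (nat_lit 291))))) (XT.nd (nat_lit 282) (nat_lit 588) (nat_lit 0) (XT.nd (nat_lit 94) (nat_lit 336) (nat_lit 0) (XT.lf (nat_lit 0) (nat_lit 1032311828) (nat_lit 336) (nat_lit 3595409582) (nat_lit 84) (nat_lit 1927535633) (nat_lit 143) (nat_lit 5) (nat_lit 147) (nat_lit 5) (nat_lit 144) (nat_lit 4) (nat_lit 305) (nat_lit 293) (nat_lit 290)) (XT.nd (nat_lit 94) (nat_lit 336) (nat_lit 0) (XT.lf (nat_lit 0) (nat_lit 3217535904) (nat_lit 336) (nat_lit 941627043) (nat_lit 84) (nat_lit 2425124440) (nat_lit 143) (nat_lit 5) (nat_lit 147) (nat_lit 5) (nat_lit 144) (nat_lit 4) (nat_lit 306) (nat_lit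 293) (nat_lit 289)) (XT.lf (nat_lit 0) (nat_lit 1777191543) (nat_lit 336) (nat_lit 3631172901) (nat_lit 420) (nat_lit 1208683862) (nat_lit 139) (nat_lit 5) (nat_lit 143) (nat_lit 5) (nat_lit 144) (nat_lit 4) (nat_lit 307) (nat_lit 293) (nat_lit 288)))) (XT.nd (nat_lit 188) (nat_lit 84) (nat_lit 0) (XT.nd (nat_lit 94) (nat_lit 420) (nat_lit 0) (XT.lf (nat_lit 0) (nat_lit 926191227) (nat_lit 420) (nat_lit 2115433940) (nat_lit 84) (nat_lit 3611896041) (nat_lit 138) (nat_lit 5) (nat_lit 143) (nat_lit 5) (nat_lit 139) (nat_lit 5) (nat_lit 308) (nat_lit 293) (nat_lit 287)) (XT.lf (nat_lit 0) (nat_lit 640658042) (nat_lit 420) (nat_lit 2390683429) (nat_lit 504) (nat_lit 3662420062) (nat_lit 133) (nat_lit 5) (nat_lit 138) (nat_lit 5) (nat_lit 139) (nat_lit 5) (nat_lit 309) (nat_lit 293) (nat_lit 286))) (XT.nd (nat_lit 94) (nat_lit 84) (nat_lit 0) (XT.lf (nat_lit 0) (nat_lit 3474241135) (nat_lit 420)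 (nat_lit 1674233000) (nat_lit 504) (nat_lit 1589227180) (nat_lit 133) (nat_lit 5) (nat_lit 138) (nat_lit 5) (nat_lit 139) (nat_lit 5) (nat_lit 310) (nat_lit 293) (nat_lit 285)) (XT.lf (nat_lit 0) (nat_lit 462588537) (nat_lit 504) (nat_lit 446269851) (nat_lit 84) (nat_lit 5877041860) (nat_lit 132) (nat_lit 5) (nat_lit 138) (nat_lit 5) (nat_lit 133) (nat_lit 5) (nat_lit 311) (nat_lit 293) (nat_lit 284))))))))
noncomputable def xc10 : XT := (XT.nd (nat_lit 2538) (nat_lit 1428) (nat_lit 0) (XT.nd (nat_lit 1222) (nat_lit 2604) (nat_lit 0) (XT.nd (nat_lit 564) (nat_lit 2688) (nat_lit 0) (XT.nd (nat_lit 282) (nat_lit 756) (nat_lit 0) (XT.nd (nat_lit 94) (nat_lit 588) (nat_lit 0) (XT.lf (nat_lit 0) (nat_lit 2439260040) (nat_lit 504) (nat_lit 57578918) (nat_lit 588) (nat_lit 4340473822) (nat_lit 126) (nat_lit 5) (nat_lit 132) (nat_lit 5) (nat_lit 133) (nat_lit 5) (nat_lit 312) (nat_lit 293) (nat_lit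 283)) (XT.nd (nat_lit 94) (nat_lit 588) (nat_lit 0) (XT.lf (nat_lit 0) (nat_lit 4536492875) (nat_lit 588) (nat_lit 1529106939) (nat_lit 84) (nat_lit 827215092) (nat_lit 126) (nat_lit 5) (nat_lit 133) (nat_lit 5) (nat_lit 127) (nat_lit 5) (nat_lit 313) (nat_lit 293) (nat_lit 282)) (XT.lf (nat_lit 0) (nat_lit 1403653766) (nat_lit 588) (nat_lit 5181855935) (nat_lit 672) (nat_lit 366884854) (nat_lit 119) (nat_lit 5) (nat_lit 126) (nat_lit 5) (nat_lit 127) (nat_lit 5) (nat_lit 314) (nat_lit 293) (nat_lit 281)))) (XT.nd (nat_lit 94) (nat_lit 672) (nat_lit 0) (XT.lf (nat_lit 0) (nat_lit 1598236565) (nat_lit 672) (nat_lit 2624778650) (nat_lit 84) (nat_lit 2792548123) (nat_lit 118) (nat_lit 5) (nat_lit 126) (nat_lit 5) (nat_lit 119) (nat_lit 5) (nat_lit 315) (nat_lit 293) (nat_lit 280)) (XT.nd (nat_lit 94) (nat_lit 0) (nat_lit 0) (XT.lf (nat_lit 0) (nat_lit 340234818) (nat_lit 672) (nat_lit 3213667123)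 (nat_lit 756) (nat_lit 3529244421) (nat_lit 110) (nat_lit 5) (nat_lit 118) (nat_lit 5) (nat_lit 119) (nat_lit 5) (nat_lit 316) (nat_lit 293) (nat_lit 279)) (XT.lf (nat_lit 0) (nat_lit 3400647013) (nat_lit 672) (nat_lit 2132285237) (nat_lit 756) (nat_lit 1621655404) (nat_lit 110) (nat_lit 5) (nat_lit 118) (nat_lit 5) (nat_lit 119) (nat_lit 5) (nat_lit 317) (nat_lit 293) (nat_lit 278))))) (XT.nd (nat_lit 282) (nat_lit 1848) (nat_lit 0) (XT.nd (nat_lit 94) (nat_lit 756) (nat_lit 0) (XT.lf (nat_lit 0) (nat_lit 274183272) (nat_lit 756) (nat_lit 728213721) (nat_lit 84) (nat_lit 6228294542) (nat_lit 109) (nat_lit 5) (nat_lit 118) (nat_lit 5) (nat_lit 110) (nat_lit 5) (nat_lit 318) (nat_lit 293) (nat_lit 277)) (XT.nd (nat_lit 94) (nat_lit 0) (nat_lit 0) (XT.lf (nat_lit 0) (nat_lit 2158755751) (nat_lit 840) (nat_lit 4940914466) (nat_lit 84) (nat_lit 210652053) (nat_lit 100) (nat_lit 5) (nat_lit 110)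 (nat_lit 5) (nat_lit 101) (nat_lit 5) (nat_lit 319) (nat_lit 293) (nat_lit 276)) (XT.lf (nat_lit 0) (nat_lit 4059136536) (nat_lit 840) (nat_lit 1876928203) (nat_lit 84) (nat_lit 1458216044) (nat_lit 100) (nat_lit 5) (nat_lit 110) (nat_lit 5) (nat_lit 101) (nat_lit 5) (nat_lit 320) (nat_lit 293) (nat_lit 275)))) (XT.nd (nat_lit 188) (nat_lit 924) (nat_lit 0) (XT.nd (nat_lit 94) (nat_lit 84) (nat_lit 0) (XT.lf (nat_lit 0) (nat_lit 1256032942) (nat_lit 840) (nat_lit 4716132225) (nat_lit 924) (nat_lit 1510633050) (nat_lit 90) (nat_lit 5) (nat_lit 100) (nat_lit 5) (nat_lit 101) (nat_lit 5) (nat_lit 321) (nat_lit 293) (nat_lit 274)) (XT.lf (nat_lit 0) (nat_lit 324220165) (nat_lit 924) (nat_lit 3103912120) (nat_lit 84) (nat_lit 4147505979) (nat_lit 89) (nat_lit 5) (nat_lit 100) (nat_lit 5) (nat_lit 90) (nat_lit 5) (nat_lit 322) (nat_lit 293) (nat_lit 273))) (XT.nd (nat_lit 94) (nat_lit 0) (nat_lit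 0) (XT.lf (nat_lit 0) (nat_lit 50402668) (nat_lit 924) (nat_lit 2077886134) (nat_lit 1008) (nat_lit 5544809786) (nat_lit 78) (nat_lit 5) (nat_lit 89) (nat_lit 5) (nat_lit 90) (nat_lit 5) (nat_lit 323) (nat_lit 293) (nat_lit 272)) (XT.lf (nat_lit 0) (nat_lit 3317905867) (nat_lit 924) (nat_lit 647198032) (nat_lit 1008) (nat_lit 3809656868) (nat_lit 78) (nat_lit 5) (nat_lit 89) (nat_lit 5) (nat_lit 90) (nat_lit 5) (nat_lit 324) (nat_lit 293) (nat_lit 271)))))) (XT.nd (nat_lit 658) (nat_lit 840) (nat_lit 0) (XT.nd (nat_lit 282) (nat_lit 1008) (nat_lit 0) (XT.nd (nat_lit 94) (nat_lit 756) (nat_lit 0) (XT.lf (nat_lit 0) (nat_lit 5813215383) (nat_lit 1008) (nat_lit 1252135528) (nat_lit 84) (nat_lit 816086677) (nat_lit 78) (nat_lit 5) (nat_lit 90) (nat_lit 5) (nat_lit 79) (nat_lit 5) (nat_lit 325) (nat_lit 293) (nat_lit 270)) (XT.nd (nat_lit 94) (nat_lit 84) (nat_lit 0) (XT.lf (nat_lit 0) (nat_lit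 2036833025) (nat_lit 672) (nat_lit 5656372448) (nat_lit 756) (nat_lit 299438367) (nat_lit 70) (nat_lit 5) (nat_lit 78) (nat_lit 5) (nat_lit 79) (nat_lit 5) (nat_lit 326) (nat_lit 293) (nat_lit 269)) (XT.lf (nat_lit 0) (nat_lit 1454582774) (nat_lit 756) (nat_lit 2718335936) (nat_lit 84) (nat_lit 3935524433) (nat_lit 69) (nat_lit 5) (nat_lit 78) (nat_lit 5) (nat_lit 70) (nat_lit 5) (nat_lit 327) (nat_lit 293) (nat_lit 268)))) (XT.nd (nat_lit 188) (nat_lit 504) (nat_lit 0) (XT.nd (nat_lit 94) (nat_lit 0) (nat_lit 0) (XT.lf (nat_lit 0) (nat_lit 579130427) (nat_lit 504) (nat_lit 2632849764) (nat_lit 588) (nat_lit 5017541831) (nat_lit 63) (nat_lit 5) (nat_lit 69) (nat_lit 5) (nat_lit 70) (nat_lit 5) (nat_lit 328) (nat_lit 293) (nat_lit 267)) (XT.lf (nat_lit 0) (nat_lit 3987965506) (nat_lit 504) (nat_lit 1014780094) (nat_lit 588) (nat_lit 3352647883) (nat_lit 63) (nat_lit 5) (nat_lit 69) (nat_lit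 5) (nat_lit 70) (nat_lit 5) (nat_lit 329) (nat_lit 293) (nat_lit 266))) (XT.nd (nat_lit 94) (nat_lit 504) (nat_lit 0) (XT.lf (nat_lit 0) (nat_lit 6807519445) (nat_lit 588) (nat_lit 1038067840) (nat_lit 84) (nat_lit 641239457) (nat_lit 63) (nat_lit 5) (nat_lit 70) (nat_lit 5) (nat_lit 64) (nat_lit 5) (nat_lit 330) (nat_lit 293) (nat_lit 265)) (XT.lf (nat_lit 0) (nat_lit 31990481) (nat_lit 504) (nat_lit 6238659913) (nat_lit 84) (nat_lit 2352423672) (nat_lit 57) (nat_lit 5) (nat_lit 63) (nat_lit 5) (nat_lit 58) (nat_lit 5) (nat_lit 331) (nat_lit 293) (nat_lit 264))))) (XT.nd (nat_lit 282) (nat_lit 420) (nat_lit 0) (XT.nd (nat_lit 94) (nat_lit 420) (nat_lit 0) (XT.lf (nat_lit 0) (nat_lit 1725980124) (nat_lit 504) (nat_lit 2893733568) (nat_lit 84) (nat_lit 4144739124) (nat_lit 57) (nat_lit 5) (nat_lit 63) (nat_lit 5) (nat_lit 58) (nat_lit 5) (nat_lit 332) (nat_lit 293) (nat_lit 263)) (XT.nd (nat_lit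 94) (nat_lit 0) (nat_lit 0) (XT.lf (nat_lit 0) (nat_lit 518545636) (nat_lit 420) (nat_lit 2914056314) (nat_lit 504) (nat_lit 5479178910) (nat_lit 52) (nat_lit 5) (nat_lit 57) (nat_lit 5) (nat_lit 58) (nat_lit 5) (nat_lit 333) (nat_lit 293) (nat_lit 262)) (XT.lf (nat_lit 0) (nat_lit 4051637413) (nat_lit 420) (nat_lit 1126565137) (nat_lit 504) (nat_lit 3886225541) (nat_lit 52) (nat_lit 5) (nat_lit 57) (nat_lit 5) (nat_lit 58) (nat_lit 5) (nat_lit 334) (nat_lit 293) (nat_lit 261)))) (XT.nd (nat_lit 188) (nat_lit 84) (nat_lit 0) (XT.nd (nat_lit 94) (nat_lit 336) (nat_lit 0) (XT.lf (nat_lit 0) (nat_lit 6942197719) (nat_lit 504) (nat_lit 1581196273) (nat_lit 84) (nat_lit 699831354) (nat_lit 52) (nat_lit 5) (nat_lit 58) (nat_lit 5) (nat_lit 53) (nat_lit 5) (nat_lit 335) (nat_lit 293) (nat_lit 260)) (XT.lf (nat_lit 0) (nat_lit 1939187287) (nat_lit 336) (nat_lit 6810910985) (nat_lit 420) (nat_lit 637482499)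 (nat_lit 48) (nat_lit 5) (nat_lit 52) (nat_lit 5) (nat_lit 53) (nat_lit 5) (nat_lit 336) (nat_lit 293) (nat_lit 259))) (XT.nd (nat_lit 94) (nat_lit 0) (nat_lit 0) (XT.lf (nat_lit 0) (nat_lit 1010954510) (nat_lit 420) (nat_lit 4010767745) (nat_lit 84) (nat_lit 4536034989) (nat_lit 47) (nat_lit 5) (nat_lit 52) (nat_lit 5) (nat_lit 48) (nat_lit 5) (nat_lit 337) (nat_lit 293) (nat_lit 258)) (XT.lf (nat_lit 0) (nat_lit 2657062095) (nat_lit 420) (nat_lit 517534874) (nat_lit 84) (nat_lit 6559930913) (nat_lit 47) (nat_lit 5) (nat_lit 52) (nat_lit 5) (nat_lit 48) (nat_lit 5) (nat_lit 338) (nat_lit 293) (nat_lit 257))))))) (XT.nd (nat_lit 52452) (nat_lit 0) (nat_lit 6720) (XT.nd (nat_lit 564) (nat_lit 252) (nat_lit 0) (XT.nd (nat_lit 282) (nat_lit 420) (nat_lit 0) (XT.nd (nat_lit 94) (nat_lit 336) (nat_lit 0) (XT.lf (nat_lit 0) (nat_lit 3103411926) (nat_lit 420) (nat_lit 1242592755) (nat_lit 504) (nat_lit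 5571294438) (nat_lit 42) (nat_lit 5) (nat_lit 47) (nat_lit 5) (nat_lit 48) (nat_lit 5) (nat_lit 339) (nat_lit 293) (nat_lit 256)) (XT.nd (nat_lit 94) (nat_lit 336) (nat_lit 0) (XT.lf (nat_lit 0) (nat_lit 6061919171) (nat_lit 504) (nat_lit 3309544292) (nat_lit 84) (nat_lit 735318416) (nat_lit 42) (nat_lit 5) (nat_lit 48) (nat_lit 5) (nat_lit 43) (nat_lit 5) (nat_lit 340) (nat_lit 293) (nat_lit 255)) (XT.lf (nat_lit 0) (nat_lit 253081864) (nat_lit 336) (nat_lit 7556039665) (nat_lit 420) (nat_lit 2493947034) (nat_lit 38) (nat_lit 5) (nat_lit 42) (nat_lit 5) (nat_lit 43) (nat_lit 5) (nat_lit 341) (nat_lit 293) (nat_lit 254)))) (XT.nd (nat_lit 94) (nat_lit 420) (nat_lit 0) (XT.lf (nat_lit 0) (nat_lit 3954001142) (nat_lit 336) (nat_lit 5654602547) (nat_lit 420) (nat_lit 897138179) (nat_lit 38) (nat_lit 5) (nat_lit 42) (nat_lit 5) (nat_lit 43) (nat_lit 5) (nat_lit 342) (nat_lit 293) (nat_lit 253))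 (XT.nd (nat_lit 94) (nat_lit 336) (nat_lit 0) (XT.lf (nat_lit 0) (nat_lit 698151958) (nat_lit 420) (nat_lit 2994485393) (nat_lit 84) (nat_lit 7023172935) (nat_lit 37) (nat_lit 5) (nat_lit 42) (nat_lit 5) (nat_lit 38) (nat_lit 5) (nat_lit 343) (nat_lit 293) (nat_lit 252)) (XT.lf (nat_lit 0) (nat_lit 635940624) (nat_lit 336) (nat_lit 1659782963) (nat_lit 420) (nat_lit 8637489484) (nat_lit 33) (nat_lit 5) (nat_lit 37) (nat_lit 5) (nat_lit 38) (nat_lit 5) (nat_lit 344) (nat_lit 293) (nat_lit 251))))) (XT.nd (nat_lit 51512) (nat_lit 0) (nat_lit 9828) (XT.nd (nat_lit 94) (nat_lit 252) (nat_lit 0) (XT.lf (nat_lit 0) (nat_lit 3944463365) (nat_lit 420) (nat_lit 6760184394) (nat_lit 84) (nat_lit 452872010) (nat_lit 33) (nat_lit 5) (nat_lit 38) (nat_lit 5) (nat_lit 34) (nat_lit 5) (nat_lit 345) (nat_lit 293) (nat_lit 250)) (XT.nd (nat_lit 94) (nat_lit 252) (nat_lit 0) (XT.lf (nat_lit 0) (nat_lit 5628061233)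 (nat_lit 420) (nat_lit 3170716772) (nat_lit 84) (nat_lit 2590714705) (nat_lit 33) (nat_lit 5) (nat_lit 38) (nat_lit 5) (nat_lit 34) (nat_lit 5) (nat_lit 346) (nat_lit 293) (nat_lit 249)) (XT.lf (nat_lit 0) (nat_lit 501036192) (nat_lit 252) (nat_lit 6835555377) (nat_lit 336) (nat_lit 4293112890) (nat_lit 30) (nat_lit 5) (nat_lit 33) (nat_lit 5) (nat_lit 34) (nat_lit 5) (nat_lit 347) (nat_lit 293) (nat_lit 248)))) (XT.nd (nat_lit 188) (nat_lit 168) (nat_lit 0) (XT.nd (nat_lit 94) (nat_lit 84) (nat_lit 0) (XT.lf (nat_lit 0) (nat_lit 1525953788) (nat_lit 84) (nat_lit 852799324) (nat_lit 84) (nat_lit 852799324) (nat_lit 150) (nat_lit 4) (nat_lit 151) (nat_lit 5) (nat_lit 151) (nat_lit 4) (nat_lit 300) (nat_lit 294) (nat_lit 294)) (XT.lf (nat_lit 0) (nat_lit 563031609) (nat_lit 168) (nat_lit 935161571) (nat_lit 84) (nat_lit 4977677137) (nat_lit 149) (nat_lit 5) (nat_lit 151) (nat_lit 5) (nat_lit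 150) (nat_lit 4) (nat_lit 301) (nat_lit 294) (nat_lit 293))) (XT.nd (nat_lit 94) (nat_lit 0) (nat_lit 0) (XT.lf (nat_lit 0) (nat_lit 1581328614) (nat_lit 168) (nat_lit 1213444729) (nat_lit 252) (nat_lit 3696996280) (nat_lit 147) (nat_lit 5) (nat_lit 149) (nat_lit 5) (nat_lit 150) (nat_lit 4) (nat_lit 302) (nat_lit 294) (nat_lit 292)) (XT.lf (nat_lit 0) (nat_lit 4145449776) (nat_lit 168) (nat_lit 874668830) (nat_lit 252) (nat_lit 1491408033) (nat_lit 147) (nat_lit 5) (nat_lit 149) (nat_lit 5) (nat_lit 150) (nat_lit 4) (nat_lit 303) (nat_lit 294) (nat_lit 291)))))) (XT.nd (nat_lit 658) (nat_lit 1932) (nat_lit 0) (XT.nd (nat_lit 282) (nat_lit 840) (nat_lit 0) (XT.nd (nat_lit 94) (nat_lit 0) (nat_lit 0) (XT.lf (nat_lit 0) (nat_lit 202074579) (nat_lit 252) (nat_lit 482123432) (nat_lit 336) (nat_lit 5850979022) (nat_lit 143) (nat_lit 5) (nat_lit 146) (nat_lit 5) (nat_lit 147) (nat_lit 5) (nat_lit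 304) (nat_lit 294) (nat_lit 290)) (XT.nd (nat_lit 94) (nat_lit 0) (nat_lit 0) (XT.lf (nat_lit 0) (nat_lit 2833555089) (nat_lit 252) (nat_lit 4700776) (nat_lit 336) (nat_lit 3723562642) (nat_lit 143) (nat_lit 5) (nat_lit 146) (nat_lit 5) (nat_lit 147) (nat_lit 5) (nat_lit 305) (nat_lit 294) (nat_lit 289)) (XT.lf (nat_lit 0) (nat_lit 4984158351) (nat_lit 336) (nat_lit 1100548308) (nat_lit 84) (nat_lit 507806446) (nat_lit 143) (nat_lit 5) (nat_lit 147) (nat_lit 5) (nat_lit 144) (nat_lit 4) (nat_lit 306) (nat_lit 294) (nat_lit 288)))) (XT.nd (nat_lit 188) (nat_lit 420) (nat_lit 0) (XT.nd (nat_lit 94) (nat_lit 0) (nat_lit 0) (XT.lf (nat_lit 0) (nat_lit 497846082) (nat_lit 420) (nat_lit 5042832056) (nat_lit 84) (nat_lit 1086110277) (nat_lit 138) (nat_lit 5) (nat_lit 143) (nat_lit 5) (nat_lit 139) (nat_lit 5) (nat_lit 307) (nat_lit 294) (nat_lit 287)) (XT.lf (nat_lit 0) (nat_lit 2570380617) (nat_lit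 420) (nat_lit 2356659392) (nat_lit 84) (nat_lit 1737433559) (nat_lit 138) (nat_lit 5) (nat_lit 143) (nat_lit 5) (nat_lit 139) (nat_lit 5) (nat_lit 308) (nat_lit 294) (nat_lit 286))) (XT.nd (nat_lit 94) (nat_lit 0) (nat_lit 0) (XT.lf (nat_lit 0) (nat_lit 368478492) (nat_lit 420) (nat_lit 4267506273) (nat_lit 504) (nat_lit 2070349154) (nat_lit 133) (nat_lit 5) (nat_lit 138) (nat_lit 5) (nat_lit 139) (nat_lit 5) (nat_lit 309) (nat_lit 294) (nat_lit 285)) (XT.lf (nat_lit 0) (nat_lit 3176849163) (nat_lit 420) (nat_lit 3540279997) (nat_lit 504) (nat_lit 34642423) (nat_lit 133) (nat_lit 5) (nat_lit 138) (nat_lit 5) (nat_lit 139) (nat_lit 5) (nat_lit 310) (nat_lit 294) (nat_lit 284))))) (XT.nd (nat_lit 282) (nat_lit 1344) (nat_lit 0) (XT.nd (nat_lit 94) (nat_lit 504) (nat_lit 0) (XT.lf (nat_lit 0) (nat_lit 1950225406) (nat_lit 504) (nat_lit 798700262) (nat_lit 84) (nat_lit 4052030803) (nat_lit 132)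 (nat_lit 5) (nat_lit 138) (nat_lit 5) (nat_lit 133) (nat_lit 5) (nat_lit 311) (nat_lit 294) (nat_lit 283)) (XT.nd (nat_lit 94) (nat_lit 0) (nat_lit 0) (XT.lf (nat_lit 0) (nat_lit 2054295074) (nat_lit 504) (nat_lit 1891806597) (nat_lit 588) (nat_lit 2907805725) (nat_lit 126) (nat_lit 5) (nat_lit 132) (nat_lit 5) (nat_lit 133) (nat_lit 5) (nat_lit 312) (nat_lit 294) (nat_lit 282)) (XT.lf (nat_lit 0) (nat_lit 4962849921) (nat_lit 504) (nat_lit 980771289) (nat_lit 588) (nat_lit 967432784) (nat_lit 126) (nat_lit 5) (nat_lit 132) (nat_lit 5) (nat_lit 133) (nat_lit 5) (nat_lit 313) (nat_lit 294) (nat_lit 281)))) (XT.nd (nat_lit 188) (nat_lit 672) (nat_lit 0) (XT.nd (nat_lit 94) (nat_lit 0) (nat_lit 0) (XT.lf (nat_lit 0) (nat_lit 950133707) (nat_lit 588) (nat_lit 3731707) (nat_lit 672) (nat_lit 6018246189) (nat_lit 118) (nat_lit 5) (nat_lit 125) (nat_lit 5) (nat_lit 126) (nat_lit 5) (nat_lit 314) (nat_lit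 294) (nat_lit 280)) (XT.lf (nat_lit 0) (nat_lit 2878998121) (nat_lit 672) (nat_lit 3127563187) (nat_lit 84) (nat_lit 1029925452) (nat_lit 118) (nat_lit 5) (nat_lit 126) (nat_lit 5) (nat_lit 119) (nat_lit 5) (nat_lit 315) (nat_lit 294) (nat_lit 279))) (XT.nd (nat_lit 94) (nat_lit 672) (nat_lit 0) (XT.lf (nat_lit 0) (nat_lit 4799707548) (nat_lit 672) (nat_lit 194569486) (nat_lit 84) (nat_lit 2111175799) (nat_lit 118) (nat_lit 5) (nat_lit 126) (nat_lit 5) (nat_lit 119) (nat_lit 5) (nat_lit 316) (nat_lit 294) (nat_lit 278)) (XT.lf (nat_lit 0) (nat_lit 2836931935) (nat_lit 672) (nat_lit 3908957760) (nat_lit 756) (nat_lit 432313137) (nat_lit 110) (nat_lit 5) (nat_lit 118) (nat_lit 5) (nat_lit 119) (nat_lit 5) (nat_lit 317) (nat_lit 294) (nat_lit 277))))))))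
noncomputable def xc11 : XT := (XT.nd (nat_lit 2538) (nat_lit 336) (nat_lit 0) (XT.nd (nat_lit 1222) (nat_lit 2184) (nat_lit 0) (XT.nd (nat_lit 564) (nat_lit 2184) (nat_lit 0) (XT.nd (nat_lit 282) (nat_lit 924) (nat_lit 0) (XT.nd (nat_lit 94) (nat_lit 756) (nat_lit 0) (XT.lf (nat_lit 0) (nat_lit 1409030745) (nat_lit 756) (nat_lit 1352404448) (nat_lit 84) (nat_lit 4493725478) (nat_lit 109) (nat_lit 5) (nat_lit 118) (nat_lit 5) (nat_lit 110) (nat_lit 5) (nat_lit 318) (nat_lit 294) (nat_lit 276)) (XT.nd (nat_lit 94) (nat_lit 0) (nat_lit 0) (XT.lf (nat_lit 0) (nat_lit 1709772893) (nat_lit 756) (nat_lit 1545518037) (nat_lit 840) (nat_lit 4080953154) (nat_lit 100) (nat_lit 5) (nat_lit 109) (nat_lit 5) (nat_lit 110) (nat_lit 5) (nat_lit 319) (nat_lit 294) (nat_lit 275)) (XT.lf (nat_lit 0) (nat_lit 4846677294) (nat_lit 756) (nat_lit 267401531) (nat_lit 840) (nat_lit 2307670180) (nat_lit 100) (nat_lit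 5) (nat_lit 109) (nat_lit 5) (nat_lit 110) (nat_lit 5) (nat_lit 320) (nat_lit 294) (nat_lit 274)))) (XT.nd (nat_lit 94) (nat_lit 84) (nat_lit 0) (XT.lf (nat_lit 0) (nat_lit 521231308) (nat_lit 840) (nat_lit 6467889731) (nat_lit 924) (nat_lit 522572280) (nat_lit 90) (nat_lit 5) (nat_lit 100) (nat_lit 5) (nat_lit 101) (nat_lit 5) (nat_lit 321) (nat_lit 294) (nat_lit 273)) (XT.nd (nat_lit 94) (nat_lit 0) (nat_lit 0) (XT.lf (nat_lit 0) (nat_lit 1264414270) (nat_lit 924) (nat_lit 3902478042) (nat_lit 84) (nat_lit 2438438479) (nat_lit 89) (nat_lit 5) (nat_lit 100) (nat_lit 5) (nat_lit 90) (nat_lit 5) (nat_lit 322) (nat_lit 294) (nat_lit 272)) (XT.lf (nat_lit 0) (nat_lit 3040864146) (nat_lit 924) (nat_lit 773492528) (nat_lit 84) (nat_lit 3889518104) (nat_lit 89) (nat_lit 5) (nat_lit 100) (nat_lit 5) (nat_lit 90) (nat_lit 5) (nat_lit 323) (nat_lit 294) (nat_lit 271))))) (XT.nd (nat_lit 282) (nat_lit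 504) (nat_lit 0) (XT.nd (nat_lit 94) (nat_lit 756) (nat_lit 0) (XT.lf (nat_lit 0) (nat_lit 2454038459) (nat_lit 924) (nat_lit 2389267756) (nat_lit 1008) (nat_lit 2963516947) (nat_lit 78) (nat_lit 5) (nat_lit 89) (nat_lit 5) (nat_lit 90) (nat_lit 5) (nat_lit 324) (nat_lit 294) (nat_lit 270)) (XT.nd (nat_lit 94) (nat_lit 756) (nat_lit 0) (XT.lf (nat_lit 0) (nat_lit 5750608969) (nat_lit 924) (nat_lit 906802541) (nat_lit 1008) (nat_lit 1257356675) (nat_lit 78) (nat_lit 5) (nat_lit 89) (nat_lit 5) (nat_lit 90) (nat_lit 5) (nat_lit 325) (nat_lit 294) (nat_lit 269)) (XT.lf (nat_lit 0) (nat_lit 457152323) (nat_lit 756) (nat_lit 6941049511) (nat_lit 84) (nat_lit 629179751) (nat_lit 69) (nat_lit 5) (nat_lit 78) (nat_lit 5) (nat_lit 70) (nat_lit 5) (nat_lit 326) (nat_lit 294) (nat_lit 268)))) (XT.nd (nat_lit 188) (nat_lit 504) (nat_lit 0) (XT.nd (nat_lit 94) (nat_lit 0) (nat_lit 0) (XT.lf (nat_lit 0)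 (nat_lit 2180264336) (nat_lit 756) (nat_lit 3730659264) (nat_lit 84) (nat_lit 2233131640) (nat_lit 69) (nat_lit 5) (nat_lit 78) (nat_lit 5) (nat_lit 70) (nat_lit 5) (nat_lit 327) (nat_lit 294) (nat_lit 267)) (XT.lf (nat_lit 0) (nat_lit 3907788568) (nat_lit 756) (nat_lit 468250192) (nat_lit 84) (nat_lit 3890210835) (nat_lit 69) (nat_lit 5) (nat_lit 78) (nat_lit 5) (nat_lit 70) (nat_lit 5) (nat_lit 328) (nat_lit 294) (nat_lit 266))) (XT.nd (nat_lit 94) (nat_lit 0) (nat_lit 0) (XT.lf (nat_lit 0) (nat_lit 2907804390) (nat_lit 504) (nat_lit 2762376642) (nat_lit 588) (nat_lit 2723003297) (nat_lit 63) (nat_lit 5) (nat_lit 69) (nat_lit 5) (nat_lit 70) (nat_lit 5) (nat_lit 329) (nat_lit 294) (nat_lit 265)) (XT.lf (nat_lit 0) (nat_lit 6352834841) (nat_lit 504) (nat_lit 1092706304) (nat_lit 588) (nat_lit 1080166456) (nat_lit 63) (nat_lit 5) (nat_lit 69) (nat_lit 5) (nat_lit 70) (nat_lit 5) (nat_lit 330)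 (nat_lit 294) (nat_lit 264)))))) (XT.nd (nat_lit 658) (nat_lit 840) (nat_lit 0) (XT.nd (nat_lit 282) (nat_lit 840) (nat_lit 0) (XT.nd (nat_lit 94) (nat_lit 0) (nat_lit 0) (XT.lf (nat_lit 0) (nat_lit 573757416) (nat_lit 504) (nat_lit 7454772794) (nat_lit 84) (nat_lit 634812478) (nat_lit 57) (nat_lit 5) (nat_lit 63) (nat_lit 5) (nat_lit 58) (nat_lit 5) (nat_lit 331) (nat_lit 294) (nat_lit 263)) (XT.nd (nat_lit 94) (nat_lit 0) (nat_lit 0) (XT.lf (nat_lit 0) (nat_lit 2245577914) (nat_lit 504) (nat_lit 4132883079) (nat_lit 84) (nat_lit 2427110280) (nat_lit 57) (nat_lit 5) (nat_lit 63) (nat_lit 5) (nat_lit 58) (nat_lit 5) (nat_lit 332) (nat_lit 294) (nat_lit 262)) (XT.lf (nat_lit 0) (nat_lit 3925553140) (nat_lit 504) (nat_lit 753395379) (nat_lit 84) (nat_lit 4274934547) (nat_lit 57) (nat_lit 5) (nat_lit 63) (nat_lit 5) (nat_lit 58) (nat_lit 5) (nat_lit 333) (nat_lit 294) (nat_lit 261)))) (XT.nd (nat_lit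 188) (nat_lit 420) (nat_lit 0) (XT.nd (nat_lit 94) (nat_lit 0) (nat_lit 0) (XT.lf (nat_lit 0) (nat_lit 2742087289) (nat_lit 420) (nat_lit 2900363561) (nat_lit 504) (nat_lit 3465122201) (nat_lit 52) (nat_lit 5) (nat_lit 57) (nat_lit 5) (nat_lit 58) (nat_lit 5) (nat_lit 334) (nat_lit 294) (nat_lit 260)) (XT.lf (nat_lit 0) (nat_lit 6318331032) (nat_lit 420) (nat_lit 1060588076) (nat_lit 504) (nat_lit 1888452892) (nat_lit 52) (nat_lit 5) (nat_lit 57) (nat_lit 5) (nat_lit 58) (nat_lit 5) (nat_lit 335) (nat_lit 294) (nat_lit 259))) (XT.nd (nat_lit 94) (nat_lit 84) (nat_lit 0) (XT.lf (nat_lit 0) (nat_lit 531954658) (nat_lit 336) (nat_lit 8610547086) (nat_lit 420) (nat_lit 290743440) (nat_lit 48) (nat_lit 5) (nat_lit 52) (nat_lit 5) (nat_lit 53) (nat_lit 5) (nat_lit 336) (nat_lit 294) (nat_lit 258)) (XT.lf (nat_lit 0) (nat_lit 1330919779) (nat_lit 420) (nat_lit 5488984993) (nat_lit 84) (nat_lit 2784159054)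 (nat_lit 47) (nat_lit 5) (nat_lit 52) (nat_lit 5) (nat_lit 48) (nat_lit 5) (nat_lit 337) (nat_lit 294) (nat_lit 257))))) (XT.nd (nat_lit 282) (nat_lit 420) (nat_lit 0) (XT.nd (nat_lit 94) (nat_lit 420) (nat_lit 0) (XT.lf (nat_lit 0) (nat_lit 2957834571) (nat_lit 420) (nat_lit 2016974733) (nat_lit 84) (nat_lit 4806751444) (nat_lit 47) (nat_lit 5) (nat_lit 52) (nat_lit 5) (nat_lit 48) (nat_lit 5) (nat_lit 338) (nat_lit 294) (nat_lit 256)) (XT.nd (nat_lit 94) (nat_lit 0) (nat_lit 0) (XT.lf (nat_lit 0) (nat_lit 1552132757) (nat_lit 420) (nat_lit 3060639812) (nat_lit 504) (nat_lit 5352740919) (nat_lit 42) (nat_lit 5) (nat_lit 47) (nat_lit 5) (nat_lit 48) (nat_lit 5) (nat_lit 339) (nat_lit 294) (nat_lit 255)) (XT.lf (nat_lit 0) (nat_lit 5233257541) (nat_lit 420) (nat_lit 1069726973) (nat_lit 504) (nat_lit 3852932041) (nat_lit 42) (nat_lit 5) (nat_lit 47) (nat_lit 5) (nat_lit 48) (nat_lit 5) (nat_lit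 340) (nat_lit 294) (nat_lit 254)))) (XT.nd (nat_lit 188) (nat_lit 84) (nat_lit 0) (XT.nd (nat_lit 94) (nat_lit 336) (nat_lit 0) (XT.lf (nat_lit 0) (nat_lit 8019334945) (nat_lit 504) (nat_lit 1374931916) (nat_lit 84) (nat_lit 959012605) (nat_lit 42) (nat_lit 5) (nat_lit 48) (nat_lit 5) (nat_lit 43) (nat_lit 5) (nat_lit 341) (nat_lit 294) (nat_lit 253)) (XT.lf (nat_lit 0) (nat_lit 2277510747) (nat_lit 336) (nat_lit 7509989557) (nat_lit 420) (nat_lit 769539502) (nat_lit 38) (nat_lit 5) (nat_lit 42) (nat_lit 5) (nat_lit 43) (nat_lit 5) (nat_lit 342) (nat_lit 294) (nat_lit 252))) (XT.nd (nat_lit 94) (nat_lit 0) (nat_lit 0) (XT.lf (nat_lit 0) (nat_lit 806023015) (nat_lit 420) (nat_lit 4743599296) (nat_lit 84) (nat_lit 5218087863) (nat_lit 37) (nat_lit 5) (nat_lit 42) (nat_lit 5) (nat_lit 38) (nat_lit 5) (nat_lit 343) (nat_lit 294) (nat_lit 251)) (XT.lf (nat_lit 0) (nat_lit 2380645113) (nat_lit 420)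 (nat_lit 1145442685) (nat_lit 84) (nat_lit 7459842640) (nat_lit 37) (nat_lit 5) (nat_lit 42) (nat_lit 5) (nat_lit 38) (nat_lit 5) (nat_lit 344) (nat_lit 294) (nat_lit 250))))))) (XT.nd (nat_lit 52264) (nat_lit 0) (nat_lit 5544) (XT.nd (nat_lit 51606) (nat_lit 0) (nat_lit 8820) (XT.nd (nat_lit 51324) (nat_lit 0) (nat_lit 9744) (XT.nd (nat_lit 94) (nat_lit 0) (nat_lit 0) (XT.lf (nat_lit 0) (nat_lit 2577866831) (nat_lit 336) (nat_lit 1419004936) (nat_lit 420) (nat_lit 7214476130) (nat_lit 33) (nat_lit 5) (nat_lit 37) (nat_lit 5) (nat_lit 38) (nat_lit 5) (nat_lit 345) (nat_lit 294) (nat_lit 249)) (XT.nd (nat_lit 94) (nat_lit 0) (nat_lit 0) (XT.lf (nat_lit 0) (nat_lit 5650524193) (nat_lit 420) (nat_lit 5049179928) (nat_lit 84) (nat_lit 744644786) (nat_lit 33) (nat_lit 5) (nat_lit 38) (nat_lit 5) (nat_lit 34) (nat_lit 5) (nat_lit 346) (nat_lit 294) (nat_lit 248)) (XT.lf (nat_lit 0) (nat_lit 7338692589)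 (nat_lit 420) (nat_lit 1406186313) (nat_lit 84) (nat_lit 2940409735) (nat_lit 33) (nat_lit 5) (nat_lit 38) (nat_lit 5) (nat_lit 34) (nat_lit 5) (nat_lit 347) (nat_lit 294) (nat_lit 247)))) (XT.nd (nat_lit 94) (nat_lit 168) (nat_lit 0) (XT.lf (nat_lit 0) (nat_lit 1162685562) (nat_lit 84) (nat_lit 898165396) (nat_lit 0) (nat_lit 1162685562) (nat_lit 151) (nat_lit 5) (nat_lit 152) (nat_lit 0) (nat_lit 151) (nat_lit 4) (nat_lit 298) (nat_lit 295) (nat_lit 295)) (XT.nd (nat_lit 94) (nat_lit 84) (nat_lit 0) (XT.lf (nat_lit 0) (nat_lit 584372751) (nat_lit 84) (nat_lit 4006517339) (nat_lit 84) (nat_lit 1863399526) (nat_lit 150) (nat_lit 4) (nat_lit 151) (nat_lit 5) (nat_lit 151) (nat_lit 4) (nat_lit 299) (nat_lit 295) (nat_lit 294)) (XT.lf (nat_lit 0) (nat_lit 384299682) (nat_lit 168) (nat_lit 3441283929) (nat_lit 84) (nat_lit 2639298051) (nat_lit 149) (nat_lit 5) (nat_lit 151) (nat_lit 5) (nat_lit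 150) (nat_lit 4) (nat_lit 300) (nat_lit 295) (nat_lit 293))))) (XT.nd (nat_lit 282) (nat_lit 672) (nat_lit 0) (XT.nd (nat_lit 94) (nat_lit 252) (nat_lit 0) (XT.lf (nat_lit 0) (nat_lit 2575496632) (nat_lit 168) (nat_lit 1007140199) (nat_lit 84) (nat_lit 2896339628) (nat_lit 149) (nat_lit 5) (nat_lit 151) (nat_lit 5) (nat_lit 150) (nat_lit 4) (nat_lit 301) (nat_lit 295) (nat_lit 292)) (XT.nd (nat_lit 94) (nat_lit 84) (nat_lit 0) (XT.lf (nat_lit 0) (nat_lit 1483150532) (nat_lit 168) (nat_lit 3281339600) (nat_lit 252) (nat_lit 1732213948) (nat_lit 147) (nat_lit 5) (nat_lit 149) (nat_lit 5) (nat_lit 150) (nat_lit 4) (nat_lit 302) (nat_lit 295) (nat_lit 291)) (XT.lf (nat_lit 0) (nat_lit 422185786) (nat_lit 252) (nat_lit 2499191251) (nat_lit 84) (nat_lit 3596702990) (nat_lit 146) (nat_lit 5) (nat_lit 149) (nat_lit 5) (nat_lit 147) (nat_lit 5) (nat_lit 303) (nat_lit 295) (nat_lit 290)))) (XT.nd (nat_lit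 188) (nat_lit 420) (nat_lit 0) (XT.nd (nat_lit 94) (nat_lit 0) (nat_lit 0) (XT.lf (nat_lit 0) (nat_lit 26074204) (nat_lit 252) (nat_lit 2499524418) (nat_lit 336) (nat_lit 4017438729) (nat_lit 143) (nat_lit 5) (nat_lit 146) (nat_lit 5) (nat_lit 147) (nat_lit 5) (nat_lit 304) (nat_lit 295) (nat_lit 289)) (XT.lf (nat_lit 0) (nat_lit 2633258190) (nat_lit 252) (nat_lit 2006973251) (nat_lit 336) (nat_lit 1931114844) (nat_lit 143) (nat_lit 5) (nat_lit 146) (nat_lit 5) (nat_lit 147) (nat_lit 5) (nat_lit 305) (nat_lit 295) (nat_lit 288))) (XT.nd (nat_lit 94) (nat_lit 336) (nat_lit 0) (XT.lf (nat_lit 0) (nat_lit 136136409) (nat_lit 336) (nat_lit 1331793463) (nat_lit 84) (nat_lit 5135844982) (nat_lit 142) (nat_lit 5) (nat_lit 146) (nat_lit 5) (nat_lit 143) (nat_lit 5) (nat_lit 306) (nat_lit 295) (nat_lit 287)) (XT.lf (nat_lit 0) (nat_lit 1313172527) (nat_lit 336) (nat_lit 850279424) (nat_lit 420) (nat_lit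 4475950815) (nat_lit 138) (nat_lit 5) (nat_lit 142) (nat_lit 5) (nat_lit 143) (nat_lit 5) (nat_lit 307) (nat_lit 295) (nat_lit 286)))))) (XT.nd (nat_lit 658) (nat_lit 1596) (nat_lit 0) (XT.nd (nat_lit 282) (nat_lit 1176) (nat_lit 0) (XT.nd (nat_lit 94) (nat_lit 504) (nat_lit 0) (XT.lf (nat_lit 0) (nat_lit 4020029637) (nat_lit 336) (nat_lit 172386022) (nat_lit 420) (nat_lit 2486417053) (nat_lit 138) (nat_lit 5) (nat_lit 142) (nat_lit 5) (nat_lit 143) (nat_lit 5) (nat_lit 308) (nat_lit 295) (nat_lit 285)) (XT.nd (nat_lit 94) (nat_lit 84) (nat_lit 0) (XT.lf (nat_lit 0) (nat_lit 36654946) (nat_lit 420) (nat_lit 6180624881) (nat_lit 504) (nat_lit 505058422) (nat_lit 133) (nat_lit 5) (nat_lit 138) (nat_lit 5) (nat_lit 139) (nat_lit 5) (nat_lit 309) (nat_lit 295) (nat_lit 284)) (XT.lf (nat_lit 0) (nat_lit 1464182686) (nat_lit 504) (nat_lit 3963481016) (nat_lit 84) (nat_lit 1341105527) (nat_lit 132)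 (nat_lit 5) (nat_lit 138) (nat_lit 5) (nat_lit 133) (nat_lit 5) (nat_lit 310) (nat_lit 295) (nat_lit 283)))) (XT.nd (nat_lit 188) (nat_lit 672) (nat_lit 0) (XT.nd (nat_lit 94) (nat_lit 504) (nat_lit 0) (XT.lf (nat_lit 0) (nat_lit 3413797293) (nat_lit 504) (nat_lit 1212380883) (nat_lit 84) (nat_lit 2193185295) (nat_lit 132) (nat_lit 5) (nat_lit 138) (nat_lit 5) (nat_lit 133) (nat_lit 5) (nat_lit 311) (nat_lit 295) (nat_lit 282)) (XT.lf (nat_lit 0) (nat_lit 1607580822) (nat_lit 504) (nat_lit 3764145022) (nat_lit 588) (nat_lit 1502103236) (nat_lit 126) (nat_lit 5) (nat_lit 132) (nat_lit 5) (nat_lit 133) (nat_lit 5) (nat_lit 312) (nat_lit 295) (nat_lit 281))) (XT.nd (nat_lit 94) (nat_lit 588) (nat_lit 0) (XT.lf (nat_lit 0) (nat_lit 396038635) (nat_lit 588) (nat_lit 2443982777) (nat_lit 84) (nat_lit 4092173184) (nat_lit 125) (nat_lit 5) (nat_lit 132) (nat_lit 5) (nat_lit 126) (nat_lit 5) (nat_lit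 313) (nat_lit 295) (nat_lit 280)) (XT.lf (nat_lit 0) (nat_lit 409822338) (nat_lit 588) (nat_lit 1850266310) (nat_lit 672) (nat_lit 4734345200) (nat_lit 118) (nat_lit 5) (nat_lit 125) (nat_lit 5) (nat_lit 126) (nat_lit 5) (nat_lit 314) (nat_lit 295) (nat_lit 279))))) (XT.nd (nat_lit 282) (nat_lit 840) (nat_lit 0) (XT.nd (nat_lit 94) (nat_lit 756) (nat_lit 0) (XT.lf (nat_lit 0) (nat_lit 3355556453) (nat_lit 588) (nat_lit 787579155) (nat_lit 672) (nat_lit 2917277471) (nat_lit 118) (nat_lit 5) (nat_lit 125) (nat_lit 5) (nat_lit 126) (nat_lit 5) (nat_lit 315) (nat_lit 295) (nat_lit 278)) (XT.nd (nat_lit 94) (nat_lit 756) (nat_lit 0) (XT.lf (nat_lit 0) (nat_lit 6025400942) (nat_lit 672) (nat_lit 788458187) (nat_lit 84) (nat_lit 317002204) (nat_lit 118) (nat_lit 5) (nat_lit 126) (nat_lit 5) (nat_lit 119) (nat_lit 5) (nat_lit 316) (nat_lit 295) (nat_lit 277)) (XT.lf (nat_lit 0) (nat_lit 715892555)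 (nat_lit 756) (nat_lit 5005584987) (nat_lit 84) (nat_lit 1483305626) (nat_lit 109) (nat_lit 5) (nat_lit 118) (nat_lit 5) (nat_lit 110) (nat_lit 5) (nat_lit 317) (nat_lit 295) (nat_lit 276)))) (XT.nd (nat_lit 188) (nat_lit 84) (nat_lit 0) (XT.nd (nat_lit 94) (nat_lit 756) (nat_lit 0) (XT.lf (nat_lit 0) (nat_lit 2518912134) (nat_lit 756) (nat_lit 2045315622) (nat_lit 84) (nat_lit 2718563340) (nat_lit 109) (nat_lit 5) (nat_lit 118) (nat_lit 5) (nat_lit 110) (nat_lit 5) (nat_lit 318) (nat_lit 295) (nat_lit 275)) (XT.lf (nat_lit 0) (nat_lit 978551660) (nat_lit 756) (nat_lit 3350643131) (nat_lit 840) (nat_lit 3036052050) (nat_lit 100) (nat_lit 5) (nat_lit 109) (nat_lit 5) (nat_lit 110) (nat_lit 5) (nat_lit 319) (nat_lit 295) (nat_lit 274))) (XT.nd (nat_lit 94) (nat_lit 84) (nat_lit 0) (XT.lf (nat_lit 0) (nat_lit 4092117182) (nat_lit 756) (nat_lit 2067773918) (nat_lit 840) (nat_lit 1291980802) (nat_lit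 100) (nat_lit 5) (nat_lit 109) (nat_lit 5) (nat_lit 110) (nat_lit 5) (nat_lit 320) (nat_lit 295) (nat_lit 273)) (XT.lf (nat_lit 0) (nat_lit 439573016) (nat_lit 840) (nat_lit 291611993) (nat_lit 84) (nat_lit 6812065971) (nat_lit 99) (nat_lit 5) (nat_lit 109) (nat_lit 5) (nat_lit 100) (nat_lit 5) (nat_lit 321) (nat_lit 295) (nat_lit 272))))))))
noncomputable def xc12 : XT := (XT.nd (nat_lit 53298) (nat_lit 0) (nat_lit 4704) (XT.nd (nat_lit 1222) (nat_lit 1596) (nat_lit 0) (XT.nd (nat_lit 564) (nat_lit 1428) (nat_lit 0) (XT.nd (nat_lit 282) (nat_lit 756) (nat_lit 0) (XT.nd (nat_lit 94) (nat_lit 924) (nat_lit 0) (XT.lf (nat_lit 0) (nat_lit 2178676189) (nat_lit 924) (nat_lit 4775180781) (nat_lit 84) (nat_lit 684256255) (nat_lit 89) (nat_lit 5) (nat_lit 100) (nat_lit 5) (nat_lit 90) (nat_lit 5) (nat_lit 322) (nat_lit 295) (nat_lit 271)) (XT.nd (nat_lit 94) (nat_lit 924) (nat_lit 0) (XT.lf (nat_lit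 0) (nat_lit 3928822709) (nat_lit 924) (nat_lit 1669777976) (nat_lit 84) (nat_lit 2139092573) (nat_lit 89) (nat_lit 5) (nat_lit 100) (nat_lit 5) (nat_lit 90) (nat_lit 5) (nat_lit 323) (nat_lit 295) (nat_lit 270)) (XT.lf (nat_lit 0) (nat_lit 1515979588) (nat_lit 924) (nat_lit 4180467060) (nat_lit 1008) (nat_lit 2145488365) (nat_lit 78) (nat_lit 5) (nat_lit 89) (nat_lit 5) (nat_lit 90) (nat_lit 5) (nat_lit 324) (nat_lit 295) (nat_lit 269)))) (XT.nd (nat_lit 94) (nat_lit 756) (nat_lit 0) (XT.lf (nat_lit 0) (nat_lit 4789908045) (nat_lit 924) (nat_lit 2695673921) (nat_lit 1008) (nat_lit 465279711) (nat_lit 78) (nat_lit 5) (nat_lit 89) (nat_lit 5) (nat_lit 90) (nat_lit 5) (nat_lit 325) (nat_lit 295) (nat_lit 268)) (XT.nd (nat_lit 94) (nat_lit 0) (nat_lit 0) (XT.lf (nat_lit 0) (nat_lit 44460109) (nat_lit 672) (nat_lit 1147375902) (nat_lit 756) (nat_lit 6872875238) (nat_lit 69) (nat_lit 5) (nat_lit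 77) (nat_lit 5) (nat_lit 78) (nat_lit 5) (nat_lit 326) (nat_lit 295) (nat_lit 267)) (XT.lf (nat_lit 0) (nat_lit 2879437773) (nat_lit 756) (nat_lit 4821867887) (nat_lit 84) (nat_lit 481369468) (nat_lit 69) (nat_lit 5) (nat_lit 78) (nat_lit 5) (nat_lit 70) (nat_lit 5) (nat_lit 327) (nat_lit 295) (nat_lit 266))))) (XT.nd (nat_lit 282) (nat_lit 924) (nat_lit 0) (XT.nd (nat_lit 94) (nat_lit 504) (nat_lit 0) (XT.lf (nat_lit 0) (nat_lit 4583559347) (nat_lit 756) (nat_lit 1582144659) (nat_lit 84) (nat_lit 2140074671) (nat_lit 69) (nat_lit 5) (nat_lit 78) (nat_lit 5) (nat_lit 70) (nat_lit 5) (nat_lit 328) (nat_lit 295) (nat_lit 265)) (XT.nd (nat_lit 94) (nat_lit 0) (nat_lit 0) (XT.lf (nat_lit 0) (nat_lit 1748549798) (nat_lit 504) (nat_lit 4563203075) (nat_lit 588) (nat_lit 2122198894) (nat_lit 63) (nat_lit 5) (nat_lit 69) (nat_lit 5) (nat_lit 70) (nat_lit 5) (nat_lit 329) (nat_lit 295) (nat_lit 264))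 (XT.lf (nat_lit 0) (nat_lit 5171799288) (nat_lit 504) (nat_lit 2893081149) (nat_lit 588) (nat_lit 502456640) (nat_lit 63) (nat_lit 5) (nat_lit 69) (nat_lit 5) (nat_lit 70) (nat_lit 5) (nat_lit 330) (nat_lit 295) (nat_lit 263)))) (XT.nd (nat_lit 188) (nat_lit 420) (nat_lit 0) (XT.nd (nat_lit 94) (nat_lit 420) (nat_lit 0) (XT.lf (nat_lit 0) (nat_lit 1099396997) (nat_lit 588) (nat_lit 59423398) (nat_lit 84) (nat_lit 7547390053) (nat_lit 62) (nat_lit 5) (nat_lit 69) (nat_lit 5) (nat_lit 63) (nat_lit 5) (nat_lit 331) (nat_lit 295) (nat_lit 262)) (XT.lf (nat_lit 0) (nat_lit 2737611528) (nat_lit 504) (nat_lit 5455826821) (nat_lit 84) (nat_lit 656200175) (nat_lit 57) (nat_lit 5) (nat_lit 63) (nat_lit 5) (nat_lit 58) (nat_lit 5) (nat_lit 332) (nat_lit 295) (nat_lit 261))) (XT.nd (nat_lit 94) (nat_lit 420) (nat_lit 0) (XT.lf (nat_lit 0) (nat_lit 4396730725) (nat_lit 504) (nat_lit 2098011252) (nat_lit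 84) (nat_lit 2504007838) (nat_lit 57) (nat_lit 5) (nat_lit 63) (nat_lit 5) (nat_lit 58) (nat_lit 5) (nat_lit 333) (nat_lit 295) (nat_lit 260)) (XT.lf (nat_lit 0) (nat_lit 1348370636) (nat_lit 420) (nat_lit 4731203026) (nat_lit 504) (nat_lit 3074070198) (nat_lit 52) (nat_lit 5) (nat_lit 57) (nat_lit 5) (nat_lit 58) (nat_lit 5) (nat_lit 334) (nat_lit 295) (nat_lit 259)))))) (XT.nd (nat_lit 564) (nat_lit 756) (nat_lit 0) (XT.nd (nat_lit 282) (nat_lit 420) (nat_lit 0) (XT.nd (nat_lit 94) (nat_lit 420) (nat_lit 0) (XT.lf (nat_lit 0) (nat_lit 4903806698) (nat_lit 420) (nat_lit 2892408118) (nat_lit 504) (nat_lit 1517986536) (nat_lit 52) (nat_lit 5) (nat_lit 57) (nat_lit 5) (nat_lit 58) (nat_lit 5) (nat_lit 335) (nat_lit 295) (nat_lit 258)) (XT.nd (nat_lit 94) (nat_lit 336) (nat_lit 0) (XT.lf (nat_lit 0) (nat_lit 44860958) (nat_lit 504) (nat_lit 953213024) (nat_lit 84) (nat_lit 8483142343) (nat_lit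 51) (nat_lit 5) (nat_lit 57) (nat_lit 5) (nat_lit 52) (nat_lit 5) (nat_lit 336) (nat_lit 295) (nat_lit 257)) (XT.lf (nat_lit 0) (nat_lit 1621823408) (nat_lit 420) (nat_lit 7056130099) (nat_lit 84) (nat_lit 975327489) (nat_lit 47) (nat_lit 5) (nat_lit 52) (nat_lit 5) (nat_lit 48) (nat_lit 5) (nat_lit 337) (nat_lit 295) (nat_lit 256)))) (XT.nd (nat_lit 94) (nat_lit 420) (nat_lit 0) (XT.lf (nat_lit 0) (nat_lit 3230122493) (nat_lit 420) (nat_lit 3604704331) (nat_lit 84) (nat_lit 2996655540) (nat_lit 47) (nat_lit 5) (nat_lit 52) (nat_lit 5) (nat_lit 48) (nat_lit 5) (nat_lit 338) (nat_lit 295) (nat_lit 255)) (XT.nd (nat_lit 94) (nat_lit 420) (nat_lit 0) (XT.lf (nat_lit 0) (nat_lit 4851607171) (nat_lit 420) (nat_lit 86834415) (nat_lit 84) (nat_lit 5078154101) (nat_lit 47) (nat_lit 5) (nat_lit 52) (nat_lit 5) (nat_lit 48) (nat_lit 5) (nat_lit 339) (nat_lit 295) (nat_lit 254)) (XT.lf (nat_lit 0) (nat_lit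 3572741448) (nat_lit 420) (nat_lit 2950489426) (nat_lit 504) (nat_lit 3684463933) (nat_lit 42) (nat_lit 5) (nat_lit 47) (nat_lit 5) (nat_lit 48) (nat_lit 5) (nat_lit 340) (nat_lit 295) (nat_lit 253))))) (XT.nd (nat_lit 282) (nat_lit 336) (nat_lit 0) (XT.nd (nat_lit 94) (nat_lit 420) (nat_lit 0) (XT.lf (nat_lit 0) (nat_lit 7308672400) (nat_lit 420) (nat_lit 904023116) (nat_lit 504) (nat_lit 2193311874) (nat_lit 42) (nat_lit 5) (nat_lit 47) (nat_lit 5) (nat_lit 48) (nat_lit 5) (nat_lit 341) (nat_lit 295) (nat_lit 252)) (XT.nd (nat_lit 94) (nat_lit 84) (nat_lit 0) (XT.lf (nat_lit 0) (nat_lit 509246288) (nat_lit 336) (nat_lit 9428425812) (nat_lit 420) (nat_lit 673547201) (nat_lit 38) (nat_lit 5) (nat_lit 42) (nat_lit 5) (nat_lit 43) (nat_lit 5) (nat_lit 342) (nat_lit 295) (nat_lit 251)) (XT.lf (nat_lit 0) (nat_lit 883440363) (nat_lit 420) (nat_lit 6586452126) (nat_lit 84) (nat_lit 3352589572) (nat_lit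 37) (nat_lit 5) (nat_lit 42) (nat_lit 5) (nat_lit 38) (nat_lit 5) (nat_lit 343) (nat_lit 295) (nat_lit 250)))) (XT.nd (nat_lit 188) (nat_lit 0) (nat_lit 0) (XT.nd (nat_lit 94) (nat_lit 336) (nat_lit 0) (XT.lf (nat_lit 0) (nat_lit 2441921896) (nat_lit 420) (nat_lit 3007167115) (nat_lit 84) (nat_lit 5592216524) (nat_lit 37) (nat_lit 5) (nat_lit 42) (nat_lit 5) (nat_lit 38) (nat_lit 5) (nat_lit 344) (nat_lit 295) (nat_lit 249)) (XT.lf (nat_lit 0) (nat_lit 659180985) (nat_lit 336) (nat_lit 3364278712) (nat_lit 420) (nat_lit 7244438414) (nat_lit 33) (nat_lit 5) (nat_lit 37) (nat_lit 5) (nat_lit 38) (nat_lit 5) (nat_lit 345) (nat_lit 295) (nat_lit 248))) (XT.nd (nat_lit 94) (nat_lit 0) (nat_lit 0) (XT.lf (nat_lit 0) (nat_lit 4466136840) (nat_lit 336) (nat_lit 1188072150) (nat_lit 420) (nat_lit 5847496890) (nat_lit 33) (nat_lit 5) (nat_lit 37) (nat_lit 5) (nat_lit 38) (nat_lit 5) (nat_lit 346) (nat_lit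 295) (nat_lit 247)) (XT.lf (nat_lit 0) (nat_lit 7315662759) (nat_lit 420) (nat_lit 3398892985) (nat_lit 84) (nat_lit 1029011873) (nat_lit 33) (nat_lit 5) (nat_lit 38) (nat_lit 5) (nat_lit 34) (nat_lit 5) (nat_lit 347) (nat_lit 295) (nat_lit 246))))))) (XT.nd (nat_lit 1222) (nat_lit 4116) (nat_lit 0) (XT.nd (nat_lit 564) (nat_lit 924) (nat_lit 0) (XT.nd (nat_lit 282) (nat_lit 168) (nat_lit 0) (XT.nd (nat_lit 94) (nat_lit 84) (nat_lit 0) (XT.lf (nat_lit 0) (nat_lit 1073741823) (nat_lit 0) (nat_lit 0) (nat_lit 0) (nat_lit 0) (nat_lit 152) (nat_lit 0) (nat_lit 1) (nat_lit 0) (nat_lit 1) (nat_lit 0) (nat_lit 296) (nat_lit 296) (nat_lit 296)) (XT.nd (nat_lit 94) (nat_lit 0) (nat_lit 0) (XT.lf (nat_lit 0) (nat_lit 2255452109) (nat_lit 84) (nat_lit 4142387837) (nat_lit 0) (nat_lit 45897643) (nat_lit 151) (nat_lit 5) (nat_lit 152) (nat_lit 0) (nat_lit 151) (nat_lit 4) (nat_lit 297) (nat_lit 296) (nat_lit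 295)) (XT.lf (nat_lit 0) (nat_lit 4490407991) (nat_lit 84) (nat_lit 1820877852) (nat_lit 0) (nat_lit 137735713) (nat_lit 151) (nat_lit 5) (nat_lit 152) (nat_lit 0) (nat_lit 151) (nat_lit 4) (nat_lit 298) (nat_lit 296) (nat_lit 294)))) (XT.nd (nat_lit 94) (nat_lit 0) (nat_lit 0) (XT.lf (nat_lit 0) (nat_lit 248995259) (nat_lit 168) (nat_lit 5925641677) (nat_lit 84) (nat_lit 283428152) (nat_lit 149) (nat_lit 5) (nat_lit 151) (nat_lit 5) (nat_lit 150) (nat_lit 4) (nat_lit 299) (nat_lit 296) (nat_lit 293)) (XT.nd (nat_lit 94) (nat_lit 0) (nat_lit 0) (XT.lf (nat_lit 0) (nat_lit 2416081823) (nat_lit 168) (nat_lit 3540466142) (nat_lit 84) (nat_lit 513389996) (nat_lit 149) (nat_lit 5) (nat_lit 151) (nat_lit 5) (nat_lit 150) (nat_lit 4) (nat_lit 300) (nat_lit 296) (nat_lit 292)) (XT.lf (nat_lit 0) (nat_lit 4565504479) (nat_lit 168) (nat_lit 1130543796) (nat_lit 84) (nat_lit 789782606) (nat_lit 149) (nat_lit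 5) (nat_lit 151) (nat_lit 5) (nat_lit 150) (nat_lit 4) (nat_lit 301) (nat_lit 296) (nat_lit 291))))) (XT.nd (nat_lit 282) (nat_lit 672) (nat_lit 0) (XT.nd (nat_lit 94) (nat_lit 0) (nat_lit 0) (XT.lf (nat_lit 0) (nat_lit 202970401) (nat_lit 252) (nat_lit 5174170217) (nat_lit 84) (nat_lit 1128144344) (nat_lit 146) (nat_lit 5) (nat_lit 149) (nat_lit 5) (nat_lit 147) (nat_lit 5) (nat_lit 302) (nat_lit 296) (nat_lit 290)) (XT.nd (nat_lit 94) (nat_lit 0) (nat_lit 0) (XT.lf (nat_lit 0) (nat_lit 2282071170) (nat_lit 252) (nat_lit 2701536716) (nat_lit 84) (nat_lit 1544231774) (nat_lit 146) (nat_lit 5) (nat_lit 149) (nat_lit 5) (nat_lit 147) (nat_lit 5) (nat_lit 303) (nat_lit 296) (nat_lit 289)) (XT.lf (nat_lit 0) (nat_lit 4346041336) (nat_lit 252) (nat_lit 200603601) (nat_lit 84) (nat_lit 2007820054) (nat_lit 146) (nat_lit 5) (nat_lit 149) (nat_lit 5) (nat_lit 147) (nat_lit 5) (nat_lit 304) (nat_lit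 296) (nat_lit 288)))) (XT.nd (nat_lit 188) (nat_lit 336) (nat_lit 0) (XT.nd (nat_lit 94) (nat_lit 84) (nat_lit 0) (XT.lf (nat_lit 0) (nat_lit 2378889584) (nat_lit 252) (nat_lit 4041514032) (nat_lit 336) (nat_lit 164050592) (nat_lit 143) (nat_lit 5) (nat_lit 146) (nat_lit 5) (nat_lit 147) (nat_lit 5) (nat_lit 305) (nat_lit 296) (nat_lit 287)) (XT.lf (nat_lit 0) (nat_lit 1829718620) (nat_lit 336) (nat_lit 1640842084) (nat_lit 84) (nat_lit 3147359240) (nat_lit 142) (nat_lit 5) (nat_lit 146) (nat_lit 5) (nat_lit 143) (nat_lit 5) (nat_lit 306) (nat_lit 296) (nat_lit 286))) (XT.nd (nat_lit 94) (nat_lit 0) (nat_lit 0) (XT.lf (nat_lit 0) (nat_lit 973970045) (nat_lit 336) (nat_lit 2842958513) (nat_lit 420) (nat_lit 2838256670) (nat_lit 138) (nat_lit 5) (nat_lit 142) (nat_lit 5) (nat_lit 143) (nat_lit 5) (nat_lit 307) (nat_lit 296) (nat_lit 285)) (XT.lf (nat_lit 0) (nat_lit 3657743560) (nat_lit 336)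 (nat_lit 2152283755) (nat_lit 420) (nat_lit 886081919) (nat_lit 138) (nat_lit 5) (nat_lit 142) (nat_lit 5) (nat_lit 143) (nat_lit 5) (nat_lit 308) (nat_lit 296) (nat_lit 284)))))) (XT.nd (nat_lit 658) (nat_lit 2436) (nat_lit 0) (XT.nd (nat_lit 282) (nat_lit 1176) (nat_lit 0) (XT.nd (nat_lit 94) (nat_lit 420) (nat_lit 0) (XT.lf (nat_lit 0) (nat_lit 1031799615) (nat_lit 420) (nat_lit 372450190) (nat_lit 84) (nat_lit 5336671451) (nat_lit 137) (nat_lit 5) (nat_lit 142) (nat_lit 5) (nat_lit 138) (nat_lit 5) (nat_lit 309) (nat_lit 296) (nat_lit 283)) (XT.nd (nat_lit 94) (nat_lit 0) (nat_lit 0) (XT.lf (nat_lit 0) (nat_lit 2368514000) (nat_lit 420) (nat_lit 575767732) (nat_lit 504) (nat_lit 3844708059) (nat_lit 132) (nat_lit 5) (nat_lit 137) (nat_lit 5) (nat_lit 138) (nat_lit 5) (nat_lit 310) (nat_lit 296) (nat_lit 282)) (XT.lf (nat_lit 0) (nat_lit 4854668400) (nat_lit 504) (nat_lit 1687697305) (nat_lit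 84) (nat_lit 298772699) (nat_lit 132) (nat_lit 5) (nat_lit 138) (nat_lit 5) (nat_lit 133) (nat_lit 5) (nat_lit 311) (nat_lit 296) (nat_lit 281)))) (XT.nd (nat_lit 188) (nat_lit 588) (nat_lit 0) (XT.nd (nat_lit 94) (nat_lit 84) (nat_lit 0) (XT.lf (nat_lit 0) (nat_lit 1098700901) (nat_lit 504) (nat_lit 5676339409) (nat_lit 588) (nat_lit 122056093) (nat_lit 126) (nat_lit 5) (nat_lit 132) (nat_lit 5) (nat_lit 133) (nat_lit 5) (nat_lit 312) (nat_lit 296) (nat_lit 280)) (XT.lf (nat_lit 0) (nat_lit 1715884288) (nat_lit 588) (nat_lit 3013869801) (nat_lit 84) (nat_lit 2226596425) (nat_lit 125) (nat_lit 5) (nat_lit 132) (nat_lit 5) (nat_lit 126) (nat_lit 5) (nat_lit 313) (nat_lit 296) (nat_lit 279))) (XT.nd (nat_lit 94) (nat_lit 588) (nat_lit 0) (XT.lf (nat_lit 0) (nat_lit 3544446296) (nat_lit 588) (nat_lit 191648115) (nat_lit 84) (nat_lit 3283894901) (nat_lit 125) (nat_lit 5) (nat_lit 132) (nat_lit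 5) (nat_lit 126) (nat_lit 5) (nat_lit 314) (nat_lit 296) (nat_lit 278)) (XT.lf (nat_lit 0) (nat_lit 2727055057) (nat_lit 588) (nat_lit 2667791166) (nat_lit 672) (nat_lit 1692424790) (nat_lit 118) (nat_lit 5) (nat_lit 125) (nat_lit 5) (nat_lit 126) (nat_lit 5) (nat_lit 315) (nat_lit 296) (nat_lit 277))))) (XT.nd (nat_lit 282) (nat_lit 1680) (nat_lit 0) (XT.nd (nat_lit 94) (nat_lit 672) (nat_lit 0) (XT.lf (nat_lit 0) (nat_lit 83380514) (nat_lit 672) (nat_lit 1465053263) (nat_lit 84) (nat_lit 5610563779) (nat_lit 117) (nat_lit 5) (nat_lit 125) (nat_lit 5) (nat_lit 118) (nat_lit 5) (nat_lit 316) (nat_lit 296) (nat_lit 276)) (XT.nd (nat_lit 94) (nat_lit 0) (nat_lit 0) (XT.lf (nat_lit 0) (nat_lit 1486615224) (nat_lit 672) (nat_lit 347397107) (nat_lit 756) (nat_lit 5400334009) (nat_lit 109) (nat_lit 5) (nat_lit 117) (nat_lit 5) (nat_lit 118) (nat_lit 5) (nat_lit 317) (nat_lit 296) (nat_lit 275)) (XT.lf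 (nat_lit 0) (nat_lit 3604861964) (nat_lit 756) (nat_lit 2807593110) (nat_lit 84) (nat_lit 901153490) (nat_lit 109) (nat_lit 5) (nat_lit 118) (nat_lit 5) (nat_lit 110) (nat_lit 5) (nat_lit 318) (nat_lit 296) (nat_lit 274)))) (XT.nd (nat_lit 188) (nat_lit 924) (nat_lit 0) (XT.nd (nat_lit 94) (nat_lit 0) (nat_lit 0) (XT.lf (nat_lit 0) (nat_lit 177261305) (nat_lit 756) (nat_lit 5202074356) (nat_lit 840) (nat_lit 2018088027) (nat_lit 100) (nat_lit 5) (nat_lit 109) (nat_lit 5) (nat_lit 110) (nat_lit 5) (nat_lit 319) (nat_lit 296) (nat_lit 273)) (XT.lf (nat_lit 0) (nat_lit 3268189699) (nat_lit 756) (nat_lit 3914595340) (nat_lit 840) (nat_lit 302350168) (nat_lit 100) (nat_lit 5) (nat_lit 109) (nat_lit 5) (nat_lit 110) (nat_lit 5) (nat_lit 320) (nat_lit 296) (nat_lit 272))) (XT.nd (nat_lit 94) (nat_lit 840) (nat_lit 0) (XT.lf (nat_lit 0) (nat_lit 1382337023) (nat_lit 840) (nat_lit 1181357689) (nat_lit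 84) (nat_lit 5013577481) (nat_lit 99) (nat_lit 5) (nat_lit 109) (nat_lit 5) (nat_lit 100) (nat_lit 5) (nat_lit 321) (nat_lit 296) (nat_lit 271)) (XT.lf (nat_lit 0) (nat_lit 1939526533) (nat_lit 840) (nat_lit 1139636917) (nat_lit 924) (nat_lit 4594502210) (nat_lit 89) (nat_lit 5) (nat_lit 99) (nat_lit 5) (nat_lit 100) (nat_lit 5) (nat_lit 322) (nat_lit 296) (nat_lit 270))))))))
noncomputable def xc13 : XT := (XT.nd (nat_lit 53486) (nat_lit 0) (nat_lit 3696) (XT.nd (nat_lit 1222) (nat_lit 1596) (nat_lit 0) (XT.nd (nat_lit 564) (nat_lit 1428) (nat_lit 0) (XT.nd (nat_lit 282) (nat_lit 672) (nat_lit 0) (XT.nd (nat_lit 94) (nat_lit 1008) (nat_lit 0) (XT.lf (nat_lit 0) (nat_lit 4792492160) (nat_lit 924) (nat_lit 2640304610) (nat_lit 84) (nat_lit 341804282) (nat_lit 89) (nat_lit 5) (nat_lit 100) (nat_lit 5) (nat_lit 90) (nat_lit 5) (nat_lit 323) (nat_lit 296) (nat_lit 269)) (XT.nd (nat_lit 94) (nat_lit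 84) (nat_lit 0) (XT.lf (nat_lit 0) (nat_lit 502854884) (nat_lit 924) (nat_lit 6022465530) (nat_lit 1008) (nat_lit 1354808634) (nat_lit 78) (nat_lit 5) (nat_lit 89) (nat_lit 5) (nat_lit 90) (nat_lit 5) (nat_lit 324) (nat_lit 296) (nat_lit 268)) (XT.lf (nat_lit 0) (nat_lit 294179773) (nat_lit 1008) (nat_lit 4238164057) (nat_lit 84) (nat_lit 3457571681) (nat_lit 77) (nat_lit 5) (nat_lit 89) (nat_lit 5) (nat_lit 78) (nat_lit 5) (nat_lit 325) (nat_lit 296) (nat_lit 267)))) (XT.nd (nat_lit 94) (nat_lit 672) (nat_lit 0) (XT.lf (nat_lit 0) (nat_lit 1917557535) (nat_lit 1008) (nat_lit 1060243946) (nat_lit 84) (nat_lit 5126765194) (nat_lit 77) (nat_lit 5) (nat_lit 89) (nat_lit 5) (nat_lit 78) (nat_lit 5) (nat_lit 326) (nat_lit 296) (nat_lit 266)) (XT.nd (nat_lit 94) (nat_lit 0) (nat_lit 0) (XT.lf (nat_lit 0) (nat_lit 2217567227) (nat_lit 672) (nat_lit 1348565497) (nat_lit 756) (nat_lit 4657791366) (nat_lit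 69) (nat_lit 5) (nat_lit 77) (nat_lit 5) (nat_lit 78) (nat_lit 5) (nat_lit 327) (nat_lit 296) (nat_lit 265)) (XT.lf (nat_lit 0) (nat_lit 5234177373) (nat_lit 756) (nat_lit 2775259427) (nat_lit 84) (nat_lit 338887412) (nat_lit 69) (nat_lit 5) (nat_lit 78) (nat_lit 5) (nat_lit 70) (nat_lit 5) (nat_lit 328) (nat_lit 296) (nat_lit 264))))) (XT.nd (nat_lit 282) (nat_lit 840) (nat_lit 0) (XT.nd (nat_lit 94) (nat_lit 84) (nat_lit 0) (XT.lf (nat_lit 0) (nat_lit 509121183) (nat_lit 504) (nat_lit 6418937952) (nat_lit 588) (nat_lit 1549674661) (nat_lit 63) (nat_lit 5) (nat_lit 69) (nat_lit 5) (nat_lit 70) (nat_lit 5) (nat_lit 329) (nat_lit 296) (nat_lit 263)) (XT.nd (nat_lit 94) (nat_lit 0) (nat_lit 0) (XT.lf (nat_lit 0) (nat_lit 46707018) (nat_lit 588) (nat_lit 4701183471) (nat_lit 84) (nat_lit 3864050076) (nat_lit 62) (nat_lit 5) (nat_lit 69) (nat_lit 5) (nat_lit 63) (nat_lit 5) (nat_lit 330) (nat_lit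 296) (nat_lit 262)) (XT.lf (nat_lit 0) (nat_lit 1617148363) (nat_lit 588) (nat_lit 1391139797) (nat_lit 84) (nat_lit 5743188920) (nat_lit 62) (nat_lit 5) (nat_lit 69) (nat_lit 5) (nat_lit 63) (nat_lit 5) (nat_lit 331) (nat_lit 296) (nat_lit 261)))) (XT.nd (nat_lit 188) (nat_lit 420) (nat_lit 0) (XT.nd (nat_lit 94) (nat_lit 0) (nat_lit 0) (XT.lf (nat_lit 0) (nat_lit 2020689063) (nat_lit 420) (nat_lit 1193692101) (nat_lit 504) (nat_lit 5681947388) (nat_lit 57) (nat_lit 5) (nat_lit 62) (nat_lit 5) (nat_lit 63) (nat_lit 5) (nat_lit 332) (nat_lit 296) (nat_lit 260)) (XT.lf (nat_lit 0) (nat_lit 4841429857) (nat_lit 504) (nat_lit 3527002843) (nat_lit 84) (nat_lit 678149692) (nat_lit 57) (nat_lit 5) (nat_lit 63) (nat_lit 5) (nat_lit 58) (nat_lit 5) (nat_lit 333) (nat_lit 296) (nat_lit 259))) (XT.nd (nat_lit 94) (nat_lit 420) (nat_lit 0) (XT.lf (nat_lit 0) (nat_lit 6491276101) (nat_lit 504) (nat_lit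 128176070) (nat_lit 84) (nat_lit 2583191065) (nat_lit 57) (nat_lit 5) (nat_lit 63) (nat_lit 5) (nat_lit 58) (nat_lit 5) (nat_lit 334) (nat_lit 296) (nat_lit 258)) (XT.lf (nat_lit 0) (nat_lit 3404442389) (nat_lit 420) (nat_lit 4782946253) (nat_lit 504) (nat_lit 1176588049) (nat_lit 52) (nat_lit 5) (nat_lit 57) (nat_lit 5) (nat_lit 58) (nat_lit 5) (nat_lit 335) (nat_lit 296) (nat_lit 257)))))) (XT.nd (nat_lit 658) (nat_lit 756) (nat_lit 0) (XT.nd (nat_lit 282) (nat_lit 420) (nat_lit 0) (XT.nd (nat_lit 94) (nat_lit 336) (nat_lit 0) (XT.lf (nat_lit 0) (nat_lit 360404891) (nat_lit 504) (nat_lit 2525836091) (nat_lit 84) (nat_lit 6645365262) (nat_lit 51) (nat_lit 5) (nat_lit 57) (nat_lit 5) (nat_lit 52) (nat_lit 5) (nat_lit 336) (nat_lit 296) (nat_lit 256)) (XT.nd (nat_lit 94) (nat_lit 0) (nat_lit 0) (XT.lf (nat_lit 0) (nat_lit 982478652) (nat_lit 336) (nat_lit 910490072) (nat_lit 420) (nat_lit 7812205908)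 (nat_lit 47) (nat_lit 5) (nat_lit 51) (nat_lit 5) (nat_lit 52) (nat_lit 5) (nat_lit 337) (nat_lit 296) (nat_lit 255)) (XT.lf (nat_lit 0) (nat_lit 3474179663) (nat_lit 420) (nat_lit 5282203598) (nat_lit 84) (nat_lit 1127956002) (nat_lit 47) (nat_lit 5) (nat_lit 52) (nat_lit 5) (nat_lit 48) (nat_lit 5) (nat_lit 338) (nat_lit 296) (nat_lit 254)))) (XT.nd (nat_lit 188) (nat_lit 0) (nat_lit 0) (XT.nd (nat_lit 94) (nat_lit 420) (nat_lit 0) (XT.lf (nat_lit 0) (nat_lit 5078151275) (nat_lit 420) (nat_lit 1783698919) (nat_lit 84) (nat_lit 3208265113) (nat_lit 47) (nat_lit 5) (nat_lit 52) (nat_lit 5) (nat_lit 48) (nat_lit 5) (nat_lit 339) (nat_lit 296) (nat_lit 253)) (XT.lf (nat_lit 0) (nat_lit 1821816748) (nat_lit 420) (nat_lit 4893602354) (nat_lit 504) (nat_lit 3546976570) (nat_lit 42) (nat_lit 5) (nat_lit 47) (nat_lit 5) (nat_lit 48) (nat_lit 5) (nat_lit 340) (nat_lit 296) (nat_lit 252))) (XT.nd (nat_lit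 94) (nat_lit 0) (nat_lit 0) (XT.lf (nat_lit 0) (nat_lit 5539154896) (nat_lit 420) (nat_lit 2849068669) (nat_lit 504) (nat_lit 2073113876) (nat_lit 42) (nat_lit 5) (nat_lit 47) (nat_lit 5) (nat_lit 48) (nat_lit 5) (nat_lit 341) (nat_lit 296) (nat_lit 251)) (XT.lf (nat_lit 0) (nat_lit 9335103963) (nat_lit 420) (nat_lit 744961577) (nat_lit 504) (nat_lit 587620313) (nat_lit 42) (nat_lit 5) (nat_lit 47) (nat_lit 5) (nat_lit 48) (nat_lit 5) (nat_lit 342) (nat_lit 296) (nat_lit 250))))) (XT.nd (nat_lit 282) (nat_lit 336) (nat_lit 0) (XT.nd (nat_lit 94) (nat_lit 0) (nat_lit 0) (XT.lf (nat_lit 0) (nat_lit 930476162) (nat_lit 420) (nat_lit 8524761614) (nat_lit 84) (nat_lit 1424939222) (nat_lit 37) (nat_lit 5) (nat_lit 42) (nat_lit 5) (nat_lit 38) (nat_lit 5) (nat_lit 343) (nat_lit 296) (nat_lit 249)) (XT.nd (nat_lit 94) (nat_lit 0) (nat_lit 0) (XT.lf (nat_lit 0) (nat_lit 2473302444) (nat_lit 420) (nat_lit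 4963780775) (nat_lit 84) (nat_lit 3662502329) (nat_lit 37) (nat_lit 5) (nat_lit 42) (nat_lit 5) (nat_lit 38) (nat_lit 5) (nat_lit 344) (nat_lit 296) (nat_lit 248)) (XT.lf (nat_lit 0) (nat_lit 4033116557) (nat_lit 420) (nat_lit 1328467505) (nat_lit 84) (nat_lit 5965364258) (nat_lit 37) (nat_lit 5) (nat_lit 42) (nat_lit 5) (nat_lit 38) (nat_lit 5) (nat_lit 345) (nat_lit 296) (nat_lit 247)))) (XT.nd (nat_lit 51136) (nat_lit 0) (nat_lit 9660) (XT.nd (nat_lit 94) (nat_lit 0) (nat_lit 0) (XT.lf (nat_lit 0) (nat_lit 2433598270) (nat_lit 336) (nat_lit 3201915737) (nat_lit 420) (nat_lit 5926214841) (nat_lit 33) (nat_lit 5) (nat_lit 37) (nat_lit 5) (nat_lit 38) (nat_lit 5) (nat_lit 346) (nat_lit 296) (nat_lit 246)) (XT.lf (nat_lit 0) (nat_lit 6305831189) (nat_lit 336) (nat_lit 966264545) (nat_lit 420) (nat_lit 4532356915) (nat_lit 33) (nat_lit 5) (nat_lit 37) (nat_lit 5) (nat_lit 38) (nat_lit 5) (nat_lit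 347) (nat_lit 296) (nat_lit 245))) (XT.nd (nat_lit 94) (nat_lit 252) (nat_lit 0) (XT.lf (nat_lit 0) (nat_lit 1116308841) (nat_lit 0) (nat_lit 1116308841) (nat_lit 84) (nat_lit 990886538) (nat_lit 151) (nat_lit 5) (nat_lit 151) (nat_lit 3) (nat_lit 152) (nat_lit 0) (nat_lit 297) (nat_lit 297) (nat_lit 294)) (XT.lf (nat_lit 0) (nat_lit 197586567) (nat_lit 252) (nat_lit 1917545124) (nat_lit 252) (nat_lit 4339024125) (nat_lit 148) (nat_lit 3) (nat_lit 151) (nat_lit 3) (nat_lit 151) (nat_lit 5) (nat_lit 298) (nat_lit 297) (nat_lit 293))))))) (XT.nd (nat_lit 1222) (nat_lit 4620) (nat_lit 0) (XT.nd (nat_lit 564) (nat_lit 1092) (nat_lit 0) (XT.nd (nat_lit 282) (nat_lit 0) (nat_lit 0) (XT.nd (nat_lit 94) (nat_lit 252) (nat_lit 0) (XT.lf (nat_lit 84) (nat_lit 392549854) (nat_lit 0) (nat_lit 1927262174) (nat_lit 252) (nat_lit 4144727290) (nat_lit 149) (nat_lit 5) (nat_lit 148) (nat_lit 3) (nat_lit 151)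 (nat_lit 5) (nat_lit 299) (nat_lit 297) (nat_lit 292)) (XT.nd (nat_lit 94) (nat_lit 252) (nat_lit 0) (XT.lf (nat_lit 84) (nat_lit 2769777316) (nat_lit 0) (nat_lit 1672822913) (nat_lit 252) (nat_lit 2035688331) (nat_lit 149) (nat_lit 5) (nat_lit 148) (nat_lit 3) (nat_lit 151) (nat_lit 5) (nat_lit 300) (nat_lit 297) (nat_lit 291)) (XT.lf (nat_lit 0) (nat_lit 51440509) (nat_lit 252) (nat_lit 1319614537) (nat_lit 336) (nat_lit 5124946984) (nat_lit 145) (nat_lit 5) (nat_lit 148) (nat_lit 3) (nat_lit 149) (nat_lit 5) (nat_lit 301) (nat_lit 297) (nat_lit 290)))) (XT.nd (nat_lit 94) (nat_lit 0) (nat_lit 0) (XT.lf (nat_lit 84) (nat_lit 1099596316) (nat_lit 0) (nat_lit 990341510) (nat_lit 336) (nat_lit 4426816212) (nat_lit 146) (nat_lit 5) (nat_lit 145) (nat_lit 5) (nat_lit 149) (nat_lit 5) (nat_lit 302) (nat_lit 297) (nat_lit 289)) (XT.nd (nat_lit 94) (nat_lit 0) (nat_lit 0) (XT.lf (nat_lit 84) (nat_lit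 3577158431) (nat_lit 0) (nat_lit 548311157) (nat_lit 336) (nat_lit 2415635072) (nat_lit 146) (nat_lit 5) (nat_lit 145) (nat_lit 5) (nat_lit 149) (nat_lit 5) (nat_lit 303) (nat_lit 297) (nat_lit 288)) (XT.lf (nat_lit 84) (nat_lit 6088247172) (nat_lit 0) (nat_lit 58326039) (nat_lit 336) (nat_lit 422917538) (nat_lit 146) (nat_lit 5) (nat_lit 145) (nat_lit 5) (nat_lit 149) (nat_lit 5) (nat_lit 304) (nat_lit 297) (nat_lit 287))))) (XT.nd (nat_lit 282) (nat_lit 504) (nat_lit 0) (XT.nd (nat_lit 94) (nat_lit 336) (nat_lit 0) (XT.lf (nat_lit 0) (nat_lit 1547458286) (nat_lit 336) (nat_lit 4546608947) (nat_lit 84) (nat_lit 506601595) (nat_lit 142) (nat_lit 5) (nat_lit 146) (nat_lit 5) (nat_lit 143) (nat_lit 5) (nat_lit 305) (nat_lit 297) (nat_lit 286)) (XT.nd (nat_lit 94) (nat_lit 336) (nat_lit 0) (XT.lf (nat_lit 0) (nat_lit 3501181572) (nat_lit 336) (nat_lit 2006833496) (nat_lit 84) (nat_lit 1127602106)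 (nat_lit 142) (nat_lit 5) (nat_lit 146) (nat_lit 5) (nat_lit 143) (nat_lit 5) (nat_lit 306) (nat_lit 297) (nat_lit 285)) (XT.lf (nat_lit 0) (nat_lit 577369505) (nat_lit 336) (nat_lit 4871451720) (nat_lit 420) (nat_lit 1225670159) (nat_lit 138) (nat_lit 5) (nat_lit 142) (nat_lit 5) (nat_lit 143) (nat_lit 5) (nat_lit 307) (nat_lit 297) (nat_lit 284)))) (XT.nd (nat_lit 188) (nat_lit 420) (nat_lit 0) (XT.nd (nat_lit 94) (nat_lit 0) (nat_lit 0) (XT.lf (nat_lit 0) (nat_lit 676361507) (nat_lit 420) (nat_lit 3484958581) (nat_lit 84) (nat_lit 2555332165) (nat_lit 137) (nat_lit 5) (nat_lit 142) (nat_lit 5) (nat_lit 138) (nat_lit 5) (nat_lit 308) (nat_lit 297) (nat_lit 283)) (XT.lf (nat_lit 0) (nat_lit 2541952410) (nat_lit 420) (nat_lit 850606363) (nat_lit 84) (nat_lit 3370049383) (nat_lit 137) (nat_lit 5) (nat_lit 142) (nat_lit 5) (nat_lit 138) (nat_lit 5) (nat_lit 309) (nat_lit 297) (nat_lit 282)))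 (XT.nd (nat_lit 94) (nat_lit 0) (nat_lit 0) (XT.lf (nat_lit 0) (nat_lit 1857983289) (nat_lit 420) (nat_lit 2557984134) (nat_lit 504) (nat_lit 2396240055) (nat_lit 132) (nat_lit 5) (nat_lit 137) (nat_lit 5) (nat_lit 138) (nat_lit 5) (nat_lit 310) (nat_lit 297) (nat_lit 281)) (XT.lf (nat_lit 0) (nat_lit 4624164106) (nat_lit 420) (nat_lit 1666550045) (nat_lit 504) (nat_lit 575074911) (nat_lit 132) (nat_lit 5) (nat_lit 137) (nat_lit 5) (nat_lit 138) (nat_lit 5) (nat_lit 311) (nat_lit 297) (nat_lit 280)))))) (XT.nd (nat_lit 658) (nat_lit 2688) (nat_lit 0) (XT.nd (nat_lit 282) (nat_lit 1344) (nat_lit 0) (XT.nd (nat_lit 94) (nat_lit 0) (nat_lit 0) (XT.lf (nat_lit 0) (nat_lit 507317868) (nat_lit 504) (nat_lit 708477634) (nat_lit 588) (nat_lit 5707338307) (nat_lit 125) (nat_lit 5) (nat_lit 131) (nat_lit 5) (nat_lit 132) (nat_lit 5) (nat_lit 312) (nat_lit 297) (nat_lit 279)) (XT.nd (nat_lit 94) (nat_lit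 0) (nat_lit 0) (XT.lf (nat_lit 0) (nat_lit 3012826022) (nat_lit 588) (nat_lit 3648799288) (nat_lit 84) (nat_lit 322216462) (nat_lit 125) (nat_lit 5) (nat_lit 132) (nat_lit 5) (nat_lit 126) (nat_lit 5) (nat_lit 313) (nat_lit 297) (nat_lit 278)) (XT.lf (nat_lit 0) (nat_lit 4810910322) (nat_lit 588) (nat_lit 849202647) (nat_lit 84) (nat_lit 1388602823) (nat_lit 125) (nat_lit 5) (nat_lit 132) (nat_lit 5) (nat_lit 126) (nat_lit 5) (nat_lit 314) (nat_lit 297) (nat_lit 277)))) (XT.nd (nat_lit 188) (nat_lit 672) (nat_lit 0) (XT.nd (nat_lit 94) (nat_lit 84) (nat_lit 0) (XT.lf (nat_lit 0) (nat_lit 2033583866) (nat_lit 588) (nat_lit 4591285754) (nat_lit 672) (nat_lit 492539213) (nat_lit 118) (nat_lit 5) (nat_lit 125) (nat_lit 5) (nat_lit 126) (nat_lit 5) (nat_lit 315) (nat_lit 297) (nat_lit 276)) (XT.lf (nat_lit 0) (nat_lit 1229639955) (nat_lit 672) (nat_lit 2223158448) (nat_lit 84) (nat_lit 3737145963)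 (nat_lit 117) (nat_lit 5) (nat_lit 125) (nat_lit 5) (nat_lit 118) (nat_lit 5) (nat_lit 316) (nat_lit 297) (nat_lit 275))) (XT.nd (nat_lit 94) (nat_lit 0) (nat_lit 0) (XT.lf (nat_lit 0) (nat_lit 690557417) (nat_lit 672) (nat_lit 2253251780) (nat_lit 756) (nat_lit 4322871320) (nat_lit 109) (nat_lit 5) (nat_lit 117) (nat_lit 5) (nat_lit 118) (nat_lit 5) (nat_lit 317) (nat_lit 297) (nat_lit 274)) (XT.lf (nat_lit 0) (nat_lit 3697671869) (nat_lit 672) (nat_lit 979941729) (nat_lit 756) (nat_lit 2669726846) (nat_lit 109) (nat_lit 5) (nat_lit 117) (nat_lit 5) (nat_lit 118) (nat_lit 5) (nat_lit 318) (nat_lit 297) (nat_lit 273))))) (XT.nd (nat_lit 282) (nat_lit 1848) (nat_lit 0) (XT.nd (nat_lit 94) (nat_lit 840) (nat_lit 0) (XT.lf (nat_lit 0) (nat_lit 6413585330) (nat_lit 756) (nat_lit 680845478) (nat_lit 84) (nat_lit 338160126) (nat_lit 109) (nat_lit 5) (nat_lit 118) (nat_lit 5) (nat_lit 110) (nat_lit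 5) (nat_lit 319) (nat_lit 297) (nat_lit 272)) (XT.nd (nat_lit 94) (nat_lit 0) (nat_lit 0) (XT.lf (nat_lit 0) (nat_lit 648803429) (nat_lit 840) (nat_lit 5154011620) (nat_lit 84) (nat_lit 1718551252) (nat_lit 99) (nat_lit 5) (nat_lit 109) (nat_lit 5) (nat_lit 100) (nat_lit 5) (nat_lit 320) (nat_lit 297) (nat_lit 271)) (XT.lf (nat_lit 0) (nat_lit 2301280827) (nat_lit 840) (nat_lit 2143477127) (nat_lit 84) (nat_lit 3169682657) (nat_lit 99) (nat_lit 5) (nat_lit 109) (nat_lit 5) (nat_lit 100) (nat_lit 5) (nat_lit 321) (nat_lit 297) (nat_lit 270)))) (XT.nd (nat_lit 188) (nat_lit 1008) (nat_lit 0) (XT.nd (nat_lit 94) (nat_lit 0) (nat_lit 0) (XT.lf (nat_lit 0) (nat_lit 935793246) (nat_lit 840) (nat_lit 3027024052) (nat_lit 924) (nat_lit 3749324775) (nat_lit 89) (nat_lit 5) (nat_lit 99) (nat_lit 5) (nat_lit 100) (nat_lit 5) (nat_lit 322) (nat_lit 297) (nat_lit 269)) (XT.lf (nat_lit 0) (nat_lit 4112956596)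 (nat_lit 840) (nat_lit 1534947807) (nat_lit 924) (nat_lit 2166256127) (nat_lit 89) (nat_lit 5) (nat_lit 99) (nat_lit 5) (nat_lit 100) (nat_lit 5) (nat_lit 323) (nat_lit 297) (nat_lit 268))) (XT.nd (nat_lit 94) (nat_lit 1008) (nat_lit 0) (XT.lf (nat_lit 0) (nat_lit 7336516079) (nat_lit 924) (nat_lit 574467756) (nat_lit 84) (nat_lit 10276735) (nat_lit 89) (nat_lit 5) (nat_lit 100) (nat_lit 5) (nat_lit 90) (nat_lit 5) (nat_lit 324) (nat_lit 297) (nat_lit 267)) (XT.lf (nat_lit 0) (nat_lit 1018930823) (nat_lit 1008) (nat_lit 5398172626) (nat_lit 84) (nat_lit 1614819916) (nat_lit 77) (nat_lit 5) (nat_lit 89) (nat_lit 5) (nat_lit 78) (nat_lit 5) (nat_lit 325) (nat_lit 297) (nat_lit 266))))))))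
noncomputable def xc14 : XT := (XT.nd (nat_lit 53674) (nat_lit 0) (nat_lit 2436) (XT.nd (nat_lit 1222) (nat_lit 1176) (nat_lit 0) (XT.nd (nat_lit 564) (nat_lit 1260) (nat_lit 0) (XT.nd (nat_lit 282) (nat_lit 588) (nat_lit 0) (XT.nd (nat_lit 94) (nat_lit 672) (nat_lit 0) (XT.lf (nat_lit 0) (nat_lit 2619105324) (nat_lit 1008) (nat_lit 2241573784) (nat_lit 84) (nat_lit 3286798435) (nat_lit 77) (nat_lit 5) (nat_lit 89) (nat_lit 5) (nat_lit 78) (nat_lit 5) (nat_lit 326) (nat_lit 297) (nat_lit 265)) (XT.nd (nat_lit 94) (nat_lit 0) (nat_lit 0) (XT.lf (nat_lit 0) (nat_lit 990841415) (nat_lit 672) (nat_lit 3242164239) (nat_lit 756) (nat_lit 4035082412) (nat_lit 69) (nat_lit 5) (nat_lit 77) (nat_lit 5) (nat_lit 78) (nat_lit 5) (nat_lit 327) (nat_lit 297) (nat_lit 264)) (XT.lf (nat_lit 0) (nat_lit 4329405448) (nat_lit 672) (nat_lit 1546181958) (nat_lit 756) (nat_lit 2517862961) (nat_lit 69) (nat_lit 5)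 (nat_lit 77) (nat_lit 5) (nat_lit 78) (nat_lit 5) (nat_lit 328) (nat_lit 297) (nat_lit 263)))) (XT.nd (nat_lit 94) (nat_lit 588) (nat_lit 0) (XT.lf (nat_lit 0) (nat_lit 7527725817) (nat_lit 756) (nat_lit 795284060) (nat_lit 84) (nat_lit 201311751) (nat_lit 69) (nat_lit 5) (nat_lit 78) (nat_lit 5) (nat_lit 70) (nat_lit 5) (nat_lit 329) (nat_lit 297) (nat_lit 262)) (XT.nd (nat_lit 94) (nat_lit 0) (nat_lit 0) (XT.lf (nat_lit 0) (nat_lit 559219765) (nat_lit 588) (nat_lit 6095269364) (nat_lit 84) (nat_lit 2004938996) (nat_lit 62) (nat_lit 5) (nat_lit 69) (nat_lit 5) (nat_lit 63) (nat_lit 5) (nat_lit 330) (nat_lit 297) (nat_lit 261)) (XT.lf (nat_lit 0) (nat_lit 2109012310) (nat_lit 588) (nat_lit 2805677954) (nat_lit 84) (nat_lit 3885067450) (nat_lit 62) (nat_lit 5) (nat_lit 69) (nat_lit 5) (nat_lit 63) (nat_lit 5) (nat_lit 331) (nat_lit 297) (nat_lit 260))))) (XT.nd (nat_lit 282) (nat_lit 840) (nat_lit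 0) (XT.nd (nat_lit 94) (nat_lit 0) (nat_lit 0) (XT.lf (nat_lit 0) (nat_lit 556819897) (nat_lit 420) (nat_lit 3114875518) (nat_lit 504) (nat_lit 5274133174) (nat_lit 57) (nat_lit 5) (nat_lit 62) (nat_lit 5) (nat_lit 63) (nat_lit 5) (nat_lit 332) (nat_lit 297) (nat_lit 259)) (XT.nd (nat_lit 94) (nat_lit 0) (nat_lit 0) (XT.lf (nat_lit 0) (nat_lit 4043152403) (nat_lit 420) (nat_lit 1229105516) (nat_lit 504) (nat_lit 3824789484) (nat_lit 57) (nat_lit 5) (nat_lit 62) (nat_lit 5) (nat_lit 63) (nat_lit 5) (nat_lit 333) (nat_lit 297) (nat_lit 258)) (XT.lf (nat_lit 0) (nat_lit 6890880549) (nat_lit 504) (nat_lit 1662650765) (nat_lit 84) (nat_lit 700684441) (nat_lit 57) (nat_lit 5) (nat_lit 63) (nat_lit 5) (nat_lit 58) (nat_lit 5) (nat_lit 334) (nat_lit 297) (nat_lit 257)))) (XT.nd (nat_lit 188) (nat_lit 336) (nat_lit 0) (XT.nd (nat_lit 94) (nat_lit 84) (nat_lit 0) (XT.lf (nat_lit 0) (nat_lit 1818840541)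 (nat_lit 420) (nat_lit 6733964660) (nat_lit 504) (nat_lit 863939212) (nat_lit 52) (nat_lit 5) (nat_lit 57) (nat_lit 5) (nat_lit 58) (nat_lit 5) (nat_lit 335) (nat_lit 297) (nat_lit 256)) (XT.lf (nat_lit 0) (nat_lit 648348988) (nat_lit 504) (nat_lit 4186799613) (nat_lit 84) (nat_lit 4749827149) (nat_lit 51) (nat_lit 5) (nat_lit 57) (nat_lit 5) (nat_lit 52) (nat_lit 5) (nat_lit 336) (nat_lit 297) (nat_lit 255))) (XT.nd (nat_lit 94) (nat_lit 336) (nat_lit 0) (XT.lf (nat_lit 0) (nat_lit 2153314364) (nat_lit 504) (nat_lit 717185967) (nat_lit 84) (nat_lit 6889022890) (nat_lit 51) (nat_lit 5) (nat_lit 57) (nat_lit 5) (nat_lit 52) (nat_lit 5) (nat_lit 337) (nat_lit 297) (nat_lit 254)) (XT.lf (nat_lit 0) (nat_lit 2880782848) (nat_lit 336) (nat_lit 817561025) (nat_lit 420) (nat_lit 6241585419) (nat_lit 47) (nat_lit 5) (nat_lit 51) (nat_lit 5) (nat_lit 52) (nat_lit 5) (nat_lit 338) (nat_lit 297) (nat_lit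 253)))))) (XT.nd (nat_lit 658) (nat_lit 336) (nat_lit 0) (XT.nd (nat_lit 282) (nat_lit 420) (nat_lit 0) (XT.nd (nat_lit 94) (nat_lit 420) (nat_lit 0) (XT.lf (nat_lit 0) (nat_lit 5277218694) (nat_lit 420) (nat_lit 3571314425) (nat_lit 84) (nat_lit 1278066432) (nat_lit 47) (nat_lit 5) (nat_lit 52) (nat_lit 5) (nat_lit 48) (nat_lit 5) (nat_lit 339) (nat_lit 297) (nat_lit 252)) (XT.nd (nat_lit 94) (nat_lit 420) (nat_lit 0) (XT.lf (nat_lit 0) (nat_lit 6879938136) (nat_lit 420) (nat_lit 20722506) (nat_lit 84) (nat_lit 3419402993) (nat_lit 47) (nat_lit 5) (nat_lit 52) (nat_lit 5) (nat_lit 48) (nat_lit 5) (nat_lit 340) (nat_lit 297) (nat_lit 251)) (XT.lf (nat_lit 0) (nat_lit 3678155786) (nat_lit 420) (nat_lit 4858217771) (nat_lit 504) (nat_lit 1983248616) (nat_lit 42) (nat_lit 5) (nat_lit 47) (nat_lit 5) (nat_lit 48) (nat_lit 5) (nat_lit 341) (nat_lit 297) (nat_lit 250)))) (XT.nd (nat_lit 188) (nat_lit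 0) (nat_lit 0) (XT.nd (nat_lit 94) (nat_lit 420) (nat_lit 0) (XT.lf (nat_lit 0) (nat_lit 7456613332) (nat_lit 420) (nat_lit 2755928832) (nat_lit 504) (nat_lit 514020340) (nat_lit 42) (nat_lit 5) (nat_lit 47) (nat_lit 5) (nat_lit 48) (nat_lit 5) (nat_lit 342) (nat_lit 297) (nat_lit 249)) (XT.lf (nat_lit 0) (nat_lit 374599529) (nat_lit 336) (nat_lit 578311648) (nat_lit 420) (nat_lit 9987759744) (nat_lit 37) (nat_lit 5) (nat_lit 41) (nat_lit 5) (nat_lit 42) (nat_lit 5) (nat_lit 343) (nat_lit 297) (nat_lit 248))) (XT.nd (nat_lit 94) (nat_lit 0) (nat_lit 0) (XT.lf (nat_lit 0) (nat_lit 2474816005) (nat_lit 420) (nat_lit 7017107433) (nat_lit 84) (nat_lit 1668901359) (nat_lit 37) (nat_lit 5) (nat_lit 42) (nat_lit 5) (nat_lit 38) (nat_lit 5) (nat_lit 344) (nat_lit 297) (nat_lit 247)) (XT.lf (nat_lit 0) (nat_lit 4019902154) (nat_lit 420) (nat_lit 3399014147) (nat_lit 84) (nat_lit 3969821688) (nat_lit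 37) (nat_lit 5) (nat_lit 42) (nat_lit 5) (nat_lit 38) (nat_lit 5) (nat_lit 345) (nat_lit 297) (nat_lit 246))))) (XT.nd (nat_lit 51418) (nat_lit 0) (nat_lit 9408) (XT.nd (nat_lit 51230) (nat_lit 0) (nat_lit 9660) (XT.lf (nat_lit 0) (nat_lit 303431296) (nat_lit 336) (nat_lit 5283451663) (nat_lit 420) (nat_lit 6037824505) (nat_lit 33) (nat_lit 5) (nat_lit 37) (nat_lit 5) (nat_lit 38) (nat_lit 5) (nat_lit 346) (nat_lit 297) (nat_lit 245)) (XT.nd (nat_lit 94) (nat_lit 0) (nat_lit 0) (XT.lf (nat_lit 0) (nat_lit 1146986944) (nat_lit 252) (nat_lit 1042143236) (nat_lit 252) (nat_lit 1042143236) (nat_lit 148) (nat_lit 3) (nat_lit 151) (nat_lit 3) (nat_lit 151) (nat_lit 5) (nat_lit 298) (nat_lit 298) (nat_lit 292)) (XT.lf (nat_lit 84) (nat_lit 200158687) (nat_lit 0) (nat_lit 4172382351) (nat_lit 252) (nat_lit 2102245825) (nat_lit 149) (nat_lit 5) (nat_lit 148) (nat_lit 3) (nat_lit 151) (nat_lit 5) (nat_lit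 299) (nat_lit 298) (nat_lit 291)))) (XT.nd (nat_lit 188) (nat_lit 0) (nat_lit 0) (XT.nd (nat_lit 94) (nat_lit 252) (nat_lit 0) (XT.lf (nat_lit 84) (nat_lit 2555833021) (nat_lit 0) (nat_lit 3898787967) (nat_lit 252) (nat_lit 35665065) (nat_lit 149) (nat_lit 5) (nat_lit 148) (nat_lit 3) (nat_lit 151) (nat_lit 5) (nat_lit 300) (nat_lit 298) (nat_lit 290)) (XT.lf (nat_lit 0) (nat_lit 1970815910) (nat_lit 252) (nat_lit 1587590681) (nat_lit 336) (nat_lit 2950687875) (nat_lit 145) (nat_lit 5) (nat_lit 148) (nat_lit 3) (nat_lit 149) (nat_lit 5) (nat_lit 301) (nat_lit 298) (nat_lit 289))) (XT.nd (nat_lit 94) (nat_lit 0) (nat_lit 0) (XT.lf (nat_lit 84) (nat_lit 804140851) (nat_lit 0) (nat_lit 3163102864) (nat_lit 336) (nat_lit 2564352199) (nat_lit 146) (nat_lit 5) (nat_lit 145) (nat_lit 5) (nat_lit 149) (nat_lit 5) (nat_lit 302) (nat_lit 298) (nat_lit 288)) (XT.lf (nat_lit 84) (nat_lit 3260394349) (nat_lit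 0) (nat_lit 2704207999) (nat_lit 336) (nat_lit 592959449) (nat_lit 146) (nat_lit 5) (nat_lit 145) (nat_lit 5) (nat_lit 149) (nat_lit 5) (nat_lit 303) (nat_lit 298) (nat_lit 287))))))) (XT.nd (nat_lit 1222) (nat_lit 4620) (nat_lit 0) (XT.nd (nat_lit 564) (nat_lit 1596) (nat_lit 0) (XT.nd (nat_lit 282) (nat_lit 420) (nat_lit 0) (XT.nd (nat_lit 94) (nat_lit 0) (nat_lit 0) (XT.lf (nat_lit 0) (nat_lit 1333741583) (nat_lit 336) (nat_lit 850202339) (nat_lit 420) (nat_lit 4403152070) (nat_lit 141) (nat_lit 5) (nat_lit 145) (nat_lit 5) (nat_lit 146) (nat_lit 5) (nat_lit 304) (nat_lit 298) (nat_lit 286)) (XT.nd (nat_lit 94) (nat_lit 0) (nat_lit 0) (XT.lf (nat_lit 84) (nat_lit 1656890255) (nat_lit 0) (nat_lit 1592907501) (nat_lit 420) (nat_lit 3370160117) (nat_lit 142) (nat_lit 5) (nat_lit 141) (nat_lit 5) (nat_lit 146) (nat_lit 5) (nat_lit 305) (nat_lit 298) (nat_lit 285)) (XT.lf (nat_lit 84) (nat_lit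 4217115870) (nat_lit 0) (nat_lit 944335297) (nat_lit 420) (nat_lit 1495141465) (nat_lit 142) (nat_lit 5) (nat_lit 141) (nat_lit 5) (nat_lit 146) (nat_lit 5) (nat_lit 306) (nat_lit 298) (nat_lit 284)))) (XT.nd (nat_lit 94) (nat_lit 0) (nat_lit 84) (XT.lf (nat_lit 84) (nat_lit 116814676) (nat_lit 0) (nat_lit 241573658) (nat_lit 504) (nat_lit 6338764876) (nat_lit 137) (nat_lit 5) (nat_lit 136) (nat_lit 5) (nat_lit 142) (nat_lit 5) (nat_lit 307) (nat_lit 298) (nat_lit 283)) (XT.nd (nat_lit 94) (nat_lit 0) (nat_lit 0) (XT.lf (nat_lit 0) (nat_lit 2198890982) (nat_lit 420) (nat_lit 4000710821) (nat_lit 84) (nat_lit 540826018) (nat_lit 137) (nat_lit 5) (nat_lit 142) (nat_lit 5) (nat_lit 138) (nat_lit 5) (nat_lit 308) (nat_lit 298) (nat_lit 282)) (XT.lf (nat_lit 0) (nat_lit 4031079309) (nat_lit 420) (nat_lit 1388447085) (nat_lit 84) (nat_lit 1368231116) (nat_lit 137) (nat_lit 5) (nat_lit 142) (nat_lit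 5) (nat_lit 138) (nat_lit 5) (nat_lit 309) (nat_lit 298) (nat_lit 281))))) (XT.nd (nat_lit 282) (nat_lit 1176) (nat_lit 0) (XT.nd (nat_lit 94) (nat_lit 84) (nat_lit 0) (XT.lf (nat_lit 0) (nat_lit 1287218603) (nat_lit 420) (nat_lit 4579815431) (nat_lit 504) (nat_lit 971830799) (nat_lit 132) (nat_lit 5) (nat_lit 137) (nat_lit 5) (nat_lit 138) (nat_lit 5) (nat_lit 310) (nat_lit 298) (nat_lit 280)) (XT.nd (nat_lit 94) (nat_lit 0) (nat_lit 0) (XT.lf (nat_lit 0) (nat_lit 799952283) (nat_lit 504) (nat_lit 2869652159) (nat_lit 84) (nat_lit 3223889850) (nat_lit 131) (nat_lit 5) (nat_lit 137) (nat_lit 5) (nat_lit 132) (nat_lit 5) (nat_lit 311) (nat_lit 298) (nat_lit 279)) (XT.lf (nat_lit 0) (nat_lit 2542903984) (nat_lit 504) (nat_lit 158148234) (nat_lit 84) (nat_lit 4251035686) (nat_lit 131) (nat_lit 5) (nat_lit 137) (nat_lit 5) (nat_lit 132) (nat_lit 5) (nat_lit 312) (nat_lit 298) (nat_lit 278)))) (XT.nd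 (nat_lit 188) (nat_lit 672) (nat_lit 0) (XT.nd (nat_lit 94) (nat_lit 0) (nat_lit 0) (XT.lf (nat_lit 0) (nat_lit 2648392843) (nat_lit 504) (nat_lit 1656108684) (nat_lit 588) (nat_lit 2709683176) (nat_lit 125) (nat_lit 5) (nat_lit 131) (nat_lit 5) (nat_lit 132) (nat_lit 5) (nat_lit 313) (nat_lit 298) (nat_lit 277)) (XT.lf (nat_lit 0) (nat_lit 5503339719) (nat_lit 504) (nat_lit 558799354) (nat_lit 588) (nat_lit 1018455179) (nat_lit 125) (nat_lit 5) (nat_lit 131) (nat_lit 5) (nat_lit 132) (nat_lit 5) (nat_lit 314) (nat_lit 298) (nat_lit 276))) (XT.nd (nat_lit 94) (nat_lit 0) (nat_lit 0) (XT.lf (nat_lit 0) (nat_lit 669726721) (nat_lit 672) (nat_lit 5883138523) (nat_lit 84) (nat_lit 597779198) (nat_lit 117) (nat_lit 5) (nat_lit 125) (nat_lit 5) (nat_lit 118) (nat_lit 5) (nat_lit 315) (nat_lit 298) (nat_lit 275)) (XT.lf (nat_lit 0) (nat_lit 2353416740) (nat_lit 672) (nat_lit 3049271885) (nat_lit 84)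 (nat_lit 1821482444) (nat_lit 117) (nat_lit 5) (nat_lit 125) (nat_lit 5) (nat_lit 118) (nat_lit 5) (nat_lit 316) (nat_lit 298) (nat_lit 274)))))) (XT.nd (nat_lit 658) (nat_lit 2268) (nat_lit 0) (XT.nd (nat_lit 282) (nat_lit 1680) (nat_lit 0) (XT.nd (nat_lit 94) (nat_lit 672) (nat_lit 0) (XT.lf (nat_lit 0) (nat_lit 4033028892) (nat_lit 672) (nat_lit 170724140) (nat_lit 84) (nat_lit 3098474758) (nat_lit 117) (nat_lit 5) (nat_lit 125) (nat_lit 5) (nat_lit 118) (nat_lit 5) (nat_lit 317) (nat_lit 298) (nat_lit 273)) (XT.nd (nat_lit 94) (nat_lit 0) (nat_lit 0) (XT.lf (nat_lit 0) (nat_lit 2811840131) (nat_lit 672) (nat_lit 2926182422) (nat_lit 756) (nat_lit 1646000102) (nat_lit 109) (nat_lit 5) (nat_lit 117) (nat_lit 5) (nat_lit 118) (nat_lit 5) (nat_lit 318) (nat_lit 298) (nat_lit 272)) (XT.lf (nat_lit 0) (nat_lit 5849036296) (nat_lit 672) (nat_lit 1595266418) (nat_lit 756) (nat_lit 26125402) (nat_lit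 109) (nat_lit 5) (nat_lit 117) (nat_lit 5) (nat_lit 118) (nat_lit 5) (nat_lit 319) (nat_lit 298) (nat_lit 271)))) (XT.nd (nat_lit 188) (nat_lit 840) (nat_lit 0) (XT.nd (nat_lit 94) (nat_lit 0) (nat_lit 0) (XT.lf (nat_lit 0) (nat_lit 1390854712) (nat_lit 756) (nat_lit 181057781) (nat_lit 840) (nat_lit 5988749071) (nat_lit 99) (nat_lit 5) (nat_lit 108) (nat_lit 5) (nat_lit 109) (nat_lit 5) (nat_lit 320) (nat_lit 298) (nat_lit 270)) (XT.lf (nat_lit 0) (nat_lit 3197260979) (nat_lit 840) (nat_lit 3178867104) (nat_lit 84) (nat_lit 1278662795) (nat_lit 99) (nat_lit 5) (nat_lit 109) (nat_lit 5) (nat_lit 100) (nat_lit 5) (nat_lit 321) (nat_lit 298) (nat_lit 269))) (XT.nd (nat_lit 94) (nat_lit 840) (nat_lit 0) (XT.lf (nat_lit 0) (nat_lit 4824943174) (nat_lit 840) (nat_lit 139198559) (nat_lit 84) (nat_lit 2789607663) (nat_lit 99) (nat_lit 5) (nat_lit 109) (nat_lit 5) (nat_lit 100) (nat_lit 5) (nat_lit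 322) (nat_lit 298) (nat_lit 268)) (XT.lf (nat_lit 0) (nat_lit 3014564952) (nat_lit 840) (nat_lit 3470020038) (nat_lit 924) (nat_lit 1372172998) (nat_lit 89) (nat_lit 5) (nat_lit 99) (nat_lit 5) (nat_lit 100) (nat_lit 5) (nat_lit 323) (nat_lit 298) (nat_lit 267))))) (XT.nd (nat_lit 282) (nat_lit 1260) (nat_lit 0) (XT.nd (nat_lit 94) (nat_lit 924) (nat_lit 0) (XT.lf (nat_lit 0) (nat_lit 181272724) (nat_lit 924) (nat_lit 1738026136) (nat_lit 84) (nat_lit 6045423492) (nat_lit 88) (nat_lit 5) (nat_lit 99) (nat_lit 5) (nat_lit 89) (nat_lit 5) (nat_lit 324) (nat_lit 298) (nat_lit 266)) (XT.nd (nat_lit 94) (nat_lit 0) (nat_lit 0) (XT.lf (nat_lit 0) (nat_lit 1436706153) (nat_lit 924) (nat_lit 285145861) (nat_lit 1008) (nat_lit 6355127778) (nat_lit 77) (nat_lit 5) (nat_lit 88) (nat_lit 5) (nat_lit 89) (nat_lit 5) (nat_lit 325) (nat_lit 298) (nat_lit 265)) (XT.lf (nat_lit 0) (nat_lit 3296692245) (nat_lit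 1008) (nat_lit 3501526299) (nat_lit 84) (nat_lit 1395278976) (nat_lit 77) (nat_lit 5) (nat_lit 89) (nat_lit 5) (nat_lit 78) (nat_lit 5) (nat_lit 326) (nat_lit 298) (nat_lit 264)))) (XT.nd (nat_lit 188) (nat_lit 588) (nat_lit 0) (XT.nd (nat_lit 94) (nat_lit 672) (nat_lit 0) (XT.lf (nat_lit 0) (nat_lit 4878934414) (nat_lit 1008) (nat_lit 309132719) (nat_lit 84) (nat_lit 3127195144) (nat_lit 77) (nat_lit 5) (nat_lit 89) (nat_lit 5) (nat_lit 78) (nat_lit 5) (nat_lit 327) (nat_lit 298) (nat_lit 263)) (XT.lf (nat_lit 0) (nat_lit 3003219610) (nat_lit 672) (nat_lit 3493797354) (nat_lit 756) (nat_lit 1944534723) (nat_lit 69) (nat_lit 5) (nat_lit 77) (nat_lit 5) (nat_lit 78) (nat_lit 5) (nat_lit 328) (nat_lit 298) (nat_lit 262))) (XT.nd (nat_lit 94) (nat_lit 588) (nat_lit 0) (XT.lf (nat_lit 0) (nat_lit 6385694719) (nat_lit 672) (nat_lit 1740695581) (nat_lit 756) (nat_lit 446900958) (nat_lit 69) (nat_lit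 5) (nat_lit 77) (nat_lit 5) (nat_lit 78) (nat_lit 5) (nat_lit 329) (nat_lit 298) (nat_lit 261)) (XT.lf (nat_lit 0) (nat_lit 1045682696) (nat_lit 588) (nat_lit 7574110467) (nat_lit 84) (nat_lit 90205370) (nat_lit 62) (nat_lit 5) (nat_lit 69) (nat_lit 5) (nat_lit 63) (nat_lit 5) (nat_lit 330) (nat_lit 298) (nat_lit 260))))))))
noncomputable def xc15 : XT := (XT.nd (nat_lit 53768) (nat_lit 0) (nat_lit 1176) (XT.nd (nat_lit 1222) (nat_lit 336) (nat_lit 0) (XT.nd (nat_lit 564) (nat_lit 840) (nat_lit 0) (XT.nd (nat_lit 282) (nat_lit 504) (nat_lit 0) (XT.nd (nat_lit 94) (nat_lit 420) (nat_lit 0) (XT.lf (nat_lit 0) (nat_lit 2575447308) (nat_lit 588) (nat_lit 4304356365) (nat_lit 84) (nat_lit 1971293677) (nat_lit 62) (nat_lit 5) (nat_lit 69) (nat_lit 5) (nat_lit 63) (nat_lit 5) (nat_lit 331) (nat_lit 298) (nat_lit 259)) (XT.nd (nat_lit 94) (nat_lit 420) (nat_lit 0) (XT.lf (nat_lit 0) (nat_lit 4113180956)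 (nat_lit 588) (nat_lit 972318036) (nat_lit 84) (nat_lit 3912586570) (nat_lit 62) (nat_lit 5) (nat_lit 69) (nat_lit 5) (nat_lit 63) (nat_lit 5) (nat_lit 332) (nat_lit 298) (nat_lit 258)) (XT.lf (nat_lit 0) (nat_lit 2474975572) (nat_lit 420) (nat_lit 3209893459) (nat_lit 504) (nat_lit 3465470028) (nat_lit 57) (nat_lit 5) (nat_lit 62) (nat_lit 5) (nat_lit 63) (nat_lit 5) (nat_lit 333) (nat_lit 298) (nat_lit 257)))) (XT.nd (nat_lit 94) (nat_lit 504) (nat_lit 0) (XT.lf (nat_lit 0) (nat_lit 6012228496) (nat_lit 420) (nat_lit 1265710988) (nat_lit 504) (nat_lit 2030495422) (nat_lit 57) (nat_lit 5) (nat_lit 62) (nat_lit 5) (nat_lit 63) (nat_lit 5) (nat_lit 334) (nat_lit 298) (nat_lit 256)) (XT.nd (nat_lit 94) (nat_lit 84) (nat_lit 0) (XT.lf (nat_lit 0) (nat_lit 145523206) (nat_lit 420) (nat_lit 8747281892) (nat_lit 504) (nat_lit 579748604) (nat_lit 52) (nat_lit 5) (nat_lit 57) (nat_lit 5) (nat_lit 58)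 (nat_lit 5) (nat_lit 335) (nat_lit 298) (nat_lit 255)) (XT.lf (nat_lit 0) (nat_lit 908961642) (nat_lit 504) (nat_lit 5937651784) (nat_lit 84) (nat_lit 2794761165) (nat_lit 51) (nat_lit 5) (nat_lit 57) (nat_lit 5) (nat_lit 52) (nat_lit 5) (nat_lit 336) (nat_lit 298) (nat_lit 254))))) (XT.nd (nat_lit 282) (nat_lit 504) (nat_lit 0) (XT.nd (nat_lit 94) (nat_lit 336) (nat_lit 0) (XT.lf (nat_lit 0) (nat_lit 2396611649) (nat_lit 504) (nat_lit 2486376005) (nat_lit 84) (nat_lit 4933591000) (nat_lit 51) (nat_lit 5) (nat_lit 57) (nat_lit 5) (nat_lit 52) (nat_lit 5) (nat_lit 337) (nat_lit 298) (nat_lit 253)) (XT.nd (nat_lit 94) (nat_lit 0) (nat_lit 0) (XT.lf (nat_lit 0) (nat_lit 1057062421) (nat_lit 336) (nat_lit 2849692471) (nat_lit 420) (nat_lit 6091427521) (nat_lit 47) (nat_lit 5) (nat_lit 51) (nat_lit 5) (nat_lit 52) (nat_lit 5) (nat_lit 338) (nat_lit 298) (nat_lit 252)) (XT.lf (nat_lit 0) (nat_lit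 4727298677) (nat_lit 336) (nat_lit 728927351) (nat_lit 420) (nat_lit 4729650876) (nat_lit 47) (nat_lit 5) (nat_lit 51) (nat_lit 5) (nat_lit 52) (nat_lit 5) (nat_lit 339) (nat_lit 298) (nat_lit 251)))) (XT.nd (nat_lit 188) (nat_lit 84) (nat_lit 0) (XT.nd (nat_lit 94) (nat_lit 420) (nat_lit 0) (XT.lf (nat_lit 0) (nat_lit 7035734075) (nat_lit 420) (nat_lit 1918425677) (nat_lit 84) (nat_lit 1426010120) (nat_lit 47) (nat_lit 5) (nat_lit 52) (nat_lit 5) (nat_lit 48) (nat_lit 5) (nat_lit 340) (nat_lit 298) (nat_lit 250)) (XT.lf (nat_lit 0) (nat_lit 1723940424) (nat_lit 420) (nat_lit 6933343162) (nat_lit 504) (nat_lit 1923632329) (nat_lit 42) (nat_lit 5) (nat_lit 47) (nat_lit 5) (nat_lit 48) (nat_lit 5) (nat_lit 341) (nat_lit 298) (nat_lit 249))) (XT.nd (nat_lit 94) (nat_lit 84) (nat_lit 0) (XT.lf (nat_lit 0) (nat_lit 5485432383) (nat_lit 420) (nat_lit 4832817706) (nat_lit 504) (nat_lit 470180277)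 (nat_lit 42) (nat_lit 5) (nat_lit 47) (nat_lit 5) (nat_lit 48) (nat_lit 5) (nat_lit 342) (nat_lit 298) (nat_lit 248)) (XT.lf (nat_lit 0) (nat_lit 977158320) (nat_lit 504) (nat_lit 1683292055) (nat_lit 84) (nat_lit 8342751688) (nat_lit 41) (nat_lit 5) (nat_lit 47) (nat_lit 5) (nat_lit 42) (nat_lit 5) (nat_lit 343) (nat_lit 298) (nat_lit 247)))))) (XT.nd (nat_lit 51888) (nat_lit 0) (nat_lit 8316) (XT.nd (nat_lit 51512) (nat_lit 0) (nat_lit 9072) (XT.nd (nat_lit 94) (nat_lit 0) (nat_lit 0) (XT.lf (nat_lit 0) (nat_lit 2051943919) (nat_lit 336) (nat_lit 398472972) (nat_lit 420) (nat_lit 8774540934) (nat_lit 37) (nat_lit 5) (nat_lit 41) (nat_lit 5) (nat_lit 42) (nat_lit 5) (nat_lit 344) (nat_lit 298) (nat_lit 246)) (XT.nd (nat_lit 94) (nat_lit 0) (nat_lit 0) (XT.lf (nat_lit 0) (nat_lit 3977265014) (nat_lit 420) (nat_lit 5567669934) (nat_lit 84) (nat_lit 1908592477) (nat_lit 37) (nat_lit 5) (nat_lit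 42) (nat_lit 5) (nat_lit 38) (nat_lit 5) (nat_lit 345) (nat_lit 298) (nat_lit 245)) (XT.lf (nat_lit 0) (nat_lit 5527380142) (nat_lit 420) (nat_lit 1887537970) (nat_lit 84) (nat_lit 4275189919) (nat_lit 37) (nat_lit 5) (nat_lit 42) (nat_lit 5) (nat_lit 38) (nat_lit 5) (nat_lit 346) (nat_lit 298) (nat_lit 244)))) (XT.nd (nat_lit 188) (nat_lit 0) (nat_lit 0) (XT.nd (nat_lit 94) (nat_lit 252) (nat_lit 0) (XT.lf (nat_lit 0) (nat_lit 3203321274) (nat_lit 252) (nat_lit 20562693) (nat_lit 252) (nat_lit 20562693) (nat_lit 148) (nat_lit 3) (nat_lit 151) (nat_lit 3) (nat_lit 151) (nat_lit 5) (nat_lit 299) (nat_lit 299) (nat_lit 290)) (XT.lf (nat_lit 0) (nat_lit 1903577690) (nat_lit 252) (nat_lit 4232576511) (nat_lit 336) (nat_lit 369351117) (nat_lit 145) (nat_lit 5) (nat_lit 148) (nat_lit 3) (nat_lit 149) (nat_lit 5) (nat_lit 300) (nat_lit 299) (nat_lit 289))) (XT.nd (nat_lit 94) (nat_lit 0) (nat_lit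 0) (XT.lf (nat_lit 0) (nat_lit 3870201537) (nat_lit 252) (nat_lit 1907594514) (nat_lit 336) (nat_lit 748165291) (nat_lit 145) (nat_lit 5) (nat_lit 148) (nat_lit 3) (nat_lit 149) (nat_lit 5) (nat_lit 301) (nat_lit 299) (nat_lit 288)) (XT.lf (nat_lit 84) (nat_lit 456248466) (nat_lit 0) (nat_lit 5368967995) (nat_lit 336) (nat_lit 724962023) (nat_lit 146) (nat_lit 5) (nat_lit 145) (nat_lit 5) (nat_lit 149) (nat_lit 5) (nat_lit 302) (nat_lit 299) (nat_lit 287))))) (XT.nd (nat_lit 282) (nat_lit 420) (nat_lit 0) (XT.nd (nat_lit 94) (nat_lit 0) (nat_lit 0) (XT.lf (nat_lit 0) (nat_lit 1183503430) (nat_lit 336) (nat_lit 3697858919) (nat_lit 420) (nat_lit 1695977276) (nat_lit 141) (nat_lit 5) (nat_lit 145) (nat_lit 5) (nat_lit 146) (nat_lit 5) (nat_lit 303) (nat_lit 299) (nat_lit 286)) (XT.nd (nat_lit 94) (nat_lit 0) (nat_lit 0) (XT.lf (nat_lit 0) (nat_lit 3061580160) (nat_lit 336) (nat_lit 1277970772)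 (nat_lit 420) (nat_lit 2268671637) (nat_lit 141) (nat_lit 5) (nat_lit 145) (nat_lit 5) (nat_lit 146) (nat_lit 5) (nat_lit 304) (nat_lit 299) (nat_lit 285)) (XT.lf (nat_lit 84) (nat_lit 1199345871) (nat_lit 0) (nat_lit 3738176887) (nat_lit 420) (nat_lit 1705187460) (nat_lit 142) (nat_lit 5) (nat_lit 141) (nat_lit 5) (nat_lit 146) (nat_lit 5) (nat_lit 305) (nat_lit 299) (nat_lit 284)))) (XT.nd (nat_lit 188) (nat_lit 0) (nat_lit 0) (XT.nd (nat_lit 94) (nat_lit 0) (nat_lit 0) (XT.lf (nat_lit 0) (nat_lit 130984328) (nat_lit 420) (nat_lit 2942895582) (nat_lit 504) (nat_lit 3606870625) (nat_lit 136) (nat_lit 5) (nat_lit 141) (nat_lit 5) (nat_lit 142) (nat_lit 5) (nat_lit 306) (nat_lit 299) (nat_lit 283)) (XT.lf (nat_lit 0) (nat_lit 1918871561) (nat_lit 420) (nat_lit 424582455) (nat_lit 504) (nat_lit 4378847183) (nat_lit 136) (nat_lit 5) (nat_lit 141) (nat_lit 5) (nat_lit 142) (nat_lit 5) (nat_lit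 307) (nat_lit 299) (nat_lit 282))) (XT.nd (nat_lit 94) (nat_lit 0) (nat_lit 0) (XT.lf (nat_lit 84) (nat_lit 2174652435) (nat_lit 0) (nat_lit 1541416849) (nat_lit 504) (nat_lit 3051187283) (nat_lit 137) (nat_lit 5) (nat_lit 136) (nat_lit 5) (nat_lit 142) (nat_lit 5) (nat_lit 308) (nat_lit 299) (nat_lit 281)) (XT.lf (nat_lit 84) (nat_lit 4822918877) (nat_lit 0) (nat_lit 684439178) (nat_lit 504) (nat_lit 1308824221) (nat_lit 137) (nat_lit 5) (nat_lit 136) (nat_lit 5) (nat_lit 142) (nat_lit 5) (nat_lit 309) (nat_lit 299) (nat_lit 280))))))) (XT.nd (nat_lit 1222) (nat_lit 4032) (nat_lit 0) (XT.nd (nat_lit 564) (nat_lit 1512) (nat_lit 0) (XT.nd (nat_lit 282) (nat_lit 1176) (nat_lit 0) (XT.nd (nat_lit 94) (nat_lit 0) (nat_lit 0) (XT.lf (nat_lit 0) (nat_lit 421186938) (nat_lit 504) (nat_lit 6217562917) (nat_lit 84) (nat_lit 230104664) (nat_lit 131) (nat_lit 5) (nat_lit 137) (nat_lit 5) (nat_lit 132)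 (nat_lit 5) (nat_lit 310) (nat_lit 299) (nat_lit 279)) (XT.nd (nat_lit 94) (nat_lit 0) (nat_lit 0) (XT.lf (nat_lit 0) (nat_lit 2142090217) (nat_lit 504) (nat_lit 3566722289) (nat_lit 84) (nat_lit 1215642313) (nat_lit 131) (nat_lit 5) (nat_lit 137) (nat_lit 5) (nat_lit 132) (nat_lit 5) (nat_lit 311) (nat_lit 299) (nat_lit 278)) (XT.lf (nat_lit 0) (nat_lit 3854683452) (nat_lit 504) (nat_lit 876084283) (nat_lit 84) (nat_lit 2253512222) (nat_lit 131) (nat_lit 5) (nat_lit 137) (nat_lit 5) (nat_lit 132) (nat_lit 5) (nat_lit 312) (nat_lit 299) (nat_lit 277)))) (XT.nd (nat_lit 94) (nat_lit 672) (nat_lit 0) (XT.lf (nat_lit 0) (nat_lit 1895039887) (nat_lit 504) (nat_lit 3684322102) (nat_lit 588) (nat_lit 1468440938) (nat_lit 125) (nat_lit 5) (nat_lit 131) (nat_lit 5) (nat_lit 132) (nat_lit 5) (nat_lit 313) (nat_lit 299) (nat_lit 276)) (XT.nd (nat_lit 94) (nat_lit 588) (nat_lit 0) (XT.lf (nat_lit 0) (nat_lit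 188977532) (nat_lit 588) (nat_lit 2387337311) (nat_lit 84) (nat_lit 4539003064) (nat_lit 124) (nat_lit 5) (nat_lit 131) (nat_lit 5) (nat_lit 125) (nat_lit 5) (nat_lit 314) (nat_lit 299) (nat_lit 275)) (XT.lf (nat_lit 0) (nat_lit 416004912) (nat_lit 588) (nat_lit 1397634802) (nat_lit 672) (nat_lit 5373005215) (nat_lit 117) (nat_lit 5) (nat_lit 124) (nat_lit 5) (nat_lit 125) (nat_lit 5) (nat_lit 315) (nat_lit 299) (nat_lit 274))))) (XT.nd (nat_lit 282) (nat_lit 840) (nat_lit 0) (XT.nd (nat_lit 94) (nat_lit 672) (nat_lit 0) (XT.lf (nat_lit 0) (nat_lit 3316103319) (nat_lit 588) (nat_lit 141054305) (nat_lit 672) (nat_lit 3804508568) (nat_lit 117) (nat_lit 5) (nat_lit 124) (nat_lit 5) (nat_lit 125) (nat_lit 5) (nat_lit 316) (nat_lit 299) (nat_lit 273)) (XT.nd (nat_lit 94) (nat_lit 672) (nat_lit 0) (XT.lf (nat_lit 0) (nat_lit 5108496906) (nat_lit 672) (nat_lit 1086231689) (nat_lit 84) (nat_lit 1146112581)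 (nat_lit 117) (nat_lit 5) (nat_lit 125) (nat_lit 5) (nat_lit 118) (nat_lit 5) (nat_lit 317) (nat_lit 299) (nat_lit 272)) (XT.lf (nat_lit 0) (nat_lit 1857100749) (nat_lit 672) (nat_lit 4920853124) (nat_lit 756) (nat_lit 646018340) (nat_lit 109) (nat_lit 5) (nat_lit 117) (nat_lit 5) (nat_lit 118) (nat_lit 5) (nat_lit 318) (nat_lit 299) (nat_lit 271)))) (XT.nd (nat_lit 188) (nat_lit 0) (nat_lit 0) (XT.nd (nat_lit 94) (nat_lit 756) (nat_lit 0) (XT.lf (nat_lit 0) (nat_lit 928273664) (nat_lit 756) (nat_lit 2646289525) (nat_lit 84) (nat_lit 3936540454) (nat_lit 108) (nat_lit 5) (nat_lit 117) (nat_lit 5) (nat_lit 109) (nat_lit 5) (nat_lit 319) (nat_lit 299) (nat_lit 270)) (XT.lf (nat_lit 0) (nat_lit 324278554) (nat_lit 756) (nat_lit 2165745022) (nat_lit 840) (nat_lit 5112628098) (nat_lit 99) (nat_lit 5) (nat_lit 108) (nat_lit 5) (nat_lit 109) (nat_lit 5) (nat_lit 320) (nat_lit 299) (nat_lit 269)))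 (XT.nd (nat_lit 94) (nat_lit 0) (nat_lit 0) (XT.lf (nat_lit 0) (nat_lit 3402965855) (nat_lit 756) (nat_lit 674841280) (nat_lit 840) (nat_lit 3620345939) (nat_lit 99) (nat_lit 5) (nat_lit 108) (nat_lit 5) (nat_lit 109) (nat_lit 5) (nat_lit 321) (nat_lit 299) (nat_lit 268)) (XT.lf (nat_lit 0) (nat_lit 5674962530) (nat_lit 840) (nat_lit 1268948008) (nat_lit 84) (nat_lit 854348717) (nat_lit 99) (nat_lit 5) (nat_lit 109) (nat_lit 5) (nat_lit 100) (nat_lit 5) (nat_lit 322) (nat_lit 299) (nat_lit 267)))))) (XT.nd (nat_lit 658) (nat_lit 1428) (nat_lit 0) (XT.nd (nat_lit 282) (nat_lit 756) (nat_lit 0) (XT.nd (nat_lit 94) (nat_lit 1008) (nat_lit 0) (XT.lf (nat_lit 0) (nat_lit 1841665430) (nat_lit 840) (nat_lit 5458187903) (nat_lit 924) (nat_lit 602687073) (nat_lit 89) (nat_lit 5) (nat_lit 99) (nat_lit 5) (nat_lit 100) (nat_lit 5) (nat_lit 323) (nat_lit 299) (nat_lit 266)) (XT.nd (nat_lit 94) (nat_lit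 924) (nat_lit 0) (XT.lf (nat_lit 0) (nat_lit 912226029) (nat_lit 924) (nat_lit 2984319862) (nat_lit 84) (nat_lit 4114619862) (nat_lit 88) (nat_lit 5) (nat_lit 99) (nat_lit 5) (nat_lit 89) (nat_lit 5) (nat_lit 324) (nat_lit 299) (nat_lit 265)) (XT.lf (nat_lit 0) (nat_lit 145009946) (nat_lit 924) (nat_lit 2272644832) (nat_lit 1008) (nat_lit 5707036269) (nat_lit 77) (nat_lit 5) (nat_lit 88) (nat_lit 5) (nat_lit 89) (nat_lit 5) (nat_lit 325) (nat_lit 299) (nat_lit 264)))) (XT.nd (nat_lit 188) (nat_lit 756) (nat_lit 0) (XT.nd (nat_lit 94) (nat_lit 0) (nat_lit 0) (XT.lf (nat_lit 0) (nat_lit 3395657365) (nat_lit 924) (nat_lit 560856279) (nat_lit 1008) (nat_lit 4285983383) (nat_lit 77) (nat_lit 5) (nat_lit 88) (nat_lit 5) (nat_lit 89) (nat_lit 5) (nat_lit 326) (nat_lit 299) (nat_lit 263)) (XT.lf (nat_lit 0) (nat_lit 5512019506) (nat_lit 1008) (nat_lit 1668337579) (nat_lit 84) (nat_lit 1184901158) (nat_lit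 77) (nat_lit 5) (nat_lit 89) (nat_lit 5) (nat_lit 78) (nat_lit 5) (nat_lit 327) (nat_lit 299) (nat_lit 262))) (XT.nd (nat_lit 94) (nat_lit 84) (nat_lit 0) (XT.lf (nat_lit 0) (nat_lit 1596808417) (nat_lit 672) (nat_lit 5498805936) (nat_lit 756) (nat_lit 1397165011) (nat_lit 69) (nat_lit 5) (nat_lit 77) (nat_lit 5) (nat_lit 78) (nat_lit 5) (nat_lit 328) (nat_lit 299) (nat_lit 261)) (XT.lf (nat_lit 0) (nat_lit 77980633) (nat_lit 756) (nat_lit 3665485051) (nat_lit 84) (nat_lit 4881809697) (nat_lit 68) (nat_lit 5) (nat_lit 77) (nat_lit 5) (nat_lit 69) (nat_lit 5) (nat_lit 329) (nat_lit 299) (nat_lit 260))))) (XT.nd (nat_lit 282) (nat_lit 924) (nat_lit 0) (XT.nd (nat_lit 94) (nat_lit 504) (nat_lit 0) (XT.lf (nat_lit 0) (nat_lit 1529520898) (nat_lit 756) (nat_lit 387070865) (nat_lit 84) (nat_lit 6846395044) (nat_lit 68) (nat_lit 5) (nat_lit 77) (nat_lit 5) (nat_lit 69) (nat_lit 5) (nat_lit 330) (nat_lit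 299) (nat_lit 259)) (XT.nd (nat_lit 94) (nat_lit 0) (nat_lit 0) (XT.lf (nat_lit 0) (nat_lit 3016888123) (nat_lit 588) (nat_lit 5888571957) (nat_lit 84) (nat_lit 83765) (nat_lit 62) (nat_lit 5) (nat_lit 69) (nat_lit 5) (nat_lit 63) (nat_lit 5) (nat_lit 331) (nat_lit 299) (nat_lit 258)) (XT.lf (nat_lit 0) (nat_lit 4535780126) (nat_lit 588) (nat_lit 2575195938) (nat_lit 84) (nat_lit 1942279659) (nat_lit 62) (nat_lit 5) (nat_lit 69) (nat_lit 5) (nat_lit 63) (nat_lit 5) (nat_lit 332) (nat_lit 299) (nat_lit 257)))) (XT.nd (nat_lit 188) (nat_lit 504) (nat_lit 0) (XT.nd (nat_lit 94) (nat_lit 0) (nat_lit 0) (XT.lf (nat_lit 0) (nat_lit 820665841) (nat_lit 420) (nat_lit 5252116286) (nat_lit 504) (nat_lit 3133937739) (nat_lit 57) (nat_lit 5) (nat_lit 62) (nat_lit 5) (nat_lit 63) (nat_lit 5) (nat_lit 333) (nat_lit 299) (nat_lit 256)) (XT.lf (nat_lit 0) (nat_lit 4340000851) (nat_lit 420) (nat_lit 3307948362)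 (nat_lit 504) (nat_lit 1717552814) (nat_lit 57) (nat_lit 5) (nat_lit 62) (nat_lit 5) (nat_lit 63) (nat_lit 5) (nat_lit 334) (nat_lit 299) (nat_lit 255))) (XT.nd (nat_lit 94) (nat_lit 504) (nat_lit 0) (XT.lf (nat_lit 0) (nat_lit 7933138168) (nat_lit 420) (nat_lit 1303539887) (nat_lit 504) (nat_lit 293880367) (nat_lit 57) (nat_lit 5) (nat_lit 62) (nat_lit 5) (nat_lit 63) (nat_lit 5) (nat_lit 335) (nat_lit 299) (nat_lit 254)) (XT.lf (nat_lit 0) (nat_lit 1142485773) (nat_lit 504) (nat_lit 7780024581) (nat_lit 84) (nat_lit 778344982) (nat_lit 51) (nat_lit 5) (nat_lit 57) (nat_lit 5) (nat_lit 52) (nat_lit 5) (nat_lit 336) (nat_lit 299) (nat_lit 253))))))))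
noncomputable def xc16 : XT := (XT.nd (nat_lit 53768) (nat_lit 0) (nat_lit 420) (XT.nd (nat_lit 52546) (nat_lit 0) (nat_lit 7308) (XT.nd (nat_lit 564) (nat_lit 420) (nat_lit 0) (XT.nd (nat_lit 282) (nat_lit 420) (nat_lit 0) (XT.nd (nat_lit 94) (nat_lit 336) (nat_lit 0) (XT.lf (nat_lit 0) (nat_lit 2613341046) (nat_lit 504) (nat_lit 4346535288) (nat_lit 84) (nat_lit 2916819914) (nat_lit 51) (nat_lit 5) (nat_lit 57) (nat_lit 5) (nat_lit 52) (nat_lit 5) (nat_lit 337) (nat_lit 299) (nat_lit 252)) (XT.nd (nat_lit 94) (nat_lit 336) (nat_lit 0) (XT.lf (nat_lit 0) (nat_lit 4096708349) (nat_lit 504) (nat_lit 841645997) (nat_lit 84) (nat_lit 5120888435) (nat_lit 51) (nat_lit 5) (nat_lit 57) (nat_lit 5) (nat_lit 52) (nat_lit 5) (nat_lit 338) (nat_lit 299) (nat_lit 251)) (XT.lf (nat_lit 0) (nat_lit 2794207264) (nat_lit 336) (nat_lit 2827481952) (nat_lit 420) (nat_lit 4626116584) (nat_lit 47) (nat_lit 5)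 (nat_lit 51) (nat_lit 5) (nat_lit 52) (nat_lit 5) (nat_lit 339) (nat_lit 299) (nat_lit 250)))) (XT.nd (nat_lit 94) (nat_lit 420) (nat_lit 0) (XT.lf (nat_lit 0) (nat_lit 6526973848) (nat_lit 336) (nat_lit 644297149) (nat_lit 420) (nat_lit 3271861528) (nat_lit 47) (nat_lit 5) (nat_lit 51) (nat_lit 5) (nat_lit 52) (nat_lit 5) (nat_lit 340) (nat_lit 299) (nat_lit 249)) (XT.nd (nat_lit 94) (nat_lit 420) (nat_lit 0) (XT.lf (nat_lit 0) (nat_lit 8754293496) (nat_lit 420) (nat_lit 318758395) (nat_lit 84) (nat_lit 1572123869) (nat_lit 47) (nat_lit 5) (nat_lit 52) (nat_lit 5) (nat_lit 48) (nat_lit 5) (nat_lit 341) (nat_lit 299) (nat_lit 248)) (XT.lf (nat_lit 0) (nat_lit 3419723769) (nat_lit 420) (nat_lit 6977564079) (nat_lit 504) (nat_lit 456059262) (nat_lit 42) (nat_lit 5) (nat_lit 47) (nat_lit 5) (nat_lit 48) (nat_lit 5) (nat_lit 342) (nat_lit 299) (nat_lit 247))))) (XT.nd (nat_lit 282) (nat_lit 0)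 (nat_lit 0) (XT.nd (nat_lit 94) (nat_lit 336) (nat_lit 0) (XT.lf (nat_lit 0) (nat_lit 976452086) (nat_lit 504) (nat_lit 3830411062) (nat_lit 84) (nat_lit 6261795992) (nat_lit 41) (nat_lit 5) (nat_lit 47) (nat_lit 5) (nat_lit 42) (nat_lit 5) (nat_lit 343) (nat_lit 299) (nat_lit 246)) (XT.nd (nat_lit 94) (nat_lit 336) (nat_lit 0) (XT.lf (nat_lit 0) (nat_lit 2415249648) (nat_lit 504) (nat_lit 152379035) (nat_lit 84) (nat_lit 8723945542) (nat_lit 41) (nat_lit 5) (nat_lit 47) (nat_lit 5) (nat_lit 42) (nat_lit 5) (nat_lit 344) (nat_lit 299) (nat_lit 245)) (XT.lf (nat_lit 0) (nat_lit 3682621838) (nat_lit 336) (nat_lit 224773336) (nat_lit 420) (nat_lit 7613912724) (nat_lit 37) (nat_lit 5) (nat_lit 41) (nat_lit 5) (nat_lit 42) (nat_lit 5) (nat_lit 345) (nat_lit 299) (nat_lit 244)))) (XT.nd (nat_lit 51512) (nat_lit 0) (nat_lit 8652) (XT.nd (nat_lit 51418) (nat_lit 0) (nat_lit 9072) (XT.lf (nat_lit 0)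 (nat_lit 5441841531) (nat_lit 420) (nat_lit 4172037231) (nat_lit 84) (nat_lit 2144581112) (nat_lit 37) (nat_lit 5) (nat_lit 42) (nat_lit 5) (nat_lit 38) (nat_lit 5) (nat_lit 346) (nat_lit 299) (nat_lit 243)) (XT.lf (nat_lit 0) (nat_lit 960440271) (nat_lit 0) (nat_lit 960440271) (nat_lit 252) (nat_lit 1341100923) (nat_lit 145) (nat_lit 5) (nat_lit 145) (nat_lit 3) (nat_lit 148) (nat_lit 3) (nat_lit 300) (nat_lit 300) (nat_lit 288))) (XT.nd (nat_lit 94) (nat_lit 420) (nat_lit 0) (XT.lf (nat_lit 0) (nat_lit 4251197119) (nat_lit 0) (nat_lit 1515201684) (nat_lit 252) (nat_lit 779753617) (nat_lit 145) (nat_lit 5) (nat_lit 145) (nat_lit 3) (nat_lit 148) (nat_lit 3) (nat_lit 301) (nat_lit 300) (nat_lit 287)) (XT.lf (nat_lit 84) (nat_lit 33699451) (nat_lit 0) (nat_lit 1047740178) (nat_lit 420) (nat_lit 5490421095) (nat_lit 141) (nat_lit 5) (nat_lit 140) (nat_lit 3) (nat_lit 145) (nat_lit 5) (nat_lit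 302) (nat_lit 300) (nat_lit 286)))))) (XT.nd (nat_lit 564) (nat_lit 1008) (nat_lit 0) (XT.nd (nat_lit 282) (nat_lit 336) (nat_lit 0) (XT.nd (nat_lit 94) (nat_lit 0) (nat_lit 84) (XT.lf (nat_lit 84) (nat_lit 2435479168) (nat_lit 0) (nat_lit 497685442) (nat_lit 420) (nat_lit 3667334564) (nat_lit 141) (nat_lit 5) (nat_lit 140) (nat_lit 3) (nat_lit 145) (nat_lit 5) (nat_lit 303) (nat_lit 300) (nat_lit 285)) (XT.nd (nat_lit 94) (nat_lit 0) (nat_lit 0) (XT.lf (nat_lit 0) (nat_lit 4770729563) (nat_lit 336) (nat_lit 1760752209) (nat_lit 420) (nat_lit 101538459) (nat_lit 141) (nat_lit 5) (nat_lit 145) (nat_lit 5) (nat_lit 146) (nat_lit 5) (nat_lit 304) (nat_lit 300) (nat_lit 284)) (XT.lf (nat_lit 84) (nat_lit 686288132) (nat_lit 0) (nat_lit 5920789411) (nat_lit 420) (nat_lit 62028523) (nat_lit 142) (nat_lit 5) (nat_lit 141) (nat_lit 5) (nat_lit 146) (nat_lit 5) (nat_lit 305) (nat_lit 300) (nat_lit 283))))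 (XT.nd (nat_lit 94) (nat_lit 0) (nat_lit 0) (XT.lf (nat_lit 0) (nat_lit 1706677290) (nat_lit 420) (nat_lit 3519442279) (nat_lit 504) (nat_lit 1481935458) (nat_lit 136) (nat_lit 5) (nat_lit 141) (nat_lit 5) (nat_lit 142) (nat_lit 5) (nat_lit 306) (nat_lit 300) (nat_lit 282)) (XT.nd (nat_lit 94) (nat_lit 0) (nat_lit 0) (XT.lf (nat_lit 0) (nat_lit 3461237672) (nat_lit 420) (nat_lit 1021296726) (nat_lit 504) (nat_lit 2268442732) (nat_lit 136) (nat_lit 5) (nat_lit 141) (nat_lit 5) (nat_lit 142) (nat_lit 5) (nat_lit 307) (nat_lit 300) (nat_lit 281)) (XT.lf (nat_lit 84) (nat_lit 1545705100) (nat_lit 0) (nat_lit 3674166277) (nat_lit 504) (nat_lit 1577584740) (nat_lit 137) (nat_lit 5) (nat_lit 136) (nat_lit 5) (nat_lit 142) (nat_lit 5) (nat_lit 308) (nat_lit 300) (nat_lit 280))))) (XT.nd (nat_lit 282) (nat_lit 504) (nat_lit 0) (XT.nd (nat_lit 94) (nat_lit 0) (nat_lit 0) (XT.lf (nat_lit 0) (nat_lit 129278991)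 (nat_lit 504) (nat_lit 2674378416) (nat_lit 588) (nat_lit 4043980005) (nat_lit 130) (nat_lit 5) (nat_lit 136) (nat_lit 5) (nat_lit 137) (nat_lit 5) (nat_lit 309) (nat_lit 300) (nat_lit 279)) (XT.nd (nat_lit 94) (nat_lit 0) (nat_lit 0) (XT.lf (nat_lit 0) (nat_lit 1792894089) (nat_lit 504) (nat_lit 73297881) (nat_lit 588) (nat_lit 5035255417) (nat_lit 130) (nat_lit 5) (nat_lit 136) (nat_lit 5) (nat_lit 137) (nat_lit 5) (nat_lit 310) (nat_lit 300) (nat_lit 278)) (XT.lf (nat_lit 84) (nat_lit 2622400427) (nat_lit 0) (nat_lit 850210143) (nat_lit 588) (nat_lit 3486004321) (nat_lit 131) (nat_lit 5) (nat_lit 130) (nat_lit 5) (nat_lit 137) (nat_lit 5) (nat_lit 311) (nat_lit 300) (nat_lit 277)))) (XT.nd (nat_lit 188) (nat_lit 84) (nat_lit 0) (XT.nd (nat_lit 94) (nat_lit 504) (nat_lit 0) (XT.lf (nat_lit 0) (nat_lit 5147323964) (nat_lit 504) (nat_lit 1657380793) (nat_lit 84) (nat_lit 215191228) (nat_lit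 131) (nat_lit 5) (nat_lit 137) (nat_lit 5) (nat_lit 132) (nat_lit 5) (nat_lit 312) (nat_lit 300) (nat_lit 276)) (XT.lf (nat_lit 0) (nat_lit 1077644690) (nat_lit 504) (nat_lit 5757688866) (nat_lit 588) (nat_lit 249495347) (nat_lit 125) (nat_lit 5) (nat_lit 131) (nat_lit 5) (nat_lit 132) (nat_lit 5) (nat_lit 313) (nat_lit 300) (nat_lit 275))) (XT.nd (nat_lit 94) (nat_lit 0) (nat_lit 0) (XT.lf (nat_lit 0) (nat_lit 1354924840) (nat_lit 588) (nat_lit 3274123632) (nat_lit 84) (nat_lit 2524059202) (nat_lit 124) (nat_lit 5) (nat_lit 131) (nat_lit 5) (nat_lit 125) (nat_lit 5) (nat_lit 314) (nat_lit 300) (nat_lit 274)) (XT.lf (nat_lit 0) (nat_lit 2947876065) (nat_lit 588) (nat_lit 498826469) (nat_lit 84) (nat_lit 3778964503) (nat_lit 124) (nat_lit 5) (nat_lit 131) (nat_lit 5) (nat_lit 125) (nat_lit 5) (nat_lit 315) (nat_lit 300) (nat_lit 273))))))) (XT.nd (nat_lit 1222) (nat_lit 2268) (nat_lit 0) (XT.nd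 (nat_lit 564) (nat_lit 2520) (nat_lit 0) (XT.nd (nat_lit 282) (nat_lit 756) (nat_lit 0) (XT.nd (nat_lit 94) (nat_lit 756) (nat_lit 0) (XT.lf (nat_lit 0) (nat_lit 2371550628) (nat_lit 588) (nat_lit 2187845345) (nat_lit 672) (nat_lit 2742526069) (nat_lit 117) (nat_lit 5) (nat_lit 124) (nat_lit 5) (nat_lit 125) (nat_lit 5) (nat_lit 316) (nat_lit 300) (nat_lit 272)) (XT.nd (nat_lit 94) (nat_lit 756) (nat_lit 0) (XT.lf (nat_lit 0) (nat_lit 5303140701) (nat_lit 588) (nat_lit 869853627) (nat_lit 672) (nat_lit 1209507200) (nat_lit 117) (nat_lit 5) (nat_lit 124) (nat_lit 5) (nat_lit 125) (nat_lit 5) (nat_lit 317) (nat_lit 300) (nat_lit 271)) (XT.lf (nat_lit 0) (nat_lit 324478582) (nat_lit 756) (nat_lit 6637947605) (nat_lit 84) (nat_lit 504698330) (nat_lit 108) (nat_lit 5) (nat_lit 117) (nat_lit 5) (nat_lit 109) (nat_lit 5) (nat_lit 318) (nat_lit 300) (nat_lit 270)))) (XT.nd (nat_lit 94) (nat_lit 756)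 (nat_lit 0) (XT.lf (nat_lit 0) (nat_lit 1860573709) (nat_lit 756) (nat_lit 3743704401) (nat_lit 84) (nat_lit 1950773792) (nat_lit 108) (nat_lit 5) (nat_lit 117) (nat_lit 5) (nat_lit 109) (nat_lit 5) (nat_lit 319) (nat_lit 300) (nat_lit 269)) (XT.nd (nat_lit 94) (nat_lit 756) (nat_lit 0) (XT.lf (nat_lit 0) (nat_lit 3394682832) (nat_lit 756) (nat_lit 799000707) (nat_lit 84) (nat_lit 3453980832) (nat_lit 108) (nat_lit 5) (nat_lit 117) (nat_lit 5) (nat_lit 109) (nat_lit 5) (nat_lit 320) (nat_lit 300) (nat_lit 268)) (XT.lf (nat_lit 0) (nat_lit 2244122312) (nat_lit 756) (nat_lit 2706375560) (nat_lit 840) (nat_lit 2793860255) (nat_lit 99) (nat_lit 5) (nat_lit 108) (nat_lit 5) (nat_lit 109) (nat_lit 5) (nat_lit 321) (nat_lit 300) (nat_lit 267))))) (XT.nd (nat_lit 282) (nat_lit 1596) (nat_lit 0) (XT.nd (nat_lit 94) (nat_lit 924) (nat_lit 0) (XT.lf (nat_lit 0) (nat_lit 5360825520) (nat_lit 756) (nat_lit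 1155016881) (nat_lit 840) (nat_lit 1329803322) (nat_lit 99) (nat_lit 5) (nat_lit 108) (nat_lit 5) (nat_lit 109) (nat_lit 5) (nat_lit 322) (nat_lit 300) (nat_lit 266)) (XT.nd (nat_lit 94) (nat_lit 0) (nat_lit 0) (XT.lf (nat_lit 0) (nat_lit 140039390) (nat_lit 924) (nat_lit 7359803467) (nat_lit 84) (nat_lit 451663652) (nat_lit 88) (nat_lit 5) (nat_lit 99) (nat_lit 5) (nat_lit 89) (nat_lit 5) (nat_lit 323) (nat_lit 300) (nat_lit 265)) (XT.lf (nat_lit 0) (nat_lit 1620472938) (nat_lit 924) (nat_lit 4308604764) (nat_lit 84) (nat_lit 2131739440) (nat_lit 88) (nat_lit 5) (nat_lit 99) (nat_lit 5) (nat_lit 89) (nat_lit 5) (nat_lit 324) (nat_lit 300) (nat_lit 264)))) (XT.nd (nat_lit 188) (nat_lit 672) (nat_lit 0) (XT.nd (nat_lit 94) (nat_lit 924) (nat_lit 0) (XT.lf (nat_lit 0) (nat_lit 3102798036) (nat_lit 924) (nat_lit 1200991618) (nat_lit 84) (nat_lit 3871441825) (nat_lit 88) (nat_lit 5) (nat_lit 99)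 (nat_lit 5) (nat_lit 89) (nat_lit 5) (nat_lit 325) (nat_lit 300) (nat_lit 263)) (XT.lf (nat_lit 0) (nat_lit 2006356196) (nat_lit 924) (nat_lit 2601943472) (nat_lit 1008) (nat_lit 3685939499) (nat_lit 77) (nat_lit 5) (nat_lit 88) (nat_lit 5) (nat_lit 89) (nat_lit 5) (nat_lit 326) (nat_lit 300) (nat_lit 262))) (XT.nd (nat_lit 94) (nat_lit 672) (nat_lit 0) (XT.lf (nat_lit 0) (nat_lit 5301942086) (nat_lit 924) (nat_lit 829306499) (nat_lit 1008) (nat_lit 2286923655) (nat_lit 77) (nat_lit 5) (nat_lit 88) (nat_lit 5) (nat_lit 89) (nat_lit 5) (nat_lit 327) (nat_lit 300) (nat_lit 261)) (XT.lf (nat_lit 0) (nat_lit 108860946) (nat_lit 672) (nat_lit 7563076583) (nat_lit 756) (nat_lit 875243620) (nat_lit 69) (nat_lit 5) (nat_lit 77) (nat_lit 5) (nat_lit 78) (nat_lit 5) (nat_lit 328) (nat_lit 300) (nat_lit 260)))))) (XT.nd (nat_lit 658) (nat_lit 1260) (nat_lit 0) (XT.nd (nat_lit 282) (nat_lit 420) (nat_lit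 0) (XT.nd (nat_lit 94) (nat_lit 504) (nat_lit 0) (XT.lf (nat_lit 0) (nat_lit 569537879) (nat_lit 756) (nat_lit 5231685914) (nat_lit 84) (nat_lit 2879056540) (nat_lit 68) (nat_lit 5) (nat_lit 77) (nat_lit 5) (nat_lit 69) (nat_lit 5) (nat_lit 329) (nat_lit 300) (nat_lit 259)) (XT.nd (nat_lit 94) (nat_lit 504) (nat_lit 0) (XT.lf (nat_lit 0) (nat_lit 2001826357) (nat_lit 756) (nat_lit 1971384320) (nat_lit 84) (nat_lit 4845521789) (nat_lit 68) (nat_lit 5) (nat_lit 77) (nat_lit 5) (nat_lit 69) (nat_lit 5) (nat_lit 330) (nat_lit 300) (nat_lit 258)) (XT.lf (nat_lit 0) (nat_lit 1382153356) (nat_lit 504) (nat_lit 2072148840) (nat_lit 588) (nat_lit 5508208517) (nat_lit 62) (nat_lit 5) (nat_lit 68) (nat_lit 5) (nat_lit 69) (nat_lit 5) (nat_lit 331) (nat_lit 300) (nat_lit 257)))) (XT.nd (nat_lit 188) (nat_lit 420) (nat_lit 0) (XT.nd (nat_lit 94) (nat_lit 0) (nat_lit 0) (XT.lf (nat_lit 0) (nat_lit 4846123669)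 (nat_lit 504) (nat_lit 89123558) (nat_lit 588) (nat_lit 4176287097) (nat_lit 62) (nat_lit 5) (nat_lit 68) (nat_lit 5) (nat_lit 69) (nat_lit 5) (nat_lit 332) (nat_lit 300) (nat_lit 256)) (XT.lf (nat_lit 0) (nat_lit 6445498385) (nat_lit 588) (nat_lit 902756256) (nat_lit 84) (nat_lit 1917704411) (nat_lit 62) (nat_lit 5) (nat_lit 69) (nat_lit 5) (nat_lit 63) (nat_lit 5) (nat_lit 333) (nat_lit 300) (nat_lit 255))) (XT.nd (nat_lit 94) (nat_lit 0) (nat_lit 0) (XT.lf (nat_lit 0) (nat_lit 2580637071) (nat_lit 420) (nat_lit 5413523749) (nat_lit 504) (nat_lit 1431529396) (nat_lit 57) (nat_lit 5) (nat_lit 62) (nat_lit 5) (nat_lit 63) (nat_lit 5) (nat_lit 334) (nat_lit 300) (nat_lit 254)) (XT.lf (nat_lit 0) (nat_lit 6156917781) (nat_lit 420) (nat_lit 3409128959) (nat_lit 504) (nat_lit 25345532) (nat_lit 57) (nat_lit 5) (nat_lit 62) (nat_lit 5) (nat_lit 63) (nat_lit 5) (nat_lit 335) (nat_lit 300) (nat_lit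 253))))) (XT.nd (nat_lit 282) (nat_lit 756) (nat_lit 0) (XT.nd (nat_lit 94) (nat_lit 0) (nat_lit 0) (XT.lf (nat_lit 0) (nat_lit 34255225) (nat_lit 420) (nat_lit 1328058325) (nat_lit 504) (nat_lit 8400751465) (nat_lit 51) (nat_lit 5) (nat_lit 56) (nat_lit 5) (nat_lit 57) (nat_lit 5) (nat_lit 336) (nat_lit 300) (nat_lit 252)) (XT.nd (nat_lit 94) (nat_lit 0) (nat_lit 0) (XT.lf (nat_lit 0) (nat_lit 2803704571) (nat_lit 504) (nat_lit 6299397679) (nat_lit 84) (nat_lit 836829790) (nat_lit 51) (nat_lit 5) (nat_lit 57) (nat_lit 5) (nat_lit 52) (nat_lit 5) (nat_lit 337) (nat_lit 300) (nat_lit 251)) (XT.lf (nat_lit 0) (nat_lit 4271271921) (nat_lit 504) (nat_lit 2811241350) (nat_lit 84) (nat_lit 3040564429) (nat_lit 51) (nat_lit 5) (nat_lit 57) (nat_lit 5) (nat_lit 52) (nat_lit 5) (nat_lit 338) (nat_lit 300) (nat_lit 250)))) (XT.nd (nat_lit 188) (nat_lit 420) (nat_lit 0) (XT.nd (nat_lit 94) (nat_lit 0)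 (nat_lit 0) (XT.lf (nat_lit 0) (nat_lit 767549435) (nat_lit 336) (nat_lit 4993273776) (nat_lit 420) (nat_lit 4552021869) (nat_lit 47) (nat_lit 5) (nat_lit 51) (nat_lit 5) (nat_lit 52) (nat_lit 5) (nat_lit 339) (nat_lit 300) (nat_lit 249)) (XT.lf (nat_lit 0) (nat_lit 4484250494) (nat_lit 336) (nat_lit 2811131032) (nat_lit 420) (nat_lit 3213358860) (nat_lit 47) (nat_lit 5) (nat_lit 51) (nat_lit 5) (nat_lit 52) (nat_lit 5) (nat_lit 340) (nat_lit 300) (nat_lit 248))) (XT.nd (nat_lit 94) (nat_lit 420) (nat_lit 0) (XT.lf (nat_lit 0) (nat_lit 8284521293) (nat_lit 336) (nat_lit 563394647) (nat_lit 420) (nat_lit 1863912573) (nat_lit 47) (nat_lit 5) (nat_lit 51) (nat_lit 5) (nat_lit 52) (nat_lit 5) (nat_lit 341) (nat_lit 300) (nat_lit 247)) (XT.lf (nat_lit 0) (nat_lit 1257562032) (nat_lit 420) (nat_lit 9192167077) (nat_lit 504) (nat_lit 471644131) (nat_lit 42) (nat_lit 5) (nat_lit 47) (nat_lit 5) (nat_lit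 48) (nat_lit 5) (nat_lit 342) (nat_lit 300) (nat_lit 246))))))))
noncomputable def xc17 : XT := (XT.nd (nat_lit 53956) (nat_lit 0) (nat_lit 0) (XT.nd (nat_lit 52640) (nat_lit 0) (nat_lit 5124) (XT.nd (nat_lit 51982) (nat_lit 0) (nat_lit 7812) (XT.nd (nat_lit 282) (nat_lit 0) (nat_lit 0) (XT.nd (nat_lit 94) (nat_lit 336) (nat_lit 0) (XT.lf (nat_lit 0) (nat_lit 947075744) (nat_lit 504) (nat_lit 6076306177) (nat_lit 84) (nat_lit 4113836443) (nat_lit 41) (nat_lit 5) (nat_lit 47) (nat_lit 5) (nat_lit 42) (nat_lit 5) (nat_lit 343) (nat_lit 300) (nat_lit 245)) (XT.nd (nat_lit 94) (nat_lit 336) (nat_lit 0) (XT.lf (nat_lit 0) (nat_lit 2372191955) (nat_lit 504) (nat_lit 2413659068) (nat_lit 84) (nat_lit 6574794841) (nat_lit 41) (nat_lit 5) (nat_lit 47) (nat_lit 5) (nat_lit 42) (nat_lit 5) (nat_lit 344) (nat_lit 300) (nat_lit 244)) (XT.lf (nat_lit 0) (nat_lit 1359616090) (nat_lit 336) (nat_lit 2468406906)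 (nat_lit 420) (nat_lit 7763567930) (nat_lit 37) (nat_lit 5) (nat_lit 41) (nat_lit 5) (nat_lit 42) (nat_lit 5) (nat_lit 345) (nat_lit 300) (nat_lit 243)))) (XT.nd (nat_lit 51512) (nat_lit 0) (nat_lit 8652) (XT.lf (nat_lit 0) (nat_lit 5271030673) (nat_lit 336) (nat_lit 56709208) (nat_lit 420) (nat_lit 6502162699) (nat_lit 37) (nat_lit 5) (nat_lit 41) (nat_lit 5) (nat_lit 42) (nat_lit 5) (nat_lit 346) (nat_lit 300) (nat_lit 242)) (XT.nd (nat_lit 94) (nat_lit 0) (nat_lit 0) (XT.lf (nat_lit 0) (nat_lit 531141014) (nat_lit 420) (nat_lit 1376823129) (nat_lit 420) (nat_lit 1376823129) (nat_lit 140) (nat_lit 3) (nat_lit 145) (nat_lit 3) (nat_lit 145) (nat_lit 5) (nat_lit 301) (nat_lit 301) (nat_lit 286)) (XT.lf (nat_lit 0) (nat_lit 2870774238) (nat_lit 420) (nat_lit 452499167) (nat_lit 420) (nat_lit 3273310460) (nat_lit 140) (nat_lit 3) (nat_lit 145) (nat_lit 3) (nat_lit 145) (nat_lit 5) (nat_lit 302)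 (nat_lit 301) (nat_lit 285))))) (XT.nd (nat_lit 282) (nat_lit 420) (nat_lit 0) (XT.nd (nat_lit 94) (nat_lit 420) (nat_lit 0) (XT.lf (nat_lit 84) (nat_lit 1921076100) (nat_lit 0) (nat_lit 2761100224) (nat_lit 420) (nat_lit 1944678250) (nat_lit 141) (nat_lit 5) (nat_lit 140) (nat_lit 3) (nat_lit 145) (nat_lit 5) (nat_lit 303) (nat_lit 301) (nat_lit 284)) (XT.nd (nat_lit 94) (nat_lit 420) (nat_lit 0) (XT.lf (nat_lit 84) (nat_lit 4340592956) (nat_lit 0) (nat_lit 2143453265) (nat_lit 420) (nat_lit 176806710) (nat_lit 141) (nat_lit 5) (nat_lit 140) (nat_lit 3) (nat_lit 145) (nat_lit 5) (nat_lit 304) (nat_lit 301) (nat_lit 283)) (XT.lf (nat_lit 84) (nat_lit 86368306) (nat_lit 0) (nat_lit 1457490855) (nat_lit 504) (nat_lit 5154382652) (nat_lit 136) (nat_lit 5) (nat_lit 135) (nat_lit 5) (nat_lit 141) (nat_lit 5) (nat_lit 305) (nat_lit 301) (nat_lit 282)))) (XT.nd (nat_lit 188) (nat_lit 420) (nat_lit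 0) (XT.nd (nat_lit 94) (nat_lit 0) (nat_lit 84) (XT.lf (nat_lit 84) (nat_lit 2577077950) (nat_lit 0) (nat_lit 693329866) (nat_lit 504) (nat_lit 3468370317) (nat_lit 136) (nat_lit 5) (nat_lit 135) (nat_lit 5) (nat_lit 141) (nat_lit 5) (nat_lit 306) (nat_lit 301) (nat_lit 281)) (XT.lf (nat_lit 0) (nat_lit 4985765498) (nat_lit 420) (nat_lit 1676237891) (nat_lit 504) (nat_lit 121240266) (nat_lit 136) (nat_lit 5) (nat_lit 141) (nat_lit 5) (nat_lit 142) (nat_lit 5) (nat_lit 307) (nat_lit 301) (nat_lit 280))) (XT.nd (nat_lit 94) (nat_lit 504) (nat_lit 0) (XT.lf (nat_lit 84) (nat_lit 857933864) (nat_lit 0) (nat_lit 5848289719) (nat_lit 504) (nat_lit 125000770) (nat_lit 137) (nat_lit 5) (nat_lit 136) (nat_lit 5) (nat_lit 142) (nat_lit 5) (nat_lit 308) (nat_lit 301) (nat_lit 279)) (XT.lf (nat_lit 0) (nat_lit 1521384782) (nat_lit 504) (nat_lit 3430049826) (nat_lit 588) (nat_lit 1930791319) (nat_lit 130)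 (nat_lit 5) (nat_lit 136) (nat_lit 5) (nat_lit 137) (nat_lit 5) (nat_lit 309) (nat_lit 301) (nat_lit 278)))))) (XT.nd (nat_lit 658) (nat_lit 1596) (nat_lit 0) (XT.nd (nat_lit 282) (nat_lit 1092) (nat_lit 0) (XT.nd (nat_lit 94) (nat_lit 0) (nat_lit 0) (XT.lf (nat_lit 0) (nat_lit 3154726507) (nat_lit 504) (nat_lit 848098413) (nat_lit 588) (nat_lit 2934439869) (nat_lit 130) (nat_lit 5) (nat_lit 136) (nat_lit 5) (nat_lit 137) (nat_lit 5) (nat_lit 310) (nat_lit 301) (nat_lit 277)) (XT.nd (nat_lit 94) (nat_lit 0) (nat_lit 0) (XT.lf (nat_lit 84) (nat_lit 1812732950) (nat_lit 0) (nat_lit 2984314921) (nat_lit 588) (nat_lit 2198825353) (nat_lit 131) (nat_lit 5) (nat_lit 130) (nat_lit 5) (nat_lit 137) (nat_lit 5) (nat_lit 311) (nat_lit 301) (nat_lit 276)) (XT.lf (nat_lit 84) (nat_lit 4536727762) (nat_lit 0) (nat_lit 1904192460) (nat_lit 588) (nat_lit 617463379) (nat_lit 131) (nat_lit 5) (nat_lit 130)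 (nat_lit 5) (nat_lit 137) (nat_lit 5) (nat_lit 312) (nat_lit 301) (nat_lit 275)))) (XT.nd (nat_lit 188) (nat_lit 504) (nat_lit 0) (XT.nd (nat_lit 94) (nat_lit 0) (nat_lit 84) (XT.lf (nat_lit 84) (nat_lit 177986621) (nat_lit 0) (nat_lit 758723869) (nat_lit 672) (nat_lit 6188061709) (nat_lit 124) (nat_lit 5) (nat_lit 123) (nat_lit 5) (nat_lit 131) (nat_lit 5) (nat_lit 313) (nat_lit 301) (nat_lit 274)) (XT.lf (nat_lit 0) (nat_lit 2500993130) (nat_lit 588) (nat_lit 4228336876) (nat_lit 84) (nat_lit 464981973) (nat_lit 124) (nat_lit 5) (nat_lit 131) (nat_lit 5) (nat_lit 125) (nat_lit 5) (nat_lit 314) (nat_lit 301) (nat_lit 273))) (XT.nd (nat_lit 94) (nat_lit 588) (nat_lit 0) (XT.lf (nat_lit 0) (nat_lit 4067189614) (nat_lit 588) (nat_lit 1472111961) (nat_lit 84) (nat_lit 1728640968) (nat_lit 124) (nat_lit 5) (nat_lit 131) (nat_lit 5) (nat_lit 125) (nat_lit 5) (nat_lit 315) (nat_lit 301) (nat_lit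 272)) (XT.lf (nat_lit 0) (nat_lit 1359373230) (nat_lit 588) (nat_lit 4283345085) (nat_lit 672) (nat_lit 1702829494) (nat_lit 117) (nat_lit 5) (nat_lit 124) (nat_lit 5) (nat_lit 125) (nat_lit 5) (nat_lit 316) (nat_lit 301) (nat_lit 271))))) (XT.nd (nat_lit 282) (nat_lit 840) (nat_lit 0) (XT.nd (nat_lit 94) (nat_lit 756) (nat_lit 0) (XT.lf (nat_lit 0) (nat_lit 4272651801) (nat_lit 588) (nat_lit 2958313206) (nat_lit 672) (nat_lit 196175673) (nat_lit 117) (nat_lit 5) (nat_lit 124) (nat_lit 5) (nat_lit 125) (nat_lit 5) (nat_lit 317) (nat_lit 301) (nat_lit 270)) (XT.nd (nat_lit 94) (nat_lit 672) (nat_lit 0) (XT.lf (nat_lit 0) (nat_lit 1278949241) (nat_lit 672) (nat_lit 286037850) (nat_lit 84) (nat_lit 5947870741) (nat_lit 116) (nat_lit 5) (nat_lit 124) (nat_lit 5) (nat_lit 117) (nat_lit 5) (nat_lit 318) (nat_lit 301) (nat_lit 269)) (XT.lf (nat_lit 0) (nat_lit 2687042324) (nat_lit 672) (nat_lit 85980717)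 (nat_lit 756) (nat_lit 4829272410) (nat_lit 108) (nat_lit 5) (nat_lit 116) (nat_lit 5) (nat_lit 117) (nat_lit 5) (nat_lit 319) (nat_lit 301) (nat_lit 268)))) (XT.nd (nat_lit 188) (nat_lit 84) (nat_lit 0) (XT.nd (nat_lit 94) (nat_lit 756) (nat_lit 0) (XT.lf (nat_lit 0) (nat_lit 4282589695) (nat_lit 756) (nat_lit 1988446150) (nat_lit 84) (nat_lit 1424834223) (nat_lit 108) (nat_lit 5) (nat_lit 117) (nat_lit 5) (nat_lit 109) (nat_lit 5) (nat_lit 320) (nat_lit 301) (nat_lit 267)) (XT.lf (nat_lit 0) (nat_lit 1011659598) (nat_lit 756) (nat_lit 4791541717) (nat_lit 840) (nat_lit 1990649093) (nat_lit 99) (nat_lit 5) (nat_lit 108) (nat_lit 5) (nat_lit 109) (nat_lit 5) (nat_lit 321) (nat_lit 301) (nat_lit 266))) (XT.nd (nat_lit 94) (nat_lit 84) (nat_lit 0) (XT.lf (nat_lit 0) (nat_lit 4110361028) (nat_lit 756) (nat_lit 3235719877) (nat_lit 840) (nat_lit 549942919) (nat_lit 99) (nat_lit 5) (nat_lit 108)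 (nat_lit 5) (nat_lit 109) (nat_lit 5) (nat_lit 322) (nat_lit 301) (nat_lit 265)) (XT.lf (nat_lit 0) (nat_lit 871505789) (nat_lit 840) (nat_lit 742272912) (nat_lit 84) (nat_lit 6389057399) (nat_lit 98) (nat_lit 5) (nat_lit 108) (nat_lit 5) (nat_lit 99) (nat_lit 5) (nat_lit 323) (nat_lit 301) (nat_lit 264))))))) (XT.nd (nat_lit 1222) (nat_lit 1596) (nat_lit 0) (XT.nd (nat_lit 564) (nat_lit 1008) (nat_lit 0) (XT.nd (nat_lit 282) (nat_lit 756) (nat_lit 0) (XT.nd (nat_lit 94) (nat_lit 924) (nat_lit 0) (XT.lf (nat_lit 0) (nat_lit 2306673611) (nat_lit 924) (nat_lit 5712115216) (nat_lit 84) (nat_lit 94933973) (nat_lit 88) (nat_lit 5) (nat_lit 99) (nat_lit 5) (nat_lit 89) (nat_lit 5) (nat_lit 324) (nat_lit 301) (nat_lit 263)) (XT.nd (nat_lit 94) (nat_lit 924) (nat_lit 0) (XT.lf (nat_lit 0) (nat_lit 3767984999) (nat_lit 924) (nat_lit 2622731978) (nat_lit 84) (nat_lit 1838239218) (nat_lit 88) (nat_lit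 5) (nat_lit 99) (nat_lit 5) (nat_lit 89) (nat_lit 5) (nat_lit 325) (nat_lit 301) (nat_lit 262)) (XT.lf (nat_lit 0) (nat_lit 537336592) (nat_lit 924) (nat_lit 4701195312) (nat_lit 1008) (nat_lit 3110678170) (nat_lit 77) (nat_lit 5) (nat_lit 88) (nat_lit 5) (nat_lit 89) (nat_lit 5) (nat_lit 326) (nat_lit 301) (nat_lit 261)))) (XT.nd (nat_lit 94) (nat_lit 756) (nat_lit 0) (XT.lf (nat_lit 0) (nat_lit 3815419720) (nat_lit 924) (nat_lit 2926118439) (nat_lit 1008) (nat_lit 1732380914) (nat_lit 77) (nat_lit 5) (nat_lit 88) (nat_lit 5) (nat_lit 89) (nat_lit 5) (nat_lit 327) (nat_lit 301) (nat_lit 260)) (XT.nd (nat_lit 94) (nat_lit 756) (nat_lit 0) (XT.lf (nat_lit 0) (nat_lit 7160644174) (nat_lit 924) (nat_lit 1091207745) (nat_lit 1008) (nat_lit 352170656) (nat_lit 77) (nat_lit 5) (nat_lit 88) (nat_lit 5) (nat_lit 89) (nat_lit 5) (nat_lit 328) (nat_lit 301) (nat_lit 259)) (XT.lf (nat_lit 0) (nat_lit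 1037233020) (nat_lit 756) (nat_lit 6883225678) (nat_lit 84) (nat_lit 818036116) (nat_lit 68) (nat_lit 5) (nat_lit 77) (nat_lit 5) (nat_lit 69) (nat_lit 5) (nat_lit 329) (nat_lit 301) (nat_lit 258))))) (XT.nd (nat_lit 282) (nat_lit 504) (nat_lit 0) (XT.nd (nat_lit 94) (nat_lit 504) (nat_lit 0) (XT.lf (nat_lit 0) (nat_lit 2450848572) (nat_lit 756) (nat_lit 3640492069) (nat_lit 84) (nat_lit 2786324743) (nat_lit 68) (nat_lit 5) (nat_lit 77) (nat_lit 5) (nat_lit 69) (nat_lit 5) (nat_lit 330) (nat_lit 301) (nat_lit 257)) (XT.nd (nat_lit 94) (nat_lit 504) (nat_lit 0) (XT.lf (nat_lit 0) (nat_lit 3871501808) (nat_lit 756) (nat_lit 331841454) (nat_lit 84) (nat_lit 4819222247) (nat_lit 68) (nat_lit 5) (nat_lit 77) (nat_lit 5) (nat_lit 69) (nat_lit 5) (nat_lit 331) (nat_lit 301) (nat_lit 256)) (XT.lf (nat_lit 0) (nat_lit 3108438277) (nat_lit 504) (nat_lit 2222914743) (nat_lit 588) (nat_lit 3841021317)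 (nat_lit 62) (nat_lit 5) (nat_lit 68) (nat_lit 5) (nat_lit 69) (nat_lit 5) (nat_lit 332) (nat_lit 301) (nat_lit 255)))) (XT.nd (nat_lit 188) (nat_lit 84) (nat_lit 0) (XT.nd (nat_lit 94) (nat_lit 420) (nat_lit 0) (XT.lf (nat_lit 0) (nat_lit 6629174227) (nat_lit 504) (nat_lit 175813924) (nat_lit 588) (nat_lit 2523073371) (nat_lit 62) (nat_lit 5) (nat_lit 68) (nat_lit 5) (nat_lit 69) (nat_lit 5) (nat_lit 333) (nat_lit 301) (nat_lit 254)) (XT.lf (nat_lit 0) (nat_lit 732497245) (nat_lit 420) (nat_lit 7584399768) (nat_lit 504) (nat_lit 1172158564) (nat_lit 57) (nat_lit 5) (nat_lit 62) (nat_lit 5) (nat_lit 63) (nat_lit 5) (nat_lit 334) (nat_lit 301) (nat_lit 253))) (XT.nd (nat_lit 94) (nat_lit 0) (nat_lit 0) (XT.lf (nat_lit 0) (nat_lit 212689233) (nat_lit 504) (nat_lit 5365108978) (nat_lit 84) (nat_lit 4077518918) (nat_lit 56) (nat_lit 5) (nat_lit 62) (nat_lit 5) (nat_lit 57) (nat_lit 5) (nat_lit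 335) (nat_lit 301) (nat_lit 252)) (XT.lf (nat_lit 0) (nat_lit 1583376627) (nat_lit 504) (nat_lit 1913623222) (nat_lit 84) (nat_lit 6330605240) (nat_lit 56) (nat_lit 5) (nat_lit 62) (nat_lit 5) (nat_lit 57) (nat_lit 5) (nat_lit 336) (nat_lit 301) (nat_lit 251)))))) (XT.nd (nat_lit 658) (nat_lit 336) (nat_lit 0) (XT.nd (nat_lit 282) (nat_lit 840) (nat_lit 0) (XT.nd (nat_lit 94) (nat_lit 0) (nat_lit 0) (XT.lf (nat_lit 0) (nat_lit 1645905363) (nat_lit 420) (nat_lit 1335219844) (nat_lit 504) (nat_lit 7024809151) (nat_lit 51) (nat_lit 5) (nat_lit 56) (nat_lit 5) (nat_lit 57) (nat_lit 5) (nat_lit 337) (nat_lit 301) (nat_lit 250)) (XT.nd (nat_lit 94) (nat_lit 0) (nat_lit 0) (XT.lf (nat_lit 0) (nat_lit 4420122131) (nat_lit 504) (nat_lit 4874856958) (nat_lit 84) (nat_lit 895092656) (nat_lit 51) (nat_lit 5) (nat_lit 57) (nat_lit 5) (nat_lit 52) (nat_lit 5) (nat_lit 338) (nat_lit 301) (nat_lit 249)) (XT.lf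 (nat_lit 0) (nat_lit 5887195142) (nat_lit 504) (nat_lit 1327272423) (nat_lit 84) (nat_lit 3166171240) (nat_lit 51) (nat_lit 5) (nat_lit 57) (nat_lit 5) (nat_lit 52) (nat_lit 5) (nat_lit 339) (nat_lit 301) (nat_lit 248)))) (XT.nd (nat_lit 188) (nat_lit 504) (nat_lit 0) (XT.nd (nat_lit 94) (nat_lit 0) (nat_lit 0) (XT.lf (nat_lit 0) (nat_lit 2346554723) (nat_lit 336) (nat_lit 5047189549) (nat_lit 420) (nat_lit 3183757885) (nat_lit 47) (nat_lit 5) (nat_lit 51) (nat_lit 5) (nat_lit 52) (nat_lit 5) (nat_lit 340) (nat_lit 301) (nat_lit 247)) (XT.lf (nat_lit 0) (nat_lit 6131711586) (nat_lit 336) (nat_lit 2800433500) (nat_lit 420) (nat_lit 1848980102) (nat_lit 47) (nat_lit 5) (nat_lit 51) (nat_lit 5) (nat_lit 52) (nat_lit 5) (nat_lit 341) (nat_lit 301) (nat_lit 246))) (XT.nd (nat_lit 94) (nat_lit 504) (nat_lit 0) (XT.lf (nat_lit 0) (nat_lit 10004434884) (nat_lit 336) (nat_lit 485959208) (nat_lit 420)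 (nat_lit 501720165) (nat_lit 47) (nat_lit 5) (nat_lit 51) (nat_lit 5) (nat_lit 52) (nat_lit 5) (nat_lit 342) (nat_lit 301) (nat_lit 245)) (XT.lf (nat_lit 0) (nat_lit 889001912) (nat_lit 504) (nat_lit 8423070810) (nat_lit 84) (nat_lit 1896870918) (nat_lit 41) (nat_lit 5) (nat_lit 47) (nat_lit 5) (nat_lit 42) (nat_lit 5) (nat_lit 343) (nat_lit 301) (nat_lit 244))))) (XT.nd (nat_lit 51794) (nat_lit 0) (nat_lit 8232) (XT.nd (nat_lit 94) (nat_lit 336) (nat_lit 0) (XT.lf (nat_lit 0) (nat_lit 2300848142) (nat_lit 504) (nat_lit 4775346027) (nat_lit 84) (nat_lit 4356673980) (nat_lit 41) (nat_lit 5) (nat_lit 47) (nat_lit 5) (nat_lit 42) (nat_lit 5) (nat_lit 344) (nat_lit 301) (nat_lit 243)) (XT.nd (nat_lit 94) (nat_lit 336) (nat_lit 0) (XT.lf (nat_lit 0) (nat_lit 3730320643) (nat_lit 504) (nat_lit 1043937745) (nat_lit 84) (nat_lit 6890455001) (nat_lit 41) (nat_lit 5) (nat_lit 47) (nat_lit 5) (nat_lit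 42) (nat_lit 5) (nat_lit 345) (nat_lit 301) (nat_lit 242)) (XT.lf (nat_lit 0) (nat_lit 2831684225) (nat_lit 336) (nat_lit 2375158265) (nat_lit 420) (nat_lit 6696982164) (nat_lit 37) (nat_lit 5) (nat_lit 41) (nat_lit 5) (nat_lit 42) (nat_lit 5) (nat_lit 346) (nat_lit 301) (nat_lit 241)))) (XT.nd (nat_lit 188) (nat_lit 420) (nat_lit 0) (XT.nd (nat_lit 94) (nat_lit 0) (nat_lit 0) (XT.lf (nat_lit 0) (nat_lit 2321856095) (nat_lit 420) (nat_lit 495341356) (nat_lit 420) (nat_lit 495341356) (nat_lit 140) (nat_lit 3) (nat_lit 145) (nat_lit 3) (nat_lit 145) (nat_lit 5) (nat_lit 302) (nat_lit 302) (nat_lit 284)) (XT.lf (nat_lit 84) (nat_lit 1353494546) (nat_lit 0) (nat_lit 5061504036) (nat_lit 420) (nat_lit 241964081) (nat_lit 141) (nat_lit 5) (nat_lit 140) (nat_lit 3) (nat_lit 145) (nat_lit 5) (nat_lit 303) (nat_lit 302) (nat_lit 283))) (XT.nd (nat_lit 94) (nat_lit 0) (nat_lit 0) (XT.lf (nat_lit 0) (nat_lit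 1460842858) (nat_lit 420) (nat_lit 2951921963) (nat_lit 504) (nat_lit 2279139690) (nat_lit 135) (nat_lit 5) (nat_lit 140) (nat_lit 3) (nat_lit 141) (nat_lit 5) (nat_lit 304) (nat_lit 302) (nat_lit 282)) (XT.lf (nat_lit 0) (nat_lit 3143800679) (nat_lit 420) (nat_lit 567056574) (nat_lit 504) (nat_lit 3019778594) (nat_lit 135) (nat_lit 5) (nat_lit 140) (nat_lit 3) (nat_lit 141) (nat_lit 5) (nat_lit 305) (nat_lit 302) (nat_lit 281))))))))
noncomputable def xc18 : XT := (XT.nd (nat_lit 2444) (nat_lit 2604) (nat_lit 0) (XT.nd (nat_lit 1222) (nat_lit 4032) (nat_lit 0) (XT.nd (nat_lit 564) (nat_lit 1092) (nat_lit 0) (XT.nd (nat_lit 282) (nat_lit 0) (nat_lit 0) (XT.nd (nat_lit 94) (nat_lit 504) (nat_lit 0) (XT.lf (nat_lit 84) (nat_lit 1893909358) (nat_lit 0) (nat_lit 2938231568) (nat_lit 504) (nat_lit 1940543837) (nat_lit 136) (nat_lit 5) (nat_lit 135) (nat_lit 5) (nat_lit 141) (nat_lit 5) (nat_lit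 306) (nat_lit 302) (nat_lit 280)) (XT.nd (nat_lit 94) (nat_lit 504) (nat_lit 0) (XT.lf (nat_lit 84) (nat_lit 4407562550) (nat_lit 0) (nat_lit 2107217366) (nat_lit 504) (nat_lit 303702914) (nat_lit 136) (nat_lit 5) (nat_lit 135) (nat_lit 5) (nat_lit 141) (nat_lit 5) (nat_lit 307) (nat_lit 302) (nat_lit 279)) (XT.lf (nat_lit 84) (nat_lit 84959620) (nat_lit 0) (nat_lit 1208596748) (nat_lit 588) (nat_lit 5574262496) (nat_lit 130) (nat_lit 5) (nat_lit 129) (nat_lit 5) (nat_lit 136) (nat_lit 5) (nat_lit 308) (nat_lit 302) (nat_lit 278)))) (XT.nd (nat_lit 94) (nat_lit 0) (nat_lit 84) (XT.lf (nat_lit 84) (nat_lit 2670058933) (nat_lit 0) (nat_lit 227357110) (nat_lit 588) (nat_lit 4022896598) (nat_lit 130) (nat_lit 5) (nat_lit 129) (nat_lit 5) (nat_lit 136) (nat_lit 5) (nat_lit 309) (nat_lit 302) (nat_lit 277)) (XT.nd (nat_lit 94) (nat_lit 0) (nat_lit 0) (XT.lf (nat_lit 0) (nat_lit 4499139241) (nat_lit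 504) (nat_lit 1684600834) (nat_lit 588) (nat_lit 792873283) (nat_lit 130) (nat_lit 5) (nat_lit 136) (nat_lit 5) (nat_lit 137) (nat_lit 5) (nat_lit 310) (nat_lit 302) (nat_lit 276)) (XT.lf (nat_lit 84) (nat_lit 940664216) (nat_lit 0) (nat_lit 5163665129) (nat_lit 588) (nat_lit 932316728) (nat_lit 131) (nat_lit 5) (nat_lit 130) (nat_lit 5) (nat_lit 137) (nat_lit 5) (nat_lit 311) (nat_lit 302) (nat_lit 275))))) (XT.nd (nat_lit 282) (nat_lit 588) (nat_lit 0) (XT.nd (nat_lit 94) (nat_lit 0) (nat_lit 0) (XT.lf (nat_lit 0) (nat_lit 607623833) (nat_lit 588) (nat_lit 3459589761) (nat_lit 672) (nat_lit 3032878971) (nat_lit 123) (nat_lit 5) (nat_lit 130) (nat_lit 5) (nat_lit 131) (nat_lit 5) (nat_lit 312) (nat_lit 302) (nat_lit 274)) (XT.nd (nat_lit 94) (nat_lit 0) (nat_lit 0) (XT.lf (nat_lit 0) (nat_lit 2120099208) (nat_lit 588) (nat_lit 787751497) (nat_lit 672) (nat_lit 4259596870) (nat_lit 123) (nat_lit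 5) (nat_lit 130) (nat_lit 5) (nat_lit 131) (nat_lit 5) (nat_lit 313) (nat_lit 302) (nat_lit 273)) (XT.lf (nat_lit 84) (nat_lit 1970982979) (nat_lit 0) (nat_lit 1673872703) (nat_lit 672) (nat_lit 3593598788) (nat_lit 124) (nat_lit 5) (nat_lit 123) (nat_lit 5) (nat_lit 131) (nat_lit 5) (nat_lit 314) (nat_lit 302) (nat_lit 272)))) (XT.nd (nat_lit 188) (nat_lit 84) (nat_lit 0) (XT.nd (nat_lit 94) (nat_lit 504) (nat_lit 0) (XT.lf (nat_lit 84) (nat_lit 4796657296) (nat_lit 0) (nat_lit 375565217) (nat_lit 672) (nat_lit 2141300775) (nat_lit 124) (nat_lit 5) (nat_lit 123) (nat_lit 5) (nat_lit 131) (nat_lit 5) (nat_lit 315) (nat_lit 302) (nat_lit 271)) (XT.lf (nat_lit 0) (nat_lit 278627670) (nat_lit 588) (nat_lit 6429506749) (nat_lit 672) (nat_lit 684449737) (nat_lit 117) (nat_lit 5) (nat_lit 124) (nat_lit 5) (nat_lit 125) (nat_lit 5) (nat_lit 316) (nat_lit 302) (nat_lit 270))) (XT.nd (nat_lit 94) (nat_lit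 0) (nat_lit 0) (XT.lf (nat_lit 0) (nat_lit 780581421) (nat_lit 672) (nat_lit 4308917301) (nat_lit 84) (nat_lit 2385416236) (nat_lit 116) (nat_lit 5) (nat_lit 124) (nat_lit 5) (nat_lit 117) (nat_lit 5) (nat_lit 317) (nat_lit 302) (nat_lit 269)) (XT.lf (nat_lit 0) (nat_lit 2227450166) (nat_lit 672) (nat_lit 1460346546) (nat_lit 84) (nat_lit 3873736056) (nat_lit 116) (nat_lit 5) (nat_lit 124) (nat_lit 5) (nat_lit 117) (nat_lit 5) (nat_lit 318) (nat_lit 302) (nat_lit 268)))))) (XT.nd (nat_lit 564) (nat_lit 1680) (nat_lit 0) (XT.nd (nat_lit 282) (nat_lit 1680) (nat_lit 0) (XT.nd (nat_lit 94) (nat_lit 0) (nat_lit 0) (XT.lf (nat_lit 0) (nat_lit 1470834813) (nat_lit 672) (nat_lit 2215051316) (nat_lit 756) (nat_lit 3966390363) (nat_lit 108) (nat_lit 5) (nat_lit 116) (nat_lit 5) (nat_lit 117) (nat_lit 5) (nat_lit 319) (nat_lit 302) (nat_lit 267)) (XT.nd (nat_lit 94) (nat_lit 0) (nat_lit 0) (XT.lf (nat_lit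 0) (nat_lit 4488869918) (nat_lit 672) (nat_lit 669122765) (nat_lit 756) (nat_lit 2589214968) (nat_lit 108) (nat_lit 5) (nat_lit 116) (nat_lit 5) (nat_lit 117) (nat_lit 5) (nat_lit 320) (nat_lit 302) (nat_lit 266)) (XT.lf (nat_lit 0) (nat_lit 6639644376) (nat_lit 756) (nat_lit 289615972) (nat_lit 84) (nat_lit 917324807) (nat_lit 108) (nat_lit 5) (nat_lit 117) (nat_lit 5) (nat_lit 109) (nat_lit 5) (nat_lit 321) (nat_lit 302) (nat_lit 265)))) (XT.nd (nat_lit 94) (nat_lit 840) (nat_lit 0) (XT.lf (nat_lit 0) (nat_lit 203901121) (nat_lit 840) (nat_lit 5166103110) (nat_lit 84) (nat_lit 2579640426) (nat_lit 98) (nat_lit 5) (nat_lit 108) (nat_lit 5) (nat_lit 99) (nat_lit 5) (nat_lit 322) (nat_lit 302) (nat_lit 264)) (XT.nd (nat_lit 94) (nat_lit 840) (nat_lit 0) (XT.lf (nat_lit 0) (nat_lit 1592744652) (nat_lit 840) (nat_lit 2145719658) (nat_lit 84) (nat_lit 4318663609) (nat_lit 98) (nat_lit 5) (nat_lit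 108) (nat_lit 5) (nat_lit 99) (nat_lit 5) (nat_lit 323) (nat_lit 302) (nat_lit 263)) (XT.lf (nat_lit 0) (nat_lit 952920767) (nat_lit 840) (nat_lit 2038771761) (nat_lit 924) (nat_lit 5177612542) (nat_lit 88) (nat_lit 5) (nat_lit 98) (nat_lit 5) (nat_lit 99) (nat_lit 5) (nat_lit 324) (nat_lit 302) (nat_lit 262))))) (XT.nd (nat_lit 282) (nat_lit 756) (nat_lit 0) (XT.nd (nat_lit 94) (nat_lit 924) (nat_lit 0) (XT.lf (nat_lit 0) (nat_lit 4158883066) (nat_lit 840) (nat_lit 256054200) (nat_lit 924) (nat_lit 3870943860) (nat_lit 88) (nat_lit 5) (nat_lit 98) (nat_lit 5) (nat_lit 99) (nat_lit 5) (nat_lit 325) (nat_lit 302) (nat_lit 261)) (XT.nd (nat_lit 94) (nat_lit 924) (nat_lit 0) (XT.lf (nat_lit 0) (nat_lit 5857844604) (nat_lit 924) (nat_lit 992365655) (nat_lit 84) (nat_lit 1556939275) (nat_lit 88) (nat_lit 5) (nat_lit 99) (nat_lit 5) (nat_lit 89) (nat_lit 5) (nat_lit 326) (nat_lit 302) (nat_lit 260))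 (XT.lf (nat_lit 0) (nat_lit 2248335909) (nat_lit 924) (nat_lit 5083125111) (nat_lit 1008) (nat_lit 1201461561) (nat_lit 77) (nat_lit 5) (nat_lit 88) (nat_lit 5) (nat_lit 89) (nat_lit 5) (nat_lit 327) (nat_lit 302) (nat_lit 259)))) (XT.nd (nat_lit 188) (nat_lit 0) (nat_lit 0) (XT.nd (nat_lit 94) (nat_lit 672) (nat_lit 0) (XT.lf (nat_lit 0) (nat_lit 156048626) (nat_lit 1008) (nat_lit 3088241582) (nat_lit 84) (nat_lit 5419416866) (nat_lit 76) (nat_lit 5) (nat_lit 88) (nat_lit 5) (nat_lit 77) (nat_lit 5) (nat_lit 328) (nat_lit 302) (nat_lit 258)) (XT.lf (nat_lit 0) (nat_lit 164726887) (nat_lit 672) (nat_lit 1329968562) (nat_lit 756) (nat_lit 7304868642) (nat_lit 68) (nat_lit 5) (nat_lit 76) (nat_lit 5) (nat_lit 77) (nat_lit 5) (nat_lit 329) (nat_lit 302) (nat_lit 257))) (XT.nd (nat_lit 94) (nat_lit 0) (nat_lit 0) (XT.lf (nat_lit 0) (nat_lit 2877006078) (nat_lit 756) (nat_lit 5395949895) (nat_lit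 84) (nat_lit 666884518) (nat_lit 68) (nat_lit 5) (nat_lit 77) (nat_lit 5) (nat_lit 69) (nat_lit 5) (nat_lit 330) (nat_lit 302) (nat_lit 256)) (XT.lf (nat_lit 0) (nat_lit 4280092418) (nat_lit 756) (nat_lit 2103826683) (nat_lit 84) (nat_lit 2701497398) (nat_lit 68) (nat_lit 5) (nat_lit 77) (nat_lit 5) (nat_lit 69) (nat_lit 5) (nat_lit 331) (nat_lit 302) (nat_lit 255))))))) (XT.nd (nat_lit 1222) (nat_lit 336) (nat_lit 0) (XT.nd (nat_lit 564) (nat_lit 1260) (nat_lit 0) (XT.nd (nat_lit 282) (nat_lit 504) (nat_lit 0) (XT.nd (nat_lit 94) (nat_lit 0) (nat_lit 0) (XT.lf (nat_lit 0) (nat_lit 1283657320) (nat_lit 504) (nat_lit 4421145560) (nat_lit 588) (nat_lit 3531639171) (nat_lit 62) (nat_lit 5) (nat_lit 68) (nat_lit 5) (nat_lit 69) (nat_lit 5) (nat_lit 332) (nat_lit 302) (nat_lit 254)) (XT.nd (nat_lit 94) (nat_lit 0) (nat_lit 0) (XT.lf (nat_lit 0) (nat_lit 4788525105) (nat_lit 504) (nat_lit 2373229112)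 (nat_lit 588) (nat_lit 2231015746) (nat_lit 62) (nat_lit 5) (nat_lit 68) (nat_lit 5) (nat_lit 69) (nat_lit 5) (nat_lit 333) (nat_lit 302) (nat_lit 253)) (XT.lf (nat_lit 0) (nat_lit 8370784586) (nat_lit 504) (nat_lit 260220519) (nat_lit 588) (nat_lit 924201126) (nat_lit 62) (nat_lit 5) (nat_lit 68) (nat_lit 5) (nat_lit 69) (nat_lit 5) (nat_lit 334) (nat_lit 302) (nat_lit 252)))) (XT.nd (nat_lit 94) (nat_lit 0) (nat_lit 0) (XT.lf (nat_lit 0) (nat_lit 424834395) (nat_lit 504) (nat_lit 7388962462) (nat_lit 84) (nat_lit 1908662704) (nat_lit 56) (nat_lit 5) (nat_lit 62) (nat_lit 5) (nat_lit 57) (nat_lit 5) (nat_lit 335) (nat_lit 302) (nat_lit 251)) (XT.nd (nat_lit 94) (nat_lit 0) (nat_lit 0) (XT.lf (nat_lit 0) (nat_lit 1779885301) (nat_lit 504) (nat_lit 3953288894) (nat_lit 84) (nat_lit 4162167386) (nat_lit 56) (nat_lit 5) (nat_lit 62) (nat_lit 5) (nat_lit 57) (nat_lit 5) (nat_lit 336) (nat_lit 302)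 (nat_lit 250)) (XT.lf (nat_lit 0) (nat_lit 3146139965) (nat_lit 504) (nat_lit 442258382) (nat_lit 84) (nat_lit 6486354858) (nat_lit 56) (nat_lit 5) (nat_lit 62) (nat_lit 5) (nat_lit 57) (nat_lit 5) (nat_lit 337) (nat_lit 302) (nat_lit 249))))) (XT.nd (nat_lit 282) (nat_lit 504) (nat_lit 0) (XT.nd (nat_lit 94) (nat_lit 336) (nat_lit 0) (XT.lf (nat_lit 0) (nat_lit 3212118756) (nat_lit 420) (nat_lit 1344617740) (nat_lit 504) (nat_lit 5703137363) (nat_lit 51) (nat_lit 5) (nat_lit 56) (nat_lit 5) (nat_lit 57) (nat_lit 5) (nat_lit 338) (nat_lit 302) (nat_lit 248)) (XT.nd (nat_lit 94) (nat_lit 336) (nat_lit 0) (XT.lf (nat_lit 0) (nat_lit 5996053571) (nat_lit 504) (nat_lit 3502100309) (nat_lit 84) (nat_lit 953247234) (nat_lit 51) (nat_lit 5) (nat_lit 57) (nat_lit 5) (nat_lit 52) (nat_lit 5) (nat_lit 339) (nat_lit 302) (nat_lit 247)) (XT.lf (nat_lit 0) (nat_lit 111893979) (nat_lit 336) (nat_lit 7354556942)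 (nat_lit 420) (nat_lit 3183031011) (nat_lit 47) (nat_lit 5) (nat_lit 51) (nat_lit 5) (nat_lit 52) (nat_lit 5) (nat_lit 340) (nat_lit 302) (nat_lit 246)))) (XT.nd (nat_lit 188) (nat_lit 504) (nat_lit 0) (XT.nd (nat_lit 94) (nat_lit 0) (nat_lit 0) (XT.lf (nat_lit 0) (nat_lit 3882391350) (nat_lit 336) (nat_lit 5108751753) (nat_lit 420) (nat_lit 1862480682) (nat_lit 47) (nat_lit 5) (nat_lit 51) (nat_lit 5) (nat_lit 52) (nat_lit 5) (nat_lit 341) (nat_lit 302) (nat_lit 245)) (XT.lf (nat_lit 0) (nat_lit 7740895936) (nat_lit 336) (nat_lit 2795199729) (nat_lit 420) (nat_lit 529020408) (nat_lit 47) (nat_lit 5) (nat_lit 51) (nat_lit 5) (nat_lit 52) (nat_lit 5) (nat_lit 342) (nat_lit 302) (nat_lit 244))) (XT.nd (nat_lit 94) (nat_lit 0) (nat_lit 0) (XT.lf (nat_lit 0) (nat_lit 406926452) (nat_lit 420) (nat_lit 399210222) (nat_lit 504) (nat_lit 10477642382) (nat_lit 41) (nat_lit 5) (nat_lit 46) (nat_lit 5)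 (nat_lit 47) (nat_lit 5) (nat_lit 343) (nat_lit 302) (nat_lit 243)) (XT.lf (nat_lit 0) (nat_lit 2201151709) (nat_lit 504) (nat_lit 7239641250) (nat_lit 84) (nat_lit 2067515436) (nat_lit 41) (nat_lit 5) (nat_lit 47) (nat_lit 5) (nat_lit 42) (nat_lit 5) (nat_lit 344) (nat_lit 302) (nat_lit 242)))))) (XT.nd (nat_lit 52264) (nat_lit 0) (nat_lit 7140) (XT.nd (nat_lit 51888) (nat_lit 0) (nat_lit 7728) (XT.nd (nat_lit 94) (nat_lit 336) (nat_lit 0) (XT.lf (nat_lit 0) (nat_lit 3618140232) (nat_lit 504) (nat_lit 3522271419) (nat_lit 84) (nat_lit 4600209553) (nat_lit 41) (nat_lit 5) (nat_lit 47) (nat_lit 5) (nat_lit 42) (nat_lit 5) (nat_lit 345) (nat_lit 302) (nat_lit 241)) (XT.nd (nat_lit 51700) (nat_lit 0) (nat_lit 8232) (XT.lf (nat_lit 0) (nat_lit 288494603) (nat_lit 336) (nat_lit 4768830110) (nat_lit 420) (nat_lit 6923643359) (nat_lit 37) (nat_lit 5) (nat_lit 41) (nat_lit 5) (nat_lit 42) (nat_lit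 5) (nat_lit 346) (nat_lit 302) (nat_lit 240)) (XT.lf (nat_lit 0) (nat_lit 355094793) (nat_lit 0) (nat_lit 355094793) (nat_lit 420) (nat_lit 2634905183) (nat_lit 135) (nat_lit 5) (nat_lit 135) (nat_lit 3) (nat_lit 140) (nat_lit 3) (nat_lit 303) (nat_lit 303) (nat_lit 282)))) (XT.nd (nat_lit 188) (nat_lit 504) (nat_lit 0) (XT.nd (nat_lit 94) (nat_lit 0) (nat_lit 0) (XT.lf (nat_lit 0) (nat_lit 3077976901) (nat_lit 420) (nat_lit 3642077763) (nat_lit 504) (nat_lit 6590977) (nat_lit 135) (nat_lit 5) (nat_lit 140) (nat_lit 3) (nat_lit 141) (nat_lit 5) (nat_lit 304) (nat_lit 303) (nat_lit 281)) (XT.lf (nat_lit 0) (nat_lit 4728646646) (nat_lit 420) (nat_lit 1274931890) (nat_lit 504) (nat_lit 763127506) (nat_lit 135) (nat_lit 5) (nat_lit 140) (nat_lit 3) (nat_lit 141) (nat_lit 5) (nat_lit 305) (nat_lit 303) (nat_lit 280))) (XT.nd (nat_lit 94) (nat_lit 504) (nat_lit 0) (XT.lf (nat_lit 84) (nat_lit 1153938553)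 (nat_lit 0) (nat_lit 5224390496) (nat_lit 504) (nat_lit 431942569) (nat_lit 136) (nat_lit 5) (nat_lit 135) (nat_lit 5) (nat_lit 141) (nat_lit 5) (nat_lit 306) (nat_lit 303) (nat_lit 279)) (XT.lf (nat_lit 0) (nat_lit 1149463096) (nat_lit 504) (nat_lit 3218383521) (nat_lit 588) (nat_lit 2489117885) (nat_lit 129) (nat_lit 5) (nat_lit 135) (nat_lit 5) (nat_lit 136) (nat_lit 5) (nat_lit 307) (nat_lit 303) (nat_lit 278))))) (XT.nd (nat_lit 282) (nat_lit 588) (nat_lit 0) (XT.nd (nat_lit 94) (nat_lit 0) (nat_lit 0) (XT.lf (nat_lit 0) (nat_lit 2709538283) (nat_lit 504) (nat_lit 744641175) (nat_lit 588) (nat_lit 3453281116) (nat_lit 129) (nat_lit 5) (nat_lit 135) (nat_lit 5) (nat_lit 136) (nat_lit 5) (nat_lit 308) (nat_lit 303) (nat_lit 277)) (XT.nd (nat_lit 94) (nat_lit 0) (nat_lit 0) (XT.lf (nat_lit 84) (nat_lit 1807910042) (nat_lit 0) (nat_lit 2468464475) (nat_lit 588) (nat_lit 2685009241) (nat_lit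 130) (nat_lit 5) (nat_lit 129) (nat_lit 5) (nat_lit 136) (nat_lit 5) (nat_lit 309) (nat_lit 303) (nat_lit 276)) (XT.lf (nat_lit 84) (nat_lit 4421421133) (nat_lit 0) (nat_lit 1420051376) (nat_lit 588) (nat_lit 1177620560) (nat_lit 130) (nat_lit 5) (nat_lit 129) (nat_lit 5) (nat_lit 136) (nat_lit 5) (nat_lit 310) (nat_lit 303) (nat_lit 275)))) (XT.nd (nat_lit 188) (nat_lit 0) (nat_lit 84) (XT.nd (nat_lit 94) (nat_lit 0) (nat_lit 84) (XT.lf (nat_lit 0) (nat_lit 311471768) (nat_lit 588) (nat_lit 1012562) (nat_lit 672) (nat_lit 6768293916) (nat_lit 122) (nat_lit 5) (nat_lit 129) (nat_lit 5) (nat_lit 130) (nat_lit 5) (nat_lit 311) (nat_lit 303) (nat_lit 274)) (XT.lf (nat_lit 0) (nat_lit 1802025651) (nat_lit 588) (nat_lit 4469661411) (nat_lit 672) (nat_lit 873448947) (nat_lit 123) (nat_lit 5) (nat_lit 130) (nat_lit 5) (nat_lit 131) (nat_lit 5) (nat_lit 312) (nat_lit 303) (nat_lit 273))) (XT.nd (nat_lit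 94) (nat_lit 0) (nat_lit 0) (XT.lf (nat_lit 0) (nat_lit 3287835329) (nat_lit 588) (nat_lit 1815371984) (nat_lit 672) (nat_lit 2110352148) (nat_lit 123) (nat_lit 5) (nat_lit 130) (nat_lit 5) (nat_lit 131) (nat_lit 5) (nat_lit 313) (nat_lit 303) (nat_lit 272)) (XT.lf (nat_lit 84) (nat_lit 904861337) (nat_lit 0) (nat_lit 3871290491) (nat_lit 672) (nat_lit 2509778702) (nat_lit 124) (nat_lit 5) (nat_lit 123) (nat_lit 5) (nat_lit 131) (nat_lit 5) (nat_lit 314) (nat_lit 303) (nat_lit 271))))))))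
noncomputable def xc19 : XT := (XT.nd (nat_lit 2538) (nat_lit 504) (nat_lit 0) (XT.nd (nat_lit 1222) (nat_lit 2520) (nat_lit 0) (XT.nd (nat_lit 564) (nat_lit 2604) (nat_lit 0) (XT.nd (nat_lit 282) (nat_lit 588) (nat_lit 0) (XT.nd (nat_lit 94) (nat_lit 672) (nat_lit 0) (XT.lf (nat_lit 84) (nat_lit 3713686797) (nat_lit 0) (nat_lit 2564578475) (nat_lit 672) (nat_lit 1083744412) (nat_lit 124) (nat_lit 5) (nat_lit 123) (nat_lit 5) (nat_lit 131) (nat_lit 5) (nat_lit 315) (nat_lit 303) (nat_lit 270)) (XT.nd (nat_lit 94) (nat_lit 0) (nat_lit 84) (XT.lf (nat_lit 0) (nat_lit 328014538) (nat_lit 672) (nat_lit 869363696) (nat_lit 756) (nat_lit 6244956406) (nat_lit 115) (nat_lit 5) (nat_lit 123) (nat_lit 5) (nat_lit 124) (nat_lit 5) (nat_lit 316) (nat_lit 303) (nat_lit 269)) (XT.lf (nat_lit 0) (nat_lit 1734182206) (nat_lit 672) (nat_lit 5537563754) (nat_lit 84) (nat_lit 254313843) (nat_lit 116) (nat_lit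 5) (nat_lit 124) (nat_lit 5) (nat_lit 117) (nat_lit 5) (nat_lit 317) (nat_lit 303) (nat_lit 268)))) (XT.nd (nat_lit 94) (nat_lit 672) (nat_lit 0) (XT.lf (nat_lit 0) (nat_lit 3157478044) (nat_lit 672) (nat_lit 2706387944) (nat_lit 84) (nat_lit 1749743718) (nat_lit 116) (nat_lit 5) (nat_lit 124) (nat_lit 5) (nat_lit 117) (nat_lit 5) (nat_lit 318) (nat_lit 303) (nat_lit 267)) (XT.nd (nat_lit 94) (nat_lit 0) (nat_lit 0) (XT.lf (nat_lit 0) (nat_lit 181953412) (nat_lit 672) (nat_lit 4398310612) (nat_lit 756) (nat_lit 3125389833) (nat_lit 108) (nat_lit 5) (nat_lit 116) (nat_lit 5) (nat_lit 117) (nat_lit 5) (nat_lit 319) (nat_lit 303) (nat_lit 266)) (XT.lf (nat_lit 0) (nat_lit 3183287415) (nat_lit 672) (nat_lit 2846740842) (nat_lit 756) (nat_lit 1771438777) (nat_lit 108) (nat_lit 5) (nat_lit 116) (nat_lit 5) (nat_lit 117) (nat_lit 5) (nat_lit 320) (nat_lit 303) (nat_lit 265))))) (XT.nd (nat_lit 282)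 (nat_lit 1764) (nat_lit 0) (XT.nd (nat_lit 94) (nat_lit 840) (nat_lit 0) (XT.lf (nat_lit 0) (nat_lit 6244762735) (nat_lit 672) (nat_lit 1235959591) (nat_lit 756) (nat_lit 421265611) (nat_lit 108) (nat_lit 5) (nat_lit 116) (nat_lit 5) (nat_lit 117) (nat_lit 5) (nat_lit 321) (nat_lit 303) (nat_lit 264)) (XT.nd (nat_lit 94) (nat_lit 0) (nat_lit 0) (XT.lf (nat_lit 0) (nat_lit 925973334) (nat_lit 840) (nat_lit 6630607636) (nat_lit 84) (nat_lit 449878658) (nat_lit 98) (nat_lit 5) (nat_lit 108) (nat_lit 5) (nat_lit 99) (nat_lit 5) (nat_lit 322) (nat_lit 303) (nat_lit 263)) (XT.lf (nat_lit 0) (nat_lit 2293939024) (nat_lit 840) (nat_lit 3627247396) (nat_lit 84) (nat_lit 2193571318) (nat_lit 98) (nat_lit 5) (nat_lit 108) (nat_lit 5) (nat_lit 99) (nat_lit 5) (nat_lit 323) (nat_lit 303) (nat_lit 262)))) (XT.nd (nat_lit 188) (nat_lit 924) (nat_lit 0) (XT.nd (nat_lit 94) (nat_lit 840) (nat_lit 0) (XT.lf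 (nat_lit 0) (nat_lit 3663183721) (nat_lit 840) (nat_lit 564317559) (nat_lit 84) (nat_lit 4000517000) (nat_lit 98) (nat_lit 5) (nat_lit 108) (nat_lit 5) (nat_lit 99) (nat_lit 5) (nat_lit 324) (nat_lit 303) (nat_lit 261)) (XT.lf (nat_lit 0) (nat_lit 2613697016) (nat_lit 840) (nat_lit 2447214886) (nat_lit 924) (nat_lit 3284631151) (nat_lit 88) (nat_lit 5) (nat_lit 98) (nat_lit 5) (nat_lit 99) (nat_lit 5) (nat_lit 325) (nat_lit 303) (nat_lit 260))) (XT.nd (nat_lit 94) (nat_lit 924) (nat_lit 0) (XT.lf (nat_lit 0) (nat_lit 5869996321) (nat_lit 840) (nat_lit 598852404) (nat_lit 924) (nat_lit 1999199784) (nat_lit 88) (nat_lit 5) (nat_lit 98) (nat_lit 5) (nat_lit 99) (nat_lit 5) (nat_lit 326) (nat_lit 303) (nat_lit 259)) (XT.lf (nat_lit 0) (nat_lit 599229967) (nat_lit 924) (nat_lit 7302337071) (nat_lit 1008) (nat_lit 693670722) (nat_lit 77) (nat_lit 5) (nat_lit 88) (nat_lit 5) (nat_lit 89) (nat_lit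 5) (nat_lit 327) (nat_lit 303) (nat_lit 258)))))) (XT.nd (nat_lit 658) (nat_lit 1260) (nat_lit 0) (XT.nd (nat_lit 282) (nat_lit 504) (nat_lit 0) (XT.nd (nat_lit 94) (nat_lit 672) (nat_lit 0) (XT.lf (nat_lit 0) (nat_lit 635084186) (nat_lit 1008) (nat_lit 4821191470) (nat_lit 84) (nat_lit 3270304272) (nat_lit 76) (nat_lit 5) (nat_lit 88) (nat_lit 5) (nat_lit 77) (nat_lit 5) (nat_lit 328) (nat_lit 303) (nat_lit 257)) (XT.nd (nat_lit 94) (nat_lit 672) (nat_lit 0) (XT.lf (nat_lit 0) (nat_lit 1954129463) (nat_lit 1008) (nat_lit 1587537437) (nat_lit 84) (nat_lit 5321513072) (nat_lit 76) (nat_lit 5) (nat_lit 88) (nat_lit 5) (nat_lit 77) (nat_lit 5) (nat_lit 329) (nat_lit 303) (nat_lit 256)) (XT.lf (nat_lit 0) (nat_lit 1750110537) (nat_lit 672) (nat_lit 1545921293) (nat_lit 756) (nat_lit 5708808506) (nat_lit 68) (nat_lit 5) (nat_lit 76) (nat_lit 5) (nat_lit 77) (nat_lit 5) (nat_lit 330) (nat_lit 303)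 (nat_lit 255)))) (XT.nd (nat_lit 188) (nat_lit 504) (nat_lit 0) (XT.nd (nat_lit 94) (nat_lit 0) (nat_lit 0) (XT.lf (nat_lit 0) (nat_lit 4666743743) (nat_lit 756) (nat_lit 3963301316) (nat_lit 84) (nat_lit 521502253) (nat_lit 68) (nat_lit 5) (nat_lit 77) (nat_lit 5) (nat_lit 69) (nat_lit 5) (nat_lit 331) (nat_lit 303) (nat_lit 254)) (XT.lf (nat_lit 0) (nat_lit 6062193786) (nat_lit 756) (nat_lit 617228603) (nat_lit 84) (nat_lit 2624181077) (nat_lit 68) (nat_lit 5) (nat_lit 77) (nat_lit 5) (nat_lit 69) (nat_lit 5) (nat_lit 332) (nat_lit 303) (nat_lit 253))) (XT.nd (nat_lit 94) (nat_lit 0) (nat_lit 0) (XT.lf (nat_lit 0) (nat_lit 2859556654) (nat_lit 504) (nat_lit 4637157436) (nat_lit 588) (nat_lit 1964032466) (nat_lit 62) (nat_lit 5) (nat_lit 68) (nat_lit 5) (nat_lit 69) (nat_lit 5) (nat_lit 333) (nat_lit 303) (nat_lit 252)) (XT.lf (nat_lit 0) (nat_lit 6426887868) (nat_lit 504) (nat_lit 2523381526)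 (nat_lit 588) (nat_lit 673516207) (nat_lit 62) (nat_lit 5) (nat_lit 68) (nat_lit 5) (nat_lit 69) (nat_lit 5) (nat_lit 334) (nat_lit 303) (nat_lit 251))))) (XT.nd (nat_lit 282) (nat_lit 756) (nat_lit 0) (XT.nd (nat_lit 94) (nat_lit 0) (nat_lit 0) (XT.lf (nat_lit 0) (nat_lit 281811180) (nat_lit 420) (nat_lit 333293482) (nat_lit 504) (nat_lit 9177682787) (nat_lit 56) (nat_lit 5) (nat_lit 61) (nat_lit 5) (nat_lit 62) (nat_lit 5) (nat_lit 335) (nat_lit 303) (nat_lit 250)) (XT.nd (nat_lit 94) (nat_lit 0) (nat_lit 0) (XT.lf (nat_lit 0) (nat_lit 1951682925) (nat_lit 504) (nat_lit 6087333138) (nat_lit 84) (nat_lit 1927332102) (nat_lit 56) (nat_lit 5) (nat_lit 62) (nat_lit 5) (nat_lit 57) (nat_lit 5) (nat_lit 336) (nat_lit 303) (nat_lit 249)) (XT.lf (nat_lit 0) (nat_lit 3303227277) (nat_lit 504) (nat_lit 2591178231) (nat_lit 84) (nat_lit 4251913155) (nat_lit 56) (nat_lit 5) (nat_lit 62) (nat_lit 5) (nat_lit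 57) (nat_lit 5) (nat_lit 337) (nat_lit 303) (nat_lit 248)))) (XT.nd (nat_lit 188) (nat_lit 336) (nat_lit 0) (XT.nd (nat_lit 94) (nat_lit 0) (nat_lit 0) (XT.lf (nat_lit 0) (nat_lit 1004287705) (nat_lit 420) (nat_lit 3673366141) (nat_lit 504) (nat_lit 5655006500) (nat_lit 51) (nat_lit 5) (nat_lit 56) (nat_lit 5) (nat_lit 57) (nat_lit 5) (nat_lit 338) (nat_lit 303) (nat_lit 247)) (XT.lf (nat_lit 0) (nat_lit 4737137447) (nat_lit 420) (nat_lit 1356202025) (nat_lit 504) (nat_lit 4431677467) (nat_lit 51) (nat_lit 5) (nat_lit 56) (nat_lit 5) (nat_lit 57) (nat_lit 5) (nat_lit 339) (nat_lit 303) (nat_lit 246))) (XT.nd (nat_lit 94) (nat_lit 336) (nat_lit 0) (XT.lf (nat_lit 0) (nat_lit 7535609921) (nat_lit 504) (nat_lit 2177050061) (nat_lit 84) (nat_lit 1011403563) (nat_lit 51) (nat_lit 5) (nat_lit 57) (nat_lit 5) (nat_lit 52) (nat_lit 5) (nat_lit 340) (nat_lit 303) (nat_lit 245)) (XT.lf (nat_lit 0) (nat_lit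 1534463983) (nat_lit 336) (nat_lit 7490500998) (nat_lit 420) (nat_lit 1904426895) (nat_lit 47) (nat_lit 5) (nat_lit 51) (nat_lit 5) (nat_lit 52) (nat_lit 5) (nat_lit 341) (nat_lit 303) (nat_lit 244))))))) (XT.nd (nat_lit 53016) (nat_lit 0) (nat_lit 3948) (XT.nd (nat_lit 52358) (nat_lit 0) (nat_lit 6804) (XT.nd (nat_lit 282) (nat_lit 0) (nat_lit 0) (XT.nd (nat_lit 94) (nat_lit 504) (nat_lit 0) (XT.lf (nat_lit 0) (nat_lit 5379177384) (nat_lit 336) (nat_lit 5177843513) (nat_lit 420) (nat_lit 584351358) (nat_lit 47) (nat_lit 5) (nat_lit 51) (nat_lit 5) (nat_lit 52) (nat_lit 5) (nat_lit 342) (nat_lit 303) (nat_lit 243)) (XT.nd (nat_lit 94) (nat_lit 420) (nat_lit 0) (XT.lf (nat_lit 0) (nat_lit 735163037) (nat_lit 420) (nat_lit 2052419194) (nat_lit 84) (nat_lit 8573072569) (nat_lit 46) (nat_lit 5) (nat_lit 51) (nat_lit 5) (nat_lit 47) (nat_lit 5) (nat_lit 343) (nat_lit 303) (nat_lit 242)) (XT.lf (nat_lit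 0) (nat_lit 1775117945) (nat_lit 420) (nat_lit 300876514) (nat_lit 504) (nat_lit 9510949937) (nat_lit 41) (nat_lit 5) (nat_lit 46) (nat_lit 5) (nat_lit 47) (nat_lit 5) (nat_lit 344) (nat_lit 303) (nat_lit 241)))) (XT.nd (nat_lit 51888) (nat_lit 0) (nat_lit 7896) (XT.lf (nat_lit 0) (nat_lit 3477889640) (nat_lit 504) (nat_lit 6105088234) (nat_lit 84) (nat_lit 2236825370) (nat_lit 41) (nat_lit 5) (nat_lit 47) (nat_lit 5) (nat_lit 42) (nat_lit 5) (nat_lit 345) (nat_lit 303) (nat_lit 240)) (XT.nd (nat_lit 94) (nat_lit 0) (nat_lit 0) (XT.lf (nat_lit 0) (nat_lit 1175748037) (nat_lit 0) (nat_lit 1175748037) (nat_lit 420) (nat_lit 1030723893) (nat_lit 135) (nat_lit 5) (nat_lit 135) (nat_lit 3) (nat_lit 140) (nat_lit 3) (nat_lit 304) (nat_lit 304) (nat_lit 280)) (XT.lf (nat_lit 0) (nat_lit 4750862363) (nat_lit 0) (nat_lit 1563666927) (nat_lit 420) (nat_lit 491502424) (nat_lit 135) (nat_lit 5) (nat_lit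 135) (nat_lit 3) (nat_lit 140) (nat_lit 3) (nat_lit 305) (nat_lit 304) (nat_lit 279))))) (XT.nd (nat_lit 282) (nat_lit 504) (nat_lit 0) (XT.nd (nat_lit 94) (nat_lit 0) (nat_lit 84) (XT.lf (nat_lit 84) (nat_lit 338424766) (nat_lit 0) (nat_lit 706086096) (nat_lit 588) (nat_lit 5806520115) (nat_lit 129) (nat_lit 5) (nat_lit 128) (nat_lit 3) (nat_lit 135) (nat_lit 5) (nat_lit 306) (nat_lit 304) (nat_lit 278)) (XT.nd (nat_lit 94) (nat_lit 0) (nat_lit 0) (XT.lf (nat_lit 0) (nat_lit 2579987038) (nat_lit 504) (nat_lit 4089350167) (nat_lit 588) (nat_lit 229698269) (nat_lit 129) (nat_lit 5) (nat_lit 135) (nat_lit 5) (nat_lit 136) (nat_lit 5) (nat_lit 307) (nat_lit 304) (nat_lit 277)) (XT.lf (nat_lit 0) (nat_lit 4110748599) (nat_lit 504) (nat_lit 1632497283) (nat_lit 588) (nat_lit 1207476067) (nat_lit 129) (nat_lit 5) (nat_lit 135) (nat_lit 5) (nat_lit 136) (nat_lit 5) (nat_lit 308) (nat_lit 304) (nat_lit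 276)))) (XT.nd (nat_lit 188) (nat_lit 0) (nat_lit 0) (XT.nd (nat_lit 94) (nat_lit 588) (nat_lit 0) (XT.lf (nat_lit 84) (nat_lit 885079319) (nat_lit 0) (nat_lit 4754918692) (nat_lit 588) (nat_lit 1366085526) (nat_lit 130) (nat_lit 5) (nat_lit 129) (nat_lit 5) (nat_lit 136) (nat_lit 5) (nat_lit 309) (nat_lit 304) (nat_lit 275)) (XT.lf (nat_lit 0) (nat_lit 110174664) (nat_lit 588) (nat_lit 3583658521) (nat_lit 672) (nat_lit 3371049965) (nat_lit 122) (nat_lit 5) (nat_lit 129) (nat_lit 5) (nat_lit 130) (nat_lit 5) (nat_lit 310) (nat_lit 304) (nat_lit 274))) (XT.nd (nat_lit 94) (nat_lit 0) (nat_lit 0) (XT.lf (nat_lit 0) (nat_lit 1548109383) (nat_lit 588) (nat_lit 1015222839) (nat_lit 672) (nat_lit 4563973626) (nat_lit 122) (nat_lit 5) (nat_lit 129) (nat_lit 5) (nat_lit 130) (nat_lit 5) (nat_lit 311) (nat_lit 304) (nat_lit 273)) (XT.lf (nat_lit 84) (nat_lit 1633153011) (nat_lit 0) (nat_lit 1359630585)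 (nat_lit 672) (nat_lit 4200544089) (nat_lit 123) (nat_lit 5) (nat_lit 122) (nat_lit 5) (nat_lit 130) (nat_lit 5) (nat_lit 312) (nat_lit 304) (nat_lit 272)))))) (XT.nd (nat_lit 658) (nat_lit 2268) (nat_lit 0) (XT.nd (nat_lit 282) (nat_lit 588) (nat_lit 0) (XT.nd (nat_lit 94) (nat_lit 0) (nat_lit 84) (XT.lf (nat_lit 84) (nat_lit 4352894875) (nat_lit 0) (nat_lit 87211932) (nat_lit 672) (nat_lit 2823071944) (nat_lit 123) (nat_lit 5) (nat_lit 122) (nat_lit 5) (nat_lit 130) (nat_lit 5) (nat_lit 313) (nat_lit 304) (nat_lit 271)) (XT.nd (nat_lit 94) (nat_lit 0) (nat_lit 0) (XT.lf (nat_lit 0) (nat_lit 5893495573) (nat_lit 588) (nat_lit 223925730) (nat_lit 672) (nat_lit 1219438757) (nat_lit 123) (nat_lit 5) (nat_lit 130) (nat_lit 5) (nat_lit 131) (nat_lit 5) (nat_lit 314) (nat_lit 304) (nat_lit 270)) (XT.lf (nat_lit 84) (nat_lit 2563953110) (nat_lit 0) (nat_lit 4804894790) (nat_lit 672) (nat_lit 45141552)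 (nat_lit 124) (nat_lit 5) (nat_lit 123) (nat_lit 5) (nat_lit 131) (nat_lit 5) (nat_lit 315) (nat_lit 304) (nat_lit 269)))) (XT.nd (nat_lit 188) (nat_lit 0) (nat_lit 0) (XT.nd (nat_lit 94) (nat_lit 0) (nat_lit 0) (XT.lf (nat_lit 0) (nat_lit 1321481600) (nat_lit 672) (nat_lit 2097936476) (nat_lit 756) (nat_lit 4075535029) (nat_lit 115) (nat_lit 5) (nat_lit 123) (nat_lit 5) (nat_lit 124) (nat_lit 5) (nat_lit 316) (nat_lit 304) (nat_lit 268)) (XT.lf (nat_lit 84) (nat_lit 720927171) (nat_lit 0) (nat_lit 1968064312) (nat_lit 756) (nat_lit 4891086509) (nat_lit 116) (nat_lit 5) (nat_lit 115) (nat_lit 5) (nat_lit 124) (nat_lit 5) (nat_lit 317) (nat_lit 304) (nat_lit 267))) (XT.nd (nat_lit 94) (nat_lit 0) (nat_lit 84) (XT.lf (nat_lit 84) (nat_lit 3639366238) (nat_lit 0) (nat_lit 434847259) (nat_lit 756) (nat_lit 3594789963) (nat_lit 116) (nat_lit 5) (nat_lit 115) (nat_lit 5) (nat_lit 124) (nat_lit 5)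 (nat_lit 318) (nat_lit 304) (nat_lit 266)) (XT.lf (nat_lit 0) (nat_lit 5468704096) (nat_lit 672) (nat_lit 1157012695) (nat_lit 84) (nat_lit 1136397384) (nat_lit 116) (nat_lit 5) (nat_lit 124) (nat_lit 5) (nat_lit 117) (nat_lit 5) (nat_lit 319) (nat_lit 304) (nat_lit 265))))) (XT.nd (nat_lit 282) (nat_lit 1596) (nat_lit 0) (XT.nd (nat_lit 94) (nat_lit 84) (nat_lit 0) (XT.lf (nat_lit 0) (nat_lit 1804331818) (nat_lit 672) (nat_lit 5080752262) (nat_lit 756) (nat_lit 974061896) (nat_lit 108) (nat_lit 5) (nat_lit 116) (nat_lit 5) (nat_lit 117) (nat_lit 5) (nat_lit 320) (nat_lit 304) (nat_lit 264)) (XT.nd (nat_lit 94) (nat_lit 0) (nat_lit 0) (XT.lf (nat_lit 0) (nat_lit 347124946) (nat_lit 756) (nat_lit 3113915711) (nat_lit 84) (nat_lit 4499347051) (nat_lit 107) (nat_lit 5) (nat_lit 116) (nat_lit 5) (nat_lit 108) (nat_lit 5) (nat_lit 321) (nat_lit 304) (nat_lit 263)) (XT.lf (nat_lit 0) (nat_lit 1646861697)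 (nat_lit 756) (nat_lit 123970719) (nat_lit 84) (nat_lit 6295274523) (nat_lit 107) (nat_lit 5) (nat_lit 116) (nat_lit 5) (nat_lit 108) (nat_lit 5) (nat_lit 322) (nat_lit 304) (nat_lit 262)))) (XT.nd (nat_lit 188) (nat_lit 840) (nat_lit 0) (XT.nd (nat_lit 94) (nat_lit 0) (nat_lit 0) (XT.lf (nat_lit 0) (nat_lit 2975742492) (nat_lit 840) (nat_lit 5188237064) (nat_lit 84) (nat_lit 11799716) (nat_lit 98) (nat_lit 5) (nat_lit 108) (nat_lit 5) (nat_lit 99) (nat_lit 5) (nat_lit 323) (nat_lit 304) (nat_lit 261)) (XT.lf (nat_lit 0) (nat_lit 4325345979) (nat_lit 840) (nat_lit 2141322125) (nat_lit 84) (nat_lit 1823138293) (nat_lit 98) (nat_lit 5) (nat_lit 108) (nat_lit 5) (nat_lit 99) (nat_lit 5) (nat_lit 324) (nat_lit 304) (nat_lit 260))) (XT.nd (nat_lit 94) (nat_lit 0) (nat_lit 0) (XT.lf (nat_lit 0) (nat_lit 988413241) (nat_lit 840) (nat_lit 4699487262) (nat_lit 924) (nat_lit 2720674013) (nat_lit 88)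 (nat_lit 5) (nat_lit 98) (nat_lit 5) (nat_lit 99) (nat_lit 5) (nat_lit 325) (nat_lit 304) (nat_lit 259)) (XT.lf (nat_lit 0) (nat_lit 4229336444) (nat_lit 840) (nat_lit 2847870520) (nat_lit 924) (nat_lit 1454598911) (nat_lit 88) (nat_lit 5) (nat_lit 98) (nat_lit 5) (nat_lit 99) (nat_lit 5) (nat_lit 326) (nat_lit 304) (nat_lit 258))))))))
noncomputable def xc20 : XT := (XT.nd (nat_lit 54332) (nat_lit 0) (nat_lit 1260) (XT.nd (nat_lit 1222) (nat_lit 840) (nat_lit 0) (XT.nd (nat_lit 564) (nat_lit 1428) (nat_lit 0) (XT.nd (nat_lit 282) (nat_lit 672) (nat_lit 0) (XT.nd (nat_lit 94) (nat_lit 1008) (nat_lit 0) (XT.lf (nat_lit 0) (nat_lit 7540438390) (nat_lit 840) (nat_lit 932442990) (nat_lit 924) (nat_lit 187406009) (nat_lit 88) (nat_lit 5) (nat_lit 98) (nat_lit 5) (nat_lit 99) (nat_lit 5) (nat_lit 327) (nat_lit 304) (nat_lit 257)) (XT.nd (nat_lit 94) (nat_lit 0) (nat_lit 0) (XT.lf (nat_lit 0) (nat_lit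 1092477987) (nat_lit 1008) (nat_lit 6640349781) (nat_lit 84) (nat_lit 1059980274) (nat_lit 76) (nat_lit 5) (nat_lit 88) (nat_lit 5) (nat_lit 77) (nat_lit 5) (nat_lit 328) (nat_lit 304) (nat_lit 256)) (XT.lf (nat_lit 0) (nat_lit 2394096073) (nat_lit 1008) (nat_lit 3422210352) (nat_lit 84) (nat_lit 3113773213) (nat_lit 76) (nat_lit 5) (nat_lit 88) (nat_lit 5) (nat_lit 77) (nat_lit 5) (nat_lit 329) (nat_lit 304) (nat_lit 255)))) (XT.nd (nat_lit 94) (nat_lit 672) (nat_lit 0) (XT.lf (nat_lit 0) (nat_lit 3701733933) (nat_lit 1008) (nat_lit 134871316) (nat_lit 84) (nat_lit 5236324311) (nat_lit 76) (nat_lit 5) (nat_lit 88) (nat_lit 5) (nat_lit 77) (nat_lit 5) (nat_lit 330) (nat_lit 304) (nat_lit 254)) (XT.nd (nat_lit 94) (nat_lit 0) (nat_lit 0) (XT.lf (nat_lit 0) (nat_lit 3291038561) (nat_lit 672) (nat_lit 1758219374) (nat_lit 756) (nat_lit 4171220957) (nat_lit 68) (nat_lit 5) (nat_lit 76) (nat_lit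 5) (nat_lit 77) (nat_lit 5) (nat_lit 331) (nat_lit 304) (nat_lit 253)) (XT.lf (nat_lit 0) (nat_lit 6411236758) (nat_lit 756) (nat_lit 2581006811) (nat_lit 84) (nat_lit 381448900) (nat_lit 68) (nat_lit 5) (nat_lit 77) (nat_lit 5) (nat_lit 69) (nat_lit 5) (nat_lit 332) (nat_lit 304) (nat_lit 252))))) (XT.nd (nat_lit 282) (nat_lit 840) (nat_lit 0) (XT.nd (nat_lit 94) (nat_lit 84) (nat_lit 0) (XT.lf (nat_lit 0) (nat_lit 840470872) (nat_lit 504) (nat_lit 6969709117) (nat_lit 588) (nat_lit 1721874675) (nat_lit 62) (nat_lit 5) (nat_lit 68) (nat_lit 5) (nat_lit 69) (nat_lit 5) (nat_lit 333) (nat_lit 304) (nat_lit 251)) (XT.nd (nat_lit 94) (nat_lit 84) (nat_lit 0) (XT.lf (nat_lit 0) (nat_lit 4393322681) (nat_lit 504) (nat_lit 4855188960) (nat_lit 588) (nat_lit 447166719) (nat_lit 62) (nat_lit 5) (nat_lit 68) (nat_lit 5) (nat_lit 69) (nat_lit 5) (nat_lit 334) (nat_lit 304) (nat_lit 250)) (XT.lf (nat_lit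 0) (nat_lit 819074057) (nat_lit 588) (nat_lit 1846029054) (nat_lit 84) (nat_lit 7200165943) (nat_lit 61) (nat_lit 5) (nat_lit 68) (nat_lit 5) (nat_lit 62) (nat_lit 5) (nat_lit 335) (nat_lit 304) (nat_lit 249)))) (XT.nd (nat_lit 188) (nat_lit 420) (nat_lit 0) (XT.nd (nat_lit 94) (nat_lit 0) (nat_lit 0) (XT.lf (nat_lit 0) (nat_lit 1719021420) (nat_lit 420) (nat_lit 383714708) (nat_lit 504) (nat_lit 7937836897) (nat_lit 56) (nat_lit 5) (nat_lit 61) (nat_lit 5) (nat_lit 62) (nat_lit 5) (nat_lit 336) (nat_lit 304) (nat_lit 248)) (XT.lf (nat_lit 0) (nat_lit 3436205980) (nat_lit 504) (nat_lit 4836018527) (nat_lit 84) (nat_lit 1948979086) (nat_lit 56) (nat_lit 5) (nat_lit 62) (nat_lit 5) (nat_lit 57) (nat_lit 5) (nat_lit 337) (nat_lit 304) (nat_lit 247))) (XT.nd (nat_lit 94) (nat_lit 420) (nat_lit 0) (XT.lf (nat_lit 0) (nat_lit 4786830896) (nat_lit 504) (nat_lit 1274781246) (nat_lit 84) (nat_lit 4346767747)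 (nat_lit 56) (nat_lit 5) (nat_lit 62) (nat_lit 5) (nat_lit 57) (nat_lit 5) (nat_lit 338) (nat_lit 304) (nat_lit 246)) (XT.lf (nat_lit 0) (nat_lit 2418003562) (nat_lit 420) (nat_lit 3758046636) (nat_lit 504) (nat_lit 4425600592) (nat_lit 51) (nat_lit 5) (nat_lit 56) (nat_lit 5) (nat_lit 57) (nat_lit 5) (nat_lit 339) (nat_lit 304) (nat_lit 245)))))) (XT.nd (nat_lit 52452) (nat_lit 0) (nat_lit 6804) (XT.nd (nat_lit 282) (nat_lit 504) (nat_lit 0) (XT.nd (nat_lit 94) (nat_lit 336) (nat_lit 0) (XT.lf (nat_lit 0) (nat_lit 6225000288) (nat_lit 420) (nat_lit 1369928229) (nat_lit 504) (nat_lit 3206585066) (nat_lit 51) (nat_lit 5) (nat_lit 56) (nat_lit 5) (nat_lit 57) (nat_lit 5) (nat_lit 340) (nat_lit 304) (nat_lit 244)) (XT.nd (nat_lit 94) (nat_lit 336) (nat_lit 0) (XT.lf (nat_lit 0) (nat_lit 9042711812) (nat_lit 504) (nat_lit 895838746) (nat_lit 84) (nat_lit 1069668375) (nat_lit 51) (nat_lit 5) (nat_lit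 57) (nat_lit 5) (nat_lit 52) (nat_lit 5) (nat_lit 341) (nat_lit 304) (nat_lit 243)) (XT.lf (nat_lit 0) (nat_lit 2917077858) (nat_lit 336) (nat_lit 7636111434) (nat_lit 420) (nat_lit 667764590) (nat_lit 47) (nat_lit 5) (nat_lit 51) (nat_lit 5) (nat_lit 52) (nat_lit 5) (nat_lit 342) (nat_lit 304) (nat_lit 242)))) (XT.nd (nat_lit 94) (nat_lit 420) (nat_lit 0) (XT.lf (nat_lit 0) (nat_lit 641092160) (nat_lit 420) (nat_lit 4606581452) (nat_lit 84) (nat_lit 6193051518) (nat_lit 46) (nat_lit 5) (nat_lit 51) (nat_lit 5) (nat_lit 47) (nat_lit 5) (nat_lit 343) (nat_lit 304) (nat_lit 241)) (XT.nd (nat_lit 94) (nat_lit 420) (nat_lit 0) (XT.lf (nat_lit 0) (nat_lit 1952346941) (nat_lit 420) (nat_lit 827717397) (nat_lit 84) (nat_lit 8887945408) (nat_lit 46) (nat_lit 5) (nat_lit 51) (nat_lit 5) (nat_lit 47) (nat_lit 5) (nat_lit 344) (nat_lit 304) (nat_lit 240)) (XT.lf (nat_lit 0) (nat_lit 3105430241) (nat_lit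 420) (nat_lit 206051959) (nat_lit 504) (nat_lit 8590787745) (nat_lit 41) (nat_lit 5) (nat_lit 46) (nat_lit 5) (nat_lit 47) (nat_lit 5) (nat_lit 345) (nat_lit 304) (nat_lit 239))))) (XT.nd (nat_lit 282) (nat_lit 504) (nat_lit 0) (XT.nd (nat_lit 94) (nat_lit 0) (nat_lit 0) (XT.lf (nat_lit 0) (nat_lit 512786502) (nat_lit 588) (nat_lit 1455745913) (nat_lit 588) (nat_lit 1455745913) (nat_lit 128) (nat_lit 3) (nat_lit 135) (nat_lit 3) (nat_lit 135) (nat_lit 5) (nat_lit 305) (nat_lit 305) (nat_lit 278)) (XT.nd (nat_lit 94) (nat_lit 0) (nat_lit 0) (XT.lf (nat_lit 0) (nat_lit 2518121052) (nat_lit 588) (nat_lit 545308039) (nat_lit 588) (nat_lit 3831306533) (nat_lit 128) (nat_lit 3) (nat_lit 135) (nat_lit 3) (nat_lit 135) (nat_lit 5) (nat_lit 306) (nat_lit 305) (nat_lit 277)) (XT.lf (nat_lit 84) (nat_lit 1901580477) (nat_lit 0) (nat_lit 2114719044) (nat_lit 588) (nat_lit 2927878507) (nat_lit 129) (nat_lit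 5) (nat_lit 128) (nat_lit 3) (nat_lit 135) (nat_lit 5) (nat_lit 307) (nat_lit 305) (nat_lit 276)))) (XT.nd (nat_lit 188) (nat_lit 504) (nat_lit 0) (XT.nd (nat_lit 94) (nat_lit 0) (nat_lit 0) (XT.lf (nat_lit 84) (nat_lit 4405236644) (nat_lit 0) (nat_lit 1103359398) (nat_lit 588) (nat_lit 1488734090) (nat_lit 129) (nat_lit 5) (nat_lit 128) (nat_lit 3) (nat_lit 135) (nat_lit 5) (nat_lit 308) (nat_lit 305) (nat_lit 275)) (XT.lf (nat_lit 84) (nat_lit 6956781480) (nat_lit 0) (nat_lit 34099357) (nat_lit 588) (nat_lit 63531783) (nat_lit 129) (nat_lit 5) (nat_lit 128) (nat_lit 3) (nat_lit 135) (nat_lit 5) (nat_lit 309) (nat_lit 305) (nat_lit 274))) (XT.nd (nat_lit 94) (nat_lit 0) (nat_lit 0) (XT.lf (nat_lit 0) (nat_lit 1357716865) (nat_lit 588) (nat_lit 4645850868) (nat_lit 672) (nat_lit 1110385042) (nat_lit 122) (nat_lit 5) (nat_lit 129) (nat_lit 5) (nat_lit 130) (nat_lit 5) (nat_lit 310) (nat_lit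 305) (nat_lit 273)) (XT.lf (nat_lit 0) (nat_lit 2769045202) (nat_lit 588) (nat_lit 2093459366) (nat_lit 672) (nat_lit 2314937507) (nat_lit 122) (nat_lit 5) (nat_lit 129) (nat_lit 5) (nat_lit 130) (nat_lit 5) (nat_lit 311) (nat_lit 305) (nat_lit 272))))))) (XT.nd (nat_lit 1222) (nat_lit 3528) (nat_lit 0) (XT.nd (nat_lit 564) (nat_lit 1428) (nat_lit 0) (XT.nd (nat_lit 282) (nat_lit 588) (nat_lit 0) (XT.nd (nat_lit 94) (nat_lit 0) (nat_lit 0) (XT.lf (nat_lit 84) (nat_lit 516863982) (nat_lit 0) (nat_lit 3659975323) (nat_lit 672) (nat_lit 3068002424) (nat_lit 123) (nat_lit 5) (nat_lit 122) (nat_lit 5) (nat_lit 130) (nat_lit 5) (nat_lit 312) (nat_lit 305) (nat_lit 271)) (XT.nd (nat_lit 94) (nat_lit 0) (nat_lit 0) (XT.lf (nat_lit 84) (nat_lit 3221201628) (nat_lit 0) (nat_lit 2377777635) (nat_lit 672) (nat_lit 1716721694) (nat_lit 123) (nat_lit 5) (nat_lit 122) (nat_lit 5) (nat_lit 130) (nat_lit 5)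 (nat_lit 313) (nat_lit 305) (nat_lit 270)) (XT.lf (nat_lit 84) (nat_lit 5979028480) (nat_lit 0) (nat_lit 1036567783) (nat_lit 672) (nat_lit 375146572) (nat_lit 123) (nat_lit 5) (nat_lit 122) (nat_lit 5) (nat_lit 130) (nat_lit 5) (nat_lit 314) (nat_lit 305) (nat_lit 269)))) (XT.nd (nat_lit 94) (nat_lit 0) (nat_lit 0) (XT.lf (nat_lit 0) (nat_lit 955822225) (nat_lit 672) (nat_lit 6132803324) (nat_lit 756) (nat_lit 380585513) (nat_lit 115) (nat_lit 5) (nat_lit 123) (nat_lit 5) (nat_lit 124) (nat_lit 5) (nat_lit 315) (nat_lit 305) (nat_lit 268)) (XT.nd (nat_lit 94) (nat_lit 0) (nat_lit 0) (XT.lf (nat_lit 0) (nat_lit 2298053563) (nat_lit 672) (nat_lit 3397209711) (nat_lit 756) (nat_lit 1855826843) (nat_lit 115) (nat_lit 5) (nat_lit 123) (nat_lit 5) (nat_lit 124) (nat_lit 5) (nat_lit 316) (nat_lit 305) (nat_lit 267)) (XT.lf (nat_lit 0) (nat_lit 3635635510) (nat_lit 672) (nat_lit 608446739) (nat_lit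 756) (nat_lit 3393255799) (nat_lit 115) (nat_lit 5) (nat_lit 123) (nat_lit 5) (nat_lit 124) (nat_lit 5) (nat_lit 317) (nat_lit 305) (nat_lit 266))))) (XT.nd (nat_lit 282) (nat_lit 840) (nat_lit 0) (XT.nd (nat_lit 94) (nat_lit 588) (nat_lit 0) (XT.lf (nat_lit 84) (nat_lit 2282063503) (nat_lit 0) (nat_lit 2710389681) (nat_lit 756) (nat_lit 2734880274) (nat_lit 116) (nat_lit 5) (nat_lit 115) (nat_lit 5) (nat_lit 124) (nat_lit 5) (nat_lit 318) (nat_lit 305) (nat_lit 265)) (XT.nd (nat_lit 94) (nat_lit 588) (nat_lit 0) (XT.lf (nat_lit 84) (nat_lit 5244706077) (nat_lit 0) (nat_lit 1109157180) (nat_lit 756) (nat_lit 1467790123) (nat_lit 116) (nat_lit 5) (nat_lit 115) (nat_lit 5) (nat_lit 124) (nat_lit 5) (nat_lit 319) (nat_lit 305) (nat_lit 264)) (XT.lf (nat_lit 0) (nat_lit 350717794) (nat_lit 672) (nat_lit 7373239356) (nat_lit 756) (nat_lit 196341087) (nat_lit 108) (nat_lit 5) (nat_lit 116) (nat_lit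 5) (nat_lit 117) (nat_lit 5) (nat_lit 320) (nat_lit 305) (nat_lit 263)))) (XT.nd (nat_lit 188) (nat_lit 756) (nat_lit 0) (XT.nd (nat_lit 94) (nat_lit 0) (nat_lit 0) (XT.lf (nat_lit 0) (nat_lit 1088411605) (nat_lit 756) (nat_lit 4652231128) (nat_lit 84) (nat_lit 2281469412) (nat_lit 107) (nat_lit 5) (nat_lit 116) (nat_lit 5) (nat_lit 108) (nat_lit 5) (nat_lit 321) (nat_lit 305) (nat_lit 262)) (XT.lf (nat_lit 0) (nat_lit 2368007900) (nat_lit 756) (nat_lit 1677644084) (nat_lit 84) (nat_lit 4082966339) (nat_lit 107) (nat_lit 5) (nat_lit 116) (nat_lit 5) (nat_lit 108) (nat_lit 5) (nat_lit 322) (nat_lit 305) (nat_lit 261))) (XT.nd (nat_lit 94) (nat_lit 0) (nat_lit 0) (XT.lf (nat_lit 0) (nat_lit 1386842835) (nat_lit 756) (nat_lit 2274511167) (nat_lit 840) (nat_lit 4578195934) (nat_lit 98) (nat_lit 5) (nat_lit 107) (nat_lit 5) (nat_lit 108) (nat_lit 5) (nat_lit 323) (nat_lit 305) (nat_lit 260)) (XT.lf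 (nat_lit 0) (nat_lit 4551946201) (nat_lit 756) (nat_lit 421579332) (nat_lit 840) (nat_lit 3381364880) (nat_lit 98) (nat_lit 5) (nat_lit 107) (nat_lit 5) (nat_lit 108) (nat_lit 5) (nat_lit 324) (nat_lit 305) (nat_lit 259)))))) (XT.nd (nat_lit 658) (nat_lit 1008) (nat_lit 0) (XT.nd (nat_lit 282) (nat_lit 1596) (nat_lit 0) (XT.nd (nat_lit 94) (nat_lit 924) (nat_lit 0) (XT.lf (nat_lit 0) (nat_lit 6303614929) (nat_lit 840) (nat_lit 704007358) (nat_lit 84) (nat_lit 1467191026) (nat_lit 98) (nat_lit 5) (nat_lit 108) (nat_lit 5) (nat_lit 99) (nat_lit 5) (nat_lit 325) (nat_lit 305) (nat_lit 258)) (XT.nd (nat_lit 94) (nat_lit 84) (nat_lit 0) (XT.lf (nat_lit 0) (nat_lit 2507526234) (nat_lit 840) (nat_lit 5160197528) (nat_lit 924) (nat_lit 931245939) (nat_lit 88) (nat_lit 5) (nat_lit 98) (nat_lit 5) (nat_lit 99) (nat_lit 5) (nat_lit 326) (nat_lit 305) (nat_lit 257)) (XT.lf (nat_lit 0) (nat_lit 311335505)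 (nat_lit 924) (nat_lit 2927123285) (nat_lit 84) (nat_lit 5489577622) (nat_lit 87) (nat_lit 5) (nat_lit 98) (nat_lit 5) (nat_lit 88) (nat_lit 5) (nat_lit 327) (nat_lit 305) (nat_lit 256)))) (XT.nd (nat_lit 188) (nat_lit 672) (nat_lit 0) (XT.nd (nat_lit 94) (nat_lit 0) (nat_lit 0) (XT.lf (nat_lit 0) (nat_lit 302373333) (nat_lit 924) (nat_lit 1238569801) (nat_lit 1008) (nat_lit 7321129124) (nat_lit 76) (nat_lit 5) (nat_lit 87) (nat_lit 5) (nat_lit 88) (nat_lit 5) (nat_lit 328) (nat_lit 305) (nat_lit 255)) (XT.lf (nat_lit 0) (nat_lit 2813371262) (nat_lit 1008) (nat_lit 5344320843) (nat_lit 84) (nat_lit 842683997) (nat_lit 76) (nat_lit 5) (nat_lit 88) (nat_lit 5) (nat_lit 77) (nat_lit 5) (nat_lit 329) (nat_lit 305) (nat_lit 254))) (XT.nd (nat_lit 94) (nat_lit 672) (nat_lit 0) (XT.lf (nat_lit 0) (nat_lit 4104614173) (nat_lit 1008) (nat_lit 2071577455) (nat_lit 84) (nat_lit 2967666171) (nat_lit 76)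 (nat_lit 5) (nat_lit 88) (nat_lit 5) (nat_lit 77) (nat_lit 5) (nat_lit 330) (nat_lit 305) (nat_lit 253)) (XT.lf (nat_lit 0) (nat_lit 1300061892) (nat_lit 672) (nat_lit 4116423559) (nat_lit 756) (nat_lit 3876146729) (nat_lit 68) (nat_lit 5) (nat_lit 76) (nat_lit 5) (nat_lit 77) (nat_lit 5) (nat_lit 331) (nat_lit 305) (nat_lit 252))))) (XT.nd (nat_lit 282) (nat_lit 504) (nat_lit 0) (XT.nd (nat_lit 94) (nat_lit 504) (nat_lit 0) (XT.lf (nat_lit 0) (nat_lit 4791677072) (nat_lit 672) (nat_lit 1967362511) (nat_lit 756) (nat_lit 2687524554) (nat_lit 68) (nat_lit 5) (nat_lit 76) (nat_lit 5) (nat_lit 77) (nat_lit 5) (nat_lit 332) (nat_lit 305) (nat_lit 251)) (XT.nd (nat_lit 94) (nat_lit 504) (nat_lit 0) (XT.lf (nat_lit 0) (nat_lit 8115048745) (nat_lit 756) (nat_lit 1245014194) (nat_lit 84) (nat_lit 246307066) (nat_lit 68) (nat_lit 5) (nat_lit 77) (nat_lit 5) (nat_lit 69) (nat_lit 5) (nat_lit 333) (nat_lit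 305) (nat_lit 250)) (XT.lf (nat_lit 0) (nat_lit 2268193530) (nat_lit 504) (nat_lit 7257816310) (nat_lit 588) (nat_lit 244941680) (nat_lit 62) (nat_lit 5) (nat_lit 68) (nat_lit 5) (nat_lit 69) (nat_lit 5) (nat_lit 334) (nat_lit 305) (nat_lit 249)))) (XT.nd (nat_lit 188) (nat_lit 420) (nat_lit 0) (XT.nd (nat_lit 94) (nat_lit 0) (nat_lit 0) (XT.lf (nat_lit 0) (nat_lit 1002652398) (nat_lit 588) (nat_lit 4062461718) (nat_lit 84) (nat_lit 4875920505) (nat_lit 61) (nat_lit 5) (nat_lit 68) (nat_lit 5) (nat_lit 62) (nat_lit 5) (nat_lit 335) (nat_lit 305) (nat_lit 248)) (XT.lf (nat_lit 0) (nat_lit 2255127409) (nat_lit 588) (nat_lit 545648269) (nat_lit 84) (nat_lit 7316629474) (nat_lit 61) (nat_lit 5) (nat_lit 68) (nat_lit 5) (nat_lit 62) (nat_lit 5) (nat_lit 336) (nat_lit 305) (nat_lit 247))) (XT.nd (nat_lit 94) (nat_lit 0) (nat_lit 0) (XT.lf (nat_lit 0) (nat_lit 3116174211) (nat_lit 420) (nat_lit 433324443)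 (nat_lit 504) (nat_lit 6749845884) (nat_lit 56) (nat_lit 5) (nat_lit 61) (nat_lit 5) (nat_lit 62) (nat_lit 5) (nat_lit 337) (nat_lit 305) (nat_lit 246)) (XT.lf (nat_lit 0) (nat_lit 4882402054) (nat_lit 504) (nat_lit 3631208128) (nat_lit 84) (nat_lit 1973553874) (nat_lit 56) (nat_lit 5) (nat_lit 62) (nat_lit 5) (nat_lit 57) (nat_lit 5) (nat_lit 338) (nat_lit 305) (nat_lit 245))))))))
noncomputable def xc21 : XT := (XT.nd (nat_lit 54520) (nat_lit 0) (nat_lit 420) (XT.nd (nat_lit 53204) (nat_lit 0) (nat_lit 4788) (XT.nd (nat_lit 564) (nat_lit 420) (nat_lit 0) (XT.nd (nat_lit 282) (nat_lit 420) (nat_lit 0) (XT.nd (nat_lit 94) (nat_lit 420) (nat_lit 0) (XT.lf (nat_lit 0) (nat_lit 6234615175) (nat_lit 504) (nat_lit 306280) (nat_lit 84) (nat_lit 4446751724) (nat_lit 56) (nat_lit 5) (nat_lit 62) (nat_lit 5) (nat_lit 57) (nat_lit 5) (nat_lit 339) (nat_lit 305) (nat_lit 244)) (XT.nd (nat_lit 94) (nat_lit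 0) (nat_lit 0) (XT.lf (nat_lit 0) (nat_lit 3793651857) (nat_lit 420) (nat_lit 3847081428) (nat_lit 504) (nat_lit 3241286545) (nat_lit 51) (nat_lit 5) (nat_lit 56) (nat_lit 5) (nat_lit 57) (nat_lit 5) (nat_lit 340) (nat_lit 305) (nat_lit 243)) (XT.lf (nat_lit 0) (nat_lit 7679556465) (nat_lit 420) (nat_lit 1385757155) (nat_lit 504) (nat_lit 2024216492) (nat_lit 51) (nat_lit 5) (nat_lit 56) (nat_lit 5) (nat_lit 57) (nat_lit 5) (nat_lit 341) (nat_lit 305) (nat_lit 242)))) (XT.nd (nat_lit 94) (nat_lit 84) (nat_lit 0) (XT.lf (nat_lit 0) (nat_lit 352302424) (nat_lit 336) (nat_lit 10172294854) (nat_lit 420) (nat_lit 779337854) (nat_lit 47) (nat_lit 5) (nat_lit 51) (nat_lit 5) (nat_lit 52) (nat_lit 5) (nat_lit 342) (nat_lit 305) (nat_lit 241)) (XT.nd (nat_lit 94) (nat_lit 0) (nat_lit 0) (XT.lf (nat_lit 0) (nat_lit 519799597) (nat_lit 420) (nat_lit 7266139729) (nat_lit 84) (nat_lit 3738250493) (nat_lit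 46) (nat_lit 5) (nat_lit 51) (nat_lit 5) (nat_lit 47) (nat_lit 5) (nat_lit 343) (nat_lit 305) (nat_lit 240)) (XT.lf (nat_lit 0) (nat_lit 1819446957) (nat_lit 420) (nat_lit 3499795960) (nat_lit 84) (nat_lit 6432667143) (nat_lit 46) (nat_lit 5) (nat_lit 51) (nat_lit 5) (nat_lit 47) (nat_lit 5) (nat_lit 344) (nat_lit 305) (nat_lit 239))))) (XT.nd (nat_lit 52264) (nat_lit 0) (nat_lit 6720) (XT.nd (nat_lit 52076) (nat_lit 0) (nat_lit 7308) (XT.lf (nat_lit 0) (nat_lit 366014733) (nat_lit 420) (nat_lit 2774133731) (nat_lit 504) (nat_lit 8847286756) (nat_lit 41) (nat_lit 5) (nat_lit 46) (nat_lit 5) (nat_lit 47) (nat_lit 5) (nat_lit 345) (nat_lit 305) (nat_lit 238)) (XT.nd (nat_lit 94) (nat_lit 0) (nat_lit 0) (XT.lf (nat_lit 0) (nat_lit 1990685982) (nat_lit 588) (nat_lit 740183129) (nat_lit 588) (nat_lit 740183129) (nat_lit 128) (nat_lit 3) (nat_lit 135) (nat_lit 3) (nat_lit 135) (nat_lit 5) (nat_lit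 306) (nat_lit 306) (nat_lit 276)) (XT.lf (nat_lit 84) (nat_lit 932206355) (nat_lit 0) (nat_lit 4509311536) (nat_lit 588) (nat_lit 1551481218) (nat_lit 129) (nat_lit 5) (nat_lit 128) (nat_lit 3) (nat_lit 135) (nat_lit 5) (nat_lit 307) (nat_lit 306) (nat_lit 275)))) (XT.nd (nat_lit 188) (nat_lit 0) (nat_lit 0) (XT.nd (nat_lit 94) (nat_lit 588) (nat_lit 0) (XT.lf (nat_lit 84) (nat_lit 3421227036) (nat_lit 0) (nat_lit 3484880376) (nat_lit 588) (nat_lit 141167715) (nat_lit 129) (nat_lit 5) (nat_lit 128) (nat_lit 3) (nat_lit 135) (nat_lit 5) (nat_lit 308) (nat_lit 306) (nat_lit 274)) (XT.lf (nat_lit 0) (nat_lit 1230763539) (nat_lit 588) (nat_lit 1159331666) (nat_lit 672) (nat_lit 4714966257) (nat_lit 121) (nat_lit 5) (nat_lit 128) (nat_lit 3) (nat_lit 129) (nat_lit 5) (nat_lit 309) (nat_lit 306) (nat_lit 273))) (XT.nd (nat_lit 94) (nat_lit 0) (nat_lit 84) (XT.lf (nat_lit 84) (nat_lit 1380661383)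 (nat_lit 0) (nat_lit 1221349870) (nat_lit 672) (nat_lit 4564322979) (nat_lit 122) (nat_lit 5) (nat_lit 121) (nat_lit 5) (nat_lit 129) (nat_lit 5) (nat_lit 310) (nat_lit 306) (nat_lit 272)) (XT.lf (nat_lit 0) (nat_lit 3975417265) (nat_lit 588) (nat_lit 3236727172) (nat_lit 672) (nat_lit 19089222) (nat_lit 122) (nat_lit 5) (nat_lit 129) (nat_lit 5) (nat_lit 130) (nat_lit 5) (nat_lit 311) (nat_lit 306) (nat_lit 271)))))) (XT.nd (nat_lit 658) (nat_lit 1344) (nat_lit 0) (XT.nd (nat_lit 282) (nat_lit 0) (nat_lit 0) (XT.nd (nat_lit 94) (nat_lit 672) (nat_lit 0) (XT.lf (nat_lit 0) (nat_lit 5353053573) (nat_lit 588) (nat_lit 651911337) (nat_lit 672) (nat_lit 1294830776) (nat_lit 122) (nat_lit 5) (nat_lit 129) (nat_lit 5) (nat_lit 130) (nat_lit 5) (nat_lit 312) (nat_lit 306) (nat_lit 270)) (XT.nd (nat_lit 94) (nat_lit 672) (nat_lit 0) (XT.lf (nat_lit 84) (nat_lit 2024080629) (nat_lit 0) (nat_lit 4720086839)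 (nat_lit 672) (nat_lit 627669896) (nat_lit 123) (nat_lit 5) (nat_lit 122) (nat_lit 5) (nat_lit 130) (nat_lit 5) (nat_lit 313) (nat_lit 306) (nat_lit 269)) (XT.lf (nat_lit 0) (nat_lit 675378015) (nat_lit 672) (nat_lit 2687249604) (nat_lit 756) (nat_lit 4084988105) (nat_lit 114) (nat_lit 5) (nat_lit 122) (nat_lit 5) (nat_lit 123) (nat_lit 5) (nat_lit 314) (nat_lit 306) (nat_lit 268)))) (XT.nd (nat_lit 188) (nat_lit 0) (nat_lit 84) (XT.nd (nat_lit 94) (nat_lit 0) (nat_lit 0) (XT.lf (nat_lit 84) (nat_lit 19777409) (nat_lit 0) (nat_lit 1938639743) (nat_lit 756) (nat_lit 5569004276) (nat_lit 115) (nat_lit 5) (nat_lit 114) (nat_lit 5) (nat_lit 123) (nat_lit 5) (nat_lit 315) (nat_lit 306) (nat_lit 267)) (XT.lf (nat_lit 84) (nat_lit 2838058881) (nat_lit 0) (nat_lit 424795841) (nat_lit 756) (nat_lit 4347812646) (nat_lit 115) (nat_lit 5) (nat_lit 114) (nat_lit 5) (nat_lit 123) (nat_lit 5) (nat_lit 316)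 (nat_lit 306) (nat_lit 266))) (XT.nd (nat_lit 94) (nat_lit 0) (nat_lit 0) (XT.lf (nat_lit 0) (nat_lit 4574131226) (nat_lit 672) (nat_lit 1994738762) (nat_lit 756) (nat_lit 1129050185) (nat_lit 115) (nat_lit 5) (nat_lit 123) (nat_lit 5) (nat_lit 124) (nat_lit 5) (nat_lit 317) (nat_lit 306) (nat_lit 265)) (XT.lf (nat_lit 84) (nat_lit 852312146) (nat_lit 0) (nat_lit 5043026270) (nat_lit 756) (nat_lit 1893864803) (nat_lit 116) (nat_lit 5) (nat_lit 115) (nat_lit 5) (nat_lit 124) (nat_lit 5) (nat_lit 318) (nat_lit 306) (nat_lit 264))))) (XT.nd (nat_lit 282) (nat_lit 672) (nat_lit 0) (XT.nd (nat_lit 94) (nat_lit 756) (nat_lit 0) (XT.lf (nat_lit 84) (nat_lit 3800450039) (nat_lit 0) (nat_lit 3435371660) (nat_lit 756) (nat_lit 648528362) (nat_lit 116) (nat_lit 5) (nat_lit 115) (nat_lit 5) (nat_lit 124) (nat_lit 5) (nat_lit 319) (nat_lit 306) (nat_lit 263)) (XT.nd (nat_lit 94) (nat_lit 0) (nat_lit 84)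 (XT.lf (nat_lit 0) (nat_lit 580621409) (nat_lit 756) (nat_lit 1178546730) (nat_lit 840) (nat_lit 6224725061) (nat_lit 106) (nat_lit 5) (nat_lit 115) (nat_lit 5) (nat_lit 116) (nat_lit 5) (nat_lit 320) (nat_lit 306) (nat_lit 262)) (XT.lf (nat_lit 0) (nat_lit 1811772885) (nat_lit 756) (nat_lit 6269426315) (nat_lit 84) (nat_lit 6149129) (nat_lit 107) (nat_lit 5) (nat_lit 116) (nat_lit 5) (nat_lit 108) (nat_lit 5) (nat_lit 321) (nat_lit 306) (nat_lit 261)))) (XT.nd (nat_lit 188) (nat_lit 756) (nat_lit 0) (XT.nd (nat_lit 94) (nat_lit 0) (nat_lit 0) (XT.lf (nat_lit 0) (nat_lit 3071834305) (nat_lit 756) (nat_lit 3309735439) (nat_lit 84) (nat_lit 1813048048) (nat_lit 107) (nat_lit 5) (nat_lit 116) (nat_lit 5) (nat_lit 108) (nat_lit 5) (nat_lit 322) (nat_lit 306) (nat_lit 260)) (XT.lf (nat_lit 0) (nat_lit 4332475252) (nat_lit 756) (nat_lit 287638583) (nat_lit 84) (nat_lit 3686602392) (nat_lit 107) (nat_lit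 5) (nat_lit 116) (nat_lit 5) (nat_lit 108) (nat_lit 5) (nat_lit 323) (nat_lit 306) (nat_lit 259))) (XT.nd (nat_lit 94) (nat_lit 0) (nat_lit 0) (XT.lf (nat_lit 0) (nat_lit 2857248349) (nat_lit 756) (nat_lit 2765966684) (nat_lit 840) (nat_lit 2799654418) (nat_lit 98) (nat_lit 5) (nat_lit 107) (nat_lit 5) (nat_lit 108) (nat_lit 5) (nat_lit 324) (nat_lit 306) (nat_lit 258)) (XT.lf (nat_lit 0) (nat_lit 6077550604) (nat_lit 756) (nat_lit 842937012) (nat_lit 840) (nat_lit 1623465959) (nat_lit 98) (nat_lit 5) (nat_lit 107) (nat_lit 5) (nat_lit 108) (nat_lit 5) (nat_lit 325) (nat_lit 306) (nat_lit 257))))))) (XT.nd (nat_lit 1222) (nat_lit 840) (nat_lit 0) (XT.nd (nat_lit 564) (nat_lit 1680) (nat_lit 0) (XT.nd (nat_lit 282) (nat_lit 924) (nat_lit 0) (XT.nd (nat_lit 94) (nat_lit 84) (nat_lit 0) (XT.lf (nat_lit 0) (nat_lit 702960784) (nat_lit 840) (nat_lit 7537988759) (nat_lit 924) (nat_lit 428653049)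 (nat_lit 88) (nat_lit 5) (nat_lit 98) (nat_lit 5) (nat_lit 99) (nat_lit 5) (nat_lit 326) (nat_lit 306) (nat_lit 256)) (XT.nd (nat_lit 94) (nat_lit 0) (nat_lit 0) (XT.lf (nat_lit 0) (nat_lit 786495891) (nat_lit 924) (nat_lit 4821824979) (nat_lit 84) (nat_lit 3190861679) (nat_lit 87) (nat_lit 5) (nat_lit 98) (nat_lit 5) (nat_lit 88) (nat_lit 5) (nat_lit 327) (nat_lit 306) (nat_lit 255)) (XT.lf (nat_lit 0) (nat_lit 1996317930) (nat_lit 924) (nat_lit 1612501565) (nat_lit 84) (nat_lit 5325139614) (nat_lit 87) (nat_lit 5) (nat_lit 98) (nat_lit 5) (nat_lit 88) (nat_lit 5) (nat_lit 328) (nat_lit 306) (nat_lit 254)))) (XT.nd (nat_lit 94) (nat_lit 0) (nat_lit 0) (XT.lf (nat_lit 0) (nat_lit 1702881415) (nat_lit 924) (nat_lit 1524588530) (nat_lit 1008) (nat_lit 5846196096) (nat_lit 76) (nat_lit 5) (nat_lit 87) (nat_lit 5) (nat_lit 88) (nat_lit 5) (nat_lit 329) (nat_lit 306) (nat_lit 253)) (XT.nd (nat_lit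 94) (nat_lit 0) (nat_lit 0) (XT.lf (nat_lit 0) (nat_lit 4487686762) (nat_lit 1008) (nat_lit 4097073919) (nat_lit 84) (nat_lit 633468683) (nat_lit 76) (nat_lit 5) (nat_lit 88) (nat_lit 5) (nat_lit 77) (nat_lit 5) (nat_lit 330) (nat_lit 306) (nat_lit 252)) (XT.lf (nat_lit 0) (nat_lit 5771237417) (nat_lit 1008) (nat_lit 765359043) (nat_lit 84) (nat_lit 2831401438) (nat_lit 76) (nat_lit 5) (nat_lit 88) (nat_lit 5) (nat_lit 77) (nat_lit 5) (nat_lit 331) (nat_lit 306) (nat_lit 251))))) (XT.nd (nat_lit 282) (nat_lit 504) (nat_lit 0) (XT.nd (nat_lit 94) (nat_lit 504) (nat_lit 0) (XT.lf (nat_lit 0) (nat_lit 2696926677) (nat_lit 672) (nat_lit 4394021377) (nat_lit 756) (nat_lit 2431802668) (nat_lit 68) (nat_lit 5) (nat_lit 76) (nat_lit 5) (nat_lit 77) (nat_lit 5) (nat_lit 332) (nat_lit 306) (nat_lit 250)) (XT.nd (nat_lit 94) (nat_lit 504) (nat_lit 0) (XT.lf (nat_lit 0) (nat_lit 6255992937) (nat_lit 672)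 (nat_lit 2173829592) (nat_lit 756) (nat_lit 1253374567) (nat_lit 68) (nat_lit 5) (nat_lit 76) (nat_lit 5) (nat_lit 77) (nat_lit 5) (nat_lit 333) (nat_lit 306) (nat_lit 249)) (XT.lf (nat_lit 0) (nat_lit 49519571) (nat_lit 504) (nat_lit 9733503076) (nat_lit 588) (nat_lit 66652597) (nat_lit 62) (nat_lit 5) (nat_lit 68) (nat_lit 5) (nat_lit 69) (nat_lit 5) (nat_lit 334) (nat_lit 306) (nat_lit 248)))) (XT.nd (nat_lit 188) (nat_lit 420) (nat_lit 0) (XT.nd (nat_lit 94) (nat_lit 0) (nat_lit 0) (XT.lf (nat_lit 0) (nat_lit 1163215199) (nat_lit 588) (nat_lit 6375230626) (nat_lit 84) (nat_lit 2481795612) (nat_lit 61) (nat_lit 5) (nat_lit 68) (nat_lit 5) (nat_lit 62) (nat_lit 5) (nat_lit 335) (nat_lit 306) (nat_lit 247)) (XT.lf (nat_lit 0) (nat_lit 2401981040) (nat_lit 588) (nat_lit 2871610751) (nat_lit 84) (nat_lit 4923541922) (nat_lit 61) (nat_lit 5) (nat_lit 68) (nat_lit 5) (nat_lit 62) (nat_lit 5) (nat_lit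 336) (nat_lit 306) (nat_lit 246))) (XT.nd (nat_lit 94) (nat_lit 0) (nat_lit 0) (XT.lf (nat_lit 0) (nat_lit 729325168) (nat_lit 420) (nat_lit 2930052315) (nat_lit 504) (nat_lit 6720935690) (nat_lit 56) (nat_lit 5) (nat_lit 61) (nat_lit 5) (nat_lit 62) (nat_lit 5) (nat_lit 337) (nat_lit 306) (nat_lit 245)) (XT.lf (nat_lit 0) (nat_lit 4477039425) (nat_lit 420) (nat_lit 482238182) (nat_lit 504) (nat_lit 5609969214) (nat_lit 56) (nat_lit 5) (nat_lit 61) (nat_lit 5) (nat_lit 62) (nat_lit 5) (nat_lit 338) (nat_lit 306) (nat_lit 244)))))) (XT.nd (nat_lit 52734) (nat_lit 0) (nat_lit 5712) (XT.nd (nat_lit 282) (nat_lit 420) (nat_lit 0) (XT.nd (nat_lit 94) (nat_lit 420) (nat_lit 0) (XT.lf (nat_lit 0) (nat_lit 6294079041) (nat_lit 504) (nat_lit 2469291404) (nat_lit 84) (nat_lit 2001013555) (nat_lit 56) (nat_lit 5) (nat_lit 62) (nat_lit 5) (nat_lit 57) (nat_lit 5) (nat_lit 339) (nat_lit 306) (nat_lit 243))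 (XT.nd (nat_lit 94) (nat_lit 0) (nat_lit 0) (XT.lf (nat_lit 0) (nat_lit 1261258899) (nat_lit 420) (nat_lit 6401568467) (nat_lit 504) (nat_lit 3303147387) (nat_lit 51) (nat_lit 5) (nat_lit 56) (nat_lit 5) (nat_lit 57) (nat_lit 5) (nat_lit 340) (nat_lit 306) (nat_lit 242)) (XT.lf (nat_lit 0) (nat_lit 5134903142) (nat_lit 420) (nat_lit 3940503077) (nat_lit 504) (nat_lit 2098533925) (nat_lit 51) (nat_lit 5) (nat_lit 56) (nat_lit 5) (nat_lit 57) (nat_lit 5) (nat_lit 341) (nat_lit 306) (nat_lit 241)))) (XT.nd (nat_lit 188) (nat_lit 0) (nat_lit 0) (XT.nd (nat_lit 94) (nat_lit 420) (nat_lit 0) (XT.lf (nat_lit 0) (nat_lit 9104478270) (nat_lit 420) (nat_lit 1403654642) (nat_lit 504) (nat_lit 881116084) (nat_lit 51) (nat_lit 5) (nat_lit 56) (nat_lit 5) (nat_lit 57) (nat_lit 5) (nat_lit 342) (nat_lit 306) (nat_lit 240)) (XT.lf (nat_lit 0) (nat_lit 371172292) (nat_lit 420) (nat_lit 10033573014) (nat_lit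 84) (nat_lit 1206381361) (nat_lit 46) (nat_lit 5) (nat_lit 51) (nat_lit 5) (nat_lit 47) (nat_lit 5) (nat_lit 343) (nat_lit 306) (nat_lit 239))) (XT.nd (nat_lit 94) (nat_lit 0) (nat_lit 0) (XT.lf (nat_lit 0) (nat_lit 1659561241) (nat_lit 420) (nat_lit 6279373071) (nat_lit 84) (nat_lit 3900335121) (nat_lit 46) (nat_lit 5) (nat_lit 51) (nat_lit 5) (nat_lit 47) (nat_lit 5) (nat_lit 344) (nat_lit 306) (nat_lit 238)) (XT.lf (nat_lit 0) (nat_lit 2965711943) (nat_lit 420) (nat_lit 2432715446) (nat_lit 84) (nat_lit 6676889584) (nat_lit 46) (nat_lit 5) (nat_lit 51) (nat_lit 5) (nat_lit 47) (nat_lit 5) (nat_lit 345) (nat_lit 306) (nat_lit 237))))) (XT.nd (nat_lit 282) (nat_lit 588) (nat_lit 0) (XT.nd (nat_lit 94) (nat_lit 588) (nat_lit 0) (XT.lf (nat_lit 0) (nat_lit 3427803400) (nat_lit 588) (nat_lit 47494925) (nat_lit 588) (nat_lit 47494925) (nat_lit 128) (nat_lit 3) (nat_lit 135) (nat_lit 3) (nat_lit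 135) (nat_lit 5) (nat_lit 307) (nat_lit 307) (nat_lit 274)) (XT.nd (nat_lit 94) (nat_lit 0) (nat_lit 0) (XT.lf (nat_lit 0) (nat_lit 1167374655) (nat_lit 588) (nat_lit 4734918855) (nat_lit 672) (nat_lit 1198322562) (nat_lit 121) (nat_lit 5) (nat_lit 128) (nat_lit 3) (nat_lit 129) (nat_lit 5) (nat_lit 308) (nat_lit 307) (nat_lit 273)) (XT.lf (nat_lit 0) (nat_lit 2509884957) (nat_lit 588) (nat_lit 2284159710) (nat_lit 672) (nat_lit 2365380012) (nat_lit 121) (nat_lit 5) (nat_lit 128) (nat_lit 3) (nat_lit 129) (nat_lit 5) (nat_lit 309) (nat_lit 307) (nat_lit 272)))) (XT.nd (nat_lit 188) (nat_lit 588) (nat_lit 0) (XT.nd (nat_lit 94) (nat_lit 0) (nat_lit 0) (XT.lf (nat_lit 84) (nat_lit 218295065) (nat_lit 0) (nat_lit 3625529157) (nat_lit 672) (nat_lit 3378264323) (nat_lit 122) (nat_lit 5) (nat_lit 121) (nat_lit 5) (nat_lit 129) (nat_lit 5) (nat_lit 310) (nat_lit 307) (nat_lit 271)) (XT.lf (nat_lit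 84) (nat_lit 2818363182) (nat_lit 0) (nat_lit 2373532591) (nat_lit 672) (nat_lit 2096105048) (nat_lit 122) (nat_lit 5) (nat_lit 121) (nat_lit 5) (nat_lit 129) (nat_lit 5) (nat_lit 311) (nat_lit 307) (nat_lit 270))) (XT.nd (nat_lit 94) (nat_lit 588) (nat_lit 0) (XT.lf (nat_lit 84) (nat_lit 5471501167) (nat_lit 0) (nat_lit 1060729922) (nat_lit 672) (nat_lit 825708733) (nat_lit 122) (nat_lit 5) (nat_lit 121) (nat_lit 5) (nat_lit 129) (nat_lit 5) (nat_lit 312) (nat_lit 307) (nat_lit 269)) (XT.lf (nat_lit 0) (nat_lit 436130815) (nat_lit 672) (nat_lit 6675639696) (nat_lit 756) (nat_lit 319732909) (nat_lit 114) (nat_lit 5) (nat_lit 122) (nat_lit 5) (nat_lit 123) (nat_lit 5) (nat_lit 313) (nat_lit 307) (nat_lit 268))))))))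
noncomputable def xc22 : XT := (XT.nd (nat_lit 2538) (nat_lit 840) (nat_lit 0) (XT.nd (nat_lit 1222) (nat_lit 3444) (nat_lit 0) (XT.nd (nat_lit 564) (nat_lit 756) (nat_lit 0) (XT.nd (nat_lit 282) (nat_lit 672) (nat_lit 0) (XT.nd (nat_lit 94) (nat_lit 0) (nat_lit 0) (XT.lf (nat_lit 0) (nat_lit 1703114915) (nat_lit 672) (nat_lit 4036098035) (nat_lit 756) (nat_lit 1768803085) (nat_lit 114) (nat_lit 5) (nat_lit 122) (nat_lit 5) (nat_lit 123) (nat_lit 5) (nat_lit 314) (nat_lit 307) (nat_lit 267)) (XT.nd (nat_lit 94) (nat_lit 0) (nat_lit 0) (XT.lf (nat_lit 0) (nat_lit 2963244315) (nat_lit 672) (nat_lit 1343765231) (nat_lit 756) (nat_lit 3281717672) (nat_lit 114) (nat_lit 5) (nat_lit 122) (nat_lit 5) (nat_lit 123) (nat_lit 5) (nat_lit 315) (nat_lit 307) (nat_lit 266)) (XT.lf (nat_lit 84) (nat_lit 1432734661) (nat_lit 0) (nat_lit 2799171832) (nat_lit 756) (nat_lit 3441365109) (nat_lit 115) (nat_lit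 5) (nat_lit 114) (nat_lit 5) (nat_lit 123) (nat_lit 5) (nat_lit 316) (nat_lit 307) (nat_lit 265)))) (XT.nd (nat_lit 94) (nat_lit 672) (nat_lit 0) (XT.lf (nat_lit 84) (nat_lit 4295916643) (nat_lit 0) (nat_lit 1214331395) (nat_lit 756) (nat_lit 2251481065) (nat_lit 115) (nat_lit 5) (nat_lit 114) (nat_lit 5) (nat_lit 123) (nat_lit 5) (nat_lit 317) (nat_lit 307) (nat_lit 264)) (XT.nd (nat_lit 94) (nat_lit 756) (nat_lit 0) (XT.lf (nat_lit 0) (nat_lit 6790170966) (nat_lit 672) (nat_lit 638099869) (nat_lit 756) (nat_lit 426199314) (nat_lit 115) (nat_lit 5) (nat_lit 123) (nat_lit 5) (nat_lit 124) (nat_lit 5) (nat_lit 318) (nat_lit 307) (nat_lit 263)) (XT.lf (nat_lit 0) (nat_lit 150188988) (nat_lit 756) (nat_lit 5669291016) (nat_lit 840) (nat_lit 2131092171) (nat_lit 106) (nat_lit 5) (nat_lit 115) (nat_lit 5) (nat_lit 116) (nat_lit 5) (nat_lit 319) (nat_lit 307) (nat_lit 262))))) (XT.nd (nat_lit 282)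 (nat_lit 756) (nat_lit 0) (XT.nd (nat_lit 94) (nat_lit 0) (nat_lit 0) (XT.lf (nat_lit 0) (nat_lit 1346219487) (nat_lit 756) (nat_lit 2784591671) (nat_lit 840) (nat_lit 3919888951) (nat_lit 106) (nat_lit 5) (nat_lit 115) (nat_lit 5) (nat_lit 116) (nat_lit 5) (nat_lit 320) (nat_lit 307) (nat_lit 261)) (XT.nd (nat_lit 94) (nat_lit 0) (nat_lit 0) (XT.lf (nat_lit 84) (nat_lit 164841184) (nat_lit 0) (nat_lit 2376618196) (nat_lit 840) (nat_lit 5613966820) (nat_lit 107) (nat_lit 5) (nat_lit 106) (nat_lit 5) (nat_lit 116) (nat_lit 5) (nat_lit 321) (nat_lit 307) (nat_lit 260)) (XT.lf (nat_lit 84) (nat_lit 3237008596) (nat_lit 0) (nat_lit 527218427) (nat_lit 840) (nat_lit 4499777708) (nat_lit 107) (nat_lit 5) (nat_lit 106) (nat_lit 5) (nat_lit 116) (nat_lit 5) (nat_lit 322) (nat_lit 307) (nat_lit 259)))) (XT.nd (nat_lit 188) (nat_lit 84) (nat_lit 0) (XT.nd (nat_lit 94) (nat_lit 756) (nat_lit 0) (XT.lf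 (nat_lit 0) (nat_lit 5001260108) (nat_lit 756) (nat_lit 2013683050) (nat_lit 84) (nat_lit 1362040216) (nat_lit 107) (nat_lit 5) (nat_lit 116) (nat_lit 5) (nat_lit 108) (nat_lit 5) (nat_lit 323) (nat_lit 307) (nat_lit 258)) (XT.lf (nat_lit 0) (nat_lit 1081840904) (nat_lit 756) (nat_lit 5174721515) (nat_lit 840) (nat_lit 2237816643) (nat_lit 98) (nat_lit 5) (nat_lit 107) (nat_lit 5) (nat_lit 108) (nat_lit 5) (nat_lit 324) (nat_lit 307) (nat_lit 257))) (XT.nd (nat_lit 94) (nat_lit 84) (nat_lit 0) (XT.lf (nat_lit 0) (nat_lit 4288688295) (nat_lit 756) (nat_lit 3247723990) (nat_lit 840) (nat_lit 1079730579) (nat_lit 98) (nat_lit 5) (nat_lit 107) (nat_lit 5) (nat_lit 108) (nat_lit 5) (nat_lit 325) (nat_lit 307) (nat_lit 256)) (XT.lf (nat_lit 0) (nat_lit 77012133) (nat_lit 840) (nat_lit 1175357159) (nat_lit 84) (nat_lit 7490626807) (nat_lit 97) (nat_lit 5) (nat_lit 107) (nat_lit 5) (nat_lit 98) (nat_lit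 5) (nat_lit 326) (nat_lit 307) (nat_lit 255)))))) (XT.nd (nat_lit 658) (nat_lit 1008) (nat_lit 0) (XT.nd (nat_lit 282) (nat_lit 1596) (nat_lit 0) (XT.nd (nat_lit 94) (nat_lit 0) (nat_lit 0) (XT.lf (nat_lit 0) (nat_lit 1242293862) (nat_lit 924) (nat_lit 6803861050) (nat_lit 84) (nat_lit 827694836) (nat_lit 87) (nat_lit 5) (nat_lit 98) (nat_lit 5) (nat_lit 88) (nat_lit 5) (nat_lit 327) (nat_lit 307) (nat_lit 254)) (XT.nd (nat_lit 94) (nat_lit 0) (nat_lit 0) (XT.lf (nat_lit 0) (nat_lit 2435834611) (nat_lit 924) (nat_lit 3608195304) (nat_lit 84) (nat_lit 2965224643) (nat_lit 87) (nat_lit 5) (nat_lit 98) (nat_lit 5) (nat_lit 88) (nat_lit 5) (nat_lit 328) (nat_lit 307) (nat_lit 253)) (XT.lf (nat_lit 0) (nat_lit 3634302086) (nat_lit 924) (nat_lit 340368600) (nat_lit 84) (nat_lit 5175423842) (nat_lit 87) (nat_lit 5) (nat_lit 98) (nat_lit 5) (nat_lit 88) (nat_lit 5) (nat_lit 329) (nat_lit 307) (nat_lit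 252)))) (XT.nd (nat_lit 188) (nat_lit 672) (nat_lit 0) (XT.nd (nat_lit 94) (nat_lit 0) (nat_lit 0) (XT.lf (nat_lit 0) (nat_lit 3064405969) (nat_lit 924) (nat_lit 1804806701) (nat_lit 1008) (nat_lit 4426345887) (nat_lit 76) (nat_lit 5) (nat_lit 87) (nat_lit 5) (nat_lit 88) (nat_lit 5) (nat_lit 330) (nat_lit 307) (nat_lit 251)) (XT.lf (nat_lit 0) (nat_lit 6119899334) (nat_lit 1008) (nat_lit 2894852062) (nat_lit 84) (nat_lit 431707198) (nat_lit 76) (nat_lit 5) (nat_lit 88) (nat_lit 5) (nat_lit 77) (nat_lit 5) (nat_lit 331) (nat_lit 307) (nat_lit 250))) (XT.nd (nat_lit 94) (nat_lit 0) (nat_lit 0) (XT.lf (nat_lit 0) (nat_lit 510463493) (nat_lit 672) (nat_lit 6892946225) (nat_lit 756) (nat_lit 2199033239) (nat_lit 68) (nat_lit 5) (nat_lit 76) (nat_lit 5) (nat_lit 77) (nat_lit 5) (nat_lit 332) (nat_lit 307) (nat_lit 249)) (XT.lf (nat_lit 0) (nat_lit 4056742730) (nat_lit 672) (nat_lit 4671340640) (nat_lit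 756) (nat_lit 1035352229) (nat_lit 68) (nat_lit 5) (nat_lit 76) (nat_lit 5) (nat_lit 77) (nat_lit 5) (nat_lit 333) (nat_lit 307) (nat_lit 248))))) (XT.nd (nat_lit 282) (nat_lit 420) (nat_lit 0) (XT.nd (nat_lit 94) (nat_lit 504) (nat_lit 0) (XT.lf (nat_lit 0) (nat_lit 132625079) (nat_lit 756) (nat_lit 2244070778) (nat_lit 84) (nat_lit 7553757642) (nat_lit 67) (nat_lit 5) (nat_lit 76) (nat_lit 5) (nat_lit 68) (nat_lit 5) (nat_lit 334) (nat_lit 307) (nat_lit 247)) (XT.nd (nat_lit 94) (nat_lit 0) (nat_lit 0) (XT.lf (nat_lit 0) (nat_lit 1300912121) (nat_lit 588) (nat_lit 8786491520) (nat_lit 84) (nat_lit 15559688) (nat_lit 61) (nat_lit 5) (nat_lit 68) (nat_lit 5) (nat_lit 62) (nat_lit 5) (nat_lit 335) (nat_lit 307) (nat_lit 246)) (XT.lf (nat_lit 0) (nat_lit 2526380998) (nat_lit 588) (nat_lit 5295668517) (nat_lit 84) (nat_lit 2458312151) (nat_lit 61) (nat_lit 5) (nat_lit 68) (nat_lit 5) (nat_lit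 62) (nat_lit 5) (nat_lit 336) (nat_lit 307) (nat_lit 245)))) (XT.nd (nat_lit 188) (nat_lit 0) (nat_lit 0) (XT.nd (nat_lit 94) (nat_lit 420) (nat_lit 0) (XT.lf (nat_lit 0) (nat_lit 3763645292) (nat_lit 588) (nat_lit 1721838970) (nat_lit 84) (nat_lit 4978771989) (nat_lit 61) (nat_lit 5) (nat_lit 68) (nat_lit 5) (nat_lit 62) (nat_lit 5) (nat_lit 337) (nat_lit 307) (nat_lit 244)) (XT.lf (nat_lit 0) (nat_lit 1978184310) (nat_lit 420) (nat_lit 3055297788) (nat_lit 504) (nat_lit 5620728059) (nat_lit 56) (nat_lit 5) (nat_lit 61) (nat_lit 5) (nat_lit 62) (nat_lit 5) (nat_lit 338) (nat_lit 307) (nat_lit 243))) (XT.nd (nat_lit 94) (nat_lit 0) (nat_lit 0) (XT.lf (nat_lit 0) (nat_lit 5805206950) (nat_lit 420) (nat_lit 530566665) (nat_lit 504) (nat_lit 4514667166) (nat_lit 56) (nat_lit 5) (nat_lit 61) (nat_lit 5) (nat_lit 62) (nat_lit 5) (nat_lit 339) (nat_lit 307) (nat_lit 242)) (XT.lf (nat_lit 0) (nat_lit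 7674866953) (nat_lit 504) (nat_lit 1346845142) (nat_lit 84) (nat_lit 2031321809) (nat_lit 56) (nat_lit 5) (nat_lit 62) (nat_lit 5) (nat_lit 57) (nat_lit 5) (nat_lit 340) (nat_lit 307) (nat_lit 241))))))) (XT.nd (nat_lit 53392) (nat_lit 0) (nat_lit 3444) (XT.nd (nat_lit 52734) (nat_lit 0) (nat_lit 5628) (XT.nd (nat_lit 282) (nat_lit 336) (nat_lit 0) (XT.nd (nat_lit 94) (nat_lit 84) (nat_lit 0) (XT.lf (nat_lit 0) (nat_lit 2487213480) (nat_lit 420) (nat_lit 6574956105) (nat_lit 504) (nat_lit 2199693838) (nat_lit 51) (nat_lit 5) (nat_lit 56) (nat_lit 5) (nat_lit 57) (nat_lit 5) (nat_lit 341) (nat_lit 307) (nat_lit 240)) (XT.nd (nat_lit 94) (nat_lit 84) (nat_lit 0) (XT.lf (nat_lit 0) (nat_lit 6445254446) (nat_lit 420) (nat_lit 4038351219) (nat_lit 504) (nat_lit 993994763) (nat_lit 51) (nat_lit 5) (nat_lit 56) (nat_lit 5) (nat_lit 57) (nat_lit 5) (nat_lit 342) (nat_lit 307) (nat_lit 239)) (XT.lf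 (nat_lit 0) (nat_lit 221442497) (nat_lit 504) (nat_lit 1199837454) (nat_lit 84) (nat_lit 10279519262) (nat_lit 50) (nat_lit 5) (nat_lit 56) (nat_lit 5) (nat_lit 51) (nat_lit 5) (nat_lit 343) (nat_lit 307) (nat_lit 238)))) (XT.nd (nat_lit 94) (nat_lit 0) (nat_lit 0) (XT.lf (nat_lit 0) (nat_lit 1472540764) (nat_lit 420) (nat_lit 9169039587) (nat_lit 84) (nat_lit 1288588944) (nat_lit 46) (nat_lit 5) (nat_lit 51) (nat_lit 5) (nat_lit 47) (nat_lit 5) (nat_lit 344) (nat_lit 307) (nat_lit 237)) (XT.nd (nat_lit 52264) (nat_lit 0) (nat_lit 6300) (XT.lf (nat_lit 0) (nat_lit 2768099910) (nat_lit 420) (nat_lit 5333806489) (nat_lit 84) (nat_lit 4064707935) (nat_lit 46) (nat_lit 5) (nat_lit 51) (nat_lit 5) (nat_lit 47) (nat_lit 5) (nat_lit 345) (nat_lit 307) (nat_lit 236)) (XT.lf (nat_lit 0) (nat_lit 617958135) (nat_lit 0) (nat_lit 617958135) (nat_lit 588) (nat_lit 2342758808) (nat_lit 121) (nat_lit 5) (nat_lit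 121) (nat_lit 3) (nat_lit 128) (nat_lit 3) (nat_lit 308) (nat_lit 308) (nat_lit 272))))) (XT.nd (nat_lit 282) (nat_lit 672) (nat_lit 0) (XT.nd (nat_lit 94) (nat_lit 0) (nat_lit 0) (XT.lf (nat_lit 0) (nat_lit 3744712644) (nat_lit 0) (nat_lit 31908662) (nat_lit 588) (nat_lit 3440941360) (nat_lit 121) (nat_lit 5) (nat_lit 121) (nat_lit 3) (nat_lit 128) (nat_lit 3) (nat_lit 309) (nat_lit 308) (nat_lit 271)) (XT.nd (nat_lit 94) (nat_lit 0) (nat_lit 0) (XT.lf (nat_lit 0) (nat_lit 5083075968) (nat_lit 588) (nat_lit 988171517) (nat_lit 672) (nat_lit 1210058551) (nat_lit 121) (nat_lit 5) (nat_lit 128) (nat_lit 3) (nat_lit 129) (nat_lit 5) (nat_lit 310) (nat_lit 308) (nat_lit 270)) (XT.lf (nat_lit 84) (nat_lit 1578021762) (nat_lit 0) (nat_lit 4818736152) (nat_lit 672) (nat_lit 951747119) (nat_lit 122) (nat_lit 5) (nat_lit 121) (nat_lit 5) (nat_lit 129) (nat_lit 5) (nat_lit 311) (nat_lit 308) (nat_lit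 269)))) (XT.nd (nat_lit 188) (nat_lit 0) (nat_lit 0) (XT.nd (nat_lit 94) (nat_lit 0) (nat_lit 0) (XT.lf (nat_lit 0) (nat_lit 288125481) (nat_lit 672) (nat_lit 3204296923) (nat_lit 756) (nat_lit 3926878424) (nat_lit 113) (nat_lit 5) (nat_lit 121) (nat_lit 5) (nat_lit 122) (nat_lit 5) (nat_lit 312) (nat_lit 308) (nat_lit 268)) (XT.lf (nat_lit 0) (nat_lit 1499181565) (nat_lit 672) (nat_lit 595579637) (nat_lit 756) (nat_lit 5399109196) (nat_lit 113) (nat_lit 5) (nat_lit 121) (nat_lit 5) (nat_lit 122) (nat_lit 5) (nat_lit 313) (nat_lit 308) (nat_lit 267))) (XT.nd (nat_lit 94) (nat_lit 0) (nat_lit 84) (XT.lf (nat_lit 84) (nat_lit 2110054530) (nat_lit 0) (nat_lit 612603019) (nat_lit 756) (nat_lit 4849269494) (nat_lit 114) (nat_lit 5) (nat_lit 113) (nat_lit 5) (nat_lit 122) (nat_lit 5) (nat_lit 314) (nat_lit 308) (nat_lit 266)) (XT.lf (nat_lit 0) (nat_lit 3954679257) (nat_lit 672) (nat_lit 2777328509)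 (nat_lit 756) (nat_lit 921691205) (nat_lit 114) (nat_lit 5) (nat_lit 122) (nat_lit 5) (nat_lit 123) (nat_lit 5) (nat_lit 315) (nat_lit 308) (nat_lit 265)))))) (XT.nd (nat_lit 658) (nat_lit 1512) (nat_lit 0) (XT.nd (nat_lit 282) (nat_lit 756) (nat_lit 0) (XT.nd (nat_lit 94) (nat_lit 0) (nat_lit 0) (XT.lf (nat_lit 0) (nat_lit 5187760350) (nat_lit 672) (nat_lit 43144005) (nat_lit 756) (nat_lit 2508625725) (nat_lit 114) (nat_lit 5) (nat_lit 122) (nat_lit 5) (nat_lit 123) (nat_lit 5) (nat_lit 316) (nat_lit 308) (nat_lit 264)) (XT.nd (nat_lit 94) (nat_lit 0) (nat_lit 0) (XT.lf (nat_lit 84) (nat_lit 2805838026) (nat_lit 0) (nat_lit 3638969324) (nat_lit 756) (nat_lit 1384018550) (nat_lit 115) (nat_lit 5) (nat_lit 114) (nat_lit 5) (nat_lit 123) (nat_lit 5) (nat_lit 317) (nat_lit 308) (nat_lit 263)) (XT.lf (nat_lit 84) (nat_lit 5717827780) (nat_lit 0) (nat_lit 1982357012) (nat_lit 756) (nat_lit 222315895)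 (nat_lit 115) (nat_lit 5) (nat_lit 114) (nat_lit 5) (nat_lit 123) (nat_lit 5) (nat_lit 318) (nat_lit 308) (nat_lit 262)))) (XT.nd (nat_lit 188) (nat_lit 0) (nat_lit 84) (XT.nd (nat_lit 94) (nat_lit 0) (nat_lit 84) (XT.lf (nat_lit 84) (nat_lit 678400257) (nat_lit 0) (nat_lit 243482856) (nat_lit 840) (nat_lit 7098276338) (nat_lit 106) (nat_lit 5) (nat_lit 105) (nat_lit 5) (nat_lit 115) (nat_lit 5) (nat_lit 319) (nat_lit 308) (nat_lit 261)) (XT.lf (nat_lit 0) (nat_lit 2096048308) (nat_lit 756) (nat_lit 4468437356) (nat_lit 840) (nat_lit 1556637249) (nat_lit 106) (nat_lit 5) (nat_lit 115) (nat_lit 5) (nat_lit 116) (nat_lit 5) (nat_lit 320) (nat_lit 308) (nat_lit 260))) (XT.nd (nat_lit 94) (nat_lit 0) (nat_lit 0) (XT.lf (nat_lit 0) (nat_lit 3270787851) (nat_lit 756) (nat_lit 1535703846) (nat_lit 840) (nat_lit 3420145781) (nat_lit 106) (nat_lit 5) (nat_lit 115) (nat_lit 5) (nat_lit 116) (nat_lit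 5) (nat_lit 321) (nat_lit 308) (nat_lit 259)) (XT.lf (nat_lit 84) (nat_lit 1491643623) (nat_lit 0) (nat_lit 2967935007) (nat_lit 840) (nat_lit 3876839025) (nat_lit 107) (nat_lit 5) (nat_lit 106) (nat_lit 5) (nat_lit 116) (nat_lit 5) (nat_lit 322) (nat_lit 308) (nat_lit 258))))) (XT.nd (nat_lit 282) (nat_lit 924) (nat_lit 0) (XT.nd (nat_lit 94) (nat_lit 672) (nat_lit 0) (XT.lf (nat_lit 84) (nat_lit 4619307717) (nat_lit 0) (nat_lit 1045639451) (nat_lit 840) (nat_lit 2785574633) (nat_lit 107) (nat_lit 5) (nat_lit 106) (nat_lit 5) (nat_lit 116) (nat_lit 5) (nat_lit 323) (nat_lit 308) (nat_lit 257)) (XT.nd (nat_lit 94) (nat_lit 756) (nat_lit 0) (XT.lf (nat_lit 0) (nat_lit 6881855368) (nat_lit 756) (nat_lit 760297719) (nat_lit 84) (nat_lit 927094195) (nat_lit 107) (nat_lit 5) (nat_lit 116) (nat_lit 5) (nat_lit 108) (nat_lit 5) (nat_lit 324) (nat_lit 308) (nat_lit 256)) (XT.lf (nat_lit 0) (nat_lit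 2417866088) (nat_lit 756) (nat_lit 5719242963) (nat_lit 840) (nat_lit 554799894) (nat_lit 98) (nat_lit 5) (nat_lit 107) (nat_lit 5) (nat_lit 108) (nat_lit 5) (nat_lit 325) (nat_lit 308) (nat_lit 255)))) (XT.nd (nat_lit 188) (nat_lit 0) (nat_lit 0) (XT.nd (nat_lit 94) (nat_lit 840) (nat_lit 0) (XT.lf (nat_lit 0) (nat_lit 574679594) (nat_lit 840) (nat_lit 3140281212) (nat_lit 84) (nat_lit 5104284601) (nat_lit 97) (nat_lit 5) (nat_lit 107) (nat_lit 5) (nat_lit 98) (nat_lit 5) (nat_lit 326) (nat_lit 308) (nat_lit 254)) (XT.lf (nat_lit 0) (nat_lit 60305738) (nat_lit 840) (nat_lit 1635068615) (nat_lit 924) (nat_lit 7256230432) (nat_lit 87) (nat_lit 5) (nat_lit 97) (nat_lit 5) (nat_lit 98) (nat_lit 5) (nat_lit 327) (nat_lit 308) (nat_lit 253))) (XT.nd (nat_lit 94) (nat_lit 0) (nat_lit 0) (XT.lf (nat_lit 0) (nat_lit 2856903272) (nat_lit 924) (nat_lit 5692660230) (nat_lit 84) (nat_lit 538558276) (nat_lit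 87) (nat_lit 5) (nat_lit 98) (nat_lit 5) (nat_lit 88) (nat_lit 5) (nat_lit 328) (nat_lit 308) (nat_lit 252)) (XT.lf (nat_lit 0) (nat_lit 4040053825) (nat_lit 924) (nat_lit 2437682227) (nat_lit 84) (nat_lit 2751816733) (nat_lit 87) (nat_lit 5) (nat_lit 98) (nat_lit 5) (nat_lit 88) (nat_lit 5) (nat_lit 329) (nat_lit 308) (nat_lit 251))))))))
noncomputable def xc23 : XT := (XT.nd (nat_lit 54896) (nat_lit 0) (nat_lit 0) (XT.nd (nat_lit 1222) (nat_lit 84) (nat_lit 0) (XT.nd (nat_lit 564) (nat_lit 1344) (nat_lit 0) (XT.nd (nat_lit 282) (nat_lit 756) (nat_lit 0) (XT.nd (nat_lit 94) (nat_lit 0) (nat_lit 0) (XT.lf (nat_lit 0) (nat_lit 911248653) (nat_lit 924) (nat_lit 4327499795) (nat_lit 1008) (nat_lit 4137503780) (nat_lit 76) (nat_lit 5) (nat_lit 87) (nat_lit 5) (nat_lit 88) (nat_lit 5) (nat_lit 330) (nat_lit 308) (nat_lit 250)) (XT.nd (nat_lit 94) (nat_lit 0) (nat_lit 0) (XT.lf (nat_lit 0) (nat_lit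 4390619156) (nat_lit 924) (nat_lit 2079913257) (nat_lit 1008) (nat_lit 3057315166) (nat_lit 76) (nat_lit 5) (nat_lit 87) (nat_lit 5) (nat_lit 88) (nat_lit 5) (nat_lit 331) (nat_lit 308) (nat_lit 249)) (XT.lf (nat_lit 0) (nat_lit 7714271965) (nat_lit 1008) (nat_lit 1734093965) (nat_lit 84) (nat_lit 236804949) (nat_lit 76) (nat_lit 5) (nat_lit 88) (nat_lit 5) (nat_lit 77) (nat_lit 5) (nat_lit 332) (nat_lit 308) (nat_lit 248)))) (XT.nd (nat_lit 94) (nat_lit 84) (nat_lit 0) (XT.lf (nat_lit 0) (nat_lit 1764126198) (nat_lit 672) (nat_lit 7243489440) (nat_lit 756) (nat_lit 839621967) (nat_lit 68) (nat_lit 5) (nat_lit 76) (nat_lit 5) (nat_lit 77) (nat_lit 5) (nat_lit 333) (nat_lit 308) (nat_lit 247)) (XT.nd (nat_lit 94) (nat_lit 0) (nat_lit 0) (XT.lf (nat_lit 0) (nat_lit 310817738) (nat_lit 756) (nat_lit 4634836895) (nat_lit 84) (nat_lit 5069058859) (nat_lit 67) (nat_lit 5) (nat_lit 76) (nat_lit 5)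 (nat_lit 68) (nat_lit 5) (nat_lit 334) (nat_lit 308) (nat_lit 246)) (XT.lf (nat_lit 0) (nat_lit 1452700749) (nat_lit 756) (nat_lit 1112692030) (nat_lit 84) (nat_lit 7622742921) (nat_lit 67) (nat_lit 5) (nat_lit 76) (nat_lit 5) (nat_lit 68) (nat_lit 5) (nat_lit 335) (nat_lit 308) (nat_lit 245))))) (XT.nd (nat_lit 282) (nat_lit 840) (nat_lit 0) (XT.nd (nat_lit 94) (nat_lit 0) (nat_lit 0) (XT.lf (nat_lit 0) (nat_lit 2546236336) (nat_lit 504) (nat_lit 83030575) (nat_lit 588) (nat_lit 7737874141) (nat_lit 61) (nat_lit 5) (nat_lit 67) (nat_lit 5) (nat_lit 68) (nat_lit 5) (nat_lit 336) (nat_lit 308) (nat_lit 244)) (XT.nd (nat_lit 94) (nat_lit 0) (nat_lit 0) (XT.lf (nat_lit 0) (nat_lit 3853198169) (nat_lit 588) (nat_lit 4258290386) (nat_lit 84) (nat_lit 2440048699) (nat_lit 61) (nat_lit 5) (nat_lit 68) (nat_lit 5) (nat_lit 62) (nat_lit 5) (nat_lit 337) (nat_lit 308) (nat_lit 243)) (XT.lf (nat_lit 0)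 (nat_lit 5091277908) (nat_lit 588) (nat_lit 609800018) (nat_lit 84) (nat_lit 5041483340) (nat_lit 61) (nat_lit 5) (nat_lit 68) (nat_lit 5) (nat_lit 62) (nat_lit 5) (nat_lit 338) (nat_lit 308) (nat_lit 242)))) (XT.nd (nat_lit 188) (nat_lit 420) (nat_lit 0) (XT.nd (nat_lit 94) (nat_lit 0) (nat_lit 0) (XT.lf (nat_lit 0) (nat_lit 3193125194) (nat_lit 420) (nat_lit 3182387479) (nat_lit 504) (nat_lit 4563922042) (nat_lit 56) (nat_lit 5) (nat_lit 61) (nat_lit 5) (nat_lit 62) (nat_lit 5) (nat_lit 339) (nat_lit 308) (nat_lit 241)) (XT.lf (nat_lit 0) (nat_lit 7104098696) (nat_lit 420) (nat_lit 578416229) (nat_lit 504) (nat_lit 3460588302) (nat_lit 56) (nat_lit 5) (nat_lit 61) (nat_lit 5) (nat_lit 62) (nat_lit 5) (nat_lit 340) (nat_lit 308) (nat_lit 240))) (XT.nd (nat_lit 94) (nat_lit 420) (nat_lit 0) (XT.lf (nat_lit 0) (nat_lit 9028229939) (nat_lit 504) (nat_lit 260621531) (nat_lit 84) (nat_lit 2064448636)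 (nat_lit 56) (nat_lit 5) (nat_lit 62) (nat_lit 5) (nat_lit 57) (nat_lit 5) (nat_lit 341) (nat_lit 308) (nat_lit 239)) (XT.lf (nat_lit 0) (nat_lit 3680873166) (nat_lit 420) (nat_lit 6755203165) (nat_lit 504) (nat_lit 1133457854) (nat_lit 51) (nat_lit 5) (nat_lit 56) (nat_lit 5) (nat_lit 57) (nat_lit 5) (nat_lit 342) (nat_lit 308) (nat_lit 238)))))) (XT.nd (nat_lit 53016) (nat_lit 0) (nat_lit 4620) (XT.nd (nat_lit 52640) (nat_lit 0) (nat_lit 5292) (XT.nd (nat_lit 94) (nat_lit 0) (nat_lit 0) (XT.lf (nat_lit 0) (nat_lit 73986755) (nat_lit 504) (nat_lit 4065913401) (nat_lit 84) (nat_lit 7653281886) (nat_lit 50) (nat_lit 5) (nat_lit 56) (nat_lit 5) (nat_lit 51) (nat_lit 5) (nat_lit 343) (nat_lit 308) (nat_lit 237)) (XT.nd (nat_lit 52452) (nat_lit 0) (nat_lit 5964) (XT.lf (nat_lit 0) (nat_lit 1274037327) (nat_lit 504) (nat_lit 158206926) (nat_lit 84) (nat_lit 10591959510) (nat_lit 50) (nat_lit 5)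 (nat_lit 56) (nat_lit 5) (nat_lit 51) (nat_lit 5) (nat_lit 344) (nat_lit 308) (nat_lit 236)) (XT.lf (nat_lit 0) (nat_lit 1264070722) (nat_lit 0) (nat_lit 1264070722) (nat_lit 588) (nat_lit 1111249355) (nat_lit 121) (nat_lit 5) (nat_lit 121) (nat_lit 3) (nat_lit 128) (nat_lit 3) (nat_lit 309) (nat_lit 309) (nat_lit 270)))) (XT.nd (nat_lit 188) (nat_lit 0) (nat_lit 0) (XT.nd (nat_lit 94) (nat_lit 672) (nat_lit 0) (XT.lf (nat_lit 0) (nat_lit 5077008017) (nat_lit 0) (nat_lit 1249107112) (nat_lit 588) (nat_lit 1017765777) (nat_lit 121) (nat_lit 5) (nat_lit 121) (nat_lit 3) (nat_lit 128) (nat_lit 3) (nat_lit 310) (nat_lit 309) (nat_lit 269)) (XT.lf (nat_lit 0) (nat_lit 174535984) (nat_lit 672) (nat_lit 7142050351) (nat_lit 756) (nat_lit 96167570) (nat_lit 113) (nat_lit 5) (nat_lit 121) (nat_lit 5) (nat_lit 122) (nat_lit 5) (nat_lit 311) (nat_lit 309) (nat_lit 268))) (XT.nd (nat_lit 94) (nat_lit 0)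 (nat_lit 0) (XT.lf (nat_lit 0) (nat_lit 1371854103) (nat_lit 672) (nat_lit 4598740560) (nat_lit 756) (nat_lit 1513588429) (nat_lit 113) (nat_lit 5) (nat_lit 121) (nat_lit 5) (nat_lit 122) (nat_lit 5) (nat_lit 312) (nat_lit 309) (nat_lit 267)) (XT.lf (nat_lit 0) (nat_lit 2560234245) (nat_lit 672) (nat_lit 2003054416) (nat_lit 756) (nat_lit 2996362234) (nat_lit 113) (nat_lit 5) (nat_lit 121) (nat_lit 5) (nat_lit 122) (nat_lit 5) (nat_lit 313) (nat_lit 309) (nat_lit 266))))) (XT.nd (nat_lit 282) (nat_lit 672) (nat_lit 0) (XT.nd (nat_lit 94) (nat_lit 0) (nat_lit 0) (XT.lf (nat_lit 84) (nat_lit 660739969) (nat_lit 0) (nat_lit 3086598755) (nat_lit 756) (nat_lit 3891685738) (nat_lit 114) (nat_lit 5) (nat_lit 113) (nat_lit 5) (nat_lit 122) (nat_lit 5) (nat_lit 314) (nat_lit 309) (nat_lit 265)) (XT.nd (nat_lit 94) (nat_lit 0) (nat_lit 84) (XT.lf (nat_lit 84) (nat_lit 3424165106) (nat_lit 0) (nat_lit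 1524407108) (nat_lit 756) (nat_lit 2773362324) (nat_lit 114) (nat_lit 5) (nat_lit 113) (nat_lit 5) (nat_lit 122) (nat_lit 5) (nat_lit 315) (nat_lit 309) (nat_lit 264)) (XT.lf (nat_lit 0) (nat_lit 6145805314) (nat_lit 672) (nat_lit 1561507217) (nat_lit 756) (nat_lit 101742590) (nat_lit 114) (nat_lit 5) (nat_lit 122) (nat_lit 5) (nat_lit 123) (nat_lit 5) (nat_lit 316) (nat_lit 309) (nat_lit 263)))) (XT.nd (nat_lit 188) (nat_lit 0) (nat_lit 0) (XT.nd (nat_lit 94) (nat_lit 756) (nat_lit 0) (XT.lf (nat_lit 84) (nat_lit 1243341621) (nat_lit 0) (nat_lit 6123908029) (nat_lit 756) (nat_lit 532377804) (nat_lit 115) (nat_lit 5) (nat_lit 114) (nat_lit 5) (nat_lit 123) (nat_lit 5) (nat_lit 317) (nat_lit 309) (nat_lit 262)) (XT.lf (nat_lit 0) (nat_lit 596658102) (nat_lit 756) (nat_lit 3857311698) (nat_lit 840) (nat_lit 3539921106) (nat_lit 105) (nat_lit 5) (nat_lit 114) (nat_lit 5) (nat_lit 115) (nat_lit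 5) (nat_lit 318) (nat_lit 309) (nat_lit 261))) (XT.nd (nat_lit 94) (nat_lit 0) (nat_lit 0) (XT.lf (nat_lit 0) (nat_lit 1710261845) (nat_lit 756) (nat_lit 1002816213) (nat_lit 840) (nat_lit 5379370548) (nat_lit 105) (nat_lit 5) (nat_lit 114) (nat_lit 5) (nat_lit 115) (nat_lit 5) (nat_lit 319) (nat_lit 309) (nat_lit 260)) (XT.lf (nat_lit 84) (nat_lit 1954521820) (nat_lit 0) (nat_lit 885064926) (nat_lit 840) (nat_lit 5355368334) (nat_lit 106) (nat_lit 5) (nat_lit 105) (nat_lit 5) (nat_lit 115) (nat_lit 5) (nat_lit 320) (nat_lit 309) (nat_lit 259))))))) (XT.nd (nat_lit 1222) (nat_lit 2184) (nat_lit 0) (XT.nd (nat_lit 564) (nat_lit 1764) (nat_lit 0) (XT.nd (nat_lit 282) (nat_lit 756) (nat_lit 0) (XT.nd (nat_lit 94) (nat_lit 0) (nat_lit 0) (XT.lf (nat_lit 0) (nat_lit 3987248464) (nat_lit 756) (nat_lit 3311895707) (nat_lit 840) (nat_lit 1002313249) (nat_lit 106) (nat_lit 5) (nat_lit 115) (nat_lit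 5) (nat_lit 116) (nat_lit 5) (nat_lit 321) (nat_lit 309) (nat_lit 258)) (XT.nd (nat_lit 94) (nat_lit 0) (nat_lit 0) (XT.lf (nat_lit 0) (nat_lit 5143494260) (nat_lit 756) (nat_lit 327187284) (nat_lit 840) (nat_lit 2941708850) (nat_lit 106) (nat_lit 5) (nat_lit 115) (nat_lit 5) (nat_lit 116) (nat_lit 5) (nat_lit 322) (nat_lit 309) (nat_lit 257)) (XT.lf (nat_lit 84) (nat_lit 2781290836) (nat_lit 0) (nat_lit 3546921839) (nat_lit 840) (nat_lit 2199061594) (nat_lit 107) (nat_lit 5) (nat_lit 106) (nat_lit 5) (nat_lit 116) (nat_lit 5) (nat_lit 323) (nat_lit 309) (nat_lit 256)))) (XT.nd (nat_lit 94) (nat_lit 756) (nat_lit 0) (XT.lf (nat_lit 84) (nat_lit 5968525908) (nat_lit 0) (nat_lit 1550392631) (nat_lit 840) (nat_lit 1128028861) (nat_lit 107) (nat_lit 5) (nat_lit 106) (nat_lit 5) (nat_lit 116) (nat_lit 5) (nat_lit 324) (nat_lit 309) (nat_lit 255)) (XT.nd (nat_lit 94) (nat_lit 84) (nat_lit 0) (XT.lf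 (nat_lit 0) (nat_lit 463340179) (nat_lit 756) (nat_lit 8259797646) (nat_lit 840) (nat_lit 48184613) (nat_lit 98) (nat_lit 5) (nat_lit 107) (nat_lit 5) (nat_lit 108) (nat_lit 5) (nat_lit 325) (nat_lit 309) (nat_lit 254)) (XT.lf (nat_lit 0) (nat_lit 1054902410) (nat_lit 840) (nat_lit 5191979946) (nat_lit 84) (nat_lit 2652246023) (nat_lit 97) (nat_lit 5) (nat_lit 107) (nat_lit 5) (nat_lit 98) (nat_lit 5) (nat_lit 326) (nat_lit 309) (nat_lit 253))))) (XT.nd (nat_lit 282) (nat_lit 924) (nat_lit 0) (XT.nd (nat_lit 94) (nat_lit 840) (nat_lit 0) (XT.lf (nat_lit 0) (nat_lit 2159300291) (nat_lit 840) (nat_lit 2004958792) (nat_lit 84) (nat_lit 4867853692) (nat_lit 97) (nat_lit 5) (nat_lit 107) (nat_lit 5) (nat_lit 98) (nat_lit 5) (nat_lit 327) (nat_lit 309) (nat_lit 252)) (XT.nd (nat_lit 94) (nat_lit 0) (nat_lit 0) (XT.lf (nat_lit 0) (nat_lit 1282366665) (nat_lit 840) (nat_lit 1997363824) (nat_lit 924)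 (nat_lit 5890289552) (nat_lit 87) (nat_lit 5) (nat_lit 97) (nat_lit 5) (nat_lit 98) (nat_lit 5) (nat_lit 328) (nat_lit 309) (nat_lit 251)) (XT.lf (nat_lit 0) (nat_lit 4428210572) (nat_lit 924) (nat_lit 4625323646) (nat_lit 84) (nat_lit 259104335) (nat_lit 87) (nat_lit 5) (nat_lit 98) (nat_lit 5) (nat_lit 88) (nat_lit 5) (nat_lit 329) (nat_lit 309) (nat_lit 250)))) (XT.nd (nat_lit 188) (nat_lit 0) (nat_lit 0) (XT.nd (nat_lit 94) (nat_lit 924) (nat_lit 0) (XT.lf (nat_lit 0) (nat_lit 5603455822) (nat_lit 924) (nat_lit 1306840045) (nat_lit 84) (nat_lit 2549878389) (nat_lit 87) (nat_lit 5) (nat_lit 98) (nat_lit 5) (nat_lit 88) (nat_lit 5) (nat_lit 330) (nat_lit 309) (nat_lit 249)) (XT.lf (nat_lit 0) (nat_lit 2133693871) (nat_lit 924) (nat_lit 4674220231) (nat_lit 1008) (nat_lit 2804808644) (nat_lit 76) (nat_lit 5) (nat_lit 87) (nat_lit 5) (nat_lit 88) (nat_lit 5) (nat_lit 331) (nat_lit 309) (nat_lit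 248))) (XT.nd (nat_lit 94) (nat_lit 0) (nat_lit 0) (XT.lf (nat_lit 0) (nat_lit 5685017884) (nat_lit 924) (nat_lit 2350567039) (nat_lit 1008) (nat_lit 1735062108) (nat_lit 76) (nat_lit 5) (nat_lit 87) (nat_lit 5) (nat_lit 88) (nat_lit 5) (nat_lit 332) (nat_lit 309) (nat_lit 247)) (XT.lf (nat_lit 0) (nat_lit 9274869982) (nat_lit 1008) (nat_lit 611421535) (nat_lit 84) (nat_lit 48197818) (nat_lit 76) (nat_lit 5) (nat_lit 88) (nat_lit 5) (nat_lit 77) (nat_lit 5) (nat_lit 333) (nat_lit 309) (nat_lit 246)))))) (XT.nd (nat_lit 658) (nat_lit 504) (nat_lit 0) (XT.nd (nat_lit 282) (nat_lit 924) (nat_lit 0) (XT.nd (nat_lit 94) (nat_lit 0) (nat_lit 0) (XT.lf (nat_lit 0) (nat_lit 467754967) (nat_lit 756) (nat_lit 7124155561) (nat_lit 84) (nat_lit 2510695793) (nat_lit 67) (nat_lit 5) (nat_lit 76) (nat_lit 5) (nat_lit 68) (nat_lit 5) (nat_lit 334) (nat_lit 309) (nat_lit 245)) (XT.nd (nat_lit 94) (nat_lit 0)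 (nat_lit 0) (XT.lf (nat_lit 0) (nat_lit 1596849104) (nat_lit 756) (nat_lit 3613681783) (nat_lit 84) (nat_lit 5065985127) (nat_lit 67) (nat_lit 5) (nat_lit 76) (nat_lit 5) (nat_lit 68) (nat_lit 5) (nat_lit 335) (nat_lit 309) (nat_lit 244)) (XT.lf (nat_lit 0) (nat_lit 2735751947) (nat_lit 756) (nat_lit 17374566) (nat_lit 84) (nat_lit 7703650709) (nat_lit 67) (nat_lit 5) (nat_lit 76) (nat_lit 5) (nat_lit 68) (nat_lit 5) (nat_lit 336) (nat_lit 309) (nat_lit 243)))) (XT.nd (nat_lit 188) (nat_lit 420) (nat_lit 0) (XT.nd (nat_lit 94) (nat_lit 0) (nat_lit 0) (XT.lf (nat_lit 0) (nat_lit 3743542258) (nat_lit 504) (nat_lit 179119215) (nat_lit 588) (nat_lit 6719745263) (nat_lit 61) (nat_lit 5) (nat_lit 67) (nat_lit 5) (nat_lit 68) (nat_lit 5) (nat_lit 337) (nat_lit 309) (nat_lit 242)) (XT.lf (nat_lit 0) (nat_lit 5147195917) (nat_lit 588) (nat_lit 3259923033) (nat_lit 84) (nat_lit 2426814767) (nat_lit 61)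 (nat_lit 5) (nat_lit 68) (nat_lit 5) (nat_lit 62) (nat_lit 5) (nat_lit 338) (nat_lit 309) (nat_lit 241))) (XT.nd (nat_lit 94) (nat_lit 0) (nat_lit 0) (XT.lf (nat_lit 0) (nat_lit 477299071) (nat_lit 420) (nat_lit 5915775719) (nat_lit 504) (nat_lit 4639001974) (nat_lit 56) (nat_lit 5) (nat_lit 61) (nat_lit 5) (nat_lit 62) (nat_lit 5) (nat_lit 339) (nat_lit 309) (nat_lit 240)) (XT.lf (nat_lit 0) (nat_lit 4377398525) (nat_lit 420) (nat_lit 3311499297) (nat_lit 504) (nat_lit 3547272154) (nat_lit 56) (nat_lit 5) (nat_lit 61) (nat_lit 5) (nat_lit 62) (nat_lit 5) (nat_lit 340) (nat_lit 309) (nat_lit 239))))) (XT.nd (nat_lit 282) (nat_lit 84) (nat_lit 0) (XT.nd (nat_lit 94) (nat_lit 420) (nat_lit 0) (XT.lf (nat_lit 0) (nat_lit 8376979926) (nat_lit 420) (nat_lit 625889136) (nat_lit 504) (nat_lit 2444557643) (nat_lit 56) (nat_lit 5) (nat_lit 61) (nat_lit 5) (nat_lit 62) (nat_lit 5) (nat_lit 341) (nat_lit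 309) (nat_lit 238)) (XT.nd (nat_lit 94) (nat_lit 0) (nat_lit 0) (XT.lf (nat_lit 0) (nat_lit 808757739) (nat_lit 420) (nat_lit 9556742870) (nat_lit 504) (nat_lit 1299635352) (nat_lit 51) (nat_lit 5) (nat_lit 56) (nat_lit 5) (nat_lit 57) (nat_lit 5) (nat_lit 342) (nat_lit 309) (nat_lit 237)) (XT.lf (nat_lit 0) (nat_lit 4845400776) (nat_lit 420) (nat_lit 6942434365) (nat_lit 504) (nat_lit 101362579) (nat_lit 51) (nat_lit 5) (nat_lit 56) (nat_lit 5) (nat_lit 57) (nat_lit 5) (nat_lit 343) (nat_lit 309) (nat_lit 236)))) (XT.nd (nat_lit 52640) (nat_lit 0) (nat_lit 5208) (XT.nd (nat_lit 52546) (nat_lit 0) (nat_lit 5208) (XT.lf (nat_lit 0) (nat_lit 1090567554) (nat_lit 504) (nat_lit 3145569239) (nat_lit 84) (nat_lit 7884495943) (nat_lit 50) (nat_lit 5) (nat_lit 56) (nat_lit 5) (nat_lit 51) (nat_lit 5) (nat_lit 344) (nat_lit 309) (nat_lit 235)) (XT.lf (nat_lit 0) (nat_lit 79554930) (nat_lit 756) (nat_lit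 1812691807) (nat_lit 756) (nat_lit 1812691807) (nat_lit 112) (nat_lit 3) (nat_lit 121) (nat_lit 3) (nat_lit 121) (nat_lit 5) (nat_lit 310) (nat_lit 310) (nat_lit 268))) (XT.nd (nat_lit 94) (nat_lit 0) (nat_lit 0) (XT.lf (nat_lit 0) (nat_lit 1303870949) (nat_lit 756) (nat_lit 1114519867) (nat_lit 756) (nat_lit 5061085700) (nat_lit 112) (nat_lit 3) (nat_lit 121) (nat_lit 3) (nat_lit 121) (nat_lit 5) (nat_lit 311) (nat_lit 310) (nat_lit 267)) (XT.lf (nat_lit 84) (nat_lit 1480074401) (nat_lit 0) (nat_lit 972698360) (nat_lit 756) (nat_lit 5099829127) (nat_lit 113) (nat_lit 5) (nat_lit 112) (nat_lit 3) (nat_lit 121) (nat_lit 5) (nat_lit 312) (nat_lit 310) (nat_lit 266))))))))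
noncomputable def xc24 : XT := (XT.nd (nat_lit 2444) (nat_lit 924) (nat_lit 0) (XT.nd (nat_lit 1222) (nat_lit 2940) (nat_lit 0) (XT.nd (nat_lit 564) (nat_lit 672) (nat_lit 0) (XT.nd (nat_lit 282) (nat_lit 756) (nat_lit 0) (XT.nd (nat_lit 94) (nat_lit 0) (nat_lit 0) (XT.lf (nat_lit 0) (nat_lit 3609509490) (nat_lit 672) (nat_lit 3479831380) (nat_lit 756) (nat_lit 539899174) (nat_lit 113) (nat_lit 5) (nat_lit 121) (nat_lit 5) (nat_lit 122) (nat_lit 5) (nat_lit 313) (nat_lit 310) (nat_lit 265)) (XT.nd (nat_lit 94) (nat_lit 0) (nat_lit 0) (XT.lf (nat_lit 0) (nat_lit 4768726539) (nat_lit 672) (nat_lit 841608717) (nat_lit 756) (nat_lit 2099326576) (nat_lit 113) (nat_lit 5) (nat_lit 121) (nat_lit 5) (nat_lit 122) (nat_lit 5) (nat_lit 314) (nat_lit 310) (nat_lit 264)) (XT.lf (nat_lit 84) (nat_lit 1892376046) (nat_lit 0) (nat_lit 4048251692) (nat_lit 756) (nat_lit 1853031658) (nat_lit 114) (nat_lit 5)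 (nat_lit 113) (nat_lit 5) (nat_lit 122) (nat_lit 5) (nat_lit 315) (nat_lit 310) (nat_lit 263)))) (XT.nd (nat_lit 94) (nat_lit 756) (nat_lit 0) (XT.lf (nat_lit 84) (nat_lit 4705050536) (nat_lit 0) (nat_lit 2411594257) (nat_lit 756) (nat_lit 764965714) (nat_lit 114) (nat_lit 5) (nat_lit 113) (nat_lit 5) (nat_lit 122) (nat_lit 5) (nat_lit 316) (nat_lit 310) (nat_lit 262)) (XT.nd (nat_lit 94) (nat_lit 0) (nat_lit 84) (XT.lf (nat_lit 0) (nat_lit 309135599) (nat_lit 756) (nat_lit 395259744) (nat_lit 840) (nat_lit 7269368918) (nat_lit 104) (nat_lit 5) (nat_lit 113) (nat_lit 5) (nat_lit 114) (nat_lit 5) (nat_lit 317) (nat_lit 310) (nat_lit 261)) (XT.lf (nat_lit 0) (nat_lit 1397028732) (nat_lit 756) (nat_lit 5589257936) (nat_lit 840) (nat_lit 1082677943) (nat_lit 105) (nat_lit 5) (nat_lit 114) (nat_lit 5) (nat_lit 115) (nat_lit 5) (nat_lit 318) (nat_lit 310) (nat_lit 260))))) (XT.nd (nat_lit 282) (nat_lit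 756) (nat_lit 0) (XT.nd (nat_lit 94) (nat_lit 0) (nat_lit 0) (XT.lf (nat_lit 0) (nat_lit 2491829100) (nat_lit 756) (nat_lit 2747084495) (nat_lit 840) (nat_lit 2929344585) (nat_lit 105) (nat_lit 5) (nat_lit 114) (nat_lit 5) (nat_lit 115) (nat_lit 5) (nat_lit 319) (nat_lit 310) (nat_lit 259)) (XT.nd (nat_lit 94) (nat_lit 0) (nat_lit 0) (XT.lf (nat_lit 84) (nat_lit 162190512) (nat_lit 0) (nat_lit 3422945342) (nat_lit 840) (nat_lit 4686893725) (nat_lit 106) (nat_lit 5) (nat_lit 105) (nat_lit 5) (nat_lit 115) (nat_lit 5) (nat_lit 320) (nat_lit 310) (nat_lit 258)) (XT.lf (nat_lit 84) (nat_lit 3195861953) (nat_lit 0) (nat_lit 1508981116) (nat_lit 840) (nat_lit 3674699341) (nat_lit 106) (nat_lit 5) (nat_lit 105) (nat_lit 5) (nat_lit 115) (nat_lit 5) (nat_lit 321) (nat_lit 310) (nat_lit 257)))) (XT.nd (nat_lit 188) (nat_lit 840) (nat_lit 0) (XT.nd (nat_lit 94) (nat_lit 0) (nat_lit 0) (XT.lf (nat_lit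 0) (nat_lit 5828905529) (nat_lit 756) (nat_lit 2196210079) (nat_lit 840) (nat_lit 466497035) (nat_lit 106) (nat_lit 5) (nat_lit 115) (nat_lit 5) (nat_lit 116) (nat_lit 5) (nat_lit 322) (nat_lit 310) (nat_lit 256)) (XT.lf (nat_lit 84) (nat_lit 861753362) (nat_lit 0) (nat_lit 6116132064) (nat_lit 840) (nat_lit 1629854363) (nat_lit 107) (nat_lit 5) (nat_lit 106) (nat_lit 5) (nat_lit 116) (nat_lit 5) (nat_lit 323) (nat_lit 310) (nat_lit 255))) (XT.nd (nat_lit 94) (nat_lit 840) (nat_lit 0) (XT.lf (nat_lit 84) (nat_lit 4037268031) (nat_lit 0) (nat_lit 4115012553) (nat_lit 840) (nat_lit 575769278) (nat_lit 107) (nat_lit 5) (nat_lit 106) (nat_lit 5) (nat_lit 116) (nat_lit 5) (nat_lit 324) (nat_lit 310) (nat_lit 254)) (XT.lf (nat_lit 0) (nat_lit 467984018) (nat_lit 840) (nat_lit 1569946938) (nat_lit 924) (nat_lit 6815266442) (nat_lit 96) (nat_lit 5) (nat_lit 106) (nat_lit 5) (nat_lit 107) (nat_lit 5)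 (nat_lit 325) (nat_lit 310) (nat_lit 253)))))) (XT.nd (nat_lit 564) (nat_lit 2184) (nat_lit 0) (XT.nd (nat_lit 282) (nat_lit 840) (nat_lit 0) (XT.nd (nat_lit 94) (nat_lit 0) (nat_lit 0) (XT.lf (nat_lit 0) (nat_lit 1518128200) (nat_lit 840) (nat_lit 7332365757) (nat_lit 84) (nat_lit 132225514) (nat_lit 97) (nat_lit 5) (nat_lit 107) (nat_lit 5) (nat_lit 98) (nat_lit 5) (nat_lit 326) (nat_lit 310) (nat_lit 252)) (XT.nd (nat_lit 94) (nat_lit 0) (nat_lit 0) (XT.lf (nat_lit 0) (nat_lit 2607299467) (nat_lit 840) (nat_lit 4157324013) (nat_lit 84) (nat_lit 2351668625) (nat_lit 97) (nat_lit 5) (nat_lit 107) (nat_lit 5) (nat_lit 98) (nat_lit 5) (nat_lit 327) (nat_lit 310) (nat_lit 251)) (XT.lf (nat_lit 0) (nat_lit 3700239649) (nat_lit 840) (nat_lit 907454599) (nat_lit 84) (nat_lit 4647470033) (nat_lit 97) (nat_lit 5) (nat_lit 107) (nat_lit 5) (nat_lit 98) (nat_lit 5) (nat_lit 328) (nat_lit 310) (nat_lit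 250)))) (XT.nd (nat_lit 94) (nat_lit 0) (nat_lit 0) (XT.lf (nat_lit 0) (nat_lit 2470037452) (nat_lit 840) (nat_lit 2352433105) (nat_lit 924) (nat_lit 4576235290) (nat_lit 87) (nat_lit 5) (nat_lit 97) (nat_lit 5) (nat_lit 98) (nat_lit 5) (nat_lit 329) (nat_lit 310) (nat_lit 249)) (XT.nd (nat_lit 94) (nat_lit 0) (nat_lit 0) (XT.lf (nat_lit 0) (nat_lit 5948811988) (nat_lit 840) (nat_lit 11707122) (nat_lit 924) (nat_lit 3586981581) (nat_lit 87) (nat_lit 5) (nat_lit 97) (nat_lit 5) (nat_lit 98) (nat_lit 5) (nat_lit 330) (nat_lit 310) (nat_lit 248)) (XT.lf (nat_lit 0) (nat_lit 7130138583) (nat_lit 924) (nat_lit 212399505) (nat_lit 84) (nat_lit 2358693950) (nat_lit 87) (nat_lit 5) (nat_lit 98) (nat_lit 5) (nat_lit 88) (nat_lit 5) (nat_lit 331) (nat_lit 310) (nat_lit 247))))) (XT.nd (nat_lit 282) (nat_lit 504) (nat_lit 0) (XT.nd (nat_lit 94) (nat_lit 756) (nat_lit 0) (XT.lf (nat_lit 0) (nat_lit 3323300587)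 (nat_lit 924) (nat_lit 5019098237) (nat_lit 1008) (nat_lit 1517334988) (nat_lit 76) (nat_lit 5) (nat_lit 87) (nat_lit 5) (nat_lit 88) (nat_lit 5) (nat_lit 332) (nat_lit 310) (nat_lit 246)) (XT.nd (nat_lit 94) (nat_lit 756) (nat_lit 0) (XT.lf (nat_lit 0) (nat_lit 6950935500) (nat_lit 924) (nat_lit 2617398903) (nat_lit 1008) (nat_lit 455752308) (nat_lit 76) (nat_lit 5) (nat_lit 87) (nat_lit 5) (nat_lit 88) (nat_lit 5) (nat_lit 333) (nat_lit 310) (nat_lit 245)) (XT.lf (nat_lit 0) (nat_lit 478575485) (nat_lit 672) (nat_lit 126260078) (nat_lit 756) (nat_lit 9589339520) (nat_lit 67) (nat_lit 5) (nat_lit 75) (nat_lit 5) (nat_lit 76) (nat_lit 5) (nat_lit 334) (nat_lit 310) (nat_lit 244)))) (XT.nd (nat_lit 188) (nat_lit 504) (nat_lit 0) (XT.nd (nat_lit 94) (nat_lit 0) (nat_lit 0) (XT.lf (nat_lit 0) (nat_lit 1720272846) (nat_lit 756) (nat_lit 6215193466) (nat_lit 84) (nat_lit 2433130120) (nat_lit 67)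 (nat_lit 5) (nat_lit 76) (nat_lit 5) (nat_lit 68) (nat_lit 5) (nat_lit 335) (nat_lit 310) (nat_lit 243)) (XT.lf (nat_lit 0) (nat_lit 2847144321) (nat_lit 756) (nat_lit 2629866037) (nat_lit 84) (nat_lit 5072305892) (nat_lit 67) (nat_lit 5) (nat_lit 76) (nat_lit 5) (nat_lit 68) (nat_lit 5) (nat_lit 336) (nat_lit 310) (nat_lit 242))) (XT.nd (nat_lit 94) (nat_lit 0) (nat_lit 0) (XT.lf (nat_lit 0) (nat_lit 1066463976) (nat_lit 504) (nat_lit 2929363315) (nat_lit 588) (nat_lit 6740386561) (nat_lit 61) (nat_lit 5) (nat_lit 67) (nat_lit 5) (nat_lit 68) (nat_lit 5) (nat_lit 337) (nat_lit 310) (nat_lit 241)) (XT.lf (nat_lit 0) (nat_lit 4911721541) (nat_lit 504) (nat_lit 272647569) (nat_lit 588) (nat_lit 5744568060) (nat_lit 61) (nat_lit 5) (nat_lit 67) (nat_lit 5) (nat_lit 68) (nat_lit 5) (nat_lit 338) (nat_lit 310) (nat_lit 240))))))) (XT.nd (nat_lit 53768) (nat_lit 0) (nat_lit 3108) (XT.nd (nat_lit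 53110) (nat_lit 0) (nat_lit 4536) (XT.nd (nat_lit 282) (nat_lit 504) (nat_lit 0) (XT.nd (nat_lit 94) (nat_lit 420) (nat_lit 0) (XT.lf (nat_lit 0) (nat_lit 6411737071) (nat_lit 588) (nat_lit 2297560300) (nat_lit 84) (nat_lit 2418434828) (nat_lit 61) (nat_lit 5) (nat_lit 68) (nat_lit 5) (nat_lit 62) (nat_lit 5) (nat_lit 339) (nat_lit 310) (nat_lit 239)) (XT.nd (nat_lit 94) (nat_lit 0) (nat_lit 0) (XT.lf (nat_lit 0) (nat_lit 1544749513) (nat_lit 420) (nat_lit 6128706770) (nat_lit 504) (nat_lit 3659502140) (nat_lit 56) (nat_lit 5) (nat_lit 61) (nat_lit 5) (nat_lit 62) (nat_lit 5) (nat_lit 340) (nat_lit 310) (nat_lit 238)) (XT.lf (nat_lit 0) (nat_lit 5534100955) (nat_lit 420) (nat_lit 3442809513) (nat_lit 504) (nat_lit 2567704229) (nat_lit 56) (nat_lit 5) (nat_lit 61) (nat_lit 5) (nat_lit 62) (nat_lit 5) (nat_lit 341) (nat_lit 310) (nat_lit 237)))) (XT.nd (nat_lit 94) (nat_lit 504) (nat_lit 0) (XT.lf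 (nat_lit 0) (nat_lit 9626969966) (nat_lit 420) (nat_lit 673083880) (nat_lit 504) (nat_lit 1463565544) (nat_lit 56) (nat_lit 5) (nat_lit 61) (nat_lit 5) (nat_lit 62) (nat_lit 5) (nat_lit 342) (nat_lit 310) (nat_lit 236)) (XT.nd (nat_lit 94) (nat_lit 84) (nat_lit 0) (XT.lf (nat_lit 0) (nat_lit 1852665835) (nat_lit 420) (nat_lit 9831488709) (nat_lit 504) (nat_lit 304781013) (nat_lit 51) (nat_lit 5) (nat_lit 56) (nat_lit 5) (nat_lit 57) (nat_lit 5) (nat_lit 343) (nat_lit 310) (nat_lit 235)) (XT.lf (nat_lit 0) (nat_lit 881390448) (nat_lit 504) (nat_lit 6246193140) (nat_lit 84) (nat_lit 5093220177) (nat_lit 50) (nat_lit 5) (nat_lit 56) (nat_lit 5) (nat_lit 51) (nat_lit 5) (nat_lit 344) (nat_lit 310) (nat_lit 234))))) (XT.nd (nat_lit 282) (nat_lit 672) (nat_lit 0) (XT.nd (nat_lit 94) (nat_lit 0) (nat_lit 0) (XT.lf (nat_lit 0) (nat_lit 1212984313) (nat_lit 756) (nat_lit 1281001290) (nat_lit 756) (nat_lit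 1281001290) (nat_lit 112) (nat_lit 3) (nat_lit 121) (nat_lit 3) (nat_lit 121) (nat_lit 5) (nat_lit 311) (nat_lit 311) (nat_lit 266)) (XT.nd (nat_lit 94) (nat_lit 0) (nat_lit 0) (XT.lf (nat_lit 0) (nat_lit 3538205944) (nat_lit 756) (nat_lit 8654923) (nat_lit 756) (nat_lit 4077564297) (nat_lit 112) (nat_lit 3) (nat_lit 121) (nat_lit 3) (nat_lit 121) (nat_lit 5) (nat_lit 312) (nat_lit 311) (nat_lit 265)) (XT.lf (nat_lit 84) (nat_lit 2654826089) (nat_lit 0) (nat_lit 2013129741) (nat_lit 756) (nat_lit 3034127793) (nat_lit 113) (nat_lit 5) (nat_lit 112) (nat_lit 3) (nat_lit 121) (nat_lit 5) (nat_lit 313) (nat_lit 311) (nat_lit 264)))) (XT.nd (nat_lit 188) (nat_lit 672) (nat_lit 0) (XT.nd (nat_lit 94) (nat_lit 0) (nat_lit 84) (XT.lf (nat_lit 84) (nat_lit 5378777126) (nat_lit 0) (nat_lit 411819179) (nat_lit 756) (nat_lit 1993221169) (nat_lit 113) (nat_lit 5) (nat_lit 112) (nat_lit 3) (nat_lit 121)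 (nat_lit 5) (nat_lit 314) (nat_lit 311) (nat_lit 263)) (XT.lf (nat_lit 84) (nat_lit 289196061) (nat_lit 0) (nat_lit 6633243173) (nat_lit 756) (nat_lit 946790440) (nat_lit 114) (nat_lit 5) (nat_lit 113) (nat_lit 5) (nat_lit 122) (nat_lit 5) (nat_lit 315) (nat_lit 311) (nat_lit 262))) (XT.nd (nat_lit 94) (nat_lit 0) (nat_lit 0) (XT.lf (nat_lit 0) (nat_lit 118485572) (nat_lit 756) (nat_lit 4868700762) (nat_lit 840) (nat_lit 2970731849) (nat_lit 104) (nat_lit 5) (nat_lit 113) (nat_lit 5) (nat_lit 114) (nat_lit 5) (nat_lit 316) (nat_lit 311) (nat_lit 261)) (XT.lf (nat_lit 0) (nat_lit 1157830647) (nat_lit 756) (nat_lit 2106617661) (nat_lit 840) (nat_lit 4786145748) (nat_lit 104) (nat_lit 5) (nat_lit 113) (nat_lit 5) (nat_lit 114) (nat_lit 5) (nat_lit 317) (nat_lit 311) (nat_lit 260)))))) (XT.nd (nat_lit 658) (nat_lit 1428) (nat_lit 0) (XT.nd (nat_lit 282) (nat_lit 0) (nat_lit 84) (XT.nd (nat_lit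 94) (nat_lit 0) (nat_lit 84) (XT.lf (nat_lit 84) (nat_lit 732949824) (nat_lit 0) (nat_lit 1465610408) (nat_lit 840) (nat_lit 5948849206) (nat_lit 105) (nat_lit 5) (nat_lit 104) (nat_lit 5) (nat_lit 114) (nat_lit 5) (nat_lit 318) (nat_lit 311) (nat_lit 259)) (XT.nd (nat_lit 94) (nat_lit 0) (nat_lit 0) (XT.lf (nat_lit 0) (nat_lit 3260583565) (nat_lit 756) (nat_lit 4569698681) (nat_lit 840) (nat_lit 417585211) (nat_lit 105) (nat_lit 5) (nat_lit 114) (nat_lit 5) (nat_lit 115) (nat_lit 5) (nat_lit 319) (nat_lit 311) (nat_lit 258)) (XT.lf (nat_lit 0) (nat_lit 4334591750) (nat_lit 756) (nat_lit 1675283638) (nat_lit 840) (nat_lit 2342505627) (nat_lit 105) (nat_lit 5) (nat_lit 114) (nat_lit 5) (nat_lit 115) (nat_lit 5) (nat_lit 320) (nat_lit 311) (nat_lit 257)))) (XT.nd (nat_lit 188) (nat_lit 0) (nat_lit 0) (XT.nd (nat_lit 94) (nat_lit 0) (nat_lit 0) (XT.lf (nat_lit 84) (nat_lit 1312465709) (nat_lit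 0) (nat_lit 4107600951) (nat_lit 840) (nat_lit 3041027963) (nat_lit 106) (nat_lit 5) (nat_lit 105) (nat_lit 5) (nat_lit 115) (nat_lit 5) (nat_lit 321) (nat_lit 311) (nat_lit 256)) (XT.lf (nat_lit 84) (nat_lit 4405745789) (nat_lit 0) (nat_lit 2116908224) (nat_lit 840) (nat_lit 2051311949) (nat_lit 106) (nat_lit 5) (nat_lit 105) (nat_lit 5) (nat_lit 115) (nat_lit 5) (nat_lit 322) (nat_lit 311) (nat_lit 255))) (XT.nd (nat_lit 94) (nat_lit 0) (nat_lit 84) (XT.lf (nat_lit 84) (nat_lit 7572992597) (nat_lit 0) (nat_lit 53428197) (nat_lit 840) (nat_lit 1065205229) (nat_lit 106) (nat_lit 5) (nat_lit 105) (nat_lit 5) (nat_lit 115) (nat_lit 5) (nat_lit 323) (nat_lit 311) (nat_lit 254)) (XT.lf (nat_lit 84) (nat_lit 2023052759) (nat_lit 0) (nat_lit 6750093105) (nat_lit 840) (nat_lit 39775363) (nat_lit 107) (nat_lit 5) (nat_lit 106) (nat_lit 5) (nat_lit 116) (nat_lit 5) (nat_lit 324) (nat_lit 311) (nat_lit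 253))))) (XT.nd (nat_lit 282) (nat_lit 756) (nat_lit 0) (XT.nd (nat_lit 94) (nat_lit 0) (nat_lit 0) (XT.lf (nat_lit 0) (nat_lit 977556273) (nat_lit 840) (nat_lit 3685817934) (nat_lit 924) (nat_lit 4275133841) (nat_lit 96) (nat_lit 5) (nat_lit 106) (nat_lit 5) (nat_lit 107) (nat_lit 5) (nat_lit 325) (nat_lit 311) (nat_lit 252)) (XT.nd (nat_lit 94) (nat_lit 0) (nat_lit 0) (XT.lf (nat_lit 0) (nat_lit 1994823547) (nat_lit 840) (nat_lit 508538311) (nat_lit 924) (nat_lit 6565803660) (nat_lit 96) (nat_lit 5) (nat_lit 106) (nat_lit 5) (nat_lit 107) (nat_lit 5) (nat_lit 326) (nat_lit 311) (nat_lit 251)) (XT.lf (nat_lit 84) (nat_lit 2801776077) (nat_lit 0) (nat_lit 239793931) (nat_lit 924) (nat_lit 6162596033) (nat_lit 97) (nat_lit 5) (nat_lit 96) (nat_lit 5) (nat_lit 107) (nat_lit 5) (nat_lit 327) (nat_lit 311) (nat_lit 250)))) (XT.nd (nat_lit 188) (nat_lit 0) (nat_lit 0) (XT.nd (nat_lit 94) (nat_lit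 840) (nat_lit 0) (XT.lf (nat_lit 0) (nat_lit 4117806690) (nat_lit 840) (nat_lit 3161411615) (nat_lit 84) (nat_lit 2064447051) (nat_lit 97) (nat_lit 5) (nat_lit 107) (nat_lit 5) (nat_lit 98) (nat_lit 5) (nat_lit 328) (nat_lit 311) (nat_lit 249)) (XT.lf (nat_lit 0) (nat_lit 158578706) (nat_lit 840) (nat_lit 5044634934) (nat_lit 924) (nat_lit 4285240866) (nat_lit 87) (nat_lit 5) (nat_lit 97) (nat_lit 5) (nat_lit 98) (nat_lit 5) (nat_lit 329) (nat_lit 311) (nat_lit 248))) (XT.nd (nat_lit 94) (nat_lit 0) (nat_lit 0) (XT.lf (nat_lit 0) (nat_lit 3626532920) (nat_lit 840) (nat_lit 2701145697) (nat_lit 924) (nat_lit 3310094679) (nat_lit 87) (nat_lit 5) (nat_lit 97) (nat_lit 5) (nat_lit 98) (nat_lit 5) (nat_lit 330) (nat_lit 311) (nat_lit 247)) (XT.lf (nat_lit 0) (nat_lit 7180678415) (nat_lit 840) (nat_lit 279564870) (nat_lit 924) (nat_lit 2332509818) (nat_lit 87) (nat_lit 5) (nat_lit 97) (nat_lit 5)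 (nat_lit 98) (nat_lit 5) (nat_lit 331) (nat_lit 311) (nat_lit 246))))))))
noncomputable def xc25 : XT := (XT.nd (nat_lit 55272) (nat_lit 0) (nat_lit 0) (XT.nd (nat_lit 53956) (nat_lit 0) (nat_lit 3276) (XT.nd (nat_lit 564) (nat_lit 924) (nat_lit 0) (XT.nd (nat_lit 282) (nat_lit 672) (nat_lit 0) (XT.nd (nat_lit 94) (nat_lit 84) (nat_lit 0) (XT.lf (nat_lit 0) (nat_lit 866195413) (nat_lit 924) (nat_lit 7766406798) (nat_lit 1008) (nat_lit 1319986370) (nat_lit 76) (nat_lit 5) (nat_lit 87) (nat_lit 5) (nat_lit 88) (nat_lit 5) (nat_lit 332) (nat_lit 311) (nat_lit 245)) (XT.nd (nat_lit 94) (nat_lit 84) (nat_lit 0) (XT.lf (nat_lit 0) (nat_lit 4483240521) (nat_lit 924) (nat_lit 5362822470) (nat_lit 1008) (nat_lit 271359060) (nat_lit 76) (nat_lit 5) (nat_lit 87) (nat_lit 5) (nat_lit 88) (nat_lit 5) (nat_lit 333) (nat_lit 311) (nat_lit 244)) (XT.lf (nat_lit 0) (nat_lit 768453513) (nat_lit 1008) (nat_lit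 2104539127) (nat_lit 84) (nat_lit 7415078237) (nat_lit 75) (nat_lit 5) (nat_lit 87) (nat_lit 5) (nat_lit 76) (nat_lit 5) (nat_lit 334) (nat_lit 311) (nat_lit 243)))) (XT.nd (nat_lit 94) (nat_lit 0) (nat_lit 0) (XT.lf (nat_lit 0) (nat_lit 1541906188) (nat_lit 672) (nat_lit 283998125) (nat_lit 756) (nat_lit 8638471132) (nat_lit 67) (nat_lit 5) (nat_lit 75) (nat_lit 5) (nat_lit 76) (nat_lit 5) (nat_lit 335) (nat_lit 311) (nat_lit 242)) (XT.nd (nat_lit 94) (nat_lit 0) (nat_lit 0) (XT.lf (nat_lit 0) (nat_lit 2938288884) (nat_lit 756) (nat_lit 5344974181) (nat_lit 84) (nat_lit 2362364356) (nat_lit 67) (nat_lit 5) (nat_lit 76) (nat_lit 5) (nat_lit 68) (nat_lit 5) (nat_lit 336) (nat_lit 311) (nat_lit 241)) (XT.lf (nat_lit 0) (nat_lit 4065073671) (nat_lit 756) (nat_lit 1680460476) (nat_lit 84) (nat_lit 5087750286) (nat_lit 67) (nat_lit 5) (nat_lit 76) (nat_lit 5) (nat_lit 68) (nat_lit 5) (nat_lit 337)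 (nat_lit 311) (nat_lit 240))))) (XT.nd (nat_lit 282) (nat_lit 420) (nat_lit 0) (XT.nd (nat_lit 94) (nat_lit 0) (nat_lit 0) (XT.lf (nat_lit 0) (nat_lit 2120018514) (nat_lit 504) (nat_lit 3105503992) (nat_lit 588) (nat_lit 5801434271) (nat_lit 61) (nat_lit 5) (nat_lit 67) (nat_lit 5) (nat_lit 68) (nat_lit 5) (nat_lit 338) (nat_lit 311) (nat_lit 239)) (XT.nd (nat_lit 94) (nat_lit 0) (nat_lit 0) (XT.lf (nat_lit 0) (nat_lit 6053794951) (nat_lit 504) (nat_lit 363864352) (nat_lit 588) (nat_lit 4809260462) (nat_lit 61) (nat_lit 5) (nat_lit 67) (nat_lit 5) (nat_lit 68) (nat_lit 5) (nat_lit 339) (nat_lit 311) (nat_lit 238)) (XT.lf (nat_lit 0) (nat_lit 7650029257) (nat_lit 588) (nat_lit 1368352530) (nat_lit 84) (nat_lit 2414747545) (nat_lit 61) (nat_lit 5) (nat_lit 68) (nat_lit 5) (nat_lit 62) (nat_lit 5) (nat_lit 340) (nat_lit 311) (nat_lit 237)))) (XT.nd (nat_lit 188) (nat_lit 0) (nat_lit 0) (XT.nd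 (nat_lit 94) (nat_lit 0) (nat_lit 0) (XT.lf (nat_lit 0) (nat_lit 2582940410) (nat_lit 420) (nat_lit 6346488860) (nat_lit 504) (nat_lit 2716173320) (nat_lit 56) (nat_lit 5) (nat_lit 61) (nat_lit 5) (nat_lit 62) (nat_lit 5) (nat_lit 341) (nat_lit 311) (nat_lit 236)) (XT.lf (nat_lit 0) (nat_lit 6666185400) (nat_lit 420) (nat_lit 3576493136) (nat_lit 504) (nat_lit 1622304625) (nat_lit 56) (nat_lit 5) (nat_lit 61) (nat_lit 5) (nat_lit 62) (nat_lit 5) (nat_lit 342) (nat_lit 311) (nat_lit 235))) (XT.nd (nat_lit 52828) (nat_lit 0) (nat_lit 4704) (XT.lf (nat_lit 0) (nat_lit 10857052316) (nat_lit 420) (nat_lit 720095482) (nat_lit 504) (nat_lit 514757186) (nat_lit 56) (nat_lit 5) (nat_lit 61) (nat_lit 5) (nat_lit 62) (nat_lit 5) (nat_lit 343) (nat_lit 311) (nat_lit 234)) (XT.lf (nat_lit 0) (nat_lit 2314561121) (nat_lit 756) (nat_lit 767649740) (nat_lit 756) (nat_lit 767649740) (nat_lit 112) (nat_lit 3)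 (nat_lit 121) (nat_lit 3) (nat_lit 121) (nat_lit 5) (nat_lit 312) (nat_lit 312) (nat_lit 264)))))) (XT.nd (nat_lit 658) (nat_lit 756) (nat_lit 0) (XT.nd (nat_lit 282) (nat_lit 672) (nat_lit 0) (XT.nd (nat_lit 94) (nat_lit 0) (nat_lit 0) (XT.lf (nat_lit 84) (nat_lit 1085819949) (nat_lit 0) (nat_lit 4636807501) (nat_lit 756) (nat_lit 2056053986) (nat_lit 113) (nat_lit 5) (nat_lit 112) (nat_lit 3) (nat_lit 121) (nat_lit 5) (nat_lit 313) (nat_lit 312) (nat_lit 263)) (XT.nd (nat_lit 94) (nat_lit 0) (nat_lit 0) (XT.lf (nat_lit 84) (nat_lit 3799130213) (nat_lit 0) (nat_lit 3025974015) (nat_lit 756) (nat_lit 1036108964) (nat_lit 113) (nat_lit 5) (nat_lit 112) (nat_lit 3) (nat_lit 121) (nat_lit 5) (nat_lit 314) (nat_lit 312) (nat_lit 262)) (XT.lf (nat_lit 84) (nat_lit 6575591492) (nat_lit 0) (nat_lit 1346445177) (nat_lit 756) (nat_lit 25838581) (nat_lit 113) (nat_lit 5) (nat_lit 112) (nat_lit 3) (nat_lit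 121) (nat_lit 5) (nat_lit 315) (nat_lit 312) (nat_lit 261)))) (XT.nd (nat_lit 188) (nat_lit 0) (nat_lit 0) (XT.nd (nat_lit 94) (nat_lit 0) (nat_lit 0) (XT.lf (nat_lit 0) (nat_lit 974146281) (nat_lit 756) (nat_lit 6644739346) (nat_lit 840) (nat_lit 419001438) (nat_lit 104) (nat_lit 5) (nat_lit 113) (nat_lit 5) (nat_lit 114) (nat_lit 5) (nat_lit 316) (nat_lit 312) (nat_lit 260)) (XT.lf (nat_lit 0) (nat_lit 1994729101) (nat_lit 756) (nat_lit 3893935170) (nat_lit 840) (nat_lit 2242633259) (nat_lit 104) (nat_lit 5) (nat_lit 113) (nat_lit 5) (nat_lit 114) (nat_lit 5) (nat_lit 317) (nat_lit 312) (nat_lit 259))) (XT.nd (nat_lit 94) (nat_lit 0) (nat_lit 0) (XT.lf (nat_lit 0) (nat_lit 3009989620) (nat_lit 756) (nat_lit 1080074782) (nat_lit 840) (nat_lit 4138986415) (nat_lit 104) (nat_lit 5) (nat_lit 113) (nat_lit 5) (nat_lit 114) (nat_lit 5) (nat_lit 318) (nat_lit 312) (nat_lit 258)) (XT.lf (nat_lit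 84) (nat_lit 1836465314) (nat_lit 0) (nat_lit 2202626816) (nat_lit 840) (nat_lit 4291581153) (nat_lit 105) (nat_lit 5) (nat_lit 104) (nat_lit 5) (nat_lit 114) (nat_lit 5) (nat_lit 319) (nat_lit 312) (nat_lit 257))))) (XT.nd (nat_lit 282) (nat_lit 756) (nat_lit 0) (XT.nd (nat_lit 94) (nat_lit 0) (nat_lit 84) (XT.lf (nat_lit 84) (nat_lit 4844982706) (nat_lit 0) (nat_lit 231405115) (nat_lit 840) (nat_lit 3360076682) (nat_lit 105) (nat_lit 5) (nat_lit 104) (nat_lit 5) (nat_lit 114) (nat_lit 5) (nat_lit 320) (nat_lit 312) (nat_lit 256)) (XT.nd (nat_lit 94) (nat_lit 0) (nat_lit 0) (XT.lf (nat_lit 0) (nat_lit 6129905509) (nat_lit 756) (nat_lit 638785704) (nat_lit 840) (nat_lit 1777612951) (nat_lit 105) (nat_lit 5) (nat_lit 114) (nat_lit 5) (nat_lit 115) (nat_lit 5) (nat_lit 321) (nat_lit 312) (nat_lit 255)) (XT.lf (nat_lit 84) (nat_lit 2430564479) (nat_lit 0) (nat_lit 4779212714) (nat_lit 840) (nat_lit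 1450233804) (nat_lit 106) (nat_lit 5) (nat_lit 105) (nat_lit 5) (nat_lit 115) (nat_lit 5) (nat_lit 322) (nat_lit 312) (nat_lit 254)))) (XT.nd (nat_lit 188) (nat_lit 0) (nat_lit 84) (XT.nd (nat_lit 94) (nat_lit 840) (nat_lit 0) (XT.lf (nat_lit 84) (nat_lit 5587340721) (nat_lit 0) (nat_lit 2710443274) (nat_lit 840) (nat_lit 480502982) (nat_lit 106) (nat_lit 5) (nat_lit 105) (nat_lit 5) (nat_lit 115) (nat_lit 5) (nat_lit 323) (nat_lit 312) (nat_lit 253)) (XT.lf (nat_lit 0) (nat_lit 477217516) (nat_lit 840) (nat_lit 84923508) (nat_lit 924) (nat_lit 8339152034) (nat_lit 95) (nat_lit 5) (nat_lit 105) (nat_lit 5) (nat_lit 106) (nat_lit 5) (nat_lit 324) (nat_lit 312) (nat_lit 252))) (XT.nd (nat_lit 94) (nat_lit 0) (nat_lit 0) (XT.lf (nat_lit 0) (nat_lit 1472149853) (nat_lit 840) (nat_lit 5889870600) (nat_lit 924) (nat_lit 1665632944) (nat_lit 96) (nat_lit 5) (nat_lit 106) (nat_lit 5) (nat_lit 107)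 (nat_lit 5) (nat_lit 325) (nat_lit 312) (nat_lit 251)) (XT.lf (nat_lit 0) (nat_lit 2474719902) (nat_lit 840) (nat_lit 2723378986) (nat_lit 924) (nat_lit 3960780312) (nat_lit 96) (nat_lit 5) (nat_lit 106) (nat_lit 5) (nat_lit 107) (nat_lit 5) (nat_lit 326) (nat_lit 312) (nat_lit 250))))))) (XT.nd (nat_lit 1222) (nat_lit 420) (nat_lit 0) (XT.nd (nat_lit 564) (nat_lit 2184) (nat_lit 0) (XT.nd (nat_lit 282) (nat_lit 756) (nat_lit 0) (XT.nd (nat_lit 94) (nat_lit 0) (nat_lit 0) (XT.lf (nat_lit 84) (nat_lit 530714945) (nat_lit 0) (nat_lit 2953966900) (nat_lit 924) (nat_lit 5810447528) (nat_lit 97) (nat_lit 5) (nat_lit 96) (nat_lit 5) (nat_lit 107) (nat_lit 5) (nat_lit 327) (nat_lit 312) (nat_lit 249)) (XT.nd (nat_lit 94) (nat_lit 0) (nat_lit 84) (XT.lf (nat_lit 84) (nat_lit 3922383502) (nat_lit 0) (nat_lit 603704919) (nat_lit 924) (nat_lit 4909726042) (nat_lit 97) (nat_lit 5) (nat_lit 96) (nat_lit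 5) (nat_lit 107) (nat_lit 5) (nat_lit 328) (nat_lit 312) (nat_lit 248)) (XT.lf (nat_lit 0) (nat_lit 5590457188) (nat_lit 840) (nat_lit 2201249136) (nat_lit 84) (nat_lit 1789652329) (nat_lit 97) (nat_lit 5) (nat_lit 107) (nat_lit 5) (nat_lit 98) (nat_lit 5) (nat_lit 329) (nat_lit 312) (nat_lit 247)))) (XT.nd (nat_lit 94) (nat_lit 0) (nat_lit 0) (XT.lf (nat_lit 0) (nat_lit 1210947902) (nat_lit 840) (nat_lit 5468513444) (nat_lit 924) (nat_lit 3052415142) (nat_lit 87) (nat_lit 5) (nat_lit 97) (nat_lit 5) (nat_lit 98) (nat_lit 5) (nat_lit 330) (nat_lit 312) (nat_lit 246)) (XT.nd (nat_lit 94) (nat_lit 0) (nat_lit 0) (XT.lf (nat_lit 0) (nat_lit 4754913981) (nat_lit 840) (nat_lit 3044333034) (nat_lit 924) (nat_lit 2088102191) (nat_lit 87) (nat_lit 5) (nat_lit 97) (nat_lit 5) (nat_lit 98) (nat_lit 5) (nat_lit 331) (nat_lit 312) (nat_lit 245)) (XT.lf (nat_lit 0) (nat_lit 8388690252) (nat_lit 840) (nat_lit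 539882031) (nat_lit 924) (nat_lit 1120040297) (nat_lit 87) (nat_lit 5) (nat_lit 97) (nat_lit 5) (nat_lit 98) (nat_lit 5) (nat_lit 332) (nat_lit 312) (nat_lit 244))))) (XT.nd (nat_lit 282) (nat_lit 1176) (nat_lit 0) (XT.nd (nat_lit 94) (nat_lit 84) (nat_lit 0) (XT.lf (nat_lit 0) (nat_lit 1918185799) (nat_lit 924) (nat_lit 8189640858) (nat_lit 1008) (nat_lit 106770823) (nat_lit 76) (nat_lit 5) (nat_lit 87) (nat_lit 5) (nat_lit 88) (nat_lit 5) (nat_lit 333) (nat_lit 312) (nat_lit 243)) (XT.nd (nat_lit 94) (nat_lit 0) (nat_lit 0) (XT.lf (nat_lit 0) (nat_lit 917783223) (nat_lit 1008) (nat_lit 4778695766) (nat_lit 84) (nat_lit 4689172555) (nat_lit 75) (nat_lit 5) (nat_lit 87) (nat_lit 5) (nat_lit 76) (nat_lit 5) (nat_lit 334) (nat_lit 312) (nat_lit 242)) (XT.lf (nat_lit 0) (nat_lit 1948354766) (nat_lit 1008) (nat_lit 1173300666) (nat_lit 84) (nat_lit 7441217002) (nat_lit 75) (nat_lit 5) (nat_lit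 87) (nat_lit 5) (nat_lit 76) (nat_lit 5) (nat_lit 335) (nat_lit 312) (nat_lit 241)))) (XT.nd (nat_lit 188) (nat_lit 504) (nat_lit 0) (XT.nd (nat_lit 94) (nat_lit 0) (nat_lit 0) (XT.lf (nat_lit 0) (nat_lit 2576095996) (nat_lit 672) (nat_lit 437514794) (nat_lit 756) (nat_lit 7732055170) (nat_lit 67) (nat_lit 5) (nat_lit 75) (nat_lit 5) (nat_lit 76) (nat_lit 5) (nat_lit 336) (nat_lit 312) (nat_lit 240)) (XT.lf (nat_lit 0) (nat_lit 4125076979) (nat_lit 756) (nat_lit 4510734910) (nat_lit 84) (nat_lit 2298064103) (nat_lit 67) (nat_lit 5) (nat_lit 76) (nat_lit 5) (nat_lit 68) (nat_lit 5) (nat_lit 337) (nat_lit 312) (nat_lit 239))) (XT.nd (nat_lit 94) (nat_lit 504) (nat_lit 0) (XT.lf (nat_lit 0) (nat_lit 5253846668) (nat_lit 756) (nat_lit 762687175) (nat_lit 84) (nat_lit 5112072342) (nat_lit 67) (nat_lit 5) (nat_lit 76) (nat_lit 5) (nat_lit 68) (nat_lit 5) (nat_lit 338) (nat_lit 312) (nat_lit 238))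 (XT.lf (nat_lit 0) (nat_lit 3145787625) (nat_lit 504) (nat_lit 3282050764) (nat_lit 588) (nat_lit 4901366796) (nat_lit 61) (nat_lit 5) (nat_lit 67) (nat_lit 5) (nat_lit 68) (nat_lit 5) (nat_lit 339) (nat_lit 312) (nat_lit 237)))))) (XT.nd (nat_lit 53486) (nat_lit 0) (nat_lit 3948) (XT.nd (nat_lit 282) (nat_lit 0) (nat_lit 0) (XT.nd (nat_lit 94) (nat_lit 420) (nat_lit 0) (XT.lf (nat_lit 0) (nat_lit 7172644494) (nat_lit 504) (nat_lit 453006560) (nat_lit 588) (nat_lit 3910906278) (nat_lit 61) (nat_lit 5) (nat_lit 67) (nat_lit 5) (nat_lit 68) (nat_lit 5) (nat_lit 340) (nat_lit 312) (nat_lit 236)) (XT.nd (nat_lit 94) (nat_lit 420) (nat_lit 0) (XT.lf (nat_lit 0) (nat_lit 8865135458) (nat_lit 588) (nat_lit 469596628) (nat_lit 84) (nat_lit 2415605049) (nat_lit 61) (nat_lit 5) (nat_lit 68) (nat_lit 5) (nat_lit 62) (nat_lit 5) (nat_lit 341) (nat_lit 312) (nat_lit 235)) (XT.lf (nat_lit 0) (nat_lit 3594657843)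 (nat_lit 420) (nat_lit 6569376017) (nat_lit 504) (nat_lit 1806195803) (nat_lit 56) (nat_lit 5) (nat_lit 61) (nat_lit 5) (nat_lit 62) (nat_lit 5) (nat_lit 342) (nat_lit 312) (nat_lit 234)))) (XT.nd (nat_lit 53016) (nat_lit 0) (nat_lit 3948) (XT.nd (nat_lit 52922) (nat_lit 0) (nat_lit 4704) (XT.lf (nat_lit 0) (nat_lit 7776470785) (nat_lit 420) (nat_lit 3712724270) (nat_lit 504) (nat_lit 708310046) (nat_lit 56) (nat_lit 5) (nat_lit 61) (nat_lit 5) (nat_lit 62) (nat_lit 5) (nat_lit 343) (nat_lit 312) (nat_lit 233)) (XT.lf (nat_lit 0) (nat_lit 3387265791) (nat_lit 756) (nat_lit 271143137) (nat_lit 756) (nat_lit 271143137) (nat_lit 112) (nat_lit 3) (nat_lit 121) (nat_lit 3) (nat_lit 121) (nat_lit 5) (nat_lit 313) (nat_lit 313) (nat_lit 262))) (XT.nd (nat_lit 94) (nat_lit 756) (nat_lit 0) (XT.lf (nat_lit 84) (nat_lit 2149552642) (nat_lit 0) (nat_lit 5702408138) (nat_lit 756) (nat_lit 90619215) (nat_lit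 113) (nat_lit 5) (nat_lit 112) (nat_lit 3) (nat_lit 121) (nat_lit 5) (nat_lit 314) (nat_lit 313) (nat_lit 261)) (XT.lf (nat_lit 0) (nat_lit 881799549) (nat_lit 756) (nat_lit 3122916707) (nat_lit 840) (nat_lit 4024999690) (nat_lit 103) (nat_lit 5) (nat_lit 112) (nat_lit 3) (nat_lit 113) (nat_lit 5) (nat_lit 315) (nat_lit 313) (nat_lit 260))))) (XT.nd (nat_lit 282) (nat_lit 0) (nat_lit 84) (XT.nd (nat_lit 94) (nat_lit 0) (nat_lit 0) (XT.lf (nat_lit 0) (nat_lit 1844416522) (nat_lit 756) (nat_lit 391772811) (nat_lit 840) (nat_lit 5884825711) (nat_lit 103) (nat_lit 5) (nat_lit 112) (nat_lit 3) (nat_lit 113) (nat_lit 5) (nat_lit 316) (nat_lit 313) (nat_lit 259)) (XT.nd (nat_lit 94) (nat_lit 0) (nat_lit 84) (XT.lf (nat_lit 84) (nat_lit 2453277065) (nat_lit 0) (nat_lit 371014483) (nat_lit 840) (nat_lit 5391544265) (nat_lit 104) (nat_lit 5) (nat_lit 103) (nat_lit 5) (nat_lit 113) (nat_lit 5) (nat_lit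 317) (nat_lit 313) (nat_lit 258)) (XT.lf (nat_lit 0) (nat_lit 3818220624) (nat_lit 756) (nat_lit 2955628706) (nat_lit 840) (nat_lit 1540544947) (nat_lit 104) (nat_lit 5) (nat_lit 113) (nat_lit 5) (nat_lit 114) (nat_lit 5) (nat_lit 318) (nat_lit 313) (nat_lit 257)))) (XT.nd (nat_lit 188) (nat_lit 0) (nat_lit 0) (XT.nd (nat_lit 94) (nat_lit 0) (nat_lit 0) (XT.lf (nat_lit 0) (nat_lit 4811984963) (nat_lit 756) (nat_lit 86381102) (nat_lit 840) (nat_lit 3518885737) (nat_lit 104) (nat_lit 5) (nat_lit 113) (nat_lit 5) (nat_lit 114) (nat_lit 5) (nat_lit 319) (nat_lit 313) (nat_lit 256)) (XT.lf (nat_lit 84) (nat_lit 2910172503) (nat_lit 0) (nat_lit 2921527118) (nat_lit 840) (nat_lit 2692023791) (nat_lit 105) (nat_lit 5) (nat_lit 104) (nat_lit 5) (nat_lit 114) (nat_lit 5) (nat_lit 320) (nat_lit 313) (nat_lit 255))) (XT.nd (nat_lit 94) (nat_lit 0) (nat_lit 84) (XT.lf (nat_lit 84) (nat_lit 5981381597) (nat_lit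 0) (nat_lit 869634804) (nat_lit 840) (nat_lit 1783738208) (nat_lit 105) (nat_lit 5) (nat_lit 104) (nat_lit 5) (nat_lit 114) (nat_lit 5) (nat_lit 321) (nat_lit 313) (nat_lit 254)) (XT.lf (nat_lit 84) (nat_lit 372886829) (nat_lit 0) (nat_lit 7513305845) (nat_lit 840) (nat_lit 863781685) (nat_lit 106) (nat_lit 5) (nat_lit 105) (nat_lit 5) (nat_lit 115) (nat_lit 5) (nat_lit 322) (nat_lit 313) (nat_lit 253))))))))
noncomputable def xc26 : XT := (XT.nd (nat_lit 55460) (nat_lit 0) (nat_lit 420) (XT.nd (nat_lit 1222) (nat_lit 1596) (nat_lit 0) (XT.nd (nat_lit 564) (nat_lit 1680) (nat_lit 0) (XT.nd (nat_lit 282) (nat_lit 0) (nat_lit 84) (XT.nd (nat_lit 94) (nat_lit 0) (nat_lit 0) (XT.lf (nat_lit 0) (nat_lit 88251005) (nat_lit 840) (nat_lit 5350233869) (nat_lit 924) (nat_lit 3430335169) (nat_lit 95) (nat_lit 5) (nat_lit 105) (nat_lit 5) (nat_lit 106) (nat_lit 5) (nat_lit 323) (nat_lit 313) (nat_lit 252))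 (XT.nd (nat_lit 94) (nat_lit 0) (nat_lit 0) (XT.lf (nat_lit 0) (nat_lit 1021194910) (nat_lit 840) (nat_lit 2259254754) (nat_lit 924) (nat_lit 5711812869) (nat_lit 95) (nat_lit 5) (nat_lit 105) (nat_lit 5) (nat_lit 106) (nat_lit 5) (nat_lit 324) (nat_lit 313) (nat_lit 251)) (XT.lf (nat_lit 84) (nat_lit 925955695) (nat_lit 0) (nat_lit 1036552807) (nat_lit 924) (nat_lit 7157889270) (nat_lit 96) (nat_lit 5) (nat_lit 95) (nat_lit 5) (nat_lit 106) (nat_lit 5) (nat_lit 325) (nat_lit 313) (nat_lit 250)))) (XT.nd (nat_lit 94) (nat_lit 0) (nat_lit 0) (XT.lf (nat_lit 0) (nat_lit 2940540509) (nat_lit 840) (nat_lit 5028131367) (nat_lit 924) (nat_lit 1283821708) (nat_lit 96) (nat_lit 5) (nat_lit 106) (nat_lit 5) (nat_lit 107) (nat_lit 5) (nat_lit 326) (nat_lit 313) (nat_lit 249)) (XT.nd (nat_lit 94) (nat_lit 0) (nat_lit 0) (XT.lf (nat_lit 0) (nat_lit 3931411011) (nat_lit 840) (nat_lit 1794879174) (nat_lit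 924) (nat_lit 3663151449) (nat_lit 96) (nat_lit 5) (nat_lit 106) (nat_lit 5) (nat_lit 107) (nat_lit 5) (nat_lit 327) (nat_lit 313) (nat_lit 248)) (XT.lf (nat_lit 84) (nat_lit 1549836718) (nat_lit 0) (nat_lit 3391298725) (nat_lit 924) (nat_lit 4590076282) (nat_lit 97) (nat_lit 5) (nat_lit 96) (nat_lit 5) (nat_lit 107) (nat_lit 5) (nat_lit 328) (nat_lit 313) (nat_lit 247))))) (XT.nd (nat_lit 282) (nat_lit 1008) (nat_lit 0) (XT.nd (nat_lit 94) (nat_lit 756) (nat_lit 0) (XT.lf (nat_lit 84) (nat_lit 5016498835) (nat_lit 0) (nat_lit 957782382) (nat_lit 924) (nat_lit 3703542371) (nat_lit 97) (nat_lit 5) (nat_lit 96) (nat_lit 5) (nat_lit 107) (nat_lit 5) (nat_lit 329) (nat_lit 313) (nat_lit 246)) (XT.nd (nat_lit 94) (nat_lit 840) (nat_lit 0) (XT.lf (nat_lit 0) (nat_lit 7029093287) (nat_lit 840) (nat_lit 1273998619) (nat_lit 84) (nat_lit 1526406234) (nat_lit 97) (nat_lit 5) (nat_lit 107) (nat_lit 5)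 (nat_lit 98) (nat_lit 5) (nat_lit 330) (nat_lit 313) (nat_lit 245)) (XT.lf (nat_lit 0) (nat_lit 2233898093) (nat_lit 840) (nat_lit 5889688011) (nat_lit 924) (nat_lit 1862262686) (nat_lit 87) (nat_lit 5) (nat_lit 97) (nat_lit 5) (nat_lit 98) (nat_lit 5) (nat_lit 331) (nat_lit 313) (nat_lit 244)))) (XT.nd (nat_lit 188) (nat_lit 924) (nat_lit 0) (XT.nd (nat_lit 94) (nat_lit 84) (nat_lit 0) (XT.lf (nat_lit 0) (nat_lit 5858097892) (nat_lit 840) (nat_lit 3382791403) (nat_lit 924) (nat_lit 906686583) (nat_lit 87) (nat_lit 5) (nat_lit 97) (nat_lit 5) (nat_lit 98) (nat_lit 5) (nat_lit 332) (nat_lit 313) (nat_lit 243)) (XT.lf (nat_lit 0) (nat_lit 52829926) (nat_lit 924) (nat_lit 739981963) (nat_lit 84) (nat_lit 9522401523) (nat_lit 86) (nat_lit 5) (nat_lit 97) (nat_lit 5) (nat_lit 87) (nat_lit 5) (nat_lit 333) (nat_lit 313) (nat_lit 242))) (XT.nd (nat_lit 94) (nat_lit 0) (nat_lit 0) (XT.lf (nat_lit 0)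 (nat_lit 1048216355) (nat_lit 1008) (nat_lit 7556029256) (nat_lit 84) (nat_lit 1882909603) (nat_lit 75) (nat_lit 5) (nat_lit 87) (nat_lit 5) (nat_lit 76) (nat_lit 5) (nat_lit 334) (nat_lit 313) (nat_lit 241)) (XT.lf (nat_lit 0) (nat_lit 2067552828) (nat_lit 1008) (nat_lit 3960318192) (nat_lit 84) (nat_lit 4636933936) (nat_lit 75) (nat_lit 5) (nat_lit 87) (nat_lit 5) (nat_lit 76) (nat_lit 5) (nat_lit 335) (nat_lit 313) (nat_lit 240)))))) (XT.nd (nat_lit 658) (nat_lit 0) (nat_lit 0) (XT.nd (nat_lit 282) (nat_lit 924) (nat_lit 0) (XT.nd (nat_lit 94) (nat_lit 672) (nat_lit 0) (XT.lf (nat_lit 0) (nat_lit 3096356407) (nat_lit 1008) (nat_lit 272216980) (nat_lit 84) (nat_lit 7480233266) (nat_lit 75) (nat_lit 5) (nat_lit 87) (nat_lit 5) (nat_lit 76) (nat_lit 5) (nat_lit 336) (nat_lit 313) (nat_lit 239)) (XT.nd (nat_lit 94) (nat_lit 0) (nat_lit 0) (XT.lf (nat_lit 0) (nat_lit 3583920078) (nat_lit 672)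 (nat_lit 587218897) (nat_lit 756) (nat_lit 6867090697) (nat_lit 67) (nat_lit 5) (nat_lit 75) (nat_lit 5) (nat_lit 76) (nat_lit 5) (nat_lit 337) (nat_lit 313) (nat_lit 238)) (XT.lf (nat_lit 0) (nat_lit 5283755251) (nat_lit 756) (nat_lit 3709861993) (nat_lit 84) (nat_lit 2239916890) (nat_lit 67) (nat_lit 5) (nat_lit 76) (nat_lit 5) (nat_lit 68) (nat_lit 5) (nat_lit 338) (nat_lit 313) (nat_lit 237)))) (XT.nd (nat_lit 188) (nat_lit 420) (nat_lit 0) (XT.nd (nat_lit 94) (nat_lit 0) (nat_lit 0) (XT.lf (nat_lit 0) (nat_lit 128682854) (nat_lit 504) (nat_lit 6289116483) (nat_lit 588) (nat_lit 5017643480) (nat_lit 61) (nat_lit 5) (nat_lit 67) (nat_lit 5) (nat_lit 68) (nat_lit 5) (nat_lit 339) (nat_lit 313) (nat_lit 236)) (XT.lf (nat_lit 0) (nat_lit 4146490261) (nat_lit 504) (nat_lit 3459315592) (nat_lit 588) (nat_lit 4037362262) (nat_lit 61) (nat_lit 5) (nat_lit 67) (nat_lit 5) (nat_lit 68) (nat_lit 5)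 (nat_lit 340) (nat_lit 313) (nat_lit 235))) (XT.nd (nat_lit 94) (nat_lit 420) (nat_lit 0) (XT.lf (nat_lit 0) (nat_lit 8271022874) (nat_lit 504) (nat_lit 540300253) (nat_lit 588) (nat_lit 3046744853) (nat_lit 61) (nat_lit 5) (nat_lit 67) (nat_lit 5) (nat_lit 68) (nat_lit 5) (nat_lit 341) (nat_lit 313) (nat_lit 234)) (XT.lf (nat_lit 0) (nat_lit 409524311) (nat_lit 420) (nat_lit 9654522204) (nat_lit 504) (nat_lit 2015410483) (nat_lit 56) (nat_lit 5) (nat_lit 61) (nat_lit 5) (nat_lit 62) (nat_lit 5) (nat_lit 342) (nat_lit 313) (nat_lit 233))))) (XT.nd (nat_lit 53204) (nat_lit 0) (nat_lit 3948) (XT.nd (nat_lit 53016) (nat_lit 0) (nat_lit 3948) (XT.lf (nat_lit 0) (nat_lit 4582555513) (nat_lit 420) (nat_lit 6797624003) (nat_lit 504) (nat_lit 926895901) (nat_lit 56) (nat_lit 5) (nat_lit 61) (nat_lit 5) (nat_lit 62) (nat_lit 5) (nat_lit 343) (nat_lit 313) (nat_lit 232)) (XT.nd (nat_lit 94) (nat_lit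 0) (nat_lit 0) (XT.lf (nat_lit 0) (nat_lit 207811268) (nat_lit 0) (nat_lit 207811268) (nat_lit 756) (nat_lit 3598180623) (nat_lit 103) (nat_lit 5) (nat_lit 103) (nat_lit 3) (nat_lit 112) (nat_lit 3) (nat_lit 314) (nat_lit 314) (nat_lit 260)) (XT.lf (nat_lit 0) (nat_lit 1778973334) (nat_lit 756) (nat_lit 4948896903) (nat_lit 840) (nat_lit 1387705937) (nat_lit 103) (nat_lit 5) (nat_lit 112) (nat_lit 3) (nat_lit 113) (nat_lit 5) (nat_lit 315) (nat_lit 314) (nat_lit 259)))) (XT.nd (nat_lit 188) (nat_lit 0) (nat_lit 0) (XT.nd (nat_lit 94) (nat_lit 0) (nat_lit 0) (XT.lf (nat_lit 0) (nat_lit 2723412126) (nat_lit 756) (nat_lit 2227692715) (nat_lit 840) (nat_lit 3256482317) (nat_lit 103) (nat_lit 5) (nat_lit 112) (nat_lit 3) (nat_lit 113) (nat_lit 5) (nat_lit 316) (nat_lit 314) (nat_lit 258)) (XT.lf (nat_lit 84) (nat_lit 569767805) (nat_lit 0) (nat_lit 3097203102) (nat_lit 840) (nat_lit 4636706726)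 (nat_lit 104) (nat_lit 5) (nat_lit 103) (nat_lit 5) (nat_lit 113) (nat_lit 5) (nat_lit 317) (nat_lit 314) (nat_lit 257))) (XT.nd (nat_lit 94) (nat_lit 0) (nat_lit 84) (XT.lf (nat_lit 84) (nat_lit 3481793205) (nat_lit 0) (nat_lit 1146314018) (nat_lit 840) (nat_lit 3775285025) (nat_lit 104) (nat_lit 5) (nat_lit 103) (nat_lit 5) (nat_lit 113) (nat_lit 5) (nat_lit 318) (nat_lit 314) (nat_lit 256)) (XT.lf (nat_lit 0) (nat_lit 5593894546) (nat_lit 756) (nat_lit 2050962218) (nat_lit 840) (nat_lit 862395675) (nat_lit 104) (nat_lit 5) (nat_lit 113) (nat_lit 5) (nat_lit 114) (nat_lit 5) (nat_lit 319) (nat_lit 314) (nat_lit 255))))))) (XT.nd (nat_lit 1222) (nat_lit 2184) (nat_lit 0) (XT.nd (nat_lit 564) (nat_lit 672) (nat_lit 0) (XT.nd (nat_lit 282) (nat_lit 756) (nat_lit 0) (XT.nd (nat_lit 94) (nat_lit 0) (nat_lit 0) (XT.lf (nat_lit 84) (nat_lit 895314276) (nat_lit 0) (nat_lit 5682201136) (nat_lit 840)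 (nat_lit 2037458852) (nat_lit 105) (nat_lit 5) (nat_lit 104) (nat_lit 5) (nat_lit 114) (nat_lit 5) (nat_lit 320) (nat_lit 314) (nat_lit 254)) (XT.nd (nat_lit 94) (nat_lit 0) (nat_lit 0) (XT.lf (nat_lit 84) (nat_lit 3956939186) (nat_lit 0) (nat_lit 3624176060) (nat_lit 840) (nat_lit 1145504801) (nat_lit 105) (nat_lit 5) (nat_lit 104) (nat_lit 5) (nat_lit 114) (nat_lit 5) (nat_lit 321) (nat_lit 314) (nat_lit 253)) (XT.lf (nat_lit 84) (nat_lit 7094594276) (nat_lit 0) (nat_lit 1490271079) (nat_lit 840) (nat_lit 258072183) (nat_lit 105) (nat_lit 5) (nat_lit 104) (nat_lit 5) (nat_lit 114) (nat_lit 5) (nat_lit 322) (nat_lit 314) (nat_lit 252)))) (XT.nd (nat_lit 94) (nat_lit 0) (nat_lit 0) (XT.lf (nat_lit 0) (nat_lit 633996168) (nat_lit 840) (nat_lit 7602246368) (nat_lit 924) (nat_lit 726951210) (nat_lit 95) (nat_lit 5) (nat_lit 105) (nat_lit 5) (nat_lit 106) (nat_lit 5) (nat_lit 323) (nat_lit 314)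 (nat_lit 251)) (XT.nd (nat_lit 94) (nat_lit 0) (nat_lit 0) (XT.lf (nat_lit 0) (nat_lit 1552298434) (nat_lit 840) (nat_lit 4521235230) (nat_lit 924) (nat_lit 3013669182) (nat_lit 95) (nat_lit 5) (nat_lit 105) (nat_lit 5) (nat_lit 106) (nat_lit 5) (nat_lit 324) (nat_lit 314) (nat_lit 250)) (XT.lf (nat_lit 0) (nat_lit 2470225035) (nat_lit 840) (nat_lit 1364348985) (nat_lit 924) (nat_lit 5381598392) (nat_lit 95) (nat_lit 5) (nat_lit 105) (nat_lit 5) (nat_lit 106) (nat_lit 5) (nat_lit 325) (nat_lit 314) (nat_lit 249))))) (XT.nd (nat_lit 282) (nat_lit 672) (nat_lit 0) (XT.nd (nat_lit 94) (nat_lit 0) (nat_lit 84) (XT.lf (nat_lit 84) (nat_lit 1909833810) (nat_lit 0) (nat_lit 1497743551) (nat_lit 924) (nat_lit 5942057974) (nat_lit 96) (nat_lit 5) (nat_lit 95) (nat_lit 5) (nat_lit 106) (nat_lit 5) (nat_lit 326) (nat_lit 314) (nat_lit 248)) (XT.nd (nat_lit 94) (nat_lit 0) (nat_lit 0) (XT.lf (nat_lit 0)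 (nat_lit 4370179118) (nat_lit 840) (nat_lit 4201535389) (nat_lit 924) (nat_lit 915848064) (nat_lit 96) (nat_lit 5) (nat_lit 106) (nat_lit 5) (nat_lit 107) (nat_lit 5) (nat_lit 327) (nat_lit 314) (nat_lit 247)) (XT.lf (nat_lit 0) (nat_lit 5351521274) (nat_lit 840) (nat_lit 897593124) (nat_lit 924) (nat_lit 3381197876) (nat_lit 96) (nat_lit 5) (nat_lit 106) (nat_lit 5) (nat_lit 107) (nat_lit 5) (nat_lit 328) (nat_lit 314) (nat_lit 246)))) (XT.nd (nat_lit 188) (nat_lit 756) (nat_lit 0) (XT.nd (nat_lit 94) (nat_lit 0) (nat_lit 0) (XT.lf (nat_lit 84) (nat_lit 2541161427) (nat_lit 0) (nat_lit 3821707948) (nat_lit 924) (nat_lit 3414827251) (nat_lit 97) (nat_lit 5) (nat_lit 96) (nat_lit 5) (nat_lit 107) (nat_lit 5) (nat_lit 329) (nat_lit 314) (nat_lit 245)) (XT.lf (nat_lit 84) (nat_lit 6086927633) (nat_lit 0) (nat_lit 1302972145) (nat_lit 924) (nat_lit 2540426485) (nat_lit 97) (nat_lit 5) (nat_lit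 96) (nat_lit 5) (nat_lit 107) (nat_lit 5) (nat_lit 330) (nat_lit 314) (nat_lit 244))) (XT.nd (nat_lit 94) (nat_lit 840) (nat_lit 0) (XT.lf (nat_lit 0) (nat_lit 8437379329) (nat_lit 840) (nat_lit 376967868) (nat_lit 84) (nat_lit 1273878157) (nat_lit 97) (nat_lit 5) (nat_lit 107) (nat_lit 5) (nat_lit 98) (nat_lit 5) (nat_lit 331) (nat_lit 314) (nat_lit 243)) (XT.lf (nat_lit 0) (nat_lit 3230192170) (nat_lit 840) (nat_lit 6309013291) (nat_lit 924) (nat_lit 711315064) (nat_lit 87) (nat_lit 5) (nat_lit 97) (nat_lit 5) (nat_lit 98) (nat_lit 5) (nat_lit 332) (nat_lit 314) (nat_lit 242)))))) (XT.nd (nat_lit 658) (nat_lit 504) (nat_lit 0) (XT.nd (nat_lit 282) (nat_lit 672) (nat_lit 0) (XT.nd (nat_lit 94) (nat_lit 924) (nat_lit 0) (XT.lf (nat_lit 0) (nat_lit 232755569) (nat_lit 924) (nat_lit 3482099406) (nat_lit 84) (nat_lit 6703682864) (nat_lit 86) (nat_lit 5) (nat_lit 97) (nat_lit 5) (nat_lit 87) (nat_lit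 5) (nat_lit 333) (nat_lit 314) (nat_lit 241)) (XT.nd (nat_lit 94) (nat_lit 0) (nat_lit 0) (XT.lf (nat_lit 0) (nat_lit 143044155) (nat_lit 924) (nat_lit 1027018483) (nat_lit 1008) (nat_lit 9422298029) (nat_lit 75) (nat_lit 5) (nat_lit 86) (nat_lit 5) (nat_lit 87) (nat_lit 5) (nat_lit 334) (nat_lit 314) (nat_lit 240)) (XT.lf (nat_lit 0) (nat_lit 2168313706) (nat_lit 1008) (nat_lit 6852810157) (nat_lit 84) (nat_lit 1749618338) (nat_lit 75) (nat_lit 5) (nat_lit 87) (nat_lit 5) (nat_lit 76) (nat_lit 5) (nat_lit 335) (nat_lit 314) (nat_lit 239)))) (XT.nd (nat_lit 188) (nat_lit 0) (nat_lit 0) (XT.nd (nat_lit 94) (nat_lit 672) (nat_lit 0) (XT.lf (nat_lit 0) (nat_lit 3186547687) (nat_lit 1008) (nat_lit 3173819379) (nat_lit 84) (nat_lit 4594780282) (nat_lit 75) (nat_lit 5) (nat_lit 87) (nat_lit 5) (nat_lit 76) (nat_lit 5) (nat_lit 336) (nat_lit 314) (nat_lit 238)) (XT.lf (nat_lit 0) (nat_lit 613636583)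 (nat_lit 672) (nat_lit 3607976300) (nat_lit 756) (nat_lit 6924262238) (nat_lit 67) (nat_lit 5) (nat_lit 75) (nat_lit 5) (nat_lit 76) (nat_lit 5) (nat_lit 337) (nat_lit 314) (nat_lit 237))) (XT.nd (nat_lit 94) (nat_lit 0) (nat_lit 0) (XT.lf (nat_lit 0) (nat_lit 4568021744) (nat_lit 672) (nat_lit 733499954) (nat_lit 756) (nat_lit 6040743121) (nat_lit 67) (nat_lit 5) (nat_lit 75) (nat_lit 5) (nat_lit 76) (nat_lit 5) (nat_lit 338) (nat_lit 314) (nat_lit 236)) (XT.lf (nat_lit 0) (nat_lit 6417296448) (nat_lit 756) (nat_lit 2939881625) (nat_lit 84) (nat_lit 2187630939) (nat_lit 67) (nat_lit 5) (nat_lit 76) (nat_lit 5) (nat_lit 68) (nat_lit 5) (nat_lit 339) (nat_lit 314) (nat_lit 235))))) (XT.nd (nat_lit 53392) (nat_lit 0) (nat_lit 3528) (XT.nd (nat_lit 94) (nat_lit 0) (nat_lit 0) (XT.lf (nat_lit 0) (nat_lit 1008698423) (nat_lit 504) (nat_lit 6557329583) (nat_lit 588) (nat_lit 4187790909) (nat_lit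 61) (nat_lit 5) (nat_lit 67) (nat_lit 5) (nat_lit 68) (nat_lit 5) (nat_lit 340) (nat_lit 314) (nat_lit 234)) (XT.nd (nat_lit 94) (nat_lit 0) (nat_lit 0) (XT.lf (nat_lit 0) (nat_lit 5124717590) (nat_lit 504) (nat_lit 3637602377) (nat_lit 588) (nat_lit 3206749862) (nat_lit 61) (nat_lit 5) (nat_lit 67) (nat_lit 5) (nat_lit 68) (nat_lit 5) (nat_lit 341) (nat_lit 314) (nat_lit 233)) (XT.lf (nat_lit 0) (nat_lit 9351562440) (nat_lit 504) (nat_lit 625961298) (nat_lit 588) (nat_lit 2214161324) (nat_lit 61) (nat_lit 5) (nat_lit 67) (nat_lit 5) (nat_lit 68) (nat_lit 5) (nat_lit 342) (nat_lit 314) (nat_lit 232)))) (XT.nd (nat_lit 188) (nat_lit 0) (nat_lit 0) (XT.nd (nat_lit 94) (nat_lit 0) (nat_lit 0) (XT.lf (nat_lit 0) (nat_lit 670083561) (nat_lit 0) (nat_lit 670083561) (nat_lit 756) (nat_lit 2762398766) (nat_lit 103) (nat_lit 5) (nat_lit 103) (nat_lit 3) (nat_lit 112) (nat_lit 3) (nat_lit 315) (nat_lit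 315) (nat_lit 258)) (XT.lf (nat_lit 0) (nat_lit 3593846814) (nat_lit 756) (nat_lit 4140106684) (nat_lit 840) (nat_lit 564291878) (nat_lit 103) (nat_lit 5) (nat_lit 112) (nat_lit 3) (nat_lit 113) (nat_lit 5) (nat_lit 316) (nat_lit 315) (nat_lit 257))) (XT.nd (nat_lit 94) (nat_lit 0) (nat_lit 0) (XT.lf (nat_lit 0) (nat_lit 4514651973) (nat_lit 756) (nat_lit 1363476676) (nat_lit 840) (nat_lit 2517052141) (nat_lit 103) (nat_lit 5) (nat_lit 112) (nat_lit 3) (nat_lit 113) (nat_lit 5) (nat_lit 317) (nat_lit 315) (nat_lit 256)) (XT.lf (nat_lit 84) (nat_lit 1511256554) (nat_lit 0) (nat_lit 3934048683) (nat_lit 840) (nat_lit 3050670520) (nat_lit 104) (nat_lit 5) (nat_lit 103) (nat_lit 5) (nat_lit 113) (nat_lit 5) (nat_lit 318) (nat_lit 315) (nat_lit 255))))))))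
noncomputable def xc27 : XT := (XT.nd (nat_lit 55742) (nat_lit 0) (nat_lit 0) (XT.nd (nat_lit 1222) (nat_lit 2772) (nat_lit 0) (XT.nd (nat_lit 564) (nat_lit 0) (nat_lit 84) (XT.nd (nat_lit 282) (nat_lit 756) (nat_lit 0) (XT.nd (nat_lit 94) (nat_lit 0) (nat_lit 84) (XT.lf (nat_lit 84) (nat_lit 4485777239) (nat_lit 0) (nat_lit 1900406770) (nat_lit 840) (nat_lit 2214555413) (nat_lit 104) (nat_lit 5) (nat_lit 103) (nat_lit 5) (nat_lit 113) (nat_lit 5) (nat_lit 319) (nat_lit 315) (nat_lit 254)) (XT.nd (nat_lit 94) (nat_lit 0) (nat_lit 0) (XT.lf (nat_lit 0) (nat_lit 7326449106) (nat_lit 756) (nat_lit 1177263089) (nat_lit 840) (nat_lit 206220441) (nat_lit 104) (nat_lit 5) (nat_lit 113) (nat_lit 5) (nat_lit 114) (nat_lit 5) (nat_lit 320) (nat_lit 315) (nat_lit 253)) (XT.lf (nat_lit 84) (nat_lit 1850858869) (nat_lit 0) (nat_lit 6452026967) (nat_lit 840) (nat_lit 519658168) (nat_lit 105) (nat_lit 5)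 (nat_lit 104) (nat_lit 5) (nat_lit 114) (nat_lit 5) (nat_lit 321) (nat_lit 315) (nat_lit 252)))) (XT.nd (nat_lit 94) (nat_lit 0) (nat_lit 0) (XT.lf (nat_lit 0) (nat_lit 345309980) (nat_lit 840) (nat_lit 3963438170) (nat_lit 924) (nat_lit 4630583155) (nat_lit 94) (nat_lit 5) (nat_lit 104) (nat_lit 5) (nat_lit 105) (nat_lit 5) (nat_lit 322) (nat_lit 315) (nat_lit 251)) (XT.nd (nat_lit 94) (nat_lit 0) (nat_lit 84) (XT.lf (nat_lit 0) (nat_lit 1196641013) (nat_lit 840) (nat_lit 885851047) (nat_lit 924) (nat_lit 6978230477) (nat_lit 94) (nat_lit 5) (nat_lit 104) (nat_lit 5) (nat_lit 105) (nat_lit 5) (nat_lit 323) (nat_lit 315) (nat_lit 250)) (XT.lf (nat_lit 0) (nat_lit 2071023131) (nat_lit 840) (nat_lit 6872973338) (nat_lit 924) (nat_lit 242206022) (nat_lit 95) (nat_lit 5) (nat_lit 105) (nat_lit 5) (nat_lit 106) (nat_lit 5) (nat_lit 324) (nat_lit 315) (nat_lit 249))))) (XT.nd (nat_lit 282) (nat_lit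 0) (nat_lit 84) (XT.nd (nat_lit 94) (nat_lit 0) (nat_lit 0) (XT.lf (nat_lit 0) (nat_lit 2975175342) (nat_lit 840) (nat_lit 3725464650) (nat_lit 924) (nat_lit 2615065113) (nat_lit 95) (nat_lit 5) (nat_lit 105) (nat_lit 5) (nat_lit 106) (nat_lit 5) (nat_lit 325) (nat_lit 315) (nat_lit 248)) (XT.nd (nat_lit 94) (nat_lit 0) (nat_lit 0) (XT.lf (nat_lit 0) (nat_lit 3880221658) (nat_lit 840) (nat_lit 498856343) (nat_lit 924) (nat_lit 5071194369) (nat_lit 95) (nat_lit 5) (nat_lit 105) (nat_lit 5) (nat_lit 106) (nat_lit 5) (nat_lit 326) (nat_lit 315) (nat_lit 247)) (XT.lf (nat_lit 84) (nat_lit 2867635586) (nat_lit 0) (nat_lit 1947817392) (nat_lit 924) (nat_lit 4773694873) (nat_lit 96) (nat_lit 5) (nat_lit 95) (nat_lit 5) (nat_lit 106) (nat_lit 5) (nat_lit 327) (nat_lit 315) (nat_lit 246)))) (XT.nd (nat_lit 188) (nat_lit 0) (nat_lit 0) (XT.nd (nat_lit 94) (nat_lit 0) (nat_lit 0) (XT.lf (nat_lit 0) (nat_lit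 5764855953) (nat_lit 840) (nat_lit 3407508200) (nat_lit 924) (nat_lit 560620278) (nat_lit 96) (nat_lit 5) (nat_lit 106) (nat_lit 5) (nat_lit 107) (nat_lit 5) (nat_lit 328) (nat_lit 315) (nat_lit 245)) (XT.lf (nat_lit 0) (nat_lit 6738758183) (nat_lit 840) (nat_lit 28934723) (nat_lit 924) (nat_lit 3113930552) (nat_lit 96) (nat_lit 5) (nat_lit 106) (nat_lit 5) (nat_lit 107) (nat_lit 5) (nat_lit 329) (nat_lit 315) (nat_lit 244))) (XT.nd (nat_lit 94) (nat_lit 0) (nat_lit 0) (XT.lf (nat_lit 84) (nat_lit 3507345127) (nat_lit 0) (nat_lit 4246193028) (nat_lit 924) (nat_lit 2281185733) (nat_lit 97) (nat_lit 5) (nat_lit 96) (nat_lit 5) (nat_lit 107) (nat_lit 5) (nat_lit 330) (nat_lit 315) (nat_lit 243)) (XT.lf (nat_lit 84) (nat_lit 7136347604) (nat_lit 0) (nat_lit 1640175274) (nat_lit 924) (nat_lit 1416947735) (nat_lit 97) (nat_lit 5) (nat_lit 96) (nat_lit 5) (nat_lit 107) (nat_lit 5) (nat_lit 331) (nat_lit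 315) (nat_lit 242)))))) (XT.nd (nat_lit 658) (nat_lit 504) (nat_lit 0) (XT.nd (nat_lit 282) (nat_lit 1596) (nat_lit 0) (XT.nd (nat_lit 94) (nat_lit 84) (nat_lit 0) (XT.lf (nat_lit 0) (nat_lit 502523604) (nat_lit 840) (nat_lit 9321275239) (nat_lit 924) (nat_lit 533743633) (nat_lit 87) (nat_lit 5) (nat_lit 97) (nat_lit 5) (nat_lit 98) (nat_lit 5) (nat_lit 332) (nat_lit 315) (nat_lit 241)) (XT.nd (nat_lit 94) (nat_lit 0) (nat_lit 0) (XT.lf (nat_lit 0) (nat_lit 395585824) (nat_lit 924) (nat_lit 6327599916) (nat_lit 84) (nat_lit 3802746077) (nat_lit 86) (nat_lit 5) (nat_lit 97) (nat_lit 5) (nat_lit 87) (nat_lit 5) (nat_lit 333) (nat_lit 315) (nat_lit 240)) (XT.lf (nat_lit 0) (nat_lit 1320646034) (nat_lit 924) (nat_lit 2714114770) (nat_lit 84) (nat_lit 6665451638) (nat_lit 86) (nat_lit 5) (nat_lit 97) (nat_lit 5) (nat_lit 87) (nat_lit 5) (nat_lit 334) (nat_lit 315) (nat_lit 239)))) (XT.nd (nat_lit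 188) (nat_lit 672) (nat_lit 0) (XT.nd (nat_lit 94) (nat_lit 0) (nat_lit 0) (XT.lf (nat_lit 0) (nat_lit 1014540239) (nat_lit 924) (nat_lit 1248577119) (nat_lit 1008) (nat_lit 8617281585) (nat_lit 75) (nat_lit 5) (nat_lit 86) (nat_lit 5) (nat_lit 87) (nat_lit 5) (nat_lit 335) (nat_lit 315) (nat_lit 238)) (XT.lf (nat_lit 0) (nat_lit 3258713508) (nat_lit 1008) (nat_lit 6183318390) (nat_lit 84) (nat_lit 1623547480) (nat_lit 75) (nat_lit 5) (nat_lit 87) (nat_lit 5) (nat_lit 76) (nat_lit 5) (nat_lit 336) (nat_lit 315) (nat_lit 237))) (XT.nd (nat_lit 94) (nat_lit 672) (nat_lit 0) (XT.lf (nat_lit 0) (nat_lit 4277747811) (nat_lit 1008) (nat_lit 2416796644) (nat_lit 84) (nat_lit 4562330958) (nat_lit 75) (nat_lit 5) (nat_lit 87) (nat_lit 5) (nat_lit 76) (nat_lit 5) (nat_lit 337) (nat_lit 315) (nat_lit 236)) (XT.lf (nat_lit 0) (nat_lit 1479410185) (nat_lit 672) (nat_lit 3844049822) (nat_lit 756) (nat_lit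 6130934360) (nat_lit 67) (nat_lit 5) (nat_lit 75) (nat_lit 5) (nat_lit 76) (nat_lit 5) (nat_lit 338) (nat_lit 315) (nat_lit 235))))) (XT.nd (nat_lit 282) (nat_lit 0) (nat_lit 0) (XT.nd (nat_lit 94) (nat_lit 504) (nat_lit 0) (XT.lf (nat_lit 0) (nat_lit 5530921269) (nat_lit 672) (nat_lit 876729488) (nat_lit 756) (nat_lit 5250333988) (nat_lit 67) (nat_lit 5) (nat_lit 75) (nat_lit 5) (nat_lit 76) (nat_lit 5) (nat_lit 339) (nat_lit 315) (nat_lit 234)) (XT.nd (nat_lit 94) (nat_lit 504) (nat_lit 0) (XT.lf (nat_lit 0) (nat_lit 7528537779) (nat_lit 756) (nat_lit 2198451106) (nat_lit 84) (nat_lit 2140934007) (nat_lit 67) (nat_lit 5) (nat_lit 76) (nat_lit 5) (nat_lit 68) (nat_lit 5) (nat_lit 340) (nat_lit 315) (nat_lit 233)) (XT.lf (nat_lit 0) (nat_lit 1864105931) (nat_lit 504) (nat_lit 6829518538) (nat_lit 588) (nat_lit 3390579808) (nat_lit 61) (nat_lit 5) (nat_lit 67) (nat_lit 5) (nat_lit 68) (nat_lit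 5) (nat_lit 341) (nat_lit 315) (nat_lit 232)))) (XT.nd (nat_lit 53392) (nat_lit 0) (nat_lit 3528) (XT.nd (nat_lit 53298) (nat_lit 0) (nat_lit 3528) (XT.lf (nat_lit 0) (nat_lit 6082941601) (nat_lit 504) (nat_lit 3817207757) (nat_lit 588) (nat_lit 2407000408) (nat_lit 61) (nat_lit 5) (nat_lit 67) (nat_lit 5) (nat_lit 68) (nat_lit 5) (nat_lit 342) (nat_lit 315) (nat_lit 231)) (XT.lf (nat_lit 0) (nat_lit 1119686695) (nat_lit 0) (nat_lit 1119686695) (nat_lit 756) (nat_lit 1956819379) (nat_lit 103) (nat_lit 5) (nat_lit 103) (nat_lit 3) (nat_lit 112) (nat_lit 3) (nat_lit 316) (nat_lit 316) (nat_lit 256))) (XT.nd (nat_lit 94) (nat_lit 0) (nat_lit 0) (XT.lf (nat_lit 0) (nat_lit 5124986657) (nat_lit 0) (nat_lit 238125405) (nat_lit 756) (nat_lit 3127473907) (nat_lit 103) (nat_lit 5) (nat_lit 103) (nat_lit 3) (nat_lit 112) (nat_lit 3) (nat_lit 317) (nat_lit 316) (nat_lit 255)) (XT.lf (nat_lit 0) (nat_lit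 6260322735) (nat_lit 756) (nat_lit 527749387) (nat_lit 840) (nat_lit 1804476843) (nat_lit 103) (nat_lit 5) (nat_lit 112) (nat_lit 3) (nat_lit 113) (nat_lit 5) (nat_lit 318) (nat_lit 316) (nat_lit 254))))))) (XT.nd (nat_lit 1222) (nat_lit 2688) (nat_lit 0) (XT.nd (nat_lit 564) (nat_lit 0) (nat_lit 84) (XT.nd (nat_lit 282) (nat_lit 0) (nat_lit 84) (XT.nd (nat_lit 94) (nat_lit 840) (nat_lit 0) (XT.lf (nat_lit 84) (nat_lit 2427211661) (nat_lit 0) (nat_lit 4752955712) (nat_lit 840) (nat_lit 1517924674) (nat_lit 104) (nat_lit 5) (nat_lit 103) (nat_lit 5) (nat_lit 113) (nat_lit 5) (nat_lit 319) (nat_lit 316) (nat_lit 253)) (XT.nd (nat_lit 94) (nat_lit 840) (nat_lit 0) (XT.lf (nat_lit 84) (nat_lit 5467810295) (nat_lit 0) (nat_lit 2635315034) (nat_lit 840) (nat_lit 704819984) (nat_lit 104) (nat_lit 5) (nat_lit 103) (nat_lit 5) (nat_lit 113) (nat_lit 5) (nat_lit 320) (nat_lit 316) (nat_lit 252)) (XT.lf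 (nat_lit 0) (nat_lit 100275250) (nat_lit 840) (nat_lit 337362929) (nat_lit 924) (nat_lit 8484707140) (nat_lit 93) (nat_lit 5) (nat_lit 103) (nat_lit 5) (nat_lit 104) (nat_lit 5) (nat_lit 321) (nat_lit 316) (nat_lit 251)))) (XT.nd (nat_lit 94) (nat_lit 0) (nat_lit 0) (XT.lf (nat_lit 0) (nat_lit 932379619) (nat_lit 840) (nat_lit 6268441109) (nat_lit 924) (nat_lit 1838959012) (nat_lit 94) (nat_lit 5) (nat_lit 104) (nat_lit 5) (nat_lit 105) (nat_lit 5) (nat_lit 322) (nat_lit 316) (nat_lit 250)) (XT.nd (nat_lit 94) (nat_lit 0) (nat_lit 0) (XT.lf (nat_lit 0) (nat_lit 1769547730) (nat_lit 840) (nat_lit 3199736968) (nat_lit 924) (nat_lit 4192434654) (nat_lit 94) (nat_lit 5) (nat_lit 104) (nat_lit 5) (nat_lit 105) (nat_lit 5) (nat_lit 323) (nat_lit 316) (nat_lit 249)) (XT.lf (nat_lit 0) (nat_lit 2604768058) (nat_lit 840) (nat_lit 53401872) (nat_lit 924) (nat_lit 6630349435) (nat_lit 94) (nat_lit 5)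 (nat_lit 104) (nat_lit 5) (nat_lit 105) (nat_lit 5) (nat_lit 324) (nat_lit 316) (nat_lit 248))))) (XT.nd (nat_lit 282) (nat_lit 0) (nat_lit 84) (XT.nd (nat_lit 94) (nat_lit 0) (nat_lit 84) (XT.lf (nat_lit 84) (nat_lit 3238750498) (nat_lit 0) (nat_lit 232197424) (nat_lit 924) (nat_lit 5948354054) (nat_lit 95) (nat_lit 5) (nat_lit 94) (nat_lit 5) (nat_lit 105) (nat_lit 5) (nat_lit 325) (nat_lit 316) (nat_lit 247)) (XT.nd (nat_lit 94) (nat_lit 0) (nat_lit 0) (XT.lf (nat_lit 0) (nat_lit 4360732303) (nat_lit 840) (nat_lit 2960461852) (nat_lit 924) (nat_lit 2233247968) (nat_lit 95) (nat_lit 5) (nat_lit 105) (nat_lit 5) (nat_lit 106) (nat_lit 5) (nat_lit 326) (nat_lit 316) (nat_lit 246)) (XT.lf (nat_lit 84) (nat_lit 346681627) (nat_lit 0) (nat_lit 4911704946) (nat_lit 924) (nat_lit 4436192681) (nat_lit 96) (nat_lit 5) (nat_lit 95) (nat_lit 5) (nat_lit 106) (nat_lit 5) (nat_lit 327) (nat_lit 316) (nat_lit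 245)))) (XT.nd (nat_lit 188) (nat_lit 0) (nat_lit 84) (XT.nd (nat_lit 94) (nat_lit 0) (nat_lit 84) (XT.lf (nat_lit 84) (nat_lit 3801903782) (nat_lit 0) (nat_lit 2387935008) (nat_lit 924) (nat_lit 3649227369) (nat_lit 96) (nat_lit 5) (nat_lit 95) (nat_lit 5) (nat_lit 106) (nat_lit 5) (nat_lit 328) (nat_lit 316) (nat_lit 244)) (XT.lf (nat_lit 0) (nat_lit 7128183122) (nat_lit 840) (nat_lit 2643612546) (nat_lit 924) (nat_lit 217102845) (nat_lit 96) (nat_lit 5) (nat_lit 106) (nat_lit 5) (nat_lit 107) (nat_lit 5) (nat_lit 329) (nat_lit 316) (nat_lit 243))) (XT.nd (nat_lit 94) (nat_lit 0) (nat_lit 0) (XT.lf (nat_lit 84) (nat_lit 830280113) (nat_lit 0) (nat_lit 7274613760) (nat_lit 924) (nat_lit 2038373509) (nat_lit 97) (nat_lit 5) (nat_lit 96) (nat_lit 5) (nat_lit 107) (nat_lit 5) (nat_lit 330) (nat_lit 316) (nat_lit 242)) (XT.lf (nat_lit 84) (nat_lit 4450917844) (nat_lit 0) (nat_lit 4665711522) (nat_lit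 924) (nat_lit 1185819104) (nat_lit 97) (nat_lit 5) (nat_lit 96) (nat_lit 5) (nat_lit 107) (nat_lit 5) (nat_lit 331) (nat_lit 316) (nat_lit 241)))))) (XT.nd (nat_lit 658) (nat_lit 1176) (nat_lit 0) (XT.nd (nat_lit 282) (nat_lit 924) (nat_lit 0) (XT.nd (nat_lit 94) (nat_lit 840) (nat_lit 0) (XT.lf (nat_lit 84) (nat_lit 8167317365) (nat_lit 0) (nat_lit 1970251076) (nat_lit 924) (nat_lit 329851401) (nat_lit 97) (nat_lit 5) (nat_lit 96) (nat_lit 5) (nat_lit 107) (nat_lit 5) (nat_lit 332) (nat_lit 316) (nat_lit 240)) (XT.nd (nat_lit 94) (nat_lit 0) (nat_lit 0) (XT.lf (nat_lit 0) (nat_lit 541472466) (nat_lit 924) (nat_lit 9279135799) (nat_lit 84) (nat_lit 816887185) (nat_lit 86) (nat_lit 5) (nat_lit 97) (nat_lit 5) (nat_lit 87) (nat_lit 5) (nat_lit 333) (nat_lit 316) (nat_lit 239)) (XT.lf (nat_lit 0) (nat_lit 1456030403) (nat_lit 924) (nat_lit 5674163160) (nat_lit 84) (nat_lit 3681983878) (nat_lit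 86) (nat_lit 5) (nat_lit 97) (nat_lit 5) (nat_lit 87) (nat_lit 5) (nat_lit 334) (nat_lit 316) (nat_lit 238)))) (XT.nd (nat_lit 188) (nat_lit 0) (nat_lit 0) (XT.nd (nat_lit 94) (nat_lit 924) (nat_lit 0) (XT.lf (nat_lit 0) (nat_lit 2378250870) (nat_lit 924) (nat_lit 1974205428) (nat_lit 84) (nat_lit 6640608934) (nat_lit 86) (nat_lit 5) (nat_lit 97) (nat_lit 5) (nat_lit 87) (nat_lit 5) (nat_lit 335) (nat_lit 316) (nat_lit 237)) (XT.lf (nat_lit 0) (nat_lit 1861695151) (nat_lit 924) (nat_lit 1465766569) (nat_lit 1008) (nat_lit 7852293197) (nat_lit 75) (nat_lit 5) (nat_lit 86) (nat_lit 5) (nat_lit 87) (nat_lit 5) (nat_lit 336) (nat_lit 316) (nat_lit 236))) (XT.nd (nat_lit 94) (nat_lit 0) (nat_lit 0) (XT.lf (nat_lit 0) (nat_lit 4322310877) (nat_lit 1008) (nat_lit 5545310536) (nat_lit 84) (nat_lit 1504248438) (nat_lit 75) (nat_lit 5) (nat_lit 87) (nat_lit 5) (nat_lit 76) (nat_lit 5) (nat_lit 337) (nat_lit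 316) (nat_lit 235)) (XT.lf (nat_lit 0) (nat_lit 5343992572) (nat_lit 1008) (nat_lit 1686973669) (nat_lit 84) (nat_lit 4539234591) (nat_lit 75) (nat_lit 5) (nat_lit 87) (nat_lit 5) (nat_lit 76) (nat_lit 5) (nat_lit 338) (nat_lit 316) (nat_lit 234))))) (XT.nd (nat_lit 282) (nat_lit 504) (nat_lit 0) (XT.nd (nat_lit 94) (nat_lit 0) (nat_lit 0) (XT.lf (nat_lit 0) (nat_lit 2321868264) (nat_lit 672) (nat_lit 4080083490) (nat_lit 756) (nat_lit 5372717699) (nat_lit 67) (nat_lit 5) (nat_lit 75) (nat_lit 5) (nat_lit 76) (nat_lit 5) (nat_lit 339) (nat_lit 316) (nat_lit 233)) (XT.nd (nat_lit 94) (nat_lit 0) (nat_lit 0) (XT.lf (nat_lit 0) (nat_lit 6475024216) (nat_lit 672) (nat_lit 1017262247) (nat_lit 756) (nat_lit 4493331368) (nat_lit 67) (nat_lit 5) (nat_lit 75) (nat_lit 5) (nat_lit 76) (nat_lit 5) (nat_lit 340) (nat_lit 316) (nat_lit 232)) (XT.lf (nat_lit 0) (nat_lit 8620190195) (nat_lit 756) (nat_lit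 1483350602) (nat_lit 84) (nat_lit 2099572300) (nat_lit 67) (nat_lit 5) (nat_lit 76) (nat_lit 5) (nat_lit 68) (nat_lit 5) (nat_lit 341) (nat_lit 316) (nat_lit 231)))) (XT.nd (nat_lit 53486) (nat_lit 0) (nat_lit 3528) (XT.nd (nat_lit 53392) (nat_lit 0) (nat_lit 3528) (XT.lf (nat_lit 0) (nat_lit 2697215976) (nat_lit 504) (nat_lit 7106063590) (nat_lit 588) (nat_lit 2623564892) (nat_lit 61) (nat_lit 5) (nat_lit 67) (nat_lit 5) (nat_lit 68) (nat_lit 5) (nat_lit 342) (nat_lit 316) (nat_lit 230)) (XT.lf (nat_lit 0) (nat_lit 1557827159) (nat_lit 0) (nat_lit 1557827159) (nat_lit 756) (nat_lit 1179055148) (nat_lit 103) (nat_lit 5) (nat_lit 103) (nat_lit 3) (nat_lit 112) (nat_lit 3) (nat_lit 317) (nat_lit 317) (nat_lit 254))) (XT.nd (nat_lit 94) (nat_lit 0) (nat_lit 0) (XT.lf (nat_lit 0) (nat_lit 6066461004) (nat_lit 0) (nat_lit 1028107053) (nat_lit 756) (nat_lit 1597993723) (nat_lit 103) (nat_lit 5) (nat_lit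 103) (nat_lit 3) (nat_lit 112) (nat_lit 3) (nat_lit 318) (nat_lit 317) (nat_lit 253)) (XT.lf (nat_lit 84) (nat_lit 287676332) (nat_lit 0) (nat_lit 7680177402) (nat_lit 840) (nat_lit 831817986) (nat_lit 104) (nat_lit 5) (nat_lit 103) (nat_lit 5) (nat_lit 113) (nat_lit 5) (nat_lit 319) (nat_lit 317) (nat_lit 252))))))))
noncomputable def xc28 : XT := (XT.nd (nat_lit 55930) (nat_lit 0) (nat_lit 0) (XT.nd (nat_lit 1222) (nat_lit 2184) (nat_lit 0) (XT.nd (nat_lit 564) (nat_lit 0) (nat_lit 84) (XT.nd (nat_lit 282) (nat_lit 0) (nat_lit 84) (XT.nd (nat_lit 94) (nat_lit 840) (nat_lit 0) (XT.lf (nat_lit 84) (nat_lit 3320082732) (nat_lit 0) (nat_lit 5555967227) (nat_lit 840) (nat_lit 34052457) (nat_lit 104) (nat_lit 5) (nat_lit 103) (nat_lit 5) (nat_lit 113) (nat_lit 5) (nat_lit 320) (nat_lit 317) (nat_lit 251)) (XT.nd (nat_lit 94) (nat_lit 0) (nat_lit 0) (XT.lf (nat_lit 0) (nat_lit 742950120) (nat_lit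 840) (nat_lit 2602260079) (nat_lit 924) (nat_lit 5679650588) (nat_lit 93) (nat_lit 5) (nat_lit 103) (nat_lit 5) (nat_lit 104) (nat_lit 5) (nat_lit 321) (nat_lit 317) (nat_lit 250)) (XT.lf (nat_lit 84) (nat_lit 470791745) (nat_lit 0) (nat_lit 1048492957) (nat_lit 924) (nat_lit 7624848699) (nat_lit 94) (nat_lit 5) (nat_lit 93) (nat_lit 5) (nat_lit 104) (nat_lit 5) (nat_lit 322) (nat_lit 317) (nat_lit 249)))) (XT.nd (nat_lit 94) (nat_lit 0) (nat_lit 0) (XT.lf (nat_lit 0) (nat_lit 2332314561) (nat_lit 840) (nat_lit 5602852226) (nat_lit 924) (nat_lit 1331760555) (nat_lit 94) (nat_lit 5) (nat_lit 104) (nat_lit 5) (nat_lit 105) (nat_lit 5) (nat_lit 323) (nat_lit 317) (nat_lit 248)) (XT.nd (nat_lit 94) (nat_lit 0) (nat_lit 0) (XT.lf (nat_lit 0) (nat_lit 3154210862) (nat_lit 840) (nat_lit 2464873958) (nat_lit 924) (nat_lit 3775158434) (nat_lit 94) (nat_lit 5) (nat_lit 104) (nat_lit 5) (nat_lit 105)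 (nat_lit 5) (nat_lit 324) (nat_lit 317) (nat_lit 247)) (XT.lf (nat_lit 84) (nat_lit 769421378) (nat_lit 0) (nat_lit 3213549896) (nat_lit 924) (nat_lit 5543314356) (nat_lit 95) (nat_lit 5) (nat_lit 94) (nat_lit 5) (nat_lit 105) (nat_lit 5) (nat_lit 325) (nat_lit 317) (nat_lit 246))))) (XT.nd (nat_lit 282) (nat_lit 0) (nat_lit 84) (XT.nd (nat_lit 94) (nat_lit 0) (nat_lit 84) (XT.lf (nat_lit 84) (nat_lit 4139938185) (nat_lit 0) (nat_lit 697593422) (nat_lit 924) (nat_lit 4825082877) (nat_lit 95) (nat_lit 5) (nat_lit 94) (nat_lit 5) (nat_lit 105) (nat_lit 5) (nat_lit 326) (nat_lit 317) (nat_lit 245)) (XT.nd (nat_lit 94) (nat_lit 0) (nat_lit 0) (XT.lf (nat_lit 0) (nat_lit 5712635585) (nat_lit 840) (nat_lit 2223897028) (nat_lit 924) (nat_lit 1867011913) (nat_lit 95) (nat_lit 5) (nat_lit 105) (nat_lit 5) (nat_lit 106) (nat_lit 5) (nat_lit 327) (nat_lit 317) (nat_lit 244)) (XT.lf (nat_lit 84) (nat_lit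 1177381709) (nat_lit 0) (nat_lit 5432285237) (nat_lit 924) (nat_lit 3339522564) (nat_lit 96) (nat_lit 5) (nat_lit 95) (nat_lit 5) (nat_lit 106) (nat_lit 5) (nat_lit 328) (nat_lit 317) (nat_lit 243)))) (XT.nd (nat_lit 188) (nat_lit 0) (nat_lit 84) (XT.nd (nat_lit 94) (nat_lit 0) (nat_lit 0) (XT.lf (nat_lit 84) (nat_lit 4715061492) (nat_lit 0) (nat_lit 2819203901) (nat_lit 924) (nat_lit 2565270885) (nat_lit 96) (nat_lit 5) (nat_lit 95) (nat_lit 5) (nat_lit 106) (nat_lit 5) (nat_lit 329) (nat_lit 317) (nat_lit 242)) (XT.lf (nat_lit 84) (nat_lit 8346711924) (nat_lit 0) (nat_lit 118065865) (nat_lit 924) (nat_lit 1790645146) (nat_lit 96) (nat_lit 5) (nat_lit 95) (nat_lit 5) (nat_lit 106) (nat_lit 5) (nat_lit 330) (nat_lit 317) (nat_lit 241))) (XT.nd (nat_lit 94) (nat_lit 0) (nat_lit 0) (XT.lf (nat_lit 84) (nat_lit 1665761782) (nat_lit 0) (nat_lit 7779357156) (nat_lit 924) (nat_lit 970541374) (nat_lit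 97) (nat_lit 5) (nat_lit 96) (nat_lit 5) (nat_lit 107) (nat_lit 5) (nat_lit 331) (nat_lit 317) (nat_lit 240)) (XT.lf (nat_lit 84) (nat_lit 5374292016) (nat_lit 0) (nat_lit 5081183079) (nat_lit 924) (nat_lit 125565225) (nat_lit 97) (nat_lit 5) (nat_lit 96) (nat_lit 5) (nat_lit 107) (nat_lit 5) (nat_lit 332) (nat_lit 317) (nat_lit 239)))))) (XT.nd (nat_lit 564) (nat_lit 672) (nat_lit 0) (XT.nd (nat_lit 282) (nat_lit 840) (nat_lit 0) (XT.nd (nat_lit 94) (nat_lit 0) (nat_lit 84) (XT.lf (nat_lit 0) (nat_lit 709366535) (nat_lit 924) (nat_lit 1577249069) (nat_lit 1008) (nat_lit 8465513859) (nat_lit 85) (nat_lit 5) (nat_lit 96) (nat_lit 5) (nat_lit 97) (nat_lit 5) (nat_lit 333) (nat_lit 317) (nat_lit 238)) (XT.nd (nat_lit 94) (nat_lit 0) (nat_lit 0) (XT.lf (nat_lit 0) (nat_lit 1574922922) (nat_lit 924) (nat_lit 8742742109) (nat_lit 84) (nat_lit 610738983) (nat_lit 86) (nat_lit 5) (nat_lit 97) (nat_lit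 5) (nat_lit 87) (nat_lit 5) (nat_lit 334) (nat_lit 317) (nat_lit 237)) (XT.lf (nat_lit 0) (nat_lit 2487263183) (nat_lit 924) (nat_lit 5050792674) (nat_lit 84) (nat_lit 3571613540) (nat_lit 86) (nat_lit 5) (nat_lit 97) (nat_lit 5) (nat_lit 87) (nat_lit 5) (nat_lit 335) (nat_lit 317) (nat_lit 236)))) (XT.nd (nat_lit 94) (nat_lit 924) (nat_lit 0) (XT.lf (nat_lit 0) (nat_lit 3408422659) (nat_lit 924) (nat_lit 1260168605) (nat_lit 84) (nat_lit 6628706571) (nat_lit 86) (nat_lit 5) (nat_lit 97) (nat_lit 5) (nat_lit 87) (nat_lit 5) (nat_lit 336) (nat_lit 317) (nat_lit 235)) (XT.nd (nat_lit 94) (nat_lit 0) (nat_lit 0) (XT.lf (nat_lit 0) (nat_lit 2686796312) (nat_lit 924) (nat_lit 1679117005) (nat_lit 1008) (nat_lit 7124724648) (nat_lit 75) (nat_lit 5) (nat_lit 86) (nat_lit 5) (nat_lit 87) (nat_lit 5) (nat_lit 337) (nat_lit 317) (nat_lit 234)) (XT.lf (nat_lit 0) (nat_lit 5361864667) (nat_lit 1008) (nat_lit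 4936668441) (nat_lit 84) (nat_lit 1391298543) (nat_lit 75) (nat_lit 5) (nat_lit 87) (nat_lit 5) (nat_lit 76) (nat_lit 5) (nat_lit 338) (nat_lit 317) (nat_lit 233))))) (XT.nd (nat_lit 53768) (nat_lit 0) (nat_lit 2184) (XT.nd (nat_lit 94) (nat_lit 672) (nat_lit 0) (XT.lf (nat_lit 0) (nat_lit 6387990146) (nat_lit 1008) (nat_lit 982192528) (nat_lit 84) (nat_lit 4525167549) (nat_lit 75) (nat_lit 5) (nat_lit 87) (nat_lit 5) (nat_lit 76) (nat_lit 5) (nat_lit 339) (nat_lit 317) (nat_lit 232)) (XT.nd (nat_lit 94) (nat_lit 0) (nat_lit 0) (XT.lf (nat_lit 0) (nat_lit 3143258777) (nat_lit 672) (nat_lit 4316511903) (nat_lit 756) (nat_lit 4647164311) (nat_lit 67) (nat_lit 5) (nat_lit 75) (nat_lit 5) (nat_lit 76) (nat_lit 5) (nat_lit 340) (nat_lit 317) (nat_lit 231)) (XT.lf (nat_lit 0) (nat_lit 7402629304) (nat_lit 672) (nat_lit 1155437361) (nat_lit 756) (nat_lit 3767340802) (nat_lit 67) (nat_lit 5) (nat_lit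 75) (nat_lit 5) (nat_lit 76) (nat_lit 5) (nat_lit 341) (nat_lit 317) (nat_lit 230)))) (XT.nd (nat_lit 188) (nat_lit 840) (nat_lit 0) (XT.nd (nat_lit 94) (nat_lit 0) (nat_lit 0) (XT.lf (nat_lit 0) (nat_lit 1985654117) (nat_lit 0) (nat_lit 1985654117) (nat_lit 756) (nat_lit 426841612) (nat_lit 103) (nat_lit 5) (nat_lit 103) (nat_lit 3) (nat_lit 112) (nat_lit 3) (nat_lit 318) (nat_lit 318) (nat_lit 252)) (XT.lf (nat_lit 0) (nat_lit 6990766331) (nat_lit 0) (nat_lit 1796223408) (nat_lit 756) (nat_lit 117435997) (nat_lit 103) (nat_lit 5) (nat_lit 103) (nat_lit 3) (nat_lit 112) (nat_lit 3) (nat_lit 319) (nat_lit 318) (nat_lit 251))) (XT.nd (nat_lit 94) (nat_lit 0) (nat_lit 0) (XT.lf (nat_lit 0) (nat_lit 614653228) (nat_lit 840) (nat_lit 7933149229) (nat_lit 924) (nat_lit 468568522) (nat_lit 93) (nat_lit 5) (nat_lit 103) (nat_lit 5) (nat_lit 104) (nat_lit 5) (nat_lit 320) (nat_lit 318) (nat_lit 250))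 (XT.lf (nat_lit 0) (nat_lit 1376829873) (nat_lit 840) (nat_lit 4953834496) (nat_lit 924) (nat_lit 2801002174) (nat_lit 93) (nat_lit 5) (nat_lit 103) (nat_lit 5) (nat_lit 104) (nat_lit 5) (nat_lit 321) (nat_lit 318) (nat_lit 249))))))) (XT.nd (nat_lit 1222) (nat_lit 1512) (nat_lit 0) (XT.nd (nat_lit 564) (nat_lit 672) (nat_lit 0) (XT.nd (nat_lit 282) (nat_lit 0) (nat_lit 84) (XT.nd (nat_lit 94) (nat_lit 0) (nat_lit 0) (XT.lf (nat_lit 0) (nat_lit 2134779447) (nat_lit 840) (nat_lit 1898131381) (nat_lit 924) (nat_lit 5218704307) (nat_lit 93) (nat_lit 5) (nat_lit 103) (nat_lit 5) (nat_lit 104) (nat_lit 5) (nat_lit 322) (nat_lit 318) (nat_lit 248)) (XT.nd (nat_lit 94) (nat_lit 0) (nat_lit 84) (XT.lf (nat_lit 84) (nat_lit 1262239667) (nat_lit 0) (nat_lit 1639490344) (nat_lit 924) (nat_lit 6474210377) (nat_lit 94) (nat_lit 5) (nat_lit 93) (nat_lit 5) (nat_lit 104) (nat_lit 5) (nat_lit 323) (nat_lit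 318) (nat_lit 247)) (XT.lf (nat_lit 0) (nat_lit 3694438963) (nat_lit 840) (nat_lit 4967564062) (nat_lit 924) (nat_lit 842257844) (nat_lit 94) (nat_lit 5) (nat_lit 104) (nat_lit 5) (nat_lit 105) (nat_lit 5) (nat_lit 324) (nat_lit 318) (nat_lit 246)))) (XT.nd (nat_lit 94) (nat_lit 0) (nat_lit 0) (XT.lf (nat_lit 0) (nat_lit 4503031797) (nat_lit 840) (nat_lit 1756632691) (nat_lit 924) (nat_lit 3377360714) (nat_lit 94) (nat_lit 5) (nat_lit 104) (nat_lit 5) (nat_lit 105) (nat_lit 5) (nat_lit 325) (nat_lit 318) (nat_lit 245)) (XT.nd (nat_lit 94) (nat_lit 0) (nat_lit 0) (XT.lf (nat_lit 84) (nat_lit 1569981900) (nat_lit 0) (nat_lit 3757590774) (nat_lit 924) (nat_lit 4446805838) (nat_lit 95) (nat_lit 5) (nat_lit 94) (nat_lit 5) (nat_lit 105) (nat_lit 5) (nat_lit 326) (nat_lit 318) (nat_lit 244)) (XT.lf (nat_lit 84) (nat_lit 5021630739) (nat_lit 0) (nat_lit 1150276850) (nat_lit 924) (nat_lit 3744445836)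 (nat_lit 95) (nat_lit 5) (nat_lit 94) (nat_lit 5) (nat_lit 105) (nat_lit 5) (nat_lit 327) (nat_lit 318) (nat_lit 243))))) (XT.nd (nat_lit 282) (nat_lit 840) (nat_lit 0) (XT.nd (nat_lit 94) (nat_lit 0) (nat_lit 0) (XT.lf (nat_lit 0) (nat_lit 7034379426) (nat_lit 840) (nat_lit 1513562640) (nat_lit 924) (nat_lit 1515215981) (nat_lit 95) (nat_lit 5) (nat_lit 105) (nat_lit 5) (nat_lit 106) (nat_lit 5) (nat_lit 328) (nat_lit 318) (nat_lit 242)) (XT.nd (nat_lit 94) (nat_lit 0) (nat_lit 0) (XT.lf (nat_lit 84) (nat_lit 1985266276) (nat_lit 0) (nat_lit 5947187444) (nat_lit 924) (nat_lit 2281958983) (nat_lit 96) (nat_lit 5) (nat_lit 95) (nat_lit 5) (nat_lit 106) (nat_lit 5) (nat_lit 329) (nat_lit 318) (nat_lit 241)) (XT.lf (nat_lit 84) (nat_lit 5609420187) (nat_lit 0) (nat_lit 3242682020) (nat_lit 924) (nat_lit 1518616998) (nat_lit 96) (nat_lit 5) (nat_lit 95) (nat_lit 5) (nat_lit 106) (nat_lit 5) (nat_lit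 330) (nat_lit 318) (nat_lit 240)))) (XT.nd (nat_lit 188) (nat_lit 0) (nat_lit 0) (XT.nd (nat_lit 94) (nat_lit 840) (nat_lit 0) (XT.lf (nat_lit 84) (nat_lit 9331155230) (nat_lit 0) (nat_lit 447703402) (nat_lit 924) (nat_lit 753839642) (nat_lit 96) (nat_lit 5) (nat_lit 95) (nat_lit 5) (nat_lit 106) (nat_lit 5) (nat_lit 331) (nat_lit 318) (nat_lit 239)) (XT.lf (nat_lit 0) (nat_lit 62123811) (nat_lit 924) (nat_lit 8220436048) (nat_lit 1008) (nat_lit 2416408663) (nat_lit 85) (nat_lit 5) (nat_lit 96) (nat_lit 5) (nat_lit 97) (nat_lit 5) (nat_lit 332) (nat_lit 318) (nat_lit 238))) (XT.nd (nat_lit 94) (nat_lit 0) (nat_lit 0) (XT.lf (nat_lit 0) (nat_lit 884393544) (nat_lit 924) (nat_lit 4599867463) (nat_lit 1008) (nat_lit 5386145654) (nat_lit 85) (nat_lit 5) (nat_lit 96) (nat_lit 5) (nat_lit 97) (nat_lit 5) (nat_lit 333) (nat_lit 318) (nat_lit 237)) (XT.lf (nat_lit 0) (nat_lit 1712193956) (nat_lit 924)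 (nat_lit 882200238) (nat_lit 1008) (nat_lit 8453528760) (nat_lit 85) (nat_lit 5) (nat_lit 96) (nat_lit 5) (nat_lit 97) (nat_lit 5) (nat_lit 334) (nat_lit 318) (nat_lit 236)))))) (XT.nd (nat_lit 54238) (nat_lit 0) (nat_lit 2100) (XT.nd (nat_lit 282) (nat_lit 1596) (nat_lit 0) (XT.nd (nat_lit 94) (nat_lit 0) (nat_lit 0) (XT.lf (nat_lit 0) (nat_lit 2580191544) (nat_lit 924) (nat_lit 8238529923) (nat_lit 84) (nat_lit 411910652) (nat_lit 86) (nat_lit 5) (nat_lit 97) (nat_lit 5) (nat_lit 87) (nat_lit 5) (nat_lit 335) (nat_lit 318) (nat_lit 235)) (XT.nd (nat_lit 94) (nat_lit 0) (nat_lit 0) (XT.lf (nat_lit 0) (nat_lit 3492056035) (nat_lit 924) (nat_lit 4455439806) (nat_lit 84) (nat_lit 3471119942) (nat_lit 86) (nat_lit 5) (nat_lit 97) (nat_lit 5) (nat_lit 87) (nat_lit 5) (nat_lit 336) (nat_lit 318) (nat_lit 234)) (XT.lf (nat_lit 0) (nat_lit 4413877838) (nat_lit 924) (nat_lit 569915267) (nat_lit 84)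 (nat_lit 6629333607) (nat_lit 86) (nat_lit 5) (nat_lit 97) (nat_lit 5) (nat_lit 87) (nat_lit 5) (nat_lit 337) (nat_lit 318) (nat_lit 233)))) (XT.nd (nat_lit 188) (nat_lit 672) (nat_lit 0) (XT.nd (nat_lit 94) (nat_lit 0) (nat_lit 0) (XT.lf (nat_lit 0) (nat_lit 3492021867) (nat_lit 924) (nat_lit 1889135609) (nat_lit 1008) (nat_lit 6432114853) (nat_lit 75) (nat_lit 5) (nat_lit 86) (nat_lit 5) (nat_lit 87) (nat_lit 5) (nat_lit 338) (nat_lit 318) (nat_lit 232)) (XT.lf (nat_lit 0) (nat_lit 6380006627) (nat_lit 1008) (nat_lit 4355391559) (nat_lit 84) (nat_lit 1284299492) (nat_lit 75) (nat_lit 5) (nat_lit 87) (nat_lit 5) (nat_lit 76) (nat_lit 5) (nat_lit 339) (nat_lit 318) (nat_lit 231))) (XT.nd (nat_lit 94) (nat_lit 672) (nat_lit 0) (XT.lf (nat_lit 0) (nat_lit 7412326430) (nat_lit 1008) (nat_lit 300406158) (nat_lit 84) (nat_lit 4519832510) (nat_lit 75) (nat_lit 5) (nat_lit 87) (nat_lit 5) (nat_lit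 76) (nat_lit 5) (nat_lit 340) (nat_lit 318) (nat_lit 230)) (XT.lf (nat_lit 0) (nat_lit 3945723404) (nat_lit 672) (nat_lit 4553757316) (nat_lit 756) (nat_lit 3951959831) (nat_lit 67) (nat_lit 5) (nat_lit 75) (nat_lit 5) (nat_lit 76) (nat_lit 5) (nat_lit 341) (nat_lit 318) (nat_lit 229))))) (XT.nd (nat_lit 282) (nat_lit 0) (nat_lit 84) (XT.nd (nat_lit 94) (nat_lit 0) (nat_lit 0) (XT.lf (nat_lit 0) (nat_lit 295886650) (nat_lit 924) (nat_lit 2105288143) (nat_lit 924) (nat_lit 2105288143) (nat_lit 92) (nat_lit 3) (nat_lit 103) (nat_lit 3) (nat_lit 103) (nat_lit 5) (nat_lit 319) (nat_lit 319) (nat_lit 250)) (XT.nd (nat_lit 94) (nat_lit 0) (nat_lit 0) (XT.lf (nat_lit 0) (nat_lit 1291826242) (nat_lit 924) (nat_lit 1239232057) (nat_lit 924) (nat_lit 6594805811) (nat_lit 92) (nat_lit 3) (nat_lit 103) (nat_lit 3) (nat_lit 103) (nat_lit 5) (nat_lit 320) (nat_lit 319) (nat_lit 249)) (XT.lf (nat_lit 84)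 (nat_lit 1846977424) (nat_lit 0) (nat_lit 157086240) (nat_lit 924) (nat_lit 7238750169) (nat_lit 93) (nat_lit 5) (nat_lit 92) (nat_lit 3) (nat_lit 103) (nat_lit 5) (nat_lit 321) (nat_lit 319) (nat_lit 248)))) (XT.nd (nat_lit 188) (nat_lit 0) (nat_lit 0) (XT.nd (nat_lit 94) (nat_lit 0) (nat_lit 0) (XT.lf (nat_lit 0) (nat_lit 2747152600) (nat_lit 840) (nat_lit 4346201852) (nat_lit 924) (nat_lit 2269971506) (nat_lit 93) (nat_lit 5) (nat_lit 103) (nat_lit 5) (nat_lit 104) (nat_lit 5) (nat_lit 322) (nat_lit 319) (nat_lit 247)) (XT.lf (nat_lit 0) (nat_lit 3488679241) (nat_lit 840) (nat_lit 1218659668) (nat_lit 924) (nat_lit 4781200206) (nat_lit 93) (nat_lit 5) (nat_lit 103) (nat_lit 5) (nat_lit 104) (nat_lit 5) (nat_lit 323) (nat_lit 319) (nat_lit 246))) (XT.nd (nat_lit 94) (nat_lit 0) (nat_lit 84) (XT.lf (nat_lit 84) (nat_lit 2032208119) (nat_lit 0) (nat_lit 2215728088) (nat_lit 924) (nat_lit 5370057163)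 (nat_lit 94) (nat_lit 5) (nat_lit 93) (nat_lit 5) (nat_lit 104) (nat_lit 5) (nat_lit 324) (nat_lit 319) (nat_lit 245)) (XT.lf (nat_lit 0) (nat_lit 5022390817) (nat_lit 840) (nat_lit 4360499034) (nat_lit 924) (nat_lit 369019989) (nat_lit 94) (nat_lit 5) (nat_lit 104) (nat_lit 5) (nat_lit 105) (nat_lit 5) (nat_lit 325) (nat_lit 319) (nat_lit 244))))))))
noncomputable def xc29 : XT := (XT.nd (nat_lit 56306) (nat_lit 0) (nat_lit 0) (XT.nd (nat_lit 1222) (nat_lit 0) (nat_lit 0) (XT.nd (nat_lit 564) (nat_lit 1596) (nat_lit 0) (XT.nd (nat_lit 282) (nat_lit 0) (nat_lit 84) (XT.nd (nat_lit 94) (nat_lit 0) (nat_lit 0) (XT.lf (nat_lit 0) (nat_lit 5819564916) (nat_lit 840) (nat_lit 1072912247) (nat_lit 924) (nat_lit 2997725387) (nat_lit 94) (nat_lit 5) (nat_lit 104) (nat_lit 5) (nat_lit 105) (nat_lit 5) (nat_lit 326) (nat_lit 319) (nat_lit 243)) (XT.nd (nat_lit 94) (nat_lit 0) (nat_lit 0) (XT.lf (nat_lit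 84) (nat_lit 2349354026) (nat_lit 0) (nat_lit 4292173113) (nat_lit 924) (nat_lit 3391432172) (nat_lit 95) (nat_lit 5) (nat_lit 94) (nat_lit 5) (nat_lit 105) (nat_lit 5) (nat_lit 327) (nat_lit 319) (nat_lit 242)) (XT.lf (nat_lit 84) (nat_lit 5886033288) (nat_lit 0) (nat_lit 1591461160) (nat_lit 924) (nat_lit 2703176764) (nat_lit 95) (nat_lit 5) (nat_lit 94) (nat_lit 5) (nat_lit 105) (nat_lit 5) (nat_lit 328) (nat_lit 319) (nat_lit 241)))) (XT.nd (nat_lit 94) (nat_lit 0) (nat_lit 0) (XT.lf (nat_lit 0) (nat_lit 8329297620) (nat_lit 840) (nat_lit 827365690) (nat_lit 924) (nat_lit 1176780026) (nat_lit 95) (nat_lit 5) (nat_lit 105) (nat_lit 5) (nat_lit 106) (nat_lit 5) (nat_lit 329) (nat_lit 319) (nat_lit 240)) (XT.nd (nat_lit 94) (nat_lit 0) (nat_lit 0) (XT.lf (nat_lit 84) (nat_lit 2772504767) (nat_lit 0) (nat_lit 6457527750) (nat_lit 924) (nat_lit 1260384208) (nat_lit 96) (nat_lit 5) (nat_lit 95)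 (nat_lit 5) (nat_lit 106) (nat_lit 5) (nat_lit 330) (nat_lit 319) (nat_lit 239)) (XT.lf (nat_lit 84) (nat_lit 6487187321) (nat_lit 0) (nat_lit 3659381201) (nat_lit 924) (nat_lit 506222250) (nat_lit 96) (nat_lit 5) (nat_lit 95) (nat_lit 5) (nat_lit 106) (nat_lit 5) (nat_lit 331) (nat_lit 319) (nat_lit 238))))) (XT.nd (nat_lit 282) (nat_lit 756) (nat_lit 0) (XT.nd (nat_lit 94) (nat_lit 0) (nat_lit 84) (XT.lf (nat_lit 0) (nat_lit 245361969) (nat_lit 924) (nat_lit 520328453) (nat_lit 1008) (nat_lit 10055209063) (nat_lit 84) (nat_lit 5) (nat_lit 95) (nat_lit 5) (nat_lit 96) (nat_lit 5) (nat_lit 332) (nat_lit 319) (nat_lit 237)) (XT.nd (nat_lit 94) (nat_lit 0) (nat_lit 0) (XT.lf (nat_lit 0) (nat_lit 1044886707) (nat_lit 924) (nat_lit 7731326013) (nat_lit 1008) (nat_lit 2216901304) (nat_lit 85) (nat_lit 5) (nat_lit 96) (nat_lit 5) (nat_lit 97) (nat_lit 5) (nat_lit 333) (nat_lit 319) (nat_lit 236))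 (XT.lf (nat_lit 0) (nat_lit 1863155097) (nat_lit 924) (nat_lit 4020888619) (nat_lit 1008) (nat_lit 5286951254) (nat_lit 85) (nat_lit 5) (nat_lit 96) (nat_lit 5) (nat_lit 97) (nat_lit 5) (nat_lit 334) (nat_lit 319) (nat_lit 235)))) (XT.nd (nat_lit 188) (nat_lit 840) (nat_lit 0) (XT.nd (nat_lit 94) (nat_lit 0) (nat_lit 84) (XT.lf (nat_lit 0) (nat_lit 2688012369) (nat_lit 924) (nat_lit 209669943) (nat_lit 1008) (nat_lit 8457426255) (nat_lit 85) (nat_lit 5) (nat_lit 96) (nat_lit 5) (nat_lit 97) (nat_lit 5) (nat_lit 335) (nat_lit 319) (nat_lit 234)) (XT.lf (nat_lit 0) (nat_lit 3559971559) (nat_lit 924) (nat_lit 7764605786) (nat_lit 84) (nat_lit 219817014) (nat_lit 86) (nat_lit 5) (nat_lit 97) (nat_lit 5) (nat_lit 87) (nat_lit 5) (nat_lit 336) (nat_lit 319) (nat_lit 233))) (XT.nd (nat_lit 94) (nat_lit 924) (nat_lit 0) (XT.lf (nat_lit 0) (nat_lit 4473048935) (nat_lit 924) (nat_lit 3886168949) (nat_lit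 84) (nat_lit 3380021588) (nat_lit 86) (nat_lit 5) (nat_lit 97) (nat_lit 5) (nat_lit 87) (nat_lit 5) (nat_lit 337) (nat_lit 319) (nat_lit 232)) (XT.lf (nat_lit 0) (nat_lit 100563262) (nat_lit 924) (nat_lit 5297640122) (nat_lit 1008) (nat_lit 6542548796) (nat_lit 75) (nat_lit 5) (nat_lit 86) (nat_lit 5) (nat_lit 87) (nat_lit 5) (nat_lit 338) (nat_lit 319) (nat_lit 231)))))) (XT.nd (nat_lit 54426) (nat_lit 0) (nat_lit 1512) (XT.nd (nat_lit 54050) (nat_lit 0) (nat_lit 1428) (XT.nd (nat_lit 94) (nat_lit 0) (nat_lit 0) (XT.lf (nat_lit 0) (nat_lit 4279447976) (nat_lit 924) (nat_lit 2096308194) (nat_lit 1008) (nat_lit 5772140917) (nat_lit 75) (nat_lit 5) (nat_lit 86) (nat_lit 5) (nat_lit 87) (nat_lit 5) (nat_lit 339) (nat_lit 319) (nat_lit 230)) (XT.nd (nat_lit 53862) (nat_lit 0) (nat_lit 1428) (XT.lf (nat_lit 0) (nat_lit 7379250061) (nat_lit 1008) (nat_lit 3799589746) (nat_lit 84) (nat_lit 1182875887)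 (nat_lit 75) (nat_lit 5) (nat_lit 87) (nat_lit 5) (nat_lit 76) (nat_lit 5) (nat_lit 340) (nat_lit 319) (nat_lit 229)) (XT.lf (nat_lit 0) (nat_lit 989085971) (nat_lit 924) (nat_lit 1815290342) (nat_lit 924) (nat_lit 1815290342) (nat_lit 92) (nat_lit 3) (nat_lit 103) (nat_lit 3) (nat_lit 103) (nat_lit 5) (nat_lit 320) (nat_lit 320) (nat_lit 248)))) (XT.nd (nat_lit 188) (nat_lit 0) (nat_lit 84) (XT.nd (nat_lit 94) (nat_lit 0) (nat_lit 0) (XT.lf (nat_lit 0) (nat_lit 2658792031) (nat_lit 924) (nat_lit 588488727) (nat_lit 924) (nat_lit 6110085268) (nat_lit 92) (nat_lit 3) (nat_lit 103) (nat_lit 3) (nat_lit 103) (nat_lit 5) (nat_lit 321) (nat_lit 320) (nat_lit 247)) (XT.lf (nat_lit 84) (nat_lit 2586416127) (nat_lit 0) (nat_lit 773562355) (nat_lit 924) (nat_lit 6119298409) (nat_lit 93) (nat_lit 5) (nat_lit 92) (nat_lit 3) (nat_lit 103) (nat_lit 5) (nat_lit 322) (nat_lit 320) (nat_lit 246))) (XT.nd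 (nat_lit 94) (nat_lit 0) (nat_lit 0) (XT.lf (nat_lit 0) (nat_lit 4081316883) (nat_lit 840) (nat_lit 3764819865) (nat_lit 924) (nat_lit 1759075895) (nat_lit 93) (nat_lit 5) (nat_lit 103) (nat_lit 5) (nat_lit 104) (nat_lit 5) (nat_lit 323) (nat_lit 320) (nat_lit 245)) (XT.lf (nat_lit 0) (nat_lit 4808275971) (nat_lit 840) (nat_lit 561855922) (nat_lit 924) (nat_lit 4365630092) (nat_lit 93) (nat_lit 5) (nat_lit 103) (nat_lit 5) (nat_lit 104) (nat_lit 5) (nat_lit 324) (nat_lit 320) (nat_lit 244))))) (XT.nd (nat_lit 282) (nat_lit 0) (nat_lit 84) (XT.nd (nat_lit 94) (nat_lit 0) (nat_lit 0) (XT.lf (nat_lit 84) (nat_lit 2782756746) (nat_lit 0) (nat_lit 2778708059) (nat_lit 924) (nat_lit 4308963920) (nat_lit 94) (nat_lit 5) (nat_lit 93) (nat_lit 5) (nat_lit 104) (nat_lit 5) (nat_lit 325) (nat_lit 320) (nat_lit 243)) (XT.nd (nat_lit 94) (nat_lit 0) (nat_lit 84) (XT.lf (nat_lit 84) (nat_lit 6229392749)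 (nat_lit 0) (nat_lit 91147428) (nat_lit 924) (nat_lit 3689450612) (nat_lit 94) (nat_lit 5) (nat_lit 93) (nat_lit 5) (nat_lit 104) (nat_lit 5) (nat_lit 326) (nat_lit 320) (nat_lit 242)) (XT.lf (nat_lit 0) (nat_lit 7107198442) (nat_lit 840) (nat_lit 411719902) (nat_lit 924) (nat_lit 2635009267) (nat_lit 94) (nat_lit 5) (nat_lit 104) (nat_lit 5) (nat_lit 105) (nat_lit 5) (nat_lit 327) (nat_lit 320) (nat_lit 241)))) (XT.nd (nat_lit 188) (nat_lit 0) (nat_lit 84) (XT.nd (nat_lit 94) (nat_lit 0) (nat_lit 0) (XT.lf (nat_lit 84) (nat_lit 3109605916) (nat_lit 0) (nat_lit 4818562902) (nat_lit 924) (nat_lit 2374018662) (nat_lit 95) (nat_lit 5) (nat_lit 94) (nat_lit 5) (nat_lit 105) (nat_lit 5) (nat_lit 328) (nat_lit 320) (nat_lit 240)) (XT.lf (nat_lit 84) (nat_lit 6735252905) (nat_lit 0) (nat_lit 2022302200) (nat_lit 924) (nat_lit 1698179989) (nat_lit 95) (nat_lit 5) (nat_lit 94) (nat_lit 5) (nat_lit 105)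 (nat_lit 5) (nat_lit 329) (nat_lit 320) (nat_lit 239))) (XT.nd (nat_lit 94) (nat_lit 0) (nat_lit 0) (XT.lf (nat_lit 0) (nat_lit 9600574465) (nat_lit 840) (nat_lit 163320433) (nat_lit 924) (nat_lit 850680911) (nat_lit 95) (nat_lit 5) (nat_lit 105) (nat_lit 5) (nat_lit 106) (nat_lit 5) (nat_lit 330) (nat_lit 320) (nat_lit 238)) (XT.lf (nat_lit 84) (nat_lit 3541163480) (nat_lit 0) (nat_lit 6964380401) (nat_lit 924) (nat_lit 271840333) (nat_lit 96) (nat_lit 5) (nat_lit 95) (nat_lit 5) (nat_lit 106) (nat_lit 5) (nat_lit 331) (nat_lit 320) (nat_lit 237))))))) (XT.nd (nat_lit 55084) (nat_lit 0) (nat_lit 756) (XT.nd (nat_lit 564) (nat_lit 756) (nat_lit 0) (XT.nd (nat_lit 282) (nat_lit 0) (nat_lit 84) (XT.nd (nat_lit 94) (nat_lit 0) (nat_lit 0) (XT.lf (nat_lit 0) (nat_lit 465236191) (nat_lit 924) (nat_lit 3600178105) (nat_lit 1008) (nat_lit 6880381205) (nat_lit 84) (nat_lit 5) (nat_lit 95) (nat_lit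 5) (nat_lit 96) (nat_lit 5) (nat_lit 332) (nat_lit 320) (nat_lit 236)) (XT.nd (nat_lit 94) (nat_lit 0) (nat_lit 84) (XT.lf (nat_lit 84) (nat_lit 134912895) (nat_lit 0) (nat_lit 1066664166) (nat_lit 1008) (nat_lit 9918460840) (nat_lit 85) (nat_lit 5) (nat_lit 84) (nat_lit 5) (nat_lit 96) (nat_lit 5) (nat_lit 333) (nat_lit 320) (nat_lit 235)) (XT.lf (nat_lit 0) (nat_lit 2000018596) (nat_lit 924) (nat_lit 7271118618) (nat_lit 1008) (nat_lit 2027463347) (nat_lit 85) (nat_lit 5) (nat_lit 96) (nat_lit 5) (nat_lit 97) (nat_lit 5) (nat_lit 334) (nat_lit 320) (nat_lit 234)))) (XT.nd (nat_lit 94) (nat_lit 0) (nat_lit 0) (XT.lf (nat_lit 0) (nat_lit 2815908443) (nat_lit 924) (nat_lit 3466701538) (nat_lit 1008) (nat_lit 5200447230) (nat_lit 85) (nat_lit 5) (nat_lit 96) (nat_lit 5) (nat_lit 97) (nat_lit 5) (nat_lit 335) (nat_lit 320) (nat_lit 233)) (XT.nd (nat_lit 94) (nat_lit 0) (nat_lit 84) (XT.lf (nat_lit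 84) (nat_lit 451347432) (nat_lit 0) (nat_lit 3192555649) (nat_lit 1008) (nat_lit 8029865933) (nat_lit 86) (nat_lit 5) (nat_lit 85) (nat_lit 5) (nat_lit 97) (nat_lit 5) (nat_lit 336) (nat_lit 320) (nat_lit 232)) (XT.lf (nat_lit 0) (nat_lit 4516828411) (nat_lit 924) (nat_lit 7319188788) (nat_lit 84) (nat_lit 33902852) (nat_lit 86) (nat_lit 5) (nat_lit 97) (nat_lit 5) (nat_lit 87) (nat_lit 5) (nat_lit 337) (nat_lit 320) (nat_lit 231))))) (XT.nd (nat_lit 54144) (nat_lit 0) (nat_lit 1428) (XT.nd (nat_lit 94) (nat_lit 924) (nat_lit 0) (XT.lf (nat_lit 0) (nat_lit 5432758780) (nat_lit 924) (nat_lit 3341150587) (nat_lit 84) (nat_lit 3297868707) (nat_lit 86) (nat_lit 5) (nat_lit 97) (nat_lit 5) (nat_lit 87) (nat_lit 5) (nat_lit 338) (nat_lit 320) (nat_lit 230)) (XT.nd (nat_lit 94) (nat_lit 0) (nat_lit 0) (XT.lf (nat_lit 0) (nat_lit 762432839) (nat_lit 924) (nat_lit 5606007976) (nat_lit 1008) (nat_lit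 5911837744) (nat_lit 75) (nat_lit 5) (nat_lit 86) (nat_lit 5) (nat_lit 87) (nat_lit 5) (nat_lit 339) (nat_lit 320) (nat_lit 229)) (XT.lf (nat_lit 0) (nat_lit 5051055689) (nat_lit 924) (nat_lit 2301100741) (nat_lit 1008) (nat_lit 5142609715) (nat_lit 75) (nat_lit 5) (nat_lit 86) (nat_lit 5) (nat_lit 87) (nat_lit 5) (nat_lit 340) (nat_lit 320) (nat_lit 228)))) (XT.nd (nat_lit 188) (nat_lit 0) (nat_lit 0) (XT.nd (nat_lit 94) (nat_lit 0) (nat_lit 0) (XT.lf (nat_lit 0) (nat_lit 1663258391) (nat_lit 924) (nat_lit 1537345369) (nat_lit 924) (nat_lit 1537345369) (nat_lit 92) (nat_lit 3) (nat_lit 103) (nat_lit 3) (nat_lit 103) (nat_lit 5) (nat_lit 321) (nat_lit 321) (nat_lit 246)) (XT.lf (nat_lit 84) (nat_lit 42463082) (nat_lit 0) (nat_lit 3947496221) (nat_lit 924) (nat_lit 5609116643) (nat_lit 93) (nat_lit 5) (nat_lit 92) (nat_lit 3) (nat_lit 103) (nat_lit 5) (nat_lit 322) (nat_lit 321) (nat_lit 245)))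 (XT.nd (nat_lit 94) (nat_lit 0) (nat_lit 84) (XT.lf (nat_lit 84) (nat_lit 3308370597) (nat_lit 0) (nat_lit 1372922732) (nat_lit 924) (nat_lit 5044742359) (nat_lit 93) (nat_lit 5) (nat_lit 92) (nat_lit 3) (nat_lit 103) (nat_lit 5) (nat_lit 323) (nat_lit 321) (nat_lit 244)) (XT.lf (nat_lit 0) (nat_lit 5382859699) (nat_lit 840) (nat_lit 3207831710) (nat_lit 924) (nat_lit 1266771826) (nat_lit 93) (nat_lit 5) (nat_lit 103) (nat_lit 5) (nat_lit 104) (nat_lit 5) (nat_lit 324) (nat_lit 321) (nat_lit 243)))))) (XT.nd (nat_lit 658) (nat_lit 756) (nat_lit 0) (XT.nd (nat_lit 282) (nat_lit 0) (nat_lit 84) (XT.nd (nat_lit 94) (nat_lit 0) (nat_lit 0) (XT.lf (nat_lit 84) (nat_lit 75692482) (nat_lit 0) (nat_lit 6022082477) (nat_lit 924) (nat_lit 3895629789) (nat_lit 94) (nat_lit 5) (nat_lit 93) (nat_lit 5) (nat_lit 104) (nat_lit 5) (nat_lit 325) (nat_lit 321) (nat_lit 242)) (XT.nd (nat_lit 94) (nat_lit 0) (nat_lit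 0) (XT.lf (nat_lit 84) (nat_lit 3515847606) (nat_lit 0) (nat_lit 3329862623) (nat_lit 924) (nat_lit 3287687565) (nat_lit 94) (nat_lit 5) (nat_lit 93) (nat_lit 5) (nat_lit 104) (nat_lit 5) (nat_lit 326) (nat_lit 321) (nat_lit 241)) (XT.lf (nat_lit 84) (nat_lit 7049880647) (nat_lit 0) (nat_lit 545005603) (nat_lit 924) (nat_lit 2683693380) (nat_lit 94) (nat_lit 5) (nat_lit 93) (nat_lit 5) (nat_lit 104) (nat_lit 5) (nat_lit 327) (nat_lit 321) (nat_lit 240)))) (XT.nd (nat_lit 188) (nat_lit 0) (nat_lit 0) (XT.nd (nat_lit 94) (nat_lit 0) (nat_lit 0) (XT.lf (nat_lit 84) (nat_lit 233541120) (nat_lit 0) (nat_lit 8137941292) (nat_lit 924) (nat_lit 2056813254) (nat_lit 95) (nat_lit 5) (nat_lit 94) (nat_lit 5) (nat_lit 105) (nat_lit 5) (nat_lit 328) (nat_lit 321) (nat_lit 239)) (XT.lf (nat_lit 84) (nat_lit 3852708439) (nat_lit 0) (nat_lit 5337973021) (nat_lit 924) (nat_lit 1391555768) (nat_lit 95) (nat_lit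 5) (nat_lit 94) (nat_lit 5) (nat_lit 105) (nat_lit 5) (nat_lit 329) (nat_lit 321) (nat_lit 238))) (XT.nd (nat_lit 94) (nat_lit 0) (nat_lit 84) (XT.lf (nat_lit 84) (nat_lit 7571305434) (nat_lit 0) (nat_lit 2443902074) (nat_lit 924) (nat_lit 726519521) (nat_lit 95) (nat_lit 5) (nat_lit 94) (nat_lit 5) (nat_lit 105) (nat_lit 5) (nat_lit 330) (nat_lit 321) (nat_lit 237)) (XT.lf (nat_lit 84) (nat_lit 490337705) (nat_lit 0) (nat_lit 10365781608) (nat_lit 924) (nat_lit 50475421) (nat_lit 96) (nat_lit 5) (nat_lit 95) (nat_lit 5) (nat_lit 106) (nat_lit 5) (nat_lit 331) (nat_lit 321) (nat_lit 236))))) (XT.nd (nat_lit 282) (nat_lit 0) (nat_lit 84) (XT.nd (nat_lit 94) (nat_lit 0) (nat_lit 0) (XT.lf (nat_lit 0) (nat_lit 672649898) (nat_lit 924) (nat_lit 6789109952) (nat_lit 1008) (nat_lit 3613541484) (nat_lit 84) (nat_lit 5) (nat_lit 95) (nat_lit 5) (nat_lit 96) (nat_lit 5) (nat_lit 332) (nat_lit 321) (nat_lit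 235)) (XT.nd (nat_lit 94) (nat_lit 0) (nat_lit 0) (XT.lf (nat_lit 0) (nat_lit 1398446601) (nat_lit 924) (nat_lit 3063235288) (nat_lit 1008) (nat_lit 6788255796) (nat_lit 84) (nat_lit 5) (nat_lit 95) (nat_lit 5) (nat_lit 96) (nat_lit 5) (nat_lit 333) (nat_lit 321) (nat_lit 234)) (XT.lf (nat_lit 84) (nat_lit 781077564) (nat_lit 0) (nat_lit 1355278995) (nat_lit 1008) (nat_lit 9294085329) (nat_lit 85) (nat_lit 5) (nat_lit 84) (nat_lit 5) (nat_lit 96) (nat_lit 5) (nat_lit 334) (nat_lit 321) (nat_lit 233)))) (XT.nd (nat_lit 188) (nat_lit 0) (nat_lit 0) (XT.nd (nat_lit 94) (nat_lit 0) (nat_lit 0) (XT.lf (nat_lit 0) (nat_lit 2930104078) (nat_lit 924) (nat_lit 6838099795) (nat_lit 1008) (nat_lit 1847444185) (nat_lit 85) (nat_lit 5) (nat_lit 96) (nat_lit 5) (nat_lit 97) (nat_lit 5) (nat_lit 335) (nat_lit 321) (nat_lit 232)) (XT.lf (nat_lit 0) (nat_lit 3745185025) (nat_lit 924) (nat_lit 2935543195) (nat_lit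 1008) (nat_lit 5126093174) (nat_lit 85) (nat_lit 5) (nat_lit 96) (nat_lit 5) (nat_lit 97) (nat_lit 5) (nat_lit 336) (nat_lit 321) (nat_lit 231))) (XT.nd (nat_lit 94) (nat_lit 0) (nat_lit 0) (XT.lf (nat_lit 84) (nat_lit 1097499778) (nat_lit 0) (nat_lit 3482302161) (nat_lit 1008) (nat_lit 7424417424) (nat_lit 86) (nat_lit 5) (nat_lit 85) (nat_lit 5) (nat_lit 97) (nat_lit 5) (nat_lit 337) (nat_lit 321) (nat_lit 230)) (XT.lf (nat_lit 84) (nat_lit 5305321616) (nat_lit 0) (nat_lit 149368452) (nat_lit 1008) (nat_lit 6752717213) (nat_lit 86) (nat_lit 5) (nat_lit 85) (nat_lit 5) (nat_lit 97) (nat_lit 5) (nat_lit 338) (nat_lit 321) (nat_lit 229))))))))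
noncomputable def xc30 : XT := (XT.nd (nat_lit 110638) (nat_lit 0) (nat_lit 588) (XT.nd (nat_lit 55178) (nat_lit 0) (nat_lit 756) (XT.nd (nat_lit 54520) (nat_lit 0) (nat_lit 672) (XT.nd (nat_lit 54238) (nat_lit 0) (nat_lit 1428) (XT.nd (nat_lit 94) (nat_lit 924) (nat_lit 0) (XT.lf (nat_lit 0) (nat_lit 6373587710) (nat_lit 924) (nat_lit 2818654743) (nat_lit 84) (nat_lit 3224241481) (nat_lit 86) (nat_lit 5) (nat_lit 97) (nat_lit 5) (nat_lit 87) (nat_lit 5) (nat_lit 339) (nat_lit 321) (nat_lit 228)) (XT.nd (nat_lit 54050) (nat_lit 0) (nat_lit 1428) (XT.lf (nat_lit 0) (nat_lit 1405801357) (nat_lit 924) (nat_lit 5915397514) (nat_lit 1008) (nat_lit 5310946063) (nat_lit 75) (nat_lit 5) (nat_lit 86) (nat_lit 5) (nat_lit 87) (nat_lit 5) (nat_lit 340) (nat_lit 321) (nat_lit 227)) (XT.lf (nat_lit 0) (nat_lit 2320213912) (nat_lit 924) (nat_lit 1270580464) (nat_lit 924) (nat_lit 1270580464) (nat_lit 92)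 (nat_lit 3) (nat_lit 103) (nat_lit 3) (nat_lit 103) (nat_lit 5) (nat_lit 322) (nat_lit 322) (nat_lit 244)))) (XT.nd (nat_lit 94) (nat_lit 0) (nat_lit 0) (XT.lf (nat_lit 84) (nat_lit 666258168) (nat_lit 0) (nat_lit 4627948084) (nat_lit 924) (nat_lit 4556758425) (nat_lit 93) (nat_lit 5) (nat_lit 92) (nat_lit 3) (nat_lit 103) (nat_lit 5) (nat_lit 323) (nat_lit 322) (nat_lit 243)) (XT.nd (nat_lit 94) (nat_lit 0) (nat_lit 84) (XT.lf (nat_lit 84) (nat_lit 4014692190) (nat_lit 0) (nat_lit 1956782541) (nat_lit 924) (nat_lit 4011759019) (nat_lit 93) (nat_lit 5) (nat_lit 92) (nat_lit 3) (nat_lit 103) (nat_lit 5) (nat_lit 324) (nat_lit 322) (nat_lit 242)) (XT.lf (nat_lit 0) (nat_lit 6655151777) (nat_lit 840) (nat_lit 2673481182) (nat_lit 924) (nat_lit 791596328) (nat_lit 93) (nat_lit 5) (nat_lit 103) (nat_lit 5) (nat_lit 104) (nat_lit 5) (nat_lit 325) (nat_lit 322) (nat_lit 241))))) (XT.nd (nat_lit 282)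 (nat_lit 840) (nat_lit 0) (XT.nd (nat_lit 94) (nat_lit 0) (nat_lit 0) (XT.lf (nat_lit 84) (nat_lit 705415672) (nat_lit 0) (nat_lit 6659799637) (nat_lit 924) (nat_lit 2896264112) (nat_lit 94) (nat_lit 5) (nat_lit 93) (nat_lit 5) (nat_lit 104) (nat_lit 5) (nat_lit 326) (nat_lit 322) (nat_lit 240)) (XT.nd (nat_lit 94) (nat_lit 0) (nat_lit 0) (XT.lf (nat_lit 84) (nat_lit 4233351707) (nat_lit 0) (nat_lit 3870559368) (nat_lit 924) (nat_lit 2303155636) (nat_lit 94) (nat_lit 5) (nat_lit 93) (nat_lit 5) (nat_lit 104) (nat_lit 5) (nat_lit 327) (nat_lit 322) (nat_lit 239)) (XT.lf (nat_lit 84) (nat_lit 7858643072) (nat_lit 0) (nat_lit 986217947) (nat_lit 924) (nat_lit 1713104904) (nat_lit 94) (nat_lit 5) (nat_lit 93) (nat_lit 5) (nat_lit 104) (nat_lit 5) (nat_lit 328) (nat_lit 322) (nat_lit 238)))) (XT.nd (nat_lit 188) (nat_lit 924) (nat_lit 0) (XT.nd (nat_lit 94) (nat_lit 0) (nat_lit 0) (XT.lf (nat_lit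 84) (nat_lit 868040583) (nat_lit 0) (nat_lit 8749125977) (nat_lit 924) (nat_lit 1096270417) (nat_lit 95) (nat_lit 5) (nat_lit 94) (nat_lit 5) (nat_lit 105) (nat_lit 5) (nat_lit 329) (nat_lit 322) (nat_lit 237)) (XT.lf (nat_lit 84) (nat_lit 4580541710) (nat_lit 0) (nat_lit 5851567067) (nat_lit 924) (nat_lit 441188616) (nat_lit 95) (nat_lit 5) (nat_lit 94) (nat_lit 5) (nat_lit 105) (nat_lit 5) (nat_lit 330) (nat_lit 322) (nat_lit 236))) (XT.nd (nat_lit 94) (nat_lit 0) (nat_lit 84) (XT.lf (nat_lit 0) (nat_lit 210267605) (nat_lit 924) (nat_lit 2644850411) (nat_lit 1008) (nat_lit 8183659558) (nat_lit 83) (nat_lit 5) (nat_lit 94) (nat_lit 5) (nat_lit 95) (nat_lit 5) (nat_lit 331) (nat_lit 322) (nat_lit 235)) (XT.lf (nat_lit 0) (nat_lit 867796421) (nat_lit 924) (nat_lit 10090096414) (nat_lit 1008) (nat_lit 251644863) (nat_lit 84) (nat_lit 5) (nat_lit 95) (nat_lit 5) (nat_lit 96) (nat_lit 5) (nat_lit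 332) (nat_lit 322) (nat_lit 234)))))) (XT.nd (nat_lit 54802) (nat_lit 0) (nat_lit 672) (XT.nd (nat_lit 282) (nat_lit 0) (nat_lit 84) (XT.nd (nat_lit 94) (nat_lit 0) (nat_lit 0) (XT.lf (nat_lit 0) (nat_lit 1584664109) (nat_lit 924) (nat_lit 6370524506) (nat_lit 1008) (nat_lit 3429327297) (nat_lit 84) (nat_lit 5) (nat_lit 95) (nat_lit 5) (nat_lit 96) (nat_lit 5) (nat_lit 333) (nat_lit 322) (nat_lit 233)) (XT.nd (nat_lit 94) (nat_lit 0) (nat_lit 0) (XT.lf (nat_lit 0) (nat_lit 2306165143) (nat_lit 924) (nat_lit 2548061872) (nat_lit 1008) (nat_lit 6711364884) (nat_lit 84) (nat_lit 5) (nat_lit 95) (nat_lit 5) (nat_lit 96) (nat_lit 5) (nat_lit 334) (nat_lit 322) (nat_lit 232)) (XT.lf (nat_lit 84) (nat_lit 1409247623) (nat_lit 0) (nat_lit 1637704323) (nat_lit 1008) (nat_lit 8705549117) (nat_lit 85) (nat_lit 5) (nat_lit 84) (nat_lit 5) (nat_lit 96) (nat_lit 5) (nat_lit 335) (nat_lit 322) (nat_lit 231))))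 (XT.nd (nat_lit 188) (nat_lit 0) (nat_lit 0) (XT.nd (nat_lit 94) (nat_lit 0) (nat_lit 0) (XT.lf (nat_lit 0) (nat_lit 3837604056) (nat_lit 924) (nat_lit 6430656941) (nat_lit 1008) (nat_lit 1676230066) (nat_lit 85) (nat_lit 5) (nat_lit 96) (nat_lit 5) (nat_lit 97) (nat_lit 5) (nat_lit 336) (nat_lit 322) (nat_lit 230)) (XT.lf (nat_lit 0) (nat_lit 4653397062) (nat_lit 924) (nat_lit 2425745860) (nat_lit 1008) (nat_lit 5063387234) (nat_lit 85) (nat_lit 5) (nat_lit 96) (nat_lit 5) (nat_lit 97) (nat_lit 5) (nat_lit 337) (nat_lit 322) (nat_lit 229))) (XT.nd (nat_lit 94) (nat_lit 0) (nat_lit 0) (XT.lf (nat_lit 84) (nat_lit 1726238893) (nat_lit 0) (nat_lit 3769730750) (nat_lit 1008) (nat_lit 6850806067) (nat_lit 86) (nat_lit 5) (nat_lit 85) (nat_lit 5) (nat_lit 97) (nat_lit 5) (nat_lit 338) (nat_lit 322) (nat_lit 228)) (XT.lf (nat_lit 84) (nat_lit 6046621331) (nat_lit 0) (nat_lit 328079593) (nat_lit 1008)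 (nat_lit 6182450770) (nat_lit 86) (nat_lit 5) (nat_lit 85) (nat_lit 5) (nat_lit 97) (nat_lit 5) (nat_lit 339) (nat_lit 322) (nat_lit 227))))) (XT.nd (nat_lit 282) (nat_lit 0) (nat_lit 84) (XT.nd (nat_lit 94) (nat_lit 0) (nat_lit 0) (XT.lf (nat_lit 0) (nat_lit 2961676500) (nat_lit 924) (nat_lit 1014169636) (nat_lit 924) (nat_lit 1014169636) (nat_lit 92) (nat_lit 3) (nat_lit 103) (nat_lit 3) (nat_lit 103) (nat_lit 5) (nat_lit 323) (nat_lit 323) (nat_lit 242)) (XT.nd (nat_lit 94) (nat_lit 0) (nat_lit 0) (XT.lf (nat_lit 84) (nat_lit 1272520420) (nat_lit 0) (nat_lit 5296437951) (nat_lit 924) (nat_lit 3544409446) (nat_lit 93) (nat_lit 5) (nat_lit 92) (nat_lit 3) (nat_lit 103) (nat_lit 5) (nat_lit 324) (nat_lit 323) (nat_lit 241)) (XT.lf (nat_lit 84) (nat_lit 4707147889) (nat_lit 0) (nat_lit 2526679926) (nat_lit 924) (nat_lit 3017201638) (nat_lit 93) (nat_lit 5) (nat_lit 92) (nat_lit 3) (nat_lit 103)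 (nat_lit 5) (nat_lit 325) (nat_lit 323) (nat_lit 240)))) (XT.nd (nat_lit 188) (nat_lit 0) (nat_lit 0) (XT.nd (nat_lit 94) (nat_lit 0) (nat_lit 0) (XT.lf (nat_lit 0) (nat_lit 7901408788) (nat_lit 840) (nat_lit 2160106451) (nat_lit 924) (nat_lit 332161874) (nat_lit 93) (nat_lit 5) (nat_lit 103) (nat_lit 5) (nat_lit 104) (nat_lit 5) (nat_lit 326) (nat_lit 323) (nat_lit 239)) (XT.lf (nat_lit 84) (nat_lit 1317499683) (nat_lit 0) (nat_lit 7290570597) (nat_lit 924) (nat_lit 1932265328) (nat_lit 94) (nat_lit 5) (nat_lit 93) (nat_lit 5) (nat_lit 104) (nat_lit 5) (nat_lit 327) (nat_lit 323) (nat_lit 238))) (XT.nd (nat_lit 94) (nat_lit 0) (nat_lit 0) (XT.lf (nat_lit 84) (nat_lit 4937055179) (nat_lit 0) (nat_lit 4402105554) (nat_lit 924) (nat_lit 1352455525) (nat_lit 94) (nat_lit 5) (nat_lit 93) (nat_lit 5) (nat_lit 104) (nat_lit 5) (nat_lit 328) (nat_lit 323) (nat_lit 237)) (XT.lf (nat_lit 84) (nat_lit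 8657517621) (nat_lit 0) (nat_lit 1415974841) (nat_lit 924) (nat_lit 774845554) (nat_lit 94) (nat_lit 5) (nat_lit 93) (nat_lit 5) (nat_lit 104) (nat_lit 5) (nat_lit 329) (nat_lit 323) (nat_lit 236))))))) (XT.nd (nat_lit 55554) (nat_lit 84) (nat_lit 0) (XT.nd (nat_lit 564) (nat_lit 0) (nat_lit 84) (XT.nd (nat_lit 282) (nat_lit 0) (nat_lit 0) (XT.nd (nat_lit 94) (nat_lit 924) (nat_lit 0) (XT.lf (nat_lit 84) (nat_lit 1485055865) (nat_lit 0) (nat_lit 9357998623) (nat_lit 924) (nat_lit 166622035) (nat_lit 95) (nat_lit 5) (nat_lit 94) (nat_lit 5) (nat_lit 105) (nat_lit 5) (nat_lit 330) (nat_lit 323) (nat_lit 235)) (XT.nd (nat_lit 94) (nat_lit 0) (nat_lit 0) (XT.lf (nat_lit 0) (nat_lit 470126134) (nat_lit 924) (nat_lit 5885429682) (nat_lit 1008) (nat_lit 4819867993) (nat_lit 83) (nat_lit 5) (nat_lit 94) (nat_lit 5) (nat_lit 95) (nat_lit 5) (nat_lit 331) (nat_lit 323) (nat_lit 234)) (XT.lf (nat_lit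 0) (nat_lit 1105075981) (nat_lit 924) (nat_lit 2146928935) (nat_lit 1008) (nat_lit 8094944030) (nat_lit 83) (nat_lit 5) (nat_lit 94) (nat_lit 5) (nat_lit 95) (nat_lit 5) (nat_lit 332) (nat_lit 323) (nat_lit 233)))) (XT.nd (nat_lit 94) (nat_lit 0) (nat_lit 84) (XT.lf (nat_lit 84) (nat_lit 1730892799) (nat_lit 0) (nat_lit 28454277) (nat_lit 1008) (nat_lit 9764583686) (nat_lit 84) (nat_lit 5) (nat_lit 83) (nat_lit 5) (nat_lit 95) (nat_lit 5) (nat_lit 333) (nat_lit 323) (nat_lit 232)) (XT.nd (nat_lit 94) (nat_lit 0) (nat_lit 0) (XT.lf (nat_lit 0) (nat_lit 2472165706) (nat_lit 924) (nat_lit 5976222492) (nat_lit 1008) (nat_lit 3256948915) (nat_lit 84) (nat_lit 5) (nat_lit 95) (nat_lit 5) (nat_lit 96) (nat_lit 5) (nat_lit 334) (nat_lit 323) (nat_lit 231)) (XT.lf (nat_lit 0) (nat_lit 3190825039) (nat_lit 924) (nat_lit 2053057344) (nat_lit 1008) (nat_lit 6649109215) (nat_lit 84) (nat_lit 5) (nat_lit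 95) (nat_lit 5) (nat_lit 96) (nat_lit 5) (nat_lit 335) (nat_lit 323) (nat_lit 230))))) (XT.nd (nat_lit 54614) (nat_lit 0) (nat_lit 672) (XT.nd (nat_lit 94) (nat_lit 0) (nat_lit 84) (XT.lf (nat_lit 84) (nat_lit 2021117566) (nat_lit 0) (nat_lit 1914644842) (nat_lit 1008) (nat_lit 8150693932) (nat_lit 85) (nat_lit 5) (nat_lit 84) (nat_lit 5) (nat_lit 96) (nat_lit 5) (nat_lit 336) (nat_lit 323) (nat_lit 229)) (XT.nd (nat_lit 94) (nat_lit 0) (nat_lit 0) (XT.lf (nat_lit 0) (nat_lit 4724863963) (nat_lit 924) (nat_lit 6047272898) (nat_lit 1008) (nat_lit 1513241860) (nat_lit 85) (nat_lit 5) (nat_lit 96) (nat_lit 5) (nat_lit 97) (nat_lit 5) (nat_lit 337) (nat_lit 323) (nat_lit 228)) (XT.lf (nat_lit 0) (nat_lit 5542845563) (nat_lit 924) (nat_lit 1935731171) (nat_lit 1008) (nat_lit 5011864035) (nat_lit 85) (nat_lit 5) (nat_lit 96) (nat_lit 5) (nat_lit 97) (nat_lit 5) (nat_lit 338) (nat_lit 323) (nat_lit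 227)))) (XT.nd (nat_lit 188) (nat_lit 0) (nat_lit 0) (XT.nd (nat_lit 94) (nat_lit 0) (nat_lit 0) (XT.lf (nat_lit 0) (nat_lit 3589289839) (nat_lit 924) (nat_lit 767330744) (nat_lit 924) (nat_lit 767330744) (nat_lit 92) (nat_lit 3) (nat_lit 103) (nat_lit 3) (nat_lit 103) (nat_lit 5) (nat_lit 324) (nat_lit 324) (nat_lit 240)) (XT.lf (nat_lit 84) (nat_lit 1862890222) (nat_lit 0) (nat_lit 5954552966) (nat_lit 924) (nat_lit 2569007855) (nat_lit 93) (nat_lit 5) (nat_lit 92) (nat_lit 3) (nat_lit 103) (nat_lit 5) (nat_lit 325) (nat_lit 324) (nat_lit 239))) (XT.nd (nat_lit 94) (nat_lit 0) (nat_lit 0) (XT.lf (nat_lit 84) (nat_lit 5387426088) (nat_lit 0) (nat_lit 3084081143) (nat_lit 924) (nat_lit 2058088639) (nat_lit 93) (nat_lit 5) (nat_lit 92) (nat_lit 3) (nat_lit 103) (nat_lit 5) (nat_lit 326) (nat_lit 324) (nat_lit 238)) (XT.lf (nat_lit 84) (nat_lit 9010675557) (nat_lit 0) (nat_lit 115168838) (nat_lit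 924) (nat_lit 1552107818) (nat_lit 93) (nat_lit 5) (nat_lit 92) (nat_lit 3) (nat_lit 103) (nat_lit 5) (nat_lit 327) (nat_lit 324) (nat_lit 237)))))) (XT.nd (nat_lit 658) (nat_lit 0) (nat_lit 168) (XT.nd (nat_lit 282) (nat_lit 0) (nat_lit 84) (XT.nd (nat_lit 94) (nat_lit 924) (nat_lit 0) (XT.lf (nat_lit 84) (nat_lit 1913598787) (nat_lit 0) (nat_lit 7915762423) (nat_lit 924) (nat_lit 1000799951) (nat_lit 94) (nat_lit 5) (nat_lit 93) (nat_lit 5) (nat_lit 104) (nat_lit 5) (nat_lit 328) (nat_lit 324) (nat_lit 236)) (XT.nd (nat_lit 94) (nat_lit 924) (nat_lit 0) (XT.lf (nat_lit 84) (nat_lit 5628665105) (nat_lit 0) (nat_lit 4925752338) (nat_lit 924) (nat_lit 432824322) (nat_lit 94) (nat_lit 5) (nat_lit 93) (nat_lit 5) (nat_lit 104) (nat_lit 5) (nat_lit 329) (nat_lit 324) (nat_lit 235)) (XT.lf (nat_lit 0) (nat_lit 131084193) (nat_lit 924) (nat_lit 1702957396) (nat_lit 1008) (nat_lit 9315816038) (nat_lit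 82) (nat_lit 5) (nat_lit 93) (nat_lit 5) (nat_lit 94) (nat_lit 5) (nat_lit 330) (nat_lit 324) (nat_lit 234)))) (XT.nd (nat_lit 188) (nat_lit 0) (nat_lit 0) (XT.nd (nat_lit 94) (nat_lit 0) (nat_lit 0) (XT.lf (nat_lit 0) (nat_lit 719963893) (nat_lit 924) (nat_lit 9238267908) (nat_lit 1008) (nat_lit 1358766789) (nat_lit 83) (nat_lit 5) (nat_lit 94) (nat_lit 5) (nat_lit 95) (nat_lit 5) (nat_lit 331) (nat_lit 324) (nat_lit 233)) (XT.lf (nat_lit 0) (nat_lit 1346281112) (nat_lit 924) (nat_lit 5505402891) (nat_lit 1008) (nat_lit 4637170444) (nat_lit 83) (nat_lit 5) (nat_lit 94) (nat_lit 5) (nat_lit 95) (nat_lit 5) (nat_lit 332) (nat_lit 324) (nat_lit 232))) (XT.nd (nat_lit 94) (nat_lit 0) (nat_lit 0) (XT.lf (nat_lit 0) (nat_lit 1975008474) (nat_lit 924) (nat_lit 1667921064) (nat_lit 1008) (nat_lit 8023759791) (nat_lit 83) (nat_lit 5) (nat_lit 94) (nat_lit 5) (nat_lit 95) (nat_lit 5) (nat_lit 333) (nat_lit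 324) (nat_lit 231)) (XT.lf (nat_lit 84) (nat_lit 2324589812) (nat_lit 0) (nat_lit 305202426) (nat_lit 1008) (nat_lit 9220161893) (nat_lit 84) (nat_lit 5) (nat_lit 83) (nat_lit 5) (nat_lit 95) (nat_lit 5) (nat_lit 334) (nat_lit 324) (nat_lit 230))))) (XT.nd (nat_lit 282) (nat_lit 0) (nat_lit 84) (XT.nd (nat_lit 94) (nat_lit 0) (nat_lit 0) (XT.lf (nat_lit 0) (nat_lit 3337521346) (nat_lit 924) (nat_lit 5604749749) (nat_lit 1008) (nat_lit 3095733943) (nat_lit 84) (nat_lit 5) (nat_lit 95) (nat_lit 5) (nat_lit 96) (nat_lit 5) (nat_lit 335) (nat_lit 324) (nat_lit 229)) (XT.nd (nat_lit 94) (nat_lit 0) (nat_lit 0) (XT.lf (nat_lit 0) (nat_lit 4054744014) (nat_lit 924) (nat_lit 1576706350) (nat_lit 1008) (nat_lit 6600934425) (nat_lit 84) (nat_lit 5) (nat_lit 95) (nat_lit 5) (nat_lit 96) (nat_lit 5) (nat_lit 336) (nat_lit 324) (nat_lit 228)) (XT.lf (nat_lit 84) (nat_lit 2618301011) (nat_lit 0) (nat_lit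 2186773980) (nat_lit 1008) (nat_lit 7627488241) (nat_lit 85) (nat_lit 5) (nat_lit 84) (nat_lit 5) (nat_lit 96) (nat_lit 5) (nat_lit 337) (nat_lit 324) (nat_lit 227)))) (XT.nd (nat_lit 54614) (nat_lit 0) (nat_lit 588) (XT.nd (nat_lit 54520) (nat_lit 0) (nat_lit 588) (XT.lf (nat_lit 0) (nat_lit 5594121547) (nat_lit 924) (nat_lit 5686520307) (nat_lit 1008) (nat_lit 1357932956) (nat_lit 85) (nat_lit 5) (nat_lit 96) (nat_lit 5) (nat_lit 97) (nat_lit 5) (nat_lit 338) (nat_lit 324) (nat_lit 226)) (XT.lf (nat_lit 0) (nat_lit 4204622759) (nat_lit 924) (nat_lit 529322737) (nat_lit 924) (nat_lit 529322737) (nat_lit 92) (nat_lit 3) (nat_lit 103) (nat_lit 3) (nat_lit 103) (nat_lit 5) (nat_lit 325) (nat_lit 325) (nat_lit 238))) (XT.nd (nat_lit 94) (nat_lit 0) (nat_lit 0) (XT.lf (nat_lit 84) (nat_lit 2438929455) (nat_lit 0) (nat_lit 6603813496) (nat_lit 924) (nat_lit 1627651705) (nat_lit 93) (nat_lit 5) (nat_lit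 92) (nat_lit 3) (nat_lit 103) (nat_lit 5) (nat_lit 326) (nat_lit 325) (nat_lit 237)) (XT.lf (nat_lit 84) (nat_lit 6057142054) (nat_lit 0) (nat_lit 3630385416) (nat_lit 924) (nat_lit 1131593176) (nat_lit 93) (nat_lit 5) (nat_lit 92) (nat_lit 3) (nat_lit 103) (nat_lit 5) (nat_lit 327) (nat_lit 325) (nat_lit 236))))))))
noncomputable def xc31 : XT := (XT.nd (nat_lit 111860) (nat_lit 0) (nat_lit 0) (XT.nd (nat_lit 55836) (nat_lit 84) (nat_lit 0) (XT.nd (nat_lit 564) (nat_lit 0) (nat_lit 84) (XT.nd (nat_lit 282) (nat_lit 0) (nat_lit 0) (XT.nd (nat_lit 94) (nat_lit 840) (nat_lit 0) (XT.lf (nat_lit 84) (nat_lit 9777596953) (nat_lit 0) (nat_lit 555885297) (nat_lit 924) (nat_lit 639703073) (nat_lit 93) (nat_lit 5) (nat_lit 92) (nat_lit 3) (nat_lit 103) (nat_lit 5) (nat_lit 328) (nat_lit 325) (nat_lit 235)) (XT.nd (nat_lit 94) (nat_lit 924) (nat_lit 0) (XT.lf (nat_lit 84) (nat_lit 2495288163) (nat_lit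 0) (nat_lit 8536690836) (nat_lit 924) (nat_lit 99179430) (nat_lit 94) (nat_lit 5) (nat_lit 93) (nat_lit 5) (nat_lit 104) (nat_lit 5) (nat_lit 329) (nat_lit 325) (nat_lit 234)) (XT.lf (nat_lit 0) (nat_lit 449125813) (nat_lit 924) (nat_lit 4988884982) (nat_lit 1008) (nat_lit 5856001271) (nat_lit 82) (nat_lit 5) (nat_lit 93) (nat_lit 5) (nat_lit 94) (nat_lit 5) (nat_lit 330) (nat_lit 325) (nat_lit 233)))) (XT.nd (nat_lit 94) (nat_lit 0) (nat_lit 84) (XT.lf (nat_lit 0) (nat_lit 994873225) (nat_lit 924) (nat_lit 1240345797) (nat_lit 1008) (nat_lit 9227334216) (nat_lit 82) (nat_lit 5) (nat_lit 93) (nat_lit 5) (nat_lit 94) (nat_lit 5) (nat_lit 331) (nat_lit 325) (nat_lit 232)) (XT.nd (nat_lit 94) (nat_lit 0) (nat_lit 0) (XT.lf (nat_lit 0) (nat_lit 1577957912) (nat_lit 924) (nat_lit 8979091545) (nat_lit 1008) (nat_lit 1078761056) (nat_lit 83) (nat_lit 5) (nat_lit 94) (nat_lit 5) (nat_lit 95) (nat_lit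 5) (nat_lit 332) (nat_lit 325) (nat_lit 231)) (XT.lf (nat_lit 0) (nat_lit 2198563972) (nat_lit 924) (nat_lit 5146911634) (nat_lit 1008) (nat_lit 4468480919) (nat_lit 83) (nat_lit 5) (nat_lit 94) (nat_lit 5) (nat_lit 95) (nat_lit 5) (nat_lit 333) (nat_lit 325) (nat_lit 230))))) (XT.nd (nat_lit 282) (nat_lit 0) (nat_lit 84) (XT.nd (nat_lit 94) (nat_lit 0) (nat_lit 0) (XT.lf (nat_lit 0) (nat_lit 2822410406) (nat_lit 924) (nat_lit 1206378560) (nat_lit 1008) (nat_lit 7969449004) (nat_lit 83) (nat_lit 5) (nat_lit 94) (nat_lit 5) (nat_lit 95) (nat_lit 5) (nat_lit 334) (nat_lit 325) (nat_lit 229)) (XT.nd (nat_lit 94) (nat_lit 0) (nat_lit 84) (XT.lf (nat_lit 84) (nat_lit 2904703978) (nat_lit 0) (nat_lit 574189749) (nat_lit 1008) (nat_lit 8709039623) (nat_lit 84) (nat_lit 5) (nat_lit 83) (nat_lit 5) (nat_lit 95) (nat_lit 5) (nat_lit 335) (nat_lit 325) (nat_lit 228)) (XT.lf (nat_lit 0) (nat_lit 4182985864)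 (nat_lit 924) (nat_lit 5254737755) (nat_lit 1008) (nat_lit 2945050700) (nat_lit 84) (nat_lit 5) (nat_lit 95) (nat_lit 5) (nat_lit 96) (nat_lit 5) (nat_lit 336) (nat_lit 325) (nat_lit 227)))) (XT.nd (nat_lit 54802) (nat_lit 0) (nat_lit 672) (XT.nd (nat_lit 54708) (nat_lit 0) (nat_lit 672) (XT.lf (nat_lit 0) (nat_lit 4900132015) (nat_lit 924) (nat_lit 1117573349) (nat_lit 1008) (nat_lit 6566328674) (nat_lit 84) (nat_lit 5) (nat_lit 95) (nat_lit 5) (nat_lit 96) (nat_lit 5) (nat_lit 337) (nat_lit 325) (nat_lit 226)) (XT.lf (nat_lit 0) (nat_lit 4809174370) (nat_lit 924) (nat_lit 299443064) (nat_lit 924) (nat_lit 299443064) (nat_lit 92) (nat_lit 3) (nat_lit 103) (nat_lit 3) (nat_lit 103) (nat_lit 5) (nat_lit 326) (nat_lit 326) (nat_lit 236))) (XT.nd (nat_lit 94) (nat_lit 0) (nat_lit 0) (XT.lf (nat_lit 84) (nat_lit 3002126721) (nat_lit 0) (nat_lit 7245677939) (nat_lit 924) (nat_lit 717588820) (nat_lit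 93) (nat_lit 5) (nat_lit 92) (nat_lit 3) (nat_lit 103) (nat_lit 5) (nat_lit 327) (nat_lit 326) (nat_lit 235)) (XT.lf (nat_lit 84) (nat_lit 6717843092) (nat_lit 0) (nat_lit 4166929522) (nat_lit 924) (nat_lit 235033294) (nat_lit 93) (nat_lit 5) (nat_lit 92) (nat_lit 3) (nat_lit 103) (nat_lit 5) (nat_lit 328) (nat_lit 326) (nat_lit 234)))))) (XT.nd (nat_lit 658) (nat_lit 0) (nat_lit 0) (XT.nd (nat_lit 282) (nat_lit 0) (nat_lit 84) (XT.nd (nat_lit 94) (nat_lit 0) (nat_lit 84) (XT.lf (nat_lit 0) (nat_lit 239175040) (nat_lit 924) (nat_lit 742699509) (nat_lit 1008) (nat_lit 10297740557) (nat_lit 81) (nat_lit 5) (nat_lit 92) (nat_lit 3) (nat_lit 93) (nat_lit 5) (nat_lit 329) (nat_lit 326) (nat_lit 233)) (XT.nd (nat_lit 94) (nat_lit 0) (nat_lit 0) (XT.lf (nat_lit 0) (nat_lit 759531619) (nat_lit 924) (nat_lit 8387164595) (nat_lit 1008) (nat_lit 2296609598) (nat_lit 82) (nat_lit 5) (nat_lit 93) (nat_lit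 5) (nat_lit 94) (nat_lit 5) (nat_lit 330) (nat_lit 326) (nat_lit 232)) (XT.lf (nat_lit 0) (nat_lit 1296924002) (nat_lit 924) (nat_lit 4643634229) (nat_lit 1008) (nat_lit 5671608970) (nat_lit 82) (nat_lit 5) (nat_lit 93) (nat_lit 5) (nat_lit 94) (nat_lit 5) (nat_lit 331) (nat_lit 326) (nat_lit 231)))) (XT.nd (nat_lit 188) (nat_lit 0) (nat_lit 84) (XT.nd (nat_lit 94) (nat_lit 0) (nat_lit 84) (XT.lf (nat_lit 0) (nat_lit 1834516709) (nat_lit 924) (nat_lit 793921456) (nat_lit 1008) (nat_lit 9158455931) (nat_lit 82) (nat_lit 5) (nat_lit 93) (nat_lit 5) (nat_lit 94) (nat_lit 5) (nat_lit 332) (nat_lit 326) (nat_lit 230)) (XT.lf (nat_lit 0) (nat_lit 2413051276) (nat_lit 924) (nat_lit 8744195326) (nat_lit 1008) (nat_lit 809155308) (nat_lit 83) (nat_lit 5) (nat_lit 94) (nat_lit 5) (nat_lit 95) (nat_lit 5) (nat_lit 333) (nat_lit 326) (nat_lit 229))) (XT.nd (nat_lit 94) (nat_lit 0) (nat_lit 0) (XT.lf (nat_lit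 0) (nat_lit 3029257447) (nat_lit 924) (nat_lit 4808650126) (nat_lit 1008) (nat_lit 4313068483) (nat_lit 83) (nat_lit 5) (nat_lit 94) (nat_lit 5) (nat_lit 95) (nat_lit 5) (nat_lit 334) (nat_lit 326) (nat_lit 228)) (XT.lf (nat_lit 0) (nat_lit 3649515207) (nat_lit 924) (nat_lit 760928799) (nat_lit 1008) (nat_lit 7931404595) (nat_lit 83) (nat_lit 5) (nat_lit 94) (nat_lit 5) (nat_lit 95) (nat_lit 5) (nat_lit 335) (nat_lit 326) (nat_lit 227))))) (XT.nd (nat_lit 54990) (nat_lit 168) (nat_lit 0) (XT.nd (nat_lit 94) (nat_lit 0) (nat_lit 84) (XT.lf (nat_lit 84) (nat_lit 3472708900) (nat_lit 0) (nat_lit 836143506) (nat_lit 1008) (nat_lit 8229277115) (nat_lit 84) (nat_lit 5) (nat_lit 83) (nat_lit 5) (nat_lit 95) (nat_lit 5) (nat_lit 336) (nat_lit 326) (nat_lit 226)) (XT.nd (nat_lit 54802) (nat_lit 0) (nat_lit 672) (XT.lf (nat_lit 0) (nat_lit 5010709772) (nat_lit 924) (nat_lit 4924898546) (nat_lit 1008)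 (nat_lit 2804305838) (nat_lit 84) (nat_lit 5) (nat_lit 95) (nat_lit 5) (nat_lit 96) (nat_lit 5) (nat_lit 337) (nat_lit 326) (nat_lit 225)) (XT.lf (nat_lit 0) (nat_lit 5404378912) (nat_lit 924) (nat_lit 77025221) (nat_lit 924) (nat_lit 77025221) (nat_lit 92) (nat_lit 3) (nat_lit 103) (nat_lit 3) (nat_lit 103) (nat_lit 5) (nat_lit 327) (nat_lit 327) (nat_lit 234)))) (XT.nd (nat_lit 188) (nat_lit 0) (nat_lit 0) (XT.nd (nat_lit 94) (nat_lit 0) (nat_lit 0) (XT.lf (nat_lit 0) (nat_lit 160492705) (nat_lit 924) (nat_lit 7719379340) (nat_lit 1008) (nat_lit 3391734365) (nat_lit 81) (nat_lit 5) (nat_lit 92) (nat_lit 3) (nat_lit 93) (nat_lit 5) (nat_lit 328) (nat_lit 327) (nat_lit 233)) (XT.lf (nat_lit 0) (nat_lit 621360900) (nat_lit 924) (nat_lit 4067145488) (nat_lit 1008) (nat_lit 6743166797) (nat_lit 81) (nat_lit 5) (nat_lit 92) (nat_lit 3) (nat_lit 93) (nat_lit 5) (nat_lit 329) (nat_lit 327) (nat_lit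 232))) (XT.nd (nat_lit 94) (nat_lit 0) (nat_lit 84) (XT.lf (nat_lit 0) (nat_lit 1079565249) (nat_lit 924) (nat_lit 310946920) (nat_lit 1008) (nat_lit 10206839651) (nat_lit 81) (nat_lit 5) (nat_lit 92) (nat_lit 3) (nat_lit 93) (nat_lit 5) (nat_lit 330) (nat_lit 327) (nat_lit 231)) (XT.lf (nat_lit 0) (nat_lit 1591879513) (nat_lit 924) (nat_lit 8162291637) (nat_lit 1008) (nat_lit 2012878850) (nat_lit 82) (nat_lit 5) (nat_lit 93) (nat_lit 5) (nat_lit 94) (nat_lit 5) (nat_lit 331) (nat_lit 327) (nat_lit 230))))))) (XT.nd (nat_lit 111202) (nat_lit 0) (nat_lit 0) (XT.nd (nat_lit 55460) (nat_lit 0) (nat_lit 0) (XT.nd (nat_lit 282) (nat_lit 84) (nat_lit 0) (XT.nd (nat_lit 94) (nat_lit 0) (nat_lit 0) (XT.lf (nat_lit 0) (nat_lit 2121612074) (nat_lit 924) (nat_lit 4317291003) (nat_lit 1008) (nat_lit 5503175069) (nat_lit 82) (nat_lit 5) (nat_lit 93) (nat_lit 5) (nat_lit 94) (nat_lit 5) (nat_lit 332) (nat_lit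 327) (nat_lit 229)) (XT.nd (nat_lit 94) (nat_lit 0) (nat_lit 84) (XT.lf (nat_lit 0) (nat_lit 2652282389) (nat_lit 924) (nat_lit 362377942) (nat_lit 1008) (nat_lit 9108465274) (nat_lit 82) (nat_lit 5) (nat_lit 93) (nat_lit 5) (nat_lit 94) (nat_lit 5) (nat_lit 333) (nat_lit 327) (nat_lit 228)) (XT.lf (nat_lit 0) (nat_lit 3227465945) (nat_lit 924) (nat_lit 8532417886) (nat_lit 1008) (nat_lit 549141794) (nat_lit 83) (nat_lit 5) (nat_lit 94) (nat_lit 5) (nat_lit 95) (nat_lit 5) (nat_lit 334) (nat_lit 327) (nat_lit 227)))) (XT.nd (nat_lit 94) (nat_lit 168) (nat_lit 0) (XT.lf (nat_lit 0) (nat_lit 3840535988) (nat_lit 924) (nat_lit 4489388993) (nat_lit 1008) (nat_lit 4170248555) (nat_lit 83) (nat_lit 5) (nat_lit 94) (nat_lit 5) (nat_lit 95) (nat_lit 5) (nat_lit 335) (nat_lit 327) (nat_lit 226)) (XT.nd (nat_lit 54990) (nat_lit 168) (nat_lit 0) (XT.lf (nat_lit 0) (nat_lit 4458451886) (nat_lit 924) (nat_lit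 330269980) (nat_lit 1008) (nat_lit 7909067613) (nat_lit 83) (nat_lit 5) (nat_lit 94) (nat_lit 5) (nat_lit 95) (nat_lit 5) (nat_lit 336) (nat_lit 327) (nat_lit 225)) (XT.lf (nat_lit 0) (nat_lit 137160721) (nat_lit 0) (nat_lit 137160721) (nat_lit 924) (nat_lit 5439990449) (nat_lit 81) (nat_lit 5) (nat_lit 81) (nat_lit 3) (nat_lit 92) (nat_lit 3) (nat_lit 328) (nat_lit 328) (nat_lit 232))))) (XT.nd (nat_lit 282) (nat_lit 0) (nat_lit 84) (XT.nd (nat_lit 94) (nat_lit 0) (nat_lit 0) (XT.lf (nat_lit 0) (nat_lit 998443762) (nat_lit 924) (nat_lit 7503903826) (nat_lit 1008) (nat_lit 3086747268) (nat_lit 81) (nat_lit 5) (nat_lit 92) (nat_lit 3) (nat_lit 93) (nat_lit 5) (nat_lit 329) (nat_lit 328) (nat_lit 231)) (XT.nd (nat_lit 94) (nat_lit 0) (nat_lit 0) (XT.lf (nat_lit 0) (nat_lit 1448553042) (nat_lit 924) (nat_lit 3752124889) (nat_lit 1008) (nat_lit 6554405877) (nat_lit 81) (nat_lit 5) (nat_lit 92)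 (nat_lit 3) (nat_lit 93) (nat_lit 5) (nat_lit 330) (nat_lit 328) (nat_lit 230)) (XT.lf (nat_lit 84) (nat_lit 109458159) (nat_lit 0) (nat_lit 1788296652) (nat_lit 1008) (nat_lit 10029041249) (nat_lit 82) (nat_lit 5) (nat_lit 81) (nat_lit 5) (nat_lit 93) (nat_lit 5) (nat_lit 331) (nat_lit 328) (nat_lit 229)))) (XT.nd (nat_lit 188) (nat_lit 0) (nat_lit 0) (XT.nd (nat_lit 94) (nat_lit 0) (nat_lit 0) (XT.lf (nat_lit 0) (nat_lit 2402123440) (nat_lit 924) (nat_lit 7959167598) (nat_lit 1008) (nat_lit 1741375303) (nat_lit 82) (nat_lit 5) (nat_lit 93) (nat_lit 5) (nat_lit 94) (nat_lit 5) (nat_lit 332) (nat_lit 328) (nat_lit 228)) (XT.lf (nat_lit 0) (nat_lit 2925399179) (nat_lit 924) (nat_lit 4008687567) (nat_lit 1008) (nat_lit 5349910459) (nat_lit 82) (nat_lit 5) (nat_lit 93) (nat_lit 5) (nat_lit 94) (nat_lit 5) (nat_lit 333) (nat_lit 328) (nat_lit 227))) (XT.nd (nat_lit 94) (nat_lit 0) (nat_lit 84)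 (XT.lf (nat_lit 84) (nat_lit 56666274) (nat_lit 0) (nat_lit 3394225514) (nat_lit 1008) (nat_lit 9020598401) (nat_lit 83) (nat_lit 5) (nat_lit 82) (nat_lit 5) (nat_lit 94) (nat_lit 5) (nat_lit 334) (nat_lit 328) (nat_lit 226)) (XT.lf (nat_lit 0) (nat_lit 4023319096) (nat_lit 924) (nat_lit 8342675228) (nat_lit 1008) (nat_lit 297954665) (nat_lit 83) (nat_lit 5) (nat_lit 94) (nat_lit 5) (nat_lit 95) (nat_lit 5) (nat_lit 335) (nat_lit 328) (nat_lit 225)))))) (XT.nd (nat_lit 55930) (nat_lit 0) (nat_lit 0) (XT.nd (nat_lit 282) (nat_lit 0) (nat_lit 0) (XT.nd (nat_lit 94) (nat_lit 0) (nat_lit 0) (XT.lf (nat_lit 0) (nat_lit 344402032) (nat_lit 0) (nat_lit 344402032) (nat_lit 924) (nat_lit 5187103450) (nat_lit 81) (nat_lit 5) (nat_lit 81) (nat_lit 3) (nat_lit 92) (nat_lit 3) (nat_lit 329) (nat_lit 329) (nat_lit 230)) (XT.nd (nat_lit 94) (nat_lit 0) (nat_lit 0) (XT.lf (nat_lit 0) (nat_lit 1813032720) (nat_lit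 924) (nat_lit 7308685748) (nat_lit 1008) (nat_lit 2796598323) (nat_lit 81) (nat_lit 5) (nat_lit 92) (nat_lit 3) (nat_lit 93) (nat_lit 5) (nat_lit 330) (nat_lit 329) (nat_lit 229)) (XT.lf (nat_lit 0) (nat_lit 2253533066) (nat_lit 924) (nat_lit 3453465885) (nat_lit 1008) (nat_lit 6383355689) (nat_lit 81) (nat_lit 5) (nat_lit 92) (nat_lit 3) (nat_lit 93) (nat_lit 5) (nat_lit 331) (nat_lit 329) (nat_lit 228)))) (XT.nd (nat_lit 188) (nat_lit 0) (nat_lit 0) (XT.nd (nat_lit 94) (nat_lit 0) (nat_lit 84) (XT.lf (nat_lit 84) (nat_lit 523624990) (nat_lit 0) (nat_lit 2174256174) (nat_lit 1008) (nat_lit 9570258567) (nat_lit 82) (nat_lit 5) (nat_lit 81) (nat_lit 5) (nat_lit 93) (nat_lit 5) (nat_lit 332) (nat_lit 329) (nat_lit 227)) (XT.lf (nat_lit 0) (nat_lit 3192415776) (nat_lit 924) (nat_lit 7776765560) (nat_lit 1008) (nat_lit 1481232780) (nat_lit 82) (nat_lit 5) (nat_lit 93) (nat_lit 5) (nat_lit 94) (nat_lit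 5) (nat_lit 333) (nat_lit 329) (nat_lit 226))) (XT.nd (nat_lit 55366) (nat_lit 84) (nat_lit 0) (XT.lf (nat_lit 0) (nat_lit 3710389666) (nat_lit 924) (nat_lit 3716723871) (nat_lit 1008) (nat_lit 5211077608) (nat_lit 82) (nat_lit 5) (nat_lit 93) (nat_lit 5) (nat_lit 94) (nat_lit 5) (nat_lit 334) (nat_lit 329) (nat_lit 225)) (XT.lf (nat_lit 0) (nat_lit 546044418) (nat_lit 0) (nat_lit 546044418) (nat_lit 924) (nat_lit 4951344702) (nat_lit 81) (nat_lit 5) (nat_lit 81) (nat_lit 3) (nat_lit 92) (nat_lit 3) (nat_lit 330) (nat_lit 330) (nat_lit 228))))) (XT.nd (nat_lit 282) (nat_lit 0) (nat_lit 0) (XT.nd (nat_lit 94) (nat_lit 0) (nat_lit 0) (XT.lf (nat_lit 0) (nat_lit 2606457762) (nat_lit 924) (nat_lit 7132757552) (nat_lit 1008) (nat_lit 2520308613) (nat_lit 81) (nat_lit 5) (nat_lit 92) (nat_lit 3) (nat_lit 93) (nat_lit 5) (nat_lit 331) (nat_lit 330) (nat_lit 227)) (XT.nd (nat_lit 94) (nat_lit 0) (nat_lit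 0) (XT.lf (nat_lit 0) (nat_lit 3038446935) (nat_lit 924) (nat_lit 3170128125) (nat_lit 1008) (nat_lit 6229169630) (nat_lit 81) (nat_lit 5) (nat_lit 92) (nat_lit 3) (nat_lit 93) (nat_lit 5) (nat_lit 332) (nat_lit 330) (nat_lit 226)) (XT.lf (nat_lit 84) (nat_lit 926300166) (nat_lit 0) (nat_lit 2552603038) (nat_lit 1008) (nat_lit 9142843262) (nat_lit 82) (nat_lit 5) (nat_lit 81) (nat_lit 5) (nat_lit 93) (nat_lit 5) (nat_lit 333) (nat_lit 330) (nat_lit 225)))) (XT.nd (nat_lit 55554) (nat_lit 0) (nat_lit 0) (XT.nd (nat_lit 55460) (nat_lit 84) (nat_lit 0) (XT.lf (nat_lit 0) (nat_lit 3964807544) (nat_lit 924) (nat_lit 7614127532) (nat_lit 1008) (nat_lit 1231632009) (nat_lit 82) (nat_lit 5) (nat_lit 93) (nat_lit 5) (nat_lit 94) (nat_lit 5) (nat_lit 334) (nat_lit 330) (nat_lit 224)) (XT.lf (nat_lit 0) (nat_lit 742626479) (nat_lit 0) (nat_lit 742626479) (nat_lit 924) (nat_lit 4731766299) (nat_lit 81)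 (nat_lit 5) (nat_lit 81) (nat_lit 3) (nat_lit 92) (nat_lit 3) (nat_lit 331) (nat_lit 331) (nat_lit 226))) (XT.nd (nat_lit 94) (nat_lit 0) (nat_lit 0) (XT.lf (nat_lit 0) (nat_lit 3380812117) (nat_lit 924) (nat_lit 6975216195) (nat_lit 1008) (nat_lit 2256954101) (nat_lit 81) (nat_lit 5) (nat_lit 92) (nat_lit 3) (nat_lit 93) (nat_lit 5) (nat_lit 332) (nat_lit 331) (nat_lit 225)) (XT.lf (nat_lit 0) (nat_lit 3805339241) (nat_lit 924) (nat_lit 2901130670) (nat_lit 1008) (nat_lit 6091057517) (nat_lit 81) (nat_lit 5) (nat_lit 92) (nat_lit 3) (nat_lit 93) (nat_lit 5) (nat_lit 333) (nat_lit 331) (nat_lit 224))))))))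

set_option maxRecDepth 10000000 in
noncomputable def Tp : PT := (PT.nd (nat_lit 2176852) (PT.nd (nat_lit 1731762) (PT.nd (nat_lit 1397780) (PT.nd (nat_lit 1174624) pc0 pc1) (PT.nd (nat_lit 167414) pc2 pc3)) (PT.nd (nat_lit 223250) (PT.nd (nat_lit 111766) pc4 pc5) (PT.nd (nat_lit 111108) pc6 pc7))) (PT.nd (nat_lit 280214) (PT.nd (nat_lit 166944) (PT.nd (nat_lit 57058) pc8 pc9) (PT.nd (nat_lit 56682) pc10 pc11)) (PT.nd (nat_lit 165252) (PT.nd (nat_lit 108946) pc12 pc13) (PT.nd (nat_lit 56212) pc14 pc15))))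

set_option maxRecDepth 10000000 in
noncomputable def Tx : XT := (XT.nd (nat_lit 15083052) (nat_lit 0) (nat_lit 2016) XT.nil (XT.nd (nat_lit 3398946) (nat_lit 0) (nat_lit 0) (XT.nd (nat_lit 1615484) (nat_lit 0) (nat_lit 1092) (XT.nd (nat_lit 1113806) (nat_lit 0) (nat_lit 504) (XT.nd (nat_lit 779448) (nat_lit 0) (nat_lit 252) (XT.nd (nat_lit 556198) (nat_lit 0) (nat_lit 252) (XT.nd (nat_lit 389254) (nat_lit 0) (nat_lit 0) xc0 xc1) (XT.nd (nat_lit 111954) (nat_lit 0) (nat_lit 0) xc2 xc3)) (XT.nd (nat_lit 167978) (nat_lit 0) (nat_lit 0) (XT.nd (nat_lit 110450) (nat_lit 0) (nat_lit 0) xc4 xc5) (XT.nd (nat_lit 109416) (nat_lit 0) (nat_lit 252) xc6 xc7))) (XT.nd (nat_lit 277300) (nat_lit 0) (nat_lit 252) (XT.nd (nat_lit 164876) (nat_lit 0) (nat_lit 0) (XT.nd (nat_lit 108382) (nat_lit 0) (nat_lit 0) xc8 xc9) (XT.nd (nat_lit 56306) (nat_lit 0) (nat_lit 252) xc10 xc11)) (XT.nd (nat_lit 111860) (nat_lit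 0) (nat_lit 0) (XT.nd (nat_lit 55836) (nat_lit 0) (nat_lit 0) xc12 xc13) (XT.nd (nat_lit 56212) (nat_lit 0) (nat_lit 336) xc14 xc15)))) (XT.nd (nat_lit 610906) (nat_lit 0) (nat_lit 1092) (XT.nd (nat_lit 277770) (nat_lit 0) (nat_lit 336) (XT.nd (nat_lit 164312) (nat_lit 0) (nat_lit 0) (XT.nd (nat_lit 56306) (nat_lit 0) (nat_lit 0) xc16 xc17) (XT.nd (nat_lit 56588) (nat_lit 0) (nat_lit 336) xc18 xc19)) (XT.nd (nat_lit 166004) (nat_lit 0) (nat_lit 420) (XT.nd (nat_lit 56870) (nat_lit 0) (nat_lit 0) xc20 xc21) (XT.nd (nat_lit 57246) (nat_lit 0) (nat_lit 336) xc22 xc23))) (XT.nd (nat_lit 390852) (nat_lit 0) (nat_lit 1428) (XT.nd (nat_lit 168166) (nat_lit 0) (nat_lit 504) (XT.nd (nat_lit 57528) (nat_lit 0) (nat_lit 504) xc24 xc25) (XT.nd (nat_lit 111108) (nat_lit 0) (nat_lit 420) xc26 xc27)) (XT.nd (nat_lit 224754) (nat_lit 0) (nat_lit 672) (XT.nd (nat_lit 112048) (nat_lit 0) (nat_lit 672) xc28 xc29)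 (XT.nd (nat_lit 221934) (nat_lit 0) (nat_lit 504) xc30 xc31))))) XT.nil))

set_option maxRecDepth 10000000 in
noncomputable def Te : XT := XT.nil

set_option maxRecDepth 10000000 in
noncomputable def Tz : ZL := (ZL.cons (nat_lit 84) (nat_lit 3) (nat_lit 68526811642110549295) (ZL.cons (nat_lit 168) (nat_lit 6) (nat_lit 135594663085367473174) (ZL.cons (nat_lit 2016) (nat_lit 6) (nat_lit 123115696271962466614) (ZL.cons (nat_lit 2268) (nat_lit 6) (nat_lit 122130385197518539996) (ZL.cons (nat_lit 2352) (nat_lit 3) (nat_lit 61041136247139919001) (ZL.cons (nat_lit 2520) (nat_lit 6) (nat_lit 121209308238523208338) (ZL.cons (nat_lit 2604) (nat_lit 6) (nat_lit 121114529479766851650) (ZL.cons (nat_lit 2772) (nat_lit 6) (nat_lit 120351606854765419740) (ZL.cons (nat_lit 2856) (nat_lit 6) (nat_lit 120211565190560319406) (ZL.cons (nat_lit 2940) (nat_lit 3) (nat_lit 60082449567521332356) (ZL.cons (nat_lit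 3108) (nat_lit 6) (nat_lit 119556481578709004238) (ZL.cons (nat_lit 3192) (nat_lit 6) (nat_lit 119372537969354783008) (ZL.cons (nat_lit 3276) (nat_lit 6) (nat_lit 119280609008388384668) (ZL.cons (nat_lit 3444) (nat_lit 6) (nat_lit 118823191270305183734) (ZL.cons (nat_lit 3528) (nat_lit 6) (nat_lit 118596665754889739520) (ZL.cons (nat_lit 3612) (nat_lit 6) (nat_lit 118460834848774220284) (ZL.cons (nat_lit 3696) (nat_lit 3) (nat_lit 59207785971662738319) (ZL.cons (nat_lit 3864) (nat_lit 6) (nat_lit 118151052426172410150) (ZL.cons (nat_lit 3948) (nat_lit 6) (nat_lit 117883225352986623566) (ZL.cons (nat_lit 4032) (nat_lit 6) (nat_lit 117704812540809881346) (ZL.cons (nat_lit 4116) (nat_lit 6) (nat_lit 117615647690212016804) (ZL.cons (nat_lit 4200) (nat_lit 6) (nat_lit 117539438542499615010) (ZL.cons (nat_lit 4284) (nat_lit 6) (nat_lit 117231551762456076370) (ZL.cons (nat_lit 4368) (nat_lit 6) (nat_lit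 117011837392508991780) (ZL.cons (nat_lit 4452) (nat_lit 6) (nat_lit 116880090635849904254) (ZL.cons (nat_lit 4536) (nat_lit 3) (nat_lit 58418094345350391679) (ZL.cons (nat_lit 4704) (nat_lit 6) (nat_lit 116641037555247176636) (ZL.cons (nat_lit 4788) (nat_lit 6) (nat_lit 116381263478442339990) (ZL.cons (nat_lit 4872) (nat_lit 6) (nat_lit 116208215164012910094) (ZL.cons (nat_lit 4956) (nat_lit 6) (nat_lit 116121731312802566214) (ZL.cons (nat_lit 5124) (nat_lit 6) (nat_lit 116111132310260867380) (ZL.cons (nat_lit 5208) (nat_lit 6) (nat_lit 115812503037667716422) (ZL.cons (nat_lit 5292) (nat_lit 6) (nat_lit 115599395016380534470) (ZL.cons (nat_lit 5376) (nat_lit 6) (nat_lit 115471609607399848220) (ZL.cons (nat_lit 5460) (nat_lit 3) (nat_lit 57714513850669312618) (ZL.cons (nat_lit 5628) (nat_lit 6) (nat_lit 115641342100299833528) (ZL.cons (nat_lit 5712) (nat_lit 6) (nat_lit 115305025925875145892)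 (ZL.cons (nat_lit 5796) (nat_lit 6) (nat_lit 115053062708799649628) (ZL.cons (nat_lit 5880) (nat_lit 6) (nat_lit 114885217592961211322) (ZL.cons (nat_lit 5964) (nat_lit 6) (nat_lit 114801334129129645968) (ZL.cons (nat_lit 6300) (nat_lit 6) (nat_lit 115231229031676613822) (ZL.cons (nat_lit 6384) (nat_lit 6) (nat_lit 114858359121236856666) (ZL.cons (nat_lit 6468) (nat_lit 6) (nat_lit 114568709002329823724) (ZL.cons (nat_lit 6552) (nat_lit 6) (nat_lit 114362008690703071106) (ZL.cons (nat_lit 6636) (nat_lit 6) (nat_lit 114238065520013753696) (ZL.cons (nat_lit 6720) (nat_lit 3) (nat_lit 57098381981121705663) (ZL.cons (nat_lit 6804) (nat_lit 6) (nat_lit 114006216757272925940) (ZL.cons (nat_lit 6888) (nat_lit 6) (nat_lit 114064369790507297936) (ZL.cons (nat_lit 6972) (nat_lit 6) (nat_lit 114180730061694701704) (ZL.cons (nat_lit 7056) (nat_lit 6) (nat_lit 114355406030796932684) (ZL.cons (nat_lit 7140)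 (nat_lit 6) (nat_lit 114588560514114967832) (ZL.cons (nat_lit 7224) (nat_lit 6) (nat_lit 114880410836050813584) (ZL.cons (nat_lit 7308) (nat_lit 6) (nat_lit 114472086283501386670) (ZL.cons (nat_lit 7392) (nat_lit 6) (nat_lit 114145882428579284208) (ZL.cons (nat_lit 7476) (nat_lit 6) (nat_lit 113901495215120994912) (ZL.cons (nat_lit 7560) (nat_lit 6) (nat_lit 113738696848643363190) (ZL.cons (nat_lit 7644) (nat_lit 6) (nat_lit 113657335584015268764) (ZL.cons (nat_lit 7728) (nat_lit 3) (nat_lit 56703231287952021654) (ZL.cons (nat_lit 7812) (nat_lit 6) (nat_lit 113435982899520309940) (ZL.cons (nat_lit 7896) (nat_lit 6) (nat_lit 113524571386403052832) (ZL.cons (nat_lit 7980) (nat_lit 6) (nat_lit 113672310610301926994) (ZL.cons (nat_lit 8064) (nat_lit 6) (nat_lit 113879338279649683950) (ZL.cons (nat_lit 8148) (nat_lit 6) (nat_lit 114145847365920856382) (ZL.cons (nat_lit 8232) (nat_lit 6) (nat_lit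 113784188868889084162) (ZL.cons (nat_lit 8316) (nat_lit 6) (nat_lit 113503247919415725346) (ZL.cons (nat_lit 8400) (nat_lit 6) (nat_lit 113302762651106556946) (ZL.cons (nat_lit 8484) (nat_lit 6) (nat_lit 113182546190690148208) (ZL.cons (nat_lit 8568) (nat_lit 3) (nat_lit 56571243241916198076) (ZL.cons (nat_lit 8652) (nat_lit 6) (nat_lit 112882894773669082002) (ZL.cons (nat_lit 8736) (nat_lit 6) (nat_lit 112942850550933719530) (ZL.cons (nat_lit 8820) (nat_lit 6) (nat_lit 113062817990527932816) (ZL.cons (nat_lit 8904) (nat_lit 6) (nat_lit 113242908914672332954) (ZL.cons (nat_lit 8988) (nat_lit 6) (nat_lit 113483291186973227194) (ZL.cons (nat_lit 9072) (nat_lit 6) (nat_lit 113166895595390198620) (ZL.cons (nat_lit 9156) (nat_lit 6) (nat_lit 112929856591065960700) (ZL.cons (nat_lit 9240) (nat_lit 6) (nat_lit 112771953228818015284) (ZL.cons (nat_lit 9324) (nat_lit 6) (nat_lit 112693038326171948916)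 (ZL.cons (nat_lit 9408) (nat_lit 3) (nat_lit 56202294938441432171) (ZL.cons (nat_lit 9492) (nat_lit 6) (nat_lit 112435025330531235238) (ZL.cons (nat_lit 9576) (nat_lit 6) (nat_lit 112526360060507343160) (ZL.cons (nat_lit 9660) (nat_lit 6) (nat_lit 112678679200347082422) (ZL.cons (nat_lit 9744) (nat_lit 6) (nat_lit 112892124727444619844) (ZL.cons (nat_lit 9828) (nat_lit 6) (nat_lit 112619631081010712166) (ZL.cons (nat_lit 9912) (nat_lit 6) (nat_lit 112425173982747697230) (ZL.cons (nat_lit 9996) (nat_lit 6) (nat_lit 112308572178270094184) (ZL.cons (nat_lit 10080) (nat_lit 3) (nat_lit 56134858491240889936) (ZL.cons (nat_lit 10164) (nat_lit 6) (nat_lit 112000622378894138474) (ZL.cons (nat_lit 10248) (nat_lit 6) (nat_lit 112062436785253979764) (ZL.cons (nat_lit 10332) (nat_lit 6) (nat_lit 112186123215475613662) (ZL.cons (nat_lit 10416) (nat_lit 6) (nat_lit 112371796958268490208) (ZL.cons (nat_lit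 10500) (nat_lit 6) (nat_lit 112141885217895805514) (ZL.cons (nat_lit 10584) (nat_lit 6) (nat_lit 111988729677403132948) (ZL.cons (nat_lit 10668) (nat_lit 6) (nat_lit 111912187579783281958) (ZL.cons (nat_lit 10752) (nat_lit 3) (nat_lit 55819618393483317795) (ZL.cons (nat_lit 10836) (nat_lit 6) (nat_lit 111670615739678105984) (ZL.cons (nat_lit 10920) (nat_lit 6) (nat_lit 111764781846283473250) (ZL.cons (nat_lit 11004) (nat_lit 6) (nat_lit 111921822879458244432) (ZL.cons (nat_lit 11088) (nat_lit 6) (nat_lit 111733212696855902108) (ZL.cons (nat_lit 11172) (nat_lit 6) (nat_lit 111620116863220981598) (ZL.cons (nat_lit 11256) (nat_lit 3) (nat_lit 55791214980694722460) (ZL.cons (nat_lit 11340) (nat_lit 6) (nat_lit 111350531705520945470) (ZL.cons (nat_lit 11424) (nat_lit 6) (nat_lit 111414262358477941840) (ZL.cons (nat_lit 11508) (nat_lit 6) (nat_lit 111541783068036446390) (ZL.cons (nat_lit 11592) (nat_lit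 6) (nat_lit 111393232592291856122) (ZL.cons (nat_lit 11676) (nat_lit 6) (nat_lit 111318991954445249924) (ZL.cons (nat_lit 11760) (nat_lit 3) (nat_lit 55550943165466503703) (ZL.cons (nat_lit 11844) (nat_lit 6) (nat_lit 111134238031178533382) (ZL.cons (nat_lit 11928) (nat_lit 6) (nat_lit 111231323287088667036) (ZL.cons (nat_lit 12012) (nat_lit 6) (nat_lit 111121628007132391080) (ZL.cons (nat_lit 12096) (nat_lit 3) (nat_lit 55542537135558660780) (ZL.cons (nat_lit 12180) (nat_lit 6) (nat_lit 110924447852378909630) (ZL.cons (nat_lit 12264) (nat_lit 6) (nat_lit 110990154155577572890) (ZL.cons (nat_lit 12348) (nat_lit 6) (nat_lit 110918145777452833612) (ZL.cons (nat_lit 12432) (nat_lit 3) (nat_lit 55392348137828174266) (ZL.cons (nat_lit 12516) (nat_lit 6) (nat_lit 110818050878609485816) (ZL.cons (nat_lit 12600) (nat_lit 3) (nat_lit 55391298118249908029) (ZL.cons (nat_lit 12684) (nat_lit 6) (nat_lit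 110714853037901994238) (ZL.cons (nat_lit 12768) (nat_lit 1) (nat_lit 18446744073709551617) ZL.nil))))))))))))))))))))))))))))))))))))))))))))))))))))))))))))))))))))))))))))))))))))))))))))))))))))))))))))))))))))))

noncomputable def vl : XL := ⟨(nat_lit 0), (nat_lit 84), (nat_lit 378292931), (nat_lit 168), (nat_lit 247044482), (nat_lit 168), (nat_lit 247044482), (nat_lit 1), (nat_lit 4), (nat_lit 2), (nat_lit 5), (nat_lit 2), (nat_lit 4), (nat_lit 0), (nat_lit 0), (nat_lit 0)⟩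

noncomputable def cp0 : Nat := (nat_lit 297547587793296227947946623431704996163336694248464218057180370610296397601327011433606121984970274382124432353760399449749189115940025767156459836322292792871345980075342907560763862073296078208805367959563278504393343336346397717470846906902078724032797864896051162455461647463074242012813753808335574716702211097560929240660116897221774221835634813899803981277292514108907257355052231205931894504901179892212873374346996347943401134711059806509714831391200212961788404186155393078970753689197371963096335756623041461957576292647135817904676180169278629191932805914102196727757760204305465886615985961301005863910836633090571643890698289364874173735644761612193187101264558723057291918656162943764248670524553093933810801177721685502337587254555824935458158273107352351123365717613901815293166312195241666876291640866165001353499329378420800266748364320165903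387092595851235126328664816301576304232114185692596968992028240744975799174406522542686435011773255519873500737928881767052906722761342756739672505018367471455318165854121641446511783113845477514280346570109896539059448773197341914654315644048474599251488058791689185078809227422667618024660284237470597370208566446050344348070493516724339169291078578800819006421723469763590626693211226491425660647455423816214280404080542360754696219909366049068222334337439457883158801808309645845255700120080567476696624649812125529889137031325016243553654098269165958665933857345047629138181705829674483147799634656804895631977903321179950535745418046311534020552301037377755151068264572229701942619100502516577092079550184975065499978420280358555490582659349662141413301066819136007012198246358076305550048657962833322434828643601754226385507889371817036207997353517730917481918724512989474405070604723480813515618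384097824137126021380843461823348796927142957618718710640950349101962972980255340753432699451057567732181657007104608017471304813758958258987105212946966753212111534655585343239774875720261204517474253547737345596296664925738304086523071022772497478844467115765771024167086622183711238992682725517545363617235049003893930622811231991214248964224368107606280039756060551333277746198771199029097267028175833782789339679660964122394358504495518482533729202722102599810582403164383267803245459111474955535985523661539240245398068728354904127405529884793695864232088649252300049050771650034878003909761347893031765266095330398277400014480968807636082813030002509606481138246858093691381029543070538219440756995352974161055976622406424711147196091619004926651792590386769701404517905268042183261576981881963683626979357725033744675772248462534488628255660684968730606278520560836610690857292756968403158451649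4869995701399611718846498461340228479825267088554322929268090966473181936581922671412685005710501442782475252220669810367004537592355967837118501535337286832585629803502731560050004447273790754825442438334340837669172717202110946106248725450273059023926118822586303604410470127350017902091252564323347063801203467046279441264928258380819602905529066034256629358592192671501648916761024942953471931001380208974505130469374475446736356678240498973626219489213128995276682381336412930640269395497795012467670134049412318679836843319345873219240984995099736869517705519003372638719434173226210026100356692008777761276341177298692761327666185744554539482382213619850066486247657389324151963163053014910583737450293229415118047441985217044401381427559588997134831929208800595712869831209380038113761143898792268781024869828955860699086376658477194618530812025893018451979249079708192997071819804897902869335835283269785611221850429207886267688201473806449841954008336958172269178609771700535355780992682858776036837472420597600579953580811910523497605662852913473134542097338603546356593820940116714722227397995111276489713741334598492748008246614074311041961184385815414737749790604961259077098107043840)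

noncomputable def cp1 : Nat := (nat_lit 390043366467616303589889390656091853972326358850074150037273083751285842657559212083827769507529445643785885589855516100279353713726640743215382898277531383042737329878482286383755282042910467391875271048888755323471222027539958042193331484191277125643132237661287600410020358265219345982720168317333666784899932816675181654938813019091263478955736930905685411786976801128385093049280380121264801974010086286999554330833343238354272028829217412858966790810629868200922624666264854935599748889842952551630069864736104023288004717626668137468533791267590801630729423852815250947500011962283448027996108238295717714245218928114371174473387952791511946902958480592242980578792927117220742510150817629891076303877566400769724959143311784915826989932312965968562723404020859969969247866118258052505233100231829077558910268752367771024091012298834175307342176608231652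271561867401969185180367577716083822566416312904745355809984027302170361918426041507790952108726816988340776471588855632217125563677556117486109200107018527836620311445015323442044501512410887451658645257713655815591751844170780106456068116901255479477735345413419719411803392109907306197643785735593641837448647247748622022966592300500128145460042053534485427017962445023558648214845385039120043814322414471379145235066017194481129384894366222465797875513967059453629207695974492182208452234947479252150705812652893354977279405709896779354209087549965494432272371050961106565632752569457830774932089976818684284509253437861476794740761493365104242542567669265716088847039418107223971273754532417089878531717479860197721490966238926630976133563628826062170630106581123571551840784224516532597719535683065759815104314900897135495782381554693212443662163129802855016502158931049718634197353552624683635805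372933531455059522460530408288302430615756538696620251259807504806968447578409381968727017986579265036995982742228562584660602254418206426691930643753712102177335135985848051895231293842527750692888919689330351201490585081892453134803830302684197062159334057764177238626761969225105965768326283058236526999825584433645341693648737456433070165545307175909642700120388803010442275863018824943158241149646812051771055904187163328456685035196050592246889145366565552652293606998391505106107227309568564277337351148161233011877697072472018910680105285681549271299710772574165643866357546235013194341528247199326438177812612511874593219874539641329434610174675200884687398596323111370967299430460153320621442489905580168924033961169653952243140345593521402916737980537809159202043145330321363004582163534017287796404347152483615898197440444957262491602464766613760136929606129976369093725537873963603754895800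6395833214511028198167739536297021246068103263747774116785233257636782269123831834506020602986754472790092517614216983978698274570388440377419692311060092306240849956225883590827657940871611204081446292360464901072046657887519539639144571348128404751524669596897061126957668273662856834734453071541819610436847509946822494736804405516822296330552505704823908065832509873825697541313038406936512393463408827046021362762126215530496136704320409749108434008703607660528264266878093334740622879413685550996636233188287979865434149610312116881251142177373701895218321410861849811021219451374043424055875764748927873388997667707588862215246208451181398999432845814742404379534738898177045006182423669955550304873521578057919583064007014791506631770310608745266827284842976838716944350868018866852041410204879780354503983971892318392137242567838563796925995613655198690404126042658695437914948578457097339620306118259603854893342143013809750477479756057094824453359433238603838416482757515066530622880894782473317822209130785345419677169504031651796093979708396104931090195923049353492974640932213025917413681705163315883651612334446131505864551232423560462021958646554987355566354737374458844469694300160)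

noncomputable def rc0 : Nat := (nat_lit 357411379201570620554599821831478485705409712861758636537066388987597291019859183658686577523449380497079954541132398431553694242527126314793311461839484331789518457875969724236419017912306521643255315700371328611347783402475289984136204984768711272119314961855115663956286985501816121274313661767402124956712009267069074068792102661644746514952254775687565307805918593332534570906777155667065055821053327869138965676702207199808828204858502426187316264774466001266728489822871487709126811865253965692299014590799341874962940020194535158199796624199442516561906741479972242052984391730937946880422755434975817745539543245597898199484555189043235893605084401344444687564318530940518971216436743911442859141477373398302949544937861850717290735914055703878387958430205696355580419661070935065300254230336933888727936027298377557039709672100069899736153214597719580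526689797781272106459564804589045335185664179380683979854515876600714264896981420571280559123410155754920712030914469792308459352199985272951370038227154465370062628770434874481665569319578107898538235627759925562997980628785683769728917319477796764362493773983840828041732922281305512931762565845134797959314318600745428146608110525234243421309115665875301244099599937979617413448635305967615742762367724226269970999491316040396737441315772714933277293329173894062771277886350414069766789557166452821005976772684241490940525408606915848648562844895395088452060551952206115832805372607237505843083653799866455666314810857912593241267738897998675666616586990748839602472095590362034783565613531407386847673835506637693056230447896947070120393218185615799908086294599805204683885173413361000899416086790223209624612345319828416629972471317383574158328649898915241128329874670074677481218566820361841689532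938849263641705342070559112111643879477683280716904296014488959866811869278919966176462389730223409468488038461378934512771518710519032263411414442827214890281014206297306588242130733612576569822418252924373642945392195547711465390157834996057236936032786850362943424996295529776023264858013761676983043224319780602542526741611950539230972508855605302072264904889653752487012437946995808493860751090017193633371016615086312863077674440248211615071831147470100633030392435349290623657975783241707794610997937970426290653760325988708492411580121658145516510030991928146625309830936463766392879786000117536393749801488895297326351339383773066411846868062836289017939322876675500471489516398398559051913597595208503715495529951831538725601717290328489866667098251522429577913487959964679720757861571198727728367881834165431649766180752819437480362381480004853636530955686553756286812150546041671107954879085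1579689695686882796861885317769916076398055001954070522599632482752369246212126118969034897032327137542923729344887058997030706883736927181591927333093386428359934565313535725331278809287130056649796588294233025098847282291711897839629229602510413280479178917744725798423211585289096323166541485503835309918116885549315871946252026592450409284827244302741738984521960240132272556564647726520399216516438205510968043926090696896548182760928972019267623961823530778357067107961081139968847875410030695578723996091912069338765425837749826585502770838119838889958505971969068190836411055994010515977198052029919752876998714980555871939052978526294862089048817446744734149175675495479159081215181669696020516378418981920647766535693042638451177155826672823193447225204262063373297050470830368494290943991667817540799564245031888051115922712263536640081413012847373747109922328102969633658071707356034244206522473505554587220495238987498675775058827410009457384209623413856778777105355469769647777031433208437280284008353954197023174367059294571472607780565234298024344476217583783846837306318963668402937819517752419799700724814676113272255406055864261012193072064642471961618925610055574141210172850176)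

noncomputable def rc1 : Nat := (nat_lit 390043366467616303589889390656091853972326358850074150037273083751285842657559212083827769507529445643785885589855516100279353713726640743215382898277531383042737329878482286383755282042910467391875271048888755323471222027539958042193331484191277125643132237661287600410020358265219345982720168317333666784899932816675181654938813019091263478955736930905685411786976801128385093049280380121264801974010086286999554330833343238354272028829217412858966790810629868200922624666264854935599748889842952551630069864736104023288004717626668137468533791267590801630729423852815250947500011962283448027996108238295717714245218928114371174473387952791511946902958480592242980578792927117220742510150817629891076303877566400769724959143311784915826989932312965968562723404020859969969247866118258052505233100231829077558910268752367771024091012298834175307342176608231652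271561867401969185180367577716083822566416312904745355809984027302170361918426041507790952108726816988340776471588855632217125563677556117486109200107018527836620311445015323442044501512410887451658645257713655815591751844170780106456068116901255479477735345413419719411803392109907306197643785735593641837448647247748622022966592300500128145460042053534485427017962445023558648214845385039120043814322414471379145235066017194481129384894366222465797875513967059453629207695974492182208452234947479252150705812652893354977279405709896779354209087549965494432272371050961106565632752569457830774932089976818684284509253437861476794740761493365104242542567669265716088847039418107223971273754532417089878531717479860197721490966238926630976133563628826062170630106581123571551840784224516532597719535683065759815104314900897135495782381554693212443662163129802855016502158931049718634197353552624683635805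372933531455059522460530408288302430615756538696620251259807504806968447578409381968727017986579265036995982742228562584660602254418206426691930643753712102177335135985848051895231293842527750692888919689330351201490585081892453134803830302684197062159334057764177238626761969225105965768326283058236526999825584433645341693648737456433070165545307175909642700120388803010442275863018824943158241149646812051771055904187163328456685035196050592246889145366565552652293606998391505106107227309568564277337351148161233011877697072472018910680105285681549271299710772574165643866357546235013194341528247199326438177812612511874593219874539641329434610174675200884687398596323111370967299430460153320621442489905580168924033961169653952243140345593521402916737980537809159202043145330321363004582163534017287796404347152483615898197440444957262491602464766613760136929606129976369093725537873963603754895800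6395833214511028198167739536297021246068103263747774116785233257636782269123831834506020602986754472790092517614216983978698274570388440377419692311060092306240849956225883590827657940871611204081446292360464901072046657887519539639144571348128404751524669596897061126957668273662856834734453071541819610436847509946822494736804405516822296330552505704823908065832509873825697541313038406936512393463408827046021362762126215530496136704320409749108434008703607660528264266878093334740622879413685550996636233188287979865434149610312116881251142177373701895218321410861849811021219451374043424055875764748927873388997667707588862215246208451181398999432845814742404379534738898177045006182423669955550304873521578057919583064007014791506631770310608745266827284842976838716944350868018866852041410204879780354503983971892318392137242567838563796925995613655198690404126042658695437914948578457097339620306118259603854893342143013809750477479756057094824453359433238603838416482757515066530622880894782473317822209130785345419677169504031651796093979708396104931090195923049353492974640932213025917413681705163315883651612334446131505864551232423560462021958646554987355566354737374458844469694300160)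

end Vale.Agent.Lib.P154.Chain.D8.S2
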